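import Crest.Agent.R234.Vf2_884

/-!
Row 234, base library (helper884), file 3: radial test fields, the monotonicity identity for
general stationary varifolds.
-/

set_option autoImplicit false

open MeasureTheory Crest.GeometryTopology.Submanifold Filter Topology
open scoped ENNReal InnerProductSpace

noncomputable section

namespace Crest.Agent.R234.Vf_884

variable {m k : ℕ}

theorem tr_smulRight_comp (c : Euc k →L[ℝ] ℝ) (y : Euc k) (P : L k) :
    tr ((c.smulRight y) ∘L P) = c (P y) := by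
  rw [tr_eq_sum]
  have h : y = ∑ i, ⟪stdVec k i, y⟫_ℝ • stdVec k i := by
    ext j
    simp [stdVec, Pi.single_apply, EuclideanSpace.inner_single_left]
  conv_rhs => rw [h, map_sum, map_sum]
  refine Finset.sum_congr rfl fun i _ => ?_
  rw [map_smul, map_smul, smul_eq_mul, ContinuousLinearMap.comp_apply,
    ContinuousLinearMap.smulRight_apply, inner_smul_right]
  ring

/-- derivative of a radial field. -/
theorem hasFDerivAt_radial {g : ℝ → ℝ} (hg : ContDiff ℝ 1 g) (z x : Euc k) :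
    HasFDerivAt (fun x : Euc k => g (‖x - z‖ ^ 2) • (x - z))
      (g (‖x - z‖ ^ 2) • ContinuousLinearMap.id ℝ (Euc k) +
        ((2 * deriv g (‖x - z‖ ^ 2)) • innerSL ℝ (x - z)).smulRight (x - z)) x := by
  have h1 : HasFDerivAt (fun x : Euc k => x - z) (ContinuousLinearMap.id ℝ (Euc k)) x :=
    (hasFDerivAt_id x).sub_const z
  have h2 : HasFDerivAt (fun x : Euc k => ‖x - z‖ ^ 2) (2 • innerSL ℝ (x - z)) x := by
    have := h1.norm_sq
    simpa using this
  have h3 : HasDerivAt g (deriv g (‖x - z‖ ^ 2)) (‖x - z‖ ^ 2) :=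
    (hg.differentiable one_ne_zero _).hasDerivAt
  have h4 : HasFDerivAt (fun x : Euc k => g (‖x - z‖ ^ 2))
      (deriv g (‖x - z‖ ^ 2) • (2 • innerSL ℝ (x - z))) x := h3.comp_hasFDerivAt x h2
  have h6 : (2 * deriv g (‖x - z‖ ^ 2)) • innerSL ℝ (x - z)
      = deriv g (‖x - z‖ ^ 2) • (2 • innerSL ℝ (x - z)) := by
    rw [smul_comm (deriv g _) (2 : ℕ), ← Nat.cast_smul_eq_nsmul ℝ, smul_smul]
    norm_num
  rw [h6]
  exact h4.smul h1

theorem contDiff_radial {g : ℝ → ℝ} (hg : ContDiff ℝ 1 g) (z : Euc k) :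
    ContDiff ℝ 1 (fun x : Euc k => g (‖x - z‖ ^ 2) • (x - z)) := by
  have h1 : ContDiff ℝ 1 (fun x : Euc k => x - z) := contDiff_id.sub contDiff_const
  exact (hg.comp (h1.norm_sq ℝ)).smul h1

theorem tr_radial {g : ℝ → ℝ} (hg : ContDiff ℝ 1 g) (z x : Euc k) {P : L k} (hP : P ∈ G m k) :
    tr ((fderiv ℝ (fun x : Euc k => g (‖x - z‖ ^ 2) • (x - z)) x) ∘L P)
      = m * g (‖x - z‖ ^ 2) + 2 * deriv g (‖x - z‖ ^ 2) * ‖P (x - z)‖ ^ 2 := by
  rw [(hasFDerivAt_radial hg z x).fderiv, ContinuousLinearMap.add_comp, map_add,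
    tr_smulRight_comp]
  have h1 : (g (‖x - z‖ ^ 2) • ContinuousLinearMap.id ℝ (Euc k)) ∘L P = g (‖x - z‖ ^ 2) • P := by
    ext v; simp
  rw [h1, map_smul, hP.2.2, smul_apply, innerSL_apply_apply,
    real_inner_comm, G_inner_self hP, smul_eq_mul, smul_eq_mul]
  ring

variable {U : Set (Euc k)} {V : Measure (Euc k × L k)}

theorem tsupport_radial {g : ℝ → ℝ} {z : Euc k} {ρ : ℝ} (hρ : 0 ≤ ρ)
    (hg0 : ∀ t, ρ ^ 2 ≤ t → g t = 0) :
    tsupport (fun x : Euc k => g (‖x - z‖ ^ 2) • (x - z)) ⊆ Metric.closedBall z ρ := by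
  refine closure_minimal ?_ Metric.isClosed_closedBall
  intro x hx
  by_contra hcon
  apply hx
  rw [Metric.mem_closedBall, dist_eq_norm, not_le] at hcon
  simp only
  rw [hg0 _ (by gcongr), zero_smul]



end Crest.Agent.R234.Vf_884
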