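import Crest.Agent.R234.Vc1_164
import Crest.Agent.R234.Vf3_884

-- ▼ part R234/Vc2_164
section

/-!
Row 234, leaf VF-COMP, file 2: semicontinuity of vague limits on compact and open sets, continuity
sets, uniqueness of limits.
-/

set_option autoImplicit false
set_option linter.unusedSectionVars false

open MeasureTheory Filter Topology Set
open scoped ENNReal NNReal CompactlySupported

namespace Crest.Agent.R234.Vc_164

variable {X : Type*} {ι : Type*} [TopologicalSpace X] [T2Space X] [LocallyCompactSpace X]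
  [MeasurableSpace X] [BorelSpace X]

variable {l : Filter ι} {W : Set X} {V : ι → Measure X} {V₀ : Measure X}

/-- convergence of the lower integrals of nonnegative test functions. -/
theorem VConv.lintegral (h : VConv l W V V₀) {f : X → ℝ} (hf : Continuous f)
    (hfc : HasCompactSupport f) (hfW : tsupport f ⊆ W) (h0 : ∀ x, 0 ≤ f x) :
    Tendsto (fun i => ∫⁻ x, ENNReal.ofReal (f x) ∂(V i)) l
      (𝓝 (∫⁻ x, ENNReal.ofReal (f x) ∂V₀)) := by
  obtain ⟨i0, i1⟩ := h.integrable hf hfc hfW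
  have h1 := (ENNReal.continuous_ofReal.tendsto _).comp (h.lim f hf hfc hfW)
  rw [ofReal_integral_eq_lintegral_ofReal i0 (Eventually.of_forall h0)] at h1
  refine h1.congr' ?_
  filter_upwards [i1] with i hi
  exact ofReal_integral_eq_lintegral_ofReal hi (Eventually.of_forall h0)

theorem lintegral_cutoff_ge {μ : Measure X} {K : Set X} (hK : IsCompact K) {f : X → ℝ}
    (hf : ∀ x ∈ K, f x = 1) : μ K ≤ ∫⁻ x, ENNReal.ofReal (f x) ∂μ := by
  calc μ K = ∫⁻ _x in K, 1 ∂μ := by simp
    _ = ∫⁻ x in K, ENNReal.ofReal (f x) ∂μ := by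
        refine setLIntegral_congr_fun hK.measurableSet fun x hx => ?_
        simp [hf x hx]
    _ ≤ ∫⁻ x, ENNReal.ofReal (f x) ∂μ := setLIntegral_le_lintegral _ _

theorem lintegral_cutoff_le {μ : Measure X} {O : Set X} (hO : MeasurableSet O) {f : X → ℝ}
    (hf : tsupport f ⊆ O) (hf1 : ∀ x, f x ≤ 1) : ∫⁻ x, ENNReal.ofReal (f x) ∂μ ≤ μ O := by
  calc ∫⁻ x, ENNReal.ofReal (f x) ∂μ ≤ ∫⁻ x, O.indicator 1 x ∂μ := by
        refine lintegral_mono fun x => ?_
        by_cases hx : x ∈ O
        · rw [indicator_of_mem hx]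
          simpa using hf1 x
        · rw [indicator_of_notMem hx, image_eq_zero_of_notMem_tsupport fun h => hx (hf h)]
          simp
    _ = μ O := by simp [lintegral_indicator_one hO]

/-- upper semicontinuity on compact sets. -/
theorem VConv.compact_lt [SecondCountableTopology X] (h : VConv l W V V₀) (hW : IsOpen W)
    {K : Set X} (hK : IsCompact K) (hKW : K ⊆ W) {c : ℝ≥0∞} (hc : V₀ K < c) :
    ∀ᶠ i in l, V i K < c := by
  obtain ⟨K₁, hK₁, hKK₁, hK₁W⟩ := exists_compact_between hK hW hKW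
  have hfin : IsFiniteMeasure (V₀.restrict K₁) := ⟨by simpa using h.fin K₁ hK₁ hK₁W⟩
  have h1 : V₀.restrict K₁ K < c := by
    rw [Measure.restrict_apply hK.measurableSet,
      inter_eq_left.2 (hKK₁.trans interior_subset)]
    exact hc
  obtain ⟨O, hKO, hO, hOc⟩ := K.exists_isOpen_lt_of_lt _ h1
  have hO' : IsOpen (O ∩ interior K₁) := hO.inter isOpen_interior
  obtain ⟨f, hf1, hfc, hfO, hf01⟩ := exists_cutoff hK hO' (subset_inter hKO hKK₁)
  have h2 : ∫⁻ x, ENNReal.ofReal (f x) ∂V₀ < c := by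
    refine (lintegral_cutoff_le hO'.measurableSet hfO fun x => (hf01 x).2).trans_lt ?_
    refine lt_of_le_of_lt ?_ hOc
    rw [Measure.restrict_apply hO.measurableSet]
    exact measure_mono (inter_subset_inter_right _ interior_subset)
  have h3 := h.lintegral f.continuous hfc
    (hfO.trans (inter_subset_right.trans (interior_subset.trans hK₁W))) fun x => (hf01 x).1
  filter_upwards [(tendsto_order.1 h3).2 _ h2] with i hi
  exact (lintegral_cutoff_ge hK hf1).trans_lt hi

/-- lower semicontinuity on open sets. -/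
theorem VConv.lt_open [SecondCountableTopology X] (h : VConv l W V V₀) (hW : IsOpen W)
    {O : Set X} (hO : IsOpen O) {c : ℝ≥0∞} (hc : c < V₀ O) : ∀ᶠ i in l, c < V i O := by
  have h1 : c < V₀ (O ∩ W) := by
    refine hc.trans_le ?_
    calc V₀ O ≤ V₀ (O ∩ W ∪ Wᶜ) := measure_mono fun x hx => by
          by_cases hxW : x ∈ W
          · exact Or.inl ⟨hx, hxW⟩
          · exact Or.inr hxW
      _ ≤ V₀ (O ∩ W) + V₀ Wᶜ := measure_union_le _ _
      _ = V₀ (O ∩ W) := by rw [h.off, add_zero]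
  obtain ⟨K, hKc, hKs, hKm, hKu, -⟩ := exists_exhaustion (hO.inter hW)
  rw [← hKu, hKm.measure_iUnion] at h1
  obtain ⟨n, hn⟩ := lt_iSup_iff.1 h1
  obtain ⟨f, hf1, hfc, hfO, hf01⟩ := exists_cutoff (hKc n) (hO.inter hW) (hKs n)
  have h2 : c < ∫⁻ x, ENNReal.ofReal (f x) ∂V₀ := hn.trans_le (lintegral_cutoff_ge (hKc n) hf1)
  have h3 := h.lintegral f.continuous hfc (hfO.trans inter_subset_right) fun x => (hf01 x).1
  filter_upwards [(tendsto_order.1 h3).1 _ h2] with i hi
  exact hi.trans_le (lintegral_cutoff_le hO.measurableSet (hfO.trans inter_subset_left)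
    fun x => (hf01 x).2)



theorem VConv.open_le [SecondCountableTopology X] [l.NeBot] (h : VConv l W V V₀) (hW : IsOpen W)
    {O : Set X} (hO : IsOpen O) {c : ℝ≥0∞} (hc : ∃ᶠ i in l, V i O ≤ c) : V₀ O ≤ c := by
  by_contra hlt
  rw [not_le] at hlt
  have h1 := h.lt_open hW hO hlt
  obtain ⟨i, hi1, hi2⟩ := (hc.and_eventually h1).exists
  exact absurd hi2 (not_lt.2 hi1)

theorem VConv.le_compact [SecondCountableTopology X] [l.NeBot] (h : VConv l W V V₀)
    (hW : IsOpen W) {K : Set X} (hK : IsCompact K) (hKW : K ⊆ W) {c : ℝ≥0∞}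
    (hc : ∃ᶠ i in l, c ≤ V i K) : c ≤ V₀ K := by
  by_contra hlt
  rw [not_le] at hlt
  have h1 := h.compact_lt hW hK hKW hlt
  obtain ⟨i, hi1, hi2⟩ := (hc.and_eventually h1).exists
  exact absurd hi2 (not_lt.2 hi1)

/-- a set which is negligible for all `V i` and whose part in `W` is open is negligible in the
limit. -/
theorem VConv.open_null [SecondCountableTopology X] [l.NeBot] (h : VConv l W V V₀)
    (hW : IsOpen W) {O : Set X} (hO : IsOpen O) (hc : ∃ᶠ i in l, V i O = 0) : V₀ O = 0 :=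
  le_antisymm (h.open_le hW hO (hc.mono fun _ hi => hi.le)) bot_le


end Crest.Agent.R234.Vc_164
end

-- ▼ part R234/Vc3_164
section

/-!
Row 234, leaf VF-COMP, file 3: uniqueness of vague limits; convergence of integrals of bounded
compactly supported functions which are continuous almost everywhere for the limit.
-/

set_option autoImplicit false
set_option linter.unusedSectionVars false

open MeasureTheory Filter Topology Set
open scoped ENNReal NNReal CompactlySupported

namespace Crest.Agent.R234.Vc_164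

variable {X : Type*} {ι : Type*}

section Unique

variable [TopologicalSpace X] [T2Space X] [LocallyCompactSpace X]
  [MeasurableSpace X] [BorelSpace X]

variable {l : Filter ι} {W : Set X} {V : ι → Measure X} {V₀ V₁ : Measure X}

/-- two measures, finite on compact subsets of `W` and carried by `W`, with the same integrals
against test functions are equal. -/
theorem ext_of_cc [SecondCountableTopology X] (hW : IsOpen W)
    (h0 : ∀ K, IsCompact K → K ⊆ W → V₀ K < ⊤) (h0' : V₀ Wᶜ = 0)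
    (h1 : ∀ K, IsCompact K → K ⊆ W → V₁ K < ⊤) (h1' : V₁ Wᶜ = 0)
    (h : ∀ f : X → ℝ, Continuous f → HasCompactSupport f → tsupport f ⊆ W →
      ∫ x, f x ∂V₀ = ∫ x, f x ∂V₁) : V₀ = V₁ := by
  have hme : MeasurableEmbedding (Subtype.val : W → X) :=
    MeasurableEmbedding.subtype_coe hW.measurableSet
  have : LocallyCompactSpace W := hW.locallyCompactSpace
  have key : ∀ μ : Measure X, (∀ K, IsCompact K → K ⊆ W → μ K < ⊤) →
      (μ.comap (Subtype.val : W → X)).Regular := by
    intro μ hμ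
    have : IsFiniteMeasureOnCompacts (μ.comap (Subtype.val : W → X)) := by
      refine ⟨fun K hK => ?_⟩
      rw [hme.comap_apply]
      exact hμ _ (hK.image continuous_subtype_val) (Subtype.coe_image_subset _ _)
    infer_instance
  have r0 := key V₀ h0
  have r1 := key V₁ h1
  have hint : ∀ (μ : Measure X), μ Wᶜ = 0 → ∀ f : C_c(W, ℝ),
      ∫ x, f x ∂(μ.comap (Subtype.val : W → X)) = ∫ x, ext0 (W := W) f x ∂μ := by
    intro μ hμ f
    have e1 : ∫ x, ext0 (W := W) f x ∂μ = ∫ x in W, ext0 (W := W) f x ∂μ :=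
      (setIntegral_eq_integral_of_forall_compl_eq_zero fun x hx => ext0_notMem _ hx).symm
    rw [e1, ← integral_subtype_comap hW.measurableSet]
    refine integral_congr_ae (Eventually.of_forall fun x => ?_)
    exact (ext0_val (W := W) f x).symm
  have e : V₀.comap (Subtype.val : W → X) = V₁.comap (Subtype.val : W → X) := by
    refine Measure.ext_of_integral_eq_on_compactlySupported fun f => ?_
    rw [hint V₀ h0' f, hint V₁ h1' f]
    exact h _ (ext0_continuous hW f) (ext0_hasCompactSupport f) (ext0_tsupport f)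
  have key2 : ∀ μ : Measure X, μ Wᶜ = 0 →
      (μ.comap (Subtype.val : W → X)).map Subtype.val = μ := by
    intro μ hμ
    rw [hme.map_comap, Subtype.range_coe]
    exact Measure.restrict_eq_self_of_ae_mem (by rw [ae_iff]; exact hμ)
  rw [← key2 V₀ h0', ← key2 V₁ h1', e]

theorem VConv.unique [SecondCountableTopology X] [l.NeBot] (hW : IsOpen W)
    (h : VConv l W V V₀) (h' : VConv l W V V₁) : V₀ = V₁ :=
  ext_of_cc hW h.fin h.off h'.fin h'.off fun f hf hfc hfW =>
    tendsto_nhds_unique (h.lim f hf hfc hfW) (h'.lim f hf hfc hfW)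

end Unique


section Envelope

variable [PseudoMetricSpace X]


variable {g : X → ℝ} {B : ℝ}








end Envelope

section Portmanteau

variable [PseudoMetricSpace X] [T2Space X] [LocallyCompactSpace X]
  [MeasurableSpace X] [BorelSpace X]

variable {l : Filter ι} {W : Set X} {V : ι → Measure X} {V₀ : Measure X}



end Portmanteau

end Crest.Agent.R234.Vc_164
end

-- ▼ part R234/Vc4_164
section

/-!
Row 234, leaf VF-COMP, file 4: compactness for general varifolds (language of `Vf0_884`).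
Convergence of varifolds in `U` is `VConv l (U ×ˢ univ) V V₀`.
-/

set_option autoImplicit false
set_option linter.unusedSectionVars false

open MeasureTheory Filter Topology Set
open scoped ENNReal NNReal CompactlySupported
open Crest.GeometryTopology.Submanifold Crest.Agent.R234.Vf_884

namespace Crest.Agent.R234.Vc_164

variable {m k : ℕ} {ι : Type*} {l : Filter ι} {U : Set (Euc k)}
  {V : ι → Measure (Euc k × L k)} {V₀ : Measure (Euc k × L k)}

theorem isOpen_prod_univ (hU : IsOpen U) : IsOpen (U ×ˢ (univ : Set (L k))) :=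
  hU.prod isOpen_univ

/-- mass of `K ×ˢ univ` for a measure concentrated on `G m k`. -/
theorem conc_prod_univ {μ : Measure (Euc k × L k)} (hc : ∀ᵐ p ∂μ, p.2 ∈ G m k)
    (K : Set (Euc k)) : μ (K ×ˢ univ) = μ (K ×ˢ G m k) := by
  refine measure_congr ?_
  filter_upwards [hc] with p hp
  refine propext ⟨fun h => ?_, fun h => ?_⟩
  · exact ⟨h.1, hp⟩
  · exact ⟨h.1, mem_univ _⟩

theorem exists_prod_subset {S : Set (Euc k × L k)} (hS : IsCompact S)
    (hSU : S ⊆ U ×ˢ (univ : Set (L k))) :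
    ∃ K : Set (Euc k), IsCompact K ∧ K ⊆ U ∧ S ⊆ K ×ˢ univ :=
  ⟨Prod.fst '' S, hS.image continuous_fst, by rintro _ ⟨p, hp, rfl⟩; exact (hSU hp).1,
    fun p hp => ⟨⟨p, hp, rfl⟩, mem_univ _⟩⟩

/-- concentration on the Grassmannian passes to the limit. -/
theorem VConv.conc [l.NeBot] (h : VConv l (U ×ˢ (univ : Set (L k))) V V₀) (hU : IsOpen U)
    (hc : ∃ᶠ i in l, ∀ᵐ p ∂(V i), p.2 ∈ G m k) : ∀ᵐ p ∂V₀, p.2 ∈ G m k := by
  rw [ae_iff]
  refine h.open_null (isOpen_prod_univ hU) ?_ ?_
  · exact (isClosed_G m k).isOpen_compl.preimage continuous_snd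
  · refine hc.mono fun i hi => ?_
    exact ae_iff.1 hi

theorem VConv.fin_prod (h : VConv l (U ×ˢ (univ : Set (L k))) V V₀)
    (hc : ∀ᵐ p ∂V₀, p.2 ∈ G m k) {K : Set (Euc k)} (hK : IsCompact K) (hKU : K ⊆ U) :
    V₀ (K ×ˢ univ) < ⊤ := by
  rw [conc_prod_univ hc]
  exact h.fin _ (hK.prod (isCompact_G m k)) (prod_mono hKU (subset_univ _))


/-- a cut-off function on the space of operators. -/
theorem exists_cutoff_G (m k : ℕ) : ∃ ψ : C(L k, ℝ), (∀ P ∈ G m k, ψ P = 1) ∧
    HasCompactSupport ψ ∧ ∀ P, 0 ≤ ψ P ∧ ψ P ≤ 1 := by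
  obtain ⟨f, h1, h2, -, h4⟩ := exists_cutoff (isCompact_G m k) isOpen_univ (subset_univ _)
  exact ⟨f, h1, h2, h4⟩

/-- convergence for continuous functions on `ℝ^k × L k` supported over a compact subset of `U`. -/
theorem VConv.lim_fst (h : VConv l (U ×ˢ (univ : Set (L k))) V V₀)
    (hc : ∀ᶠ i in l, ∀ᵐ p ∂(V i), p.2 ∈ G m k) (hc₀ : ∀ᵐ p ∂V₀, p.2 ∈ G m k)
    {f : Euc k × L k → ℝ} (hf : Continuous f) {K : Set (Euc k)} (hK : IsCompact K)
    (hKU : K ⊆ U) (hfK : ∀ p : Euc k × L k, p.1 ∉ K → f p = 0) :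
    Tendsto (fun i => ∫ p, f p ∂(V i)) l (𝓝 (∫ p, f p ∂V₀)) := by
  obtain ⟨ψ, hψ1, hψc, -⟩ := exists_cutoff_G m k
  have hg : Continuous fun p : Euc k × L k => f p * ψ p.2 :=
    hf.mul (ψ.continuous.comp continuous_snd)
  have hsub : tsupport (fun p : Euc k × L k => f p * ψ p.2) ⊆ K ×ˢ tsupport ψ := by
    refine closure_minimal ?_ (hK.isClosed.prod (isClosed_tsupport _))
    intro p hp
    rw [Function.mem_support] at hp
    refine ⟨?_, ?_⟩
    · by_contra hpK
      exact left_ne_zero_of_mul hp (hfK p hpK)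
    · exact subset_tsupport _ (right_ne_zero_of_mul hp)
  have hcs : HasCompactSupport fun p : Euc k × L k => f p * ψ p.2 :=
    (hK.prod hψc).of_isClosed_subset (isClosed_tsupport _) hsub
  have h1 := h.lim _ hg hcs (hsub.trans (prod_mono hKU (subset_univ _)))
  have h2 : ∀ μ : Measure (Euc k × L k), (∀ᵐ p ∂μ, p.2 ∈ G m k) →
      ∫ p, f p * ψ p.2 ∂μ = ∫ p, f p ∂μ := by
    intro μ hμ
    refine integral_congr_ae ?_
    filter_upwards [hμ] with p hp
    rw [hψ1 _ hp, mul_one]
  rw [h2 V₀ hc₀] at h1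
  refine h1.congr' ?_
  filter_upwards [hc] with i hi
  exact h2 _ hi

theorem tsupport_fderiv_subset' {X : Euc k → Euc k} {x : Euc k} (hx : x ∉ tsupport X) :
    fderiv ℝ X x = 0 := by
  have h1 : x ∉ tsupport (fderiv ℝ X) := fun h => hx (tsupport_fderiv_subset ℝ h)
  exact image_eq_zero_of_notMem_tsupport h1

theorem continuous_tr_fderiv {X : Euc k → Euc k} (hX : ContDiff ℝ 1 X) :
    Continuous fun p : Euc k × L k => tr ((fderiv ℝ X p.1) ∘L p.2) :=
  tr.continuous.comp (((hX.continuous_fderiv one_ne_zero).comp continuous_fst).clm_comp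
    continuous_snd)

/-- convergence of first variations. -/
theorem VConv.lim_fv (h : VConv l (U ×ˢ (univ : Set (L k))) V V₀)
    (hc : ∀ᶠ i in l, ∀ᵐ p ∂(V i), p.2 ∈ G m k) (hc₀ : ∀ᵐ p ∂V₀, p.2 ∈ G m k)
    {X : Euc k → Euc k} (hX : ContDiff ℝ 1 X) (hXc : HasCompactSupport X)
    (hXU : tsupport X ⊆ U) :
    Tendsto (fun i => ∫ p, tr ((fderiv ℝ X p.1) ∘L p.2) ∂(V i)) l
      (𝓝 (∫ p, tr ((fderiv ℝ X p.1) ∘L p.2) ∂V₀)) := by
  refine h.lim_fst hc hc₀ (continuous_tr_fderiv hX) hXc hXU fun p hp => ?_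
  rw [tsupport_fderiv_subset' hp]
  simp

/-- limits of (asymptotically) stationary varifolds are stationary. -/
theorem VConv.stat [l.NeBot] (h : VConv l (U ×ˢ (univ : Set (L k))) V V₀) (hU : IsOpen U)
    (hc : ∀ᶠ i in l, ∀ᵐ p ∂(V i), p.2 ∈ G m k)
    (hs : ∀ X : Euc k → Euc k, ContDiff ℝ 1 X → HasCompactSupport X → tsupport X ⊆ U →
      Tendsto (fun i => ∫ p, tr ((fderiv ℝ X p.1) ∘L p.2) ∂(V i)) l (𝓝 0)) :
    Stat m k U V₀ where
  conc := h.conc hU hc.frequently
  fin K hK hKU := h.fin_prod (h.conc hU hc.frequently) hK hKU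
  stat X hX hXc hXU :=
    tendsto_nhds_unique (h.lim_fv hc (h.conc hU hc.frequently) hX hXc hXU) (hs X hX hXc hXU)

theorem VConv.stat_of_stat [l.NeBot] (h : VConv l (U ×ˢ (univ : Set (L k))) V V₀)
    (hU : IsOpen U) (hs : ∀ᶠ i in l, Stat m k U (V i)) : Stat m k U V₀ := by
  refine h.stat hU (hs.mono fun i hi => hi.conc) fun X hX hXc hXU => ?_
  refine tendsto_const_nhds.congr' ?_
  filter_upwards [hs] with i hi
  exact (hi.stat X hX hXc hXU).symm

/-- existence of limits along ultrafilters. -/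
theorem exists_limit (F : Ultrafilter ι) (hU : IsOpen U) (V : ι → Measure (Euc k × L k))
    (hc : ∀ᶠ i in (F : Filter ι), ∀ᵐ p ∂(V i), p.2 ∈ G m k)
    (hb : ∀ K : Set (Euc k), IsCompact K → K ⊆ U →
      ∃ C : ℝ≥0, ∀ᶠ i in (F : Filter ι), V i (K ×ˢ univ) ≤ C) :
    ∃ V₀, VConv (F : Filter ι) (U ×ˢ univ) V V₀ ∧ (∀ᵐ p ∂V₀, p.2 ∈ G m k) ∧
      ∀ K : Set (Euc k), IsCompact K → K ⊆ U → V₀ (K ×ˢ univ) < ⊤ := by
  obtain ⟨V₀, h⟩ := exists_vconv F (isOpen_prod_univ (k := k) hU) V (fun S hS hSU => by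
    obtain ⟨K, hK, hKU, hSK⟩ := exists_prod_subset hS hSU
    obtain ⟨C, hC⟩ := hb K hK hKU
    exact ⟨C, hC.mono fun i hi => (measure_mono hSK).trans hi⟩)
  exact ⟨V₀, h, h.conc hU hc.frequently,
    fun K hK hKU => h.fin_prod (h.conc hU hc.frequently) hK hKU⟩



end Crest.Agent.R234.Vc_164
end

-- ▼ part R234/Vc5_164

/-!
Row 234, leaf VF-COMP, file 5: rescalings (blow-ups) of general varifolds.
-/

set_option autoImplicit false
set_option linter.unusedSectionVars false

open MeasureTheory Filter Topology Set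
open scoped ENNReal NNReal CompactlySupported
open Crest.GeometryTopology.Submanifold Crest.Agent.R234.Vf_884

namespace Crest.Agent.R234.Vc_164

variable {m k : ℕ} {U : Set (Euc k)} {V : Measure (Euc k × L k)}

/-- the homothety `x ↦ (x - z) / r` on the position, identity on the plane. -/
noncomputable def hom (z : Euc k) (r : ℝ) (p : Euc k × L k) : Euc k × L k :=
  (r⁻¹ • (p.1 - z), p.2)

theorem continuous_hom (z : Euc k) (r : ℝ) : Continuous (hom z r) := by
  unfold hom
  fun_prop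

theorem measurable_hom (z : Euc k) (r : ℝ) : Measurable (hom z r) :=
  (continuous_hom z r).measurable

/-- the rescaled varifold `r^{-m} (hom z r)_# V`. -/
noncomputable def resc (m : ℕ) (z : Euc k) (r : ℝ) (V : Measure (Euc k × L k)) :
    Measure (Euc k × L k) :=
  ENNReal.ofReal ((r ^ m)⁻¹) • V.map (hom z r)

theorem hom_preimage_prod (z : Euc k) {r : ℝ} (hr : 0 < r) (K : Set (Euc k)) :
    hom z r ⁻¹' (K ×ˢ univ) = ((fun x => z + r • x) '' K) ×ˢ (univ : Set (L k)) := by
  ext p
  simp only [mem_preimage, hom, mem_prod, mem_univ, and_true, mem_image]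
  constructor
  · intro h
    refine ⟨_, h, ?_⟩
    rw [smul_smul, mul_inv_cancel₀ hr.ne', one_smul]
    abel
  · rintro ⟨x, hx, hxp⟩
    rw [← hxp, add_sub_cancel_left, smul_smul, inv_mul_cancel₀ hr.ne', one_smul]
    exact hx

theorem resc_prod_univ (m : ℕ) (z : Euc k) {r : ℝ} (hr : 0 < r) (V : Measure (Euc k × L k))
    {K : Set (Euc k)} (hK : MeasurableSet K) :
    resc m z r V (K ×ˢ univ) =
      ENNReal.ofReal ((r ^ m)⁻¹) * V (((fun x => z + r • x) '' K) ×ˢ univ) := by
  rw [resc, Measure.smul_apply, Measure.map_apply (measurable_hom z r) (hK.prod .univ),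
    hom_preimage_prod z hr, smul_eq_mul]


theorem image_ball (z x : Euc k) {r : ℝ} (hr : 0 < r) (ρ : ℝ) :
    (fun x => z + r • x) '' (Metric.ball x ρ) = Metric.ball (z + r • x) (r * ρ) := by
  ext y
  simp only [mem_image, Metric.mem_ball, dist_eq_norm]
  constructor
  · rintro ⟨w, hw, rfl⟩
    rw [add_sub_add_left_eq_sub, ← smul_sub, norm_smul, Real.norm_of_nonneg hr.le]
    gcongr
  · intro h
    refine ⟨r⁻¹ • (y - z), ?_, ?_⟩
    · have h1 : r⁻¹ • (y - z) - x = r⁻¹ • (y - (z + r • x)) := by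
        rw [← sub_sub, smul_sub r⁻¹ (y - z) (r • x), smul_smul, inv_mul_cancel₀ hr.ne', one_smul]
      rw [h1, norm_smul, norm_inv, Real.norm_of_nonneg hr.le, inv_mul_lt_iff₀ hr]
      exact h
    · rw [smul_smul, mul_inv_cancel₀ hr.ne', one_smul]
      abel


theorem resc_ball (m : ℕ) (z x : Euc k) {r : ℝ} (hr : 0 < r) (ρ : ℝ)
    (V : Measure (Euc k × L k)) :
    resc m z r V (Metric.ball x ρ ×ˢ univ) =
      ENNReal.ofReal ((r ^ m)⁻¹) * V (Metric.ball (z + r • x) (r * ρ) ×ˢ univ) := by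
  rw [resc_prod_univ m z hr V Metric.isOpen_ball.measurableSet, image_ball z x hr]

theorem resc_conc (z : Euc k) (r : ℝ) (hc : ∀ᵐ p ∂V, p.2 ∈ G m k) (m' : ℕ) :
    ∀ᵐ p ∂(resc m' z r V), p.2 ∈ G m k := by
  refine Measure.ae_smul_measure ?_ _
  rw [ae_map_iff (measurable_hom z r).aemeasurable
    ((measurableSet_G m k).preimage measurable_snd)]
  exact hc

theorem integral_resc (m : ℕ) (z : Euc k) {r : ℝ} (hr : 0 < r) (V : Measure (Euc k × L k))
    {f : Euc k × L k → ℝ} (hf : AEStronglyMeasurable f (V.map (hom z r))) :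
    ∫ p, f p ∂(resc m z r V) = (r ^ m)⁻¹ * ∫ p, f (hom z r p) ∂V := by
  rw [resc, integral_smul_measure, integral_map (measurable_hom z r).aemeasurable hf,
    ENNReal.toReal_ofReal (by positivity), smul_eq_mul]

/-- rescalings of stationary varifolds are stationary. -/
theorem resc_stat (z : Euc k) {r : ℝ} (hr : 0 < r) (h : Stat m k U V) :
    Stat m k ((fun x => z + r • x) ⁻¹' U) (resc m z r V) where
  conc := resc_conc z r h.conc m
  fin K hK hKU := by
    rw [resc_prod_univ m z hr V hK.measurableSet]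
    refine ENNReal.mul_lt_top ENNReal.ofReal_lt_top ?_
    refine h.fin _ (hK.image (by fun_prop)) ?_
    rintro _ ⟨x, hx, rfl⟩
    exact hKU hx
  stat X hX hXc hXU := by
    rw [integral_resc m z hr V (continuous_tr_fderiv hX).aestronglyMeasurable]
    let Y : Euc k → Euc k := fun x => X (r⁻¹ • (x - z))
    have hY : ContDiff ℝ 1 Y := hX.comp (by fun_prop)
    let e : Euc k ≃ₜ Euc k := (Homeomorph.subRight z).trans (Homeomorph.smulOfNeZero r⁻¹
      (inv_ne_zero hr.ne'))
    have hYe : Y = X ∘ e := rfl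
    have hYc : HasCompactSupport Y := by
      rw [hYe]
      exact hXc.comp_homeomorph e
    have hYU : tsupport Y ⊆ U := by
      rw [hYe, tsupport_comp_eq_preimage]
      intro x hx
      have h1 := hXU hx
      simp only [mem_preimage] at h1
      have h2 : z + r • e x = x := by
        change z + r • (r⁻¹ • (x - z)) = x
        rw [smul_smul, mul_inv_cancel₀ hr.ne', one_smul]
        abel
      rwa [h2] at h1
    have h1 := h.stat Y hY hYc hYU
    have h2 : ∀ x, fderiv ℝ Y x = r⁻¹ • fderiv ℝ X (r⁻¹ • (x - z)) := by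
      intro x
      have hd : DifferentiableAt ℝ X (r⁻¹ • (x - z)) := hX.differentiable one_ne_zero _
      have h3 : HasFDerivAt (fun x : Euc k => r⁻¹ • (x - z))
          (r⁻¹ • ContinuousLinearMap.id ℝ (Euc k)) x :=
        ((hasFDerivAt_id x).sub_const z).const_smul r⁻¹
      have h4 := hd.hasFDerivAt.comp x h3
      have h5 := h4.fderiv
      change fderiv ℝ (X ∘ fun x => r⁻¹ • (x - z)) x = _
      rw [h5]
      ext y
      simp
    simp_rw [h2] at h1
    have h3 : ∀ p : Euc k × L k, tr ((r⁻¹ • fderiv ℝ X (r⁻¹ • (p.1 - z))) ∘L p.2) =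
        r⁻¹ * tr ((fderiv ℝ X (hom z r p).1) ∘L (hom z r p).2) := by
      intro p
      rw [ContinuousLinearMap.smul_comp, map_smul, smul_eq_mul]
      rfl
    simp_rw [h3] at h1
    rw [integral_const_mul] at h1
    have h4 : ∫ p, tr ((fderiv ℝ X (hom z r p).1) ∘L (hom z r p).2) ∂V = 0 := by
      rcases mul_eq_zero.1 h1 with h | h
      · exact absurd h (inv_ne_zero hr.ne')
      · exact h
    rw [h4, mul_zero]







end Crest.Agent.R234.Vc_164
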