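import Crest.Agent.R234.Vf3_884

-- ▼ part R234/Al1_640
section

set_option autoImplicit false

/-!
Row 234, VF-ALLARD, part 1 (helper640): affine weighted monotonicity for general stationary
varifolds (language of Vf0_884), with the sharp constant.

* `ph u = (1-u)₊²`, `Ph u = -(1-u)₊³/3` (`Ph' = ph`);
* `radial_aff` : the radial identity with an affine factor.
-/

open MeasureTheory Crest.GeometryTopology.Submanifold Filter Topology Metric Set
open scoped ENNReal InnerProductSpace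
open Crest.Agent.R234.Vf_884

noncomputable section

namespace Crest.Agent.R234.Al1_640

/-! ### the weight -/

/-- the weight `(1-u)₊²` -/
def ph (u : ℝ) : ℝ := (max (1 - u) 0) ^ 2

/-- its derivative -/
def ph' (u : ℝ) : ℝ := -2 * max (1 - u) 0

/-- its primitive vanishing for `u ≥ 1` -/
def Ph (u : ℝ) : ℝ := -(max (1 - u) 0) ^ 3 / 3

theorem ph_nonneg (u : ℝ) : 0 ≤ ph u := sq_nonneg _

theorem ph'_nonpos (u : ℝ) : ph' u ≤ 0 := by
  unfold ph'; nlinarith [le_max_right (1 - u) 0]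

theorem ph_zero {u : ℝ} (h : 1 ≤ u) : ph u = 0 := by
  unfold ph; rw [max_eq_right (by linarith)]; simp

theorem ph'_zero {u : ℝ} (h : 1 ≤ u) : ph' u = 0 := by
  unfold ph'; rw [max_eq_right (by linarith)]; simp

theorem Ph_zero {u : ℝ} (h : 1 ≤ u) : Ph u = 0 := by
  unfold Ph; rw [max_eq_right (by linarith)]; simp

theorem ph_le {u : ℝ} (h : 0 ≤ u) : ph u ≤ 1 := by
  unfold ph
  have h1 : max (1 - u) 0 ≤ 1 := max_le (by linarith) zero_le_one
  have h2 : 0 ≤ max (1 - u) 0 := le_max_right _ _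
  nlinarith

theorem abs_ph'_le {u : ℝ} (h : 0 ≤ u) : |ph' u| ≤ 2 := by
  unfold ph'
  have h1 : max (1 - u) 0 ≤ 1 := max_le (by linarith) zero_le_one
  have h2 : 0 ≤ max (1 - u) 0 := le_max_right _ _
  rw [abs_le]; constructor <;> linarith

theorem ph_anti {u v : ℝ} (h : u ≤ v) : ph v ≤ ph u := by
  unfold ph
  exact pow_le_pow_left₀ (le_max_right _ _) (max_le_max (by linarith) le_rfl) 2

theorem continuous_ph : Continuous ph := by unfold ph; fun_prop

theorem continuous_ph' : Continuous ph' := by unfold ph'; fun_prop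


/-- second order Taylor estimate -/
theorem ph_taylor (u v : ℝ) : |ph u - ph v - ph' v * (u - v)| ≤ (u - v) ^ 2 := by
  unfold ph ph'
  rcases le_total (1 - u) 0 with hu | hu <;> rcases le_total (1 - v) 0 with hv | hv
  · rw [max_eq_right hu, max_eq_right hv]; norm_num; positivity
  · rw [max_eq_right hu, max_eq_left hv, abs_le]; constructor <;> nlinarith
  · rw [max_eq_left hu, max_eq_right hv, abs_le]; constructor <;> nlinarith
  · rw [max_eq_left hu, max_eq_left hv, abs_le]; constructor <;> nlinarith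

theorem hasDerivAt_maxpow (n : ℕ) (x : ℝ) :
    HasDerivAt (fun x : ℝ => (max x 0) ^ (n + 2)) ((n + 2) * (max x 0) ^ (n + 1)) x := by
  rcases lt_trichotomy x 0 with hx | hx | hx
  · have h1 : (fun x : ℝ => (max x 0) ^ (n + 2)) =ᶠ[𝓝 x] fun _ => 0 := by
      filter_upwards [Iio_mem_nhds hx] with y hy
      rw [max_eq_right (le_of_lt hy)]; simp
    rw [max_eq_right hx.le]
    simpa using (hasDerivAt_const x (0 : ℝ)).congr_of_eventuallyEq h1
  · subst hx
    rw [max_self, hasDerivAt_iff_isLittleO_nhds_zero]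
    have h1 : (fun h : ℝ => (max (0 + h) 0) ^ (n + 2) - (max (0:ℝ) 0) ^ (n + 2)
        - h • (((n : ℝ) + 2) * 0 ^ (n + 1))) =O[𝓝 0] fun h : ℝ => h ^ (n + 2) := by
      refine Asymptotics.IsBigO.of_bound 1 (Eventually.of_forall fun h => ?_)
      rw [Real.norm_eq_abs, Real.norm_eq_abs, zero_add, max_self, one_mul, abs_pow]
      simp only [ne_eq, Nat.add_eq_zero_iff, OfNat.ofNat_ne_zero, and_false, not_false_eq_true,
        zero_pow, sub_zero, one_ne_zero, mul_zero, smul_zero, abs_pow]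
      refine pow_le_pow_left₀ (abs_nonneg _) ?_ _
      rw [abs_of_nonneg (le_max_right _ _)]
      exact max_le (le_abs_self h) (abs_nonneg h)
    refine h1.trans_isLittleO ?_
    have := Asymptotics.isLittleO_pow_id (𝕜 := ℝ) (n := n + 2) (by omega)
    simpa using this
  · have h1 : (fun x : ℝ => (max x 0) ^ (n + 2)) =ᶠ[𝓝 x] fun x => x ^ (n + 2) := by
      filter_upwards [Ioi_mem_nhds hx] with y hy
      rw [max_eq_left (le_of_lt hy)]
    rw [max_eq_left hx.le]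
    have h2 := (hasDerivAt_pow (n + 2) x).congr_of_eventuallyEq h1
    refine h2.congr_deriv ?_
    have h3 : n + 2 - 1 = n + 1 := rfl
    rw [h3]; push_cast; rfl

theorem hasDerivAt_ph (u : ℝ) : HasDerivAt ph (ph' u) u := by
  have h1 : HasDerivAt (fun u : ℝ => 1 - u) (-1) u := by
    simpa using (hasDerivAt_id u).const_sub 1
  have h2 := (hasDerivAt_maxpow 0 (1 - u)).comp u h1
  have h3 : ph = (fun x : ℝ => (max x 0) ^ (0 + 2)) ∘ fun u : ℝ => 1 - u := by
    funext x; simp [ph]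
  rw [h3]
  refine h2.congr_deriv ?_
  unfold ph'
  push_cast
  ring

theorem hasDerivAt_Ph (u : ℝ) : HasDerivAt Ph (ph u) u := by
  have h1 : HasDerivAt (fun u : ℝ => 1 - u) (-1) u := by
    simpa using (hasDerivAt_id u).const_sub 1
  have h2 := ((hasDerivAt_maxpow 1 (1 - u)).comp u h1).neg.div_const 3
  have h3 : Ph = fun u => (-((fun x : ℝ => (max x 0) ^ (1 + 2)) ∘ fun u : ℝ => 1 - u)) u / 3 := by
    funext x; simp [Ph]
  rw [h3]
  refine h2.congr_deriv ?_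
  unfold ph
  push_cast
  ring

theorem contDiff_ph : ContDiff ℝ 1 ph := by
  rw [contDiff_one_iff_deriv]
  refine ⟨fun u => (hasDerivAt_ph u).differentiableAt, ?_⟩
  have : deriv ph = ph' := funext fun u => (hasDerivAt_ph u).deriv
  rw [this]; exact continuous_ph'


/-! ### the radial identity with an affine factor -/

variable {m k : ℕ} {U : Set (Euc k)} {V : Measure (Euc k × L k)}

/-- the test field -/
def Z (g Γ : ℝ → ℝ) (z : Euc k) (c : ℝ) (ℓ : Euc k →L[ℝ] ℝ) (x : Euc k) : Euc k :=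
  (c + ℓ x) • (g (‖x - z‖ ^ 2) • (x - z))
    - (2⁻¹ * Γ (‖x - z‖ ^ 2)) • (InnerProductSpace.toDual ℝ (Euc k)).symm ℓ

theorem contDiff_Z {g Γ : ℝ → ℝ} (hg : ContDiff ℝ 1 g) (hΓ : ContDiff ℝ 1 Γ) (z : Euc k)
    (c : ℝ) (ℓ : Euc k →L[ℝ] ℝ) : ContDiff ℝ 1 (Z g Γ z c ℓ) := by
  unfold Z
  have h1 : ContDiff ℝ 1 (fun x : Euc k => x - z) := contDiff_id.sub contDiff_const
  exact ((contDiff_const.add ℓ.contDiff).smul (contDiff_radial hg z)).sub
    ((contDiff_const.mul (hΓ.comp (h1.norm_sq ℝ))).smul contDiff_const)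

theorem tr_Z {g Γ : ℝ → ℝ} (hg : ContDiff ℝ 1 g) (hΓ : ∀ t, HasDerivAt Γ (g t) t) (z : Euc k)
    (c : ℝ) (ℓ : Euc k →L[ℝ] ℝ) (x : Euc k) {P : L k} (hP : P ∈ G m k) :
    tr ((fderiv ℝ (Z g Γ z c ℓ) x) ∘L P)
      = (m * g (‖x - z‖ ^ 2) + 2 * deriv g (‖x - z‖ ^ 2) * ‖P (x - z)‖ ^ 2) * (c + ℓ x) := by
  have hA := hasFDerivAt_radial hg z x
  have hf : HasFDerivAt (fun x : Euc k => c + ℓ x) ℓ x := ℓ.hasFDerivAt.const_add c
  have h1 := hf.smul hA
  have h0 : HasFDerivAt (fun x : Euc k => x - z) (ContinuousLinearMap.id ℝ (Euc k)) x :=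
    (hasFDerivAt_id x).sub_const z
  have h2 : HasFDerivAt (fun x : Euc k => ‖x - z‖ ^ 2) (2 • innerSL ℝ (x - z)) x := by
    have := h0.norm_sq
    simpa using this
  have h3 : HasFDerivAt (fun x : Euc k => Γ (‖x - z‖ ^ 2))
      (g (‖x - z‖ ^ 2) • (2 • innerSL ℝ (x - z))) x := (hΓ _).comp_hasFDerivAt x h2
  set e := (InnerProductSpace.toDual ℝ (Euc k)).symm ℓ with he
  have h4 := (h3.const_mul 2⁻¹).smul (hasFDerivAt_const e x)
  have h5 := h1.sub h4
  have h6 : fderiv ℝ (Z g Γ z c ℓ) x = _ := h5.fderiv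
  rw [h6]
  have hℓ : ∀ v, ℓ v = ⟪e, v⟫_ℝ := fun v => by
    rw [he, InnerProductSpace.toDual_symm_apply]
  have ht := tr_radial (m := m) hg z x hP
  rw [hA.fderiv] at ht
  rw [smul_zero, zero_add, ContinuousLinearMap.sub_comp, map_sub, ContinuousLinearMap.add_comp,
    map_add, ContinuousLinearMap.smul_comp, map_smul, ht, tr_smulRight_comp, tr_smulRight_comp]
  have h7 : ⟪x - z, P e⟫_ℝ = ⟪e, P (x - z)⟫_ℝ := by
    rw [← G_symm hP, real_inner_comm]
  simp only [map_smul, smul_eq_mul, smul_apply, innerSL_apply_apply, nsmul_eq_mul,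
    Nat.cast_ofNat]
  rw [h7, hℓ (P (x - z))]
  ring

theorem tsupport_Z {g Γ : ℝ → ℝ} {z : Euc k} {ρ : ℝ} (hρ : 0 ≤ ρ)
    (hg0 : ∀ t, ρ ^ 2 ≤ t → g t = 0) (hΓ0 : ∀ t, ρ ^ 2 ≤ t → Γ t = 0)
    (c : ℝ) (ℓ : Euc k →L[ℝ] ℝ) :
    tsupport (Z g Γ z c ℓ) ⊆ closedBall z ρ := by
  refine closure_minimal ?_ isClosed_closedBall
  intro x hx
  by_contra hcon
  apply hx
  rw [mem_closedBall, dist_eq_norm, not_le] at hcon
  have h : ρ ^ 2 ≤ ‖x - z‖ ^ 2 := by gcongr
  simp [Z, hg0 _ h, hΓ0 _ h]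

/-- the radial identity with an affine factor. -/
theorem radial_aff (hV : Stat m k U V) {g Γ : ℝ → ℝ} (hg : ContDiff ℝ 1 g)
    (hΓ : ∀ t, HasDerivAt Γ (g t) t) {z : Euc k} {ρ : ℝ} (hρ : 0 ≤ ρ)
    (hU : closedBall z ρ ⊆ U) (hg0 : ∀ t, ρ ^ 2 ≤ t → g t = 0)
    (hΓ0 : ∀ t, ρ ^ 2 ≤ t → Γ t = 0) (c : ℝ) (ℓ : Euc k →L[ℝ] ℝ) :
    ∫ p, (m * g (‖p.1 - z‖ ^ 2) + 2 * deriv g (‖p.1 - z‖ ^ 2) * ‖p.2 (p.1 - z)‖ ^ 2)
      * (c + ℓ p.1) ∂V = 0 := by
  have hts := tsupport_Z (k := k) (z := z) hρ hg0 hΓ0 c ℓ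
  have hΓ1 : ContDiff ℝ 1 Γ := by
    rw [contDiff_one_iff_deriv]
    refine ⟨fun u => (hΓ u).differentiableAt, ?_⟩
    have : deriv Γ = g := funext fun u => (hΓ u).deriv
    rw [this]; exact hg.continuous
  have h := hV.stat _ (contDiff_Z hg hΓ1 z c ℓ)
    (HasCompactSupport.of_support_subset_isCompact (isCompact_closedBall z ρ)
      (subset_closure.trans hts)) (hts.trans hU)
  rw [← h]
  refine integral_congr_ae ?_
  filter_upwards [hV.conc] with p hp
  exact (tr_Z hg hΓ z c ℓ p.1 hp).symm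

end Crest.Agent.R234.Al1_640
end
end

-- ▼ part R234/Al2_640
section

set_option autoImplicit false

/-!
Row 234, VF-ALLARD, part 2 (helper640): `HH V z c ℓ r = ∫ ph (|x-z|²/r²) (c + ℓ x) dV`;
`mono` : if `c + ℓ x ≥ 0` on the support, `r^(-m) HH` is nondecreasing in `r`;
`mean_value` : the mean value inequality with the sharp constant.
-/

open MeasureTheory Crest.GeometryTopology.Submanifold Filter Topology Metric Set
open scoped ENNReal InnerProductSpace
open Crest.Agent.R234.Vf_884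

noncomputable section

namespace Crest.Agent.R234.Al1_640

variable {m k : ℕ} {U : Set (Euc k)} {V : Measure (Euc k × L k)}

/-- weighted integral of an affine function -/
def HH (V : Measure (Euc k × L k)) (z : Euc k) (c : ℝ) (ℓ : Euc k →L[ℝ] ℝ) (r : ℝ) : ℝ :=
  ∫ p, ph (‖p.1 - z‖ ^ 2 / r ^ 2) * (c + ℓ p.1) ∂V

theorem one_le_div_sq {r t : ℝ} (hr : 0 < r) (h : r ^ 2 ≤ t) : 1 ≤ t / r ^ 2 := by
  rw [le_div_iff₀ (by positivity)]; linarith

theorem off_ball {z x : Euc k} {r : ℝ} (hr : 0 < r) (h : x ∉ closedBall z r) :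
    1 ≤ ‖x - z‖ ^ 2 / r ^ 2 := by
  rw [mem_closedBall, dist_eq_norm, not_le] at h
  exact one_le_div_sq hr (by gcongr)

theorem cont_aff (c : ℝ) (ℓ : Euc k →L[ℝ] ℝ) : Continuous fun p : Euc k × L k => c + ℓ p.1 :=
  continuous_const.add (ℓ.continuous.comp continuous_fst)

theorem cont_nsq (z : Euc k) : Continuous fun p : Euc k × L k => ‖p.1 - z‖ ^ 2 := by fun_prop

/-- the derivative of `HH` -/
theorem hasDerivAt_HH (hV : Stat m k U V) {z : Euc k} {R r : ℝ} (hU : ball z R ⊆ U)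
    (hr : 0 < r) (hrR : r < R) (c : ℝ) (ℓ : Euc k →L[ℝ] ℝ) :
    HasDerivAt (HH V z c ℓ)
      (∫ p, ph' (‖p.1 - z‖ ^ 2 / r ^ 2) * (-2 * ‖p.1 - z‖ ^ 2 / r ^ 3) * (c + ℓ p.1) ∂V) r := by
  obtain ⟨R', hR', hR'2⟩ := exists_between hrR
  have hK : IsCompact (closedBall z R') := isCompact_closedBall z R'
  have hKU : closedBall z R' ⊆ U := (closedBall_subset_ball hR'2).trans hU
  have hVK := hV.fin _ hK hKU
  have hcont : ∀ s : ℝ, Continuous fun p : Euc k × L k =>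
      ph (‖p.1 - z‖ ^ 2 / s ^ 2) * (c + ℓ p.1) := fun s =>
    (continuous_ph.comp ((cont_nsq z).div_const _)).mul (cont_aff c ℓ)
  have hoff : ∀ s : ℝ, 0 < s → s < R' → ∀ p : Euc k × L k, p.1 ∉ closedBall z R' →
      1 ≤ ‖p.1 - z‖ ^ 2 / s ^ 2 := by
    intro s hs hsR p hp
    exact off_ball hs fun h => hp (closedBall_subset_closedBall hsR.le h)
  obtain ⟨M, hM⟩ := hK.exists_bound_of_continuousOn (f := fun x => c + ℓ x)
    (by fun_prop : ContinuousOn (fun x => c + ℓ x) (closedBall z R'))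
  have hM0 : 0 ≤ M := (norm_nonneg _).trans (hM z (mem_closedBall_self (hr.trans hR').le))
  refine (hasDerivAt_integral_of_dominated_loc_of_deriv_le (𝕜 := ℝ) (μ := V)
    (F := fun s (p : Euc k × L k) => ph (‖p.1 - z‖ ^ 2 / s ^ 2) * (c + ℓ p.1))
    (F' := fun s (p : Euc k × L k) =>
      ph' (‖p.1 - z‖ ^ 2 / s ^ 2) * (-2 * ‖p.1 - z‖ ^ 2 / s ^ 3) * (c + ℓ p.1))
    (bound := indicator (closedBall z R' ×ˢ (univ : Set (L k))) fun _ => (8 / r) * M)
    (s := Ioo (r / 2) R') (Ioo_mem_nhds (by linarith) hR') ?_ ?_ ?_ ?_ ?_ ?_).2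
  · exact Eventually.of_forall fun s => (hcont s).aestronglyMeasurable
  · exact integrable_of_cont hV.conc hK hVK (hcont r) fun p hp => by
      rw [ph_zero (hoff r hr hR' p hp), zero_mul]
  · refine Continuous.aestronglyMeasurable ?_
    exact ((continuous_ph'.comp ((cont_nsq z).div_const _)).mul
      ((continuous_const.mul (cont_nsq z)).div_const _)).mul (cont_aff c ℓ)
  · refine Eventually.of_forall fun p s hs => ?_
    have hs0 : 0 < s := by linarith [hs.1]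
    by_cases hp : p.1 ∈ closedBall z R'
    · rw [indicator_of_mem (by exact ⟨hp, trivial⟩)]
      rw [norm_mul]
      refine mul_le_mul ?_ (hM _ hp) (norm_nonneg _) (by positivity)
      by_cases h1 : 1 ≤ ‖p.1 - z‖ ^ 2 / s ^ 2
      · rw [ph'_zero h1]; simp; positivity
      · rw [not_le, div_lt_one (by positivity)] at h1
        have h2 : |ph' (‖p.1 - z‖ ^ 2 / s ^ 2)| ≤ 2 := abs_ph'_le (by positivity)
        rw [norm_mul, Real.norm_eq_abs, Real.norm_eq_abs]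
        have h3 : |(-2 * ‖p.1 - z‖ ^ 2 / s ^ 3)| ≤ 4 / r := by
          rw [abs_div, abs_mul, abs_neg, abs_of_pos (by norm_num : (0:ℝ) < 2),
            abs_of_nonneg (sq_nonneg ‖p.1 - z‖), abs_of_pos (by positivity : (0:ℝ) < s ^ 3),
            div_le_div_iff₀ (by positivity) hr]
          have h4 : r ≤ 2 * s := by linarith [hs.1]
          calc 2 * ‖p.1 - z‖ ^ 2 * r ≤ 2 * s ^ 2 * (2 * s) := by gcongr
            _ = 4 * s ^ 3 := by ring
        calc |ph' (‖p.1 - z‖ ^ 2 / s ^ 2)| * |(-2 * ‖p.1 - z‖ ^ 2 / s ^ 3)|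
            ≤ 2 * (4 / r) := by gcongr
          _ = 8 / r := by ring
    · rw [ph'_zero (hoff s hs0 hs.2 p hp)]
      simp only [zero_mul, norm_zero]
      exact indicator_nonneg (fun _ _ => by positivity) _
  · rw [integrable_indicator_iff (hK.measurableSet.prod MeasurableSet.univ)]
    exact integrableOn_const hVK.ne
  · refine Eventually.of_forall fun p s hs => ?_
    have hs0 : 0 < s := by linarith [hs.1]
    have h1 : HasDerivAt (fun s : ℝ => ‖p.1 - z‖ ^ 2 / s ^ 2) (-2 * ‖p.1 - z‖ ^ 2 / s ^ 3) s := by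
      have h2 := (hasDerivAt_const s (‖p.1 - z‖ ^ 2)).div (hasDerivAt_pow 2 s)
        (pow_ne_zero 2 hs0.ne')
      refine h2.congr_deriv ?_
      field_simp
      ring
    exact (((hasDerivAt_ph _).comp s h1)).mul_const _

/-- the differential inequality -/
theorem key_ineq (hV : Stat m k U V) {z : Euc k} {r : ℝ} (hU : closedBall z r ⊆ U)
    (hr : 0 < r) (c : ℝ) (ℓ : Euc k →L[ℝ] ℝ)
    (hf : ∀ᵐ p ∂V, p.1 ∈ ball z r → 0 ≤ c + ℓ p.1) :
    m * HH V z c ℓ r ≤ r *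
      (∫ p, ph' (‖p.1 - z‖ ^ 2 / r ^ 2) * (-2 * ‖p.1 - z‖ ^ 2 / r ^ 3) * (c + ℓ p.1) ∂V) := by
  have hK : IsCompact (closedBall z r) := isCompact_closedBall z r
  have hVK := hV.fin _ hK hU
  set g : ℝ → ℝ := fun t => ph (t / r ^ 2) with hgdef
  set Γ : ℝ → ℝ := fun t => r ^ 2 * Ph (t / r ^ 2) with hΓdef
  have hr2 : r ^ 2 ≠ 0 := by positivity
  have hdg : ∀ t, HasDerivAt g (ph' (t / r ^ 2) / r ^ 2) t := by
    intro t
    have := (hasDerivAt_ph (t / r ^ 2)).comp t ((hasDerivAt_id t).div_const (r ^ 2))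
    refine this.congr_deriv ?_
    ring
  have hdg' : ∀ t, deriv g t = ph' (t / r ^ 2) / r ^ 2 := fun t => (hdg t).deriv
  have hdΓ : ∀ t, HasDerivAt Γ (g t) t := by
    intro t
    have := ((hasDerivAt_Ph (t / r ^ 2)).comp t ((hasDerivAt_id t).div_const (r ^ 2))).const_mul
      (r ^ 2)
    refine this.congr_deriv ?_
    rw [hgdef]
    field_simp
  have hg : ContDiff ℝ 1 g := contDiff_ph.comp (contDiff_id.div_const _)
  have hid := radial_aff hV hg hdΓ hr.le hU (fun t ht => ph_zero (one_le_div_sq hr ht))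
    (fun t ht => by rw [hΓdef]; simp only; rw [Ph_zero (one_le_div_sq hr ht), mul_zero]) c ℓ
  -- integrability of the three integrands
  have ia : Integrable (fun p : Euc k × L k =>
      (m : ℝ) * (ph (‖p.1 - z‖ ^ 2 / r ^ 2) * (c + ℓ p.1))) V := by
    refine integrable_of_cont hV.conc hK hVK ?_ fun p hp => by
      rw [ph_zero (off_ball hr hp), zero_mul, mul_zero]
    exact continuous_const.mul
      ((continuous_ph.comp ((cont_nsq z).div_const _)).mul (cont_aff c ℓ))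
  have ib : Integrable (fun p : Euc k × L k =>
      r * (ph' (‖p.1 - z‖ ^ 2 / r ^ 2) * (-2 * ‖p.1 - z‖ ^ 2 / r ^ 3) * (c + ℓ p.1))) V := by
    refine integrable_of_cont hV.conc hK hVK ?_ fun p hp => by
      rw [ph'_zero (off_ball hr hp)]; ring
    exact continuous_const.mul (((continuous_ph'.comp ((cont_nsq z).div_const _)).mul
      ((continuous_const.mul (cont_nsq z)).div_const _)).mul (cont_aff c ℓ))
  have ic : Integrable (fun p : Euc k × L k =>
      (m * g (‖p.1 - z‖ ^ 2) + 2 * deriv g (‖p.1 - z‖ ^ 2) * ‖p.2 (p.1 - z)‖ ^ 2)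
      * (c + ℓ p.1)) V := by
    have hcP : Continuous fun p : Euc k × L k => ‖p.2 (p.1 - z)‖ ^ 2 := by
      have : Continuous fun p : Euc k × L k => p.2 (p.1 - z) :=
        continuous_snd.clm_apply (continuous_fst.sub continuous_const)
      exact (this.norm).pow 2
    refine integrable_of_cont hV.conc hK hVK ?_ fun p hp => by
      have h1 := off_ball hr hp
      rw [hdg', ph'_zero h1, hgdef]; simp only; rw [ph_zero h1]; ring
    refine Continuous.mul ?_ (cont_aff c ℓ)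
    simp only [hdg']
    exact (continuous_const.mul (continuous_ph.comp ((cont_nsq z).div_const _))).add
      ((continuous_const.mul ((continuous_ph'.comp ((cont_nsq z).div_const _)).div_const _)).mul
        hcP)
  unfold HH
  rw [← integral_const_mul, ← integral_const_mul]
  have h1 : ∫ p, (m : ℝ) * (ph (‖p.1 - z‖ ^ 2 / r ^ 2) * (c + ℓ p.1)) ∂V
      = ∫ p, ((m : ℝ) * (ph (‖p.1 - z‖ ^ 2 / r ^ 2) * (c + ℓ p.1))
        - (m * g (‖p.1 - z‖ ^ 2) + 2 * deriv g (‖p.1 - z‖ ^ 2) * ‖p.2 (p.1 - z)‖ ^ 2)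
      * (c + ℓ p.1)) ∂V := by
    rw [integral_sub ia ic, hid, sub_zero]
  rw [h1]
  refine integral_mono_ae (ia.sub ic) ib ?_
  filter_upwards [hf, hV.conc] with p hp hp2
  by_cases h2 : p.1 ∈ ball z r
  · have h3 := hp h2
    have h4 : ‖p.2 (p.1 - z)‖ ^ 2 ≤ ‖p.1 - z‖ ^ 2 := by
      have := G_norm_apply_le hp2 (p.1 - z)
      gcongr
    have h5 := ph'_nonpos (‖p.1 - z‖ ^ 2 / r ^ 2)
    rw [hdg', hgdef]
    simp only
    have h6 : (m : ℝ) * (ph (‖p.1 - z‖ ^ 2 / r ^ 2) * (c + ℓ p.1))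
        - (m * ph (‖p.1 - z‖ ^ 2 / r ^ 2) + 2 * (ph' (‖p.1 - z‖ ^ 2 / r ^ 2) / r ^ 2) *
          ‖p.2 (p.1 - z)‖ ^ 2) * (c + ℓ p.1)
        = 2 / r ^ 2 * ((-ph' (‖p.1 - z‖ ^ 2 / r ^ 2)) * (c + ℓ p.1)) * ‖p.2 (p.1 - z)‖ ^ 2 := by
      ring
    have h7 : r * (ph' (‖p.1 - z‖ ^ 2 / r ^ 2) * (-2 * ‖p.1 - z‖ ^ 2 / r ^ 3) * (c + ℓ p.1))
        = 2 / r ^ 2 * ((-ph' (‖p.1 - z‖ ^ 2 / r ^ 2)) * (c + ℓ p.1)) * ‖p.1 - z‖ ^ 2 := by
      field_simp
    rw [h6, h7]
    have h8 : 0 ≤ 2 / r ^ 2 * ((-ph' (‖p.1 - z‖ ^ 2 / r ^ 2)) * (c + ℓ p.1)) :=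
      mul_nonneg (by positivity) (mul_nonneg (by linarith) h3)
    exact mul_le_mul_of_nonneg_left h4 h8
  · have h3 : 1 ≤ ‖p.1 - z‖ ^ 2 / r ^ 2 := by
      rw [mem_ball, dist_eq_norm, not_lt] at h2
      exact one_le_div_sq hr (by gcongr)
    rw [hdg', ph'_zero h3, hgdef]
    simp only
    rw [ph_zero h3]
    simp

/-- **affine weighted monotonicity** -/
theorem mono (hV : Stat m k U V) {z : Euc k} {R : ℝ} (hU : ball z R ⊆ U)
    (c : ℝ) (ℓ : Euc k →L[ℝ] ℝ)
    (hf : ∀ᵐ p ∂V, p.1 ∈ ball z R → 0 ≤ c + ℓ p.1) :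
    MonotoneOn (fun r => HH V z c ℓ r / r ^ m) (Ioo 0 R) := by
  have hd : ∀ r ∈ Ioo 0 R, HasDerivAt (fun r => HH V z c ℓ r / r ^ m)
      ((r * (∫ p, ph' (‖p.1 - z‖ ^ 2 / r ^ 2) * (-2 * ‖p.1 - z‖ ^ 2 / r ^ 3) * (c + ℓ p.1) ∂V)
        - m * HH V z c ℓ r) / r ^ (m + 1)) r := by
    intro r hr
    have h1 := (hasDerivAt_HH hV hU hr.1 hr.2 c ℓ).div (hasDerivAt_pow m r)
      (pow_ne_zero m hr.1.ne')
    refine h1.congr_deriv ?_
    have hr0 : r ≠ 0 := hr.1.ne'
    generalize (∫ p, ph' (‖p.1 - z‖ ^ 2 / r ^ 2) * (-2 * ‖p.1 - z‖ ^ 2 / r ^ 3)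
      * (c + ℓ p.1) ∂V) = I
    generalize HH V z c ℓ r = H
    clear h1 hf hV
    rcases m with _ | n
    · simp; field_simp
    · rw [Nat.add_sub_cancel]
      field_simp
      ring
  refine monotoneOn_of_deriv_nonneg (convex_Ioo _ _)
    (fun r hr => (hd r hr).continuousAt.continuousWithinAt)
    (fun r hr => (hd r (interior_subset hr)).differentiableAt.differentiableWithinAt) ?_
  intro r hr
  have hr' := interior_subset hr
  rw [(hd r hr').deriv]
  refine div_nonneg ?_ (pow_nonneg hr'.1.le _)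
  rw [sub_nonneg]
  refine key_ineq hV ((closedBall_subset_ball hr'.2).trans hU) hr'.1 c ℓ ?_
  filter_upwards [hf] with p hp h
  exact hp (ball_subset_ball hr'.2.le h)

end Crest.Agent.R234.Al1_640
end
end

-- ▼ part R234/Al3_640

set_option autoImplicit false

/-!
Row 234, VF-ALLARD, part 3 (helper640): the mean value inequality with the sharp constant,
scalar (`mean_value`) and vector valued (`mv_vec`), and one step of the decay (`step`).
`II m V z r = r^(-m) ∫ ph (|x-z|²/r²) dV`.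
-/

open MeasureTheory Crest.GeometryTopology.Submanifold Filter Topology Metric Set
open scoped ENNReal InnerProductSpace
open Crest.Agent.R234.Vf_884

noncomputable section

namespace Crest.Agent.R234.Al1_640

variable {m k : ℕ} {U : Set (Euc k)} {V : Measure (Euc k × L k)}

/-- the weighted mass ratio -/
def II (m : ℕ) (V : Measure (Euc k × L k)) (z : Euc k) (r : ℝ) : ℝ :=
  (∫ p, ph (‖p.1 - z‖ ^ 2 / r ^ 2) ∂V) / r ^ m

theorem HH_one (z : Euc k) (r : ℝ) :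
    HH V z 1 0 r = ∫ p, ph (‖p.1 - z‖ ^ 2 / r ^ 2) ∂V := by
  unfold HH; simp

theorem II_mono (hV : Stat m k U V) {z : Euc k} {R : ℝ} (hU : ball z R ⊆ U) :
    MonotoneOn (II m V z) (Ioo 0 R) := by
  have h := mono hV hU 1 0 (Eventually.of_forall fun p _ => by simp)
  intro a ha b hb hab
  have := h ha hb hab
  simpa only [HH_one, II] using this

theorem integrable_vec {W : Type*} [NormedAddCommGroup W] [NormedSpace ℝ W]
    (hV : Stat m k U V) {K : Set (Euc k)} (hK : IsCompact K) (hKU : K ⊆ U)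
    {φ : Euc k → W} (hφ : Continuous φ) (h0 : ∀ x, x ∉ K → φ x = 0) :
    Integrable (fun p : Euc k × L k => φ p.1) V := by
  obtain ⟨C, hC⟩ := hK.exists_bound_of_continuousOn hφ.continuousOn
  have h1 : IntegrableOn (fun p : Euc k × L k => φ p.1) (K ×ˢ Set.univ) V := by
    refine IntegrableOn.of_bound (hV.fin K hK hKU)
      (hφ.comp continuous_fst).aestronglyMeasurable C ?_
    filter_upwards [ae_restrict_mem (hK.measurableSet.prod MeasurableSet.univ)] with p hp2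
    exact hC p.1 hp2.1
  refine (integrableOn_iff_integrable_of_support_subset ?_).1 h1
  intro p hp
  by_contra hcon
  exact hp (h0 p.1 fun h => hcon ⟨h, trivial⟩)

theorem cont_phx (z : Euc k) (r : ℝ) : Continuous fun x : Euc k => ph (‖x - z‖ ^ 2 / r ^ 2) :=
  continuous_ph.comp (by fun_prop)

theorem integrable_ph (hV : Stat m k U V) {z : Euc k} {r : ℝ} (hr : 0 < r)
    (hU : closedBall z r ⊆ U) :
    Integrable (fun p : Euc k × L k => ph (‖p.1 - z‖ ^ 2 / r ^ 2)) V :=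
  integrable_vec hV (isCompact_closedBall z r) hU (cont_phx z r)
    (fun _ hx => ph_zero (off_ball hr hx))

theorem integrable_ph_smul {W : Type*} [NormedAddCommGroup W] [NormedSpace ℝ W]
    (hV : Stat m k U V) {z : Euc k} {r : ℝ} (hr : 0 < r)
    (hU : closedBall z r ⊆ U) {φ : Euc k → W} (hφ : Continuous φ) :
    Integrable (fun p : Euc k × L k => ph (‖p.1 - z‖ ^ 2 / r ^ 2) • φ p.1) V :=
  integrable_vec hV (isCompact_closedBall z r) hU
    (φ := fun x => ph (‖x - z‖ ^ 2 / r ^ 2) • φ x) ((cont_phx z r).smul hφ)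
    (fun _ hx => by rw [ph_zero (off_ball hr hx), zero_smul])

/-- **mean value inequality with the sharp constant** -/
theorem mean_value (hV : Stat m k U V) {z : Euc k} {R : ℝ} (hU : ball z R ⊆ U)
    (c : ℝ) (ℓ : Euc k →L[ℝ] ℝ)
    (hf : ∀ᵐ p ∂V, p.1 ∈ ball z R → 0 ≤ c + ℓ p.1) (hz : 0 ≤ c + ℓ z)
    {θ : ℝ} (hθ : ∀ s ∈ Ioo 0 R, θ ≤ II m V z s) {r : ℝ} (hr : r ∈ Ioo 0 R) :
    θ * (c + ℓ z) ≤ HH V z c ℓ r / r ^ m := by
  have key : ∀ s ∈ Ioc 0 r, θ * (c + ℓ z) - ‖ℓ‖ * II m V z r * s ≤ HH V z c ℓ r / r ^ m := by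
    intro s hs
    have hsR : s ∈ Ioo 0 R := ⟨hs.1, hs.2.trans_lt hr.2⟩
    have hsU : closedBall z s ⊆ U := (closedBall_subset_ball hsR.2).trans hU
    have h1 : HH V z c ℓ s / s ^ m ≤ HH V z c ℓ r / r ^ m := mono hV hU c ℓ hf hsR hr hs.2
    refine le_trans ?_ h1
    have h2 : (c + ℓ z - ‖ℓ‖ * s) * ∫ p, ph (‖p.1 - z‖ ^ 2 / s ^ 2) ∂V ≤ HH V z c ℓ s := by
      rw [← integral_const_mul]
      unfold HH
      have ia := (integrable_ph hV hs.1 hsU).const_mul (c + ℓ z - ‖ℓ‖ * s)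
      have ib := integrable_ph_smul hV hs.1 hsU (φ := fun x => c + ℓ x) (by fun_prop)
      refine integral_mono ia ib ?_
      intro p
      simp only
      by_cases hp : p.1 ∈ closedBall z s
      · rw [mul_comm]
        refine mul_le_mul_of_nonneg_left ?_ (ph_nonneg _)
        have h3 : |ℓ (p.1 - z)| ≤ ‖ℓ‖ * ‖p.1 - z‖ := by
          have := ℓ.le_opNorm (p.1 - z)
          rwa [Real.norm_eq_abs] at this
        rw [mem_closedBall, dist_eq_norm] at hp
        have h4 : ‖ℓ‖ * ‖p.1 - z‖ ≤ ‖ℓ‖ * s := by gcongr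
        rw [map_sub] at h3
        have := neg_abs_le (ℓ p.1 - ℓ z)
        linarith
      · rw [ph_zero (off_ball hs.1 hp)]; simp
    have h3 : (c + ℓ z - ‖ℓ‖ * s) * II m V z s ≤ HH V z c ℓ s / s ^ m := by
      unfold II
      rw [← mul_div_assoc]
      exact div_le_div_of_nonneg_right h2 (pow_nonneg hs.1.le _)
    refine le_trans ?_ h3
    have h4 : II m V z s ≤ II m V z r := II_mono hV hU hsR hr hs.2
    have h5 : θ ≤ II m V z s := hθ s hsR
    have h6 : ‖ℓ‖ * s * II m V z s ≤ ‖ℓ‖ * s * II m V z r :=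
      mul_le_mul_of_nonneg_left h4 (mul_nonneg (norm_nonneg _) hs.1.le)
    nlinarith [mul_le_mul_of_nonneg_left h5 hz]
  have ht : Tendsto (fun s : ℝ => θ * (c + ℓ z) - ‖ℓ‖ * II m V z r * s) (𝓝[>] 0)
      (𝓝 (θ * (c + ℓ z) - ‖ℓ‖ * II m V z r * 0)) := by
    have : Continuous (fun s : ℝ => θ * (c + ℓ z) - ‖ℓ‖ * II m V z r * s) := by fun_prop
    exact (this.tendsto 0).mono_left nhdsWithin_le_nhds
  rw [mul_zero, sub_zero] at ht
  refine le_of_tendsto ht ?_
  filter_upwards [Ioc_mem_nhdsGT hr.1] with s hs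
  exact key s hs

variable {F : Type*} [NormedAddCommGroup F] [InnerProductSpace ℝ F] [CompleteSpace F]

/-- the weighted integral of an affine vector valued function -/
def JJ (V : Measure (Euc k × L k)) (b : F) (G : Euc k →L[ℝ] F) (z : Euc k) (r : ℝ) : F :=
  ∫ p, ph (‖p.1 - z‖ ^ 2 / r ^ 2) • (b + G p.1) ∂V

/-- vector valued mean value inequality -/
theorem mv_vec (hV : Stat m k U V) {z : Euc k} {R : ℝ} (hU : ball z R ⊆ U)
    (b : F) (G : Euc k →L[ℝ] F) {ε : ℝ}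
    (hf : ∀ᵐ p ∂V, p.1 ∈ ball z R → ‖b + G p.1‖ ≤ ε) (hz : ‖b + G z‖ ≤ ε)
    {θ : ℝ} (hθ : ∀ s ∈ Ioo 0 R, θ ≤ II m V z s) {r : ℝ} (hr : r ∈ Ioo 0 R) :
    ‖(r ^ m)⁻¹ • JJ V b G z r - θ • (b + G z)‖ ≤ ε * (II m V z r - θ) := by
  have hrU : closedBall z r ⊆ U := (closedBall_subset_ball hr.2).trans hU
  have hε : 0 ≤ ε := (norm_nonneg _).trans hz
  have key : ∀ e : F, ‖e‖ ≤ 1 →
      ⟪e, (r ^ m)⁻¹ • JJ V b G z r - θ • (b + G z)⟫_ℝ ≤ ε * (II m V z r - θ) := by
    intro e he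
    have hcs : ∀ x : F, ‖x‖ ≤ ε → ⟪e, x⟫_ℝ ≤ ε := by
      intro x hx
      calc ⟪e, x⟫_ℝ ≤ ‖e‖ * ‖x‖ := real_inner_le_norm e x
        _ ≤ 1 * ε := by gcongr
        _ = ε := one_mul ε
    set ℓ : Euc k →L[ℝ] ℝ := -((innerSL ℝ e).comp G) with hℓ
    have hℓa : ∀ x, (ε - ⟪e, b⟫_ℝ) + ℓ x = ε - ⟪e, b + G x⟫_ℝ := by
      intro x
      rw [inner_add_right, hℓ]
      simp only [neg_apply, ContinuousLinearMap.comp_apply, innerSL_apply_apply]
      ring
    have h1 := mean_value hV hU (ε - ⟪e, b⟫_ℝ) ℓ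
      (by
        filter_upwards [hf] with p hp h
        rw [hℓa]
        linarith [hcs _ (hp h)])
      (by rw [hℓa]; linarith [hcs _ hz]) hθ hr
    rw [hℓa] at h1
    have h2 : HH V z (ε - ⟪e, b⟫_ℝ) ℓ r
        = ε * (∫ p, ph (‖p.1 - z‖ ^ 2 / r ^ 2) ∂V) - ⟪e, JJ V b G z r⟫_ℝ := by
      unfold HH JJ
      rw [← integral_inner (integrable_ph_smul hV hr.1 hrU (φ := fun x => b + G x)
        (by fun_prop)), ← integral_const_mul, ← integral_sub
        ((integrable_ph hV hr.1 hrU).const_mul ε)]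
      · refine integral_congr_ae (Eventually.of_forall fun p => ?_)
        simp only
        rw [hℓa, inner_smul_right]
        ring
      · exact Integrable.const_inner (𝕜 := ℝ) e (integrable_ph_smul hV hr.1 hrU
          (φ := fun x => b + G x) (by fun_prop))
    rw [h2] at h1
    rw [inner_sub_right, inner_smul_right, inner_smul_right]
    have h3 : (ε * (∫ p, ph (‖p.1 - z‖ ^ 2 / r ^ 2) ∂V) - ⟪e, JJ V b G z r⟫_ℝ) / r ^ m
        = ε * II m V z r - (r ^ m)⁻¹ * ⟪e, JJ V b G z r⟫_ℝ := by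
      unfold II; ring
    rw [h3] at h1
    nlinarith
  set w := (r ^ m)⁻¹ • JJ V b G z r - θ • (b + G z) with hw
  rcases eq_or_ne w 0 with h0 | h0
  · rw [h0, norm_zero]
    exact mul_nonneg hε (by linarith [hθ r hr])
  · have hn : ‖w‖ ≠ 0 := norm_ne_zero_iff.2 h0
    have h1 := key (‖w‖⁻¹ • w) (by
      rw [norm_smul, norm_inv, norm_norm, inv_mul_cancel₀ hn])
    rw [inner_smul_left, real_inner_self_eq_norm_sq] at h1
    have h2 : (starRingEnd ℝ) ‖w‖⁻¹ * ‖w‖ ^ 2 = ‖w‖ := by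
      simp only [conj_trivial]
      field_simp
    rwa [h2] at h1

end Crest.Agent.R234.Al1_640
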