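import Mathlib

-- ▼ part R234/Cp1_914
section

/-!
Vague convergence of measures on an open subset `O` of a proper metric space `X`, along an
arbitrary filter (row 234, helper914): existence of limits along ultrafilters, semicontinuity on
open / compact sets, convergence on sets of null frontier.
-/

set_option autoImplicit false
set_option linter.unusedSectionVars false

open MeasureTheory Filter Topology Set
open scoped CompactlySupported ENNReal

namespace Crest.Agent.R234.Cp914

section Functional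

variable {Y : Type*} [TopologicalSpace Y] [T2Space Y] [MeasurableSpace Y] [BorelSpace Y]

theorem bounded_cc (f : C_c(Y, ℝ)) : ∃ C : ℝ, 0 ≤ C ∧ ∀ x, |f x| ≤ C := by
  obtain ⟨C, hC⟩ := f.hasCompactSupport.exists_bound_of_continuous f.continuous
  exact ⟨max C 0, le_max_right _ _, fun x => (hC x).trans (le_max_left _ _)⟩

theorem integrable_cc' {f : Y → ℝ} (hf : Continuous f) (hc : HasCompactSupport f) (μ : Measure Y)
    (h : μ (tsupport f) < ∞) : Integrable f μ := by
  obtain ⟨C, hC⟩ := hc.exists_bound_of_continuous hf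
  rw [← integrableOn_iff_integrable_of_support_subset (subset_tsupport f)]
  exact Measure.integrableOn_of_bounded h.ne
    (hf.stronglyMeasurable_of_hasCompactSupport hc).aestronglyMeasurable
    (Eventually.of_forall hC)

theorem abs_integral_cc_le {f : Y → ℝ} (μ : Measure Y)
    (h : μ (tsupport f) < ∞) {C : ℝ} (hC : ∀ x, |f x| ≤ C) :
    |∫ x, f x ∂μ| ≤ C * (μ (tsupport f)).toReal := by
  have h1 : ∫ x in tsupport f, f x ∂μ = ∫ x, f x ∂μ :=
    setIntegral_eq_integral_of_forall_compl_eq_zero fun x hx => image_eq_zero_of_notMem_tsupport hx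
  rw [← h1]
  have := norm_setIntegral_le_of_norm_le_const (μ := μ) (s := tsupport f) (f := f) (C := C) h
    (fun x _ => by simpa [Real.norm_eq_abs] using hC x)
  simpa [Real.norm_eq_abs, Measure.real] using this

/-- the limit functional along an ultrafilter. -/
theorem exists_functional {ι : Type*} (U : Ultrafilter ι) (μ : ι → Measure Y)
    (hb : ∀ K : Set Y, IsCompact K → ∃ C : ℝ, ∀ᶠ i in (U : Filter ι), μ i K ≤ ENNReal.ofReal C) :
    ∃ Λ : C_c(Y, ℝ) →ₚ[ℝ] ℝ,
      ∀ f : C_c(Y, ℝ), Tendsto (fun i => ∫ x, f x ∂(μ i)) U (𝓝 (Λ f)) := by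
  have hint : ∀ f : C_c(Y, ℝ), ∀ᶠ i in (U : Filter ι), Integrable (fun x => f x) (μ i) := by
    intro f
    obtain ⟨C, hC⟩ := hb _ f.hasCompactSupport
    exact hC.mono fun i hi =>
      integrable_cc' f.continuous f.hasCompactSupport _ (hi.trans_lt ENNReal.ofReal_lt_top)
  have key : ∀ f : C_c(Y, ℝ), ∃ a : ℝ, Tendsto (fun i => ∫ x, f x ∂(μ i)) U (𝓝 a) := by
    intro f
    obtain ⟨C, hC0, hC⟩ := bounded_cc f
    obtain ⟨M, hM⟩ := hb _ f.hasCompactSupport
    have hmem : ∀ᶠ i in (U : Filter ι),
        (∫ x, f x ∂(μ i)) ∈ Set.Icc (-(C * max M 0)) (C * max M 0) := by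
      refine hM.mono fun i hi => abs_le.1 ?_
      refine (abs_integral_cc_le (μ i) (hi.trans_lt ENNReal.ofReal_lt_top) hC).trans ?_
      refine mul_le_mul_of_nonneg_left ?_ hC0
      refine (ENNReal.toReal_mono ENNReal.ofReal_ne_top hi).trans ?_
      rw [ENNReal.toReal_ofReal']
    have hle : (U.map (fun i => ∫ x, f x ∂(μ i)) : Filter ℝ) ≤
        𝓟 (Set.Icc (-(C * max M 0)) (C * max M 0)) := by
      rw [le_principal_iff]
      exact hmem
    obtain ⟨a, -, ha⟩ := isCompact_Icc.ultrafilter_le_nhds _ hle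
    exact ⟨a, ha⟩
  choose L hL using key
  have hadd : ∀ f g : C_c(Y, ℝ), L (f + g) = L f + L g := by
    intro f g
    refine tendsto_nhds_unique (hL (f + g)) ?_
    refine ((hL f).add (hL g)).congr' ?_
    filter_upwards [hint f, hint g] with i h1 h2
    rw [← integral_add h1 h2]
    rfl
  have hsmul : ∀ (c : ℝ) (f : C_c(Y, ℝ)), L (c • f) = c * L f := by
    intro c f
    refine tendsto_nhds_unique (hL (c • f)) ?_
    refine ((hL f).const_mul c).congr fun i => ?_
    rw [← integral_const_mul]
    rfl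
  refine ⟨PositiveLinearMap.mk₀
    { toFun := L, map_add' := hadd, map_smul' := fun c f => by simpa using hsmul c f } ?_,
    fun f => hL f⟩
  intro f hf
  refine ge_of_tendsto' (hL f) fun i => ?_
  exact integral_nonneg fun x => hf x

/-- vague limits along ultrafilters, locally bounded masses. -/
theorem exists_regular_limit [LocallyCompactSpace Y] {ι : Type*} (U : Ultrafilter ι)
    (μ : ι → Measure Y)
    (hb : ∀ K : Set Y, IsCompact K → ∃ C : ℝ, ∀ᶠ i in (U : Filter ι), μ i K ≤ ENNReal.ofReal C) :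
    ∃ ν : Measure Y, ν.Regular ∧
      ∀ f : C_c(Y, ℝ), Tendsto (fun i => ∫ x, f x ∂(μ i)) U (𝓝 (∫ x, f x ∂ν)) := by
  obtain ⟨Λ, hΛ⟩ := exists_functional U μ hb
  exact ⟨RealRMK.rieszMeasure Λ, inferInstance, fun f => by simpa using hΛ f⟩

end Functional

variable {X : Type*} [MetricSpace X] [ProperSpace X] [MeasurableSpace X] [BorelSpace X]

/-- vague convergence inside the open set `O` along the filter `F`. -/
structure VConv {ι : Type*} (O : Set X) (F : Filter ι) (μ : ι → Measure X) (ν : Measure X) :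
    Prop where
  fin : ∀ K ⊆ O, IsCompact K → ∀ᶠ i in F, μ i K < ∞
  fin' : ∀ K ⊆ O, IsCompact K → ν K < ∞
  tendsto : ∀ f : X → ℝ, Continuous f → HasCompactSupport f → tsupport f ⊆ O →
    Tendsto (fun i => ∫ x, f x ∂(μ i)) F (𝓝 (∫ x, f x ∂ν))

theorem VConv.mono {ι : Type*} {O : Set X} {F G : Filter ι} {μ : ι → Measure X} {ν : Measure X}
    (h : VConv O F μ ν) (hG : G ≤ F) : VConv O G μ ν :=
  ⟨fun K hK hc => hG (h.fin K hK hc), h.fin', fun f a b c => (h.tendsto f a b c).mono_left hG⟩

theorem VConv.mono_set {ι : Type*} {O O' : Set X} {F : Filter ι} {μ : ι → Measure X}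
    {ν : Measure X} (h : VConv O F μ ν) (hO : O' ⊆ O) : VConv O' F μ ν :=
  ⟨fun K hK hc => h.fin K (hK.trans hO) hc, fun K hK hc => h.fin' K (hK.trans hO) hc,
    fun f a b c => h.tendsto f a b (c.trans hO)⟩

/-- **Existence of vague limits along ultrafilters.** -/
theorem exists_vconv {ι : Type*} {O : Set X} (hO : IsOpen O) (U : Ultrafilter ι)
    (μ : ι → Measure X)
    (hb : ∀ K ⊆ O, IsCompact K → ∃ C : ℝ, ∀ᶠ i in (U : Filter ι), μ i K ≤ ENNReal.ofReal C) :
    ∃ ν : Measure X, ν Oᶜ = 0 ∧ VConv O U μ ν := by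
  have : LocallyCompactSpace O := hO.locallyCompactSpace
  have hemb : MeasurableEmbedding (Subtype.val : O → X) :=
    MeasurableEmbedding.subtype_coe hO.measurableSet
  obtain ⟨ν, hreg, hν⟩ := exists_regular_limit U (fun i => (μ i).comap (Subtype.val : O → X))
    (by
      intro K hK
      obtain ⟨C, hC⟩ := hb (Subtype.val '' K) (by rintro _ ⟨x, -, rfl⟩; exact x.2)
        (hK.image continuous_subtype_val)
      refine ⟨C, hC.mono fun i hi => ?_⟩
      rwa [hemb.comap_apply])
  refine ⟨ν.map Subtype.val, ?_, ?_, ?_, ?_⟩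
  · rw [hemb.map_apply]
    have : (Subtype.val : O → X) ⁻¹' Oᶜ = ∅ := by
      ext x; simp
    simp [this]
  · intro K hK hc
    obtain ⟨C, hC⟩ := hb K hK hc
    exact hC.mono fun i hi => hi.trans_lt ENNReal.ofReal_lt_top
  · intro K hK hc
    rw [hemb.map_apply]
    have : IsCompact ((Subtype.val : O → X) ⁻¹' K) :=
      (Topology.IsInducing.subtypeVal.isCompact_preimage_iff (by simpa using hK)).2 hc
    exact this.measure_lt_top
  · intro f hf hc hs
    have hgc : HasCompactSupport (fun x : O => f x) := by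
      refine HasCompactSupport.intro
        (K := (Subtype.val : O → X) ⁻¹' tsupport f) ?_ fun x hx => ?_
      · exact (Topology.IsInducing.subtypeVal.isCompact_preimage_iff (by simpa using hs)).2 hc
      · exact image_eq_zero_of_notMem_tsupport hx
    have h1 := hν ⟨⟨fun x : O => f x, hf.comp continuous_subtype_val⟩, hgc⟩
    have h2 : ∫ x, f x ∂(ν.map Subtype.val) = ∫ x : O, f x ∂ν := hemb.integral_map _
    rw [h2]
    refine h1.congr fun i => ?_
    change ∫ x : O, f x ∂(μ i).comap Subtype.val = _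
    rw [integral_subtype_comap hO.measurableSet]
    exact setIntegral_eq_integral_of_forall_compl_eq_zero fun x hx =>
      image_eq_zero_of_notMem_tsupport fun h => hx (hs h)

/-- cutoff functions. -/
theorem exists_cut {K O : Set X} (hK : IsCompact K) (hO : IsOpen O) (hKO : K ⊆ O) :
    ∃ f : X → ℝ, Continuous f ∧ HasCompactSupport f ∧ tsupport f ⊆ O ∧ (∀ x ∈ K, f x = 1) ∧
      (∀ x, 0 ≤ f x) ∧ ∀ x, f x ≤ 1 := by
  obtain ⟨f, hf1, hf2, hf3, hf4⟩ := exists_continuousMap_one_of_isCompact_subset_isOpen hK hO hKO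
  exact ⟨f, f.continuous, hf2, hf3, fun x hx => hf1 hx, fun x => (hf4 x).1, fun x => (hf4 x).2⟩

end Crest.Agent.R234.Cp914
end

-- ▼ part R234/Cp2_914
section

/-!
Semicontinuity and convergence of integrals under vague convergence (row 234, helper914).
-/

set_option autoImplicit false
set_option linter.unusedSectionVars false

open MeasureTheory Filter Topology Set
open scoped CompactlySupported ENNReal

namespace Crest.Agent.R234.Cp914

variable {X : Type*} [MetricSpace X] [ProperSpace X] [MeasurableSpace X] [BorelSpace X]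

/-- inner regularity on open sets, any measure. -/
theorem exists_compact_lt (ν : Measure X) {W : Set X} (hW : IsOpen W) {a : ℝ≥0∞}
    (ha : a < ν W) : ∃ K ⊆ W, IsCompact K ∧ a < ν K := by
  rcases isEmpty_or_nonempty X with hX | ⟨⟨x0⟩⟩
  · rw [eq_empty_of_isEmpty W] at ha ⊢
    exact ⟨∅, subset_rfl, isCompact_empty, ha⟩
  obtain ⟨C, hC, hCW, hU, hmono⟩ := hW.exists_iUnion_isClosed
  let K : ℕ → Set X := fun n => C n ∩ Metric.closedBall x0 n
  have hKmono : Monotone K := fun a b hab => inter_subset_inter (hmono hab)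
    (Metric.closedBall_subset_closedBall (by exact_mod_cast hab))
  have hKU : ⋃ n, K n = W := by
    refine subset_antisymm (iUnion_subset fun n => inter_subset_left.trans (hCW n)) fun x hx => ?_
    rw [← hU] at hx
    obtain ⟨n, hn⟩ := mem_iUnion.1 hx
    obtain ⟨m, hm⟩ := exists_nat_ge (dist x x0)
    refine mem_iUnion.2 ⟨max n m, hmono (le_max_left _ _) hn, ?_⟩
    rw [Metric.mem_closedBall]
    exact hm.trans (by exact_mod_cast le_max_right n m)
  rw [← hKU, hKmono.measure_iUnion] at ha
  obtain ⟨n, hn⟩ := lt_iSup_iff.1 ha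
  exact ⟨K n, inter_subset_left.trans (hCW n), (isCompact_closedBall x0 n).inter_left (hC n), hn⟩


/-- outer regularity on compact sets. -/
theorem exists_open_lt {O : Set X} (hO : IsOpen O) (ν : Measure X)
    (hν : ∀ K ⊆ O, IsCompact K → ν K < ∞) {K : Set X} (hK : IsCompact K) (hKO : K ⊆ O)
    {a : ℝ≥0∞} (ha : ν K < a) : ∃ W, IsOpen W ∧ K ⊆ W ∧ W ⊆ O ∧ IsCompact (closure W) ∧
      closure W ⊆ O ∧ ν W < a := by
  obtain ⟨L, hL, hKL, hLO⟩ := exists_compact_between hK hO hKO
  have hfin : IsFiniteMeasure (ν.restrict L) := ⟨by simpa using hν L hLO hL⟩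
  have h1 : (ν.restrict L) K < a := by
    rw [Measure.restrict_apply hK.measurableSet,
      inter_eq_self_of_subset_left (hKL.trans interior_subset)]
    exact ha
  obtain ⟨W', hKW', hW', hlt⟩ := K.exists_isOpen_lt_of_lt a h1
  refine ⟨W' ∩ interior L, hW'.inter isOpen_interior, subset_inter hKW' hKL,
    inter_subset_right.trans (interior_subset.trans hLO), ?_, ?_, ?_⟩
  · exact hL.closure_of_subset (inter_subset_right.trans interior_subset)
  · exact (closure_minimal (inter_subset_right.trans interior_subset) hL.isClosed).trans hLO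
  · rw [Measure.restrict_apply hW'.measurableSet] at hlt
    exact (measure_mono (inter_subset_inter_right _ interior_subset)).trans_lt hlt

variable {ι : Type*} {O : Set X} {F : Filter ι} {μ : ι → Measure X} {ν : Measure X}

theorem ofReal_integral_le_lintegral (μ : Measure X) {f : X → ℝ} (h0 : ∀ x, 0 ≤ f x) :
    ENNReal.ofReal (∫ x, f x ∂μ) ≤ ∫⁻ x, ENNReal.ofReal (f x) ∂μ := by
  by_cases hi : Integrable f μ
  · rw [ofReal_integral_eq_lintegral_ofReal hi (Eventually.of_forall h0)]
  · rw [integral_undef hi]; simp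

/-- **Lower semicontinuity on open sets.** -/
theorem VConv.lt_of_isOpen (h : VConv O F μ ν) {W : Set X} (hW : IsOpen W) (hWO : W ⊆ O)
    {a : ℝ≥0∞} (ha : a < ν W) : ∀ᶠ i in F, a < μ i W := by
  obtain ⟨K, hKW, hK, hlt⟩ := exists_compact_lt ν hW ha
  obtain ⟨f, hf, hc, hs, h1, h0, hle⟩ := exists_cut hK hW hKW
  have hint : Integrable f ν := integrable_cc' hf hc ν (h.fin' _ (hs.trans hWO) hc)
  have h2 : a < ENNReal.ofReal (∫ x, f x ∂ν) := by
    refine hlt.trans_le ?_
    rw [ofReal_integral_eq_lintegral_ofReal hint (Eventually.of_forall h0),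
      ← lintegral_indicator_one hK.measurableSet]
    refine lintegral_mono fun x => ?_
    by_cases hx : x ∈ K
    · simp [hx, h1 x hx]
    · simp [hx]
  have h3 := (ENNReal.continuous_ofReal.tendsto _).comp (h.tendsto f hf hc (hs.trans hWO))
  filter_upwards [h3.eventually_const_lt h2] with i hi
  refine hi.trans_le ?_
  refine (ofReal_integral_le_lintegral _ h0).trans ?_
  rw [← lintegral_indicator_one hW.measurableSet]
  refine lintegral_mono fun x => ?_
  by_cases hx : x ∈ W
  · simpa [hx] using hle x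
  · have : f x = 0 := image_eq_zero_of_notMem_tsupport fun h => hx (hs h)
    simp [hx, this]

/-- **Upper semicontinuity on compact sets.** -/
theorem VConv.lt_of_isCompact (h : VConv O F μ ν) (hO : IsOpen O) {K : Set X}
    (hK : IsCompact K) (hKO : K ⊆ O) {a : ℝ≥0∞} (ha : ν K < a) : ∀ᶠ i in F, μ i K < a := by
  obtain ⟨W, hW, hKW, hWO, hWc, hWcO, hlt⟩ := exists_open_lt hO ν h.fin' hK hKO ha
  obtain ⟨f, hf, hc, hs, h1, h0, hle⟩ := exists_cut hK hW hKW
  have hint : Integrable f ν := integrable_cc' hf hc ν (h.fin' _ (hs.trans hWO) hc)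
  have h2 : ENNReal.ofReal (∫ x, f x ∂ν) < a := by
    refine lt_of_le_of_lt ?_ hlt
    rw [ofReal_integral_eq_lintegral_ofReal hint (Eventually.of_forall h0),
      ← lintegral_indicator_one hW.measurableSet]
    refine lintegral_mono fun x => ?_
    by_cases hx : x ∈ W
    · simpa [hx] using hle x
    · have : f x = 0 := image_eq_zero_of_notMem_tsupport fun h => hx (hs h)
      simp [hx, this]
  have h3 := (ENNReal.continuous_ofReal.tendsto _).comp (h.tendsto f hf hc (hs.trans hWO))
  filter_upwards [h3.eventually_lt_const h2, h.fin _ (hs.trans hWO) hc] with i hi hfin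
  refine lt_of_le_of_lt ?_ hi
  have hint' : Integrable f (μ i) := integrable_cc' hf hc _ hfin
  simp only [Function.comp]
  rw [ofReal_integral_eq_lintegral_ofReal hint' (Eventually.of_forall h0),
    ← lintegral_indicator_one hK.measurableSet]
  refine lintegral_mono fun x => ?_
  by_cases hx : x ∈ K
  · simp [hx, h1 x hx]
  · simp [hx]



/-- a closed carrier passes to the limit. -/
theorem VConv.carrier [F.NeBot] (h : VConv O F μ ν) (hO : IsOpen O) {S : Set X}
    (hS : IsClosed S) (hμS : ∀ᶠ i in F, μ i (Sᶜ ∩ O) = 0) : ν (Sᶜ ∩ O) = 0 := by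
  by_contra hne
  have h1 : 0 < ν (Sᶜ ∩ O) := pos_iff_ne_zero.2 hne
  have h2 := h.lt_of_isOpen (hS.isOpen_compl.inter hO) inter_subset_right h1
  obtain ⟨i, hi, hi'⟩ := (h2.and hμS).exists
  exact hi.ne' hi'

theorem integral_congr_carrier {S : Set X} {μ : Measure X} (hμS : μ Sᶜ = 0) {f g : X → ℝ}
    (hfg : ∀ x ∈ S, f x = g x) : ∫ x, f x ∂μ = ∫ x, g x ∂μ := by
  refine integral_congr_ae ?_
  rw [Filter.EventuallyEq, ae_iff]
  refine measure_mono_null (fun x hx => ?_) hμS
  exact fun hxS => hx (hfg x hxS)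

/-- test functions with compact support on the carrier. -/
theorem VConv.tendsto_carrier (h : VConv O F μ ν) (hO : IsOpen O) {S : Set X}
    (hμS : ∀ᶠ i in F, μ i Sᶜ = 0) (hνS : ν Sᶜ = 0) {f : X → ℝ} (hf : Continuous f)
    {K : Set X} (hK : IsCompact K) (hKO : K ⊆ O) (hfS : ∀ x ∈ S, x ∉ K → f x = 0) :
    Tendsto (fun i => ∫ x, f x ∂(μ i)) F (𝓝 (∫ x, f x ∂ν)) := by
  obtain ⟨χ, hχ, hc, hs, h1, h0, hle⟩ := exists_cut hK hO hKO
  have hcong : ∀ x ∈ S, f x = χ x * f x := by
    intro x hx
    by_cases hxK : x ∈ K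
    · rw [h1 x hxK, one_mul]
    · rw [hfS x hx hxK, mul_zero]
  rw [integral_congr_carrier hνS hcong]
  have hc' : HasCompactSupport fun x => χ x * f x := hc.mul_right
  have hs' : tsupport (fun x => χ x * f x) ⊆ O := (tsupport_mul_subset_left).trans hs
  refine (h.tendsto _ (hχ.mul hf) hc' hs').congr' ?_
  filter_upwards [hμS] with i hi
  exact (integral_congr_carrier hi hcong).symm

end Crest.Agent.R234.Cp914
end

-- ▼ part R234/Cp3_914

/-!
Convergence of set integrals, supports (row 234, helper914).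
-/

set_option autoImplicit false
set_option linter.unusedSectionVars false
set_option linter.unusedVariables false

open MeasureTheory Filter Topology Set
open scoped CompactlySupported ENNReal

namespace Crest.Agent.R234.Cp914

variable {X : Type*} [MetricSpace X] [ProperSpace X] [MeasurableSpace X] [BorelSpace X]
variable {ι : Type*} {O : Set X} {F : Filter ι} {μ : ι → Measure X} {ν : Measure X}




/-- points of the open support (balls). -/
def spt (μ : Measure X) : Set X := {x | ∀ ρ : ℝ, 0 < ρ → 0 < μ (Metric.ball x ρ)}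

theorem isClosed_spt (μ : Measure X) : IsClosed (spt μ) := by
  refine isClosed_of_closure_subset fun x hx ρ hρ => ?_
  obtain ⟨y, hy, hxy⟩ := Metric.mem_closure_iff.1 hx (ρ / 2) (by positivity)
  refine (hy (ρ / 2) (by positivity)).trans_le (measure_mono ?_)
  refine Metric.ball_subset_ball' ?_
  rw [dist_comm y x]; linarith

theorem measure_compl_spt (μ : Measure X) : μ (spt μ)ᶜ = 0 := by
  refine measure_null_of_locally_null _ fun x hx => ?_
  simp only [spt, mem_compl_iff, mem_setOf_eq, not_forall, not_lt, nonpos_iff_eq_zero] at hx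
  obtain ⟨ρ, hρ, h0⟩ := hx
  exact ⟨_, mem_nhdsWithin_of_mem_nhds (Metric.ball_mem_nhds x hρ), h0⟩




end Crest.Agent.R234.Cp914
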