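import Mathlib
import Crest.Agent.R234.Al5_182
import Crest.Agent.R234.Cacc_113
import Crest.Agent.R234.Al3_640
import Crest.Agent.R234.Vf6_884
import Crest.Agent.R234.Cp3_914

-- ▼ part R234/Al4_182
section

/-!
R234 (helper182), VF-ALLARD part 4: NO HOLES and the graph function.

`V` is a measure on `E × (E →L[ℝ] E)` (a general varifold; `z.1` the point, `z.2` the plane).
-/

open MeasureTheory Metric Set Filter Topology
open scoped ContDiff RealInnerProductSpace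

namespace Crest.Agent.R234.Al4_182

noncomputable section

set_option linter.unusedSectionVars false

variable {E : Type*} [NormedAddCommGroup E] [InnerProductSpace ℝ E] [FiniteDimensional ℝ E]
  [MeasurableSpace E] [BorelSpace E]

/-- the trace of `D(f • e) ∘ P` is `Df (P e)` -/
lemma trace_smul_field {f : E → ℝ} {e : E} {x : E} (hf : DifferentiableAt ℝ f x)
    (P : E →L[ℝ] E) :
    LinearMap.trace ℝ E ((fderiv ℝ (fun y => f y • e) x).comp P).toLinearMap
      = fderiv ℝ f x (P e) := by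
  have h1 : fderiv ℝ (fun y => f y • e) x = (fderiv ℝ f x).smulRight e := by
    rw [fderiv_smul_const hf]
  rw [h1]
  have h2 : (((fderiv ℝ f x).smulRight e).comp P).toLinearMap
      = LinearMap.smulRight ((fderiv ℝ f x).comp P).toLinearMap e := by
    ext v
    simp
  rw [h2, LinearMap.trace_smulRight]
  simp

/-- the kernel `(1 - s)_+ ^ p` -/
def ph (p : ℕ) (s : ℝ) : ℝ := (max (1 - s) 0) ^ p

lemma ph_nonneg (p : ℕ) (s : ℝ) : 0 ≤ ph p s := pow_nonneg (le_max_right _ _) _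

lemma ph_le_one (p : ℕ) {s : ℝ} (hs : 0 ≤ s) : ph p s ≤ 1 := by
  refine pow_le_one₀ (le_max_right _ _) ?_
  exact max_le (by linarith) zero_le_one

lemma ph_zero_of_ge {p : ℕ} (hp : p ≠ 0) {s : ℝ} (hs : 1 ≤ s) : ph p s = 0 := by
  have : max (1 - s) 0 = 0 := max_eq_right (by linarith)
  simp [ph, this, hp]

lemma hasDerivAt_ph2 (s : ℝ) : HasDerivAt (ph 2) (-2 * ph 1 s) s := by
  unfold ph
  rcases lt_trichotomy s 1 with h | h | h
  · have hev : (fun t : ℝ => (max (1 - t) 0) ^ 2) =ᶠ[𝓝 s] fun t => (1 - t) ^ 2 := by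
      filter_upwards [Iio_mem_nhds h] with t ht
      rw [max_eq_left (by have : t < 1 := ht; linarith)]
    have h1 : HasDerivAt (fun t : ℝ => (1 - t) ^ 2) (-2 * (1 - s)) s := by
      have := ((hasDerivAt_id s).const_sub 1).pow 2
      refine this.congr_deriv ?_
      simp only [id_eq, Nat.cast_ofNat]
      ring
    rw [max_eq_left (by linarith), pow_one]
    exact h1.congr_of_eventuallyEq hev
  · subst h
    simp only [sub_self, max_self, pow_one, mul_zero]
    rw [hasDerivAt_iff_isLittleO]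
    have : (fun x' : ℝ => max (1 - x') 0 ^ 2 - max (1 - (1:ℝ)) 0 ^ 2 - (x' - 1) • (0:ℝ))
        = fun x' => max (1 - x') 0 ^ 2 := by
      ext; simp
    rw [this]
    have h2 : (fun x' : ℝ => max (1 - x') 0 ^ 2) =O[𝓝 1] fun x' => (x' - 1) ^ 2 := by
      refine Asymptotics.IsBigO.of_bound 1 (Eventually.of_forall fun x' => ?_)
      rw [one_mul, Real.norm_eq_abs, Real.norm_eq_abs, abs_of_nonneg (sq_nonneg _),
        abs_of_nonneg (sq_nonneg _)]
      rcases le_total (1 - x') 0 with h | h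
      · rw [max_eq_right h]; nlinarith [sq_nonneg (x' - 1)]
      · rw [max_eq_left h]; nlinarith
    have h3 : (fun x' : ℝ => (x' - 1) ^ 2) =o[𝓝 1] fun x' => x' - 1 := by
      have h4 : Tendsto (fun x' : ℝ => x' - 1) (𝓝 1) (𝓝 0) := by
        have : Tendsto (fun x' : ℝ => x' - 1) (𝓝 1) (𝓝 (1 - 1)) :=
          tendsto_id.sub tendsto_const_nhds
        simpa using this
      have h5 := (Asymptotics.isLittleO_pow_id (𝕜 := ℝ) (n := 2) (by norm_num)).comp_tendsto h4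
      exact h5
    exact h2.trans_isLittleO h3
  · have hev : (fun t : ℝ => (max (1 - t) 0) ^ 2) =ᶠ[𝓝 s] fun _ => (0:ℝ) := by
      filter_upwards [Ioi_mem_nhds h] with t ht
      rw [max_eq_right (by have : 1 < t := ht; linarith)]; simp
    rw [max_eq_right (by linarith)]
    have := (hasDerivAt_const s (0:ℝ)).congr_of_eventuallyEq hev
    simpa using this

lemma continuous_ph (p : ℕ) : Continuous (ph p) := by
  unfold ph
  exact ((continuous_const.sub continuous_id).max continuous_const).pow p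

lemma contDiff_ph2 : ContDiff ℝ 1 (ph 2) := by
  rw [contDiff_one_iff_deriv]
  refine ⟨fun s => (hasDerivAt_ph2 s).differentiableAt, ?_⟩
  have : deriv (ph 2) = fun s => -2 * ph 1 s := funext fun s => (hasDerivAt_ph2 s).deriv
  rw [this]
  exact continuous_const.mul (continuous_ph 1)

/-- the radial cut-off at `X₀` of radius `r` -/
def ker (p : ℕ) (X₀ : E) (r : ℝ) (x : E) : ℝ := ph p (‖x - X₀‖ ^ 2 / r ^ 2)

lemma ker_nonneg (p : ℕ) (X₀ : E) (r : ℝ) (x : E) : 0 ≤ ker p X₀ r x := ph_nonneg _ _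

lemma ker_le_one (p : ℕ) (X₀ : E) (r : ℝ) (x : E) : ker p X₀ r x ≤ 1 :=
  ph_le_one _ (by positivity)

lemma ker_zero {p : ℕ} (hp : p ≠ 0) {X₀ : E} {r : ℝ} (hr : 0 < r) {x : E} (hx : r ≤ ‖x - X₀‖) :
    ker p X₀ r x = 0 := by
  refine ph_zero_of_ge hp ?_
  rw [le_div_iff₀ (by positivity), one_mul]
  exact pow_le_pow_left₀ hr.le hx 2

lemma continuous_ker (p : ℕ) (X₀ : E) (r : ℝ) : Continuous (ker p X₀ r) := by
  unfold ker
  exact (continuous_ph p).comp (((continuous_id.sub continuous_const).norm.pow 2).div_const _)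

lemma hasFDerivAt_ker2 (X₀ : E) (r : ℝ) (x : E) :
    HasFDerivAt (ker 2 X₀ r) ((-4 * ker 1 X₀ r x / r ^ 2) • innerSL ℝ (x - X₀)) x := by
  have h1 : HasFDerivAt (fun y : E => ‖y - X₀‖ ^ 2) (2 • innerSL ℝ (x - X₀)) x := by
    have := (hasFDerivAt_id (𝕜 := ℝ) x).sub_const X₀
    have h2 := this.norm_sq
    simpa using h2
  have h3 : HasFDerivAt (fun y : E => ‖y - X₀‖ ^ 2 / r ^ 2)
      ((r ^ 2)⁻¹ • (2 • innerSL ℝ (x - X₀))) x := by
    have := h1.const_smul ((r ^ 2)⁻¹)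
    refine this.congr_of_eventuallyEq (Eventually.of_forall fun y => ?_)
    simp [div_eq_inv_mul]
  have h4 := (hasDerivAt_ph2 (‖x - X₀‖ ^ 2 / r ^ 2)).comp_hasFDerivAt x h3
  refine HasFDerivAt.congr_fderiv h4 ?_
  ext v
  simp [ker]
  ring

lemma contDiff_ker2 (X₀ : E) (r : ℝ) : ContDiff ℝ 1 (ker 2 X₀ r) := by
  unfold ker
  refine contDiff_ph2.comp ?_
  exact (((contDiff_id.sub contDiff_const).norm_sq ℝ).div_const _)

/-- the test function `ker · ⟨x - X₀, e⟩` -/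
def tf (X₀ : E) (r : ℝ) (e : E) (x : E) : ℝ := ker 2 X₀ r x * inner ℝ (x - X₀) e

lemma hasFDerivAt_tf (X₀ : E) (r : ℝ) (e : E) (x : E) :
    HasFDerivAt (tf X₀ r e)
      (ker 2 X₀ r x • innerSL ℝ e +
        (inner ℝ (x - X₀) e * (-4 * ker 1 X₀ r x / r ^ 2)) • innerSL ℝ (x - X₀)) x := by
  have h1 := hasFDerivAt_ker2 X₀ r x
  have h2 : HasFDerivAt (fun y : E => inner ℝ (y - X₀) e) (innerSL ℝ e) x := by
    have h3 : HasFDerivAt (fun y : E => innerSL ℝ e (y - X₀)) (innerSL ℝ e) x := by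
      have h4 := (hasFDerivAt_id (𝕜 := ℝ) x).sub_const X₀
      exact (((innerSL ℝ e).hasFDerivAt (x := x - X₀)).comp x h4).congr_fderiv
        (by ext v; simp)
    refine h3.congr_of_eventuallyEq (Eventually.of_forall fun y => ?_)
    simp [real_inner_comm]
  have h5 := h1.mul h2
  refine HasFDerivAt.congr_fderiv h5 ?_
  ext v
  simp only [add_apply, smul_apply, innerSL_apply_apply,
    smul_eq_mul]
  ring

lemma contDiff_tf (X₀ : E) (r : ℝ) (e : E) : ContDiff ℝ 1 (tf X₀ r e) := by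
  unfold tf
  exact (contDiff_ker2 X₀ r).mul ((contDiff_id.sub contDiff_const).inner ℝ contDiff_const)

lemma tf_trace (X₀ : E) (r : ℝ) (e : E) (x : E) (P : E →L[ℝ] E) :
    LinearMap.trace ℝ E ((fderiv ℝ (fun y => tf X₀ r e y • e) x).comp P).toLinearMap
      = ker 2 X₀ r x * inner ℝ e (P e)
        - 4 / r ^ 2 * (ker 1 X₀ r x * inner ℝ (x - X₀) e * inner ℝ (x - X₀) (P e)) := by
  have h := hasFDerivAt_tf X₀ r e x
  rw [trace_smul_field h.differentiableAt, h.fderiv]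
  simp only [add_apply, smul_apply, innerSL_apply_apply,
    smul_eq_mul]
  ring

/-- integrability of bounded measurable functions living over a ball of finite mass -/
lemma integrable_of_ball {V : Measure (E × (E →L[ℝ] E))} {X₀ : E} {R : ℝ}
    (hfin : V (closedBall X₀ R ×ˢ univ) < ⊤) {g : E × (E →L[ℝ] E) → ℝ}
    (hg : AEStronglyMeasurable g V) {C : ℝ} (hb : ∀ᵐ z ∂V, ‖g z‖ ≤ C)
    (hs : ∀ z : E × (E →L[ℝ] E), z.1 ∉ closedBall X₀ R → g z = 0) : Integrable g V := by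
  have hms : MeasurableSet (closedBall X₀ R ×ˢ (univ : Set (E →L[ℝ] E))) :=
    isClosed_closedBall.measurableSet.prod MeasurableSet.univ
  have h1 : IntegrableOn g (closedBall X₀ R ×ˢ univ) V := by
    refine Integrable.mono' (g := fun _ => C) ?_ hg.restrict (ae_restrict_of_ae hb)
    exact integrableOn_const (hs := hfin.ne)
  refine (integrableOn_iff_integrable_of_support_subset ?_).1 h1
  intro z hz
  by_contra hcon
  apply hz
  apply hs
  intro hz1
  exact hcon ⟨hz1, mem_univ _⟩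

lemma norm_le_of_ker1 {X₀ : E} {r : ℝ} (hr : 0 < r) {x : E} (h : ker 1 X₀ r x ≠ 0) :
    ‖x - X₀‖ ≤ r := by
  by_contra hcon
  exact h (ker_zero one_ne_zero hr (not_le.1 hcon).le)

lemma ker1_le_ker2 {X₀ : E} {r : ℝ} (hr : 0 < r) (x : E) :
    ker 1 X₀ r x ≤ 16 / 9 * ker 2 X₀ (2 * r) x := by
  by_cases h : ker 1 X₀ r x = 0
  · rw [h]
    have := ker_nonneg 2 X₀ (2 * r) x
    positivity
  · have h1 := norm_le_of_ker1 hr h
    have h2 : ker 1 X₀ r x ≤ 1 := ker_le_one _ _ _ _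
    have h3 : ‖x - X₀‖ ^ 2 / (2 * r) ^ 2 ≤ 1 / 4 := by
      rw [div_le_iff₀ (by positivity)]
      have := pow_le_pow_left₀ (norm_nonneg _) h1 2
      nlinarith
    have h4 : 3 / 4 ≤ max (1 - ‖x - X₀‖ ^ 2 / (2 * r) ^ 2) 0 := le_max_of_le_left (by linarith)
    have h5 : 9 / 16 ≤ ker 2 X₀ (2 * r) x := by
      unfold ker ph
      nlinarith
    linarith

/-- the key inequality excluding holes -/
lemma no_hole_ineq {V : Measure (E × (E →L[ℝ] E))} {X₀ e : E} {r : ℝ} (hr : 0 < r)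
    (he : ‖e‖ = 1) (hfin : V (closedBall X₀ (2 * r) ×ˢ univ) < ⊤)
    (hP : ∀ᵐ z ∂V, ‖z.2‖ ≤ 1)
    (hst : ∫ z, LinearMap.trace ℝ E
      ((fderiv ℝ (fun y => tf X₀ r e y • e) z.1).comp z.2).toLinearMap ∂V = 0)
    {θ δ τ κ : ℝ} (m : ℕ) (hκ : 0 ≤ κ)
    (hlow : θ * r ^ m ≤ ∫ z, ker 2 X₀ r z.1 ∂V)
    (hup : ∫ z, ker 2 X₀ (2 * r) z.1 ∂V ≤ (1 + δ) * θ * (2 * r) ^ m)
    (hmv : |∫ z, ker 2 X₀ (2 * r) z.1 * inner ℝ (z.1 - X₀) e ∂V|
      ≤ δ * θ * (2 * r) ^ m * (2 * r))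
    (htilt : ∫ z, ker 2 X₀ r z.1 * (1 - inner ℝ e (z.2 e)) ∂V ≤ τ * r ^ m)
    (hone : ∀ᵐ z ∂V, z.1 ∈ ball X₀ (2 * r) → inner ℝ (z.1 - X₀) e ≤ κ) :
    (θ - τ) * r ^ m ≤ 4 / r * (16 / 9 * (2 * κ * ((1 + δ) * θ * (2 * r) ^ m)
      + δ * θ * (2 * r) ^ m * (2 * r))) := by
  have hk0 : ∀ p : ℕ, p ≠ 0 → ∀ ρ : ℝ, 0 < ρ → ρ ≤ 2 * r → ∀ x : E, x ∉ closedBall X₀ (2 * r) →
      ker p X₀ ρ x = 0 := by
    intro p hp ρ hρ hρr x hx
    refine ker_zero hp hρ ?_
    rw [mem_closedBall, dist_eq_norm, not_le] at hx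
    linarith
  have hmk : ∀ p : ℕ, ∀ ρ : ℝ, Continuous fun z : E × (E →L[ℝ] E) => ker p X₀ ρ z.1 :=
    fun p ρ => (continuous_ker p X₀ ρ).comp continuous_fst
  have hml : Continuous fun z : E × (E →L[ℝ] E) => inner ℝ (z.1 - X₀) e :=
    (continuous_fst.sub continuous_const).inner continuous_const
  have hmPe : Continuous fun z : E × (E →L[ℝ] E) => z.2 e :=
    continuous_snd.clm_apply continuous_const
  -- integrabilities
  have i1 : Integrable (fun z : E × (E →L[ℝ] E) => ker 2 X₀ r z.1) V := by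
    refine integrable_of_ball hfin (hmk 2 r).aestronglyMeasurable (C := 1)
      (Eventually.of_forall fun z => ?_) fun z hz => hk0 2 two_ne_zero r hr (by linarith) _ hz
    rw [Real.norm_eq_abs, abs_of_nonneg (ker_nonneg _ _ _ _)]
    exact ker_le_one _ _ _ _
  have i2 : Integrable (fun z : E × (E →L[ℝ] E) => ker 2 X₀ (2 * r) z.1) V := by
    refine integrable_of_ball hfin (hmk 2 _).aestronglyMeasurable (C := 1)
      (Eventually.of_forall fun z => ?_) fun z hz =>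
        hk0 2 two_ne_zero (2 * r) (by linarith) le_rfl _ hz
    rw [Real.norm_eq_abs, abs_of_nonneg (ker_nonneg _ _ _ _)]
    exact ker_le_one _ _ _ _
  have hPe : ∀ᵐ z ∂V, |(inner ℝ e (z.2 e) : ℝ)| ≤ 1 := by
    filter_upwards [hP] with z hz
    calc |(inner ℝ e (z.2 e) : ℝ)| ≤ ‖e‖ * ‖z.2 e‖ := abs_real_inner_le_norm _ _
      _ ≤ ‖e‖ * (‖z.2‖ * ‖e‖) := by gcongr; exact z.2.le_opNorm e
      _ ≤ 1 := by rw [he]; linarith
  have i3 : Integrable (fun z : E × (E →L[ℝ] E) => ker 2 X₀ r z.1 * inner ℝ e (z.2 e)) V := by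
    refine integrable_of_ball hfin ((hmk 2 r).mul
      (continuous_const.inner hmPe)).aestronglyMeasurable (C := 1) ?_
      fun z hz => by rw [hk0 2 two_ne_zero r hr (by linarith) _ hz, zero_mul]
    filter_upwards [hPe] with z hz
    rw [norm_mul, Real.norm_eq_abs, Real.norm_eq_abs, abs_of_nonneg (ker_nonneg _ _ _ _)]
    have h1 := ker_le_one 2 X₀ r z.1
    have h2 := ker_nonneg 2 X₀ r z.1
    have h3 := abs_nonneg (inner ℝ e (z.2 e) : ℝ)
    nlinarith
  have hℓ : ∀ ρ : ℝ, ∀ x : E, ‖x - X₀‖ ≤ ρ → |(inner ℝ (x - X₀) e : ℝ)| ≤ ρ := by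
    intro ρ x hx
    calc |(inner ℝ (x - X₀) e : ℝ)| ≤ ‖x - X₀‖ * ‖e‖ := abs_real_inner_le_norm _ _
      _ ≤ ρ := by rw [he, mul_one]; exact hx
  have i4 : Integrable (fun z : E × (E →L[ℝ] E) =>
      ker 1 X₀ r z.1 * inner ℝ (z.1 - X₀) e * inner ℝ (z.1 - X₀) (z.2 e)) V := by
    refine integrable_of_ball hfin (((hmk 1 r).mul hml).mul
      ((continuous_fst.sub continuous_const).inner hmPe)).aestronglyMeasurable (C := r * r) ?_
      fun z hz => by rw [hk0 1 one_ne_zero r hr (by linarith) _ hz, zero_mul, zero_mul]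
    filter_upwards [hP] with z hz
    by_cases h0 : ker 1 X₀ r z.1 = 0
    · rw [h0]; simp; positivity
    · have h1 := norm_le_of_ker1 hr h0
      have h2 := hℓ r z.1 h1
      have h3 : |(inner ℝ (z.1 - X₀) (z.2 e) : ℝ)| ≤ r := by
        calc |(inner ℝ (z.1 - X₀) (z.2 e) : ℝ)| ≤ ‖z.1 - X₀‖ * ‖z.2 e‖ :=
              abs_real_inner_le_norm _ _
          _ ≤ r * (1 * 1) := by
              gcongr
              calc ‖z.2 e‖ ≤ ‖z.2‖ * ‖e‖ := z.2.le_opNorm e
                _ ≤ 1 * 1 := by rw [he]; gcongr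
          _ = r := by ring
      rw [norm_mul, norm_mul, Real.norm_eq_abs, Real.norm_eq_abs, Real.norm_eq_abs,
        abs_of_nonneg (ker_nonneg _ _ _ _)]
      have h4 := ker_le_one 1 X₀ r z.1
      have h5 := ker_nonneg 1 X₀ r z.1
      have h6 := abs_nonneg (inner ℝ (z.1 - X₀) e : ℝ)
      have h7 := abs_nonneg (inner ℝ (z.1 - X₀) (z.2 e) : ℝ)
      calc ker 1 X₀ r z.1 * |(inner ℝ (z.1 - X₀) e : ℝ)| * |(inner ℝ (z.1 - X₀) (z.2 e) : ℝ)|
          ≤ 1 * r * r := by gcongr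
        _ = r * r := by ring
  have i5 : Integrable (fun z : E × (E →L[ℝ] E) =>
      ker 2 X₀ (2 * r) z.1 * inner ℝ (z.1 - X₀) e) V := by
    refine integrable_of_ball hfin ((hmk 2 _).mul hml).aestronglyMeasurable (C := 2 * r)
      (Eventually.of_forall fun z => ?_) fun z hz => by
        rw [hk0 2 two_ne_zero (2 * r) (by linarith) le_rfl _ hz, zero_mul]
    by_cases h0 : ‖z.1 - X₀‖ ≤ 2 * r
    · have h2 := hℓ (2 * r) z.1 h0
      rw [norm_mul, Real.norm_eq_abs, Real.norm_eq_abs, abs_of_nonneg (ker_nonneg _ _ _ _)]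
      have h4 := ker_le_one 2 X₀ (2 * r) z.1
      have h5 := ker_nonneg 2 X₀ (2 * r) z.1
      calc ker 2 X₀ (2 * r) z.1 * |(inner ℝ (z.1 - X₀) e : ℝ)| ≤ 1 * (2 * r) := by gcongr
        _ = 2 * r := by ring
    · rw [hk0 2 two_ne_zero (2 * r) (by linarith) le_rfl _ (by
        rw [mem_closedBall, dist_eq_norm]; exact h0), zero_mul, norm_zero]
      positivity
  have i6 : Integrable (fun z : E × (E →L[ℝ] E) =>
      ker 2 X₀ (2 * r) z.1 * |inner ℝ (z.1 - X₀) e|) V := by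
    refine i5.norm.congr (Eventually.of_forall fun z => ?_)
    simp only [norm_mul, Real.norm_eq_abs]
    rw [abs_of_nonneg (ker_nonneg _ _ _ _)]
  -- the identity
  have hid : ∫ z, ker 2 X₀ r z.1 * inner ℝ e (z.2 e) ∂V
      = 4 / r ^ 2 * ∫ z, ker 1 X₀ r z.1 * inner ℝ (z.1 - X₀) e
        * inner ℝ (z.1 - X₀) (z.2 e) ∂V := by
    have h1 : ∫ z, (ker 2 X₀ r z.1 * inner ℝ e (z.2 e)
        - 4 / r ^ 2 * (ker 1 X₀ r z.1 * inner ℝ (z.1 - X₀) e
          * inner ℝ (z.1 - X₀) (z.2 e))) ∂V = 0 := by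
      rw [← hst]
      refine integral_congr_ae (Eventually.of_forall fun z => ?_)
      exact (tf_trace X₀ r e z.1 z.2).symm
    rw [integral_sub i3 (i4.const_mul _), integral_const_mul] at h1
    linarith
  have hA : (θ - τ) * r ^ m ≤ ∫ z, ker 2 X₀ r z.1 * inner ℝ e (z.2 e) ∂V := by
    have h1 : ∫ z, ker 2 X₀ r z.1 * (1 - inner ℝ e (z.2 e)) ∂V
        = ∫ z, ker 2 X₀ r z.1 ∂V - ∫ z, ker 2 X₀ r z.1 * inner ℝ e (z.2 e) ∂V := by
      rw [← integral_sub i1 i3]
      refine integral_congr_ae (Eventually.of_forall fun z => ?_)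
      simp only
      ring
    rw [h1] at htilt
    nlinarith
  have hB : 4 / r ^ 2 * ∫ z, ker 1 X₀ r z.1 * inner ℝ (z.1 - X₀) e
        * inner ℝ (z.1 - X₀) (z.2 e) ∂V
      ≤ 4 / r * (16 / 9 * ∫ z, ker 2 X₀ (2 * r) z.1 * |inner ℝ (z.1 - X₀) e| ∂V) := by
    have h1 : ∫ z, ker 1 X₀ r z.1 * inner ℝ (z.1 - X₀) e
        * inner ℝ (z.1 - X₀) (z.2 e) ∂V
        ≤ ∫ z, (r * (16 / 9)) * (ker 2 X₀ (2 * r) z.1 * |inner ℝ (z.1 - X₀) e|) ∂V := by
      refine integral_mono_ae i4 (i6.const_mul _) ?_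
      filter_upwards [hP] with z hz
      by_cases h0 : ker 1 X₀ r z.1 = 0
      · simp only [h0, zero_mul]
        have := ker_nonneg 2 X₀ (2 * r) z.1
        positivity
      · have h1 := norm_le_of_ker1 hr h0
        have h3 : |(inner ℝ (z.1 - X₀) (z.2 e) : ℝ)| ≤ r := by
          calc |(inner ℝ (z.1 - X₀) (z.2 e) : ℝ)| ≤ ‖z.1 - X₀‖ * ‖z.2 e‖ :=
                abs_real_inner_le_norm _ _
            _ ≤ r * (1 * 1) := by
                gcongr
                calc ‖z.2 e‖ ≤ ‖z.2‖ * ‖e‖ := z.2.le_opNorm e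
                  _ ≤ 1 * 1 := by rw [he]; gcongr
            _ = r := by ring
        have h5 := ker_nonneg 1 X₀ r z.1
        have h6 := abs_nonneg (inner ℝ (z.1 - X₀) e : ℝ)
        have h7 := ker1_le_ker2 (X₀ := X₀) hr z.1
        calc ker 1 X₀ r z.1 * inner ℝ (z.1 - X₀) e * inner ℝ (z.1 - X₀) (z.2 e)
            ≤ |ker 1 X₀ r z.1 * inner ℝ (z.1 - X₀) e * inner ℝ (z.1 - X₀) (z.2 e)| := le_abs_self _
          _ = ker 1 X₀ r z.1 * |(inner ℝ (z.1 - X₀) e : ℝ)|
              * |(inner ℝ (z.1 - X₀) (z.2 e) : ℝ)| := by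
                rw [abs_mul, abs_mul, abs_of_nonneg h5]
          _ ≤ (16 / 9 * ker 2 X₀ (2 * r) z.1) * |(inner ℝ (z.1 - X₀) e : ℝ)| * r :=
              mul_le_mul (mul_le_mul_of_nonneg_right h7 h6) h3 (abs_nonneg _)
                (mul_nonneg (h5.trans h7) h6)
          _ = (r * (16 / 9)) * (ker 2 X₀ (2 * r) z.1 * |inner ℝ (z.1 - X₀) e|) := by ring
    rw [integral_const_mul] at h1
    calc 4 / r ^ 2 * ∫ z, ker 1 X₀ r z.1 * inner ℝ (z.1 - X₀) e
          * inner ℝ (z.1 - X₀) (z.2 e) ∂V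
        ≤ 4 / r ^ 2 * (r * (16 / 9) *
          ∫ z, ker 2 X₀ (2 * r) z.1 * |inner ℝ (z.1 - X₀) e| ∂V) := by gcongr
      _ = 4 / r * (16 / 9 * ∫ z, ker 2 X₀ (2 * r) z.1 * |inner ℝ (z.1 - X₀) e| ∂V) := by
          field_simp
  have hC : ∫ z, ker 2 X₀ (2 * r) z.1 * |inner ℝ (z.1 - X₀) e| ∂V
      ≤ 2 * κ * ((1 + δ) * θ * (2 * r) ^ m) + δ * θ * (2 * r) ^ m * (2 * r) := by
    have h1 : ∫ z, ker 2 X₀ (2 * r) z.1 * |inner ℝ (z.1 - X₀) e| ∂V
        ≤ ∫ z, (2 * κ * ker 2 X₀ (2 * r) z.1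
          - ker 2 X₀ (2 * r) z.1 * inner ℝ (z.1 - X₀) e) ∂V := by
      refine integral_mono_ae i6 ((i2.const_mul _).sub i5) ?_
      filter_upwards [hone] with z hz
      by_cases h0 : z.1 ∈ ball X₀ (2 * r)
      · have h2 := hz h0
        have h3 := ker_nonneg 2 X₀ (2 * r) z.1
        rcases le_total 0 (inner ℝ (z.1 - X₀) e : ℝ) with h4 | h4
        · rw [abs_of_nonneg h4]; nlinarith
        · rw [abs_of_nonpos h4]; nlinarith
      · have h5 : ker 2 X₀ (2 * r) z.1 = 0 := by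
          refine ker_zero two_ne_zero (by linarith) ?_
          rw [mem_ball, dist_eq_norm, not_lt] at h0
          exact h0
        simp [h5]
    rw [integral_sub (i2.const_mul _) i5, integral_const_mul] at h1
    have h2 := (abs_le.1 hmv).1
    have h3 : 2 * κ * ∫ z, ker 2 X₀ (2 * r) z.1 ∂V ≤ 2 * κ * ((1 + δ) * θ * (2 * r) ^ m) := by
      gcongr
    linarith
  calc (θ - τ) * r ^ m ≤ ∫ z, ker 2 X₀ r z.1 * inner ℝ e (z.2 e) ∂V := hA
    _ = _ := hid
    _ ≤ _ := hB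
    _ ≤ _ := by gcongr

end

end Crest.Agent.R234.Al4_182
end

-- ▼ part R234/Al6_182
section

/-!
R234 (helper182), VF-ALLARD part 6: NO HOLES for stationary varifolds of mass ratio close to one
near a plane (local form), from the mean value property for linear functions.
-/

open MeasureTheory Metric Set Filter Topology
open scoped ContDiff RealInnerProductSpace

namespace Crest.Agent.R234.Al6_182

open Crest.Agent.R234.Al4_182 Crest.Agent.R234.Cacc_113

noncomputable section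

set_option linter.unusedSectionVars false

variable {E : Type*} [NormedAddCommGroup E] [InnerProductSpace ℝ E] [FiniteDimensional ℝ E]

lemma isPr_starProjection (T : Submodule ℝ E) : IsPr T.starProjection := by
  refine ⟨fun x => ?_, fun x y => ?_⟩
  · exact Submodule.starProjection_eq_self_iff.2 (Submodule.starProjection_apply_mem T x)
  · rw [← ContinuousLinearMap.adjoint_inner_right, (isSelfAdjoint_starProjection T).adjoint_eq]

lemma tr_starProjection (T : Submodule ℝ E) : tr T.starProjection = Module.finrank ℝ T := by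
  have hp : LinearMap.IsProj T T.starProjection.toLinearMap := by
    refine ⟨fun x => ?_, fun x hx => ?_⟩
    · exact Submodule.starProjection_apply_mem T x
    · exact Submodule.starProjection_eq_self_iff.2 hx
  rw [tr, hp.trace]

lemma starProjection_compl (T : Submodule ℝ E) : Tᗮ.starProjection = 1 - T.starProjection := by
  ext x
  have := Submodule.starProjection_add_starProjection_orthogonal (K := T) x
  simp only [sub_apply, one_apply_eq_self]
  rw [← this]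
  simp

/-- the defect of a unit horizontal vector is controlled by the tilt -/
lemma one_sub_inner_le {T : Submodule ℝ E} {P : E →L[ℝ] E} (hP : IsPr P)
    (htr : tr P = Module.finrank ℝ T) {e : E} (he : e ∈ T) (hen : ‖e‖ = 1) :
    1 - (inner ℝ e (P e) : ℝ) ≤ tr (Tᗮ.starProjection ∘L P) := by
  have h1 := hP.compl.norm_sq_le (isPr_starProjection T)
    (y := e) (Submodule.starProjection_eq_self_iff.2 he)
  rw [hen, one_pow, mul_one] at h1
  have h2 : ‖(1 - P) e‖ ^ 2 = 1 - (inner ℝ e (P e) : ℝ) := by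
    rw [← hP.compl.inner_self]
    simp only [sub_apply, one_apply_eq_self]
    rw [inner_sub_right, real_inner_self_eq_norm_sq, hen, one_pow]
  have h3 : tr (T.starProjection ∘L (1 - P)) = tr (Tᗮ.starProjection ∘L P) := by
    have e1 : T.starProjection ∘L (1 - P) = T.starProjection - T.starProjection ∘L P := by
      ext x; simp
    have e2 : Tᗮ.starProjection ∘L P = P - T.starProjection ∘L P := by
      rw [starProjection_compl]; ext x; simp
    rw [e1, e2, tr_sub, tr_sub, tr_starProjection, htr]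
  rw [← h2, ← h3]
  exact h1

variable [MeasurableSpace E] [BorelSpace E]

lemma ker2_eq_sq (X₀ : E) (r : ℝ) (x : E) : ker 2 X₀ r x = ker 1 X₀ r x ^ 2 := by
  simp [Al4_182.ker, ph]



variable {U : Set E} {V : Measure (E × (E →L[ℝ] E))}

/-- tilt bound from the height bound -/
lemma tilt_le (hSt : St U V) {T : Submodule ℝ E} {X₀ : E} {r : ℝ} (hr : 0 < r)
    (hball : closedBall X₀ (2 * r) ⊆ U) {lam A : ℝ}
    (hflat : ∀ᵐ z ∂V, z.1 ∈ ball X₀ (2 * r) →
      ‖Tᗮ.starProjection (z.1 - X₀)‖ ≤ lam * ‖z.1 - X₀‖)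
    (hA : ∫ z, ker 2 X₀ (2 * r) z.1 ∂V ≤ A) :
    ∫ z, ker 2 X₀ r z.1 * tr (Tᗮ.starProjection ∘L z.2) ∂V ≤ 203 * lam ^ 2 * A := by
  have h2r : 0 < 2 * r := by linarith
  set η : E → ℝ := fun x => 16 / 9 * ker 2 X₀ (2 * r) x with hη
  have hη1 : ContDiff ℝ 1 η := contDiff_const.mul (contDiff_ker2 X₀ (2 * r))
  have hts : tsupport η ⊆ closedBall X₀ (2 * r) := by
    refine closure_minimal ?_ isClosed_closedBall
    intro x hx
    rw [mem_closedBall, dist_eq_norm]
    by_contra hcon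
    apply hx
    simp only [hη]
    rw [ker_zero two_ne_zero h2r (not_le.1 hcon).le, mul_zero]
  have hcs : HasCompactSupport η :=
    (isCompact_closedBall X₀ (2 * r)).of_isClosed_subset (isClosed_tsupport _) hts
  have hfd : ∀ x, fderiv ℝ η x
      = (16 / 9 * (-4 * ker 1 X₀ (2 * r) x / (2 * r) ^ 2)) • innerSL ℝ (x - X₀) := by
    intro x
    have h1 := (hasFDerivAt_ker2 X₀ (2 * r) x).const_mul (16 / 9)
    have h2 : HasFDerivAt η ((16 / 9 * (-4 * ker 1 X₀ (2 * r) x / (2 * r) ^ 2)) •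
        innerSL ℝ (x - X₀)) x := by
      refine h1.congr_fderiv ?_
      rw [smul_smul]
    exact h2.fderiv
  have hcac := hSt.caccioppoli hη1 hcs (hts.trans hball) (isPr_starProjection Tᗮ) X₀
  have hi0 : Integrable (fun z : E × (E →L[ℝ] E) => ker 2 X₀ r z.1 *
      tr (Tᗮ.starProjection ∘L z.2)) V := by
    refine hSt.integrable ?_ (isCompact_closedBall X₀ (2 * r)) hball ?_
    · exact ((continuous_ker 2 X₀ r).comp continuous_fst).mul
        (continuous_tr.comp (continuous_const.clm_comp continuous_snd))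
    · intro z hz
      rw [mem_closedBall, dist_eq_norm, not_le] at hz
      rw [ker_zero two_ne_zero hr (by linarith), zero_mul]
  have hi1 : Integrable (fun z : E × (E →L[ℝ] E) => η z.1 ^ 2 *
      tr (Tᗮ.starProjection ∘L z.2)) V := by
    refine hSt.integrable ?_ (isCompact_closedBall X₀ (2 * r)) hball ?_
    · exact ((hη1.continuous.comp continuous_fst).pow 2).mul
        (continuous_tr.comp (continuous_const.clm_comp continuous_snd))
    · intro z hz
      rw [mem_closedBall, dist_eq_norm, not_le] at hz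
      simp only [hη]
      rw [ker_zero two_ne_zero h2r hz.le]; simp
  have hi2 : Integrable (fun z : E × (E →L[ℝ] E) => ‖fderiv ℝ η z.1‖ ^ 2 *
      ‖Tᗮ.starProjection (z.1 - X₀)‖ ^ 2) V := by
    refine hSt.integrable ?_ (isCompact_closedBall X₀ (2 * r)) hball ?_
    · exact ((((hη1.continuous_fderiv one_ne_zero).comp continuous_fst).norm).pow 2).mul
        ((Tᗮ.starProjection.continuous.comp (continuous_fst.sub continuous_const)).norm.pow 2)
    · intro z hz
      rw [mem_closedBall, dist_eq_norm, not_le] at hz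
      rw [hfd, ker_zero one_ne_zero h2r hz.le]; simp
  have hi3 : Integrable (fun z : E × (E →L[ℝ] E) => ker 2 X₀ (2 * r) z.1) V := by
    refine hSt.integrable ((continuous_ker 2 X₀ (2 * r)).comp continuous_fst)
      (isCompact_closedBall X₀ (2 * r)) hball ?_
    intro z hz
    rw [mem_closedBall, dist_eq_norm, not_le] at hz
    exact ker_zero two_ne_zero h2r hz.le
  have h1 : ∫ z, ker 2 X₀ r z.1 * tr (Tᗮ.starProjection ∘L z.2) ∂V
      ≤ ∫ z, η z.1 ^ 2 * tr (Tᗮ.starProjection ∘L z.2) ∂V := by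
    refine integral_mono_ae hi0 hi1 ?_
    filter_upwards [hSt.pr] with z hz
    have h2 := ker1_le_ker2 (X₀ := X₀) hr z.1
    have h3 := ker_nonneg 1 X₀ r z.1
    have h4 : ker 2 X₀ r z.1 ≤ η z.1 ^ 2 := by
      rw [ker2_eq_sq]
      exact pow_le_pow_left₀ h3 h2 2
    exact mul_le_mul_of_nonneg_right h4 (IsPr.tr_nonneg_conj hz (isPr_starProjection Tᗮ))
  have h2 : ∫ z, ‖fderiv ℝ η z.1‖ ^ 2 * ‖Tᗮ.starProjection (z.1 - X₀)‖ ^ 2 ∂V
      ≤ ∫ z, (4096 / 81 * lam ^ 2) * ker 2 X₀ (2 * r) z.1 ∂V := by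
    refine integral_mono_ae hi2 (hi3.const_mul _) ?_
    filter_upwards [hflat] with z hz
    by_cases hk : ker 1 X₀ (2 * r) z.1 = 0
    · have h0 : fderiv ℝ η z.1 = 0 := by rw [hfd, hk]; simp
      rw [h0, norm_zero, zero_pow two_ne_zero, zero_mul]
      have := ker_nonneg 2 X₀ (2 * r) z.1
      positivity
    · have hzb : z.1 ∈ ball X₀ (2 * r) := by
        rw [mem_ball, dist_eq_norm]
        by_contra hcon
        exact hk (ker_zero one_ne_zero h2r (not_lt.1 hcon))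
      have h3 := hz hzb
      have h4 : ‖z.1 - X₀‖ ≤ 2 * r := norm_le_of_ker1 h2r hk
      have h5 : ‖fderiv ℝ η z.1‖ ≤ 16 / 9 * (ker 1 X₀ (2 * r) z.1 / r ^ 2) * ‖z.1 - X₀‖ := by
        rw [hfd, norm_smul, innerSL_apply_norm, Real.norm_eq_abs]
        have h6 := ker_nonneg 1 X₀ (2 * r) z.1
        have h7 : |16 / 9 * (-4 * ker 1 X₀ (2 * r) z.1 / (2 * r) ^ 2)|
            = 16 / 9 * (ker 1 X₀ (2 * r) z.1 / r ^ 2) := by
          have h8 : 16 / 9 * (-4 * ker 1 X₀ (2 * r) z.1 / (2 * r) ^ 2)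
              = -(16 / 9 * (ker 1 X₀ (2 * r) z.1 / r ^ 2)) := by
            field_simp
            ring
          rw [h8, abs_neg, abs_of_nonneg (by positivity)]
        rw [h7]
      have hk1 := ker_nonneg 1 X₀ (2 * r) z.1
      have h6 : ‖fderiv ℝ η z.1‖ ^ 2 ≤ (16 / 9 * (ker 1 X₀ (2 * r) z.1 / r ^ 2) * (2 * r)) ^ 2 := by
        refine pow_le_pow_left₀ (norm_nonneg _) (h5.trans ?_) 2
        gcongr
      have h7 : ‖Tᗮ.starProjection (z.1 - X₀)‖ ^ 2 ≤ (lam * ‖z.1 - X₀‖) ^ 2 :=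
        pow_le_pow_left₀ (norm_nonneg _) h3 2
      have h8 : (lam * ‖z.1 - X₀‖) ^ 2 ≤ lam ^ 2 * (2 * r) ^ 2 := by
        rw [mul_pow]
        gcongr
      calc ‖fderiv ℝ η z.1‖ ^ 2 * ‖Tᗮ.starProjection (z.1 - X₀)‖ ^ 2
          ≤ (16 / 9 * (ker 1 X₀ (2 * r) z.1 / r ^ 2) * (2 * r)) ^ 2 * (lam ^ 2 * (2 * r) ^ 2) := by
            gcongr
            exact h7.trans h8
        _ = (4096 / 81 * lam ^ 2) * ker 2 X₀ (2 * r) z.1 := by
            rw [ker2_eq_sq]
            field_simp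
            ring
  rw [integral_const_mul] at h2
  have h3 : (4096 / 81 * lam ^ 2) * ∫ z, ker 2 X₀ (2 * r) z.1 ∂V ≤ (4096 / 81 * lam ^ 2) * A := by
    gcongr
  have hA0 : 0 ≤ A := by
    refine le_trans ?_ hA
    exact integral_nonneg fun z => ker_nonneg _ _ _ _
  have h4 : 0 ≤ lam ^ 2 * A := by positivity
  linarith

/-- **NO HOLES**, local form -/
theorem no_hole_local (hSt : St U V) {T : Submodule ℝ E} {m : ℕ} (hm : Module.finrank ℝ T = m)
    (htr : ∀ᵐ z ∂V, tr z.2 = m) {S : Set E} {X₀ : E} {R : ℝ} (hR : 0 < R)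
    (hball : closedBall X₀ R ⊆ U) {θ δ lam : ℝ} (hθ : 0 < θ) (hδ : 0 ≤ δ)
    (hδm : 64 * 2 ^ m * δ ≤ 1) (hlam : 2048 * 2 ^ m * lam ^ 2 ≤ 1)
    (hlow : ∀ r, 0 < r → r ≤ R → θ * r ^ m ≤ ∫ z, ker 2 X₀ r z.1 ∂V)
    (hup : ∀ r, 0 < r → r ≤ R → ∫ z, ker 2 X₀ r z.1 ∂V ≤ (1 + δ) * θ * r ^ m)
    {e : E} (he : e ∈ T) (hen : ‖e‖ = 1)
    (hmv : ∀ r, 0 < r → r ≤ R →
      |∫ z, ker 2 X₀ r z.1 * inner ℝ (z.1 - X₀) e ∂V| ≤ δ * θ * r ^ m * r)
    (hS : ∀ᵐ z ∂V, z.1 ∈ ball X₀ R → z.1 ∈ S)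
    (hflat : ∀ y ∈ S, y ∈ ball X₀ R → ‖Tᗮ.starProjection (y - X₀)‖ ≤ lam * ‖y - X₀‖)
    {d ρ : ℝ} (hd : 0 < d) (hρ : 0 < ρ) :
    ∃ Z ∈ S, ‖Z - X₀‖ < ρ ∧ ‖Z - X₀‖ ^ 2 / (2 * d) < inner ℝ (Z - X₀) e := by
  by_contra hcon
  push Not at hcon
  obtain ⟨r, hr, hrR, hrρ, hrd⟩ : ∃ r : ℝ, 0 < r ∧ 2 * r ≤ R ∧ 2 * r ≤ ρ ∧
      256 * 2 ^ m * r ≤ d := by
    refine ⟨min (R / 2) (min (ρ / 2) (d / (256 * 2 ^ m))), by positivity, ?_, ?_, ?_⟩
    · have := min_le_left (R / 2) (min (ρ / 2) (d / (256 * 2 ^ m)))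
      linarith
    · have := (min_le_right (R / 2) (min (ρ / 2) (d / (256 * 2 ^ m)))).trans (min_le_left _ _)
      linarith
    · have := (min_le_right (R / 2) (min (ρ / 2) (d / (256 * 2 ^ m)))).trans (min_le_right _ _)
      rw [le_div_iff₀ (by positivity)] at this
      linarith
  have h2r : 0 < 2 * r := by linarith
  have hb2 : closedBall X₀ (2 * r) ⊆ U := (closedBall_subset_closedBall hrR).trans hball
  have hδ1 : δ ≤ 1 / 64 := by
    have h1 : (1 : ℝ) ≤ 2 ^ m := one_le_pow₀ (by norm_num)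
    nlinarith
  have hpm : (0 : ℝ) < 2 ^ m := by positivity
  -- tilt
  have htilt : ∫ z, ker 2 X₀ r z.1 * (1 - inner ℝ e (z.2 e)) ∂V ≤ (θ / 4) * r ^ m := by
    have h1 : ∫ z, ker 2 X₀ r z.1 * (1 - inner ℝ e (z.2 e)) ∂V
        ≤ ∫ z, ker 2 X₀ r z.1 * tr (Tᗮ.starProjection ∘L z.2) ∂V := by
      refine integral_mono_ae ?_ ?_ ?_
      · refine hSt.integrable ?_ (isCompact_closedBall X₀ (2 * r)) hb2 ?_
        · exact ((continuous_ker 2 X₀ r).comp continuous_fst).mul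
            (continuous_const.sub (continuous_const.inner
              (continuous_snd.clm_apply continuous_const)))
        · intro z hz
          rw [mem_closedBall, dist_eq_norm, not_le] at hz
          rw [ker_zero two_ne_zero hr (by linarith), zero_mul]
      · refine hSt.integrable ?_ (isCompact_closedBall X₀ (2 * r)) hb2 ?_
        · exact ((continuous_ker 2 X₀ r).comp continuous_fst).mul
            (continuous_tr.comp (continuous_const.clm_comp continuous_snd))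
        · intro z hz
          rw [mem_closedBall, dist_eq_norm, not_le] at hz
          rw [ker_zero two_ne_zero hr (by linarith), zero_mul]
      · filter_upwards [hSt.pr, htr] with z hz hz2
        refine mul_le_mul_of_nonneg_left ?_ (ker_nonneg _ _ _ _)
        exact one_sub_inner_le hz (by rw [hz2, hm]) he hen
    have h2 := tilt_le hSt (T := T) hr hb2 (lam := lam) (A := (1 + δ) * θ * (2 * r) ^ m) (by
      filter_upwards [hS] with z hz hzb
      have hzb' : z.1 ∈ ball X₀ R := ball_subset_ball hrR hzb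
      exact hflat z.1 (hz hzb') hzb') (hup (2 * r) h2r hrR)
    refine (h1.trans h2).trans ?_
    have h3 : 203 * lam ^ 2 * ((1 + δ) * θ * (2 * r) ^ m)
        = (203 * (1 + δ) * (2 ^ m * lam ^ 2)) * (θ * r ^ m) := by
      rw [mul_pow]; ring
    rw [h3]
    have h4 : 203 * (1 + δ) * (2 ^ m * lam ^ 2) ≤ 1 / 4 := by
      have h5 : 2 ^ m * lam ^ 2 ≤ 1 / 2048 := by linarith
      have h6 : 0 ≤ 2 ^ m * lam ^ 2 := by positivity
      nlinarith
    have h7 : 0 ≤ θ * r ^ m := by positivity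
    calc 203 * (1 + δ) * (2 ^ m * lam ^ 2) * (θ * r ^ m) ≤ 1 / 4 * (θ * r ^ m) := by gcongr
      _ = θ / 4 * r ^ m := by ring
  have hst : ∫ z, LinearMap.trace ℝ E
      ((fderiv ℝ (fun y => tf X₀ r e y • e) z.1).comp z.2).toLinearMap ∂V = 0 := by
    have hsub : Function.support (fun y => tf X₀ r e y • e) ⊆ closedBall X₀ r := by
      intro x hx
      rw [mem_closedBall, dist_eq_norm]
      by_contra hc
      apply hx
      simp only [tf]
      rw [ker_zero two_ne_zero hr (not_le.1 hc).le]; simp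
    have hts : tsupport (fun y => tf X₀ r e y • e) ⊆ closedBall X₀ r :=
      closure_minimal hsub isClosed_closedBall
    have := hSt.st (fun y => tf X₀ r e y • e) ((contDiff_tf X₀ r e).smul contDiff_const)
      ((isCompact_closedBall X₀ r).of_isClosed_subset (isClosed_tsupport _) hts)
      (hts.trans ((closedBall_subset_closedBall (by linarith)).trans hball))
    exact this
  have hfin : V (closedBall X₀ (2 * r) ×ˢ univ) < ⊤ := hSt.fin _ hb2 (isCompact_closedBall _ _)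
  have hone : ∀ᵐ z ∂V, z.1 ∈ ball X₀ (2 * r) →
      inner ℝ (z.1 - X₀) e ≤ (2 * r) ^ 2 / (2 * d) := by
    filter_upwards [hS] with z hz hzb
    have hzb' : z.1 ∈ ball X₀ R := ball_subset_ball hrR hzb
    rw [mem_ball, dist_eq_norm] at hzb
    refine (hcon z.1 (hz hzb') (hzb.trans_le hrρ)).trans ?_
    gcongr
  have hP1 : ∀ᵐ z ∂V, ‖z.2‖ ≤ 1 := by
    filter_upwards [hSt.pr] with z hz
    exact hz.opNorm_le
  have key := no_hole_ineq hr hen hfin hP1 hst m (θ := θ) (δ := δ) (τ := θ / 4)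
    (κ := (2 * r) ^ 2 / (2 * d)) (by positivity) (hlow r hr (by linarith))
    (hup (2 * r) h2r hrR) (hmv (2 * r) h2r hrR) htilt hone
  have h5 : 4 / r * (16 / 9 * (2 * ((2 * r) ^ 2 / (2 * d)) * ((1 + δ) * θ * (2 * r) ^ m)
      + δ * θ * (2 * r) ^ m * (2 * r)))
      = (256 / 9 * (1 + δ) * (2 ^ m * r / d) + 128 / 9 * (2 ^ m * δ)) * (θ * r ^ m) := by
    rw [mul_pow (2 : ℝ) r m]
    field_simp
    ring
  rw [h5] at key
  have h6 : 2 ^ m * r / d ≤ 1 / 256 := by
    rw [div_le_iff₀ hd]; linarith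
  have h7 : 0 ≤ 2 ^ m * r / d := by positivity
  have h8 : 2 ^ m * δ ≤ 1 / 64 := by linarith
  have h9 : 256 / 9 * (1 + δ) * (2 ^ m * r / d) + 128 / 9 * (2 ^ m * δ) ≤ 1 / 2 := by
    nlinarith
  have h10 : 0 < θ * r ^ m := by positivity
  have h11 := mul_le_mul_of_nonneg_right h9 h10.le
  nlinarith

end

end Crest.Agent.R234.Al6_182
end

-- ▼ part R234/Al7_182

/-!
R234 (helper182), VF-ALLARD part 7: the density ratio with the smooth kernel against the ball
ratios (layer cake), nearby points, and NO HOLES in the language of general stationary varifolds.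
-/

set_option autoImplicit false

open MeasureTheory Metric Set Filter Topology
open Crest.GeometryTopology.Submanifold
open scoped ENNReal RealInnerProductSpace

namespace Crest.Agent.R234.Al7_182

open Crest.Agent.R234.Vf_884

noncomputable section

variable {m k : ℕ} {U : Set (Euc k)} {V : Measure (Euc k × L k)}

theorem isPr_of_G {P : L k} (hP : P ∈ G m k) : Cacc_113.IsPr P :=
  ⟨fun x => G_idem_apply hP x, fun x y => G_symm hP x y⟩

theorem st_of_stat (hV : Stat m k U V) : Cacc_113.St U V where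
  pr := by filter_upwards [hV.conc] with z hz using isPr_of_G hz
  fin := fun K hKU hK => hV.fin K hK hKU
  st := fun X hX hXc hXU => hV.stat X hX hXc hXU

theorem tr_ae (hV : Stat m k U V) : ∀ᵐ z ∂V, Cacc_113.tr z.2 = m := by
  filter_upwards [hV.conc] with z hz
  exact hz.2.2

/-- `V` is carried by its support. -/
theorem ae_mem_spt (V : Measure (Euc k × L k)) : ∀ᵐ p ∂V, p.1 ∈ Cp914.spt (mass V) := by
  have h1 := Cp914.measure_compl_spt (mass V)
  rw [mass_apply V (Cp914.isClosed_spt (mass V)).isOpen_compl.measurableSet] at h1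
  exact h1

/-- the mass of the kernel of the plane -/
def cph (m : ℕ) : ℝ := ∫ x : Euc m, Al1_640.ph (‖x‖ ^ 2)

theorem lt_ph_iff {t s : ℝ} (ht : 0 ≤ t) : t < Al1_640.ph s ↔ s < 1 - √t := by
  unfold Al1_640.ph
  have h0 : 0 ≤ max (1 - s) 0 := le_max_right _ _
  rw [← Real.sqrt_lt_sqrt_iff ht, Real.sqrt_sq h0, lt_max_iff]
  constructor
  · rintro (h | h)
    · linarith
    · exact absurd h (not_lt.2 (Real.sqrt_nonneg t))
  · intro h
    left; linarith

theorem level_set {F : Type*} [NormedAddCommGroup F] (z : F) {r t : ℝ} (hr : 0 < r) (ht : 0 ≤ t)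
    (ht1 : t < 1) :
    {x : F | t < Al1_640.ph (‖x - z‖ ^ 2 / r ^ 2)} = ball z (r * √(1 - √t)) := by
  have h1 : √t < 1 := by
    rw [Real.sqrt_lt' one_pos]; simpa using ht1
  ext x
  rw [mem_ofPred_eq, lt_ph_iff ht, mem_ball, dist_eq_norm, div_lt_iff₀ (by positivity)]
  rw [← Real.sqrt_lt_sqrt_iff (by positivity), Real.sqrt_sq (norm_nonneg _), mul_comm (1 - √t),
    Real.sqrt_mul (by positivity), Real.sqrt_sq hr.le]

theorem level_set_empty {F : Type*} [NormedAddCommGroup F] (z : F) {r t : ℝ} (ht1 : 1 ≤ t) :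
    {x : F | t < Al1_640.ph (‖x - z‖ ^ 2 / r ^ 2)} = ∅ := by
  ext x
  simp only [mem_ofPred_eq, mem_empty_iff_false, iff_false, not_lt]
  exact (Al1_640.ph_le (by positivity)).trans ht1

theorem lint_eq {F : Type*} [NormedAddCommGroup F] [MeasurableSpace F] [BorelSpace F]
    (μ : Measure F) (z : F) (r : ℝ) :
    ∫⁻ x, ENNReal.ofReal (Al1_640.ph (‖x - z‖ ^ 2 / r ^ 2)) ∂μ
      = ∫⁻ t in Ioi (0:ℝ), μ {x : F | t < Al1_640.ph (‖x - z‖ ^ 2 / r ^ 2)} := by
  refine lintegral_eq_lintegral_meas_lt μ (Eventually.of_forall fun x => Al1_640.ph_nonneg _) ?_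
  exact (Al1_640.continuous_ph.comp (((continuous_id.sub continuous_const).norm.pow 2).div_const
    _)).measurable.aemeasurable

theorem rad_pos {r t : ℝ} (hr : 0 < r) (ht1 : t < 1) : 0 < r * √(1 - √t) := by
  have h1 : √t < 1 := by
    rw [Real.sqrt_lt' one_pos]; simpa using ht1
  have : 0 < 1 - √t := by linarith
  positivity

theorem rad_le {r t : ℝ} (hr : 0 < r) : r * √(1 - √t) ≤ r := by
  have : √(1 - √t) ≤ 1 := by
    rw [Real.sqrt_le_left zero_le_one]
    have := Real.sqrt_nonneg t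
    linarith
  nlinarith

theorem lint_ge {μ : Measure (Euc k)} {z : Euc k} {r A : ℝ} (hr : 0 < r) (hA : 0 ≤ A)
    (h : ∀ s, 0 < s → s ≤ r → ENNReal.ofReal (A * (ome m * s ^ m)) ≤ μ (ball z s)) :
    ENNReal.ofReal A * ∫⁻ x : Euc m, ENNReal.ofReal (Al1_640.ph (‖x - 0‖ ^ 2 / r ^ 2)) ≤
      ∫⁻ x, ENNReal.ofReal (Al1_640.ph (‖x - z‖ ^ 2 / r ^ 2)) ∂μ := by
  rw [lint_eq, lint_eq, ← lintegral_const_mul' _ _ ENNReal.ofReal_ne_top]
  refine setLIntegral_mono_ae' measurableSet_Ioi (Eventually.of_forall fun t ht => ?_)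
  rcases lt_or_ge t 1 with ht1 | ht1
  · rw [level_set z hr (le_of_lt ht) ht1, level_set (0 : Euc m) hr (le_of_lt ht) ht1,
      volume_ball_eq m 0 (rad_pos hr ht1), ← ENNReal.ofReal_mul hA]
    exact h _ (rad_pos hr ht1) (rad_le hr)
  · rw [level_set_empty (0 : Euc m) ht1, measure_empty, mul_zero]
    exact zero_le

theorem lint_le {μ : Measure (Euc k)} {z : Euc k} {r B : ℝ} (hr : 0 < r) (hB : 0 ≤ B)
    (h : ∀ s, 0 < s → s ≤ r → μ (ball z s) ≤ ENNReal.ofReal (B * (ome m * s ^ m))) :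
    ∫⁻ x, ENNReal.ofReal (Al1_640.ph (‖x - z‖ ^ 2 / r ^ 2)) ∂μ ≤
      ENNReal.ofReal B * ∫⁻ x : Euc m, ENNReal.ofReal (Al1_640.ph (‖x - 0‖ ^ 2 / r ^ 2)) := by
  rw [lint_eq, lint_eq, ← lintegral_const_mul' _ _ ENNReal.ofReal_ne_top]
  refine setLIntegral_mono_ae' measurableSet_Ioi (Eventually.of_forall fun t ht => ?_)
  rcases lt_or_ge t 1 with ht1 | ht1
  · rw [level_set z hr (le_of_lt ht) ht1, level_set (0 : Euc m) hr (le_of_lt ht) ht1,
      volume_ball_eq m 0 (rad_pos hr ht1), ← ENNReal.ofReal_mul hB]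
    exact h _ (rad_pos hr ht1) (rad_le hr)
  · rw [level_set_empty z ht1, measure_empty]
    exact zero_le

theorem lint_plane (m : ℕ) {r : ℝ} (hr : 0 < r) :
    ∫⁻ x : Euc m, ENNReal.ofReal (Al1_640.ph (‖x - 0‖ ^ 2 / r ^ 2))
      = ENNReal.ofReal (r ^ m * cph m) := by
  have hint : Integrable (fun x : Euc m => Al1_640.ph (‖x - 0‖ ^ 2 / r ^ 2)) := by
    refine Continuous.integrable_of_hasCompactSupport
      (Al1_640.continuous_ph.comp (by fun_prop)) ?_
    refine HasCompactSupport.of_support_subset_isCompact (isCompact_closedBall (0 : Euc m) r) ?_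
    intro x hx
    by_contra hcon
    exact hx (Al1_640.ph_zero (Al1_640.off_ball hr hcon))
  rw [← ofReal_integral_eq_lintegral_ofReal hint
    (Eventually.of_forall fun x => Al1_640.ph_nonneg _)]
  congr 1
  have h1 := Measure.integral_comp_inv_smul_of_nonneg (volume : Measure (Euc m))
    (fun x => Al1_640.ph (‖x‖ ^ 2)) (R := r) hr.le
  rw [finrank_euclideanSpace_fin, smul_eq_mul] at h1
  rw [cph, ← h1]
  refine integral_congr_ae (Eventually.of_forall fun x => ?_)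
  simp only [sub_zero]
  rw [norm_smul, norm_inv, Real.norm_eq_abs, abs_of_pos hr, mul_pow, inv_pow, ← div_eq_inv_mul]

theorem cph_nonneg (m : ℕ) : 0 ≤ cph m := integral_nonneg fun _ => Al1_640.ph_nonneg _

theorem cph_pos (m : ℕ) : 0 < cph m := by
  refine lt_of_le_of_ne (cph_nonneg m) ?_
  intro h0
  have h1 := lint_plane m one_pos
  rw [← h0, mul_zero, ENNReal.ofReal_zero, lint_eq] at h1
  have h2 : ∫⁻ t in Ioc (0:ℝ) (1/4), volume {x : Euc m | t < Al1_640.ph (‖x - 0‖ ^ 2 / 1 ^ 2)}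
      ≤ 0 := by
    rw [← h1]
    exact lintegral_mono_set Ioc_subset_Ioi_self
  have h3 : ∫⁻ t in Ioc (0:ℝ) (1/4), ENNReal.ofReal (ome m * (√(1/2)) ^ m)
      ≤ ∫⁻ t in Ioc (0:ℝ) (1/4), volume {x : Euc m | t < Al1_640.ph (‖x - 0‖ ^ 2 / 1 ^ 2)} := by
    refine setLIntegral_mono_ae' measurableSet_Ioc (Eventually.of_forall fun t ht => ?_)
    have ht1 : t < 1 := by linarith [ht.2]
    rw [level_set (0 : Euc m) one_pos ht.1.le ht1, volume_ball_eq m 0 (rad_pos one_pos ht1)]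
    refine ENNReal.ofReal_le_ofReal ?_
    have h4 : √t ≤ 1 / 2 := by
      rw [Real.sqrt_le_left (by norm_num)]
      linarith [ht.2]
    have h5 := ome_pos m
    rw [one_mul]
    gcongr
    linarith
  have h4 := h3.trans h2
  rw [setLIntegral_const, Real.volume_Ioc] at h4
  have h5 : 0 < ENNReal.ofReal (ome m * (√(1/2)) ^ m) * ENNReal.ofReal (1 / 4 - 0) := by
    refine ENNReal.mul_pos ?_ ?_
    · rw [ne_eq, ENNReal.ofReal_eq_zero, not_le]
      have := ome_pos m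
      positivity
    · rw [ne_eq, ENNReal.ofReal_eq_zero, not_le]; norm_num
  exact absurd h4 (not_le.2 h5)

/-- the kernel integral as a Lebesgue integral -/
theorem ofReal_int (hV : Stat m k U V) {z : Euc k} {r : ℝ} (hr : 0 < r)
    (hU : closedBall z r ⊆ U) :
    ENNReal.ofReal (∫ p, Al1_640.ph (‖p.1 - z‖ ^ 2 / r ^ 2) ∂V)
      = ∫⁻ x, ENNReal.ofReal (Al1_640.ph (‖x - z‖ ^ 2 / r ^ 2)) ∂(mass V) := by
  rw [ofReal_integral_eq_lintegral_ofReal (Al1_640.integrable_ph hV hr hU)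
    (Eventually.of_forall fun x => Al1_640.ph_nonneg _)]
  unfold mass
  rw [lintegral_map _ measurable_fst]
  exact ((Al1_640.cont_phx z r).measurable).ennreal_ofReal

theorem II_ge (hV : Stat m k U V) {z : Euc k} {r A : ℝ} (hr : 0 < r) (hU : closedBall z r ⊆ U)
    (hA : 0 ≤ A)
    (h : ∀ s, 0 < s → s ≤ r → ENNReal.ofReal (A * (ome m * s ^ m)) ≤ mass V (ball z s)) :
    A * cph m ≤ Al1_640.II m V z r := by
  have h1 := lint_ge (m := m) hr hA h
  rw [lint_plane m hr, ← ofReal_int hV hr hU, ← ENNReal.ofReal_mul hA] at h1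
  have h2 : A * (r ^ m * cph m) ≤ ∫ p, Al1_640.ph (‖p.1 - z‖ ^ 2 / r ^ 2) ∂V :=
    (ENNReal.ofReal_le_ofReal_iff (integral_nonneg fun _ => Al1_640.ph_nonneg _)).1 h1
  unfold Al1_640.II
  rw [le_div_iff₀ (by positivity)]
  linarith

theorem II_le (hV : Stat m k U V) {z : Euc k} {r B : ℝ} (hr : 0 < r) (hU : closedBall z r ⊆ U)
    (hB : 0 ≤ B)
    (h : ∀ s, 0 < s → s ≤ r → mass V (ball z s) ≤ ENNReal.ofReal (B * (ome m * s ^ m))) :
    Al1_640.II m V z r ≤ B * cph m := by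
  have h1 := lint_le (m := m) hr hB h
  rw [lint_plane m hr, ← ofReal_int hV hr hU, ← ENNReal.ofReal_mul hB] at h1
  have h0 := cph_nonneg m
  have h2 : ∫ p, Al1_640.ph (‖p.1 - z‖ ^ 2 / r ^ 2) ∂V ≤ B * (r ^ m * cph m) :=
    (ENNReal.ofReal_le_ofReal_iff (by positivity)).1 h1
  unfold Al1_640.II
  rw [div_le_iff₀ (by positivity)]
  linarith

theorem II_ge_of_Th (hV : Stat m k U V) (hm : 1 ≤ m) {z : Euc k} {r A : ℝ} (hr : 0 < r)
    (hU : closedBall z r ⊆ U) (hA : 0 ≤ A) (h : ENNReal.ofReal A ≤ Th m V z) :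
    A * cph m ≤ Al1_640.II m V z r := by
  refine II_ge hV hr hU hA fun s hs hsr => ?_
  rw [ENNReal.ofReal_mul hA]
  exact mul_le_mass hV hm hs ((ball_subset_ball hsr).trans (ball_subset_closedBall.trans hU)) h

theorem II_le_of_rat (hV : Stat m k U V) (hm : 1 ≤ m) {z : Euc k} {r B : ℝ} (hr : 0 < r)
    (hU : closedBall z r ⊆ U) (hB : 0 ≤ B) (h : rat m V z r ≤ ENNReal.ofReal B) :
    Al1_640.II m V z r ≤ B * cph m := by
  refine II_le hV hr hU hB fun s hs hsr => ?_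
  have h1 := (rat_mono hV hm hs hsr (ball_subset_closedBall.trans hU)).trans h
  unfold rat at h1
  rw [ENNReal.div_le_iff_le_mul (Or.inl (by
    rw [ne_eq, ENNReal.ofReal_eq_zero, not_le]; exact den_pos m hs))
    (Or.inl ENNReal.ofReal_ne_top)] at h1
  rwa [ENNReal.ofReal_mul hB]

/-- the mean value property for a linear function, sup norm one -/
theorem mv_inner (hV : Stat m k U V) {z e : Euc k} {R : ℝ} (hU : ball z R ⊆ U) (he : ‖e‖ = 1)
    {θ : ℝ} (hθ : ∀ s ∈ Ioo 0 R, θ ≤ Al1_640.II m V z s) {r : ℝ} (hr : r ∈ Ioo 0 R) :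
    |∫ p, Al1_640.ph (‖p.1 - z‖ ^ 2 / r ^ 2) * inner ℝ (p.1 - z) e ∂V|
      ≤ (Al1_640.II m V z r - θ) * r ^ m * r := by
  have hrU : closedBall z r ⊆ U := (closedBall_subset_ball hr.2).trans hU
  have hr0 : 0 < r := hr.1
  have key : ∀ R' ∈ Ioo r R, ∀ σ : ℝ, |σ| = 1 →
      σ * ∫ p, Al1_640.ph (‖p.1 - z‖ ^ 2 / r ^ 2) * inner ℝ (p.1 - z) e ∂V
        ≤ R' * ((Al1_640.II m V z r - θ) * r ^ m) := by
    intro R' hR' σ hσ
    have hU' : ball z R' ⊆ U := (ball_subset_ball hR'.2.le).trans hU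
    set ℓ : Euc k →L[ℝ] ℝ := -(σ • innerSL ℝ e) with hℓ
    have hval : ∀ x : Euc k, (R' + σ * inner ℝ z e) + ℓ x = R' - σ * inner ℝ (x - z) e := by
      intro x
      rw [hℓ]
      simp only [neg_apply, smul_apply, innerSL_apply_apply, smul_eq_mul]
      rw [inner_sub_left, real_inner_comm x e, real_inner_comm]
      ring
    have hb : ∀ x : Euc k, ‖x - z‖ ≤ R' → 0 ≤ (R' + σ * inner ℝ z e) + ℓ x := by
      intro x hx
      rw [hval]
      have h1 : |σ * (inner ℝ (x - z) e : ℝ)| ≤ R' := by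
        rw [abs_mul, hσ, one_mul]
        calc |(inner ℝ (x - z) e : ℝ)| ≤ ‖x - z‖ * ‖e‖ := abs_real_inner_le_norm _ _
          _ ≤ R' := by rw [he, mul_one]; exact hx
      have := le_abs_self (σ * (inner ℝ (x - z) e : ℝ))
      linarith
    have h1 := Al1_640.mean_value hV hU' (R' + σ * inner ℝ z e) ℓ
      (Eventually.of_forall fun p hp => hb p.1 (by
        rw [mem_ball, dist_eq_norm] at hp; exact hp.le))
      (hb z (by simp; linarith [hR'.1])) (θ := θ) (r := r)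
      (fun s hs => hθ s ⟨hs.1, hs.2.trans hR'.2⟩) ⟨hr0, hR'.1⟩
    rw [hval, sub_self, inner_zero_left, mul_zero, sub_zero, le_div_iff₀ (by positivity)] at h1
    have h2 : Al1_640.HH V z (R' + σ * inner ℝ z e) ℓ r
        = R' * (∫ p, Al1_640.ph (‖p.1 - z‖ ^ 2 / r ^ 2) ∂V)
          - σ * ∫ p, Al1_640.ph (‖p.1 - z‖ ^ 2 / r ^ 2) * inner ℝ (p.1 - z) e ∂V := by
      unfold Al1_640.HH
      rw [← integral_const_mul, ← integral_const_mul, ← integral_sub
        ((Al1_640.integrable_ph hV hr0 hrU).const_mul _)]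
      · refine integral_congr_ae (Eventually.of_forall fun p => ?_)
        simp only
        rw [hval]
        ring
      · refine Integrable.const_mul ?_ _
        exact Al1_640.integrable_ph_smul hV hr0 hrU (φ := fun x => inner ℝ (x - z) e)
          (by fun_prop)
    rw [h2] at h1
    have h3 : ∫ p, Al1_640.ph (‖p.1 - z‖ ^ 2 / r ^ 2) ∂V = Al1_640.II m V z r * r ^ m := by
      unfold Al1_640.II
      rw [div_mul_cancel₀ _ (by positivity)]
    rw [h3] at h1
    nlinarith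
  have lim : ∀ σ : ℝ, |σ| = 1 →
      σ * ∫ p, Al1_640.ph (‖p.1 - z‖ ^ 2 / r ^ 2) * inner ℝ (p.1 - z) e ∂V
        ≤ r * ((Al1_640.II m V z r - θ) * r ^ m) := by
    intro σ hσ
    have ht : Tendsto (fun R' : ℝ => R' * ((Al1_640.II m V z r - θ) * r ^ m)) (𝓝[>] r)
        (𝓝 (r * ((Al1_640.II m V z r - θ) * r ^ m))) := by
      have : Continuous (fun R' : ℝ => R' * ((Al1_640.II m V z r - θ) * r ^ m)) := by fun_prop
      exact (this.tendsto r).mono_left nhdsWithin_le_nhds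
    refine ge_of_tendsto ht ?_
    filter_upwards [Ioo_mem_nhdsGT hr.2] with R' hR'
    exact key R' hR' σ hσ
  have h1 := lim 1 (by simp)
  have h2 := lim (-1) (by simp)
  rw [abs_le]
  constructor <;> nlinarith

/-- **NO HOLES** -/
theorem noHole (hV : Stat m k U V) {T : Submodule ℝ (Euc k)} (hT : Module.finrank ℝ T = m)
    {S : Set (Euc k)} (hS : ∀ᵐ p ∂V, p.1 ∈ U → p.1 ∈ S) {x0 : Euc k} {R θ δ lam : ℝ} (hR : 0 < R)
    (hU : ball x0 (2 * R) ⊆ U) (hθ : 0 < θ) (hδ : 0 ≤ δ) (hδm : 64 * 2 ^ m * δ ≤ 1)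
    (hlam : 2048 * 2 ^ m * lam ^ 2 ≤ 1)
    (hlow : ∀ X ∈ S, X ∈ ball x0 R → ∀ s ∈ Ioo 0 R, θ ≤ Al1_640.II m V X s)
    (hup : ∀ X ∈ S, X ∈ ball x0 R → ∀ s ∈ Ioo 0 R, Al1_640.II m V X s ≤ (1 + δ) * θ)
    (hflat : ∀ x ∈ S, x ∈ ball x0 R → ∀ y ∈ S, y ∈ ball x0 R →
      ‖Tᗮ.starProjection (y - x)‖ ≤ lam * ‖y - x‖) :
    Al5_182.NoHole T S x0 R := by
  intro X hXS hXR e he hen d hd ρ hρ
  have hXR' : dist X x0 < R := hXR
  set R1 := (R - dist X x0) / 2 with hR1
  have hR1p : 0 < R1 := by rw [hR1]; linarith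
  have hd0 := dist_nonneg (x := X) (y := x0)
  have hR1R : R1 < R := by rw [hR1]; linarith
  have hUX : ball X R ⊆ U := by
    refine (ball_subset_ball' ?_).trans hU
    linarith
  have hsub : ball X R1 ⊆ ball x0 R := by
    refine ball_subset_ball' ?_
    rw [hR1]; linarith
  have hint : ∀ r, ∫ z, Al4_182.ker 2 X r z.1 ∂V
      = ∫ p, Al1_640.ph (‖p.1 - X‖ ^ 2 / r ^ 2) ∂V := fun r => rfl
  have hII : ∀ r, 0 < r → ∫ p, Al1_640.ph (‖p.1 - X‖ ^ 2 / r ^ 2) ∂V
      = Al1_640.II m V X r * r ^ m := by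
    intro r hr
    unfold Al1_640.II
    rw [div_mul_cancel₀ _ (by positivity)]
  refine Al6_182.no_hole_local (st_of_stat hV) hT (tr_ae hV) (S := S) (X₀ := X) (R := R1) hR1p
    ((closedBall_subset_ball hR1R).trans hUX) hθ hδ hδm hlam ?_ ?_ he hen ?_ ?_ ?_ hd hρ
  · intro r hr hrR
    rw [hint, hII r hr]
    exact mul_le_mul_of_nonneg_right (hlow X hXS hXR r ⟨hr, by linarith⟩) (by positivity)
  · intro r hr hrR
    rw [hint, hII r hr]
    exact mul_le_mul_of_nonneg_right (hup X hXS hXR r ⟨hr, by linarith⟩) (by positivity)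
  · intro r hr hrR
    have h1 := mv_inner hV hUX hen (hlow X hXS hXR) (r := r) ⟨hr, by linarith⟩
    refine (le_of_eq ?_).trans (h1.trans ?_)
    · rfl
    · have h2 := hup X hXS hXR r ⟨hr, by linarith⟩
      have h3 : Al1_640.II m V X r - θ ≤ δ * θ := by linarith
      gcongr
  · filter_upwards [hS] with p hp hpb
    exact hp (hUX (ball_subset_ball hR1R.le hpb))
  · intro y hy hyb
    exact hflat X hXS hXR y hy (hsub hyb)

end

end Crest.Agent.R234.Al7_182
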