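import Crest.Agent.R234.Ell3_3

-- ▼ part R234/Ell4_3
section

/-!
R234 (helper3), VF-ELL part 4: the weak minimal surface system from stationarity.
-/

open MeasureTheory Metric Set Filter Topology
open scoped ContDiff NNReal ENNReal
open Crest.GeometryTopology.Submanifold

namespace Crest.Agent.R234.Ell4_3

noncomputable section

set_option linter.unusedSectionVars false

open Crest.Agent.R234.Ell1_3 Crest.Agent.R234.Ell2_3 Crest.Agent.R234.Ell3_3
open Crest.Agent.R246.H2x622 (gradient_zero_of_notMem gradient_contDiff)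

variable {m k : ℕ}

variable (T : Submodule ℝ (Euc k)) (x0 : Euc k) (r s : ℝ) (u : T → Tᗮ) (g : T → T →L[ℝ] Tᗮ)

/-- the test field `p ↦ ζ(px p) χ(py p) v` -/
def fld (ζ : T → ℝ) (χ : Tᗮ → ℝ) (v : Tᗮ) (p : Euc k) : Euc k :=
  (ζ (px T x0 p) * χ (py T x0 p)) • (v : Euc k)

lemma fld_contDiff {ζ : T → ℝ} {χ : Tᗮ → ℝ} (hζ : ContDiff ℝ ∞ ζ) (hχ : ContDiff ℝ ∞ χ) (v : Tᗮ) :
    ContDiff ℝ ∞ (fld T x0 ζ χ v) := by
  unfold fld
  exact ((hζ.comp (px_contDiff T x0)).mul (hχ.comp (py_contDiff T x0))).smul contDiff_const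

/-- `(px, py)` as a homeomorphism-like compactness statement -/
lemma prod_compact {K : Set T} {L : Set Tᗮ} (hK : IsCompact K) (hL : IsCompact L) :
    IsCompact {p : Euc k | px T x0 p ∈ K ∧ py T x0 p ∈ L} := by
  have h1 : {p : Euc k | px T x0 p ∈ K ∧ py T x0 p ∈ L} =
      (fun z : T × Tᗮ => x0 + ((z.1 : Euc k) + (z.2 : Euc k))) '' (K ×ˢ L) := by
    ext p
    constructor
    · rintro ⟨h1, h2⟩
      exact ⟨(px T x0 p, py T x0 p), ⟨h1, h2⟩, (split T x0 p).symm⟩
    · rintro ⟨⟨a, b⟩, ⟨ha, hb⟩, rfl⟩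
      constructor
      · simpa using ha
      · simpa using hb
  rw [h1]
  exact (hK.prod hL).image (by fun_prop)

lemma fld_support {ζ : T → ℝ} {χ : Tᗮ → ℝ} (v : Tᗮ) {p : Euc k}
    (hp : p ∈ tsupport (fld T x0 ζ χ v)) : px T x0 p ∈ tsupport ζ ∧ py T x0 p ∈ tsupport χ := by
  have hc : IsClosed {p : Euc k | px T x0 p ∈ tsupport ζ ∧ py T x0 p ∈ tsupport χ} :=
    ((isClosed_tsupport ζ).preimage (px_continuous T x0)).inter
      ((isClosed_tsupport χ).preimage (py_continuous T x0))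
  refine closure_minimal ?_ hc hp
  intro q hq
  have h1 : ζ (px T x0 q) * χ (py T x0 q) ≠ 0 := by
    intro h; apply hq; simp [fld, h]
  exact ⟨subset_tsupport _ (left_ne_zero_of_mul h1), subset_tsupport _ (right_ne_zero_of_mul h1)⟩

lemma fld_hasCompactSupport {ζ : T → ℝ} {χ : Tᗮ → ℝ} (hζ : HasCompactSupport ζ)
    (hχ : HasCompactSupport χ) (v : Tᗮ) : HasCompactSupport (fld T x0 ζ χ v) :=
  (prod_compact T x0 hζ hχ).of_isClosed_subset (isClosed_tsupport _)
    (fun _ hp => fld_support T x0 v hp)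

/-- the differential of the test field where the vertical cut-off is `1` -/
lemma fderiv_fld {ζ : T → ℝ} {χ : Tᗮ → ℝ} (hζ : ContDiff ℝ ∞ ζ) (v : Tᗮ) (p : Euc k)
    (h : px T x0 p ∈ tsupport ζ → ∀ᶠ y in 𝓝 (py T x0 p), χ y = 1) :
    fderiv ℝ (fld T x0 ζ χ v) p =
      (innerSL ℝ ((gradient ζ (px T x0 p) : T) : Euc k)).smulRight (v : Euc k) := by
  by_cases hp : px T x0 p ∈ tsupport ζ
  · have h1 : fld T x0 ζ χ v =ᶠ[𝓝 p] fun p => (ζ (px T x0 p)) • (v : Euc k) := by
      filter_upwards [(py_continuous T x0).continuousAt.eventually (h hp)] with q hq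
      simp [fld, hq]
    rw [h1.fderiv_eq]
    have hx : HasFDerivAt (px T x0) (T.orthogonalProjectionOnto) p :=
      T.orthogonalProjectionOnto.hasFDerivAt.comp p ((hasFDerivAt_id p).sub_const x0)
    have hz : HasFDerivAt ζ (fderiv ℝ ζ (px T x0 p)) (px T x0 p) :=
      (hζ.differentiable (by simp) _).hasFDerivAt
    have h2 := (hz.comp p hx).smul_const (v : Euc k)
    refine h2.fderiv.trans ?_
    ext y : 1
    simp only [ContinuousLinearMap.smulRight_apply, ContinuousLinearMap.comp_apply,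
      innerSL_apply_apply]
    congr 1
    have h3 : fderiv ℝ ζ (px T x0 p) (T.orthogonalProjectionOnto y) =
        inner ℝ (gradient ζ (px T x0 p)) (T.orthogonalProjectionOnto y) := by
      rw [gradient, InnerProductSpace.toDual_symm_apply]
    rw [h3, Submodule.inner_orthogonalProjectionOnto_eq_of_mem_left]
  · have h1 : fld T x0 ζ χ v =ᶠ[𝓝 p] fun _ => 0 := by
      have h2 : ∀ᶠ q in 𝓝 p, px T x0 q ∉ tsupport ζ :=
        (px_continuous T x0).continuousAt.eventually
          ((isClosed_tsupport ζ).isOpen_compl.mem_nhds hp)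
      filter_upwards [h2] with q hq
      simp [fld, image_eq_zero_of_notMem_tsupport hq]
    rw [h1.fderiv_eq, gradient_zero_of_notMem hp]
    ext y : 1
    simp

lemma trace_congr {S₁ S₂ : Submodule ℝ (Euc k)} (h : S₁ = S₂) (A : Euc k →L[ℝ] Euc k) :
    LinearMap.trace ℝ (Euc k) ((A.comp S₁.starProjection).toLinearMap) =
      LinearMap.trace ℝ (Euc k) ((A.comp S₂.starProjection).toLinearMap) := by
  subst h; rfl

/-- scalar density of the first variation -/
def dth (ζ : T → ℝ) (v : Tᗮ) (x : T) : ℝ := inner ℝ (g x (ginv (g x) (gradient ζ x))) v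

lemma dth_zero {ζ : T → ℝ} {v : Tᗮ} {x : T} (hx : x ∉ tsupport ζ) : dth T g ζ v x = 0 := by
  simp [dth, gradient_zero_of_notMem hx]

lemma continuous_of_local {ζ : T → ℝ} (hts : tsupport ζ ⊆ ball 0 r) {W : Type*}
    [TopologicalSpace W] [Zero W] {F : T → W} (h1 : ContinuousOn F (ball 0 r))
    (h2 : ∀ x ∉ tsupport ζ, F x = 0) : Continuous F := by
  rw [continuous_iff_continuousAt]
  intro x
  by_cases hx : x ∈ tsupport ζ
  · exact (h1 x (hts hx)).continuousAt (isOpen_ball.mem_nhds (hts hx))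
  · have h3 : F =ᶠ[𝓝 x] fun _ => 0 := by
      filter_upwards [(isClosed_tsupport ζ).isOpen_compl.mem_nhds hx] with y hy
      exact h2 y hy
    exact continuousAt_const.congr h3.symm

lemma dth_continuous {ζ : T → ℝ} (hζ : ContDiff ℝ ∞ ζ) (hts : tsupport ζ ⊆ ball 0 r)
    (hg : ContinuousOn g (ball 0 r)) (v : Tᗮ) : Continuous (dth T g ζ v) := by
  refine continuous_of_local T r hts ?_ (fun x hx => dth_zero T g hx)
  unfold dth
  have h1 : ContinuousOn (fun x => ginv (g x)) (ball 0 r) :=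
    (ginv_contDiff (F := T) (V := Tᗮ)).continuous.comp_continuousOn hg
  have h2 : ContinuousOn (fun x => ginv (g x) (gradient ζ x)) (ball 0 r) :=
    h1.clm_apply (gradient_contDiff hζ).continuous.continuousOn
  exact (hg.clm_apply h2).inner continuousOn_const

theorem weak_eq {U : Set (Euc k)} {D : VarifoldData m k} (hD : IsIntegralVarifoldIn U D)
    (hst : IsStationaryIn U D) (hT : Module.finrank ℝ T = m)
    (hder : ∀ z ∈ ball (0 : T) r, HasFDerivAt u (g z) z) (hg : ContinuousOn g (ball 0 r))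
    (hus : ∀ z ∈ ball (0 : T) r, ‖u z‖ < s) (hW : cyl T x0 r s ⊆ U)
    {Q : ℝ≥0∞} (hQ0 : Q ≠ 0) (hQ1 : Q ≠ ⊤)
    (hμ : (weight D).restrict (cyl T x0 r s) = Q • gmeas T x0 u g r)
    (ζ : T → ℝ) (hζ : ContDiff ℝ ∞ ζ) (hcs : HasCompactSupport ζ) (hts : tsupport ζ ⊆ ball 0 r) :
    ∫ z, flx (g z) (gradient ζ z) = 0 := by
  have hu : ContinuousOn u (ball 0 r) := fun z hz => (hder z hz).continuousAt.continuousWithinAt
  -- the vertical cut-off
  obtain ⟨χ, hχ, hχs, hχt, hχ1⟩ : ∃ χ : Tᗮ → ℝ, ContDiff ℝ ∞ χ ∧ HasCompactSupport χ ∧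
      tsupport χ ⊆ ball 0 s ∧ ∀ x ∈ tsupport ζ, ∀ᶠ y in 𝓝 (u x), χ y = 1 := by
    by_cases hne : (tsupport ζ).Nonempty
    · obtain ⟨xm, hxm, hmax⟩ := hcs.exists_isMaxOn hne ((hu.mono hts).norm)
      have h1 : ‖u xm‖ < s := hus xm (hts hxm)
      have h0 : 0 ≤ ‖u xm‖ := norm_nonneg _
      let B : ContDiffBump (0 : Tᗮ) := ⟨‖u xm‖ + (s - ‖u xm‖) / 3,
        ‖u xm‖ + 2 * ((s - ‖u xm‖) / 3), by linarith, by linarith⟩
      refine ⟨B, B.contDiff, B.hasCompactSupport, ?_, ?_⟩
      · rw [B.tsupport_eq]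
        intro y hy
        rw [mem_closedBall, dist_zero_right] at hy
        rw [mem_ball, dist_zero_right]
        have : B.rOut = ‖u xm‖ + 2 * ((s - ‖u xm‖) / 3) := rfl
        linarith
      · intro x hx
        have h2 : u x ∈ ball (0 : Tᗮ) B.rIn := by
          rw [mem_ball, dist_zero_right]
          have h3 : ‖u x‖ ≤ ‖u xm‖ := hmax hx
          have : B.rIn = ‖u xm‖ + (s - ‖u xm‖) / 3 := rfl
          linarith
        filter_upwards [isOpen_ball.mem_nhds h2] with y hy
        exact B.one_of_mem_closedBall (ball_subset_closedBall hy)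
    · refine ⟨fun _ => 0, contDiff_const, HasCompactSupport.zero, ?_, ?_⟩
      · have : tsupport (fun _ : Tᗮ => (0 : ℝ)) = ∅ := by
          rw [tsupport_eq_empty_iff]; rfl
        rw [this]; exact empty_subset _
      · intro x hx; exact absurd ⟨x, hx⟩ hne
  -- weight null set
  have hnull : weight D (cyl T x0 r s \ grf T x0 u r s) = 0 := by
    have h1 := congrArg (fun μ : Measure (Euc k) => μ (cyl T x0 r s \ grf T x0 u r s)) hμ
    simp only [Measure.smul_apply, gmeas_diff T x0 r s u g hu, smul_zero] at h1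
    rw [Measure.restrict_apply (cyl_diff_grf_isOpen T x0 r s u hu).measurableSet,
      inter_eq_left.2 sdiff_subset] at h1
    exact h1
  have hmain : ∀ v : Tᗮ, ∫ z, inner ℝ v (flx (g z) (gradient ζ z)) = (0 : ℝ) := by
    intro v
    set Ψ : Euc k → ℝ := (cyl T x0 r s).indicator (fun p => dth T g ζ v (px T x0 p)) with hΨ
    have hdc := dth_continuous T r g hζ hts hg v
    have hΨm : Measurable Ψ := (hdc.comp (px_continuous T x0)).measurable.indicator
      (cyl_isOpen T x0 r s).measurableSet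
    -- integrals against gmeas
    have hgm : ∀ F : T → ℝ, Continuous F →
        ∫ p, F (px T x0 p) ∂(gmeas T x0 u g r) = ∫ z in ball (0 : T) r, dns (g z) * F z := by
      intro F hF
      unfold gmeas
      rw [integral_map (f := fun p => F (px T x0 p)) (gmap_aemeasurable T x0 r u g hu)
        (hF.comp (px_continuous T x0)).measurable.aestronglyMeasurable]
      have hmeas : AEMeasurable (fun x => ENNReal.ofReal (dns (g x)))
          (volume.restrict (ball (0 : T) r)) :=
        ((dns_contDiff.continuous.comp_continuousOn hg).aemeasurable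
          measurableSet_ball).ennreal_ofReal
      rw [integral_withDensity_eq_integral_toReal_smul₀ hmeas
        (Filter.Eventually.of_forall fun a => ENNReal.ofReal_lt_top)]
      refine setIntegral_congr_fun measurableSet_ball fun z hz => ?_
      simp only [smul_eq_mul, gmap, px_gmap]
      rw [ENNReal.toReal_ofReal (dns_pos _).le]
    have hint0 : Integrable (fun z => dns (g z) * dth T g ζ v z) := by
      have h1 : Continuous (fun z => dns (g z) * dth T g ζ v z) := by
        refine continuous_of_local T r hts ?_ (fun x hx => by rw [dth_zero T g hx, mul_zero])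
        exact (dns_contDiff.continuous.comp_continuousOn hg).mul hdc.continuousOn
      refine h1.integrable_of_hasCompactSupport ?_
      exact HasCompactSupport.intro hcs (fun x hx => by rw [dth_zero T g hx, mul_zero])
    have hint : Integrable Ψ (weight D) := by
      rw [hΨ, integrable_indicator_iff (cyl_isOpen T x0 r s).measurableSet, IntegrableOn, hμ]
      refine Integrable.smul_measure ?_ hQ1
      unfold gmeas
      refine (integrable_map_measure (g := fun p => dth T g ζ v (px T x0 p))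
        (hdc.comp (px_continuous T x0)).measurable.aestronglyMeasurable
        (gmap_aemeasurable T x0 r u g hu)).2 ?_
      have hmeas : AEMeasurable (fun x => ENNReal.ofReal (dns (g x)))
          (volume.restrict (ball (0 : T) r)) :=
        ((dns_contDiff.continuous.comp_continuousOn hg).aemeasurable
          measurableSet_ball).ennreal_ofReal
      rw [integrable_withDensity_iff_integrable_smul₀' hmeas
        (Filter.Eventually.of_forall fun a => ENNReal.ofReal_lt_top)]
      refine (hint0.integrableOn (s := ball (0 : T) r)).congr ?_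
      refine Filter.Eventually.of_forall fun z => ?_
      simp only [smul_eq_mul, Function.comp, gmap, px_gmap]
      rw [ENNReal.toReal_ofReal (dns_pos _).le]
    -- the first variation
    have hfv : firstVariation D (fld T x0 ζ χ v) = ∫ p, Ψ p ∂(weight D) := by
      rw [← (hasSum_weight hD hΨm hint).tsum_eq]
      unfold firstVariation
      refine tsum_congr fun i => ?_
      refine integral_congr_ae ?_
      filter_upwards [preimage_null hD (cyl_diff_grf_isOpen T x0 r s u hu).measurableSet hnull i,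
        tangent_eq T x0 r s u g hD hT hder i] with a h1 h2
      by_cases hc : D.chart i a ∈ cyl T x0 r s
      · have h3 : D.chart i a ∈ grf T x0 u r s := by
          by_contra h3; exact h1 ⟨hc, h3⟩
        rw [trace_congr (h2 h3), fderiv_fld T x0 hζ v _ (fun h => by rw [h3.2]; exact hχ1 _ h),
          trace_graph]
        rw [hΨ, indicator_of_mem hc]
        rfl
      · have h4 : D.chart i a ∉ tsupport (fld T x0 ζ χ v) := by
          intro h5
          have h6 := fld_support T x0 v h5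
          exact hc ⟨hts h6.1, hχt h6.2⟩
        rw [hΨ, indicator_of_notMem hc, fderiv_of_notMem_tsupport ℝ h4]
        simp
    have h0 : firstVariation D (fld T x0 ζ χ v) = 0 := by
      refine hst _ ((fld_contDiff T x0 hζ hχ v).of_le (by norm_cast))
        (fld_hasCompactSupport T x0 hcs hχs v) ?_
      intro p hp
      have h6 := fld_support T x0 v hp
      exact hW ⟨hts h6.1, hχt h6.2⟩
    rw [hfv, hΨ, integral_indicator (cyl_isOpen T x0 r s).measurableSet, hμ,
      integral_smul_measure, hgm _ hdc] at h0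
    have hQr : Q.toReal ≠ 0 := by
      rw [ENNReal.toReal_ne_zero]; exact ⟨hQ0, hQ1⟩
    have h1 := (smul_eq_zero.1 h0).resolve_left hQr
    have h2 : ∫ z in ball (0 : T) r, dns (g z) * dth T g ζ v z =
        ∫ z, dns (g z) * dth T g ζ v z := by
      apply setIntegral_eq_integral_of_forall_compl_eq_zero
      intro z hz
      rw [dth_zero T g (fun h => hz (hts h)), mul_zero]
    rw [h2] at h1
    rw [← h1]
    refine integral_congr_ae (Filter.Eventually.of_forall fun z => ?_)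
    simp only [flx, dth, ContinuousLinearMap.smul_apply, ContinuousLinearMap.comp_apply,
      inner_smul_right]
    rw [real_inner_comm]
  -- conclude
  have hint : Integrable (fun z => flx (g z) (gradient ζ z)) := by
    have h1 : Continuous (fun z => flx (g z) (gradient ζ z)) := by
      refine continuous_of_local T r hts ?_
        (fun x hx => by rw [gradient_zero_of_notMem hx, map_zero])
      exact (flx_contDiff.continuous.comp_continuousOn hg).clm_apply
        (gradient_contDiff hζ).continuous.continuousOn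
    refine h1.integrable_of_hasCompactSupport ?_
    exact HasCompactSupport.intro hcs (fun x hx => by rw [gradient_zero_of_notMem hx, map_zero])
  apply ext_inner_left ℝ
  intro v
  rw [inner_zero_right, ← hmain v]
  exact (integral_inner hint v).symm

end

end Crest.Agent.R234.Ell4_3
end

-- ▼ part R234/Ell5_3
section

/-!
R234 (helper3), VF-ELL part 5: regular points.

* `flx_conj`, `mss_smooth_unif`: the smallness constant of `mss_smooth` can be chosen uniformly for
  all `m`-planes of `ℝ^k`;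
* `support_eq`: the support of the weight in the cylinder is the graph;
* `regular_of_smooth`: graph of a smooth function ==> no singular point in the cylinder;
* `regular_of_graph`: **`C^{1,α}` graph with `weight = Q · area` ==> no singular point**.
-/

open MeasureTheory Metric Set Filter Topology
open scoped ContDiff NNReal ENNReal
open Crest.GeometryTopology.Submanifold

namespace Crest.Agent.R234.Ell5_3

noncomputable section

set_option linter.unusedSectionVars false

open Crest.Agent.R234.Ell1_3 Crest.Agent.R234.Ell2_3 Crest.Agent.R234.Ell3_3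
open Crest.Agent.R234.Ell4_3

section unif

variable {F V F' V' : Type} [NormedAddCommGroup F] [InnerProductSpace ℝ F] [FiniteDimensional ℝ F]
  [NormedAddCommGroup V] [InnerProductSpace ℝ V] [FiniteDimensional ℝ V]
  [NormedAddCommGroup F'] [InnerProductSpace ℝ F'] [FiniteDimensional ℝ F']
  [NormedAddCommGroup V'] [InnerProductSpace ℝ V'] [FiniteDimensional ℝ V']

/-- conjugation of a linear map by isometries -/
def cj (L₁ : F' ≃ₗᵢ[ℝ] F) (L₂ : V' ≃ₗᵢ[ℝ] V) (q : F →L[ℝ] V) : F' →L[ℝ] V' :=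
  (L₂.symm : V →L[ℝ] V') ∘L (q ∘L (L₁ : F' →L[ℝ] F))

lemma cj_apply (L₁ : F' ≃ₗᵢ[ℝ] F) (L₂ : V' ≃ₗᵢ[ℝ] V) (q : F →L[ℝ] V) (x : F') :
    cj L₁ L₂ q x = L₂.symm (q (L₁ x)) := rfl

lemma gop_cj (L₁ : F' ≃ₗᵢ[ℝ] F) (L₂ : V' ≃ₗᵢ[ℝ] V) (q : F →L[ℝ] V) (x : F') :
    gop (cj L₁ L₂ q) x = L₁.symm (gop q (L₁ x)) := by
  apply ext_inner_left ℝ
  intro y
  rw [gop_inner, cj_apply, cj_apply, L₂.symm.inner_map_map]
  have h1 : (inner ℝ y (L₁.symm (gop q (L₁ x))) : ℝ) = inner ℝ (L₁ y) (gop q (L₁ x)) := by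
    rw [← L₁.inner_map_map, L₁.apply_symm_apply]
  rw [h1, gop_inner, L₁.inner_map_map]

lemma ginv_cj (L₁ : F' ≃ₗᵢ[ℝ] F) (L₂ : V' ≃ₗᵢ[ℝ] V) (q : F →L[ℝ] V) (x : F') :
    ginv (cj L₁ L₂ q) x = L₁.symm (ginv q (L₁ x)) := by
  apply gop_injective (cj L₁ L₂ q)
  have h1 : ∀ {F₀ V₀ : Type} [NormedAddCommGroup F₀] [InnerProductSpace ℝ F₀]
      [FiniteDimensional ℝ F₀] [NormedAddCommGroup V₀] [InnerProductSpace ℝ V₀]
      [FiniteDimensional ℝ V₀] (q₀ : F₀ →L[ℝ] V₀) (y : F₀), gop q₀ (ginv q₀ y) = y := by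
    intro F₀ V₀ _ _ _ _ _ _ q₀ y
    have := congrArg (fun L : F₀ →L[ℝ] F₀ => L y) (gop_ginv q₀)
    simpa using this
  rw [h1, gop_cj, L₁.apply_symm_apply, h1, L₁.symm_apply_apply]

lemma gdet_cj (L₁ : F' ≃ₗᵢ[ℝ] F) (L₂ : V' ≃ₗᵢ[ℝ] V) (q : F →L[ℝ] V) :
    gdet (cj L₁ L₂ q) = gdet q := by
  unfold gdet
  have h1 : (gop (cj L₁ L₂ q) : F' →ₗ[ℝ] F') =
      (L₁.symm.toLinearEquiv : F →ₗ[ℝ] F') ∘ₗ (gop q : F →ₗ[ℝ] F) ∘ₗ
        (L₁.symm.toLinearEquiv.symm : F' →ₗ[ℝ] F) := by
    ext x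
    exact gop_cj L₁ L₂ q x
  rw [h1]
  exact LinearMap.det_conj (gop q : F →ₗ[ℝ] F) L₁.symm.toLinearEquiv

lemma flx_cj (L₁ : F' ≃ₗᵢ[ℝ] F) (L₂ : V' ≃ₗᵢ[ℝ] V) (q : F →L[ℝ] V) (x : F') :
    flx (cj L₁ L₂ q) x = L₂.symm (flx q (L₁ x)) := by
  unfold flx dns
  rw [gdet_cj]
  simp only [smul_apply, ContinuousLinearMap.comp_apply, map_smul]
  rw [ginv_cj, cj_apply, L₁.apply_symm_apply]

variable [MeasurableSpace F] [BorelSpace F] [MeasurableSpace F'] [BorelSpace F']

lemma gradient_comp_isometry (L₁ : F' ≃ₗᵢ[ℝ] F) {ζ : F' → ℝ} (hζ : ContDiff ℝ ∞ ζ) (y : F) :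
    gradient (fun y => ζ (L₁.symm y)) y = L₁ (gradient ζ (L₁.symm y)) := by
  apply HasGradientAt.gradient
  rw [hasGradientAt_iff_hasFDerivAt]
  have h1 : HasFDerivAt ζ (fderiv ℝ ζ (L₁.symm y)) (L₁.symm y) :=
    (hζ.differentiable (by simp) _).hasFDerivAt
  have h2 : HasFDerivAt (fun y => L₁.symm y) (L₁.symm : F →L[ℝ] F') y :=
    (L₁.symm : F ≃L[ℝ] F').hasFDerivAt
  refine (h1.comp y h2).congr_fderiv ?_
  ext z
  simp only [ContinuousLinearMap.comp_apply, InnerProductSpace.toDual_apply_apply]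
  rw [gradient]
  have h3 : (inner ℝ (L₁ ((InnerProductSpace.toDual ℝ F').symm (fderiv ℝ ζ (L₁.symm y)))) z : ℝ) =
      inner ℝ ((InnerProductSpace.toDual ℝ F').symm (fderiv ℝ ζ (L₁.symm y))) (L₁.symm z) := by
    rw [← L₁.inner_map_map, L₁.apply_symm_apply]
  rw [h3, InnerProductSpace.toDual_symm_apply]
  rfl

/-- smallness constant, uniform over isometric spaces -/
theorem mss_transfer {α p₀ : ℝ}
    (H : ∀ (U : Set F') (w : F' → V') (g : F' → F' →L[ℝ] V'), IsOpen U →
      (∀ z ∈ U, HasFDerivAt w (g z) z) →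
      (∀ x ∈ U, ∃ r > 0, ∃ K, ∀ z ∈ ball x r, ∀ z' ∈ ball x r, ‖g z - g z'‖ ≤ K * ‖z - z'‖ ^ α) →
      (∀ z ∈ U, ‖g z‖ < p₀) →
      (∀ ζ : F' → ℝ, ContDiff ℝ ∞ ζ → HasCompactSupport ζ → tsupport ζ ⊆ U →
        ∫ z, flx (g z) (gradient ζ z) = 0) → ContDiffOn ℝ ∞ w U)
    (L₁ : F' ≃ₗᵢ[ℝ] F) (L₂ : V' ≃ₗᵢ[ℝ] V)
    (U : Set F) (w : F → V) (g : F → F →L[ℝ] V) (hU : IsOpen U)
    (hder : ∀ z ∈ U, HasFDerivAt w (g z) z)
    (hhol : ∀ x ∈ U, ∃ r > 0, ∃ K, ∀ z ∈ ball x r, ∀ z' ∈ ball x r,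
      ‖g z - g z'‖ ≤ K * ‖z - z'‖ ^ α)
    (hsm : ∀ z ∈ U, ‖g z‖ < p₀)
    (hweak : ∀ ζ : F → ℝ, ContDiff ℝ ∞ ζ → HasCompactSupport ζ → tsupport ζ ⊆ U →
        ∫ z, flx (g z) (gradient ζ z) = 0) : ContDiffOn ℝ ∞ w U := by
  have hn : ∀ q : F →L[ℝ] V, ‖cj L₁ L₂ q‖ ≤ ‖q‖ := by
    intro q
    refine ContinuousLinearMap.opNorm_le_bound _ (norm_nonneg _) fun x => ?_
    rw [cj_apply, L₂.symm.norm_map]
    exact (q.le_opNorm _).trans (by rw [L₁.norm_map])
  have h1 := H (L₁ ⁻¹' U) (fun x => L₂.symm (w (L₁ x))) (fun x => cj L₁ L₂ (g (L₁ x)))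
    (hU.preimage L₁.continuous) ?_ ?_ ?_ ?_
  · have h2 : ContDiffOn ℝ ∞ (fun y => L₂ (L₂.symm (w (L₁ (L₁.symm y))))) U := by
      refine (L₂.contDiff.comp_contDiffOn (h1.comp L₁.symm.contDiff.contDiffOn ?_))
      intro y hy
      simpa using hy
    refine h2.congr fun y _ => ?_
    simp
  · intro z hz
    have e1 : HasFDerivAt (fun x => L₁ x) (L₁ : F' →L[ℝ] F) z :=
      (L₁ : F' ≃L[ℝ] F).hasFDerivAt
    have e2 : HasFDerivAt (fun x => L₂.symm x) (L₂.symm : V →L[ℝ] V') (w (L₁ z)) :=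
      (L₂.symm : V ≃L[ℝ] V').hasFDerivAt
    exact e2.comp z ((hder _ hz).comp z e1)
  · intro x hx
    obtain ⟨r, hr, K, hK⟩ := hhol _ hx
    refine ⟨r, hr, K, fun z hz z' hz' => ?_⟩
    have hb : ∀ z ∈ ball x r, L₁ z ∈ ball (L₁ x) r := by
      intro z hz
      rw [mem_ball, dist_eq_norm, ← map_sub, L₁.norm_map, ← dist_eq_norm]
      exact hz
    have e1 : cj L₁ L₂ (g (L₁ z)) - cj L₁ L₂ (g (L₁ z')) = cj L₁ L₂ (g (L₁ z) - g (L₁ z')) := by
      ext y; simp [cj_apply]
    rw [e1]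
    refine (hn _).trans ((hK _ (hb z hz) _ (hb z' hz')).trans ?_)
    rw [← map_sub, L₁.norm_map]
  · intro z hz
    exact (hn _).trans_lt (hsm _ hz)
  · intro ζ hζ hcs hts
    have hz1 : ContDiff ℝ ∞ (fun y => ζ (L₁.symm y)) := hζ.comp L₁.symm.contDiff
    have hsub : tsupport (fun y => ζ (L₁.symm y)) ⊆ L₁.symm ⁻¹' (tsupport ζ) :=
      tsupport_comp_subset_preimage (f := fun y : F => L₁.symm y) ζ L₁.symm.continuous
    have hcs1 : HasCompactSupport (fun y => ζ (L₁.symm y)) := by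
      have h3 : IsCompact (L₁ '' tsupport ζ) := hcs.image L₁.continuous
      refine HasCompactSupport.of_support_subset_isCompact h3 ?_
      intro z hz
      exact ⟨L₁.symm z, hsub (subset_tsupport _ hz), by simp⟩
    have h2 := hweak _ hz1 hcs1 (fun y hy => by
      have := hts (hsub hy)
      simpa using this)
    have hmp : MeasurePreserving L₁ (volume : Measure F') (volume : Measure F) :=
      L₁.measurePreserving
    rw [← hmp.integral_comp L₁.toHomeomorph.measurableEmbedding] at h2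
    have h3 : ∀ x : F', flx (cj L₁ L₂ (g (L₁ x))) (gradient ζ x) =
        L₂.symm (flx (g (L₁ x)) (gradient (fun y => ζ (L₁.symm y)) (L₁ x))) := by
      intro x
      rw [flx_cj, gradient_comp_isometry L₁ hζ, L₁.symm_apply_apply]
    simp only [h3]
    have h4 := (L₂.symm : V ≃L[ℝ] V').integral_comp_comm
      (μ := (volume : Measure F')) (fun x : F' =>
        flx (g (L₁ x)) (gradient (fun y => ζ (L₁.symm y)) (L₁ x)))
    refine h4.trans ?_
    rw [h2, map_zero]

end unif

variable {m k : ℕ}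

/-- uniform smallness constant for the minimal surface system over all `m`-planes of `ℝ^k` -/
theorem mss_smooth_unif (m k : ℕ) {α : ℝ} (hα : 0 < α) (hα1 : α < 1) :
    ∃ p₀ > 0, ∀ (T : Submodule ℝ (Euc k)), Module.finrank ℝ T = m →
      ∀ (U : Set T) (w : T → Tᗮ) (g : T → T →L[ℝ] Tᗮ), IsOpen U →
      (∀ z ∈ U, HasFDerivAt w (g z) z) →
      (∀ x ∈ U, ∃ r > 0, ∃ K, ∀ z ∈ ball x r, ∀ z' ∈ ball x r, ‖g z - g z'‖ ≤ K * ‖z - z'‖ ^ α) →
      (∀ z ∈ U, ‖g z‖ < p₀) →
      (∀ ζ : T → ℝ, ContDiff ℝ ∞ ζ → HasCompactSupport ζ → tsupport ζ ⊆ U →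
        ∫ z, flx (g z) (gradient ζ z) = 0) → ContDiffOn ℝ ∞ w U := by
  obtain ⟨p₀, hp, H⟩ := mss_smooth (Euc m) (Euc (k - m)) hα hα1
  refine ⟨p₀, hp, ?_⟩
  intro T hT
  have hT' : Module.finrank ℝ Tᗮ = k - m := by
    have h1 := T.finrank_add_finrank_orthogonal
    rw [finrank_euclideanSpace, Fintype.card_fin] at h1
    omega
  let L₁ : Euc m ≃ₗᵢ[ℝ] T := ((stdOrthonormalBasis ℝ T).reindex (finCongr hT)).repr.symm
  let L₂ : Euc (k - m) ≃ₗᵢ[ℝ] Tᗮ := ((stdOrthonormalBasis ℝ Tᗮ).reindex (finCongr hT')).repr.symm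
  intro U w g hU hder hhol hsm hweak
  exact mss_transfer H L₁ L₂ U w g hU hder hhol hsm hweak

end

end Crest.Agent.R234.Ell5_3
end

-- ▼ part R234/Ell6_3

/-!
R234 (helper3), VF-ELL part 6: regular points.

* `support_eq`: the support of the weight in the cylinder is the graph;
* `isSubmanifold_of_smooth`, `regular_of_smooth`: graph of a smooth function ==> no singular point
  in the cylinder;
* `regular_of_graph`: **`C^{1,α}` graph with `weight = Q · area` ==> no singular point**.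
-/

open MeasureTheory Metric Set Filter Topology
open scoped ContDiff NNReal ENNReal
open Crest.GeometryTopology.Submanifold

namespace Crest.Agent.R234.Ell6_3

noncomputable section

set_option linter.unusedSectionVars false

open Crest.Agent.R234.Ell1_3 Crest.Agent.R234.Ell2_3 Crest.Agent.R234.Ell3_3
open Crest.Agent.R234.Ell4_3 Crest.Agent.R234.Ell5_3

variable {m k : ℕ}

variable (T : Submodule ℝ (Euc k)) (x0 : Euc k) (r s : ℝ) (u : T → Tᗮ) (g : T → T →L[ℝ] Tᗮ)

lemma gmap_mem_grf {z : T} (hz : z ∈ ball (0 : T) r) (hus : ‖u z‖ < s) :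
    gmap T x0 u z ∈ grf T x0 u r s := by
  refine ⟨⟨?_, ?_⟩, ?_⟩
  · simpa only [gmap, px_gmap] using hz
  · simp only [gmap, py_gmap, mem_ball, dist_zero_right]; exact hus
  · simp only [gmap, px_gmap, py_gmap]

lemma gmap_px {p : Euc k} (hp : p ∈ grf T x0 u r s) : gmap T x0 u (px T x0 p) = p := by
  unfold gmap
  rw [← hp.2]
  exact (split T x0 p).symm

theorem support_eq {D : VarifoldData m k}
    (hu : ContinuousOn u (ball 0 r)) (hg : ContinuousOn g (ball 0 r))
    {Q : ℝ≥0∞} (hQ0 : Q ≠ 0)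
    (hμ : (weight D).restrict (cyl T x0 r s) = Q • gmeas T x0 u g r) :
    support D ∩ cyl T x0 r s = grf T x0 u r s := by
  ext p
  constructor
  · rintro ⟨hs, hc⟩
    by_contra hng
    have hop := cyl_diff_grf_isOpen T x0 r s u hu
    obtain ⟨ρ, hρ, hsub⟩ := Metric.isOpen_iff.1 hop p ⟨hc, hng⟩
    have h1 : weight D (cyl T x0 r s \ grf T x0 u r s) = 0 := by
      have h1 := congrArg (fun μ : Measure (Euc k) => μ (cyl T x0 r s \ grf T x0 u r s)) hμ
      simp only [Measure.smul_apply, gmeas_diff T x0 r s u g hu, smul_zero] at h1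
      rw [Measure.restrict_apply hop.measurableSet, inter_eq_left.2 sdiff_subset] at h1
      exact h1
    exact absurd (measure_mono_null hsub h1) (hs ρ hρ).ne'
  · intro hp
    refine ⟨fun ρ hρ => ?_, hp.1⟩
    have h1 : Q * gmeas T x0 u g r (ball p ρ) ≤ weight D (ball p ρ) := by
      have h2 := congrArg (fun μ : Measure (Euc k) => μ (ball p ρ)) hμ
      simp only [Measure.smul_apply, smul_eq_mul] at h2
      rw [← h2]
      exact Measure.restrict_apply_le _ _
    refine lt_of_lt_of_le ?_ h1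
    refine ENNReal.mul_pos hQ0 ?_
    unfold gmeas
    rw [Measure.map_apply_of_aemeasurable (gmap_aemeasurable T x0 r u g hu) measurableSet_ball]
    intro h3
    have hz : px T x0 p ∈ ball (0 : T) r := hp.1.1
    have hcont : ContinuousAt (gmap T x0 u) (px T x0 p) :=
      (gmap_continuousOn T x0 r u hu).continuousAt (isOpen_ball.mem_nhds hz)
    have hnb : gmap T x0 u ⁻¹' (ball p ρ) ∩ ball (0 : T) r ∈ 𝓝 (px T x0 p) := by
      refine Filter.inter_mem (hcont.preimage_mem_nhds ?_) (isOpen_ball.mem_nhds hz)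
      rw [gmap_px T x0 r s u hp]
      exact ball_mem_nhds p hρ
    obtain ⟨O, hOsub, hOo, hzO⟩ := _root_.mem_nhds_iff.1 hnb
    have h4 : ((volume.restrict (ball (0 : T) r)).withDensity
        (fun x => ENNReal.ofReal (dns (g x)))) O = 0 :=
      measure_mono_null (hOsub.trans inter_subset_left) h3
    have hmeas : AEMeasurable (fun x => ENNReal.ofReal (dns (g x)))
        (volume.restrict (ball (0 : T) r)) :=
      ((dns_contDiff.continuous.comp_continuousOn hg).aemeasurable
        measurableSet_ball).ennreal_ofReal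
    rw [withDensity_apply_eq_zero' hmeas] at h4
    have h5 : {x | ENNReal.ofReal (dns (g x)) ≠ 0} ∩ O = O := by
      ext x
      simp only [mem_inter_iff, and_iff_right_iff_imp]
      intro _
      exact (ENNReal.ofReal_pos.2 (dns_pos _)).ne'
    rw [h5, Measure.restrict_apply hOo.measurableSet,
      inter_eq_left.2 (hOsub.trans inter_subset_right)] at h4
    exact (hOo.measure_pos volume ⟨_, hzO⟩).ne' h4

theorem isSubmanifold_of_smooth (hT : Module.finrank ℝ T = m)
    (hsm : ContDiffOn ℝ ∞ u (ball 0 r)) (hus : ∀ z ∈ ball (0 : T) r, ‖u z‖ < s) :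
    IsSubmanifold m k (grf T x0 u r s) := by
  intro p hp
  let L : Euc m ≃ₗᵢ[ℝ] T := ((stdOrthonormalBasis ℝ T).reindex (finCongr hT)).repr.symm
  set z0 := px T x0 p with hz0
  have hz : z0 ∈ ball (0 : T) r := hp.1.1
  set A : Euc m → T := fun a => z0 + L a with hA
  have hAc : Continuous A := continuous_const.add L.continuous
  have hAs : ContDiff ℝ ∞ A := contDiff_const.add L.contDiff
  have hAi : Function.Injective A := fun a b h => L.injective (add_left_cancel h)
  refine ⟨fun a => gmap T x0 u (A a), A ⁻¹' (ball 0 r), ?_, ?_, ?_, ?_, ?_, ?_, ?_⟩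
  · exact isOpen_ball.preimage hAc
  · simpa [hA] using hz
  · have h1 : A 0 = z0 := by simp [hA]
    show gmap T x0 u (A 0) = p
    rw [h1]
    exact gmap_px T x0 r s u hp
  · have h1 : ContDiffOn ℝ ∞ (gmap T x0 u) (ball 0 r) := by
      unfold gmap
      refine contDiffOn_const.add ?_
      exact T.subtypeL.contDiff.contDiffOn.add (Tᗮ.subtypeL.contDiff.comp_contDiffOn hsm)
    exact h1.comp hAs.contDiffOn (fun a ha => ha)
  · intro a ha b hb hab
    have h1 := congrArg (px T x0) hab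
    simp only [gmap, px_gmap] at h1
    exact hAi h1
  · intro a ha
    have ha' : A a ∈ ball (0 : T) r := ha
    have hd : DifferentiableAt ℝ u (A a) :=
      ((hsm.differentiableOn (by simp)) _ ha').differentiableAt (isOpen_ball.mem_nhds ha')
    have e1 : HasFDerivAt A (L : Euc m →L[ℝ] T) a := (L : Euc m ≃L[ℝ] T).hasFDerivAt.const_add z0
    have e2 : HasFDerivAt (fun a => gmap T x0 u (A a))
        ((T.subtypeL + Tᗮ.subtypeL ∘L fderiv ℝ u (A a)) ∘L (L : Euc m →L[ℝ] T)) a := by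
      have e3 : HasFDerivAt (gmap T x0 u) (T.subtypeL + Tᗮ.subtypeL ∘L fderiv ℝ u (A a)) (A a) := by
        unfold gmap
        exact (T.subtypeL.hasFDerivAt.add (Tᗮ.subtypeL.hasFDerivAt.comp _ hd.hasFDerivAt)).const_add
          x0
      exact e3.comp a e1
    rw [e2.fderiv, injective_iff_map_eq_zero]
    intro ξ hξ
    have h1 : ((L ξ : T) : Euc k) + ((fderiv ℝ u (A a) (L ξ) : Tᗮ) : Euc k) = 0 := hξ
    have h2 := inner_split T (L ξ) (L ξ) (fderiv ℝ u (A a) (L ξ)) (fderiv ℝ u (A a) (L ξ))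
    rw [h1, inner_zero_left] at h2
    have h3 : (0 : ℝ) ≤ inner ℝ (L ξ) (L ξ) := real_inner_self_nonneg
    have h4 : (0 : ℝ) ≤ inner ℝ (fderiv ℝ u (A a) (L ξ)) (fderiv ℝ u (A a) (L ξ)) :=
      real_inner_self_nonneg
    have h5 : (inner ℝ (L ξ) (L ξ) : ℝ) = 0 := by linarith
    have h6 : L ξ = 0 := inner_self_eq_zero.1 h5
    exact L.injective (by rw [h6, map_zero])
  · intro O hO hOo
    have hAO : IsOpen (A '' O) := by
      have h1 : A '' O = (Homeomorph.addLeft z0) '' (L.toHomeomorph '' O) := by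
        rw [← image_comp]; rfl
      rw [h1]
      exact (Homeomorph.addLeft z0).isOpenMap _ (L.toHomeomorph.isOpenMap _ hOo)
    refine ⟨px T x0 ⁻¹' (A '' O), hAO.preimage (px_continuous T x0), ?_⟩
    ext q
    constructor
    · rintro ⟨a, ha, rfl⟩
      have ha' : A a ∈ ball (0 : T) r := hO ha
      refine ⟨gmap_mem_grf T x0 r s u ha' (hus _ ha'), ?_⟩
      show px T x0 (gmap T x0 u (A a)) ∈ A '' O
      simp only [gmap, px_gmap]
      exact ⟨a, ha, rfl⟩
    · rintro ⟨hq, a, ha, haq⟩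
      refine ⟨a, ha, ?_⟩
      show gmap T x0 u (A a) = q
      rw [haq]
      exact gmap_px T x0 r s u hq

/-- graph of a smooth function: no singular point in the cylinder -/
theorem regular_of_smooth {U : Set (Euc k)} {D : VarifoldData m k}
    (hT : Module.finrank ℝ T = m) (hsm : ContDiffOn ℝ ∞ u (ball 0 r))
    (hus : ∀ z ∈ ball (0 : T) r, ‖u z‖ < s)
    (hsup : support D ∩ cyl T x0 r s = grf T x0 u r s) {p : Euc k} (hp : p ∈ cyl T x0 r s) :
    p ∉ singularSet m k U D := by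
  rintro ⟨_, _, h⟩
  refine h ⟨cyl T x0 r s, cyl_isOpen T x0 r s, hp, ?_⟩
  rw [hsup]
  exact isSubmanifold_of_smooth T x0 r s u hT hsm hus

/-- **last step of Allard's theorem**: there is `p₀ = p₀(m,k,α) > 0` such that: if in a cylinder
the weight of a stationary integral varifold is `Q` times the area of a `C^{1,α}` graph with
gradient `< p₀`, then there is no singular point in the cylinder. -/
theorem regular_of_graph (m k : ℕ) {α : ℝ} (hα : 0 < α) (hα1 : α < 1) :
    ∃ p₀ > 0, ∀ (U : Set (Euc k)) (D : VarifoldData m k), IsIntegralVarifoldIn U D →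
      IsStationaryIn U D → ∀ (T : Submodule ℝ (Euc k)), Module.finrank ℝ T = m →
      ∀ (x0 : Euc k) (r s : ℝ) (u : T → Tᗮ) (g : T → T →L[ℝ] Tᗮ),
      (∀ z ∈ ball (0 : T) r, HasFDerivAt u (g z) z) →
      (∀ x ∈ ball (0 : T) r, ∃ ρ > 0, ∃ K, ∀ z ∈ ball x ρ, ∀ z' ∈ ball x ρ,
        ‖g z - g z'‖ ≤ K * ‖z - z'‖ ^ α) →
      (∀ z ∈ ball (0 : T) r, ‖g z‖ < p₀) →
      (∀ z ∈ ball (0 : T) r, ‖u z‖ < s) → cyl T x0 r s ⊆ U →
      ∀ (Q : ℝ≥0∞), Q ≠ 0 → Q ≠ ⊤ →
      (weight D).restrict (cyl T x0 r s) = Q • gmeas T x0 u g r →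
      ContDiffOn ℝ ∞ u (ball 0 r) ∧ ∀ p ∈ cyl T x0 r s, p ∉ singularSet m k U D := by
  obtain ⟨p₀, hp, H⟩ := mss_smooth_unif m k hα hα1
  refine ⟨p₀, hp, ?_⟩
  intro U D hD hst T hT x0 r s u g hder hhol hsm hus hW Q hQ0 hQ1 hμ
  have hg : ContinuousOn g (ball 0 r) := by
    intro x hx
    obtain ⟨ρ, hρ, K, hK⟩ := hhol x hx
    exact (Crest.Agent.R246.H2x622.continuousAt_of_hol (W := T →L[ℝ] Tᗮ) (g := g) (x := x)
      hα hρ hK).continuousWithinAt
  have hu : ContinuousOn u (ball 0 r) := fun z hz => (hder z hz).continuousAt.continuousWithinAt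
  have h1 := H T hT (ball 0 r) u g isOpen_ball hder hhol hsm
    (weak_eq T x0 r s u g hD hst hT hder hg hus hW hQ0 hQ1 hμ)
  exact ⟨h1, fun p hp => regular_of_smooth T x0 r s u hT h1 hus
    (support_eq T x0 r s u g hu hg hQ0 hμ) hp⟩

end

end Crest.Agent.R234.Ell6_3
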