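import Mathlib
import Crest.Agent.R234.Cacc_113

-- ▼ part R234/Sup_113
section

/-!
Row 234: weighted monotonicity and the sharp mean value inequality for subharmonic functions on a
stationary general varifold.
-/

set_option linter.unusedSectionVars false

namespace Crest.Agent.R234.Cacc_113

open MeasureTheory Set Filter Topology
open scoped InnerProductSpace

variable {E : Type*} [NormedAddCommGroup E] [InnerProductSpace ℝ E] [FiniteDimensional ℝ E]
  [MeasurableSpace E] [BorelSpace E]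

variable {U : Set E} {V : Measure (E × (E →L[ℝ] E))} {m : ℕ}

/-- `φ (|x - x₀|² / r²)` -/
noncomputable def ker (φ : ℝ → ℝ) (x₀ : E) (r : ℝ) (x : E) : ℝ := φ (‖x - x₀‖ ^ 2 / r ^ 2)

theorem hasFDerivAt_ker {φ : ℝ → ℝ} (hφ : Differentiable ℝ φ) (x₀ : E) (r : ℝ) (x : E) :
    HasFDerivAt (ker φ x₀ r)
      ((deriv φ (‖x - x₀‖ ^ 2 / r ^ 2) * (2 / r ^ 2)) • innerSL ℝ (x - x₀)) x := by
  have h1 : HasFDerivAt (fun x : E => ‖x - x₀‖ ^ 2) (2 • innerSL ℝ (x - x₀)) x := by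
    have h2 : HasFDerivAt (fun x : E => x - x₀) (ContinuousLinearMap.id ℝ E) x :=
      (hasFDerivAt_id x).sub_const x₀
    have h3 := h2.norm_sq
    simpa using h3
  have h4 : HasFDerivAt (fun x : E => ‖x - x₀‖ ^ 2 / r ^ 2)
      ((r ^ 2)⁻¹ • (2 • innerSL ℝ (x - x₀))) x := by
    have := h1.mul_const (r ^ 2)⁻¹
    simpa [div_eq_mul_inv] using this
  have h5 : HasDerivAt φ (deriv φ (‖x - x₀‖ ^ 2 / r ^ 2)) (‖x - x₀‖ ^ 2 / r ^ 2) :=
    (hφ _).hasDerivAt
  have h6 := h5.comp_hasFDerivAt x h4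
  refine h6.congr_fderiv ?_
  ext v
  simp
  ring

theorem contDiff_ker {φ : ℝ → ℝ} (hφ : ContDiff ℝ 1 φ) (x₀ : E) (r : ℝ) :
    ContDiff ℝ 1 (ker φ x₀ r) := by
  unfold ker
  exact hφ.comp (((contDiff_id.sub contDiff_const).norm_sq ℝ).div_const _)

theorem ker_eq_zero {φ : ℝ → ℝ} (h1 : ∀ s, 1 ≤ s → φ s = 0) {x₀ : E} {r : ℝ} (hr : 0 < r) {x : E}
    (hx : x ∉ Metric.ball x₀ r) : ker φ x₀ r x = 0 := by
  refine h1 _ ?_
  rw [Metric.mem_ball, dist_eq_norm, not_lt] at hx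
  rw [le_div_iff₀ (by positivity), one_mul]
  gcongr

theorem deriv_eq_zero_of {φ : ℝ → ℝ} (hφ : ContDiff ℝ 1 φ) (h1 : ∀ s, 1 ≤ s → φ s = 0) {s : ℝ}
    (hs : 1 ≤ s) : deriv φ s = 0 := by
  have h2 : ∀ s, 1 < s → deriv φ s = 0 := by
    intro s hs
    have : φ =ᶠ[𝓝 s] fun _ => 0 := by
      filter_upwards [lt_mem_nhds hs] with t ht
      exact h1 t ht.le
    rw [this.deriv_eq]
    simp
  rcases hs.lt_or_eq with h | h
  · exact h2 s h
  · subst h
    have hc : Continuous (deriv φ) := hφ.continuous_deriv le_rfl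
    have h3 : Tendsto (deriv φ) (𝓝[>] 1) (𝓝 (deriv φ 1)) := hc.continuousAt.mono_left inf_le_left
    have h4 : Tendsto (deriv φ) (𝓝[>] (1 : ℝ)) (𝓝 0) := by
      refine tendsto_const_nhds.congr' ?_
      filter_upwards [self_mem_nhdsWithin] with t ht
      exact (h2 t ht).symm
    exact tendsto_nhds_unique h3 h4

theorem tsupport_subset_of {F : Type*} [Zero F] {X : E → F} {x₀ : E} {r : ℝ}
    (h : ∀ x, x ∉ Metric.ball x₀ r → X x = 0) : tsupport X ⊆ Metric.closedBall x₀ r := by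
  refine closure_minimal ?_ Metric.isClosed_closedBall
  intro x hx
  by_contra hcon
  exact hx (h x fun h' => hcon (Metric.ball_subset_closedBall h'))

section mono

variable {x₀ : E} {R : ℝ} {f : E → ℝ} {G : E → E} {φ : ℝ → ℝ}

theorem continuous_of_grad (hf : ∀ x, HasFDerivAt f (innerSL ℝ (G x)) x) : Continuous f :=
  continuous_iff_continuousAt.mpr fun x => (hf x).continuousAt

theorem contDiff_of_grad (hf : ∀ x, HasFDerivAt f (innerSL ℝ (G x)) x) (hG : ContDiff ℝ 1 G) :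
    ContDiff ℝ 1 f := by
  rw [contDiff_one_iff_hasFDerivAt]
  exact ⟨fun x => innerSL ℝ (G x), (innerSL ℝ).continuous.comp hG.continuous, hf⟩

/-- first test field. -/
theorem tr_field1 (hf : ∀ x, HasFDerivAt f (innerSL ℝ (G x)) x) (hφ : Differentiable ℝ φ)
    (r : ℝ) (x : E) (P : E →L[ℝ] E) :
    tr (fderiv ℝ (fun x => (ker φ x₀ r x * f x) • (x - x₀)) x ∘L P) =
      ker φ x₀ r x * f x * tr P +
      (deriv φ (‖x - x₀‖ ^ 2 / r ^ 2) * (2 / r ^ 2) * ⟪x - x₀, P (x - x₀)⟫_ℝ * f x +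
        ker φ x₀ r x * ⟪G x, P (x - x₀)⟫_ℝ) := by
  have h1 : HasFDerivAt (fun x => ker φ x₀ r x * f x)
      (ker φ x₀ r x • innerSL ℝ (G x) + f x •
        ((deriv φ (‖x - x₀‖ ^ 2 / r ^ 2) * (2 / r ^ 2)) • innerSL ℝ (x - x₀))) x :=
    (hasFDerivAt_ker hφ x₀ r x).mul (hf x)
  have h2 : HasFDerivAt (fun x : E => x - x₀) (ContinuousLinearMap.id ℝ E) x :=
    (hasFDerivAt_id x).sub_const x₀
  have h3 : HasFDerivAt (fun x => (ker φ x₀ r x * f x) • (x - x₀)) _ x := h1.smul h2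
  rw [h3.fderiv, ContinuousLinearMap.add_comp, tr_add, tr_smulRight_comp,
    ContinuousLinearMap.smul_comp, tr_smul, ContinuousLinearMap.id_comp]
  simp only [add_apply, smul_apply, innerSL_apply_apply, smul_eq_mul]
  ring

/-- second test field. -/
theorem tr_field2 {Φ : ℝ → ℝ} (hG : ContDiff ℝ 1 G) (hΦ : ∀ s, HasDerivAt Φ (φ s) s)
    (r : ℝ) (x : E) (P : E →L[ℝ] E) :
    tr (fderiv ℝ (fun x => ker Φ x₀ r x • G x) x ∘L P) =
      ker Φ x₀ r x * tr (fderiv ℝ G x ∘L P) +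
        ker φ x₀ r x * (2 / r ^ 2) * ⟪x - x₀, P (G x)⟫_ℝ := by
  have hd : Differentiable ℝ Φ := fun s => (hΦ s).differentiableAt
  have h1 := hasFDerivAt_ker hd x₀ r x
  have h2 : HasFDerivAt G (fderiv ℝ G x) x := (hG.differentiable one_ne_zero x).hasFDerivAt
  have h3 : HasFDerivAt (fun x => ker Φ x₀ r x • G x) _ x := h1.smul h2
  rw [h3.fderiv, ContinuousLinearMap.add_comp, tr_add, tr_smulRight_comp,
    ContinuousLinearMap.smul_comp, tr_smul, (hΦ _).deriv]
  simp only [smul_apply, innerSL_apply_apply, smul_eq_mul, ker]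

/-- the antiderivative of `φ` vanishing on `[1, ∞)`. -/
noncomputable def Prim (φ : ℝ → ℝ) (s : ℝ) : ℝ := ∫ u in (1 : ℝ)..s, φ u

theorem hasDerivAt_prim (hφ : Continuous φ) (s : ℝ) : HasDerivAt (Prim φ) (φ s) s :=
  intervalIntegral.integral_hasDerivAt_right (hφ.intervalIntegrable _ _)
    (hφ.stronglyMeasurableAtFilter _ _) hφ.continuousAt

theorem prim_eq_zero (h1 : ∀ s, 1 ≤ s → φ s = 0) {s : ℝ} (hs : 1 ≤ s) : Prim φ s = 0 := by
  unfold Prim
  rw [intervalIntegral.integral_congr (g := fun _ => (0 : ℝ))]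
  · simp
  · intro u hu
    rw [uIcc_of_le hs] at hu
    exact h1 u hu.1

theorem nonneg_of_antitone (hφa : Antitone φ) (h1 : ∀ s, 1 ≤ s → φ s = 0) (s : ℝ) : 0 ≤ φ s := by
  have h2 := hφa (le_max_left s 1)
  rw [h1 _ (le_max_right _ _)] at h2
  exact h2

theorem prim_nonpos (hφa : Antitone φ) (h1 : ∀ s, 1 ≤ s → φ s = 0) (s : ℝ) : Prim φ s ≤ 0 := by
  rcases le_or_gt 1 s with hs | hs
  · rw [prim_eq_zero h1 hs]
  · unfold Prim
    rw [intervalIntegral.integral_symm, neg_nonpos]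
    exact intervalIntegral.integral_nonneg hs.le fun u _ => nonneg_of_antitone hφa h1 u

theorem contDiff_prim (hφ : ContDiff ℝ 1 φ) : ContDiff ℝ 1 (Prim φ) := by
  rw [contDiff_one_iff_deriv]
  refine ⟨fun s => (hasDerivAt_prim hφ.continuous s).differentiableAt, ?_⟩
  have : deriv (Prim φ) = φ := by
    funext s
    exact (hasDerivAt_prim hφ.continuous s).deriv
  rw [this]
  exact hφ.continuous

/-- the basic identity for the two test fields. -/
theorem St.ident (h : St U V) (hm : ∀ᵐ z ∂V, tr z.2 = m) {r : ℝ} (hr : 0 < r)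
    (hU : Metric.closedBall x₀ r ⊆ U)
    (hf : ∀ x, HasFDerivAt f (innerSL ℝ (G x)) x) (hG : ContDiff ℝ 1 G)
    (hφ : ContDiff ℝ 1 φ) (h1 : ∀ s, 1 ≤ s → φ s = 0) :
    m * ∫ z, ker φ x₀ r z.1 * f z.1 ∂V +
      ∫ z, deriv φ (‖z.1 - x₀‖ ^ 2 / r ^ 2) * (2 / r ^ 2) * ⟪z.1 - x₀, z.2 (z.1 - x₀)⟫_ℝ * f z.1 ∂V =
      r ^ 2 / 2 * ∫ z, ker (Prim φ) x₀ r z.1 * tr (fderiv ℝ G z.1 ∘L z.2) ∂V := by
  have hK := isCompact_closedBall x₀ r
  have hfc := continuous_of_grad hf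
  have hkc : Continuous (ker φ x₀ r) := (contDiff_ker hφ x₀ r).continuous
  have hkc' : Continuous (ker (Prim φ) x₀ r) := (contDiff_ker (contDiff_prim hφ) x₀ r).continuous
  have hdc : Continuous (deriv φ) := hφ.continuous_deriv le_rfl
  have hz0 : ∀ z : E × (E →L[ℝ] E), z.1 ∉ Metric.closedBall x₀ r → z.1 ∉ Metric.ball x₀ r :=
    fun z hz h' => hz (Metric.ball_subset_closedBall h')
  have hquad : Continuous fun z : E × (E →L[ℝ] E) => ‖z.1 - x₀‖ ^ 2 / r ^ 2 :=
    ((continuous_fst.sub continuous_const).norm.pow 2).div_const _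
  have hin : Continuous fun z : E × (E →L[ℝ] E) => ⟪z.1 - x₀, z.2 (z.1 - x₀)⟫_ℝ :=
    (continuous_fst.sub continuous_const).inner
      (continuous_snd.clm_apply (continuous_fst.sub continuous_const))
  have hA : Integrable (fun z : E × (E →L[ℝ] E) => ker φ x₀ r z.1 * f z.1) V := by
    refine h.integrable ((hkc.comp continuous_fst).mul (hfc.comp continuous_fst)) hK hU ?_
    intro z hz
    rw [ker_eq_zero h1 hr (hz0 z hz), zero_mul]
  have hAm : Integrable (fun z : E × (E →L[ℝ] E) => ker φ x₀ r z.1 * f z.1 * tr z.2) V := by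
    refine h.integrable (((hkc.comp continuous_fst).mul (hfc.comp continuous_fst)).mul
      (continuous_tr.comp continuous_snd)) hK hU ?_
    intro z hz
    rw [ker_eq_zero h1 hr (hz0 z hz), zero_mul, zero_mul]
  have hB : Integrable (fun z : E × (E →L[ℝ] E) =>
      deriv φ (‖z.1 - x₀‖ ^ 2 / r ^ 2) * (2 / r ^ 2) * ⟪z.1 - x₀, z.2 (z.1 - x₀)⟫_ℝ * f z.1) V := by
    refine h.integrable (((((hdc.comp hquad).mul continuous_const).mul hin)).mul
      (hfc.comp continuous_fst)) hK hU ?_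
    intro z hz
    have h2 : 1 ≤ ‖z.1 - x₀‖ ^ 2 / r ^ 2 := by
      rw [Metric.mem_closedBall, dist_eq_norm, not_le] at hz
      rw [le_div_iff₀ (by positivity), one_mul]
      gcongr
    rw [deriv_eq_zero_of hφ h1 h2]
    simp
  have hC : Integrable (fun z : E × (E →L[ℝ] E) =>
      ker φ x₀ r z.1 * ⟪G z.1, z.2 (z.1 - x₀)⟫_ℝ) V := by
    refine h.integrable ((hkc.comp continuous_fst).mul ((hG.continuous.comp continuous_fst).inner
      (continuous_snd.clm_apply (continuous_fst.sub continuous_const)))) hK hU ?_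
    intro z hz
    rw [ker_eq_zero h1 hr (hz0 z hz), zero_mul]
  have hD : Integrable (fun z : E × (E →L[ℝ] E) =>
      ker (Prim φ) x₀ r z.1 * tr (fderiv ℝ G z.1 ∘L z.2)) V := by
    refine h.integrable ((hkc'.comp continuous_fst).mul (continuous_tr.comp
      (((hG.continuous_fderiv one_ne_zero).comp continuous_fst).clm_comp continuous_snd))) hK hU ?_
    intro z hz
    rw [ker_eq_zero (fun s hs => prim_eq_zero h1 hs) hr (hz0 z hz), zero_mul]
  have hC' : Integrable (fun z : E × (E →L[ℝ] E) =>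
      ker φ x₀ r z.1 * (2 / r ^ 2) * ⟪z.1 - x₀, z.2 (G z.1)⟫_ℝ) V := by
    refine h.integrable (((hkc.comp continuous_fst).mul continuous_const).mul
      ((continuous_fst.sub continuous_const).inner
      (continuous_snd.clm_apply (hG.continuous.comp continuous_fst)))) hK hU ?_
    intro z hz
    rw [ker_eq_zero h1 hr (hz0 z hz), zero_mul, zero_mul]
  -- first field
  have e1 := h.st (fun x => (ker φ x₀ r x * f x) • (x - x₀))
    (((contDiff_ker hφ x₀ r).mul (contDiff_of_grad hf hG)).smul (contDiff_id.sub contDiff_const))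
    ((HasCompactSupport.intro hK fun x hx => by
      rw [ker_eq_zero h1 hr (fun h' => hx (Metric.ball_subset_closedBall h')), zero_mul, zero_smul]))
    ((tsupport_subset_of fun x hx => by
      rw [ker_eq_zero h1 hr hx, zero_mul, zero_smul]).trans hU)
  simp_rw [tr_field1 hf (hφ.differentiable one_ne_zero)] at e1
  have hBC : Integrable (fun z : E × (E →L[ℝ] E) =>
      deriv φ (‖z.1 - x₀‖ ^ 2 / r ^ 2) * (2 / r ^ 2) * ⟪z.1 - x₀, z.2 (z.1 - x₀)⟫_ℝ * f z.1 +
      ker φ x₀ r z.1 * ⟪G z.1, z.2 (z.1 - x₀)⟫_ℝ) V := hB.add hC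
  rw [integral_add hAm hBC, integral_add hB hC] at e1
  -- second field
  have e2 := h.st (fun x => ker (Prim φ) x₀ r x • G x)
    ((contDiff_ker (contDiff_prim hφ) x₀ r).smul hG)
    ((HasCompactSupport.intro hK fun x hx => by
      rw [ker_eq_zero (fun s hs => prim_eq_zero h1 hs) hr
        (fun h' => hx (Metric.ball_subset_closedBall h')), zero_smul]))
    ((tsupport_subset_of fun x hx => by
      rw [ker_eq_zero (fun s hs => prim_eq_zero h1 hs) hr hx, zero_smul]).trans hU)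
  simp_rw [tr_field2 hG (hasDerivAt_prim hφ.continuous)] at e2
  rw [integral_add hD hC'] at e2
  have e3 : ∫ z, ker φ x₀ r z.1 * f z.1 * tr z.2 ∂V = m * ∫ z, ker φ x₀ r z.1 * f z.1 ∂V := by
    rw [← integral_const_mul]
    refine integral_congr_ae ?_
    filter_upwards [hm] with z hz
    rw [hz]; ring
  have e4 : ∫ z, ker φ x₀ r z.1 * (2 / r ^ 2) * ⟪z.1 - x₀, z.2 (G z.1)⟫_ℝ ∂V =
      (2 / r ^ 2) * ∫ z, ker φ x₀ r z.1 * ⟪G z.1, z.2 (z.1 - x₀)⟫_ℝ ∂V := by
    rw [← integral_const_mul]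
    refine integral_congr_ae ?_
    filter_upwards [h.pr] with z hz
    have : ⟪z.1 - x₀, z.2 (G z.1)⟫_ℝ = ⟪G z.1, z.2 (z.1 - x₀)⟫_ℝ := by
      rw [← hz.sa, real_inner_comm]
    rw [this]; ring
  rw [e3] at e1
  rw [e4] at e2
  have hr2 : r ^ 2 ≠ 0 := by positivity
  have e5 : r ^ 2 / 2 * ∫ z, ker (Prim φ) x₀ r z.1 * tr (fderiv ℝ G z.1 ∘L z.2) ∂V =
      - ∫ z, ker φ x₀ r z.1 * ⟪G z.1, z.2 (z.1 - x₀)⟫_ℝ ∂V := by
    have e6 : ∫ z, ker (Prim φ) x₀ r z.1 * tr (fderiv ℝ G z.1 ∘L z.2) ∂V =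
      - ((2 / r ^ 2) * ∫ z, ker φ x₀ r z.1 * ⟪G z.1, z.2 (z.1 - x₀)⟫_ℝ ∂V) := by linarith
    rw [e6]
    field_simp
  rw [e5]
  linarith

/-- derivative of the kernel mean in the radius. -/
theorem St.hasDerivAt_mean (h : St U V) {r : ℝ} (hr : 0 < r) (hrR : r < R)
    (hU : Metric.closedBall x₀ R ⊆ U) (hfc : Continuous f)
    (hφ : ContDiff ℝ 1 φ) (h1 : ∀ s, 1 ≤ s → φ s = 0) :
    HasDerivAt (fun t => ∫ z, ker φ x₀ t z.1 * f z.1 ∂V)
      (∫ z, deriv φ (‖z.1 - x₀‖ ^ 2 / r ^ 2) * (-(2 * ‖z.1 - x₀‖ ^ 2 / r ^ 3)) * f z.1 ∂V) r := by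
  have hK := isCompact_closedBall x₀ R
  have hdc : Continuous (deriv φ) := hφ.continuous_deriv le_rfl
  obtain ⟨Cf, hCf⟩ := hK.exists_bound_of_continuousOn hfc.continuousOn
  obtain ⟨Cd, hCd⟩ := (isCompact_Icc (a := (0 : ℝ)) (b := 1)).exists_bound_of_continuousOn
    hdc.continuousOn
  have hCf0 : 0 ≤ Cf := (norm_nonneg _).trans (hCf x₀ (Metric.mem_closedBall_self (hr.trans hrR).le))
  have hCd0 : 0 ≤ Cd := (norm_nonneg _).trans (hCd 0 (by simp))
  have hs : Ioo (r / 2) R ∈ 𝓝 r := Ioo_mem_nhds (by linarith) hrR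
  have hmeas : ∀ t : ℝ, Continuous fun z : E × (E →L[ℝ] E) => ker φ x₀ t z.1 * f z.1 := fun t =>
    ((contDiff_ker hφ x₀ t).continuous.comp continuous_fst).mul (hfc.comp continuous_fst)
  have hbd : ∀ z : E × (E →L[ℝ] E), ∀ t ∈ Ioo (r / 2) R,
      ‖deriv φ (‖z.1 - x₀‖ ^ 2 / t ^ 2) * (-(2 * ‖z.1 - x₀‖ ^ 2 / t ^ 3)) * f z.1‖ ≤
        (Metric.closedBall x₀ R ×ˢ (univ : Set (E →L[ℝ] E))).indicator
          (fun _ => Cd * (2 * R ^ 2 / (r / 2) ^ 3) * Cf) z := by
    intro z t ht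
    have ht0 : 0 < t := lt_trans (by linarith) ht.1
    by_cases hz : z.1 ∈ Metric.closedBall x₀ R
    · rw [indicator_of_mem (show z ∈ Metric.closedBall x₀ R ×ˢ univ from ⟨hz, mem_univ _⟩)]
      rw [norm_mul, norm_mul]
      have hzR : ‖z.1 - x₀‖ ≤ R := by
        rw [← dist_eq_norm]; exact hz
      have e1 : ‖deriv φ (‖z.1 - x₀‖ ^ 2 / t ^ 2)‖ ≤ Cd := by
        rcases le_or_gt 1 (‖z.1 - x₀‖ ^ 2 / t ^ 2) with h2 | h2
        · rw [deriv_eq_zero_of hφ h1 h2]; simpa using hCd0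
        · exact hCd _ ⟨by positivity, h2.le⟩
      have e2 : ‖-(2 * ‖z.1 - x₀‖ ^ 2 / t ^ 3)‖ ≤ 2 * R ^ 2 / (r / 2) ^ 3 := by
        rw [norm_neg, Real.norm_of_nonneg (by positivity)]
        have : (r / 2) ^ 3 ≤ t ^ 3 := by
          have := ht.1.le
          gcongr
        gcongr
      have e3 := hCf z.1 hz
      gcongr
    · rw [indicator_of_notMem (fun h' => hz h'.1)]
      have h2 : 1 ≤ ‖z.1 - x₀‖ ^ 2 / t ^ 2 := by
        rw [Metric.mem_closedBall, dist_eq_norm, not_le] at hz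
        rw [le_div_iff₀ (by positivity), one_mul]
        have := ht.2.le.trans hz.le
        gcongr
      rw [deriv_eq_zero_of hφ h1 h2]
      simp
  refine (hasDerivAt_integral_of_dominated_loc_of_deriv_le (𝕜 := ℝ) (s := Ioo (r / 2) R)
    (F := fun t (z : E × (E →L[ℝ] E)) => ker φ x₀ t z.1 * f z.1)
    (F' := fun t (z : E × (E →L[ℝ] E)) => deriv φ (‖z.1 - x₀‖ ^ 2 / t ^ 2) *
      (-(2 * ‖z.1 - x₀‖ ^ 2 / t ^ 3)) * f z.1)
    (bound := (Metric.closedBall x₀ R ×ˢ (univ : Set (E →L[ℝ] E))).indicator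
          (fun _ => Cd * (2 * R ^ 2 / (r / 2) ^ 3) * Cf))
    hs ?_ ?_ ?_ ?_ ?_ ?_).2
  · exact Eventually.of_forall fun t => (hmeas t).aestronglyMeasurable
  · refine h.integrable (hmeas r) hK hU ?_
    intro z hz
    rw [ker_eq_zero h1 hr, zero_mul]
    intro h'
    exact hz (Metric.closedBall_subset_closedBall hrR.le (Metric.ball_subset_closedBall h'))
  · refine Continuous.aestronglyMeasurable ?_
    refine ((hdc.comp (((continuous_fst.sub continuous_const).norm.pow 2).div_const _)).mul ?_).mul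
      (hfc.comp continuous_fst)
    exact ((continuous_const.mul ((continuous_fst.sub continuous_const).norm.pow 2)).div_const _).neg
  · exact Eventually.of_forall fun z => hbd z
  · rw [integrable_indicator_iff (measurableSet_closedBall.prod MeasurableSet.univ)]
    exact integrableOn_const (h.fin _ hU hK).ne
  · refine Eventually.of_forall fun z t ht => ?_
    have ht0 : t ≠ 0 := (lt_trans (by linarith) ht.1).ne'
    have e1 : HasDerivAt (fun t : ℝ => ‖z.1 - x₀‖ ^ 2 / t ^ 2) (-(2 * ‖z.1 - x₀‖ ^ 2 / t ^ 3)) t := by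
      have e2 : HasDerivAt (fun t : ℝ => t ^ 2) (2 * t) t := by simpa using hasDerivAt_pow 2 t
      have e3 := (e2.inv (pow_ne_zero 2 ht0)).const_mul (‖z.1 - x₀‖ ^ 2)
      refine (e3.congr_deriv ?_).congr_of_eventuallyEq ?_
      · field_simp
      · exact Eventually.of_forall fun t => by simp [div_eq_mul_inv]
    have e4 : HasDerivAt φ (deriv φ (‖z.1 - x₀‖ ^ 2 / t ^ 2)) (‖z.1 - x₀‖ ^ 2 / t ^ 2) :=
      (hφ.differentiable one_ne_zero _).hasDerivAt
    exact (e4.comp t e1).mul_const (f z.1)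

/-- **(S1)** weighted monotonicity for a subharmonic function. -/
theorem St.mono_phi (h : St U V) (hm : ∀ᵐ z ∂V, tr z.2 = m)
    (hU : Metric.closedBall x₀ R ⊆ U)
    (hf : ∀ x, HasFDerivAt f (innerSL ℝ (G x)) x) (hG : ContDiff ℝ 1 G)
    (hf0 : ∀ᵐ z ∂V, z.1 ∈ Metric.ball x₀ R → 0 ≤ f z.1)
    (hfs : ∀ᵐ z ∂V, z.1 ∈ Metric.ball x₀ R → 0 ≤ tr (fderiv ℝ G z.1 ∘L z.2))
    (hφ : ContDiff ℝ 1 φ) (hφa : Antitone φ) (h1 : ∀ s, 1 ≤ s → φ s = 0) :
    MonotoneOn (fun r => (r ^ m)⁻¹ * ∫ z, ker φ x₀ r z.1 * f z.1 ∂V) (Ioo 0 R) := by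
  have hfc := continuous_of_grad hf
  have hder : ∀ r ∈ Ioo 0 R, HasDerivAt (fun r => (r ^ m)⁻¹ * ∫ z, ker φ x₀ r z.1 * f z.1 ∂V)
      (-(m * r ^ (m - 1)) / (r ^ m) ^ 2 * ∫ z, ker φ x₀ r z.1 * f z.1 ∂V + (r ^ m)⁻¹ *
        ∫ z, deriv φ (‖z.1 - x₀‖ ^ 2 / r ^ 2) * (-(2 * ‖z.1 - x₀‖ ^ 2 / r ^ 3)) * f z.1 ∂V) r := by
    intro r hr
    have e1 : HasDerivAt (fun t : ℝ => t ^ m) (m * r ^ (m - 1)) r := hasDerivAt_pow m r
    exact (e1.inv (pow_ne_zero m hr.1.ne')).mul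
      (h.hasDerivAt_mean hr.1 hr.2 hU hfc hφ h1)
  refine monotoneOn_of_deriv_nonneg (convex_Ioo 0 R) ?_ ?_ ?_
  · intro r hr
    exact (hder r hr).continuousAt.continuousWithinAt
  · rw [interior_Ioo]
    intro r hr
    exact (hder r hr).differentiableAt.differentiableWithinAt
  · rw [interior_Ioo]
    intro r hr
    rw [(hder r hr).deriv]
    have hr0 := hr.1
    have hUr : Metric.closedBall x₀ r ⊆ U := (Metric.closedBall_subset_closedBall hr.2.le).trans hU
    have hid := h.ident hm hr0 hUr hf hG hφ h1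
    have hK := isCompact_closedBall x₀ r
    have hdc : Continuous (deriv φ) := hφ.continuous_deriv le_rfl
    have hquad : Continuous fun z : E × (E →L[ℝ] E) => ‖z.1 - x₀‖ ^ 2 / r ^ 2 :=
      ((continuous_fst.sub continuous_const).norm.pow 2).div_const _
    have hd0 : ∀ z : E × (E →L[ℝ] E), z.1 ∉ Metric.closedBall x₀ r →
        deriv φ (‖z.1 - x₀‖ ^ 2 / r ^ 2) = 0 := by
      intro z hz
      refine deriv_eq_zero_of hφ h1 ?_
      rw [Metric.mem_closedBall, dist_eq_norm, not_le] at hz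
      rw [le_div_iff₀ (by positivity), one_mul]
      gcongr
    have hdneg : ∀ s, deriv φ s ≤ 0 := fun s => hφa.deriv_nonpos
    have hB : Integrable (fun z : E × (E →L[ℝ] E) =>
      deriv φ (‖z.1 - x₀‖ ^ 2 / r ^ 2) * (2 / r ^ 2) * ⟪z.1 - x₀, z.2 (z.1 - x₀)⟫_ℝ * f z.1) V := by
      refine h.integrable (((((hdc.comp hquad).mul continuous_const).mul ?_)).mul
        (hfc.comp continuous_fst)) hK hUr ?_
      · exact (continuous_fst.sub continuous_const).inner
          (continuous_snd.clm_apply (continuous_fst.sub continuous_const))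
      · intro z hz
        rw [hd0 z hz]
        simp
    have hB' : Integrable (fun z : E × (E →L[ℝ] E) =>
      deriv φ (‖z.1 - x₀‖ ^ 2 / r ^ 2) * (-(2 * ‖z.1 - x₀‖ ^ 2 / r ^ 3)) * f z.1) V := by
      refine h.integrable (((hdc.comp hquad).mul ?_).mul (hfc.comp continuous_fst)) hK hUr ?_
      · exact ((continuous_const.mul
          ((continuous_fst.sub continuous_const).norm.pow 2)).div_const _).neg
      · intro z hz
        rw [hd0 z hz]
        simp
    have hD : ∫ z, ker (Prim φ) x₀ r z.1 * tr (fderiv ℝ G z.1 ∘L z.2) ∂V ≤ 0 := by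
      refine integral_nonpos_of_ae ?_
      filter_upwards [hfs] with z hz
      by_cases hzb : z.1 ∈ Metric.ball x₀ r
      · exact mul_nonpos_of_nonpos_of_nonneg (prim_nonpos hφa h1 _)
          (hz (Metric.ball_subset_ball hr.2.le hzb))
      · rw [ker_eq_zero (fun s hs => prim_eq_zero h1 hs) hr0 hzb, zero_mul]
        exact le_rfl
    have hle : ∫ z, deriv φ (‖z.1 - x₀‖ ^ 2 / r ^ 2) * (2 / r ^ 2) *
        ⟪z.1 - x₀, z.2 (z.1 - x₀)⟫_ℝ * f z.1 ∂V + r * ∫ z, deriv φ (‖z.1 - x₀‖ ^ 2 / r ^ 2) *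
          (-(2 * ‖z.1 - x₀‖ ^ 2 / r ^ 3)) * f z.1 ∂V ≥ 0 := by
      rw [← integral_const_mul, ← integral_add hB (hB'.const_mul r)]
      refine integral_nonneg_of_ae ?_
      filter_upwards [hf0, h.pr] with z hz hzp
      by_cases hzb : z.1 ∈ Metric.ball x₀ r
      · have e1 := hz (Metric.ball_subset_ball hr.2.le hzb)
        have e2 : ⟪z.1 - x₀, z.2 (z.1 - x₀)⟫_ℝ ≤ ‖z.1 - x₀‖ ^ 2 := by
          rw [hzp.inner_self]
          have := hzp.norm_le (z.1 - x₀)
          gcongr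
        have e3 := hdneg (‖z.1 - x₀‖ ^ 2 / r ^ 2)
        have e4 : deriv φ (‖z.1 - x₀‖ ^ 2 / r ^ 2) * (2 / r ^ 2) *
            ⟪z.1 - x₀, z.2 (z.1 - x₀)⟫_ℝ * f z.1 + r * (deriv φ (‖z.1 - x₀‖ ^ 2 / r ^ 2) *
            (-(2 * ‖z.1 - x₀‖ ^ 2 / r ^ 3)) * f z.1) =
            (-deriv φ (‖z.1 - x₀‖ ^ 2 / r ^ 2)) * (2 / r ^ 2) *
            (‖z.1 - x₀‖ ^ 2 - ⟪z.1 - x₀, z.2 (z.1 - x₀)⟫_ℝ) * f z.1 := by
          field_simp
          ring
        simp only [Pi.zero_apply]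
        rw [e4]
        have e5 : 0 ≤ -deriv φ (‖z.1 - x₀‖ ^ 2 / r ^ 2) := by linarith
        have e6 : 0 ≤ ‖z.1 - x₀‖ ^ 2 - ⟪z.1 - x₀, z.2 (z.1 - x₀)⟫_ℝ := by linarith
        positivity
      · have e1 : deriv φ (‖z.1 - x₀‖ ^ 2 / r ^ 2) = 0 := by
          refine deriv_eq_zero_of hφ h1 ?_
          rw [Metric.mem_ball, dist_eq_norm, not_lt] at hzb
          rw [le_div_iff₀ (by positivity), one_mul]
          gcongr
        simp only [e1, Pi.zero_apply]
        simp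
    set I := ∫ z, ker φ x₀ r z.1 * f z.1 ∂V with hI
    set B := ∫ z, deriv φ (‖z.1 - x₀‖ ^ 2 / r ^ 2) * (2 / r ^ 2) *
        ⟪z.1 - x₀, z.2 (z.1 - x₀)⟫_ℝ * f z.1 ∂V
    set B' := ∫ z, deriv φ (‖z.1 - x₀‖ ^ 2 / r ^ 2) *
          (-(2 * ‖z.1 - x₀‖ ^ 2 / r ^ 3)) * f z.1 ∂V
    set D := ∫ z, ker (Prim φ) x₀ r z.1 * tr (fderiv ℝ G z.1 ∘L z.2) ∂V
    have e7 : 0 ≤ r * B' - m * I := by
      have : r ^ 2 / 2 * D ≤ 0 := mul_nonpos_of_nonneg_of_nonpos (by positivity) hD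
      linarith
    have e8 : -(m * r ^ (m - 1)) / (r ^ m) ^ 2 * I + (r ^ m)⁻¹ * B' =
        (r ^ m)⁻¹ * r⁻¹ * (r * B' - m * I) := by
      rcases Nat.eq_zero_or_pos m with hm0 | hm0
      · subst hm0
        field_simp
        simp
      · have e9 : r ^ m = r ^ (m - 1) * r := by
          rw [← pow_succ, Nat.sub_add_cancel hm0]
        rw [e9]
        field_simp
        ring
    rw [e8]
    positivity

end mono

end Crest.Agent.R234.Cacc_113
end

-- ▼ part R234/Sup2_113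

/-!
Row 234: the sharp mean value inequality on balls for subharmonic functions on a stationary general
varifold.
-/

set_option linter.unusedSectionVars false

namespace Crest.Agent.R234.Cacc_113

open MeasureTheory Set Filter Topology
open scoped InnerProductSpace

variable {E : Type*} [NormedAddCommGroup E] [InnerProductSpace ℝ E] [FiniteDimensional ℝ E]
  [MeasurableSpace E] [BorelSpace E]

variable {U : Set E} {V : Measure (E × (E →L[ℝ] E))} {m : ℕ}

/-- cut-off functions increasing to the indicator function of `(-∞, 1)`. -/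
noncomputable def cut (k : ℕ) (s : ℝ) : ℝ := Real.smoothTransition ((k + 1) * (1 - s))

theorem contDiff_cut (k : ℕ) : ContDiff ℝ 1 (cut k) := by
  unfold cut
  exact (Real.smoothTransition.contDiff (n := 1)).comp
    (contDiff_const.mul (contDiff_const.sub contDiff_id))

theorem antitone_cut (k : ℕ) : Antitone (cut k) := by
  intro s t hst
  refine Real.smoothTransition.monotone ?_
  have : (0 : ℝ) ≤ k + 1 := by positivity
  nlinarith

theorem cut_eq_zero (k : ℕ) {s : ℝ} (hs : 1 ≤ s) : cut k s = 0 := by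
  refine Real.smoothTransition.zero_of_nonpos ?_
  have : (0 : ℝ) ≤ k + 1 := by positivity
  nlinarith

theorem cut_nonneg (k : ℕ) (s : ℝ) : 0 ≤ cut k s := Real.smoothTransition.nonneg _

theorem cut_le_one (k : ℕ) (s : ℝ) : cut k s ≤ 1 := Real.smoothTransition.le_one _

theorem tendsto_cut {s : ℝ} (hs : s < 1) : Tendsto (fun k => cut k s) atTop (𝓝 1) := by
  refine tendsto_const_nhds.congr' ?_
  obtain ⟨N, hN⟩ := exists_nat_gt (1 - s)⁻¹
  filter_upwards [eventually_ge_atTop N] with k hk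
  symm
  refine Real.smoothTransition.one_of_one_le ?_
  have h1 : (N : ℝ) ≤ k := by exact_mod_cast hk
  have h2 : 0 < 1 - s := by linarith
  have h3 : (1 - s)⁻¹ * (1 - s) = 1 := inv_mul_cancel₀ h2.ne'
  nlinarith

section ballmean

variable {x₀ : E} {R : ℝ} {f : E → ℝ} {G : E → E}

/-- the part of the varifold over a set. -/
theorem measurableSet_over (x₀ : E) (r : ℝ) :
    MeasurableSet (Prod.fst ⁻¹' Metric.ball x₀ r : Set (E × (E →L[ℝ] E))) :=
  measurable_fst measurableSet_ball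

theorem St.over_lt_top (h : St U V) {r : ℝ} (hU : Metric.closedBall x₀ r ⊆ U) :
    V (Prod.fst ⁻¹' Metric.ball x₀ r) < ⊤ := by
  refine (measure_mono ?_).trans_lt (h.fin _ hU (isCompact_closedBall x₀ r))
  intro z hz
  exact ⟨Metric.ball_subset_closedBall hz, mem_univ _⟩

theorem St.integrableOn (h : St U V) {r : ℝ} (hU : Metric.closedBall x₀ r ⊆ U)
    (hfc : ContinuousOn f (Metric.closedBall x₀ r)) :
    IntegrableOn (fun z : E × (E →L[ℝ] E) => f z.1) (Prod.fst ⁻¹' Metric.ball x₀ r) V := by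
  obtain ⟨C, hC⟩ := (isCompact_closedBall x₀ r).exists_bound_of_continuousOn hfc
  have : IsFiniteMeasure (V.restrict (Prod.fst ⁻¹' Metric.ball x₀ r)) :=
    ⟨by rw [Measure.restrict_apply_univ]; exact h.over_lt_top hU⟩
  refine Integrable.of_bound ?_ C ?_
  · have h1 : ContinuousOn (fun z : E × (E →L[ℝ] E) => f z.1)
        (Prod.fst ⁻¹' Metric.closedBall x₀ r) :=
      hfc.comp continuous_fst.continuousOn fun z hz => hz
    have h2 : AEStronglyMeasurable (fun z : E × (E →L[ℝ] E) => f z.1)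
        (V.restrict (Prod.fst ⁻¹' Metric.closedBall x₀ r)) :=
      h1.aestronglyMeasurable (measurable_fst measurableSet_closedBall)
    exact h2.mono_measure
        (Measure.restrict_mono (preimage_mono Metric.ball_subset_closedBall) le_rfl)
  · filter_upwards [ae_restrict_mem (measurableSet_over x₀ r)] with z hz
    exact hC z.1 (Metric.ball_subset_closedBall hz)

theorem St.tendsto_cut (h : St U V) {r : ℝ} (hr : 0 < r) (hU : Metric.closedBall x₀ r ⊆ U)
    (hfc : Continuous f) :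
    Tendsto (fun k => ∫ z, ker (cut k) x₀ r z.1 * f z.1 ∂V) atTop
      (𝓝 (∫ z in Prod.fst ⁻¹' Metric.ball x₀ r, f z.1 ∂V)) := by
  rw [← integral_indicator (measurableSet_over x₀ r)]
  refine tendsto_integral_of_dominated_convergence
    ((Prod.fst ⁻¹' Metric.ball x₀ r).indicator fun z : E × (E →L[ℝ] E) => ‖f z.1‖) ?_ ?_ ?_ ?_
  · intro k
    exact (((contDiff_ker (contDiff_cut k) x₀ r).continuous.comp continuous_fst).mul
      (hfc.comp continuous_fst)).aestronglyMeasurable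
  · rw [integrable_indicator_iff (measurableSet_over x₀ r)]
    exact (h.integrableOn hU hfc.continuousOn).norm
  · intro k
    refine Eventually.of_forall fun z => ?_
    by_cases hz : z ∈ (Prod.fst ⁻¹' Metric.ball x₀ r : Set (E × (E →L[ℝ] E)))
    · rw [indicator_of_mem hz, norm_mul]
      have h1 : ‖ker (cut k) x₀ r z.1‖ ≤ 1 := by
        unfold ker
        rw [Real.norm_of_nonneg (cut_nonneg _ _)]
        exact cut_le_one _ _
      exact mul_le_of_le_one_left (norm_nonneg _) h1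
    · rw [indicator_of_notMem hz, ker_eq_zero (fun s hs => cut_eq_zero k hs) hr hz, zero_mul,
        norm_zero]
  · refine Eventually.of_forall fun z => ?_
    by_cases hz : z ∈ (Prod.fst ⁻¹' Metric.ball x₀ r : Set (E × (E →L[ℝ] E)))
    · rw [indicator_of_mem hz]
      have h1 : ‖z.1 - x₀‖ ^ 2 / r ^ 2 < 1 := by
        have h2 : ‖z.1 - x₀‖ < r := by
          rw [← dist_eq_norm]; exact hz
        rw [div_lt_one (by positivity)]
        gcongr
      simpa [ker] using (Cacc_113.tendsto_cut h1).mul_const (f z.1)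
    · rw [indicator_of_notMem hz]
      refine tendsto_const_nhds.congr fun k => ?_
      rw [ker_eq_zero (fun s hs => cut_eq_zero k hs) hr hz, zero_mul]

/-- **(S2)**, open interval. -/
theorem St.mono_ball' (h : St U V) (hm : ∀ᵐ z ∂V, tr z.2 = m)
    (hU : Metric.closedBall x₀ R ⊆ U)
    (hf : ∀ x, HasFDerivAt f (innerSL ℝ (G x)) x) (hG : ContDiff ℝ 1 G)
    (hf0 : ∀ᵐ z ∂V, z.1 ∈ Metric.ball x₀ R → 0 ≤ f z.1)
    (hfs : ∀ᵐ z ∂V, z.1 ∈ Metric.ball x₀ R → 0 ≤ tr (fderiv ℝ G z.1 ∘L z.2)) :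
    MonotoneOn (fun r => (r ^ m)⁻¹ * ∫ z in Prod.fst ⁻¹' Metric.ball x₀ r, f z.1 ∂V)
      (Ioo 0 R) := by
  intro s hs r hr hsr
  have hfc := continuous_of_grad hf
  have e1 := (h.tendsto_cut hs.1 ((Metric.closedBall_subset_closedBall hs.2.le).trans hU)
    hfc).const_mul (s ^ m)⁻¹
  have e2 := (h.tendsto_cut hr.1 ((Metric.closedBall_subset_closedBall hr.2.le).trans hU)
    hfc).const_mul (r ^ m)⁻¹
  refine le_of_tendsto_of_tendsto' e1 e2 fun k => ?_
  exact h.mono_phi hm hU hf hG hf0 hfs (contDiff_cut k) (antitone_cut k)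
    (fun s hs => cut_eq_zero k hs) hs hr hsr

theorem St.tendsto_ball (h : St U V) (hR : 0 < R) (hU : Metric.closedBall x₀ R ⊆ U)
    (hfc : ContinuousOn f (Metric.closedBall x₀ R)) :
    Tendsto (fun r => (r ^ m)⁻¹ * ∫ z in Prod.fst ⁻¹' Metric.ball x₀ r, f z.1 ∂V)
      (𝓝[<] R) (𝓝 ((R ^ m)⁻¹ * ∫ z in Prod.fst ⁻¹' Metric.ball x₀ R, f z.1 ∂V)) := by
  refine Tendsto.mul ?_ ?_
  · have : ContinuousAt (fun r : ℝ => (r ^ m)⁻¹) R :=
      (continuousAt_id.pow m).inv₀ (pow_ne_zero m hR.ne')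
    exact this.tendsto.mono_left inf_le_left
  · simp_rw [← integral_indicator (measurableSet_over x₀ _)]
    refine tendsto_integral_filter_of_dominated_convergence
      ((Prod.fst ⁻¹' Metric.ball x₀ R).indicator fun z : E × (E →L[ℝ] E) => ‖f z.1‖) ?_ ?_ ?_ ?_
    · filter_upwards [Ioo_mem_nhdsLT hR] with r hr
      rw [aestronglyMeasurable_indicator_iff (measurableSet_over x₀ r)]
      exact (h.integrableOn ((Metric.closedBall_subset_closedBall hr.2.le).trans hU)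
        (hfc.mono (Metric.closedBall_subset_closedBall hr.2.le))).aestronglyMeasurable
    · filter_upwards [self_mem_nhdsWithin] with r hr
      refine Eventually.of_forall fun z => ?_
      rw [norm_indicator_eq_indicator_norm]
      exact indicator_le_indicator_of_subset
        (preimage_mono (Metric.ball_subset_ball (le_of_lt hr))) (fun _ => norm_nonneg _) z
    · rw [integrable_indicator_iff (measurableSet_over x₀ R)]
      exact (h.integrableOn hU hfc).norm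
    · refine Eventually.of_forall fun z => ?_
      by_cases hz : z ∈ (Prod.fst ⁻¹' Metric.ball x₀ R : Set (E × (E →L[ℝ] E)))
      · rw [indicator_of_mem hz]
        refine tendsto_const_nhds.congr' ?_
        have h2 : dist z.1 x₀ < R := hz
        filter_upwards [Ioo_mem_nhdsLT h2] with r hr
        rw [indicator_of_mem]
        exact hr.1
      · rw [indicator_of_notMem hz]
        refine tendsto_const_nhds.congr' ?_
        filter_upwards [self_mem_nhdsWithin] with r hr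
        rw [indicator_of_notMem]
        intro h'
        exact hz (Metric.ball_subset_ball (le_of_lt hr) h')

/-- **(S2)**. -/
theorem St.mono_ball (h : St U V) (hm : ∀ᵐ z ∂V, tr z.2 = m)
    (hU : Metric.closedBall x₀ R ⊆ U)
    (hf : ∀ x, HasFDerivAt f (innerSL ℝ (G x)) x) (hG : ContDiff ℝ 1 G)
    (hf0 : ∀ᵐ z ∂V, z.1 ∈ Metric.ball x₀ R → 0 ≤ f z.1)
    (hfs : ∀ᵐ z ∂V, z.1 ∈ Metric.ball x₀ R → 0 ≤ tr (fderiv ℝ G z.1 ∘L z.2)) :
    MonotoneOn (fun r => (r ^ m)⁻¹ * ∫ z in Prod.fst ⁻¹' Metric.ball x₀ r, f z.1 ∂V)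
      (Ioc 0 R) := by
  intro s hs r hr hsr
  rcases hsr.eq_or_lt with rfl | hsr
  · exact le_rfl
  rcases hr.2.lt_or_eq with hrR | rfl
  · exact h.mono_ball' hm hU hf hG hf0 hfs ⟨hs.1, hsr.trans hrR⟩ ⟨hr.1, hrR⟩ hsr.le
  · have hfc := continuous_of_grad hf
    refine ge_of_tendsto (h.tendsto_ball (m := m) hr.1 hU hfc.continuousOn) ?_
    filter_upwards [Ioo_mem_nhdsLT hsr] with t ht
    exact h.mono_ball' hm hU hf hG hf0 hfs ⟨hs.1, hsr⟩ ⟨hs.1.trans ht.1, ht.2⟩ ht.1.le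

/-- integral over a ball of a function which is almost constant. -/
theorem St.le_ball (h : St U V) {r : ℝ} (hU : Metric.closedBall x₀ r ⊆ U)
    (hfc : ContinuousOn f (Metric.closedBall x₀ r)) {c : ℝ}
    (hc : ∀ x ∈ Metric.ball x₀ r, c ≤ f x) :
    c * (V (Prod.fst ⁻¹' Metric.ball x₀ r)).toReal ≤
      ∫ z in Prod.fst ⁻¹' Metric.ball x₀ r, f z.1 ∂V := by
  have h1 : ∫ _z in (Prod.fst ⁻¹' Metric.ball x₀ r : Set (E × (E →L[ℝ] E))), c ∂V =
      c * (V (Prod.fst ⁻¹' Metric.ball x₀ r)).toReal := by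
    rw [setIntegral_const, smul_eq_mul, mul_comm]
    rfl
  rw [← h1]
  refine setIntegral_mono_on ?_ (h.integrableOn hU hfc) (measurableSet_over x₀ r) ?_
  · exact integrableOn_const (h.over_lt_top hU).ne
  · intro z hz
    exact hc z.1 hz

/-- the mean value inequality from monotonicity of the ball means (for any continuous function). -/
theorem St.mean_value_of_mono (h : St U V) (hR : 0 < R) (hU : Metric.closedBall x₀ R ⊆ U)
    (hfc : ContinuousOn f (Metric.closedBall x₀ R))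
    (hf0 : ∀ᵐ z ∂V, z.1 ∈ Metric.ball x₀ R → 0 ≤ f z.1)
    (hmono : MonotoneOn (fun r => (r ^ m)⁻¹ * ∫ z in Prod.fst ⁻¹' Metric.ball x₀ r, f z.1 ∂V)
      (Ioc 0 R)) {θ : ℝ} (hθ : 0 ≤ θ)
    (hdens : ∃ᶠ r in 𝓝[>] (0 : ℝ), θ * r ^ m ≤ (V (Prod.fst ⁻¹' Metric.ball x₀ r)).toReal) :
    θ * f x₀ ≤ (R ^ m)⁻¹ * ∫ z in Prod.fst ⁻¹' Metric.ball x₀ R, f z.1 ∂V := by
  have hnn : 0 ≤ (R ^ m)⁻¹ * ∫ z in Prod.fst ⁻¹' Metric.ball x₀ R, f z.1 ∂V := by
    refine mul_nonneg (by positivity) ?_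
    refine integral_nonneg_of_ae ?_
    filter_upwards [ae_restrict_mem (measurableSet_over x₀ R), ae_restrict_of_ae hf0] with z hz h0
    exact h0 hz
  rcases le_or_gt (f x₀) 0 with hfx | hfx
  · exact (mul_nonpos_of_nonneg_of_nonpos hθ hfx).trans hnn
  refine le_of_forall_pos_lt_add fun ε hε => ?_
  -- choose a small radius
  obtain ⟨δ, hδ0, hδθ, hδf⟩ : ∃ δ, 0 < δ ∧ θ * δ < ε ∧ δ < f x₀ := by
    refine ⟨min (ε / (2 * (θ + 1))) (f x₀ / 2), by positivity, ?_, ?_⟩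
    · have h1 : min (ε / (2 * (θ + 1))) (f x₀ / 2) ≤ ε / (2 * (θ + 1)) := min_le_left _ _
      have h2 : θ * (ε / (2 * (θ + 1))) < ε := by
        rw [mul_div_assoc', div_lt_iff₀ (by positivity)]
        nlinarith
      exact (mul_le_mul_of_nonneg_left h1 hθ).trans_lt h2
    · exact (min_le_right _ _).trans_lt (by linarith)
  have hcx : ContinuousAt f x₀ := hfc.continuousAt (Metric.closedBall_mem_nhds x₀ hR)
  obtain ⟨s, hs0, hs⟩ := Metric.continuousAt_iff.mp hcx δ hδ0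
  have hev : ∀ᶠ r in 𝓝[>] (0 : ℝ), r ∈ Ioo 0 (min s R) :=
    Ioo_mem_nhdsGT (lt_min hs0 hR)
  obtain ⟨r, hr1, hr2⟩ := (hdens.and_eventually hev).exists
  have hrR : r < R := hr2.2.trans_le (min_le_right _ _)
  have hrs : r < s := hr2.2.trans_le (min_le_left _ _)
  have hr0 := hr2.1
  have h3 := h.le_ball (c := f x₀ - δ) ((Metric.closedBall_subset_closedBall hrR.le).trans hU)
    (hfc.mono (Metric.closedBall_subset_closedBall hrR.le)) (fun x hx => by
      have h4 := hs (show dist x x₀ < s from lt_trans hx hrs)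
      rw [Real.dist_eq, abs_lt] at h4
      linarith)
  have h5 := hmono ⟨hr0, hrR.le⟩ ⟨hR, le_rfl⟩ hrR.le
  simp only at h5
  refine lt_of_lt_of_le ?_ (add_le_add_left h5 ε)
  have h6 : θ * (f x₀ - δ) ≤ (r ^ m)⁻¹ * ∫ z in Prod.fst ⁻¹' Metric.ball x₀ r, f z.1 ∂V := by
    have h7 : (f x₀ - δ) * (θ * r ^ m) ≤ ∫ z in Prod.fst ⁻¹' Metric.ball x₀ r, f z.1 ∂V :=
      (mul_le_mul_of_nonneg_left hr1 (by linarith)).trans h3
    calc θ * (f x₀ - δ) = (r ^ m)⁻¹ * ((f x₀ - δ) * (θ * r ^ m)) := by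
          field_simp
      _ ≤ _ := by gcongr
  linarith [mul_sub θ (f x₀) δ]

/-- **(S3)** the sharp mean value inequality. -/
theorem St.mean_value (h : St U V) (hm : ∀ᵐ z ∂V, tr z.2 = m) (hR : 0 < R)
    (hU : Metric.closedBall x₀ R ⊆ U)
    (hf : ∀ x, HasFDerivAt f (innerSL ℝ (G x)) x) (hG : ContDiff ℝ 1 G)
    (hf0 : ∀ᵐ z ∂V, z.1 ∈ Metric.ball x₀ R → 0 ≤ f z.1)
    (hfs : ∀ᵐ z ∂V, z.1 ∈ Metric.ball x₀ R → 0 ≤ tr (fderiv ℝ G z.1 ∘L z.2))
    {θ : ℝ} (hθ : 0 ≤ θ)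
    (hdens : ∃ᶠ r in 𝓝[>] (0 : ℝ), θ * r ^ m ≤ (V (Prod.fst ⁻¹' Metric.ball x₀ r)).toReal) :
    θ * f x₀ ≤ (R ^ m)⁻¹ * ∫ z in Prod.fst ⁻¹' Metric.ball x₀ R, f z.1 ∂V :=
  h.mean_value_of_mono hR hU (continuous_of_grad hf).continuousOn hf0
    (h.mono_ball hm hU hf hG hf0 hfs) hθ hdens

end ballmean

end Crest.Agent.R234.Cacc_113
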