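import Mathlib
import Crest.Agent.R234.Sup2_113

/-!
Row 234: examples of functions with monotone ball means on a stationary general varifold: functions of
a linear form, positive parts, squares of heights; height bound.
-/

set_option linter.unusedSectionVars false

namespace Crest.Agent.R234.Cacc_113

open MeasureTheory Set Filter Topology
open scoped InnerProductSpace

variable {E : Type*} [NormedAddCommGroup E] [InnerProductSpace ℝ E] [FiniteDimensional ℝ E]
  [MeasurableSpace E] [BorelSpace E]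

variable {U : Set E} {V : Measure (E × (E →L[ℝ] E))} {m : ℕ}

/-- the normalised ball means of `f` are monotone. -/
def BM (V : Measure (E × (E →L[ℝ] E))) (m : ℕ) (x₀ : E) (R : ℝ) (f : E → ℝ) : Prop :=
  MonotoneOn (fun r => (r ^ m)⁻¹ * ∫ z in Prod.fst ⁻¹' Metric.ball x₀ r, f z.1 ∂V) (Ioc 0 R)

section bm

variable {x₀ : E} {R : ℝ} {f g : E → ℝ}

theorem St.bm_of_grad (h : St U V) (hm : ∀ᵐ z ∂V, tr z.2 = m)
    (hU : Metric.closedBall x₀ R ⊆ U) {G : E → E}
    (hf : ∀ x, HasFDerivAt f (innerSL ℝ (G x)) x) (hG : ContDiff ℝ 1 G)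
    (hf0 : ∀ᵐ z ∂V, z.1 ∈ Metric.ball x₀ R → 0 ≤ f z.1)
    (hfs : ∀ᵐ z ∂V, z.1 ∈ Metric.ball x₀ R → 0 ≤ tr (fderiv ℝ G z.1 ∘L z.2)) :
    BM V m x₀ R f :=
  h.mono_ball hm hU hf hG hf0 hfs








/-- squared heights. -/
theorem St.bm_height (h : St U V) (hm : ∀ᵐ z ∂V, tr z.2 = m) (hU : Metric.closedBall x₀ R ⊆ U)
    {q : E →L[ℝ] E} (hq : IsPr q) (x₁ : E) : BM V m x₀ R (fun x => ‖q (x - x₁)‖ ^ 2) := by
  have hl : ∀ x, HasFDerivAt (fun x : E => q (x - x₁)) q x := by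
    intro x
    have h4 : HasFDerivAt (fun x => q x - q x₁) q x := q.hasFDerivAt.sub_const _
    simpa only [map_sub] using h4
  refine h.bm_of_grad hm hU (G := fun x => (2 : ℝ) • q (x - x₁)) ?_ ?_ ?_ ?_
  · intro x
    have h2 := (hl x).norm_sq
    refine h2.congr_fderiv ?_
    ext v
    simp only [smul_apply, ContinuousLinearMap.comp_apply, innerSL_apply_apply,
      inner_smul_left, nsmul_eq_mul]
    rw [← hq.sa, hq.idem]
    simp
  · exact contDiff_const.smul (q.contDiff.comp (contDiff_id.sub contDiff_const))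
  · exact Eventually.of_forall fun z _ => by positivity
  · filter_upwards [h.pr] with z hz _
    have hd : HasFDerivAt (fun x => (2 : ℝ) • q (x - x₁)) ((2 : ℝ) • q) z.1 :=
      (hl z.1).const_smul (2 : ℝ)
    rw [hd.fderiv, ContinuousLinearMap.smul_comp, tr_smul]
    exact mul_nonneg (by norm_num) (IsPr.tr_nonneg_conj hz hq)

/-- the mean value inequality for functions with monotone ball means. -/
theorem St.mean_value_bm (h : St U V) (hR : 0 < R) (hU : Metric.closedBall x₀ R ⊆ U)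
    (hfc : ContinuousOn f (Metric.closedBall x₀ R))
    (hf0 : ∀ᵐ z ∂V, z.1 ∈ Metric.ball x₀ R → 0 ≤ f z.1)
    (hmono : BM V m x₀ R f) {θ : ℝ} (hθ : 0 ≤ θ)
    (hdens : ∃ᶠ r in 𝓝[>] (0 : ℝ), θ * r ^ m ≤ (V (Prod.fst ⁻¹' Metric.ball x₀ r)).toReal) :
    θ * f x₀ ≤ (R ^ m)⁻¹ * ∫ z in Prod.fst ⁻¹' Metric.ball x₀ R, f z.1 ∂V :=
  h.mean_value_of_mono hR hU hfc hf0 hmono hθ hdens

/-- **height bound**. -/
theorem St.height (h : St U V) (hm : ∀ᵐ z ∂V, tr z.2 = m) {x₁ : E} {ρ : ℝ}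
    (hU : Metric.closedBall x₁ (R + ρ) ⊆ U) (hρ : 0 < ρ)
    {q : E →L[ℝ] E} (hq : IsPr q) (hx : dist x₀ x₁ ≤ R) {θ : ℝ} (hθ : 0 ≤ θ)
    (hdens : ∃ᶠ r in 𝓝[>] (0 : ℝ), θ * r ^ m ≤ (V (Prod.fst ⁻¹' Metric.ball x₀ r)).toReal)
    (x₂ : E) :
    θ * ‖q (x₀ - x₂)‖ ^ 2 ≤
      (ρ ^ m)⁻¹ * ∫ z in Prod.fst ⁻¹' Metric.ball x₁ (R + ρ), ‖q (z.1 - x₂)‖ ^ 2 ∂V := by
  have hsub : Metric.closedBall x₀ ρ ⊆ Metric.closedBall x₁ (R + ρ) :=
    Metric.closedBall_subset_closedBall' (by linarith)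
  have hfc : Continuous fun x : E => ‖q (x - x₂)‖ ^ 2 :=
    (q.continuous.comp (continuous_id.sub continuous_const)).norm.pow 2
  have h1 := h.mean_value_bm hρ (hsub.trans hU) hfc.continuousOn
    (Eventually.of_forall fun z _ => by positivity) (h.bm_height hm (hsub.trans hU) hq x₂) hθ hdens
  refine h1.trans ?_
  refine mul_le_mul_of_nonneg_left ?_ (by positivity)
  refine setIntegral_mono_set (h.integrableOn hU hfc.continuousOn) ?_ ?_
  · exact Eventually.of_forall fun z => by positivity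
  · exact (preimage_mono (Metric.ball_subset_ball' (by linarith))).eventuallyLE

end bm

end Crest.Agent.R234.Cacc_113
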