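import Crest.Agent.R234.Vf6_884

-- ▼ part R234/Vf7_884
section

/-!
Row 234, base library (helper884), file 7: local density of a `C¹` piece (ellipsoids).
-/

set_option autoImplicit false

open MeasureTheory Crest.GeometryTopology.Submanifold Filter Topology
open scoped ENNReal InnerProductSpace

noncomputable section

namespace Crest.Agent.R234.Vf_884

variable {m k : ℕ}

/-- an isometric copy of an injective `Lf : ℝ^m → ℝ^k` as an endomorphism of `ℝ^m`. -/
theorem exists_sq (Lf : Euc m →L[ℝ] Euc k) (hL : Function.Injective Lf) :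
    ∃ M : Euc m →ₗ[ℝ] Euc m, (∀ v w, ⟪M v, M w⟫_ℝ = ⟪Lf v, Lf w⟫_ℝ) := by
  have hfr : Module.finrank ℝ (LinearMap.range Lf.toLinearMap) = m := by
    rw [LinearMap.finrank_range_of_inj hL]; simp
  let b : OrthonormalBasis (Fin m) ℝ (LinearMap.range Lf.toLinearMap) :=
    (stdOrthonormalBasis ℝ _).reindex (finCongr hfr)
  refine ⟨b.repr.toLinearEquiv.toLinearMap ∘ₗ Lf.toLinearMap.rangeRestrict, fun v w => ?_⟩
  change ⟪b.repr (Lf.toLinearMap.rangeRestrict v), b.repr (Lf.toLinearMap.rangeRestrict w)⟫_ℝ = _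
  rw [b.repr.inner_map_map]
  rfl

theorem jac_eq_abs_det {f : Euc m → Euc k} {a : Euc m} {M : Euc m →ₗ[ℝ] Euc m}
    (hM : ∀ v w, ⟪M v, M w⟫_ℝ = ⟪fderiv ℝ f a v, fderiv ℝ f a w⟫_ℝ) :
    jac f a = |LinearMap.det M| := by
  set b := (EuclideanSpace.basisFun (Fin m) ℝ).toBasis with hb
  have h1 : metricMat f a = (LinearMap.toMatrix b b M).transpose * LinearMap.toMatrix b b M := by
    ext i j
    rw [Matrix.mul_apply]
    simp only [Matrix.transpose_apply, LinearMap.toMatrix_apply, metricMat, Matrix.of_apply, pd]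
    rw [← hM]
    have e1 : ∀ l, b l = stdVec m l := fun l => by simp [hb, stdVec]
    have e2 : ∀ (x : Euc m) l, b.repr x l = x l := fun x l => by simp [hb]
    simp only [e1, e2]
    rw [PiLp.inner_apply]
    refine Finset.sum_congr rfl fun l _ => ?_
    simp [mul_comm]
  unfold jac
  rw [h1, Matrix.det_mul, Matrix.det_transpose, LinearMap.det_toMatrix, ← sq, Real.sqrt_sq_eq_abs]

theorem volume_ellipsoid {Lf : Euc m →L[ℝ] Euc k} {M : Euc m →ₗ[ℝ] Euc m}
    (hM : ∀ v w, ⟪M v, M w⟫_ℝ = ⟪Lf v, Lf w⟫_ℝ) (hdet : LinearMap.det M ≠ 0) (a : Euc m) {s : ℝ}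
    (hs : 0 < s) :
    volume {y : Euc m | ‖Lf (y - a)‖ ≤ s} = ENNReal.ofReal (ome m * s ^ m / |LinearMap.det M|) := by
  have hn : ∀ v, ‖M v‖ = ‖Lf v‖ := fun v => by
    rw [← sq_eq_sq₀ (norm_nonneg _) (norm_nonneg _), ← real_inner_self_eq_norm_sq,
      ← real_inner_self_eq_norm_sq, hM]
  have h1 : {y : Euc m | ‖Lf (y - a)‖ ≤ s} =
      (fun y => y + (-a)) ⁻¹' (M ⁻¹' (Metric.closedBall 0 s)) := by
    ext y
    simp only [Set.mem_ofPred_eq, Set.mem_preimage, mem_closedBall_zero_iff, hn, sub_eq_add_neg]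
  rw [h1, measure_preimage_add_right, Measure.addHaar_preimage_linearMap _ hdet,
    Measure.addHaar_closedBall _ _ hs.le, ← ofReal_ome, ← ENNReal.ofReal_mul (by positivity),
    ← ENNReal.ofReal_mul (abs_nonneg _), abs_inv]
  congr 1
  simp
  ring

theorem measurableSet_ellipsoid (Lf : Euc m →L[ℝ] Euc k) (a : Euc m) (s : ℝ) :
    MeasurableSet {y : Euc m | ‖Lf (y - a)‖ ≤ s} :=
  (isClosed_le (by fun_prop) continuous_const).measurableSet

/-- averages over shrinking ellipsoids at a Lebesgue point. -/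
theorem tendsto_ellipsoid {Lf : Euc m →L[ℝ] Euc k} {M : Euc m →ₗ[ℝ] Euc m}
    (hM : ∀ v w, ⟪M v, M w⟫_ℝ = ⟪Lf v, Lf w⟫_ℝ) (hdet : LinearMap.det M ≠ 0) {c : ℝ} (hc : 0 < c)
    (hL : ∀ v, c * ‖v‖ ≤ ‖Lf v‖) {g : Euc m → ℝ} (hg : Integrable g) {a : Euc m}
    (hLeb : Tendsto (fun δ : ℝ => ⨍ y in Metric.closedBall a δ, ‖g y - g a‖) (𝓝[>] 0) (𝓝 0)) :
    Tendsto (fun s : ℝ => (∫ y in {y : Euc m | ‖Lf (y - a)‖ ≤ s}, g y) / (ome m * s ^ m)) (𝓝[>] 0)
      (𝓝 (g a / |LinearMap.det M|)) := by
  have hscale : Tendsto (fun s : ℝ => s / c) (𝓝[>] 0) (𝓝[>] 0) := by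
    refine tendsto_nhdsWithin_iff.2 ⟨?_, ?_⟩
    · have : Tendsto (fun s : ℝ => s / c) (𝓝 0) (𝓝 (0 / c)) :=
        (continuous_id.div_const c).tendsto 0
      rw [zero_div] at this
      exact this.mono_left nhdsWithin_le_nhds
    · filter_upwards [self_mem_nhdsWithin] with s hs
      exact div_pos hs hc
  have h1 : Tendsto (fun s : ℝ => (c ^ m)⁻¹ *
      ⨍ y in Metric.closedBall a (s / c), ‖g y - g a‖) (𝓝[>] 0) (𝓝 0) := by
    have := (hLeb.comp hscale).const_mul (c ^ m)⁻¹
    rwa [mul_zero] at this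
  rw [tendsto_iff_dist_tendsto_zero]
  refine squeeze_zero' (Eventually.of_forall fun _ => dist_nonneg) ?_ h1
  filter_upwards [self_mem_nhdsWithin] with s hs
  have hs0 : 0 < s := hs
  have hD := den_pos m hs0
  have hvol := volume_ellipsoid hM hdet a hs0
  have hdp : 0 < |LinearMap.det M| := abs_pos.2 hdet
  set E := {y : Euc m | ‖Lf (y - a)‖ ≤ s} with hE
  have hEm : MeasurableSet E := measurableSet_ellipsoid Lf a s
  have hEfin : volume E < ⊤ := by rw [hvol]; exact ENNReal.ofReal_lt_top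
  have hEr : volume.real E = ome m * s ^ m / |LinearMap.det M| := by
    rw [measureReal_def, hvol, ENNReal.toReal_ofReal (by positivity)]
  have hsub : E ⊆ Metric.closedBall a (s / c) := by
    intro y hy
    rw [mem_closedBall_iff_norm, le_div_iff₀ hc, mul_comm]
    exact (hL _).trans hy
  have e1 : (∫ y in E, g y) / (ome m * s ^ m) - g a / |LinearMap.det M|
      = (∫ y in E, (g y - g a)) / (ome m * s ^ m) := by
    rw [integral_sub hg.integrableOn (integrableOn_const hEfin.ne), setIntegral_const, hEr,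
      smul_eq_mul]
    have ho := ome_pos m
    field_simp
  rw [Real.dist_eq, e1, abs_div, abs_of_pos hD, div_le_iff₀ hD]
  have hball : volume.real (Metric.closedBall a (s / c)) = (c ^ m)⁻¹ * (ome m * s ^ m) := by
    rw [measureReal_def, Measure.addHaar_closedBall _ _ (by positivity), ← ofReal_ome,
      ← ENNReal.ofReal_mul (by positivity), ENNReal.toReal_ofReal
        (mul_nonneg (by positivity) (ome_pos m).le)]
    simp only [finrank_euclideanSpace, Fintype.card_fin, div_pow]
    field_simp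
  have hbfin : volume (Metric.closedBall a (s / c)) ≠ ⊤ := measure_closedBall_lt_top.ne
  have hi : IntegrableOn (fun y => ‖g y - g a‖) (Metric.closedBall a (s / c)) :=
    (hg.integrableOn.sub (integrableOn_const hbfin)).norm
  have hni := norm_integral_le_integral_norm (μ := volume.restrict E) (fun y => g y - g a)
  rw [Real.norm_eq_abs] at hni
  calc |∫ y in E, (g y - g a)| ≤ ∫ y in E, ‖g y - g a‖ := hni
    _ ≤ ∫ y in Metric.closedBall a (s / c), ‖g y - g a‖ :=
        setIntegral_mono_set hi (Eventually.of_forall fun _ => norm_nonneg _)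
          hsub.eventuallyLE
    _ = volume.real (Metric.closedBall a (s / c)) *
          ⨍ y in Metric.closedBall a (s / c), ‖g y - g a‖ := by
        rw [← smul_eq_mul, measure_smul_setAverage _ hbfin]
    _ = _ := by rw [hball]; ring

/-- preimages of small balls under a map which is bi-Lipschitz at `a` on the carrier of `g`. -/
theorem tendsto_preimage {f : Euc m → Euc k} {Lf : Euc m →L[ℝ] Euc k} {M : Euc m →ₗ[ℝ] Euc m}
    (hM : ∀ v w, ⟪M v, M w⟫_ℝ = ⟪Lf v, Lf w⟫_ℝ) (hdet : LinearMap.det M ≠ 0) {c : ℝ} (hc : 0 < c)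
    (hL : ∀ v, c * ‖v‖ ≤ ‖Lf v‖) {g : Euc m → ℝ} (hg : Integrable g) (hg0 : ∀ y, 0 ≤ g y)
    {a : Euc m} (hf : HasFDerivAt f Lf a) (hfc : Continuous f)
    (hfA : ∀ y, g y ≠ 0 → c * ‖y - a‖ ≤ ‖f y - f a‖)
    (hLeb : Tendsto (fun δ : ℝ => ⨍ y in Metric.closedBall a δ, ‖g y - g a‖) (𝓝[>] 0) (𝓝 0)) :
    Tendsto (fun r : ℝ => (∫ y in f ⁻¹' (Metric.closedBall (f a) r), g y) / (ome m * r ^ m))
      (𝓝[>] 0) (𝓝 (g a / |LinearMap.det M|)) := by
  set ℓ := g a / |LinearMap.det M| with hℓ
  have hell := tendsto_ellipsoid hM hdet hc hL hg hLeb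
  -- scaled ellipsoid limits
  have hsc : ∀ t : ℝ, 0 < t → Tendsto (fun r : ℝ =>
      (∫ y in {y : Euc m | ‖Lf (y - a)‖ ≤ r / t}, g y) / (ome m * r ^ m)) (𝓝[>] 0)
      (𝓝 ((t ^ m)⁻¹ * ℓ)) := by
    intro t ht
    have hscale : Tendsto (fun s : ℝ => s / t) (𝓝[>] 0) (𝓝[>] 0) := by
      refine tendsto_nhdsWithin_iff.2 ⟨?_, ?_⟩
      · have : Tendsto (fun s : ℝ => s / t) (𝓝 0) (𝓝 (0 / t)) :=
          (continuous_id.div_const t).tendsto 0
        rw [zero_div] at this
        exact this.mono_left nhdsWithin_le_nhds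
      · filter_upwards [self_mem_nhdsWithin] with s hs
        exact div_pos hs ht
    refine ((hell.comp hscale).const_mul (t ^ m)⁻¹).congr fun r => ?_
    simp only [Function.comp_apply, div_pow]
    generalize (∫ y in {y : Euc m | ‖Lf (y - a)‖ ≤ r / t}, g y) = I
    field_simp
  have hmeasF : ∀ r, MeasurableSet (f ⁻¹' (Metric.closedBall (f a) r)) := fun r =>
    (Metric.isClosed_closedBall.preimage hfc).measurableSet
  -- inclusions
  have hinc : ∀ ε : ℝ, 0 < ε → ε < 1 → ∀ᶠ r in 𝓝[>] (0:ℝ),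
      {y : Euc m | ‖Lf (y - a)‖ ≤ r / (1 + ε)} ⊆ f ⁻¹' (Metric.closedBall (f a) r) ∧
      ∀ y, y ∈ f ⁻¹' (Metric.closedBall (f a) r) → g y ≠ 0 → ‖Lf (y - a)‖ ≤ r / (1 - ε) := by
    intro ε hε hε1
    have h1 := hf.isLittleO.def (show 0 < ε * c by positivity)
    obtain ⟨δ, hδ, h2⟩ := Metric.eventually_nhds_iff_ball.1 h1
    have h3 : ∀ y, ‖y - a‖ < δ → ‖f y - f a - Lf (y - a)‖ ≤ ε * ‖Lf (y - a)‖ := by
      intro y hy
      refine (h2 y (by rwa [mem_ball_iff_norm])).trans ?_
      rw [mul_assoc]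
      exact mul_le_mul_of_nonneg_left (hL _) hε.le
    filter_upwards [Ioo_mem_nhdsGT (show 0 < c * δ by positivity)] with r hr
    refine ⟨fun y hy => ?_, fun y hy hgy => ?_⟩
    · have hy1 : ‖Lf (y - a)‖ ≤ r / (1 + ε) := hy
      have hy2 : ‖Lf (y - a)‖ * (1 + ε) ≤ r := by rwa [le_div_iff₀ (by linarith)] at hy1
      have hy3 : ‖y - a‖ < δ := by
        have e1 := hL (y - a)
        have e2 : ‖Lf (y - a)‖ ≤ r := by nlinarith [norm_nonneg (Lf (y - a))]
        have e3 : c * ‖y - a‖ < c * δ := (e1.trans e2).trans_lt hr.2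
        exact lt_of_mul_lt_mul_left e3 hc.le
      have hy4 := h3 y hy3
      rw [Set.mem_preimage, mem_closedBall_iff_norm]
      have e4 : ‖f y - f a‖ ≤ ‖f y - f a - Lf (y - a)‖ + ‖Lf (y - a)‖ := by
        have := norm_add_le (f y - f a - Lf (y - a)) (Lf (y - a))
        rwa [sub_add_cancel] at this
      nlinarith
    · rw [Set.mem_preimage, mem_closedBall_iff_norm] at hy
      have hy3 : ‖y - a‖ < δ := by
        have e3 : c * ‖y - a‖ < c * δ := ((hfA y hgy).trans hy).trans_lt hr.2
        exact lt_of_mul_lt_mul_left e3 hc.le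
      have hy4 := h3 y hy3
      rw [le_div_iff₀ (by linarith)]
      have e4 : ‖Lf (y - a)‖ ≤ ‖f y - f a - Lf (y - a)‖ + ‖f y - f a‖ := by
        have := norm_sub_le (f y - f a) (f y - f a - Lf (y - a))
        rw [sub_sub_cancel] at this
        linarith
      nlinarith
  have hI : ∀ r ε : ℝ, 0 < r → 0 < ε → ε < 1 →
      ({y : Euc m | ‖Lf (y - a)‖ ≤ r / (1 + ε)} ⊆ f ⁻¹' (Metric.closedBall (f a) r) ∧
      ∀ y, y ∈ f ⁻¹' (Metric.closedBall (f a) r) → g y ≠ 0 → ‖Lf (y - a)‖ ≤ r / (1 - ε)) →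
      (∫ y in {y : Euc m | ‖Lf (y - a)‖ ≤ r / (1 + ε)}, g y) / (ome m * r ^ m) ≤
        (∫ y in f ⁻¹' (Metric.closedBall (f a) r), g y) / (ome m * r ^ m) ∧
      (∫ y in f ⁻¹' (Metric.closedBall (f a) r), g y) / (ome m * r ^ m) ≤
        (∫ y in {y : Euc m | ‖Lf (y - a)‖ ≤ r / (1 - ε)}, g y) / (ome m * r ^ m) := by
    intro r ε hr hε hε1 ⟨hi1, hi2⟩
    have hD := (den_pos m hr).le
    refine ⟨div_le_div_of_nonneg_right ?_ hD, div_le_div_of_nonneg_right ?_ hD⟩
    · exact setIntegral_mono_set hg.integrableOn (Eventually.of_forall hg0) hi1.eventuallyLE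
    · rw [← integral_indicator (hmeasF r), ← integral_indicator (measurableSet_ellipsoid Lf a _)]
      refine integral_mono (hg.indicator (hmeasF r))
        (hg.indicator (measurableSet_ellipsoid Lf a _)) fun y => ?_
      by_cases hy : y ∈ f ⁻¹' (Metric.closedBall (f a) r)
      · rw [Set.indicator_of_mem hy]
        by_cases hgy : g y = 0
        · rw [hgy]
          exact Set.indicator_nonneg (fun _ _ => hg0 _) _
        · rw [Set.indicator_of_mem (show y ∈ {y : Euc m | ‖Lf (y - a)‖ ≤ r / (1 - ε)} from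
            hi2 y hy hgy)]
      · rw [Set.indicator_of_notMem hy]
        exact Set.indicator_nonneg (fun _ _ => hg0 _) _
  refine tendsto_order.2 ⟨fun b hb => ?_, fun b hb => ?_⟩
  · have hlim : Tendsto (fun ε : ℝ => ((1 + ε) ^ m)⁻¹ * ℓ) (𝓝[>] 0) (𝓝 ℓ) := by
      have : ContinuousAt (fun ε : ℝ => ((1 + ε) ^ m)⁻¹ * ℓ) 0 := by
        refine ContinuousAt.mul (ContinuousAt.inv₀ (by fun_prop) (by simp)) continuousAt_const
      have h := this.tendsto
      simp only [add_zero, one_pow, inv_one, one_mul] at h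
      exact h.mono_left nhdsWithin_le_nhds
    obtain ⟨ε, hε1, hε2⟩ := ((hlim.eventually_const_lt hb).and
      (Ioo_mem_nhdsGT (show (0:ℝ) < 1 by norm_num))).exists
    filter_upwards [hinc ε hε2.1 hε2.2, self_mem_nhdsWithin,
      (hsc (1 + ε) (by linarith [hε2.1])).eventually_const_lt hε1] with r h1 h2 h3
    exact h3.trans_le (hI r ε h2 hε2.1 hε2.2 h1).1
  · have hlim : Tendsto (fun ε : ℝ => ((1 - ε) ^ m)⁻¹ * ℓ) (𝓝[>] 0) (𝓝 ℓ) := by
      have : ContinuousAt (fun ε : ℝ => ((1 - ε) ^ m)⁻¹ * ℓ) 0 := by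
        refine ContinuousAt.mul (ContinuousAt.inv₀ (by fun_prop) (by simp)) continuousAt_const
      have h := this.tendsto
      simp only [sub_zero, one_pow, inv_one, one_mul] at h
      exact h.mono_left nhdsWithin_le_nhds
    obtain ⟨ε, hε1, hε2⟩ := ((hlim.eventually_lt_const hb).and
      (Ioo_mem_nhdsGT (show (0:ℝ) < 1 by norm_num))).exists
    filter_upwards [hinc ε hε2.1 hε2.2, self_mem_nhdsWithin,
      (hsc (1 - ε) (by linarith [hε2.2])).eventually_lt_const hε1] with r h1 h2 h3
    exact (hI r ε h2 hε2.1 hε2.2 h1).2.trans_lt h3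

end Crest.Agent.R234.Vf_884
end
end

-- ▼ part R234/Vf8_884

/-!
Row 234, base library (helper884), file 8: the density of the varifold of integral data is the
multiplicity almost everywhere, hence at least one on the support.
-/

set_option autoImplicit false

open MeasureTheory Crest.GeometryTopology.Submanifold Filter Topology
open scoped ENNReal InnerProductSpace

noncomputable section

namespace Crest.Agent.R234.Vf_884

variable {m k : ℕ} {U : Set (Euc k)} {D : VarifoldData m k}

theorem exists_lower {E F : Type*} [NormedAddCommGroup E] [NormedSpace ℝ E]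
    [FiniteDimensional ℝ E] [NormedAddCommGroup F] [NormedSpace ℝ F]
    (Lf : E →L[ℝ] F) (hL : Function.Injective Lf) : ∃ c : ℝ, 0 < c ∧ ∀ v, c * ‖v‖ ≤ ‖Lf v‖ := by
  obtain ⟨K, hK, h⟩ := LinearMap.exists_antilipschitzWith Lf.toLinearMap
    (LinearMap.ker_eq_bot.2 hL)
  refine ⟨(K : ℝ)⁻¹, by positivity, fun v => ?_⟩
  have h1 := h.le_mul_dist v 0
  simp only [dist_zero_right, map_zero] at h1
  rw [inv_mul_le_iff₀ (by positivity)]
  exact h1

theorem measurableSet_image (hD : IsIntegralVarifoldIn U D) {i : ℕ} {A : Set (Euc m)}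
    (hA : MeasurableSet A) (hAd : A ⊆ D.dom i) : MeasurableSet (D.chart i '' A) :=
  hA.image_of_continuousOn_injOn (hD.contDiff i).continuous.continuousOn
    ((hD.injOn i).mono hAd)

/-- the part of the weight carried by a piece of one chart. -/
theorem weight_restrict (hD : IsIntegralVarifoldIn U D) {i : ℕ} {A : Set (Euc m)}
    (hA : MeasurableSet A) (hAd : A ⊆ D.dom i) :
    (weight D).restrict (D.chart i '' A) = ((base D i).restrict A).map (D.chart i) := by
  have hm := measurableSet_image hD hA hAd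
  have hfm : ∀ j, Measurable (D.chart j) := fun j => (hD.contDiff j).continuous.measurable
  have h0 : weight D = Measure.sum fun j => (base D j).map (D.chart j) := rfl
  rw [h0, Measure.restrict_sum _ hm]
  have h1 : (fun j => ((base D j).map (D.chart j)).restrict (D.chart i '' A)) =
      fun j => if j = i then ((base D i).restrict A).map (D.chart i) else 0 := by
    funext j
    rw [Measure.restrict_map (hfm j) hm]
    split_ifs with hj
    · subst hj
      congr 1
      refine Measure.restrict_congr_set ?_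
      filter_upwards [base_ae_dom hD j] with a ha
      refine propext ⟨fun h => ?_, fun h => ⟨a, h, rfl⟩⟩
      obtain ⟨b, hb, hba⟩ := h
      have : b = a := hD.injOn j (hAd hb) ha hba
      rwa [← this]
    · have h2 : (base D j).restrict (D.chart j ⁻¹' (D.chart i '' A)) = 0 := by
        rw [Measure.restrict_eq_zero]
        have h3 : ∀ᵐ a ∂(base D j), a ∉ D.chart j ⁻¹' (D.chart i '' A) := by
          filter_upwards [base_ae_dom hD j] with a ha hcon
          exact (Set.disjoint_left.1 (hD.disjoint j i hj) ⟨a, ha, rfl⟩)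
            (Set.image_mono hAd hcon)
        rw [ae_iff] at h3
        refine measure_mono_null (fun a ha => ?_) h3
        exact fun hcon => hcon ha
      rw [h2, Measure.map_zero]
  rw [h1]
  ext S hS
  rw [Measure.sum_apply _ hS, tsum_eq_single i]
  · simp
  · intro j hj
    simp [hj]

theorem jac_pos {f : Euc m → Euc k} {a : Euc m} (h : Function.Injective (fderiv ℝ f a)) :
    0 < jac f a := by
  obtain ⟨M, hM⟩ := exists_sq (fderiv ℝ f a) h
  have h1 := jac_eq_abs_det hM
  have h2 : jac f a ≠ 0 := by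
    intro h0
    unfold jac at h0
    rw [Real.sqrt_eq_zero'] at h0
    have h3 := det_metricMat_ne_zero h
    have h4 : 0 ≤ (metricMat f a).det := by
      by_contra hcon
      have : jac f a = 0 := Real.sqrt_eq_zero_of_nonpos (not_le.1 hcon).le
      rw [h1] at this
      have h5 : (metricMat f a).det = (LinearMap.det M) ^ 2 := by
        set b := (EuclideanSpace.basisFun (Fin m) ℝ).toBasis with hb
        have h6 : metricMat f a =
            (LinearMap.toMatrix b b M).transpose * LinearMap.toMatrix b b M := by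
          ext i j
          rw [Matrix.mul_apply]
          simp only [Matrix.transpose_apply, LinearMap.toMatrix_apply, metricMat,
            Matrix.of_apply, pd]
          rw [← hM]
          have e1 : ∀ l, b l = stdVec m l := fun l => by simp [hb, stdVec]
          have e2 : ∀ (x : Euc m) l, b.repr x l = x l := fun x l => by simp [hb]
          simp only [e1, e2]
          rw [PiLp.inner_apply]
          refine Finset.sum_congr rfl fun l _ => ?_
          simp [mul_comm]
        rw [h6, Matrix.det_mul, Matrix.det_transpose, LinearMap.det_toMatrix, ← sq]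
      rw [h5] at hcon
      exact hcon (sq_nonneg _)
    exact h3 (le_antisymm h0 h4)
  exact lt_of_le_of_ne (Real.sqrt_nonneg _) (Ne.symm h2)

theorem dens_pos (hD : IsIntegralVarifoldIn U D) {i : ℕ} {a : Euc m} (ha : a ∈ D.dom i) :
    0 < dens D i a := by
  unfold dens
  rw [ENNReal.ofReal_pos]
  have h1 := jac_pos (hD.injective_fderiv i a ha)
  have h2 : (1:ℝ) ≤ D.mult i a := by exact_mod_cast hD.mult_pos i a ha
  positivity

theorem base_restrict {i : ℕ} {A : Set (Euc m)}
    (hA : MeasurableSet A) (hAd : A ⊆ D.dom i) :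
    (base D i).restrict A = (volume.restrict A).withDensity (dens D i) := by
  unfold base
  rw [restrict_withDensity hA, Measure.restrict_restrict_of_subset hAd]

/-- almost everywhere statements on the weight pull back to the domains. -/
theorem ae_of_weight (hD : IsIntegralVarifoldIn U D) {i : ℕ} {A : Set (Euc m)}
    (hA : MeasurableSet A) (hAd : A ⊆ D.dom i) {P : Euc k → Prop}
    (h : ∀ᵐ x ∂(weight D).restrict (D.chart i '' A), P x) :
    ∀ᵐ a ∂(volume.restrict A), P (D.chart i a) := by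
  rw [weight_restrict hD hA hAd, base_restrict hA hAd] at h
  have h1 := ae_of_ae_map (hD.contDiff i).continuous.measurable.aemeasurable h
  rw [ae_withDensity_iff (measurable_dens hD i)] at h1
  filter_upwards [h1, ae_restrict_mem hA] with a ha haA
  exact ha (dens_pos hD (hAd haA)).ne'

theorem ediv_mul_ediv {a b c : ℝ≥0∞} (hab : a ≤ b) (hb : b ≠ ⊤) : a / b * (b / c) = a / c := by
  rcases eq_or_ne b 0 with rfl | h0
  · have : a = 0 := le_antisymm hab zero_le
    subst this
    simp
  · rw [div_eq_mul_inv, div_eq_mul_inv, div_eq_mul_inv, mul_assoc, ← mul_assoc b⁻¹,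
      ENNReal.inv_mul_cancel h0 hb, one_mul]

theorem Th_local (hD : IsIntegralVarifoldIn U D) (hs : IsStationaryIn U D) (hm : 1 ≤ m)
    (i : ℕ) {a0 : Euc m} (ha0 : a0 ∈ D.dom i) (hU : IsOpen U) :
    ∃ N : Set (Euc m), IsOpen N ∧ a0 ∈ N ∧
      ∀ᵐ a ∂(volume.restrict (D.dom i ∩ N)), Th m (VD D) (D.chart i a) = (D.mult i a : ℝ≥0∞) := by
  set f := D.chart i with hf
  have hfd : ContDiff ℝ 1 f := hD.contDiff i
  have hV := stat_VD hD hs
  -- the neighbourhood
  obtain ⟨c0, hc0, hL0⟩ := exists_lower _ (hD.injective_fderiv i a0 ha0)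
  obtain ⟨R, hR, hRU⟩ := exists_closedBall hU (hD.subset i ⟨a0, ha0, rfl⟩)
  have hstr : HasStrictFDerivAt f (fderiv ℝ f a0) a0 :=
    hfd.contDiffAt.hasStrictFDerivAt one_ne_zero
  have h1 := hstr.isLittleO.def (show 0 < c0 / 2 by positivity)
  rw [nhds_prod_eq] at h1
  obtain ⟨N1, hN1, h2⟩ := Filter.eventually_prod_self_iff
    (r := fun x y : Euc m => ‖f x - f y - (fderiv ℝ f a0) (x - y)‖ ≤ c0 / 2 * ‖x - y‖) |>.1 h1
  have hN2 : ∀ᶠ a in 𝓝 a0, f a ∈ Metric.ball (f a0) R :=
    hfd.continuous.continuousAt.eventually_mem (Metric.ball_mem_nhds _ hR)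
  obtain ⟨N, hNsub, hNo, haN⟩ := mem_nhds_iff.1 (Filter.inter_mem hN1 hN2)
  refine ⟨N, hNo, haN, ?_⟩
  have hbi : ∀ x ∈ N, ∀ y ∈ N, (c0 / 2) * ‖x - y‖ ≤ ‖f x - f y‖ := by
    intro x hx y hy
    have e1 := h2 x (hNsub hx).1 y (hNsub hy).1
    have e2 := hL0 (x - y)
    have e3 : ‖fderiv ℝ f a0 (x - y)‖ ≤
        ‖f x - f y - fderiv ℝ f a0 (x - y)‖ + ‖f x - f y‖ := by
      have := norm_sub_le (f x - f y) (f x - f y - fderiv ℝ f a0 (x - y))
      rw [sub_sub_cancel] at this
      linarith
    linarith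
  set A := D.dom i ∩ N with hAdef
  have hA : MeasurableSet A := (hD.measurableSet i).inter hNo.measurableSet
  have hAd : A ⊆ D.dom i := Set.inter_subset_left
  set O := Metric.ball (f a0) R with hO
  have hOm : MeasurableSet O := measurableSet_ball
  have hfA : f '' A ⊆ O := by
    rintro _ ⟨y, hy, rfl⟩
    exact (hNsub hy.2).2
  have hOfin : weight D O < ⊤ :=
    (measure_mono Metric.ball_subset_closedBall).trans_lt
      (hD.locallyFinite _ (isCompact_closedBall _ _) hRU)
  have : IsFiniteMeasure ((weight D).restrict O) := ⟨by simpa using hOfin⟩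
  -- Besicovitch
  have hbes := Besicovitch.ae_tendsto_measure_inter_div ((weight D).restrict O) (f '' A)
  rw [Measure.restrict_restrict_of_subset hfA] at hbes
  have hbes2 := ae_of_weight hD hA hAd hbes
  -- Lebesgue points
  set g : Euc m → ℝ := A.indicator fun y => (D.mult i y : ℝ) * jac f y with hg
  have hgm : Measurable fun y => (D.mult i y : ℝ) * jac f y := by
    have e1 : Measurable fun a => ((D.mult i a : ℕ) : ℝ) :=
      (measurable_of_countable (fun n : ℕ => (n : ℝ))).comp (hD.measurable_mult i)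
    exact e1.mul (continuous_jac hfd).measurable
  have hgpos : ∀ y, 0 ≤ (D.mult i y : ℝ) * jac f y := fun y =>
    mul_nonneg (Nat.cast_nonneg _) (Real.sqrt_nonneg _)
  have hg0 : ∀ y, 0 ≤ g y := fun y => Set.indicator_nonneg (fun y _ => hgpos y) y
  have hval : ∀ S : Set (Euc k), MeasurableSet S →
      weight D (f '' A ∩ S) = ∫⁻ y in f ⁻¹' S, ENNReal.ofReal (g y) := by
    intro S hS
    have e1 : weight D (f '' A ∩ S) = (weight D).restrict (f '' A) S := by
      rw [Measure.restrict_apply hS, Set.inter_comm]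
    have hSm : MeasurableSet (f ⁻¹' S) := hfd.continuous.measurable hS
    rw [e1, weight_restrict hD hA hAd, base_restrict hA hAd,
      Measure.map_apply hfd.continuous.measurable hS, withDensity_apply _ hSm,
      Measure.restrict_restrict hSm, ← lintegral_indicator (hSm.inter hA),
      ← lintegral_indicator hSm]
    refine lintegral_congr fun y => ?_
    by_cases hy1 : y ∈ f ⁻¹' S
    · by_cases hy2 : y ∈ A
      · rw [Set.indicator_of_mem (show y ∈ f ⁻¹' S ∩ A from ⟨hy1, hy2⟩),
          Set.indicator_of_mem hy1, hg, Set.indicator_of_mem hy2]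
        rfl
      · rw [Set.indicator_of_notMem (fun h => hy2 h.2), Set.indicator_of_mem hy1, hg,
          Set.indicator_of_notMem hy2, ENNReal.ofReal_zero]
    · rw [Set.indicator_of_notMem (fun h => hy1 h.1), Set.indicator_of_notMem hy1]
  have hgint : Integrable g := by
    refine ⟨(hgm.indicator hA).aestronglyMeasurable, ?_⟩
    rw [hasFiniteIntegral_iff_ofReal (Eventually.of_forall hg0)]
    have e1 := hval Set.univ MeasurableSet.univ
    rw [Set.inter_univ, Set.preimage_univ, Measure.restrict_univ] at e1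
    rw [← e1]
    exact (measure_mono hfA).trans_lt hOfin
  have hleb := IsUnifLocDoublingMeasure.ae_tendsto_average_norm_sub (volume : Measure (Euc m))
    hgint.locallyIntegrable 1
  filter_upwards [hbes2, ae_restrict_of_ae hleb, ae_restrict_mem hA] with a hb hl haA
  have hinj := hD.injective_fderiv i a (hAd haA)
  obtain ⟨c1, hc1, hL1⟩ := exists_lower _ hinj
  obtain ⟨M, hM⟩ := exists_sq (fderiv ℝ f a) hinj
  have hjac := jac_eq_abs_det hM
  have hjp := jac_pos hinj
  have hdet : LinearMap.det M ≠ 0 := by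
    intro h
    rw [h, abs_zero] at hjac
    exact hjp.ne' hjac
  set c := min (c0 / 2) c1 with hcdef
  have hc : 0 < c := lt_min (by positivity) hc1
  have hT := tendsto_preimage hM hdet hc
    (fun v => (mul_le_mul_of_nonneg_right (min_le_right _ _) (norm_nonneg _)).trans (hL1 v))
    hgint hg0 (hfd.differentiable one_ne_zero a).hasFDerivAt hfd.continuous (a := a)
    (fun y hy => by
      have hyA : y ∈ A := by
        by_contra hcon
        exact hy (Set.indicator_of_notMem hcon _)
      exact (mul_le_mul_of_nonneg_right (min_le_left _ _) (norm_nonneg _)).trans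
        (hbi y hyA.2 a haA.2))
    (hl (fun _ => a) (fun δ => δ) tendsto_id (by
      filter_upwards [self_mem_nhdsWithin] with δ hδ
      rw [one_mul]
      exact Metric.mem_closedBall_self (le_of_lt hδ)))
  have hga : g a / |LinearMap.det M| = (D.mult i a : ℝ) := by
    rw [hg, Set.indicator_of_mem haA, hjac, mul_div_assoc, div_self (abs_pos.2 hdet).ne',
      mul_one]
  rw [hga] at hT
  -- the two limits
  have hfa : f a ∈ U := hD.subset i ⟨a, hAd haA, rfl⟩
  obtain ⟨R', hR', hRU'⟩ := exists_closedBall hU hfa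
  have hTh := tendsto_rat_closed hV hm hR' (Metric.ball_subset_closedBall.trans hRU')
  rw [mass_VD hD] at hTh
  have hTh1 : Th m (VD D) (f a) ≠ ⊤ := (Th_lt_top hV hm hU hfa).ne
  have hprod := ENNReal.Tendsto.mul hb (Or.inl one_ne_zero) hTh (Or.inr ENNReal.one_ne_top)
  rw [one_mul] at hprod
  refine tendsto_nhds_unique hprod ?_
  have hlimE : Tendsto (fun r : ℝ => ENNReal.ofReal
      ((∫ y in f ⁻¹' (Metric.closedBall (f a) r), g y) / (ome m * r ^ m))) (𝓝[>] 0)
      (𝓝 (D.mult i a : ℝ≥0∞)) := by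
    have := (ENNReal.continuous_ofReal.tendsto _).comp hT
    rwa [ENNReal.ofReal_natCast] at this
  refine hlimE.congr' ?_
  have hfO : f a ∈ O := hfA ⟨a, haA, rfl⟩
  obtain ⟨R2, hR2, hRO⟩ := Metric.isOpen_iff.1 Metric.isOpen_ball (f a) hfO
  filter_upwards [Ioo_mem_nhdsGT hR2] with r hr
  have hsub : Metric.closedBall (f a) r ⊆ O :=
    (Metric.closedBall_subset_ball hr.2).trans hRO
  have e1 : (weight D).restrict O (Metric.closedBall (f a) r)
      = weight D (Metric.closedBall (f a) r) := by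
    rw [Measure.restrict_apply measurableSet_closedBall, Set.inter_eq_left.2 hsub]
  have e2 : (weight D).restrict O (f '' A ∩ Metric.closedBall (f a) r)
      = weight D (f '' A ∩ Metric.closedBall (f a) r) := by
    rw [Measure.restrict_apply
      ((measurableSet_image hD hA hAd).inter measurableSet_closedBall),
      Set.inter_eq_left.2 (Set.inter_subset_right.trans hsub)]
  rw [e1, e2, ediv_mul_ediv (measure_mono Set.inter_subset_right)
    ((measure_mono hsub).trans_lt hOfin).ne, hval _ measurableSet_closedBall,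
    ENNReal.ofReal_div_of_pos (den_pos m hr.1),
    ofReal_integral_eq_lintegral_ofReal hgint.integrableOn (Eventually.of_forall hg0)]

/-- **the density is the multiplicity** at almost every point. -/
theorem Th_VD_ae (hD : IsIntegralVarifoldIn U D) (hs : IsStationaryIn U D) (hm : 1 ≤ m)
    (hU : IsOpen U) (i : ℕ) :
    ∀ᵐ a ∂(volume.restrict (D.dom i)), Th m (VD D) (D.chart i a) = (D.mult i a : ℝ≥0∞) := by
  rw [ae_restrict_iff' (hD.measurableSet i), ae_iff]
  refine measure_null_of_locally_null _ fun a0 ha0 => ?_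
  have ha0' : a0 ∈ D.dom i := by
    by_contra hcon
    exact ha0 fun h => absurd h hcon
  obtain ⟨N, hNo, haN, hN⟩ := Th_local hD hs hm i ha0' hU
  refine ⟨{a | ¬(a ∈ D.dom i → Th m (VD D) (D.chart i a) = (D.mult i a : ℝ≥0∞))} ∩ N,
    Filter.inter_mem self_mem_nhdsWithin (nhdsWithin_le_nhds (hNo.mem_nhds haN)), ?_⟩
  rw [ae_restrict_iff' ((hD.measurableSet i).inter hNo.measurableSet), ae_iff] at hN
  refine measure_mono_null ?_ hN
  rintro a ⟨h1, h2⟩ h3
  exact h1 fun h4 => h3 ⟨h4, h2⟩

/-- the density is a positive integer at almost every point of the weight. -/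
theorem Th_weight_ae (hD : IsIntegralVarifoldIn U D) (hs : IsStationaryIn U D) (hm : 1 ≤ m)
    (hU : IsOpen U) : ∀ᵐ x ∂(weight D), ∃ N : ℕ, 1 ≤ N ∧ Th m (VD D) x = (N : ℝ≥0∞) := by
  have h0 : weight D = Measure.sum fun j => (base D j).map (D.chart j) := rfl
  rw [h0, Measure.ae_sum_iff]
  intro i
  have h1 : ∀ᵐ a ∂(base D i), Th m (VD D) (D.chart i a) = (D.mult i a : ℝ≥0∞) :=
    (base_ac D i).ae_le (Th_VD_ae hD hs hm hU i)
  have h2 := base_ae_dom hD i
  -- a measurable good set
  set S : Set (Euc m) := {a | a ∈ D.dom i ∧ Th m (VD D) (D.chart i a) = (D.mult i a : ℝ≥0∞)}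
    with hS
  have h3 : base D i Sᶜ = 0 := by
    have : ∀ᵐ a ∂(base D i), a ∈ S := by
      filter_upwards [h1, h2] with a ha hb using ⟨hb, ha⟩
    rwa [ae_iff] at this
  obtain ⟨T, hT1, hT2, hT3⟩ := exists_measurable_superset_of_null h3
  have h4 : MeasurableSet (D.chart i '' (D.dom i \ T)) :=
    measurableSet_image hD ((hD.measurableSet i).diff hT2) Set.sdiff_subset
  have h5 : ∀ᵐ x ∂((base D i).map (D.chart i)), x ∈ D.chart i '' (D.dom i \ T) := by
    refine (ae_map_iff (hD.contDiff i).continuous.measurable.aemeasurable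
      (p := fun x => x ∈ D.chart i '' (D.dom i \ T)) h4).2 ?_
    have h6 : ∀ᵐ a ∂(base D i), a ∉ T := by
      rw [ae_iff]; simpa using hT3
    filter_upwards [h2, h6] with a ha hb
    exact ⟨a, ⟨ha, hb⟩, rfl⟩
  filter_upwards [h5] with x hx
  obtain ⟨a, ⟨ha, hb⟩, rfl⟩ := hx
  have h7 : a ∈ S := by
    by_contra hcon
    exact hb (hT1 hcon)
  exact ⟨D.mult i a, hD.mult_pos i a ha, h7.2⟩

/-- the density is at least one on the support. -/
theorem one_le_Th (hD : IsIntegralVarifoldIn U D) (hs : IsStationaryIn U D) (hm : 1 ≤ m)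
    (hU : IsOpen U) {z : Euc k} (hz : z ∈ U) (hzs : z ∈ support D) : 1 ≤ Th m (VD D) z := by
  refine le_Th_of_ae (stat_VD hD hs) hm hU ?_ hz (by
    intro r hr
    rw [mass_VD hD]
    exact hzs r hr)
  rw [mass_VD hD]
  filter_upwards [Th_weight_ae hD hs hm hU] with x hx _
  obtain ⟨N, hN, h⟩ := hx
  rw [h]
  exact_mod_cast hN

/-- lower mass bound at support points. -/
theorem le_weight_ball (hD : IsIntegralVarifoldIn U D) (hs : IsStationaryIn U D) (hm : 1 ≤ m)
    (hU : IsOpen U) {z : Euc k} {r : ℝ} (hr : 0 < r) (hz : Metric.ball z r ⊆ U)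
    (hzs : z ∈ support D) : ENNReal.ofReal (ome m * r ^ m) ≤ weight D (Metric.ball z r) := by
  have h := mul_le_mass (stat_VD hD hs) hm hr hz
    (one_le_Th hD hs hm hU (hz (Metric.mem_ball_self hr)) hzs)
  rwa [one_mul, mass_VD hD] at h

end Crest.Agent.R234.Vf_884
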