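import Crest.Agent.R234.Al3_640
import Crest.Agent.R234.Al7_182
import Crest.Agent.R234.Ell6_3
import Crest.Agent.R234.Al5_182
import Crest.Agent.R234.Vf8_884
import Crest.Agent.R234.Strat4_842
import Crest.Agent.R234.Sup3_113

-- ▼ part R234/Al4_640
section

set_option autoImplicit false

/-!
Row 234, VF-ALLARD, part 4 (helper640): one step of the decay.

`S` carries `V` in `U`; the weighted mass ratios of the points of `S` in `ball x₁ ρ` at all scales
below `ρ` lie in `[θ, (1+δ)θ]`; `‖b + G x‖ ≤ ε` on `S ∩ ball x₁ ρ`.  Then there is an affine map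
`b' + G' x` with `‖G' - G‖ ≤ C ε/ρ` and `‖b' + G' x‖ ≤ (δ + C η²) ε` on `S ∩ ball x₁ (η ρ)`
for all `η ≤ 1/4`.
-/

open MeasureTheory Crest.GeometryTopology.Submanifold Filter Topology Metric Set
open scoped ENNReal InnerProductSpace
open Crest.Agent.R234.Vf_884

noncomputable section

namespace Crest.Agent.R234.Al1_640

variable {m k : ℕ} {U : Set (Euc k)} {V : Measure (Euc k × L k)}

/-- mass bound from the weighted mass ratio -/
theorem mass_le (hV : Stat m k U V) {z : Euc k} {s t A : ℝ} (hs : 0 < s)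
    (ht : 0 ≤ t) (hts : t < s)
    (hU : closedBall z s ⊆ U) (hI : II m V z s ≤ A) :
    V.real (closedBall z t ×ˢ univ) ≤ A * s ^ m / ph (t ^ 2 / s ^ 2) := by
  have h0 : t ^ 2 / s ^ 2 < 1 := by
    rw [div_lt_one (by positivity)]
    gcongr
  have hph : 0 < ph (t ^ 2 / s ^ 2) := by
    unfold ph
    rw [max_eq_left (by linarith)]
    exact pow_pos (by linarith) 2
  rw [le_div_iff₀ hph]
  have hI' : ∫ p, ph (‖p.1 - z‖ ^ 2 / s ^ 2) ∂V ≤ A * s ^ m := by
    unfold II at hI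
    rwa [div_le_iff₀ (pow_pos hs m)] at hI
  refine le_trans ?_ hI'
  have hK : MeasurableSet (closedBall z t ×ˢ (univ : Set (L k))) :=
    isClosed_closedBall.measurableSet.prod MeasurableSet.univ
  have hfin : V (closedBall z t ×ˢ univ) < ⊤ := hV.fin _ (isCompact_closedBall z t)
    ((closedBall_subset_closedBall hts.le).trans hU)
  have h1 : V.real (closedBall z t ×ˢ univ) * ph (t ^ 2 / s ^ 2)
      = ∫ p, (closedBall z t ×ˢ (univ : Set (L k))).indicator
        (fun _ => ph (t ^ 2 / s ^ 2)) p ∂V := by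
    rw [integral_indicator_const _ hK, smul_eq_mul]
  rw [h1]
  refine integral_mono ?_ (integrable_ph hV hs hU) ?_
  · rw [integrable_indicator_iff hK]
    exact integrableOn_const hfin.ne
  · intro p
    simp only
    by_cases hp : p ∈ closedBall z t ×ˢ (univ : Set (L k))
    · rw [indicator_of_mem hp]
      have h2 : ‖p.1 - z‖ ≤ t := by
        have := hp.1
        rwa [mem_closedBall, dist_eq_norm] at this
      exact ph_anti (by gcongr)
    · rw [indicator_of_notMem hp]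
      exact ph_nonneg _

/-- pointwise second order estimate of the kernel -/
theorem kernel_taylor {x x0 x1 : Euc k} {r : ℝ} (hr : 0 < r) (h : ‖x0 - x1‖ ≤ r / 2)
    (hx : ‖x - x1‖ ≤ 3 / 2 * r) :
    |ph (‖x - x0‖ ^ 2 / r ^ 2) - ph (‖x - x1‖ ^ 2 / r ^ 2)
      - ph' (‖x - x1‖ ^ 2 / r ^ 2) * (-2 / r ^ 2 * ⟪x - x1, x0 - x1⟫_ℝ)|
      ≤ 15 * ‖x0 - x1‖ ^ 2 / r ^ 2 := by
  set u := ‖x - x0‖ ^ 2 / r ^ 2 with hu
  set v := ‖x - x1‖ ^ 2 / r ^ 2 with hv
  set n := ‖x0 - x1‖ with hn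
  have hn0 : 0 ≤ n := norm_nonneg _
  have h1 : ‖x - x0‖ ^ 2 = ‖x - x1‖ ^ 2 - 2 * ⟪x - x1, x0 - x1⟫_ℝ + n ^ 2 := by
    have : x - x0 = (x - x1) - (x0 - x1) := by abel
    rw [this, norm_sub_sq_real]
  have huv : u - v = (n ^ 2 - 2 * ⟪x - x1, x0 - x1⟫_ℝ) / r ^ 2 := by
    rw [hu, hv, h1]; ring
  have h2 : ph u - ph v - ph' v * (-2 / r ^ 2 * ⟪x - x1, x0 - x1⟫_ℝ)
      = (ph u - ph v - ph' v * (u - v)) + ph' v * (n ^ 2 / r ^ 2) := by
    rw [huv]; ring
  rw [h2]
  have h3 : |⟪x - x1, x0 - x1⟫_ℝ| ≤ 3 / 2 * r * n :=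
    (abs_real_inner_le_norm _ _).trans (mul_le_mul_of_nonneg_right hx hn0)
  have h4 : |u - v| ≤ 7 / 2 * n / r := by
    rw [huv, abs_div, abs_of_pos (by positivity : (0:ℝ) < r ^ 2), div_le_div_iff₀ (by positivity) hr]
    have h5 : |n ^ 2 - 2 * ⟪x - x1, x0 - x1⟫_ℝ| ≤ 7 / 2 * n * r := by
      rw [abs_le] at h3 ⊢
      constructor <;> nlinarith [mul_nonneg hn0 hr.le]
    calc |n ^ 2 - 2 * ⟪x - x1, x0 - x1⟫_ℝ| * r ≤ (7 / 2 * n * r) * r := by gcongr
      _ = 7 / 2 * n * r ^ 2 := by ring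
  have h5 : (u - v) ^ 2 ≤ (7 / 2 * n / r) ^ 2 := by
    rw [← sq_abs (u - v)]
    gcongr
  have h6 : |ph' v * (n ^ 2 / r ^ 2)| ≤ 2 * (n ^ 2 / r ^ 2) := by
    rw [abs_mul, abs_of_nonneg (by positivity : (0:ℝ) ≤ n ^ 2 / r ^ 2)]
    exact mul_le_mul_of_nonneg_right (abs_ph'_le (by positivity)) (by positivity)
  calc |ph u - ph v - ph' v * (u - v) + ph' v * (n ^ 2 / r ^ 2)|
      ≤ |ph u - ph v - ph' v * (u - v)| + |ph' v * (n ^ 2 / r ^ 2)| := abs_add_le _ _
    _ ≤ (7 / 2 * n / r) ^ 2 + 2 * (n ^ 2 / r ^ 2) := add_le_add ((ph_taylor u v).trans h5) h6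
    _ = (57 / 4) * (n ^ 2 / r ^ 2) := by ring
    _ ≤ 15 * (n ^ 2 / r ^ 2) := by gcongr; norm_num
    _ = 15 * n ^ 2 / r ^ 2 := by ring

theorem kernel_zero {x x0 x1 : Euc k} {r : ℝ} (hr : 0 < r) (h : ‖x0 - x1‖ ≤ r / 2)
    (hx : 3 / 2 * r < ‖x - x1‖) :
    ph (‖x - x0‖ ^ 2 / r ^ 2) = 0 ∧ ph (‖x - x1‖ ^ 2 / r ^ 2) = 0
      ∧ ph' (‖x - x1‖ ^ 2 / r ^ 2) = 0 := by
  have h1 : r ≤ ‖x - x1‖ := by linarith
  have h2 : r ≤ ‖x - x0‖ := by
    have : ‖x - x1‖ ≤ ‖x - x0‖ + ‖x0 - x1‖ := by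
      have h3 : x - x1 = (x - x0) + (x0 - x1) := by abel
      rw [h3]; exact norm_add_le _ _
    linarith
  exact ⟨ph_zero (one_le_div_sq hr (by gcongr)), ph_zero (one_le_div_sq hr (by gcongr)),
    ph'_zero (one_le_div_sq hr (by gcongr))⟩

variable {F : Type*} [NormedAddCommGroup F] [InnerProductSpace ℝ F]

/-- the integrand of the linear part -/
def lk (b : F) (G : Euc k →L[ℝ] F) (z : Euc k) (r : ℝ) (x : Euc k) : Euc k →L[ℝ] F :=
  (ph' (‖x - z‖ ^ 2 / r ^ 2) * (-2 / r ^ 2)) • (innerSL ℝ (x - z)).smulRight (b + G x)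

theorem lk_apply (b : F) (G : Euc k →L[ℝ] F) (z : Euc k) (r : ℝ) (x h : Euc k) :
    lk b G z r x h
      = (ph' (‖x - z‖ ^ 2 / r ^ 2) * (-2 / r ^ 2 * ⟪x - z, h⟫_ℝ)) • (b + G x) := by
  unfold lk
  rw [smul_apply, ContinuousLinearMap.smulRight_apply, innerSL_apply_apply, smul_smul, mul_assoc]

theorem continuous_lk (b : F) (G : Euc k →L[ℝ] F) (z : Euc k) (r : ℝ) :
    Continuous (lk b G z r) := by
  unfold lk
  have h1 : Continuous fun x : Euc k => ph' (‖x - z‖ ^ 2 / r ^ 2) :=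
    continuous_ph'.comp (by fun_prop)
  have h2 : Continuous fun x : Euc k => (innerSL ℝ (x - z)).smulRight (b + G x) := by
    have h3 : Continuous fun x : Euc k => innerSL ℝ (x - z) := by fun_prop
    have h4 : Continuous fun x : Euc k => b + G x := by fun_prop
    exact (ContinuousLinearMap.smulRightL ℝ (Euc k) F).continuous₂.comp (h3.prodMk h4)
  exact (h1.mul continuous_const).smul h2

/-- the linear part -/
def LL (V : Measure (Euc k × L k)) (b : F) (G : Euc k →L[ℝ] F) (z : Euc k) (r : ℝ) :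
    Euc k →L[ℝ] F := ∫ p, lk b G z r p.1 ∂V

theorem integrable_lk (hV : Stat m k U V) {z : Euc k} {r : ℝ} (hr : 0 < r)
    (hU : closedBall z r ⊆ U) (b : F) (G : Euc k →L[ℝ] F) :
    Integrable (fun p : Euc k × L k => lk b G z r p.1) V :=
  integrable_vec hV (isCompact_closedBall z r) hU (continuous_lk b G z r)
    (fun x hx => by unfold lk; rw [ph'_zero (off_ball hr hx)]; simp)

/-- `J(x₀) = J(x₁) + L(x₀ - x₁) + O(ε |x₀-x₁|²/r²) mass` -/
theorem JJ_taylor (hV : Stat m k U V) {x0 x1 : Euc k} {r : ℝ} (hr : 0 < r)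
    (h : ‖x0 - x1‖ ≤ r / 2) (hU : closedBall x1 (3 / 2 * r) ⊆ U)
    (b : F) (G : Euc k →L[ℝ] F) {ε : ℝ} (_hε : 0 ≤ ε)
    (hf : ∀ᵐ p ∂V, p.1 ∈ closedBall x1 (3 / 2 * r) → ‖b + G p.1‖ ≤ ε) :
    ‖JJ V b G x0 r - JJ V b G x1 r - LL V b G x1 r (x0 - x1)‖
      ≤ 15 * ‖x0 - x1‖ ^ 2 / r ^ 2 * ε * V.real (closedBall x1 (3 / 2 * r) ×ˢ univ) := by
  have hU0 : closedBall x0 r ⊆ U := by
    refine (closedBall_subset_closedBall' ?_).trans hU
    rw [dist_eq_norm]; linarith
  have hU1 : closedBall x1 r ⊆ U := (closedBall_subset_closedBall (by linarith)).trans hU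
  have hK : MeasurableSet (closedBall x1 (3 / 2 * r) ×ˢ (univ : Set (L k))) :=
    isClosed_closedBall.measurableSet.prod MeasurableSet.univ
  have hfin : V (closedBall x1 (3 / 2 * r) ×ˢ univ) < ⊤ :=
    hV.fin _ (isCompact_closedBall _ _) hU
  have i0 := integrable_ph_smul hV hr hU0 (φ := fun x => b + G x) (by fun_prop)
  have i1 := integrable_ph_smul hV hr hU1 (φ := fun x => b + G x) (by fun_prop)
  have i2 := integrable_lk hV hr hU1 b G
  have i01 : Integrable (fun p : Euc k × L k => ph (‖p.1 - x0‖ ^ 2 / r ^ 2) • (b + G p.1)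
      - ph (‖p.1 - x1‖ ^ 2 / r ^ 2) • (b + G p.1)) V := i0.sub i1
  have i3 : Integrable (fun p : Euc k × L k => (lk b G x1 r p.1) (x0 - x1)) V :=
    i2.apply_continuousLinearMap _
  unfold JJ LL
  rw [ContinuousLinearMap.integral_apply i2, ← integral_sub i0 i1, ← integral_sub i01 i3]
  have hb : Integrable ((closedBall x1 (3 / 2 * r) ×ˢ (univ : Set (L k))).indicator
      fun _ => 15 * ‖x0 - x1‖ ^ 2 / r ^ 2 * ε) V := by
    rw [integrable_indicator_iff hK]
    exact integrableOn_const hfin.ne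
  have h1 := norm_integral_le_of_norm_le hb (f := fun p : Euc k × L k =>
    ph (‖p.1 - x0‖ ^ 2 / r ^ 2) • (b + G p.1) - ph (‖p.1 - x1‖ ^ 2 / r ^ 2) • (b + G p.1)
      - (lk b G x1 r p.1) (x0 - x1)) ?_
  · rw [integral_indicator_const _ hK, smul_eq_mul, mul_comm] at h1
    exact h1
  · filter_upwards [hf] with p hp
    rw [lk_apply, ← sub_smul, ← sub_smul, norm_smul, Real.norm_eq_abs]
    by_cases hx : p.1 ∈ closedBall x1 (3 / 2 * r)
    · rw [indicator_of_mem (by exact ⟨hx, trivial⟩)]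
      have hx' : ‖p.1 - x1‖ ≤ 3 / 2 * r := by rwa [mem_closedBall, dist_eq_norm] at hx
      exact mul_le_mul (kernel_taylor hr h hx') (hp hx) (norm_nonneg _) (by positivity)
    · have hx' : 3 / 2 * r < ‖p.1 - x1‖ := by
        rwa [mem_closedBall, dist_eq_norm, not_le] at hx
      obtain ⟨e1, e2, e3⟩ := kernel_zero hr h hx'
      rw [e1, e2, e3, indicator_of_notMem (by exact fun hh => hx hh.1)]
      simp

/-- bound of the linear part -/
theorem LL_le (hV : Stat m k U V) {x1 : Euc k} {r : ℝ} (hr : 0 < r)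
    (hU : closedBall x1 r ⊆ U)
    (b : F) (G : Euc k →L[ℝ] F) {ε : ℝ}
    (hf : ∀ᵐ p ∂V, p.1 ∈ closedBall x1 r → ‖b + G p.1‖ ≤ ε) :
    ‖LL V b G x1 r‖ ≤ 4 / r * ε * V.real (closedBall x1 r ×ˢ univ) := by
  have hK : MeasurableSet (closedBall x1 r ×ˢ (univ : Set (L k))) :=
    isClosed_closedBall.measurableSet.prod MeasurableSet.univ
  have hfin : V (closedBall x1 r ×ˢ univ) < ⊤ := hV.fin _ (isCompact_closedBall _ _) hU
  have hb : Integrable ((closedBall x1 r ×ˢ (univ : Set (L k))).indicator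
      fun _ => 4 / r * ε) V := by
    rw [integrable_indicator_iff hK]
    exact integrableOn_const hfin.ne
  have h1 := norm_integral_le_of_norm_le hb (f := fun p : Euc k × L k => lk b G x1 r p.1) ?_
  · rw [integral_indicator_const _ hK, smul_eq_mul, mul_comm] at h1
    exact h1
  · filter_upwards [hf] with p hp
    by_cases hx : p.1 ∈ closedBall x1 r
    · rw [indicator_of_mem (by exact ⟨hx, trivial⟩)]
      have hx' : ‖p.1 - x1‖ ≤ r := by rwa [mem_closedBall, dist_eq_norm] at hx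
      unfold lk
      rw [norm_smul, ContinuousLinearMap.norm_smulRight_apply, innerSL_apply_norm, norm_mul,
        Real.norm_eq_abs, Real.norm_eq_abs, abs_div, abs_neg, abs_of_pos (by norm_num : (0:ℝ) < 2),
        abs_of_pos (by positivity : (0:ℝ) < r ^ 2)]
      have h2 : |ph' (‖p.1 - x1‖ ^ 2 / r ^ 2)| ≤ 2 := abs_ph'_le (by positivity)
      calc |ph' (‖p.1 - x1‖ ^ 2 / r ^ 2)| * (2 / r ^ 2) * (‖p.1 - x1‖ * ‖b + G p.1‖)
          ≤ 2 * (2 / r ^ 2) * (r * ε) := by
            have := hp hx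
            gcongr
        _ = 4 / r * ε := by field_simp; ring
    · unfold lk
      rw [ph'_zero (off_ball hr hx), indicator_of_notMem (by exact fun hh => hx hh.1)]
      simp

end Crest.Agent.R234.Al1_640
end
end

-- ▼ part R234/Al5_640
section

set_option autoImplicit false

/-!
Row 234, VF-ALLARD, part 5 (helper640): `Pin` (pinched weighted mass ratios) and one step of the
decay (`step`).
-/

open MeasureTheory Crest.GeometryTopology.Submanifold Filter Topology Metric Set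
open scoped ENNReal InnerProductSpace
open Crest.Agent.R234.Vf_884

noncomputable section

namespace Crest.Agent.R234.Al1_640

variable {m k : ℕ} {U : Set (Euc k)} {V : Measure (Euc k × L k)}

/-- pinched weighted mass ratios: `θ ≤ I(x,s) ≤ (1+δ) θ` for the points `x` of `S` in
`ball x₁ (ρ/2)` and `0 < s ≤ ρ/2`. -/
structure Pin (m : ℕ) (V : Measure (Euc k × L k)) (S : Set (Euc k)) (x1 : Euc k)
    (ρ θ δ : ℝ) : Prop where
  lo : ∀ x ∈ S, x ∈ ball x1 (ρ / 2) → ∀ s, 0 < s → s ≤ ρ / 2 → θ ≤ II m V x s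
  hi : ∀ x ∈ S, x ∈ ball x1 (ρ / 2) → ∀ s, 0 < s → s ≤ ρ / 2 → II m V x s ≤ (1 + δ) * θ

theorem Pin.anti {S : Set (Euc k)} {x1 : Euc k} {ρ ρ' θ δ : ℝ} (h : Pin m V S x1 ρ θ δ)
    (hρ : ρ' ≤ ρ) : Pin m V S x1 ρ' θ δ where
  lo x hx hx1 s hs hs1 := h.lo x hx (ball_subset_ball (by linarith) hx1) s hs (by linarith)
  hi x hx hx1 s hs hs1 := h.hi x hx (ball_subset_ball (by linarith) hx1) s hs (by linarith)


variable {F : Type*} [NormedAddCommGroup F] [InnerProductSpace ℝ F] [CompleteSpace F]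

/-- **one step of the decay** -/
theorem step (hV : Stat m k U V) {S : Set (Euc k)} (hS : ∀ᵐ p ∂V, p.1 ∈ U → p.1 ∈ S)
    {x1 : Euc k} {ρ θ δ ε : ℝ} (hρ : 0 < ρ) (hU : ball x1 ρ ⊆ U) (hθ : 0 < θ)
    (hδ : δ ≤ 1) (hP : Pin m V S x1 ρ θ δ) (hx1 : x1 ∈ S) (b : F) (G : Euc k →L[ℝ] F)
    (hg : ∀ x ∈ S, x ∈ ball x1 ρ → ‖b + G x‖ ≤ ε) :
    ∃ (b' : F) (G' : Euc k →L[ℝ] F), ‖G' - G‖ ≤ 176 * 2 ^ m * (ε / ρ) ∧
      ∀ x ∈ S, ‖x - x1‖ ≤ ρ / 8 →
        ‖b' + G' x‖ ≤ (δ + 2640 * 2 ^ m * (‖x - x1‖ / ρ) ^ 2) * ε := by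
  have hε : 0 ≤ ε := (norm_nonneg _).trans (hg x1 hx1 (mem_ball_self hρ))
  set r := ρ / 4 with hr_def
  have hr : 0 < r := by positivity
  have hρr : ρ = 4 * r := by rw [hr_def]; ring
  have hrm : 0 < r ^ m := pow_pos hr m
  have h2m : (0:ℝ) < 2 ^ m := by positivity
  have hae : ∀ᵐ p ∂V, p.1 ∈ ball x1 ρ → ‖b + G p.1‖ ≤ ε := by
    filter_upwards [hS] with p hp h
    exact hg p.1 (hp (hU h)) h
  have hc1 : closedBall x1 (3 / 2 * r) ⊆ ball x1 ρ := closedBall_subset_ball (by linarith)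
  have hc2 : closedBall x1 r ⊆ ball x1 ρ := closedBall_subset_ball (by linarith)
  have hmass : V.real (closedBall x1 (3 / 2 * r) ×ˢ univ) ≤ 11 * 2 ^ m * θ * r ^ m := by
    have h1 := mass_le (m := m) (A := (1 + δ) * θ) hV (z := x1) (s := 2 * r) (t := 3 / 2 * r)
      (by positivity) (by positivity) (by linarith)
      ((closedBall_subset_ball (by linarith)).trans hU)
      (hP.hi x1 hx1 (mem_ball_self (by linarith)) _ (by positivity) (by linarith))
    have h2 : (3 / 2 * r) ^ 2 / (2 * r) ^ 2 = 9 / 16 := by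
      field_simp; norm_num
    have h3 : ph (9 / 16) = 49 / 256 := by
      unfold ph; rw [max_eq_left (by norm_num)]; norm_num
    rw [h2, h3] at h1
    refine h1.trans ?_
    rw [div_le_iff₀ (by norm_num), mul_pow]
    have h4 : (1 + δ) * θ * (2 ^ m * r ^ m) ≤ 2 * θ * (2 ^ m * r ^ m) := by
      refine mul_le_mul_of_nonneg_right ?_ (by positivity)
      nlinarith
    have h5 : 0 ≤ θ * (2 ^ m * r ^ m) := by positivity
    nlinarith
  have hmass' : V.real (closedBall x1 r ×ˢ univ) ≤ 11 * 2 ^ m * θ * r ^ m := by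
    refine le_trans ?_ hmass
    refine measureReal_mono (prod_mono (closedBall_subset_closedBall (by linarith)) le_rfl) ?_
    exact (hV.fin _ (isCompact_closedBall _ _) (hc1.trans hU)).ne
  set c : ℝ := (θ * r ^ m)⁻¹ with hc
  have hc0 : 0 < c := by positivity
  have hcθ : c * (θ * r ^ m) = 1 := by rw [hc]; field_simp
  refine ⟨b - c • (JJ V b G x1 r - LL V b G x1 r x1), G - c • LL V b G x1 r, ?_, ?_⟩
  · rw [sub_sub_cancel_left, norm_neg, norm_smul, Real.norm_eq_abs, abs_of_pos hc0]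
    have h1 := LL_le hV hr (hc2.trans hU) b G (ε := ε) (by
      filter_upwards [hae] with p hp h
      exact hp (hc2 h))
    calc c * ‖LL V b G x1 r‖ ≤ c * (4 / r * ε * (11 * 2 ^ m * θ * r ^ m)) := by
          refine mul_le_mul_of_nonneg_left (h1.trans ?_) hc0.le
          gcongr
      _ = 44 * 2 ^ m * ε / r * (c * (θ * r ^ m)) := by ring
      _ = 176 * 2 ^ m * (ε / ρ) := by rw [hcθ, hρr]; field_simp; ring
  · intro x hx hxx
    have hxball : x ∈ ball x1 (ρ / 2) := by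
      rw [mem_ball, dist_eq_norm]; linarith
    have h38 : ball x (3 / 2 * r) ⊆ ball x1 ρ := by
      refine ball_subset_ball' ?_
      rw [dist_eq_norm]; linarith
    have hmv := mv_vec hV (z := x) (R := 3 / 2 * r) (h38.trans hU) b G (ε := ε)
      (by
        filter_upwards [hae] with p hp h
        exact hp (h38 h))
      (hg x hx (ball_subset_ball (by linarith) hxball)) (θ := θ)
      (fun s hs => hP.lo x hx hxball s hs.1 (by linarith [hs.2])) (r := r)
      ⟨hr, by linarith⟩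
    have hI : II m V x r ≤ (1 + δ) * θ := hP.hi x hx hxball r hr (by linarith)
    have hJ := JJ_taylor hV (x0 := x) (x1 := x1) hr (by linarith) (hc1.trans hU) b G (ε := ε) hε
      (by
        filter_upwards [hae] with p hp h
        exact hp (hc1 h))
    have hkey : θ • (b - c • (JJ V b G x1 r - LL V b G x1 r x1) + (G - c • LL V b G x1 r) x)
        = -((r ^ m)⁻¹ • JJ V b G x r - θ • (b + G x))
          + (r ^ m)⁻¹ • (JJ V b G x r - JJ V b G x1 r - LL V b G x1 r (x - x1)) := by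
      have h1 : θ * c = (r ^ m)⁻¹ := by rw [hc]; field_simp
      rw [sub_apply, smul_apply, map_sub]
      simp only [smul_sub, smul_add, smul_smul, h1]
      abel
    have h5 : θ * ‖b - c • (JJ V b G x1 r - LL V b G x1 r x1) + (G - c • LL V b G x1 r) x‖
        ≤ θ * ((δ + 2640 * 2 ^ m * (‖x - x1‖ / ρ) ^ 2) * ε) := by
      have h6 : θ * ‖b - c • (JJ V b G x1 r - LL V b G x1 r x1) + (G - c • LL V b G x1 r) x‖
          = ‖θ • (b - c • (JJ V b G x1 r - LL V b G x1 r x1)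
            + (G - c • LL V b G x1 r) x)‖ := by
        rw [norm_smul, Real.norm_eq_abs, abs_of_pos hθ]
      rw [h6, hkey]
      refine (norm_add_le _ _).trans ?_
      rw [norm_neg, norm_smul, Real.norm_eq_abs, abs_of_pos (inv_pos.2 hrm)]
      have h7 : ε * (II m V x r - θ) ≤ θ * δ * ε := by nlinarith
      have h8 : (r ^ m)⁻¹ * ‖JJ V b G x r - JJ V b G x1 r - LL V b G x1 r (x - x1)‖
          ≤ θ * (2640 * 2 ^ m * (‖x - x1‖ / ρ) ^ 2) * ε := by
        rw [inv_mul_le_iff₀ hrm]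
        refine hJ.trans ?_
        calc 15 * ‖x - x1‖ ^ 2 / r ^ 2 * ε * V.real (closedBall x1 (3 / 2 * r) ×ˢ univ)
            ≤ 15 * ‖x - x1‖ ^ 2 / r ^ 2 * ε * (11 * 2 ^ m * θ * r ^ m) := by gcongr
          _ = r ^ m * (θ * (2640 * 2 ^ m * (‖x - x1‖ / ρ) ^ 2) * ε) := by
            rw [hρr]; field_simp; ring
      calc ‖(r ^ m)⁻¹ • JJ V b G x r - θ • (b + G x)‖
          + (r ^ m)⁻¹ * ‖JJ V b G x r - JJ V b G x1 r - LL V b G x1 r (x - x1)‖
          ≤ θ * δ * ε + θ * (2640 * 2 ^ m * (‖x - x1‖ / ρ) ^ 2) * ε :=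
            add_le_add (hmv.trans h7) h8
        _ = θ * ((δ + 2640 * 2 ^ m * (‖x - x1‖ / ρ) ^ 2) * ε) := by ring
    exact le_of_mul_le_mul_left h5 hθ

end Crest.Agent.R234.Al1_640
end
end

-- ▼ part R234/Al6_640
section

set_option autoImplicit false

/-!
Row 234, VF-ALLARD, part 6 (helper640): the iteration.  `flat_pt`: at a point `x₁` of `S` there is
a linear map `G'` with `‖G' - G‖ ≤ C ε/ρ` and `‖G' (y - x₁)‖ ≤ C ε (‖y - x₁‖/ρ)^(1+a)` for all
`y ∈ S ∩ ball x₁ ρ`.
-/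

open MeasureTheory Crest.GeometryTopology.Submanifold Filter Topology Metric Set
open scoped ENNReal InnerProductSpace
open Crest.Agent.R234.Vf_884

noncomputable section

namespace Crest.Agent.R234.Al1_640

/-- choice of the ratio of the radii -/
theorem exists_ratio (m : ℕ) {a : ℝ} (_ha : 0 < a) (ha1 : a < 1) :
    ∃ η : ℝ, 0 < η ∧ η ≤ 1 / 8 ∧ 2640 * 2 ^ m * η ^ 2 ≤ η ^ (1 + a) / 2 := by
  have h1 : Tendsto (fun η : ℝ => 5280 * 2 ^ m * η ^ (1 - a)) (𝓝[>] 0) (𝓝 (5280 * 2 ^ m * 0)) := by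
    refine Tendsto.const_mul _ ?_
    have := (Real.continuousAt_rpow_const 0 (1 - a) (Or.inr (by linarith))).tendsto
    rw [Real.zero_rpow (by linarith)] at this
    exact this.mono_left nhdsWithin_le_nhds
  rw [mul_zero] at h1
  have h2 : ∀ᶠ η : ℝ in 𝓝[>] 0, 5280 * 2 ^ m * η ^ (1 - a) < 1 :=
    h1.eventually (Iio_mem_nhds one_pos)
  have h3 : ∀ᶠ η : ℝ in 𝓝[>] 0, η ∈ Ioc (0:ℝ) (1 / 8) := Ioc_mem_nhdsGT (by norm_num)
  obtain ⟨η, h4, h5⟩ := (h2.and h3).exists
  refine ⟨η, h5.1, h5.2, ?_⟩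
  have h6 : η ^ 2 = η ^ (1 - a) * η ^ (1 + a) := by
    rw [← Real.rpow_add h5.1, ← Real.rpow_natCast]
    congr 1
    push_cast
    ring
  have h7 : 0 < η ^ (1 + a) := Real.rpow_pos_of_pos h5.1 _
  rw [h6]
  nlinarith

variable {m k : ℕ} {U : Set (Euc k)} {V : Measure (Euc k × L k)}

variable {F : Type*} [NormedAddCommGroup F] [InnerProductSpace ℝ F] [CompleteSpace F]

/-- the iteration -/
theorem iter (hV : Stat m k U V) {S : Set (Euc k)} (hS : ∀ᵐ p ∂V, p.1 ∈ U → p.1 ∈ S)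
    {x1 : Euc k} {ρ θ δ ε a η : ℝ} (hρ : 0 < ρ) (hU : ball x1 ρ ⊆ U) (hθ : 0 < θ)
    (hη : 0 < η) (hη8 : η ≤ 1 / 8) (hη2 : 2640 * 2 ^ m * η ^ 2 ≤ η ^ (1 + a) / 2)
    (hδ : δ ≤ 1) (hδ2 : δ ≤ η ^ (1 + a) / 2)
    (hP : Pin m V S x1 ρ θ δ) (hx1 : x1 ∈ S) (b : F) (G : Euc k →L[ℝ] F)
    (hg : ∀ x ∈ S, x ∈ ball x1 ρ → ‖b + G x‖ ≤ ε) :
    ∃ s : ℕ → F × (Euc k →L[ℝ] F), s 0 = (b, G) ∧
      (∀ j, ∀ x ∈ S, x ∈ ball x1 ρ → ‖x - x1‖ ≤ η ^ j * ρ →
        ‖(s j).1 + (s j).2 x‖ ≤ (η ^ (1 + a)) ^ j * ε) ∧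
      ∀ j, ‖(s (j + 1)).2 - (s j).2‖ ≤ 176 * 2 ^ m * (ε / ρ) * (η ^ a) ^ j := by
  have hε : 0 ≤ ε := (norm_nonneg _).trans (hg x1 hx1 (mem_ball_self hρ))
  set κ := η ^ (1 + a) with hκ
  have hκ0 : 0 < κ := Real.rpow_pos_of_pos hη _
  have hκη : κ = η * η ^ a := by rw [hκ, Real.rpow_add hη, Real.rpow_one]
  let good : ℕ → F × (Euc k →L[ℝ] F) → Prop := fun j q =>
    ∀ x ∈ S, x ∈ ball x1 ρ → ‖x - x1‖ ≤ η ^ j * ρ → ‖q.1 + q.2 x‖ ≤ κ ^ j * ε
  have hstep : ∀ j q, good j q → ∃ q', good (j + 1) q' ∧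
      ‖q'.2 - q.2‖ ≤ 176 * 2 ^ m * (ε / ρ) * (η ^ a) ^ j := by
    intro j q hq
    have hηj : 0 < η ^ j := pow_pos hη j
    have hηj1 : η ^ j ≤ 1 := pow_le_one₀ hη.le (by linarith)
    have hρj : 0 < η ^ j * ρ := by positivity
    have hρj1 : η ^ j * ρ ≤ ρ := by nlinarith
    obtain ⟨b', G', h1, h2⟩ := step hV hS (ρ := η ^ j * ρ) (θ := θ) (δ := δ)
      (ε := κ ^ j * ε) hρj ((ball_subset_ball hρj1).trans hU) hθ hδ (hP.anti hρj1) hx1 q.1 q.2
      (fun x hx hxb => hq x hx (ball_subset_ball hρj1 hxb) (by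
        rw [mem_ball, dist_eq_norm] at hxb; exact hxb.le))
    refine ⟨(b', G'), ?_, ?_⟩
    · intro x hx hxb hxx
      have h3 : ‖x - x1‖ ≤ η * (η ^ j * ρ) := by rw [pow_succ] at hxx; linarith
      have h4 := h2 x hx (by nlinarith)
      refine h4.trans ?_
      have h5 : ‖x - x1‖ / (η ^ j * ρ) ≤ η := by
        rw [div_le_iff₀ hρj]; exact h3
      have h6 : δ + 2640 * 2 ^ m * (‖x - x1‖ / (η ^ j * ρ)) ^ 2 ≤ κ := by
        have : 2640 * 2 ^ m * (‖x - x1‖ / (η ^ j * ρ)) ^ 2 ≤ 2640 * 2 ^ m * η ^ 2 := by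
          gcongr
        linarith
      calc (δ + 2640 * 2 ^ m * (‖x - x1‖ / (η ^ j * ρ)) ^ 2) * (κ ^ j * ε)
          ≤ κ * (κ ^ j * ε) := by gcongr
        _ = κ ^ (j + 1) * ε := by ring
    · refine h1.trans (le_of_eq ?_)
      rw [hκη, mul_pow]
      field_simp
  choose! f hf1 hf2 using hstep
  let T : (j : ℕ) → {q : F × (Euc k →L[ℝ] F) // good j q} := fun j =>
    Nat.rec (motive := fun j => {q : F × (Euc k →L[ℝ] F) // good j q})
      ⟨(b, G), fun x hx hxb _ => by simpa using hg x hx hxb⟩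
      (fun j q => ⟨f j q.1, hf1 j q.1 q.2⟩) j
  refine ⟨fun j => (T j).1, rfl, fun j => (T j).2, fun j => ?_⟩
  exact hf2 j (T j).1 (T j).2

/-- **decay at a point** -/
theorem flat_pt (m : ℕ) {a : ℝ} (ha : 0 < a) (ha1 : a < 1) :
    ∃ C : ℝ, 0 < C ∧ ∃ δ0 : ℝ, 0 < δ0 ∧ δ0 ≤ 1 ∧ ∀ {k : ℕ} {U : Set (Euc k)}
      {V : Measure (Euc k × L k)} {F : Type} [NormedAddCommGroup F] [InnerProductSpace ℝ F]
      [CompleteSpace F], Stat m k U V → ∀ {S : Set (Euc k)}, (∀ᵐ p ∂V, p.1 ∈ U → p.1 ∈ S) →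
      ∀ {x1 : Euc k} {ρ θ δ ε : ℝ}, 0 < ρ → ball x1 ρ ⊆ U → 0 < θ → δ ≤ δ0 →
      Pin m V S x1 ρ θ δ → x1 ∈ S → ∀ (b : F) (G : Euc k →L[ℝ] F),
      (∀ x ∈ S, x ∈ ball x1 ρ → ‖b + G x‖ ≤ ε) →
      ∃ G' : Euc k →L[ℝ] F, ‖G' - G‖ ≤ C * (ε / ρ) ∧
        ∀ y ∈ S, y ∈ ball x1 ρ → ‖G' (y - x1)‖ ≤ C * ε * (‖y - x1‖ / ρ) ^ (1 + a) := by
  obtain ⟨η, hη, hη8, hη2⟩ := exists_ratio m ha ha1
  set κ := η ^ (1 + a) with hκ
  have hκ0 : 0 < κ := Real.rpow_pos_of_pos hη _
  have hκ1 : κ ≤ 1 := Real.rpow_le_one hη.le (by linarith) (by linarith)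
  have hηa0 : 0 < η ^ a := Real.rpow_pos_of_pos hη _
  have hηa1 : η ^ a < 1 := Real.rpow_lt_one hη.le (by linarith) ha
  have hκη : κ = η * η ^ a := by rw [hκ, Real.rpow_add hη, Real.rpow_one]
  set C2 : ℝ := 176 * 2 ^ m with hC2
  have hC20 : 0 < C2 := by positivity
  set q : ℝ := 1 - η ^ a with hq
  have hq0 : 0 < q := by linarith
  refine ⟨(2 + C2 / q) / κ, by positivity, κ / 2, by positivity, by linarith, ?_⟩
  intro k U V F _ _ _ hV S hS x1 ρ θ δ ε hρ hU hθ hδ hP hx1 b G hg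
  have hε : 0 ≤ ε := (norm_nonneg _).trans (hg x1 hx1 (mem_ball_self hρ))
  obtain ⟨s, hs0, hs1, hs2⟩ := iter hV hS hρ hU hθ hη hη8 hη2 (by linarith) hδ hP hx1 b G hg
  have hd : ∀ n, dist ((s n).2) ((s (n + 1)).2) ≤ C2 * (ε / ρ) * (η ^ a) ^ n := by
    intro n
    rw [dist_comm, dist_eq_norm]
    exact hs2 n
  have hcau : CauchySeq fun n => (s n).2 := cauchySeq_of_le_geometric (η ^ a) _ hηa1 hd
  obtain ⟨G', hG'⟩ := cauchySeq_tendsto_of_complete hcau
  have hlim : ∀ n, ‖(s n).2 - G'‖ ≤ C2 * (ε / ρ) * (η ^ a) ^ n / q := by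
    intro n
    rw [← dist_eq_norm]
    exact dist_le_of_le_geometric_of_tendsto (η ^ a) _ hηa1 hd hG' n
  refine ⟨G', ?_, ?_⟩
  · have h0 := hlim 0
    rw [hs0, pow_zero, mul_one, ← norm_neg, neg_sub] at h0
    refine h0.trans ?_
    have h1 : C2 * (ε / ρ) / q = C2 / q * (ε / ρ) := by ring
    rw [h1]
    refine mul_le_mul_of_nonneg_right ?_ (by positivity)
    rw [le_div_iff₀ hκ0]
    have h2 : 0 < C2 / q := by positivity
    nlinarith
  · intro y hy hyb
    rcases eq_or_ne y x1 with rfl | hne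
    · rw [sub_self, map_zero, norm_zero]; positivity
    set t := ‖y - x1‖ / ρ with ht
    have ht0 : 0 < t := div_pos (norm_pos_iff.2 (sub_ne_zero.2 hne)) hρ
    have ht1 : t ≤ 1 := by
      rw [ht, div_le_one hρ]
      rw [mem_ball, dist_eq_norm] at hyb
      exact hyb.le
    have hyt : ‖y - x1‖ = t * ρ := by rw [ht]; field_simp
    obtain ⟨n, hn1, hn2⟩ := exists_nat_pow_near_of_lt_one ht0 ht1 hη (by linarith)
    have hyn : ‖y - x1‖ ≤ η ^ n * ρ := by rw [hyt]; gcongr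
    have h1 := hs1 n y hy hyb hyn
    have h2 := hs1 n x1 hx1 (mem_ball_self hρ) (by rw [sub_self, norm_zero]; positivity)
    have h3 : (s n).2 (y - x1) = ((s n).1 + (s n).2 y) - ((s n).1 + (s n).2 x1) := by
      rw [map_sub]; abel
    have h4 : ‖(s n).2 (y - x1)‖ ≤ 2 * (κ ^ n * ε) := by
      rw [h3]
      refine (norm_sub_le _ _).trans ?_
      linarith
    have h5 : ‖((s n).2 - G') (y - x1)‖ ≤ C2 / q * (κ ^ n * ε) := by
      refine (ContinuousLinearMap.le_opNorm _ _).trans ?_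
      calc ‖(s n).2 - G'‖ * ‖y - x1‖ ≤ (C2 * (ε / ρ) * (η ^ a) ^ n / q) * (η ^ n * ρ) := by
            have := hlim n
            gcongr
        _ = C2 / q * (κ ^ n * ε) := by
            rw [hκη, mul_pow]; field_simp
    have h6 : G' (y - x1) = (s n).2 (y - x1) - ((s n).2 - G') (y - x1) := by
      rw [sub_apply]; abel
    have h7 : κ ^ n ≤ t ^ (1 + a) / κ := by
      rw [le_div_iff₀ hκ0, ← pow_succ]
      have h8 : κ ^ (n + 1) = (η ^ (n + 1)) ^ (1 + a) := by
        rw [hκ, ← Real.rpow_natCast, ← Real.rpow_natCast, ← Real.rpow_mul hη.le,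
          ← Real.rpow_mul hη.le, mul_comm]
      rw [h8]
      exact Real.rpow_le_rpow (by positivity) hn1.le (by linarith)
    calc ‖G' (y - x1)‖ ≤ 2 * (κ ^ n * ε) + C2 / q * (κ ^ n * ε) := by
          rw [h6]
          exact (norm_sub_le _ _).trans (add_le_add h4 h5)
      _ = (2 + C2 / q) * ε * κ ^ n := by ring
      _ ≤ (2 + C2 / q) * ε * (t ^ (1 + a) / κ) := by gcongr
      _ = (2 + C2 / q) / κ * ε * t ^ (1 + a) := by ring

end Crest.Agent.R234.Al1_640
end
end

-- ▼ part R234/Al8_182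
section

/-!
R234 (helper182), VF-ALLARD part 8: assembly for general stationary varifolds.
`graph_of_flat`: mass ratio close to `Q`, density `≥ Q` on the support, support close to a plane
==> the support is a `C^{1,α}` graph.
-/

set_option autoImplicit false

open MeasureTheory Metric Set Filter Topology
open Crest.GeometryTopology.Submanifold
open scoped ENNReal RealInnerProductSpace

namespace Crest.Agent.R234.Al8_182

open Crest.Agent.R234.Vf_884 Crest.Agent.R234.Al7_182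

noncomputable section

variable {m k : ℕ}

/-- cone condition from the pointwise expansions -/
theorem cone_of_exp {T : Submodule ℝ (Euc k)} {S : Set (Euc k)} {x0 : Euc k} {R Λ K α : ℝ}
    (hα : 0 < α) (hK : 0 ≤ K) (hKR : K * (2 * R) ^ α ≤ Λ) (G : Euc k → Euc k →L[ℝ] Tᗮ)
    (hG : ∀ x ∈ S, x ∈ ball x0 R → ‖G x - Tᗮ.orthogonalProjectionOnto‖ ≤ Λ)
    (hGx : ∀ x ∈ S, x ∈ ball x0 R → ∀ y ∈ S, y ∈ ball x0 R →
      ‖G x (y - x)‖ ≤ K * ‖y - x‖ ^ (1 + α)) :
    ∀ x ∈ S, x ∈ ball x0 R → ∀ y ∈ S, y ∈ ball x0 R →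
      ‖Tᗮ.starProjection (y - x)‖ ≤ (2 * Λ) * ‖y - x‖ := by
  intro x hx hxR y hy hyR
  have h1 := hGx x hx hxR y hy hyR
  have hd : ‖y - x‖ ≤ 2 * R := by
    rw [mem_ball, dist_eq_norm] at hxR hyR
    calc ‖y - x‖ = ‖(y - x0) - (x - x0)‖ := by congr 1; abel
      _ ≤ ‖y - x0‖ + ‖x - x0‖ := norm_sub_le _ _
      _ ≤ 2 * R := by linarith
  have h2 : K * ‖y - x‖ ^ (1 + α) ≤ Λ * ‖y - x‖ := by
    rcases eq_or_lt_of_le (norm_nonneg (y - x)) with h0 | h0
    · rw [← h0, Real.zero_rpow (by linarith)]; simp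
    · rw [add_comm 1 α, Real.rpow_add h0, Real.rpow_one, ← mul_assoc]
      refine mul_le_mul_of_nonneg_right (le_trans ?_ hKR) h0.le
      exact mul_le_mul_of_nonneg_left (Real.rpow_le_rpow h0.le hd hα.le) hK
  have h3 : Tᗮ.orthogonalProjectionOnto (y - x)
      = G x (y - x) - (G x - Tᗮ.orthogonalProjectionOnto) (y - x) := by
    rw [sub_apply]; abel
  have h4 : ‖Tᗮ.starProjection (y - x)‖ = ‖Tᗮ.orthogonalProjectionOnto (y - x)‖ := rfl
  rw [h4, h3]
  calc ‖G x (y - x) - (G x - Tᗮ.orthogonalProjectionOnto) (y - x)‖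
      ≤ ‖G x (y - x)‖ + ‖(G x - Tᗮ.orthogonalProjectionOnto) (y - x)‖ := norm_sub_le _ _
    _ ≤ Λ * ‖y - x‖ + Λ * ‖y - x‖ := by
        refine add_le_add (h1.trans h2) ?_
        exact (ContinuousLinearMap.le_opNorm _ _).trans
          (mul_le_mul_of_nonneg_right (hG x hx hxR) (norm_nonneg _))
    _ = (2 * Λ) * ‖y - x‖ := by ring

/-- choice of the radius fraction -/
theorem exists_eta (m : ℕ) {δ : ℝ} (hδ : 0 < δ) :
    ∃ η : ℝ, 0 < η ∧ η ≤ 1 / 2 ∧ (1 + δ / 2) * (1 / (1 - η)) ^ m ≤ 1 + δ := by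
  have h1 : Tendsto (fun η : ℝ => (1 + δ / 2) * (1 / (1 - η)) ^ m) (𝓝[>] 0)
      (𝓝 ((1 + δ / 2) * (1 / (1 - 0)) ^ m)) := by
    have h2 : ContinuousAt (fun η : ℝ => (1 + δ / 2) * (1 / (1 - η)) ^ m) 0 := by
      refine continuousAt_const.mul (ContinuousAt.pow ?_ m)
      exact continuousAt_const.div (continuousAt_const.sub continuousAt_id) (by norm_num)
    exact h2.tendsto.mono_left nhdsWithin_le_nhds
  have h2 : (1 + δ / 2) * (1 / (1 - 0)) ^ m < 1 + δ := by
    rw [sub_zero, div_one, one_pow, mul_one]; linarith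
  obtain ⟨η, h3, h4⟩ := ((h1.eventually_lt_const h2).and
    (Ioc_mem_nhdsGT (show (0:ℝ) < 1 / 2 by norm_num))).exists
  exact ⟨η, h4.1, h4.2, h3.le⟩

/-- **ALLARD, graph form, for general stationary varifolds** -/
theorem graph_of_flat (m : ℕ) (hm : 1 ≤ m) {α Λ₀ τ : ℝ} (hα : 0 < α) (hα1 : α < 1)
    (hΛ₀ : 0 < Λ₀) (hτ : 0 < τ) :
    ∃ c > 0, c ≤ 1 / 96 ∧ ∃ ε > 0, ∃ Λ, 0 < Λ ∧ Λ ≤ Λ₀ ∧ ∀ {k : ℕ} {U : Set (Euc k)}
      {V : Measure (Euc k × L k)}, Stat m k U V → ∀ {S : Set (Euc k)}, IsClosed S →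
      (∀ᵐ p ∂V, p.1 ∈ U → p.1 ∈ S) → ∀ {x0 : Euc k} {r Q : ℝ} {T : Submodule ℝ (Euc k)},
      x0 ∈ S → 0 < r → ball x0 r ⊆ U → 0 < Q → Module.finrank ℝ T = m →
      (∀ x ∈ S, x ∈ ball x0 r → ENNReal.ofReal Q ≤ Th m V x) →
      rat m V x0 r ≤ ENNReal.ofReal ((1 + ε) * Q) →
      (∀ x ∈ S, x ∈ ball x0 r → ‖Tᗮ.starProjection (x - x0)‖ ≤ ε * r) →
      (∀ z ∈ ball x0 (12 * c * r), Th m V z ≤ ENNReal.ofReal ((1 + τ) * Q)) ∧
      ∃ (u : T → Tᗮ) (g : T → T →L[ℝ] Tᗮ) (K : ℝ),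
        Al5_182.GraphData T S x0 u g (c * r) (6 * c * r) Λ K α := by
  obtain ⟨C, hC, δ0, hδ0, hδ01, H⟩ := Al1_640.flat_pt m hα hα1
  set δ : ℝ := min δ0 (min (1 / (64 * 2 ^ m)) τ) with hδdef
  have hδ : 0 < δ := by positivity
  have hδ1 : δ ≤ δ0 := min_le_left _ _
  have hδ2 : 64 * 2 ^ m * δ ≤ 1 := by
    have h1 : δ ≤ 1 / (64 * 2 ^ m) := (min_le_right _ _).trans (min_le_left _ _)
    rw [le_div_iff₀ (by positivity)] at h1
    linarith
  have hδ3 : δ ≤ τ := (min_le_right _ _).trans (min_le_right _ _)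
  obtain ⟨η, hη, hη2, hηδ⟩ := exists_eta m hδ
  set Λ : ℝ := min Λ₀ (1 / (128 * 2 ^ m)) with hΛdef
  have h2m : (1 : ℝ) ≤ 2 ^ m := one_le_pow₀ (by norm_num)
  have hΛ : 0 < Λ := by positivity
  have hΛ1 : Λ ≤ 1 / (128 * 2 ^ m) := min_le_right _ _
  have hΛ1' : 128 * 2 ^ m * Λ ≤ 1 := by
    rw [le_div_iff₀ (by positivity)] at hΛ1
    linarith
  have hΛ8 : Λ ≤ 1 / 8 := by nlinarith
  have hlam : 2048 * 2 ^ m * (2 * Λ) ^ 2 ≤ 1 := by
    have h1 : 0 ≤ 2 ^ m * Λ := by positivity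
    have h2 : Λ ≤ 1 / 128 := by nlinarith
    nlinarith
  set ε : ℝ := min (δ / 2) (η * Λ / C) with hεdef
  have hε : 0 < ε := by positivity
  have hεδ : ε ≤ δ / 2 := min_le_left _ _
  have hεC : C * ε / η ≤ Λ := by
    have h1 : ε ≤ η * Λ / C := min_le_right _ _
    rw [le_div_iff₀ hC] at h1
    rw [div_le_iff₀ hη]
    linarith
  refine ⟨η / 48, by positivity, by linarith, ε, hε, Λ, hΛ, min_le_left _ _, ?_⟩
  intro k U V hV S hScl hS x0 r Q T hx0 hr hU hQ hT hTh hrat hflat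
  -- linear bookkeeping
  obtain ⟨a, ha⟩ : ∃ a : ℝ, a = η * r := ⟨_, rfl⟩
  have hap : 0 < a := by rw [ha]; positivity
  have har : a ≤ r / 2 := by rw [ha]; nlinarith
  have h1a : (1 - η) * r = r - a := by rw [ha]; ring
  have h1η : 0 < 1 - η := by linarith
  obtain ⟨R, hR⟩ : ∃ R : ℝ, R = a / 4 := ⟨_, rfl⟩
  have hRp : 0 < R := by rw [hR]; positivity
  -- ratios at nearby points
  have hnear : ∀ z ∈ ball x0 a, ∀ s, 0 < s → s ≤ r - a →
      rat m V z s ≤ ENNReal.ofReal ((1 + δ) * Q) := by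
    intro z hz s hs hsr
    have hz' : dist z x0 < a := hz
    have hb : ball z (r - a) ⊆ U := (ball_subset_ball' (by linarith)).trans hU
    refine (rat_mono hV hm hs hsr hb).trans ?_
    refine (rat_shift V m hr (z := x0) (w := z) (s := r - a) (by linarith)
      (by linarith)).trans ?_
    have h3 : r / (r - a) = 1 / (1 - η) := by
      rw [← h1a]; field_simp
    rw [h3]
    refine (mul_le_mul_left hrat _).trans ?_
    rw [← ENNReal.ofReal_mul (by positivity)]
    refine ENNReal.ofReal_le_ofReal ?_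
    have h4 : 0 ≤ (1 / (1 - η)) ^ m := by positivity
    calc (1 + ε) * Q * (1 / (1 - η)) ^ m ≤ (1 + δ / 2) * Q * (1 / (1 - η)) ^ m := by
          gcongr
      _ = (1 + δ / 2) * (1 / (1 - η)) ^ m * Q := by ring
      _ ≤ (1 + δ) * Q := by gcongr
  obtain ⟨θ, hθdef⟩ : ∃ θ : ℝ, θ = Q * cph m := ⟨_, rfl⟩
  have hθ : 0 < θ := by rw [hθdef]; exact mul_pos hQ (cph_pos m)
  have hlo : ∀ x ∈ S, x ∈ ball x0 a → ∀ s, 0 < s → s < r - a →
      θ ≤ Al1_640.II m V x s := by
    intro x hx hxb s hs hsr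
    have hxb' : dist x x0 < a := hxb
    rw [hθdef]
    refine II_ge_of_Th hV hm hs ?_ hQ.le (hTh x hx (ball_subset_ball (by linarith) hxb))
    exact (closedBall_subset_ball' (by linarith)).trans hU
  have hhi : ∀ x ∈ S, x ∈ ball x0 a → ∀ s, 0 < s → s < r - a →
      Al1_640.II m V x s ≤ (1 + δ) * θ := by
    intro x _ hxb s hs hsr
    have hxb' : dist x x0 < a := hxb
    have h3 := II_le_of_rat hV hm hs (z := x) (B := (1 + δ) * Q) ((closedBall_subset_ball'
      (by linarith)).trans hU) (by positivity) (hnear x hxb s hs hsr.le)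
    rw [hθdef]
    linarith
  have hRa : R ≤ a := by rw [hR]; linarith
  obtain ⟨K, hKdef⟩ : ∃ K : ℝ, K = C * (ε * r) * (1 / a) ^ (1 + α) := ⟨_, rfl⟩
  have hK : 0 ≤ K := by rw [hKdef]; positivity
  -- pointwise expansions
  have hpt : ∀ x : Euc k, ∃ G' : Euc k →L[ℝ] Tᗮ, x ∈ S → x ∈ ball x0 R →
      ‖G' - Tᗮ.orthogonalProjectionOnto‖ ≤ Λ ∧ ∀ y ∈ S, y ∈ ball x0 R →
        ‖G' (y - x)‖ ≤ K * ‖y - x‖ ^ (1 + α) := by
    intro x
    by_cases hx : x ∈ S ∧ x ∈ ball x0 R
    · have hxR : dist x x0 < R := hx.2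
      have hsub : ball x a ⊆ ball x0 r := ball_subset_ball' (by linarith)
      have hP : Al1_640.Pin m V S x a θ δ := by
        refine ⟨fun y hy hyb s hs hsr => ?_, fun y hy hyb s hs hsr => ?_⟩
        · refine hlo y hy ?_ s hs (by linarith)
          rw [mem_ball] at hyb ⊢
          have := dist_triangle y x x0
          linarith
        · refine hhi y hy ?_ s hs (by linarith)
          rw [mem_ball] at hyb ⊢
          have := dist_triangle y x x0
          linarith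
      obtain ⟨G', hG1, hG2⟩ := H hV hS (x1 := x) (ρ := a) (θ := θ) (δ := δ)
        (ε := ε * r) (F := Tᗮ) hap (hsub.trans hU) hθ hδ1 hP hx.1
        (-(Tᗮ.orthogonalProjectionOnto x0)) Tᗮ.orthogonalProjectionOnto (by
          intro y hy hyb
          have h3 := hflat y hy (hsub hyb)
          rw [neg_add_eq_sub, ← map_sub]
          exact h3)
      refine ⟨G', fun _ _ => ⟨hG1.trans ?_, fun y hy hyb => ?_⟩⟩
      · refine le_trans (le_of_eq ?_) hεC
        rw [ha]
        field_simp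
      · have hyx : y ∈ ball x a := by
          rw [mem_ball] at hyb ⊢
          have := dist_triangle_right y x x0
          linarith
        refine (hG2 y hy hyx).trans (le_of_eq ?_)
        rw [hKdef, div_eq_mul_one_div, mul_comm ‖y - x‖,
          Real.mul_rpow (by positivity) (norm_nonneg _)]
        ring
    · exact ⟨0, fun h1 h2 => absurd ⟨h1, h2⟩ hx⟩
  choose G hG using hpt
  have hKR : K * (2 * R) ^ α ≤ Λ := by
    have h3 : (2 * R) ^ α ≤ a ^ α :=
      Real.rpow_le_rpow (by positivity) (by linarith) hα.le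
    have h4 : (1 / a) ^ (1 + α) * a ^ α = 1 / a := by
      rw [Real.rpow_add (by positivity), Real.rpow_one, mul_assoc,
        ← Real.mul_rpow (by positivity) hap.le, one_div_mul_cancel hap.ne', Real.one_rpow, mul_one]
    calc K * (2 * R) ^ α ≤ K * a ^ α := by gcongr
      _ = C * (ε * r) * ((1 / a) ^ (1 + α) * a ^ α) := by rw [hKdef]; ring
      _ = C * ε / η := by rw [h4, ha]; field_simp
      _ ≤ Λ := hεC
  have hcone := cone_of_exp (T := T) (S := S) (x0 := x0) (R := R) (Λ := Λ) (K := K) hα hK hKR G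
    (fun x hx hxR => (hG x hx hxR).1) (fun x hx hxR => (hG x hx hxR).2)
  have hNH : Al5_182.NoHole T S x0 R := by
    refine noHole hV hT hS (R := R) (θ := θ) (δ := δ) (lam := 2 * Λ) hRp ?_ hθ hδ.le hδ2 hlam
      ?_ ?_ hcone
    · exact (ball_subset_ball (by linarith)).trans hU
    · intro X hX hXR s hs
      exact hlo X hX (ball_subset_ball hRa hXR) s hs.1 (by linarith [hs.2])
    · intro X hX hXR s hs
      exact hhi X hX (ball_subset_ball hRa hXR) s hs.1 (by linarith [hs.2])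
  refine ⟨?_, ?_⟩
  · intro z hz
    have hz' : z ∈ ball x0 a := ball_subset_ball (by rw [ha]; nlinarith) hz
    have hzd : dist z x0 < a := hz'
    have hb : ball z (r - a) ⊆ U := (ball_subset_ball' (by linarith)).trans hU
    refine (Th_le_rat hV hm (by linarith) hb).trans
      ((hnear z hz' _ (by linarith) le_rfl).trans ?_)
    refine ENNReal.ofReal_le_ofReal ?_
    gcongr
  · obtain ⟨u, g, hg⟩ := Al5_182.graph (T := T) (S := S) (x0 := x0) (R := R) (Λ := Λ) (K := K)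
      hRp hα hα1.le hx0 ((isCompact_closedBall x0 (R / 2)).inter_left hScl) hΛ8 hK hKR G
      (fun x hx hxR => (hG x hx hxR).1) (fun x hx hxR => (hG x hx hxR).2) hNH
    refine ⟨u, g, 32 * K, ?_⟩
    have e1 : η / 48 * r = R / 12 := by rw [hR, ha]; ring
    have e2 : 6 * (η / 48) * r = R / 2 := by rw [hR, ha]; ring
    rw [e1, e2]
    exact hg

end

end Crest.Agent.R234.Al8_182
end

-- ▼ part R234/Ar1_3
section

/-!
R234 (helper3), VF-AREAID part 1: the Jacobian of a piece along a `C¹` graph.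
-/

open MeasureTheory Metric Set Filter Topology
open scoped ContDiff NNReal ENNReal
open Crest.GeometryTopology.Submanifold

namespace Crest.Agent.R234.Ar1_3

noncomputable section

set_option linter.unusedSectionVars false

open Crest.Agent.R234.Ell1_3 Crest.Agent.R234.Ell2_3 Crest.Agent.R234.Ell3_3
open Crest.Agent.R234.Ell4_3

variable {m k : ℕ}

lemma det_adj {E : Type*} [NormedAddCommGroup E] [InnerProductSpace ℝ E] [FiniteDimensional ℝ E]
    (B : E →L[ℝ] E) : (ContinuousLinearMap.adjoint B).det = B.det := by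
  set b := stdOrthonormalBasis ℝ E
  have h1 : (ContinuousLinearMap.adjoint B).det =
      (LinearMap.toMatrix b.toBasis b.toBasis
        (LinearMap.adjoint (B : E →ₗ[ℝ] E))).det := by
    rw [LinearMap.det_toMatrix]; rfl
  have h2 : B.det = (LinearMap.toMatrix b.toBasis b.toBasis (B : E →ₗ[ℝ] E)).det := by
    rw [LinearMap.det_toMatrix]
  rw [h1, h2, LinearMap.toMatrix_adjoint, Matrix.det_conjTranspose]
  simp

lemma det_metricMat (f : Euc m → Euc k) (a : Euc m) :
    (metricMat f a).det =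
      ((ContinuousLinearMap.adjoint (fderiv ℝ f a)) ∘L fderiv ℝ f a).det := by
  set b := EuclideanSpace.basisFun (Fin m) ℝ
  have h1 : metricMat f a = LinearMap.toMatrix b.toBasis b.toBasis
      (((ContinuousLinearMap.adjoint (fderiv ℝ f a)) ∘L fderiv ℝ f a : Euc m →L[ℝ] Euc m) :
        Euc m →ₗ[ℝ] Euc m) := by
    ext i j
    have hb : ∀ i, b i = stdVec m i := fun i => by simp [b, stdVec]
    have h2 : LinearMap.toMatrix b.toBasis b.toBasis
      (((ContinuousLinearMap.adjoint (fderiv ℝ f a)) ∘L fderiv ℝ f a : Euc m →L[ℝ] Euc m) :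
        Euc m →ₗ[ℝ] Euc m) i j =
      inner ℝ (b i) ((ContinuousLinearMap.adjoint (fderiv ℝ f a)) (fderiv ℝ f a (b j))) := by
      rw [LinearMap.toMatrix_apply]
      simp [← OrthonormalBasis.repr_apply_apply]
    rw [h2, ContinuousLinearMap.adjoint_inner_right, hb, hb]
    rfl
  rw [h1, LinearMap.det_toMatrix]

variable (T : Submodule ℝ (Euc k))

/-- Jacobian of a piece whose tangent plane is the graph plane of `q` -/
theorem jac_eq (L : T ≃ₗᵢ[ℝ] Euc m) (f : Euc m → Euc k) (a : Euc m) (q : T →L[ℝ] Tᗮ)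
    (h : Tᗮ.orthogonalProjectionOnto ∘L fderiv ℝ f a =
      q ∘L (T.orthogonalProjectionOnto ∘L fderiv ℝ f a)) :
    jac f a = dns q *
      |((L : T →L[ℝ] Euc m) ∘L (T.orthogonalProjectionOnto ∘L fderiv ℝ f a)).det| := by
  set A : Euc m →L[ℝ] Euc k := fderiv ℝ f a with hA
  set B : Euc m →L[ℝ] Euc m := (L : T →L[ℝ] Euc m) ∘L (T.orthogonalProjectionOnto ∘L A) with hB
  set H : Euc m →L[ℝ] Euc m :=
    (L : T →L[ℝ] Euc m) ∘L (gop q ∘L (L.symm : Euc m →L[ℝ] T)) with hH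
  have hsplit : ∀ ξ, A ξ = ((T.orthogonalProjectionOnto (A ξ) : T) : Euc k) +
      ((q (T.orthogonalProjectionOnto (A ξ)) : Tᗮ) : Euc k) := by
    intro ξ
    have h1 := Submodule.starProjection_add_starProjection_orthogonal (K := T) (A ξ)
    have h2 := congrArg (fun M : Euc m →L[ℝ] Tᗮ => M ξ) h
    simp only [ContinuousLinearMap.comp_apply] at h2
    rw [← h2]
    exact h1.symm
  have hop : (ContinuousLinearMap.adjoint A) ∘L A = (ContinuousLinearMap.adjoint B) ∘L (H ∘L B) := by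
    ext ξ : 1
    apply ext_inner_left ℝ
    intro η
    simp only [ContinuousLinearMap.comp_apply]
    rw [ContinuousLinearMap.adjoint_inner_right, ContinuousLinearMap.adjoint_inner_right,
      hsplit η, hsplit ξ, inner_split]
    have h3 : H (B ξ) = L (gop q (T.orthogonalProjectionOnto (A ξ))) := by
      simp [hH, hB]
    have h4 : B η = L (T.orthogonalProjectionOnto (A η)) := by simp [hB]
    rw [h3, h4, L.inner_map_map, gop_inner]
  have hdH : H.det = gdet q := by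
    have h5 : (H : Euc m →ₗ[ℝ] Euc m) = (L.toLinearEquiv : T →ₗ[ℝ] Euc m) ∘ₗ
        (gop q : T →ₗ[ℝ] T) ∘ₗ (L.toLinearEquiv.symm : Euc m →ₗ[ℝ] T) := by
      ext x; rfl
    have h6 : H.det = LinearMap.det (H : Euc m →ₗ[ℝ] Euc m) := rfl
    rw [h6, h5]
    exact LinearMap.det_conj (gop q : T →ₗ[ℝ] T) L.toLinearEquiv
  have hdet : ((ContinuousLinearMap.adjoint B) ∘L (H ∘L B)).det =
      (ContinuousLinearMap.adjoint B).det * (H.det * B.det) := by
    have h7 : ∀ X Y : Euc m →L[ℝ] Euc m, (X ∘L Y).det = X.det * Y.det := by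
      intro X Y
      exact LinearMap.det_comp (X : Euc m →ₗ[ℝ] Euc m) (Y : Euc m →ₗ[ℝ] Euc m)
    rw [h7, h7]
  unfold jac dns
  rw [det_metricMat, ← hA, hop, hdet, det_adj, hdH]
  have h8 : B.det * (gdet q * B.det) = gdet q * (B.det) ^ 2 := by ring
  rw [h8, Real.sqrt_mul (gdet_pos q).le, Real.sqrt_sq_eq_abs]

/-- vertical differential of a piece along the graph -/
lemma vert_eq (x0 : Euc k) (r s : ℝ) (u : T → Tᗮ) (g : T → T →L[ℝ] Tᗮ)
    {U : Set (Euc k)} {D : VarifoldData m k} (hD : IsIntegralVarifoldIn U D)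
    (hder : ∀ z ∈ ball (0 : T) r, HasFDerivAt u (g z) z) (i : ℕ) :
    ∀ᵐ a ∂(volume.restrict (D.dom i)), D.chart i a ∈ grf T x0 u r s →
      Tᗮ.orthogonalProjectionOnto ∘L fderiv ℝ (D.chart i) a =
        g (px T x0 (D.chart i a)) ∘L (T.orthogonalProjectionOnto ∘L fderiv ℝ (D.chart i) a) := by
  have hu : ContinuousOn u (ball 0 r) := fun z hz => (hder z hz).continuousAt.continuousWithinAt
  have hgm : MeasurableSet (grf T x0 u r s) := by
    have h1 : grf T x0 u r s = cyl T x0 r s \ (cyl T x0 r s \ grf T x0 u r s) := by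
      ext p; simp only [Set.mem_sdiff, grf, Set.mem_ofPred_eq]; tauto
    rw [h1]
    exact (cyl_isOpen T x0 r s).measurableSet.diff (cyl_diff_grf_isOpen T x0 r s u hu).measurableSet
  have hc : Measurable (D.chart i) := (hD.contDiff i).continuous.measurable
  set A : Set (Euc m) := D.dom i ∩ D.chart i ⁻¹' (grf T x0 u r s) with hA
  have hAm : MeasurableSet A := (hD.measurableSet i).inter (hc hgm)
  set f := D.chart i with hf
  have hfd : ∀ a, HasFDerivAt f (fderiv ℝ f a) a := fun a =>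
    ((hD.contDiff i).differentiable (by norm_num) a).hasFDerivAt
  have hx : ∀ a, HasFDerivAt (fun a => px T x0 (f a))
      (T.orthogonalProjectionOnto ∘L fderiv ℝ f a) a :=
    fun a => T.orthogonalProjectionOnto.hasFDerivAt.comp a ((hfd a).sub_const x0)
  have hy : ∀ a, HasFDerivAt (fun a => py T x0 (f a))
      (Tᗮ.orthogonalProjectionOnto ∘L fderiv ℝ f a) a :=
    fun a => Tᗮ.orthogonalProjectionOnto.hasFDerivAt.comp a ((hfd a).sub_const x0)
  have key := ae_fderiv_zero (volume : Measure (Euc m))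
    (h := fun a => py T x0 (f a) - u (px T x0 (f a)))
    (h' := fun a => (Tᗮ.orthogonalProjectionOnto ∘L fderiv ℝ f a) -
      (g (px T x0 (f a))) ∘L (T.orthogonalProjectionOnto ∘L fderiv ℝ f a)) hAm
    (fun a ha => ((hy a).sub ((hder _ ha.2.1.1).comp a (hx a))).hasFDerivWithinAt)
    (fun a ha => sub_eq_zero.2 ha.2.2)
  rw [ae_restrict_iff' hAm] at key
  rw [ae_restrict_iff' (hD.measurableSet i)]
  filter_upwards [key] with a ha hda hga
  exact sub_eq_zero.1 (ha ⟨hda, hga⟩)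

end

end Crest.Agent.R234.Ar1_3
end

-- ▼ part R234/Ar2_3
section

/-!
R234 (helper3), VF-AREAID part 2: **area identification**.  An integral varifold whose support in a
cylinder lies on a `C¹` graph, with multiplicity `Q` almost everywhere and positive lower density
along the graph, has weight `Q · area` in the cylinder.
-/

open MeasureTheory Metric Set Filter Topology
open scoped ContDiff NNReal ENNReal
open Crest.GeometryTopology.Submanifold

namespace Crest.Agent.R234.Ar2_3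

noncomputable section

set_option linter.unusedSectionVars false

open Crest.Agent.R234.Ell1_3 Crest.Agent.R234.Ell2_3 Crest.Agent.R234.Ell3_3
open Crest.Agent.R234.Ell4_3 Crest.Agent.R234.Ell6_3 Crest.Agent.R234.Ar1_3

variable {m k : ℕ}

variable (T : Submodule ℝ (Euc k)) (x0 : Euc k) (r s : ℝ) (u : T → Tᗮ) (g : T → T →L[ℝ] Tᗮ)

lemma grf_measurable (hu : ContinuousOn u (ball 0 r)) : MeasurableSet (grf T x0 u r s) := by
  have h1 : grf T x0 u r s = cyl T x0 r s \ (cyl T x0 r s \ grf T x0 u r s) := by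
    ext p; simp only [Set.mem_sdiff, grf, Set.mem_ofPred_eq]; tauto
  rw [h1]
  exact (cyl_isOpen T x0 r s).measurableSet.diff (cyl_diff_grf_isOpen T x0 r s u hu).measurableSet

/-- the part of the `i`-th parameter domain that lies on the graph over `S` -/
def AS (D : VarifoldData m k) (i : ℕ) (S : Set (Euc k)) : Set (Euc m) :=
  D.dom i ∩ D.chart i ⁻¹' (S ∩ grf T x0 u r s)

/-- shadow of `AS` -/
def RS (D : VarifoldData m k) (i : ℕ) (S : Set (Euc k)) : Set T :=
  (fun a => px T x0 (D.chart i a)) '' (AS T x0 r s u D i S)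

variable {U : Set (Euc k)} {D : VarifoldData m k}

lemma AS_measurable (hD : IsIntegralVarifoldIn U D) (hu : ContinuousOn u (ball 0 r)) (i : ℕ)
    {S : Set (Euc k)} (hS : MeasurableSet S) : MeasurableSet (AS T x0 r s u D i S) :=
  (hD.measurableSet i).inter
    ((hD.contDiff i).continuous.measurable (hS.inter (grf_measurable T x0 r s u hu)))

lemma px_injOn (hD : IsIntegralVarifoldIn U D) (i : ℕ) (S : Set (Euc k)) :
    InjOn (fun a => px T x0 (D.chart i a)) (AS T x0 r s u D i S) := by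
  intro a ha b hb hab
  have h1 := gmap_px T x0 r s u ha.2.2
  have h2 := gmap_px T x0 r s u hb.2.2
  apply hD.injOn i ha.1 hb.1
  rw [← h1, ← h2]
  exact congrArg _ hab

lemma RS_eq (D : VarifoldData m k) (i : ℕ) (S : Set (Euc k)) :
    RS T x0 r s u D i S = RS T x0 r s u D i univ ∩ gmap T x0 u ⁻¹' S := by
  ext x
  constructor
  · rintro ⟨a, ha, rfl⟩
    refine ⟨⟨a, ⟨ha.1, mem_univ _, ha.2.2⟩, rfl⟩, ?_⟩
    show gmap T x0 u (px T x0 (D.chart i a)) ∈ S
    rw [gmap_px T x0 r s u ha.2.2]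
    exact ha.2.1
  · rintro ⟨⟨a, ha, rfl⟩, hS⟩
    refine ⟨a, ⟨ha.1, ?_, ha.2.2⟩, rfl⟩
    have h1 : gmap T x0 u (px T x0 (D.chart i a)) ∈ S := hS
    rwa [gmap_px T x0 r s u ha.2.2] at h1

lemma RS_subset (D : VarifoldData m k) (i : ℕ) (S : Set (Euc k)) :
    RS T x0 r s u D i S ⊆ ball 0 r := by
  rintro _ ⟨a, ha, rfl⟩
  exact ha.2.2.1.1

lemma RS_disjoint (hD : IsIntegralVarifoldIn U D) {i j : ℕ} (hij : i ≠ j) (S : Set (Euc k)) :
    Disjoint (RS T x0 r s u D i S) (RS T x0 r s u D j S) := by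
  rw [Set.disjoint_left]
  rintro _ ⟨a, ha, rfl⟩ ⟨b, hb, hab⟩
  have h1 := gmap_px T x0 r s u ha.2.2
  have h2 := gmap_px T x0 r s u hb.2.2
  have h3 : D.chart j b = D.chart i a := by
    rw [← h1, ← h2]; exact congrArg _ hab
  exact Set.disjoint_left.1 (hD.disjoint i j hij) ⟨a, ha.1, rfl⟩ ⟨b, hb.1, h3⟩

/-- derivative of the shadow map, in isometric coordinates -/
def shd (L : T ≃ₗᵢ[ℝ] Euc m) (D : VarifoldData m k) (i : ℕ) (a : Euc m) : Euc m →L[ℝ] Euc m :=
  (L : T →L[ℝ] Euc m) ∘L (T.orthogonalProjectionOnto ∘L fderiv ℝ (D.chart i) a)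

lemma hasFDerivAt_shadow (L : T ≃ₗᵢ[ℝ] Euc m) (hD : IsIntegralVarifoldIn U D) (i : ℕ) (a : Euc m) :
    HasFDerivAt (fun a => L (px T x0 (D.chart i a))) (shd T L D i a) a := by
  have hfd : HasFDerivAt (D.chart i) (fderiv ℝ (D.chart i) a) a :=
    ((hD.contDiff i).differentiable (by norm_num) a).hasFDerivAt
  have hx : HasFDerivAt (fun a => px T x0 (D.chart i a))
      (T.orthogonalProjectionOnto ∘L fderiv ℝ (D.chart i) a) a :=
    T.orthogonalProjectionOnto.hasFDerivAt.comp a (hfd.sub_const x0)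
  exact (L : T ≃L[ℝ] Euc m).hasFDerivAt.comp a hx

lemma RS_image (L : T ≃ₗᵢ[ℝ] Euc m) (D : VarifoldData m k) (i : ℕ) (S : Set (Euc k)) :
    (fun a => L (px T x0 (D.chart i a))) '' (AS T x0 r s u D i S) =
      L '' (RS T x0 r s u D i S) := by
  unfold RS
  rw [← image_comp]
  rfl

lemma RS_measurable (hT : Module.finrank ℝ T = m) (hD : IsIntegralVarifoldIn U D)
    (hu : ContinuousOn u (ball 0 r)) (i : ℕ)
    {S : Set (Euc k)} (hS : MeasurableSet S) : MeasurableSet (RS T x0 r s u D i S) := by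
  let L : T ≃ₗᵢ[ℝ] Euc m := ((stdOrthonormalBasis ℝ T).reindex (finCongr hT)).repr
  have h1 : MeasurableSet (L '' (RS T x0 r s u D i S)) := by
    rw [← RS_image]
    refine measurable_image_of_fderivWithin (AS_measurable T x0 r s u hD hu i hS)
      (fun a _ => (hasFDerivAt_shadow T x0 L hD i a).hasFDerivWithinAt) ?_
    intro a ha b hb hab
    exact px_injOn T x0 r s u hD i S ha hb (L.injective hab)
  have h2 : RS T x0 r s u D i S = L ⁻¹' (L '' (RS T x0 r s u D i S)) :=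
    (preimage_image_eq _ L.injective).symm
  rw [h2]
  exact L.continuous.measurable h1

/-- the weight of a piece on the graph -/
theorem wi_graph (hT : Module.finrank ℝ T = m) (hD : IsIntegralVarifoldIn U D)
    (hder : ∀ z ∈ ball (0 : T) r, HasFDerivAt u (g z) z) {Q : ℕ} (i : ℕ)
    (hmult : ∀ᵐ a ∂(volume.restrict (D.dom i)), D.chart i a ∈ cyl T x0 r s → D.mult i a = Q)
    {S : Set (Euc k)} (hS : MeasurableSet S) :
    wi D i (S ∩ grf T x0 u r s) =
      ∫⁻ x in RS T x0 r s u D i S, (Q : ℝ≥0∞) * ENNReal.ofReal (dns (g x)) := by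
  have hu : ContinuousOn u (ball 0 r) := fun z hz => (hder z hz).continuousAt.continuousWithinAt
  let L : T ≃ₗᵢ[ℝ] Euc m := ((stdOrthonormalBasis ℝ T).reindex (finCongr hT)).repr
  have hc : Measurable (D.chart i) := (hD.contDiff i).continuous.measurable
  have hSg : MeasurableSet (S ∩ grf T x0 u r s) := hS.inter (grf_measurable T x0 r s u hu)
  have hAm := AS_measurable T x0 r s u hD hu i hS
  -- change of variables
  have hcv := lintegral_image_eq_lintegral_abs_det_fderiv_mul (volume : Measure (Euc m)) hAm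
    (fun a _ => (hasFDerivAt_shadow T x0 L hD i a).hasFDerivWithinAt)
    (fun a ha b hb hab => px_injOn T x0 r s u hD i S ha hb (L.injective hab))
    (fun y => (Q : ℝ≥0∞) * ENNReal.ofReal (dns (g (L.symm y))))
  rw [RS_image] at hcv
  -- transfer to `T`
  have hmp : MeasurePreserving L (volume : Measure T) (volume : Measure (Euc m)) :=
    L.measurePreserving
  have htr : ∫⁻ y in L '' (RS T x0 r s u D i S),
      (Q : ℝ≥0∞) * ENNReal.ofReal (dns (g (L.symm y))) =
      ∫⁻ x in RS T x0 r s u D i S, (Q : ℝ≥0∞) * ENNReal.ofReal (dns (g x)) := by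
    rw [← hmp.setLIntegral_comp_emb L.toHomeomorph.measurableEmbedding]
    simp
  rw [← htr, hcv]
  unfold wi
  rw [Measure.map_apply hc hSg, withDensity_apply _ (hc hSg), Measure.restrict_restrict (hc hSg)]
  have h0 : D.chart i ⁻¹' (S ∩ grf T x0 u r s) ∩ D.dom i = AS T x0 r s u D i S := by
    unfold AS; rw [inter_comm]
  rw [h0]
  refine setLIntegral_congr_fun_ae hAm ?_
  have hv := vert_eq T x0 r s u g hD hder i
  rw [ae_restrict_iff' (hD.measurableSet i)] at hv hmult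
  filter_upwards [hv, hmult] with a h1 h2 ha
  have h3 := h1 ha.1 ha.2.2
  have h4 := h2 ha.1 ha.2.2.1
  have h5 := jac_eq T L (D.chart i) a (g (px T x0 (D.chart i a))) h3
  rw [h4, h5]
  simp only [LinearIsometryEquiv.symm_apply_apply]
  have h6 : (shd T L D i a) =
      (L : T →L[ℝ] Euc m) ∘L (T.orthogonalProjectionOnto ∘L fderiv ℝ (D.chart i) a) := rfl
  rw [h6, ENNReal.ofReal_mul (by positivity), ENNReal.ofReal_mul (dns_pos _).le,
    ENNReal.ofReal_natCast]
  ring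

/-- the weight in the cylinder, over Borel sets -/
theorem weight_graph (hT : Module.finrank ℝ T = m) (hD : IsIntegralVarifoldIn U D)
    (hder : ∀ z ∈ ball (0 : T) r, HasFDerivAt u (g z) z)
    {Q : ℕ}
    (hnull : weight D (cyl T x0 r s \ grf T x0 u r s) = 0)
    (hmult : ∀ i, ∀ᵐ a ∂(volume.restrict (D.dom i)),
      D.chart i a ∈ cyl T x0 r s → D.mult i a = Q)
    {S : Set (Euc k)} (hS : MeasurableSet S) :
    weight D (S ∩ cyl T x0 r s) =
      ∫⁻ x in (⋃ i, RS T x0 r s u D i univ) ∩ gmap T x0 u ⁻¹' S,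
        (Q : ℝ≥0∞) * ENNReal.ofReal (dns (g x)) := by
  have hu : ContinuousOn u (ball 0 r) := fun z hz => (hder z hz).continuousAt.continuousWithinAt
  have hgm := grf_measurable T x0 r s u hu
  have h1 : weight D (S ∩ cyl T x0 r s) = weight D (S ∩ grf T x0 u r s) := by
    apply le_antisymm
    · have h2 : S ∩ cyl T x0 r s ⊆ (S ∩ grf T x0 u r s) ∪ (cyl T x0 r s \ grf T x0 u r s) := by
        intro p hp
        by_cases h : p ∈ grf T x0 u r s
        · exact Or.inl ⟨hp.1, h⟩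
        · exact Or.inr ⟨hp.2, h⟩
      refine (measure_mono h2).trans ((measure_union_le _ _).trans ?_)
      rw [hnull, add_zero]
    · exact measure_mono (inter_subset_inter_right _ (fun p hp => hp.1))
  rw [h1, weight_eq, Measure.sum_apply _ (hS.inter hgm)]
  have h3 : (⋃ i, RS T x0 r s u D i univ) ∩ gmap T x0 u ⁻¹' S = ⋃ i, RS T x0 r s u D i S := by
    rw [iUnion_inter]
    exact iUnion_congr fun i => (RS_eq T x0 r s u D i S).symm
  rw [h3, lintegral_iUnion (fun i => RS_measurable T x0 r s u hT hD hu i hS)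
    (fun i j hij => RS_disjoint T x0 r s u hD hij S)]
  exact tsum_congr fun i => wi_graph T x0 r s u g hT hD hder i (hmult i) hS

end

end Crest.Agent.R234.Ar2_3
end

-- ▼ part R234/Ar3_3
section

/-!
R234 (helper3), VF-AREAID part 3: the shadow of the pieces has full measure, final form
`area_id` and **`allard_end`**: graph + multiplicity `Q` + lower density ==> regular.
-/

open MeasureTheory Metric Set Filter Topology
open scoped ContDiff NNReal ENNReal
open Crest.GeometryTopology.Submanifold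

namespace Crest.Agent.R234.Ar3_3

noncomputable section

set_option linter.unusedSectionVars false

open Crest.Agent.R234.Ell1_3 Crest.Agent.R234.Ell2_3 Crest.Agent.R234.Ell3_3
open Crest.Agent.R234.Ell4_3 Crest.Agent.R234.Ell6_3 Crest.Agent.R234.Ar1_3
open Crest.Agent.R234.Ar2_3

variable {m k : ℕ}

variable (T : Submodule ℝ (Euc k)) (x0 : Euc k) (r s : ℝ) (u : T → Tᗮ) (g : T → T →L[ℝ] Tᗮ)

variable {U : Set (Euc k)} {D : VarifoldData m k}

lemma shadow_full (hT : Module.finrank ℝ T = m) (hD : IsIntegralVarifoldIn U D)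
    (hder : ∀ z ∈ ball (0 : T) r, HasFDerivAt u (g z) z) (hg : ContinuousOn g (ball 0 r))
    (hus : ∀ z ∈ ball (0 : T) r, ‖u z‖ < s)
    {Q : ℕ}
    (hnull : weight D (cyl T x0 r s \ grf T x0 u r s) = 0)
    (hmult : ∀ i, ∀ᵐ a ∂(volume.restrict (D.dom i)),
      D.chart i a ∈ cyl T x0 r s → D.mult i a = Q)
    (hlow : ∀ p ∈ grf T x0 u r s, ∃ c : ℝ, 0 < c ∧
      ∀ᶠ ρ in 𝓝[>] (0 : ℝ), ENNReal.ofReal (c * ρ ^ m) ≤ weight D (ball p ρ)) :
    volume (ball (0 : T) r \ ⋃ i, RS T x0 r s u D i univ) = 0 := by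
  have hu : ContinuousOn u (ball 0 r) := fun z hz => (hder z hz).continuousAt.continuousWithinAt
  set R : Set T := ⋃ i, RS T x0 r s u D i univ with hR
  have hRm : MeasurableSet R :=
    MeasurableSet.iUnion fun i => RS_measurable T x0 r s u hT hD hu i MeasurableSet.univ
  have hdens := Besicovitch.ae_tendsto_measure_inter_div_of_measurableSet (volume : Measure T) hRm
  rw [← compl_compl (ball (0 : T) r \ R)] 
  rw [← mem_ae_iff]
  filter_upwards [hdens] with x hx hxN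
  have hxb : x ∈ ball (0 : T) r := hxN.1
  have hxR : x ∉ R := hxN.2
  rw [indicator_of_notMem hxR] at hx
  -- the point of the graph
  set p := gmap T x0 u x with hp
  have hpg : p ∈ grf T x0 u r s := gmap_mem_grf T x0 r s u hxb (hus x hxb)
  obtain ⟨c, hc, hlc⟩ := hlow p hpg
  -- bound of the density near `x`
  have hgc : ContinuousAt g x := hg.continuousAt (isOpen_ball.mem_nhds hxb)
  have hdc : ContinuousAt (fun y => dns (g y)) x :=
    (dns_contDiff.continuous.continuousAt).comp hgc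
  set C : ℝ := dns (g x) + 1 with hC
  have hCpos : 0 < C := by have := dns_pos (g x); positivity
  have hev : ∀ᶠ y in 𝓝 x, dns (g y) < C := hdc.eventually (gt_mem_nhds (by linarith))
  obtain ⟨ρ₀, hρ₀, hball⟩ := Metric.eventually_nhds_iff_ball.1 hev
  obtain ⟨ρ₁, hρ₁, hcylρ⟩ := Metric.isOpen_iff.1 (cyl_isOpen T x0 r s) p hpg.1
  -- the upper bound of the weight of small balls
  have hup : ∀ᶠ ρ in 𝓝[>] (0 : ℝ), weight D (ball p ρ) ≤
      ((Q : ℝ≥0∞) * ENNReal.ofReal C) * volume (R ∩ closedBall x ρ) := by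
    have e1 : ∀ᶠ ρ in 𝓝[>] (0 : ℝ), ρ < min ρ₀ ρ₁ :=
      (eventually_lt_nhds (lt_min hρ₀ hρ₁)).filter_mono nhdsWithin_le_nhds
    filter_upwards [e1] with ρ hρ
    have h1 : ball p ρ = ball p ρ ∩ cyl T x0 r s := by
      rw [inter_eq_left.2]
      exact (ball_subset_ball (hρ.le.trans (min_le_right _ _))).trans hcylρ
    rw [h1, weight_graph T x0 r s u g hT hD hder hnull hmult measurableSet_ball]
    have hsub : R ∩ gmap T x0 u ⁻¹' (ball p ρ) ⊆ R ∩ closedBall x ρ := by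
      rintro y ⟨hy, hy2⟩
      refine ⟨hy, ?_⟩
      have h2 : ‖gmap T x0 u y - gmap T x0 u x‖ < ρ := by
        have : gmap T x0 u y ∈ ball p ρ := hy2
        rwa [mem_ball, dist_eq_norm] at this
      have h3 : ‖y - x‖ ≤ ‖gmap T x0 u y - gmap T x0 u x‖ := by
        have h4 : y - x = T.orthogonalProjectionOnto (gmap T x0 u y - gmap T x0 u x) := by
          have h5 : gmap T x0 u y - gmap T x0 u x =
              ((y - x : T) : Euc k) + ((u y - u x : Tᗮ) : Euc k) := by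
            unfold gmap; push_cast; abel
          have h6 := px_gmap T 0 (y - x) (u y - u x)
          unfold px at h6
          rw [zero_add, sub_zero] at h6
          rw [h5, h6]
        rw [h4]
        exact (T.orthogonalProjectionOnto.le_opNorm _).trans
          (mul_le_of_le_one_left (norm_nonneg _) T.orthogonalProjectionOnto_norm_le)
      rw [mem_closedBall, dist_eq_norm]
      linarith
    refine (lintegral_mono_set hsub).trans ?_
    have h7 : ∫⁻ y in R ∩ closedBall x ρ, (Q : ℝ≥0∞) * ENNReal.ofReal (dns (g y)) ≤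
        ∫⁻ _ in R ∩ closedBall x ρ, (Q : ℝ≥0∞) * ENNReal.ofReal C := by
      refine setLIntegral_mono_ae' (hRm.inter measurableSet_closedBall) ?_
      refine Filter.Eventually.of_forall fun y hy => ?_
      have h8 : y ∈ ball x ρ₀ := by
        have := hy.2
        rw [mem_closedBall] at this
        rw [mem_ball]
        exact lt_of_le_of_lt this (hρ.trans_le (min_le_left _ _))
      gcongr
      exact (hball y h8).le
    refine h7.trans ?_
    rw [setLIntegral_const]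
  -- contradiction
  set vb : ℝ≥0∞ := volume (ball (0 : T) 1) with hvb
  have hvb0 : vb ≠ 0 := (measure_ball_pos _ _ one_pos).ne'
  have hvb1 : vb ≠ ⊤ := measure_ball_lt_top.ne
  set K : ℝ≥0∞ := ((Q : ℝ≥0∞) * ENNReal.ofReal C) * vb with hK
  have hK1 : K ≠ ⊤ := by
    refine ENNReal.mul_ne_top (ENNReal.mul_ne_top (ENNReal.natCast_ne_top _)
      ENNReal.ofReal_ne_top) hvb1
  have hlim : Tendsto (fun ρ => K * (volume (R ∩ closedBall x ρ) / volume (closedBall x ρ)))
      (𝓝[>] 0) (𝓝 (K * 0)) := ENNReal.Tendsto.const_mul hx (Or.inr hK1)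
  rw [mul_zero] at hlim
  have hev2 : ∀ᶠ ρ in 𝓝[>] (0 : ℝ), ENNReal.ofReal c ≤
      K * (volume (R ∩ closedBall x ρ) / volume (closedBall x ρ)) := by
    filter_upwards [hlc, hup, self_mem_nhdsWithin] with ρ h1 h2 hρ
    have hρ0 : (0 : ℝ) < ρ := hρ
    have hvol : volume (closedBall x ρ) = ENNReal.ofReal (ρ ^ m) * vb := by
      rw [Measure.addHaar_closedBall _ _ hρ0.le, hT]
    have hv0 : ENNReal.ofReal (ρ ^ m) ≠ 0 := (ENNReal.ofReal_pos.2 (by positivity)).ne'
    have hv1 : ENNReal.ofReal (ρ ^ m) ≠ ⊤ := ENNReal.ofReal_ne_top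
    have h3 := h1.trans h2
    rw [ENNReal.ofReal_mul hc.le] at h3
    have h4 : K * (volume (R ∩ closedBall x ρ) / volume (closedBall x ρ)) =
        ((Q : ℝ≥0∞) * ENNReal.ofReal C) * volume (R ∩ closedBall x ρ) /
          ENNReal.ofReal (ρ ^ m) := by
      rw [hvol, hK, ENNReal.div_eq_inv_mul, ENNReal.div_eq_inv_mul,
        ENNReal.mul_inv (Or.inl hv0) (Or.inl hv1)]
      have h5 : vb * vb⁻¹ = 1 := ENNReal.mul_inv_cancel hvb0 hvb1
      calc ((Q : ℝ≥0∞) * ENNReal.ofReal C) * vb *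
            ((ENNReal.ofReal (ρ ^ m))⁻¹ * vb⁻¹ * volume (R ∩ closedBall x ρ))
          = (vb * vb⁻¹) * ((ENNReal.ofReal (ρ ^ m))⁻¹ *
            (((Q : ℝ≥0∞) * ENNReal.ofReal C) * volume (R ∩ closedBall x ρ))) := by ring
        _ = _ := by rw [h5, one_mul]
    rw [h4, ENNReal.le_div_iff_mul_le (Or.inl hv0) (Or.inl hv1)]
    exact h3
  have h9 : ENNReal.ofReal c ≤ 0 := ge_of_tendsto hlim hev2
  have h10 : (0 : ℝ≥0∞) < ENNReal.ofReal c := ENNReal.ofReal_pos.2 hc
  exact absurd h9 (not_le.2 h10)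

/-- **Area identification.** -/
theorem area_id (hT : Module.finrank ℝ T = m) (hD : IsIntegralVarifoldIn U D)
    (hder : ∀ z ∈ ball (0 : T) r, HasFDerivAt u (g z) z) (hg : ContinuousOn g (ball 0 r))
    (hus : ∀ z ∈ ball (0 : T) r, ‖u z‖ < s)
    {Q : ℕ}
    (hnull : weight D (cyl T x0 r s \ grf T x0 u r s) = 0)
    (hmult : ∀ i, ∀ᵐ a ∂(volume.restrict (D.dom i)),
      D.chart i a ∈ cyl T x0 r s → D.mult i a = Q)
    (hlow : ∀ p ∈ grf T x0 u r s, ∃ c : ℝ, 0 < c ∧
      ∀ᶠ ρ in 𝓝[>] (0 : ℝ), ENNReal.ofReal (c * ρ ^ m) ≤ weight D (ball p ρ)) :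
    (weight D).restrict (cyl T x0 r s) = (Q : ℝ≥0∞) • gmeas T x0 u g r := by
  have hu : ContinuousOn u (ball 0 r) := fun z hz => (hder z hz).continuousAt.continuousWithinAt
  set R : Set T := ⋃ i, RS T x0 r s u D i univ with hR
  have hRb : R ⊆ ball 0 r := iUnion_subset fun i => RS_subset T x0 r s u D i univ
  have hfull := shadow_full T x0 r s u g hT hD hder hg hus hnull hmult hlow
  have hRm : MeasurableSet R :=
    MeasurableSet.iUnion fun i => RS_measurable T x0 r s u hT hD hu i MeasurableSet.univ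
  have hae : R =ᵐ[volume] ball (0 : T) r := by
    refine (LE.le.eventuallyLE hRb).antisymm ?_
    rw [ae_le_set]; exact hfull
  have hres : (volume : Measure T).restrict (ball 0 r) = (volume : Measure T).restrict R :=
    (Measure.restrict_congr_set hae).symm
  have hmeas : AEMeasurable (fun x => ENNReal.ofReal (dns (g x)))
      (volume.restrict (ball (0 : T) r)) :=
    ((dns_contDiff.continuous.comp_continuousOn hg).aemeasurable
      measurableSet_ball).ennreal_ofReal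
  ext S hS
  rw [Measure.restrict_apply hS, weight_graph T x0 r s u g hT hD hder hnull hmult hS,
    Measure.smul_apply, smul_eq_mul]
  unfold gmeas
  rw [Measure.map_apply_of_aemeasurable (gmap_aemeasurable T x0 r u g hu) hS,
    withDensity_apply' _ _]
  have hnm : NullMeasurableSet (gmap T x0 u ⁻¹' S) ((volume : Measure T).restrict R) := by
    have h1 : AEMeasurable (gmap T x0 u) (volume.restrict (ball (0 : T) r)) :=
      (gmap_continuousOn T x0 r u hu).aemeasurable measurableSet_ball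
    rw [hres] at h1
    exact h1.nullMeasurableSet_preimage hS
  rw [hres, Measure.restrict_restrict₀ hnm, inter_comm (gmap T x0 u ⁻¹' S) R]
  rw [lintegral_const_mul' _ _ (ENNReal.natCast_ne_top _)]

/-- **End of Allard's theorem for integral varifolds**: there is `p₀ = p₀(m,k,α) > 0` such that a
`C^{1,α}` graph with gradient `< p₀` that carries a stationary integral varifold in a cylinder,
with multiplicity `Q ≥ 1` almost everywhere and positive lower density along the graph, consists of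
regular points. -/
theorem allard_end (m k : ℕ) {α : ℝ} (hα : 0 < α) (hα1 : α < 1) :
    ∃ p₀ > 0, ∀ (U : Set (Euc k)) (D : VarifoldData m k), IsIntegralVarifoldIn U D →
      IsStationaryIn U D → ∀ (T : Submodule ℝ (Euc k)), Module.finrank ℝ T = m →
      ∀ (x0 : Euc k) (r s : ℝ) (u : T → Tᗮ) (g : T → T →L[ℝ] Tᗮ),
      (∀ z ∈ ball (0 : T) r, HasFDerivAt u (g z) z) →
      (∀ x ∈ ball (0 : T) r, ∃ ρ > 0, ∃ K, ∀ z ∈ ball x ρ, ∀ z' ∈ ball x ρ,
        ‖g z - g z'‖ ≤ K * ‖z - z'‖ ^ α) →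
      (∀ z ∈ ball (0 : T) r, ‖g z‖ < p₀) →
      (∀ z ∈ ball (0 : T) r, ‖u z‖ < s) → cyl T x0 r s ⊆ U →
      weight D (cyl T x0 r s \ grf T x0 u r s) = 0 →
      ∀ (Q : ℕ), 1 ≤ Q →
      (∀ i, ∀ᵐ a ∂(volume.restrict (D.dom i)), D.chart i a ∈ cyl T x0 r s → D.mult i a = Q) →
      (∀ p ∈ grf T x0 u r s, ∃ c : ℝ, 0 < c ∧
        ∀ᶠ ρ in 𝓝[>] (0 : ℝ), ENNReal.ofReal (c * ρ ^ m) ≤ weight D (ball p ρ)) →
      ContDiffOn ℝ ∞ u (ball 0 r) ∧ ∀ p ∈ cyl T x0 r s, p ∉ singularSet m k U D := by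
  obtain ⟨p₀, hp, H⟩ := regular_of_graph m k hα hα1
  refine ⟨p₀, hp, ?_⟩
  intro U D hD hst T hT x0 r s u g hder hhol hsm hus hW hnull Q hQ hmult hlow
  have hg : ContinuousOn g (ball 0 r) := by
    intro x hx
    obtain ⟨ρ, hρ, K, hK⟩ := hhol x hx
    exact (Crest.Agent.R246.H2x622.continuousAt_of_hol (W := T →L[ℝ] Tᗮ) (g := g) (x := x)
      hα hρ hK).continuousWithinAt
  refine H U D hD hst T hT x0 r s u g hder hhol hsm hus hW Q ?_ (ENNReal.natCast_ne_top _)
    (area_id T x0 r s u g hT hD hder hg hus hnull hmult hlow)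
  exact_mod_cast (by omega : Q ≠ 0)

end

end Crest.Agent.R234.Ar3_3
end

-- ▼ part R234/Ae1_3
section

/-!
R234 (helper3), VF-ALEND: from the graph data of 182 (`Al5_182.GraphData`) for the support of an
integral stationary varifold with density in `[Q, Q+1)` to regular points.

* `weight_support_compl` : the complement of the support has weight zero;
* `mult_eq` : multiplicity `= Q` a.e. in the cylinder when the density is in `[Q, Q+1)`;
* `end_of_graphData`: no singular point in the cylinder.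
-/

open MeasureTheory Metric Set Filter Topology
open scoped ContDiff NNReal ENNReal
open Crest.GeometryTopology.Submanifold

namespace Crest.Agent.R234.Ae1_3

noncomputable section

open Crest.Agent.R234.Ell3_3
open Crest.Agent.R234.Vf_884

variable {m k : ℕ}

/-- The complement of the support is a null set. -/
theorem weight_support_compl (D : VarifoldData m k) : weight D (support D)ᶜ = 0 := by
  refine measure_null_of_locally_null _ fun p hp => ?_
  have h1 : ∃ ρ > 0, weight D (ball p ρ) = 0 := by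
    by_contra hcon
    push Not at hcon
    exact hp fun ρ hρ => pos_iff_ne_zero.2 (hcon ρ hρ)
  obtain ⟨ρ, hρ, h0⟩ := h1
  exact ⟨ball p ρ, mem_nhdsWithin_of_mem_nhds (ball_mem_nhds p hρ), h0⟩

/-- almost every point (of a chart domain) is mapped into the support. -/
theorem chart_mem_support {U : Set (Euc k)} {D : VarifoldData m k}
    (hD : IsIntegralVarifoldIn U D) (i : ℕ) :
    ∀ᵐ a ∂(volume.restrict (D.dom i)), D.chart i a ∈ support D := by
  refine ae_of_weight hD (hD.measurableSet i) subset_rfl ?_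
  refine ae_restrict_of_ae ?_
  rw [ae_iff]
  exact weight_support_compl D

/-- Density in `[Q, Q+1)` at the support points of `W` forces multiplicity `Q` a.e. over `W`. -/
theorem mult_eq {U : Set (Euc k)} {D : VarifoldData m k} (hU : IsOpen U) (hm : 1 ≤ m)
    (hD : IsIntegralVarifoldIn U D) (hs : IsStationaryIn U D) {W : Set (Euc k)} {Q : ℕ}
    (h1 : ∀ p ∈ support D ∩ W, (Q : ℝ≥0∞) ≤ Th m (VD D) p)
    (h2 : ∀ p ∈ support D ∩ W, Th m (VD D) p < (Q : ℝ≥0∞) + 1) (i : ℕ) :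
    ∀ᵐ a ∂(volume.restrict (D.dom i)), D.chart i a ∈ W → D.mult i a = Q := by
  filter_upwards [Th_VD_ae hD hs hm hU i, chart_mem_support hD i] with a ha hsup haW
  have h3 := h1 _ ⟨hsup, haW⟩
  have h4 := h2 _ ⟨hsup, haW⟩
  rw [ha] at h3 h4
  have h5 : Q ≤ D.mult i a := by exact_mod_cast h3
  have h6 : D.mult i a < Q + 1 := by exact_mod_cast h4
  omega

/-- **No singular points over the graph data of 182**: `S` is any set between the part of the
support in the cylinder and the support. -/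
theorem end_of_graphData (m k : ℕ) (hm : 1 ≤ m) {α : ℝ} (hα : 0 < α) (hα1 : α < 1) :
    ∃ p₀ > 0, ∀ (U : Set (Euc k)) (D : VarifoldData m k), IsOpen U → IsIntegralVarifoldIn U D →
      IsStationaryIn U D → ∀ (T : Submodule ℝ (Euc k)), Module.finrank ℝ T = m →
      ∀ (x0 : Euc k) (r s Λ K : ℝ) (S : Set (Euc k)) (u : T → Tᗮ) (g : T → T →L[ℝ] Tᗮ),
      Al5_182.GraphData T S x0 u g r s Λ K α → 2 * Λ < p₀ →
      S ⊆ support D → support D ∩ cyl T x0 r s ⊆ S → cyl T x0 r s ⊆ U →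
      ∀ (Q : ℕ), 1 ≤ Q →
      (∀ i, ∀ᵐ a ∂(volume.restrict (D.dom i)), D.chart i a ∈ cyl T x0 r s → D.mult i a = Q) →
      ContDiffOn ℝ ∞ u (ball 0 r) ∧ ∀ p ∈ cyl T x0 r s, p ∉ singularSet m k U D := by
  obtain ⟨p₀, hp, H⟩ := Ar3_3.allard_end m k hα hα1
  refine ⟨p₀, hp, ?_⟩
  intro U D hU hD hst T hT x0 r s Λ K S u g hG hΛ hS1 hS2 hW Q hQ hmult
  refine H U D hD hst T hT x0 r s u g hG.der ?_ (fun z hz => (hG.le z hz).trans_lt hΛ) hG.lt hW
    ?_ Q hQ hmult ?_
  · intro x hx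
    obtain ⟨ρ, hρ, hsub⟩ := Metric.isOpen_iff.1 isOpen_ball x hx
    exact ⟨ρ, hρ, K, fun z hz z' hz' => hG.hol z (hsub hz) z' (hsub hz')⟩
  · refine measure_mono_null ?_ (weight_support_compl D)
    rintro p ⟨hpc, hpg⟩ hps
    refine hpg ⟨hpc, ?_⟩
    exact hG.eq p (hS2 ⟨hps, hpc⟩) hpc.1 hpc.2
  · intro p hp
    have hpS : p ∈ support D := by
      have h1 := hG.mem (px T x0 p) hp.1.1
      have h2 : x0 + (((px T x0 p : T) : Euc k) + ((u (px T x0 p) : Tᗮ) : Euc k)) = p := by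
        rw [← hp.2]
        exact (split T x0 p).symm
      rw [h2] at h1
      exact hS1 h1
    obtain ⟨ρ₀, hρ₀, hsub⟩ := Metric.isOpen_iff.1 hU p (hW hp.1)
    refine ⟨ome m, ome_pos m, ?_⟩
    filter_upwards [Ioo_mem_nhdsGT hρ₀] with ρ hρ
    exact le_weight_ball hD hst hm hU hρ.1 ((ball_subset_ball hρ.2.le).trans hsub) hpS

/-- The same, with the density hypothesis `Q ≤ Th < Q + 1` at the support points of the
cylinder. -/
theorem end_of_graphData' (m k : ℕ) (hm : 1 ≤ m) {α : ℝ} (hα : 0 < α) (hα1 : α < 1) :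
    ∃ p₀ > 0, ∀ (U : Set (Euc k)) (D : VarifoldData m k), IsOpen U → IsIntegralVarifoldIn U D →
      IsStationaryIn U D → ∀ (T : Submodule ℝ (Euc k)), Module.finrank ℝ T = m →
      ∀ (x0 : Euc k) (r s Λ K : ℝ) (S : Set (Euc k)) (u : T → Tᗮ) (g : T → T →L[ℝ] Tᗮ),
      Al5_182.GraphData T S x0 u g r s Λ K α → 2 * Λ < p₀ →
      S ⊆ support D → support D ∩ cyl T x0 r s ⊆ S → cyl T x0 r s ⊆ U →
      ∀ (Q : ℕ), 1 ≤ Q →
      (∀ p ∈ support D ∩ cyl T x0 r s, (Q : ℝ≥0∞) ≤ Th m (VD D) p) →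
      (∀ p ∈ support D ∩ cyl T x0 r s, Th m (VD D) p < (Q : ℝ≥0∞) + 1) →
      ContDiffOn ℝ ∞ u (ball 0 r) ∧ ∀ p ∈ cyl T x0 r s, p ∉ singularSet m k U D := by
  obtain ⟨p₀, hp, H⟩ := end_of_graphData m k hm hα hα1
  refine ⟨p₀, hp, ?_⟩
  intro U D hU hD hst T hT x0 r s Λ K S u g hG hΛ hS1 hS2 hW Q hQ hlo hhi
  exact H U D hU hD hst T hT x0 r s Λ K S u g hG hΛ hS1 hS2 hW Q hQ
    (mult_eq hU hm hD hst hlo hhi)

end

end Crest.Agent.R234.Ae1_3
end

-- ▼ part R234/Al9_182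

/-!
R234 (helper182), VF-ALLARD part 9: Allard's theorem for the frozen integral stationary varifolds.

* `allard`: mass ratio `≤ Q + ε`, density `≥ Q` on the support, support `ε`-close to a plane at one
  scale ==> the point is regular;
* `regular_of_not_NF`: `x` in the support, not in `NF` (flat at arbitrarily small scales), density
  `≤ Q` at `x` and `≥ Q` on the support near `x` ==> `x` is regular;
* `hone`: the case `Q = 1`.
-/

set_option autoImplicit false

open MeasureTheory Metric Set Filter Topology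
open Crest.GeometryTopology.Submanifold
open scoped ENNReal RealInnerProductSpace

namespace Crest.Agent.R234.Al9_182

open Crest.Agent.R234.Vf_884 Crest.Agent.R234.Al7_182 Crest.Agent.R234.Al8_182
open Crest.Agent.R234.Strat3_842

noncomputable section

variable {m k : ℕ}

theorem isClosed_support (D : VarifoldData m k) : IsClosed (support D) :=
  Cp914.isClosed_spt (weight D)

theorem ae_mem_support {U : Set (Euc k)} {D : VarifoldData m k} (hD : IsIntegralVarifoldIn U D) :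
    ∀ᵐ p ∂(VD D), p.1 ∈ support D := by
  have h1 := ae_mem_spt (VD D)
  rw [mass_VD hD] at h1
  exact h1

theorem cyl_subset_ball (T : Submodule ℝ (Euc k)) (x0 : Euc k) {r s R : ℝ} (h : r + s ≤ R) :
    Ell3_3.cyl T x0 r s ⊆ ball x0 R := by
  rintro p ⟨h1, h2⟩
  rw [mem_ball_zero_iff] at h1 h2
  rw [mem_ball, dist_eq_norm]
  have h3 := Al5_182.norm_le_hx_hy T (p - x0)
  exact h3.trans_lt ((add_lt_add h1 h2).trans_le h)

/-- **Allard's regularity theorem** for integral stationary varifolds, density `≥ Q`, mass ratio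
close to `Q`, support close to a plane. -/
theorem allard (m k : ℕ) (hm : 1 ≤ m) (Q : ℕ) (hQ : 1 ≤ Q) :
    ∃ ε : ℝ, 0 < ε ∧ ∀ (U : Set (Euc k)) (D : VarifoldData m k), IsOpen U →
      IsIntegralVarifoldIn U D → IsStationaryIn U D → ∀ x0 ∈ support D, ∀ r : ℝ, 0 < r →
      ball x0 r ⊆ U → ∀ T : Submodule ℝ (Euc k), Module.finrank ℝ T = m →
      (∀ y ∈ support D, y ∈ ball x0 r → ‖Tᗮ.starProjection (y - x0)‖ ≤ ε * r) →
      (∀ y ∈ support D, y ∈ ball x0 r → (Q : ℝ≥0∞) ≤ Th m (VD D) y) →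
      rat m (VD D) x0 r ≤ (Q : ℝ≥0∞) + ENNReal.ofReal ε → x0 ∉ singularSet m k U D := by
  obtain ⟨p₀, hp₀, H⟩ := Ae1_3.end_of_graphData' m k hm (α := 1 / 2) (by norm_num) (by norm_num)
  have hQ1 : (1 : ℝ) ≤ Q := by exact_mod_cast hQ
  have hQ0 : (0 : ℝ) < Q := by linarith
  obtain ⟨c, hc, hc96, ε, hε, Λ, hΛ, hΛ₀, G⟩ := graph_of_flat m hm (α := 1 / 2) (Λ₀ := p₀ / 3)
    (τ := 1 / (2 * Q)) (by norm_num) (by norm_num) (by positivity) (by positivity)
  refine ⟨ε, hε, ?_⟩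
  intro U D hU hD hst x0 hx0 r hr hrU T hT hflat hTh hrat
  have hV := stat_VD hD hst
  have hQe : ENNReal.ofReal (Q : ℝ) = (Q : ℝ≥0∞) := ENNReal.ofReal_natCast Q
  obtain ⟨hup, u, g, K, hg⟩ := G hV (isClosed_support D)
    ((ae_mem_support hD).mono fun p hp _ => hp) (x0 := x0) (r := r) (Q := Q) (T := T) hx0 hr hrU
    hQ0 hT (fun x hx hxb => by rw [hQe]; exact hTh x hx hxb)
    (hrat.trans (by
      rw [← hQe, ← ENNReal.ofReal_add hQ0.le hε.le]
      refine ENNReal.ofReal_le_ofReal ?_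
      nlinarith)) hflat
  have hsub : Ell3_3.cyl T x0 (c * r) (6 * c * r) ⊆ ball x0 (12 * c * r) :=
    cyl_subset_ball T x0 (by nlinarith)
  have hsub2 : ball x0 (12 * c * r) ⊆ ball x0 r := ball_subset_ball (by nlinarith)
  have h1 := (H U D hU hD hst T hT x0 (c * r) (6 * c * r) Λ K (support D) u g hg (by linarith)
    Subset.rfl inter_subset_left (hsub.trans (hsub2.trans hrU)) Q hQ
    (fun p hp => hTh p hp.1 (hsub2 (hsub hp.2)))
    (fun p hp => by
      refine (hup p (hsub hp.2)).trans_lt ?_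
      rw [← hQe, ← ENNReal.ofReal_one, ← ENNReal.ofReal_add hQ0.le zero_le_one]
      refine (ENNReal.ofReal_lt_ofReal_iff (by linarith)).2 ?_
      have : (1 + 1 / (2 * (Q : ℝ))) * Q = Q + 1 / 2 := by field_simp
      rw [this]
      linarith)).2
  refine h1 x0 ⟨?_, ?_⟩
  · have : Ell3_3.px T x0 x0 = 0 := by simp [Ell3_3.px]
    rw [this]
    exact mem_ball_self (by positivity)
  · have : Ell3_3.py T x0 x0 = 0 := by simp [Ell3_3.py]
    rw [this]
    exact mem_ball_self (by positivity)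

/-- an element of the Grassmannian is the projection onto its range -/
theorem exists_plane {P : L k} (hP : P ∈ G m k) :
    ∃ T : Submodule ℝ (Euc k), Module.finrank ℝ T = m ∧ T.starProjection = P := by
  have h1 : (LinearMap.range P.toLinearMap).starProjection = P := by
    ext1 x
    refine Submodule.eq_starProjection_of_mem_orthogonal ⟨x, rfl⟩ ?_
    rw [Submodule.mem_orthogonal]
    rintro _ ⟨y, rfl⟩
    have h2 := G_symm hP y (x - P x)
    rw [map_sub, G_idem_apply hP, sub_self, inner_zero_right] at h2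
    exact h2
  refine ⟨LinearMap.range P.toLinearMap, ?_, h1⟩
  have h2 := Al6_182.tr_starProjection (LinearMap.range P.toLinearMap)
  rw [h1] at h2
  have h3 : Cacc_113.tr P = m := hP.2.2
  rw [h3] at h2
  exact_mod_cast h2.symm

/-- density `≤ Q` at `x`, density `≥ Q` on the support near `x`, flat at arbitrarily small scales:
regular point. -/
theorem regular_of_not_NF {U : Set (Euc k)} {D : VarifoldData m k} (hU : IsOpen U) (hm : 1 ≤ m)
    (hD : IsIntegralVarifoldIn U D) (hst : IsStationaryIn U D) {x : Euc k} (hxU : x ∈ U)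
    (hx : x ∈ support D) (hNF : x ∉ Strat3_842.NF m (VD D)) {Q : ℕ} (hQ : 1 ≤ Q)
    (hTx : Th m (VD D) x ≤ Q)
    (hTh : ∃ ρ > 0, ∀ y ∈ support D, y ∈ ball x ρ → (Q : ℝ≥0∞) ≤ Th m (VD D) y) :
    x ∉ singularSet m k U D := by
  obtain ⟨ε, hε, A⟩ := allard m k hm Q hQ
  have hV := stat_VD hD hst
  obtain ⟨ρ, hρ, hρTh⟩ := hTh
  obtain ⟨R, hR, hRU⟩ := Metric.isOpen_iff.1 hU x hxU
  -- small scales
  have hlim := tendsto_rat hV hm hR hRU
  have hlt : Th m (VD D) x < (Q : ℝ≥0∞) + ENNReal.ofReal ε := by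
    refine hTx.trans_lt (ENNReal.lt_add_right (ENNReal.natCast_ne_top Q) ?_)
    rw [ne_eq, ENNReal.ofReal_eq_zero, not_le]
    exact hε
  obtain ⟨r1, hr1, hr1'⟩ : ∃ r1 > 0, ∀ r, 0 < r → r < r1 →
      rat m (VD D) x r ≤ (Q : ℝ≥0∞) + ENNReal.ofReal ε := by
    have h1 := hlim.eventually_lt_const hlt
    obtain ⟨r1, hr1, h2⟩ := mem_nhdsGT_iff_exists_Ioo_subset.1 h1
    exact ⟨r1, hr1, fun r h3 h4 => (h2 ⟨h3, h4⟩).le⟩
  set ε' : ℝ := ε ^ 2 * ome m / (4 * 2 ^ m) with hε'
  have home := ome_pos m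
  have hε'0 : 0 < ε' := by positivity
  simp only [Strat3_842.NF, mem_ofPred_eq, not_exists, not_and, not_forall, not_not] at hNF
  obtain ⟨r, hr, hr0, P, hP, hfl⟩ := hNF ε' hε'0 (min (min r1 ρ) R) (by positivity)
  have hrr1 : r < r1 := hr0.trans_le ((min_le_left _ _).trans (min_le_left _ _))
  have hrρ : r < ρ := hr0.trans_le ((min_le_left _ _).trans (min_le_right _ _))
  have hrR : r < R := hr0.trans_le (min_le_right _ _)
  have hcU : closedBall x r ⊆ U := (closedBall_subset_ball hrR).trans hRU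
  obtain ⟨T, hT, hTP⟩ := exists_plane hP
  have hcompl : Tᗮ.starProjection = 1 - P := by
    rw [Al6_182.starProjection_compl, hTP]
  have hq : Cacc_113.IsPr (Tᗮ.starProjection) := Al6_182.isPr_starProjection _
  -- the height integral
  have hfin : VD D (ball x r ×ˢ univ) < ⊤ :=
    (measure_mono (Set.prod_mono ball_subset_closedBall Subset.rfl)).trans_lt
      (hV.fin _ (isCompact_closedBall x r) hcU)
  have hH : ∫ z in Prod.fst ⁻¹' ball x r, ‖Tᗮ.starProjection (z.1 - x)‖ ^ 2 ∂(VD D)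
      ≤ ε' * r ^ (m + 2) := by
    refine le_trans ?_ hfl
    rw [prod_univ_eq]
    have e : ∀ z : Euc k × L k, ‖Tᗮ.starProjection (z.1 - x)‖ ^ 2 = height P x z := by
      intro z
      unfold height
      rw [hcompl]
      simp
    simp_rw [e]
    rw [← prod_univ_eq]
    refine setIntegral_mono_ae_restrict ?_ ?_ ?_
    · exact integrableOn_of_bdd hV.conc hfin (continuous_height P x)
    · exact integrableOn_of_bdd hV.conc hfin
        ((continuous_const.mul (continuous_tilt P)).add (continuous_height P x))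
    · filter_upwards [ae_restrict_of_ae hV.conc] with z hz
      have := tr_perp_nonneg hz hP
      have h2 : 0 ≤ r ^ 2 * tilt P z := mul_nonneg (sq_nonneg r) this
      linarith
  -- the height bound
  have hheight : ∀ y ∈ support D, y ∈ ball x (r / 2) →
      ‖Tᗮ.starProjection (y - x)‖ ≤ ε * (r / 2) := by
    intro y hy hyb
    have hyb' : dist y x < r / 2 := hyb
    have h1 := (st_of_stat hV).height (x₀ := y) (R := r / 2) (m := m) (tr_ae hV) (x₁ := x)
      (ρ := r / 2) (by rw [add_halves]; exact hcU) (by positivity) hq hyb'.le (θ := ome m) home.le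
      (by
        refine Eventually.frequently ?_
        filter_upwards [Ioo_mem_nhdsGT (show (0:ℝ) < r / 2 by positivity)] with s hs
        have hsU : ball y s ⊆ U := by
          refine (ball_subset_ball' ?_).trans (ball_subset_closedBall.trans hcU)
          linarith [hs.2]
        have h3 := le_weight_ball hD hst hm hU hs.1 hsU hy
        rw [← mass_VD hD, mass_apply _ measurableSet_ball] at h3
        have h4 : VD D (Prod.fst ⁻¹' ball y s) ≠ ⊤ := by
          rw [← mass_apply _ measurableSet_ball]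
          refine ne_top_of_le_ne_top (mass_lt_top hV (isCompact_closedBall x r) hcU).ne
            (measure_mono ?_)
          refine (ball_subset_ball' ?_).trans ball_subset_closedBall
          linarith [hs.2]
        exact (ENNReal.ofReal_le_iff_le_toReal h4).1 h3) x
    rw [add_halves] at h1
    have h2 : ome m * ‖Tᗮ.starProjection (y - x)‖ ^ 2 ≤ ome m * (ε * (r / 2)) ^ 2 := by
      refine h1.trans ?_
      calc ((r / 2) ^ m)⁻¹ * ∫ z in Prod.fst ⁻¹' ball x r,
            ‖Tᗮ.starProjection (z.1 - x)‖ ^ 2 ∂(VD D)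
          ≤ ((r / 2) ^ m)⁻¹ * (ε' * r ^ (m + 2)) := by gcongr
        _ = ome m * (ε * (r / 2)) ^ 2 := by
            rw [hε', div_pow, pow_add]
            field_simp
            ring
    have h3 : ‖Tᗮ.starProjection (y - x)‖ ^ 2 ≤ (ε * (r / 2)) ^ 2 :=
      le_of_mul_le_mul_left h2 home
    exact (sq_le_sq₀ (norm_nonneg _) (by positivity)).1 h3
  refine A U D hU hD hst x hx (r / 2) (by positivity) ?_ T hT hheight ?_ ?_
  · exact (ball_subset_ball (by linarith)).trans (ball_subset_closedBall.trans hcU)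
  · intro y hy hyb
    exact hρTh y hy (ball_subset_ball (by linarith) hyb)
  · exact hr1' (r / 2) (by positivity) (by linarith)

/-- **density at most one and not in the non-flat stratum ==> regular** -/
theorem hone {U : Set (Euc k)} {D : VarifoldData m k} (hU : IsOpen U) (hm : 1 ≤ m)
    (hD : IsIntegralVarifoldIn U D) (hst : IsStationaryIn U D) :
    ∀ x ∈ U, x ∈ support D → x ∉ Strat3_842.NF m (VD D) → Th m (VD D) x ≤ 1 →
      x ∉ singularSet m k U D := by
  intro x hxU hx hNF hTx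
  obtain ⟨R, hR, hRU⟩ := Metric.isOpen_iff.1 hU x hxU
  refine regular_of_not_NF hU hm hD hst hxU hx hNF (Q := 1) le_rfl (by simpa using hTx)
    ⟨R, hR, fun y hy hyb => ?_⟩
  simpa using one_le_Th hD hst hm hU (hRU hyb) hy

end

end Crest.Agent.R234.Al9_182
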