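import Mathlib
import Crest.Prelude.Def_Varifold

-- ▼ part R234/Ar1_870
section

/-!
# Row 234, VF-AREA, part 1 (helper870)

Area formula with multiplicities, abstract form: a C¹ map `F : E → E` on a Borel set, partition of the
noncritical part into countably many Borel pieces on which `F` is injective, with measurable inverses.
-/

set_option autoImplicit false

open MeasureTheory Set Function
open scoped ENNReal NNReal

noncomputable section

namespace Crest.Agent.R234.Ar_870

variable {E : Type*} [NormedAddCommGroup E] [NormedSpace ℝ E] [FiniteDimensional ℝ E]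
  [MeasurableSpace E] [BorelSpace E]

omit [FiniteDimensional ℝ E] in
theorem measurableSet_noncrit {F' : E → E →L[ℝ] E} (hF' : Continuous F') :
    MeasurableSet {x | (F' x).det ≠ 0} :=
  (ContinuousLinearMap.continuous_det.comp hF').measurable (measurableSet_singleton 0).compl

/-- the noncritical part of a Borel set is a countable disjoint union of Borel sets of injectivity -/
theorem exists_pieces {F : E → E} {F' : E → E →L[ℝ] E} {s : Set E} (hs : MeasurableSet s)
    (hF : ∀ x, HasFDerivAt F (F' x) x) (hF' : Continuous F') :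
    ∃ A : ℕ → Set E, Pairwise (Disjoint on A) ∧ (∀ n, MeasurableSet (A n)) ∧
      (⋃ n, A n) = s ∩ {x | (F' x).det ≠ 0} ∧ ∀ n, InjOn F (A n) := by
  classical
  set s' := s ∩ {x | (F' x).det ≠ 0} with hs'def
  have hs' : MeasurableSet s' := hs.inter (measurableSet_noncrit hF')
  rcases subsingleton_or_nontrivial E with hE | hE
  · refine ⟨fun n => if n = 0 then s' else ∅, ?_, ?_, ?_, ?_⟩
    · intro i j hij
      simp only [Function.onFun]
      by_cases hi : i = 0
      · have hj : j ≠ 0 := fun h => hij (hi.trans h.symm)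
        simp [hj]
      · simp [hi]
    · intro n
      by_cases hn : n = 0
      · simp only [hn, if_true]; exact hs'
      · simp only [hn, if_false]; exact MeasurableSet.empty
    · ext x
      simp only [mem_iUnion]
      constructor
      · rintro ⟨n, hn⟩
        by_cases h : n = 0
        · simpa [h] using hn
        · simp [h] at hn
      · intro hx
        exact ⟨0, by simpa using hx⟩
    · intro n
      exact fun a _ b _ _ => Subsingleton.elim a b
  · let r : (E →L[ℝ] E) → ℝ≥0 := fun A =>
      if h : A.det ≠ 0 then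
        ‖((A.toContinuousLinearEquivOfDetNeZero h).symm : E →L[ℝ] E)‖₊⁻¹ / 2 else 1
    have rpos : ∀ A, r A ≠ 0 := by
      intro A
      by_cases h : A.det ≠ 0
      · simp only [r, dif_pos h]
        have : ‖((A.toContinuousLinearEquivOfDetNeZero h).symm : E →L[ℝ] E)‖₊ ≠ 0 := by
          rw [Ne, nnnorm_eq_zero]
          intro h0
          obtain ⟨v, hv⟩ := exists_ne (0 : E)
          apply hv
          have h1 : (A.toContinuousLinearEquivOfDetNeZero h).symm
              ((A.toContinuousLinearEquivOfDetNeZero h) v) = v :=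
            (A.toContinuousLinearEquivOfDetNeZero h).symm_apply_apply v
          have h2 : ((A.toContinuousLinearEquivOfDetNeZero h).symm : E →L[ℝ] E)
              ((A.toContinuousLinearEquivOfDetNeZero h) v) = 0 := by rw [h0]; rfl
          rw [← h1]
          exact h2
        positivity
      · simp only [r, dif_neg h]; exact one_ne_zero
    obtain ⟨t, A, td, tm, st, ta, tA⟩ :=
      exists_partition_approximatesLinearOn_of_hasFDerivWithinAt F s' F'
        (fun x _ => (hF x).hasFDerivWithinAt) r rpos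
    refine ⟨fun n => s' ∩ t n, ?_, fun n => hs'.inter (tm n), ?_, ?_⟩
    · intro i j hij
      exact (td hij).mono inter_subset_right inter_subset_right
    · rw [← inter_iUnion]
      exact inter_eq_left.2 st
    · intro n
      rcases eq_empty_or_nonempty s' with h0 | h0
      · simp [h0]
      · obtain ⟨y, hy, hAy⟩ := tA h0 n
        have hdet : (A n).det ≠ 0 := by rw [hAy]; exact hy.2
        have happ := ta n
        have hr : r (A n) = ‖(((A n).toContinuousLinearEquivOfDetNeZero hdet).symm : E →L[ℝ] E)‖₊⁻¹ / 2 := by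
          simp only [r, dif_pos hdet]
        have hlt : r (A n) <
            ‖(((A n).toContinuousLinearEquivOfDetNeZero hdet).symm : E →L[ℝ] E)‖₊⁻¹ := by
          have h1 := rpos (A n)
          rw [hr] at h1 ⊢
          refine half_lt_self ?_
          rw [pos_iff_ne_zero]
          intro h2
          apply h1
          rw [h2, zero_div]
        have hcoe : (((A n).toContinuousLinearEquivOfDetNeZero hdet) : E →L[ℝ] E) = A n :=
          (A n).coe_toContinuousLinearEquivOfDetNeZero hdet
        have happ' : ApproximatesLinearOn F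
            (((A n).toContinuousLinearEquivOfDetNeZero hdet) : E →L[ℝ] E) (s' ∩ t n) (r (A n)) := by
          rw [hcoe]; exact happ
        exact happ'.injOn (Or.inr hlt)

/-- measurable inverse on a piece of injectivity -/
theorem exists_inverse {F : E → E} {F' : E → E →L[ℝ] E} {A : Set E} (hA : MeasurableSet A)
    (hF : ∀ x, HasFDerivAt F (F' x) x) (hinj : InjOn F A) :
    ∃ G : E → E, Measurable G ∧ ∀ a ∈ A, G (F a) = a := by
  have hme := measurableEmbedding_of_fderivWithin hA (fun x _ => (hF x).hasFDerivWithinAt) hinj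
  obtain ⟨G, hG, hGF⟩ := hme.exists_measurable_extend (g := fun a : A => (a : E))
    measurable_subtype_coe fun _ => ⟨0⟩
  refine ⟨G, hG, fun a ha => ?_⟩
  exact congrFun hGF ⟨a, ha⟩

variable (μ : Measure E) [μ.IsAddHaarMeasure]

/-- change of variables on a piece of injectivity, for functions on the source -/
theorem lintegral_piece {F G : E → E} {F' : E → E →L[ℝ] E} {A : Set E} (hA : MeasurableSet A)
    (hF : ∀ x, HasFDerivAt F (F' x) x) (hinj : InjOn F A) (hG : ∀ a ∈ A, G (F a) = a)
    (h : E → ℝ≥0∞) :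
    ∫⁻ a in A, ENNReal.ofReal |(F' a).det| * h a ∂μ = ∫⁻ x in F '' A, h (G x) ∂μ := by
  rw [lintegral_image_eq_lintegral_abs_det_fderiv_mul μ hA
    (fun x _ => (hF x).hasFDerivWithinAt) hinj]
  refine setLIntegral_congr_fun hA fun a ha => ?_
  simp only [hG a ha]

/-- a countable family of sheets over the base: the noncritical part of `F` on `dom`, with constant
multiplicity on every sheet -/
theorem exists_sheets {F : E → E} {F' : E → E →L[ℝ] E} {dom : Set E} (hdom : MeasurableSet dom)
    (hF : ∀ x, HasFDerivAt F (F' x) x) (hF' : Continuous F') {mult : E → ℕ}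
    (hmult : Measurable mult) :
    ∃ (B : ℕ → Set E) (G : ℕ → E → E) (q : ℕ → ℕ),
      (∀ j, MeasurableSet (B j)) ∧ (∀ j, Measurable (G j)) ∧
      (∀ j, ∀ x ∈ B j, G j x ∈ dom ∧ (F' (G j x)).det ≠ 0 ∧ F (G j x) = x ∧
        mult (G j x) = q j) ∧
      (∀ a ∈ dom, (F' a).det ≠ 0 → ∃ j, F a ∈ B j ∧ G j (F a) = a) ∧
      (∀ i j, ∀ x ∈ B i, x ∈ B j → G i x = G j x → i = j) ∧
      ∀ h : E → ℝ≥0∞, ∫⁻ a in dom, ENNReal.ofReal |(F' a).det| * h a ∂μ =
        ∑' j, ∫⁻ x in B j, h (G j x) ∂μ := by
  obtain ⟨A', hdis', hmeas', hU', hinj'⟩ := exists_pieces hdom hF hF'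
  set A : ℕ → Set E := fun j => A' j.unpair.1 ∩ mult ⁻¹' {j.unpair.2} with hA
  have hAm : ∀ j, MeasurableSet (A j) := fun j =>
    (hmeas' _).inter (hmult (measurableSet_singleton _))
  have hAinj : ∀ j, InjOn F (A j) := fun j => (hinj' _).mono inter_subset_left
  have hAdis : Pairwise (Disjoint on A) := by
    intro i j hij
    simp only [Function.onFun]
    rw [Set.disjoint_left]
    intro a hi hj
    apply hij
    have h1 : i.unpair.1 = j.unpair.1 := by
      by_contra hne
      exact Set.disjoint_left.1 (hdis' hne) hi.1 hj.1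
    have h2 : i.unpair.2 = j.unpair.2 := by
      have e1 : mult a = i.unpair.2 := hi.2
      have e2 : mult a = j.unpair.2 := hj.2
      rw [← e1, e2]
    have h3 : i.unpair = j.unpair := Prod.ext h1 h2
    rw [← Nat.pair_unpair i, ← Nat.pair_unpair j, h3]
  have hAU : (⋃ j, A j) = dom ∩ {x | (F' x).det ≠ 0} := by
    rw [← hU']
    ext a
    simp only [mem_iUnion]
    constructor
    · rintro ⟨j, hj⟩; exact ⟨_, hj.1⟩
    · rintro ⟨n, hn⟩
      refine ⟨Nat.pair n (mult a), ?_⟩
      simp only [hA, Nat.unpair_pair]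
      exact ⟨hn, rfl⟩
  choose G hGm hG using fun j => exists_inverse (hAm j) hF (hAinj j)
  refine ⟨fun j => F '' A j, G, fun j => j.unpair.2, fun j => ?_, hGm, ?_, ?_, ?_, ?_⟩
  · exact measurable_image_of_fderivWithin (hAm j) (fun x _ => (hF x).hasFDerivWithinAt)
      (hAinj j)
  · rintro j _ ⟨a, ha, rfl⟩
    rw [hG j a ha]
    have h1 : a ∈ dom ∩ {x | (F' x).det ≠ 0} := hAU ▸ mem_iUnion.2 ⟨j, ha⟩
    exact ⟨h1.1, h1.2, rfl, ha.2⟩
  · intro a ha hd
    have h1 : a ∈ ⋃ j, A j := hAU ▸ ⟨ha, hd⟩
    obtain ⟨j, hj⟩ := mem_iUnion.1 h1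
    exact ⟨j, ⟨a, hj, rfl⟩, hG j a hj⟩
  · rintro i j _ ⟨a, ha, rfl⟩ ⟨b, hb, hba⟩ hGG
    rw [hG i a ha, ← hba, hG j b hb] at hGG
    subst hGG
    by_contra hne
    exact Set.disjoint_left.1 (hAdis hne) ha hb
  · intro h
    have h1 : ∫⁻ a in dom, ENNReal.ofReal |(F' a).det| * h a ∂μ =
        ∫⁻ a in ⋃ j, A j, ENNReal.ofReal |(F' a).det| * h a ∂μ := by
      rw [hAU, ← lintegral_inter_add_diff _ dom (measurableSet_noncrit hF')]
      have h2 : ∫⁻ a in dom \ {x | (F' x).det ≠ 0}, ENNReal.ofReal |(F' a).det| * h a ∂μ = 0 := by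
        rw [setLIntegral_congr_fun (g := fun _ => 0) (hdom.diff (measurableSet_noncrit hF'))]
        · simp
        · intro a ha
          have : (F' a).det = 0 := by
            by_contra hne
            exact ha.2 hne
          simp [this]
      rw [h2, add_zero]
    rw [h1, lintegral_iUnion hAm hAdis]
    exact tsum_congr fun j => lintegral_piece μ (hAm j) hF (hAinj j) (hG j) h

end Crest.Agent.R234.Ar_870
end
end

-- ▼ part R234/Ar2_870

/-!
# Row 234, VF-AREA, part 2 (helper870)

Jacobian of the horizontal projection `π : E k → E m` restricted to a tangent plane `P`: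
`Jh π P = √det(π P π†)`, and `jac f a * Jh π (P_a) = |det (π ∘ Df a)|`.
-/

set_option autoImplicit false

open MeasureTheory Set Function
open Crest.GeometryTopology.Submanifold
open scoped ENNReal NNReal InnerProductSpace

noncomputable section

namespace Crest.Agent.R234.Ar_870

variable {m k : ℕ}

/-- square of the Jacobian of `π` on the plane with orthogonal projection `P` -/
def Jq (π : Euc k →L[ℝ] Euc m) (P : Euc k →L[ℝ] Euc k) : ℝ :=
  (π ∘L P ∘L ContinuousLinearMap.adjoint π).det

/-- Jacobian of `π` on the plane with orthogonal projection `P` -/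
def Jh (π : Euc k →L[ℝ] Euc m) (P : Euc k →L[ℝ] Euc k) : ℝ := Real.sqrt (Jq π P)

theorem Jh_nonneg (π : Euc k →L[ℝ] Euc m) (P : Euc k →L[ℝ] Euc k) : 0 ≤ Jh π P := Real.sqrt_nonneg _

theorem det_adjoint (A : Euc m →L[ℝ] Euc m) : (ContinuousLinearMap.adjoint A).det = A.det := by
  have h := LinearMap.toMatrix_adjoint (𝕜 := ℝ) (EuclideanSpace.basisFun (Fin m) ℝ)
    (EuclideanSpace.basisFun (Fin m) ℝ) (A : Euc m →ₗ[ℝ] Euc m)
  have h1 := congrArg Matrix.det h
  rw [Matrix.det_conjTranspose, LinearMap.det_toMatrix, LinearMap.det_toMatrix] at h1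
  exact h1

theorem det_comp (A B : Euc m →L[ℝ] Euc m) : (A ∘L B).det = A.det * B.det :=
  LinearMap.det_comp _ _

theorem jac_eq_normDet (f : Euc m → Euc k) (a : Euc m) :
    jac f a = (fderiv ℝ f a : Euc m →ₗ[ℝ] Euc k).normDet := by
  have h := (fderiv ℝ f a : Euc m →ₗ[ℝ] Euc k).normDet_sq_eq_det_gram
    (EuclideanSpace.basisFun (Fin m) ℝ)
  unfold jac
  have h2 : (metricMat f a).det =
      (Matrix.gram ℝ fun i => (fderiv ℝ f a : Euc m →ₗ[ℝ] Euc k)
        (EuclideanSpace.basisFun (Fin m) ℝ i)).det := by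
    congr 1
    ext i j
    simp [metricMat, Matrix.gram, pd, stdVec]
  rw [h2, ← h]
  exact Real.sqrt_sq (LinearMap.normDet_nonneg _)

theorem jac_sq (f : Euc m → Euc k) (a : Euc m) :
    jac f a ^ 2 = (ContinuousLinearMap.adjoint (fderiv ℝ f a) ∘L fderiv ℝ f a).det := by
  rw [jac_eq_normDet]
  exact (fderiv ℝ f a).normDet_sq

/-- the Jacobian identity for a parametrised plane -/
theorem Jq_mul (π : Euc k →L[ℝ] Euc m) (A : Euc m →L[ℝ] Euc k) (hA : Injective A)
    (P : Euc k →L[ℝ] Euc k) (hP : ContinuousLinearMap.adjoint P = P) (hPA : P ∘L A = A)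
    (hr : ∀ v, P v ∈ LinearMap.range (A : Euc m →ₗ[ℝ] Euc k)) :
    Jq π P * (ContinuousLinearMap.adjoint A ∘L A).det = (π ∘L A).det ^ 2 := by
  obtain ⟨B, hB⟩ : ∃ B : Euc k →L[ℝ] Euc m, A ∘L B = P := by
    let e := LinearEquiv.ofInjective (A : Euc m →ₗ[ℝ] Euc k) hA
    let B₀ : Euc k →ₗ[ℝ] Euc m :=
      (e.symm : _ →ₗ[ℝ] Euc m) ∘ₗ (P : Euc k →ₗ[ℝ] Euc k).codRestrict _ hr
    refine ⟨LinearMap.toContinuousLinearMap B₀, ?_⟩
    ext1 v
    have h1 : e (e.symm ⟨P v, hr v⟩) = ⟨P v, hr v⟩ := e.apply_symm_apply _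
    have h2 := congrArg Subtype.val h1
    exact h2
  have h1 : Jq π P = (π ∘L A).det * (B ∘L ContinuousLinearMap.adjoint π).det := by
    unfold Jq
    rw [← hB, ← det_comp]
    rfl
  have hAP : ContinuousLinearMap.adjoint A ∘L P = ContinuousLinearMap.adjoint A := by
    have := congrArg ContinuousLinearMap.adjoint hPA
    rw [ContinuousLinearMap.adjoint_comp, hP] at this
    exact this
  have h2 : (ContinuousLinearMap.adjoint A ∘L A).det *
      (B ∘L ContinuousLinearMap.adjoint π).det = (π ∘L A).det := by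
    rw [← det_comp]
    have : (ContinuousLinearMap.adjoint A ∘L A) ∘L (B ∘L ContinuousLinearMap.adjoint π) =
        (ContinuousLinearMap.adjoint A ∘L (A ∘L B)) ∘L ContinuousLinearMap.adjoint π := rfl
    rw [this, hB, hAP, ← ContinuousLinearMap.adjoint_comp, det_adjoint]
  rw [h1, sq, mul_assoc, mul_comm (B ∘L ContinuousLinearMap.adjoint π).det, h2]

/-- projection onto the tangent plane of a parametrisation -/
def tp (f : Euc m → Euc k) (a : Euc m) : Euc k →L[ℝ] Euc k := (tangentAt f a).starProjection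

theorem tangentAt_eq (f : Euc m → Euc k) (a : Euc m) :
    tangentAt f a = LinearMap.range (fderiv ℝ f a : Euc m →ₗ[ℝ] Euc k) := by
  unfold tangentAt
  have h : Set.range (pd f a) = (fderiv ℝ f a : Euc m →ₗ[ℝ] Euc k) ''
      Set.range (EuclideanSpace.basisFun (Fin m) ℝ) := by
    rw [← Set.range_comp]
    congr 1
    funext i
    simp [pd, stdVec]
  rw [h, Submodule.span_image]
  have h2 : Submodule.span ℝ (Set.range (EuclideanSpace.basisFun (Fin m) ℝ)) = ⊤ := by
    have := (EuclideanSpace.basisFun (Fin m) ℝ).toBasis.span_eq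
    simpa using this
  rw [h2, Submodule.map_top]

theorem adjoint_tp (f : Euc m → Euc k) (a : Euc m) :
    ContinuousLinearMap.adjoint (tp f a) = tp f a := by
  have h : IsSelfAdjoint (tp f a) := by
    unfold tp
    exact isSelfAdjoint_starProjection _
  exact h

theorem tp_comp (f : Euc m → Euc k) (a : Euc m) : tp f a ∘L fderiv ℝ f a = fderiv ℝ f a := by
  ext1 v
  have h : fderiv ℝ f a v ∈ tangentAt f a := by
    rw [tangentAt_eq]
    exact ⟨v, rfl⟩
  exact Submodule.starProjection_eq_self_iff.2 h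

theorem tp_mem (f : Euc m → Euc k) (a : Euc m) (v : Euc k) :
    tp f a v ∈ LinearMap.range (fderiv ℝ f a : Euc m →ₗ[ℝ] Euc k) := by
  rw [← tangentAt_eq]
  exact Submodule.starProjection_apply_mem _ _

/-- **Jacobian identity**: `jac f a * Jh π P_a = |det (π ∘ Df a)|` -/
theorem jac_mul_Jh (π : Euc k →L[ℝ] Euc m) (f : Euc m → Euc k) (a : Euc m)
    (hinj : Injective (fderiv ℝ f a)) :
    jac f a * Jh π (tp f a) = |(π ∘L fderiv ℝ f a).det| := by
  have h := Jq_mul π (fderiv ℝ f a) hinj (tp f a) (adjoint_tp f a) (tp_comp f a) (tp_mem f a)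
  rw [← jac_sq] at h
  have h0 : 0 ≤ jac f a := Real.sqrt_nonneg _
  rw [← Real.sqrt_sq_eq_abs, ← h, Real.sqrt_mul' _ (sq_nonneg _), Real.sqrt_sq h0, mul_comm]
  rfl

end Crest.Agent.R234.Ar_870
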