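import Crest.Agent.R234.Asl3_214

-- ▼ part R234/Asl4_214
section

/-!
# Row 234, VF-ASL, part 4 (helper214)

870's identities (W1), (W2), (W3) for almost stationary varifolds in a cylinder, with explicit errors.
-/

set_option autoImplicit false

open MeasureTheory Set Function Filter Topology
open Crest.GeometryTopology.Submanifold
open Crest.Agent.R234.Vf_884 Crest.Agent.R234.Ar_870 Crest.Agent.R234.Cy_870
open Crest.Agent.R234.AS_456 (AS errA err hp vp)
open scoped ENNReal NNReal InnerProductSpace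

noncomputable section

namespace Crest.Agent.R234.Asl_214

variable {m n k : ℕ} {π : Euc k →L[ℝ] Euc m} {κ : Euc k →L[ℝ] Euc n} {δ : ℝ}
  {x₀ x : Euc m} {R h₀ : ℝ} {W : Measure (Euc k × L k)} {g g1 g2 : ℝ → ℝ}

/-! ### radial profiles -/

/-- the derivative of `g(e^{-2l}|v-x|²)(v-x)` -/
def dR (g g1 : ℝ → ℝ) (l : ℝ) (x v : Euc m) : L m :=
  g (Real.exp (-2 * l) * ‖v - x‖ ^ 2) • ContinuousLinearMap.id ℝ (Euc m) +
    (innerSL ℝ ((2 * Real.exp (-2 * l) * g1 (Real.exp (-2 * l) * ‖v - x‖ ^ 2)) •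
      (v - x))).smulRight (v - x)

theorem hasFDerivAt_R (hg : Ker g g1) (l : ℝ) (x v : Euc m) :
    HasFDerivAt (fun v : Euc m => g (Real.exp (-2 * l) * ‖v - x‖ ^ 2) • (v - x))
      (dR g g1 l x v) v := by
  have h1 := hasFDerivAt_rad hg.der l x v
  have h2 : HasFDerivAt (fun v : Euc m => v - x) (ContinuousLinearMap.id ℝ (Euc m)) v :=
    (hasFDerivAt_id v).sub_const x
  exact h1.smul h2

theorem continuous_dR (hg : Ker g g1) (l : ℝ) (x : Euc m) : Continuous (dR g g1 l x) := by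
  have c0 : Continuous fun v : Euc m => v - x := continuous_id.sub continuous_const
  have c1 : Continuous fun v : Euc m => Real.exp (-2 * l) * ‖v - x‖ ^ 2 :=
    continuous_const.mul (c0.norm.pow 2)
  have c2 : Continuous fun v : Euc m => g (Real.exp (-2 * l) * ‖v - x‖ ^ 2) :=
    hg.continuous.comp c1
  have c3 : Continuous fun v : Euc m => g1 (Real.exp (-2 * l) * ‖v - x‖ ^ 2) := hg.cont.comp c1
  have c4 : Continuous fun v : Euc m =>
      innerSL ℝ ((2 * Real.exp (-2 * l) * g1 (Real.exp (-2 * l) * ‖v - x‖ ^ 2)) • (v - x)) :=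
    (innerSL ℝ).continuous.comp ((continuous_const.mul c3).smul c0)
  refine (c2.smul continuous_const).add ?_
  have c5 : Continuous fun v : Euc m => (ContinuousLinearMap.smulRightL ℝ (Euc m) (Euc m)
      (innerSL ℝ ((2 * Real.exp (-2 * l) * g1 (Real.exp (-2 * l) * ‖v - x‖ ^ 2)) • (v - x))))
      (v - x) :=
    ((ContinuousLinearMap.smulRightL ℝ (Euc m) (Euc m)).continuous.comp c4).clm_apply c0
  exact c5

theorem scaled_nonneg (l : ℝ) (x v : Euc m) : 0 ≤ Real.exp (-2 * l) * ‖v - x‖ ^ 2 := by positivity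

/-- common bound of `g`, `g'`, `t g'` -/
structure Bd (g g1 : ℝ → ℝ) (K : ℝ) : Prop where
  b0 : ∀ t, 0 ≤ t → |g t| ≤ K
  b1 : ∀ t, 0 ≤ t → |g1 t| ≤ K
  b2 : ∀ t, 0 ≤ t → |t * g1 t| ≤ K

theorem exists_Bd (hg : Ker g g1) : ∃ K : ℝ, 0 ≤ K ∧ Bd g g1 K := by
  obtain ⟨K, h0, h1, h2, h3⟩ := hg.exists_bound
  exact ⟨K, h0, h1, h2, h3⟩

theorem Bd.nonneg {K : ℝ} (h : Bd g g1 K) : 0 ≤ K := (abs_nonneg _).trans (h.b0 0 le_rfl)

theorem norm_dR_le {K : ℝ} (hK : Bd g g1 K) (l : ℝ) (x v : Euc m) : ‖dR g g1 l x v‖ ≤ 3 * K := by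
  set t := Real.exp (-2 * l) * ‖v - x‖ ^ 2 with ht
  have h1 : ‖g t • ContinuousLinearMap.id ℝ (Euc m)‖ ≤ K := by
    rw [norm_smul, Real.norm_eq_abs]
    calc |g t| * ‖ContinuousLinearMap.id ℝ (Euc m)‖ ≤ K * 1 :=
          mul_le_mul (hK.b0 t (scaled_nonneg l x v)) ContinuousLinearMap.norm_id_le
            (norm_nonneg _) hK.nonneg
      _ = K := mul_one K
  have h2 : ‖(innerSL ℝ ((2 * Real.exp (-2 * l) * g1 t) • (v - x))).smulRight (v - x)‖ ≤
      2 * K := by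
    rw [ContinuousLinearMap.norm_smulRight_apply, innerSL_apply_norm, norm_smul,
      Real.norm_eq_abs, abs_mul, abs_of_nonneg (by positivity : (0:ℝ) ≤ 2 * Real.exp (-2 * l))]
    have h3 := hK.b2 t (scaled_nonneg l x v)
    rw [abs_mul, abs_of_nonneg (scaled_nonneg l x v)] at h3
    calc 2 * Real.exp (-2 * l) * |g1 t| * ‖v - x‖ * ‖v - x‖ = 2 * (t * |g1 t|) := by
          rw [ht]; ring
      _ ≤ 2 * K := by linarith
  unfold dR
  rw [← ht]
  calc _ ≤ K + 2 * K := (norm_add_le _ _).trans (add_le_add h1 h2)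
    _ = 3 * K := by ring

theorem dR_zero (hg : Ker g g1) {l : ℝ} {x v : Euc m} (hv : Real.exp l ≤ ‖v - x‖) :
    dR g g1 l x v = 0 := by
  unfold dR
  rw [hg.zero _ (Ker.one_le_of x hv), hg.zero' _ (Ker.one_le_of x hv)]
  ext u
  simp

theorem norm_R_le {K : ℝ} (hg : Ker g g1) (hK : Bd g g1 K) (l : ℝ) (x v : Euc m) :
    ‖g (Real.exp (-2 * l) * ‖v - x‖ ^ 2) • (v - x)‖ ≤ K * Real.exp l := by
  rw [norm_smul, Real.norm_eq_abs]
  rcases le_or_gt (Real.exp l) ‖v - x‖ with h1 | h1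
  · rw [hg.zero _ (Ker.one_le_of x h1), abs_zero, zero_mul]
    exact mul_nonneg hK.nonneg (Real.exp_pos _).le
  · exact mul_le_mul (hK.b0 _ (scaled_nonneg l x v)) h1.le (norm_nonneg _) hK.nonneg

/-- the derivative of `g(e^{-2l}|v-x|²)` -/
def dr (g1 : ℝ → ℝ) (l : ℝ) (x v : Euc m) : Euc m →L[ℝ] ℝ :=
  innerSL ℝ ((2 * Real.exp (-2 * l) * g1 (Real.exp (-2 * l) * ‖v - x‖ ^ 2)) • (v - x))

theorem continuous_dr (hg : Ker g g1) (l : ℝ) (x : Euc m) : Continuous (dr g1 l x) := by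
  have c0 : Continuous fun v : Euc m => v - x := continuous_id.sub continuous_const
  have c1 : Continuous fun v : Euc m => Real.exp (-2 * l) * ‖v - x‖ ^ 2 :=
    continuous_const.mul (c0.norm.pow 2)
  exact (innerSL ℝ).continuous.comp ((continuous_const.mul (hg.cont.comp c1)).smul c0)

theorem dr_zero (hg : Ker g g1) {l : ℝ} {x v : Euc m} (hv : Real.exp l ≤ ‖v - x‖) :
    dr g1 l x v = 0 := by
  unfold dr
  rw [hg.zero' _ (Ker.one_le_of x hv), mul_zero, zero_smul, map_zero]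

theorem norm_dr_le {K : ℝ} (hg : Ker g g1) (hK : Bd g g1 K) (l : ℝ) (x v : Euc m) :
    ‖dr g1 l x v‖ ≤ 2 * K * Real.exp (-l) := by
  rcases le_or_gt (Real.exp l) ‖v - x‖ with h1 | h1
  · rw [dr_zero hg h1, norm_zero]
    have := hK.nonneg
    positivity
  · unfold dr
    rw [innerSL_apply_norm, norm_smul, Real.norm_eq_abs, abs_mul,
      abs_of_nonneg (by positivity : (0:ℝ) ≤ 2 * Real.exp (-2 * l))]
    have h2 := hK.b1 _ (scaled_nonneg l x v)
    calc 2 * Real.exp (-2 * l) * |g1 (Real.exp (-2 * l) * ‖v - x‖ ^ 2)| * ‖v - x‖ ≤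
          2 * Real.exp (-2 * l) * K * Real.exp l := by
          apply mul_le_mul _ h1.le (norm_nonneg _)
            (by have := hK.nonneg; positivity)
          exact mul_le_mul_of_nonneg_left h2 (by positivity)
      _ = 2 * K * (Real.exp (-2 * l) * Real.exp l) := by ring
      _ = 2 * K * Real.exp (-l) := by
          rw [← Real.exp_add]; congr 2; ring

namespace CylAS

/-- the first variation of `X1 = χ (x' - x)` -/
theorem FV1_le (h : CylAS W π κ x₀ R h₀ δ) (h0 : 0 ≤ δ) (hh : 0 ≤ h₀) (hg : Ker g g1) {K : ℝ}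
    (hK : Bd g g1 K) {l : ℝ} (hl : ‖x - x₀‖ + Real.exp l ≤ R) :
    |FV W (X1 π x g l)| ≤ δ * (K * (3 + Real.exp l)) *
      (TB W π x (Real.exp l) + h₀ ^ 2 * MB W π x (Real.exp l)) := by
  have h1 := h.fv_hor_le (x := x) h0 hh (f := fun _ => (1:ℝ)) (df := fun _ => 0)
    (fun y => hasFDerivAt_const _ _) continuous_const (hasFDerivAt_R hg l x)
    (continuous_dR hg l x) hl (F₀ := 1) (d₀ := 0) (a := 3 * K) (b := K * Real.exp l)
    (fun y _ => by simp) (fun y _ => by simp) (norm_dR_le hK l x) (norm_R_le hg hK l x)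
    (fun v hv => by rw [hg.zero _ (Ker.one_le_of x hv), zero_smul]) (fun v hv => dR_zero hg hv)
  refine h1.trans (le_of_eq ?_)
  ring



end CylAS

end Crest.Agent.R234.Asl_214
end
end

-- ▼ part R234/Asl5_214
section

/-!
# Row 234, VF-ASL, part 5 (helper214)

(W1), (W2), (W3) of helper504 (#5326) / helper870 for the almost stationary class, scaled errors.
-/

set_option autoImplicit false

open MeasureTheory Set Function Filter Topology
open Crest.GeometryTopology.Submanifold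
open Crest.Agent.R234.Vf_884 Crest.Agent.R234.Ar_870 Crest.Agent.R234.Cy_870
open Crest.Agent.R234.AS_456 (AS errA err hp vp)
open scoped ENNReal NNReal InnerProductSpace

noncomputable section

namespace Crest.Agent.R234.Asl_214

variable {m n k : ℕ} {π : Euc k →L[ℝ] Euc m} {κ : Euc k →L[ℝ] Euc n} {δ : ℝ}
  {x₀ x : Euc m} {R h₀ : ℝ} {W : Measure (Euc k × L k)} {g g1 g2 : ℝ → ℝ}
  {F : Euc n → ℝ} {dF : Euc n → Euc n} {H : Euc n → L n}

/-- scaled tilt energy over the open ball of radius `e^l` -/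
def tb (W : Measure (Euc k × L k)) (π : Euc k →L[ℝ] Euc m) (x : Euc m) (l : ℝ) : ℝ :=
  Real.exp ((2 - m) * l) * TB W π x (Real.exp l)

/-- scaled mass over the open ball of radius `e^l` -/
def mb (W : Measure (Euc k × L k)) (π : Euc k →L[ℝ] Euc m) (x : Euc m) (l : ℝ) : ℝ :=
  Real.exp (-m * l) * MB W π x (Real.exp l)

theorem mb_nonneg (x : Euc m) (l : ℝ) : 0 ≤ mb W π x l :=
  mul_nonneg (Real.exp_pos _).le (MB_nonneg x _)

theorem CylAS.tb_nonneg (h : CylAS W π κ x₀ R h₀ δ) (x : Euc m) (l : ℝ) : 0 ≤ tb W π x l :=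
  mul_nonneg (Real.exp_pos _).le (h.TB_nonneg x _)

theorem TB_eq (W : Measure (Euc k × L k)) (π : Euc k →L[ℝ] Euc m) (x : Euc m) (l : ℝ) :
    TB W π x (Real.exp l) = Real.exp ((m - 2) * l) * tb W π x l := by
  unfold tb
  rw [← mul_assoc, ← Real.exp_add]
  have : (m - 2 : ℝ) * l + (2 - m) * l = 0 := by ring
  rw [this, Real.exp_zero, one_mul]

theorem MB_eq (W : Measure (Euc k × L k)) (π : Euc k →L[ℝ] Euc m) (x : Euc m) (l : ℝ) :
    MB W π x (Real.exp l) = Real.exp (m * l) * mb W π x l := by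
  unfold mb
  rw [← mul_assoc, ← Real.exp_add]
  have : (m : ℝ) * l + -m * l = 0 := by ring
  rw [this, Real.exp_zero, one_mul]

theorem sqrt_TM (h : CylAS W π κ x₀ R h₀ δ) (x : Euc m) (l : ℝ) :
    √(TB W π x (Real.exp l)) * √(MB W π x (Real.exp l)) =
      Real.exp ((m - 1) * l) * (√(tb W π x l) * √(mb W π x l)) := by
  have h1 := h.tb_nonneg x l
  have h2 := mb_nonneg (W := W) (π := π) x l
  rw [TB_eq, MB_eq, ← Real.sqrt_mul (by positivity), ← Real.sqrt_mul h1]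
  have h3 : Real.exp ((m - 2) * l) * tb W π x l * (Real.exp (m * l) * mb W π x l) =
      Real.exp ((m - 1) * l) ^ 2 * (tb W π x l * mb W π x l) := by
    have : Real.exp ((m - 1) * l) ^ 2 = Real.exp ((m - 2) * l) * Real.exp (m * l) := by
      rw [← Real.exp_nat_mul, ← Real.exp_add]; congr 1; push_cast; ring
    rw [this]; ring
  rw [h3, Real.sqrt_mul (by positivity), Real.sqrt_sq (Real.exp_pos _).le]

/-- the error of (W1) -/
def rho1 (W : Measure (Euc k × L k)) (π : Euc k →L[ℝ] Euc m) (x : Euc m) (g : ℝ → ℝ) (l : ℝ) : ℝ :=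
  -(Real.exp ((2 - m) * l) * FV W (X1 π x g l))

/-- the error of (W2) -/
def rho2 (W : Measure (Euc k × L k)) (π : Euc k →L[ℝ] Euc m) (κ : Euc k →L[ℝ] Euc n) (x : Euc m)
    (dF : Euc n → Euc n) (g : ℝ → ℝ) (l : ℝ) : ℝ :=
  Real.exp ((2 - m) * l) * FV W (X2 π κ x dF g l)


namespace CylAS

/-- **(W1)** -/
theorem W1 (h : CylAS W π κ x₀ R h₀ δ) (hg : Prof g g1 g2) (Q l : ℝ) :
    HasDerivAt (EE W π x g Q) (2 * bb W π x g Q l + RR W π x g1 l + rho1 W π x g l) l :=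
  hasDerivAt_EE (h.fr x (l + 1)) hg Q (by linarith : l < l + 1)






end CylAS

end Crest.Agent.R234.Asl_214
end
end

-- ▼ part R234/Asl6_214
section

/-!
# Row 234, VF-ASL, part 6 (helper214)

The first variation bounds of 870's fields `X2`, `X3` for arbitrary `C²` functions of the height
(no sign, no `|dF|² ≤ 2F`), scaled.
-/

set_option autoImplicit false

open MeasureTheory Set Function Filter Topology
open Crest.GeometryTopology.Submanifold
open Crest.Agent.R234.Vf_884 Crest.Agent.R234.Ar_870 Crest.Agent.R234.Cy_870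
open Crest.Agent.R234.AS_456 (AS errA err hp vp)
open scoped ENNReal NNReal InnerProductSpace

noncomputable section

namespace Crest.Agent.R234.Asl_214

variable {m n k : ℕ} {π : Euc k →L[ℝ] Euc m} {κ : Euc k →L[ℝ] Euc n} {δ : ℝ}
  {x₀ x : Euc m} {R h₀ : ℝ} {W : Measure (Euc k × L k)} {g g1 g2 : ℝ → ℝ}
  {F : Euc n → ℝ} {dF : Euc n → Euc n} {H : Euc n → L n}

/-- a `C²` function of the height with gradient `dF` and Hessian `H` -/
structure C2F (F : Euc n → ℝ) (dF : Euc n → Euc n) (H : Euc n → L n) : Prop where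
  hasF : ∀ y, HasFDerivAt F (innerSL ℝ (dF y)) y
  hasdF : ∀ y, HasFDerivAt dF (H y) y
  contH : Continuous H


theorem C2F.contdF (h : C2F F dF H) : Continuous dF :=
  continuous_iff_continuousAt.2 fun y => (h.hasdF y).continuousAt

namespace CylAS

/-- the first variation of `X2 = χ dF(y)`, any `C²` function -/
theorem FV2_gen (h : CylAS W π κ x₀ R h₀ δ) (h0 : 0 ≤ δ) (hh : 0 ≤ h₀) (hg : Ker g g1) {K : ℝ}
    (hK : Bd g g1 K) (hF : C2F F dF H) {d₀ B₀ : ℝ} (hd₀ : ∀ y, ‖y‖ ≤ h₀ → ‖dF y‖ ≤ d₀)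
    (hB₀ : ∀ y, ‖y‖ ≤ h₀ → ‖H y‖ ≤ B₀) {l : ℝ} (hl : ‖x - x₀‖ + Real.exp l ≤ R) :
    |FV W (X2 π κ x dF g l)| ≤
      δ * d₀ * (K * (2 * Real.exp (-l) + 1)) *
        (√(TB W π x (Real.exp l)) * √(MB W π x (Real.exp l)) + h₀ * MB W π x (Real.exp l)) +
      K * δ * B₀ * h₀ * (√(TB W π x (Real.exp l)) * √(MB W π x (Real.exp l))) +
      K * (δ * B₀ + √δ * d₀) * TB W π x (Real.exp l) := by
  have h1 := h.fv_ver_le (x := x) h0 hh (f := fun v : Euc m => g (Real.exp (-2 * l) * ‖v - x‖ ^ 2))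
    (df := dr g1 l x) (fun v => hasFDerivAt_rad hg.der l x v) (continuous_dr hg l x) hF.hasdF
    hF.contH hl (f₀ := K) (a := 2 * K * Real.exp (-l)) (d₀ := d₀) (B₀ := B₀)
    (fun v => hK.b0 _ (scaled_nonneg l x v)) (norm_dr_le hg hK l x) hd₀ hB₀
    (fun v hv => hg.zero _ (Ker.one_le_of x hv)) (fun v hv => dr_zero hg hv)
  refine h1.trans (le_of_eq ?_)
  ring

/-- the first variation of `X3 = F g1 (x' - x)`, any `C²` function -/
theorem FV3_gen (h : CylAS W π κ x₀ R h₀ δ) (h0 : 0 ≤ δ) (hh : 0 ≤ h₀) (hg : Ker g1 g2) {K : ℝ}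
    (hK : Bd g1 g2 K) (hF : C2F F dF H) {F₀ d₀ : ℝ} (hF₀ : ∀ y, ‖y‖ ≤ h₀ → |F y| ≤ F₀)
    (hd₀ : ∀ y, ‖y‖ ≤ h₀ → ‖dF y‖ ≤ d₀) {l : ℝ} (hl : ‖x - x₀‖ + Real.exp l ≤ R) :
    |FV W (X3 π κ x F g1 l)| ≤
      δ * F₀ * (K * (3 + Real.exp l)) *
        (TB W π x (Real.exp l) + h₀ ^ 2 * MB W π x (Real.exp l)) +
      δ * d₀ * (K * Real.exp l) *
        (√(TB W π x (Real.exp l)) * √(MB W π x (Real.exp l)) + h₀ * MB W π x (Real.exp l)) := by
  have h1 := h.fv_hor_le (x := x) h0 hh hF.hasF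
    ((innerSL ℝ).continuous.comp hF.contdF) (hasFDerivAt_R hg l x)
    (continuous_dR hg l x) hl (F₀ := F₀) (d₀ := d₀) (a := 3 * K) (b := K * Real.exp l)
    hF₀ (fun y hy => by rw [innerSL_apply_norm]; exact hd₀ y hy)
    (norm_dR_le hK l x) (norm_R_le hg hK l x)
    (fun v hv => by rw [hg.zero _ (Ker.one_le_of x hv), zero_smul]) (fun v hv => dR_zero hg hv)
  refine h1.trans (le_of_eq ?_)
  ring



end CylAS

end Crest.Agent.R234.Asl_214
end
namespace Crest.Agent.R234.Cy_870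
end Crest.Agent.R234.Cy_870
end

-- ▼ part R234/Asl7_214

/-!
# Row 234, VF-ASL, part 7 (helper214)

Sharp weighted errors (helper98 #6717): `|s^{2-m} FV X1| ≤ 2 δ (e + et) + 4 K δ h₀² s² mb`,
`s^{-m} |FV X3| ≤ (δ/2) √(IF et) + ..`, `et = e' + (m-2) e = s^{2-m} ∫ tl (-2 t g1(t)) dW ≥ RR`.
-/

set_option autoImplicit false

open MeasureTheory Set Function Filter Topology
open Crest.GeometryTopology.Submanifold
open Crest.Agent.R234.Vf_884 Crest.Agent.R234.Ar_870 Crest.Agent.R234.Cy_870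
open Crest.Agent.R234.AS_456 (AS errA err hp vp)
open scoped ENNReal NNReal InnerProductSpace

noncomputable section

namespace Crest.Agent.R234.Asl_214

variable {m n k : ℕ} {π : Euc k →L[ℝ] Euc m} {κ : Euc k →L[ℝ] Euc n} {δ : ℝ}
  {x₀ x : Euc m} {R h₀ : ℝ} {W : Measure (Euc k × L k)} {g g1 g2 : ℝ → ℝ}
  {F : Euc n → ℝ} {dF : Euc n → Euc n} {H : Euc n → L n}


/-- `et = s^{2-m} ∫ tl (-2 t g1(t)) dW` -/
def et (W : Measure (Euc k × L k)) (π : Euc k →L[ℝ] Euc m) (x : Euc m) (g1 : ℝ → ℝ) (l : ℝ) : ℝ :=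
  Real.exp ((2 - m) * l) *
    ∫ p, tl π p.2 * (-2 * (Real.exp (-2 * l) * ‖π p.1 - x‖ ^ 2 *
      g1 (Real.exp (-2 * l) * ‖π p.1 - x‖ ^ 2))) ∂W





namespace CylAS


theorem et_nonneg (h : CylAS W π κ x₀ R h₀ δ) (hg : Prof g g1 g2) (x : Euc m) (l : ℝ) :
    0 ≤ et W π x g1 l := by
  unfold et
  refine mul_nonneg (Real.exp_pos _).le (integral_nonneg_of_ae ?_)
  filter_upwards [h.tl_nonneg'] with p hp
  have h1 := hg.anti _ (scaled_nonneg l x (π p.1))
  have h2 := mul_nonpos_of_nonneg_of_nonpos (scaled_nonneg l x (π p.1)) h1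
  exact mul_nonneg hp (by linarith)

theorem ee_nonneg (h : CylAS W π κ x₀ R h₀ δ) (hg : Prof g g1 g2) (x : Euc m) (l : ℝ) :
    0 ≤ ee W π x g l := by
  unfold ee
  refine mul_nonneg (Real.exp_pos _).le (integral_nonneg_of_ae ?_)
  filter_upwards [h.tl_nonneg'] with p hp
  exact mul_nonneg hp (Prof.nonneg hg _ (scaled_nonneg l x (π p.1)))

theorem RR_nonneg (h : CylAS W π κ x₀ R h₀ δ) (hg : Prof g g1 g2) (x : Euc m) (l : ℝ) :
    0 ≤ RR W π x g1 l := by
  unfold RR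
  refine mul_nonneg (Real.exp_pos _).le (integral_nonneg_of_ae ?_)
  filter_upwards [h.conc] with p hp
  have := hg.anti (Real.exp (-2 * l) * ‖π p.1 - x‖ ^ 2) (by positivity)
  exact mul_nonneg (qf_nonneg h.sp.hh (isPr_of_G hp) _) (by linarith)

/-- continuous kernels against continuous coefficients -/
theorem int_ck (h : CylAS W π κ x₀ R h₀ δ) {c : Euc k × L k → ℝ} (hc : Continuous c) {f : ℝ → ℝ}
    (hf : Continuous f) (x : Euc m) (l : ℝ) :
    Integrable (fun p => c p * f (Real.exp (-2 * l) * ‖π p.1 - x‖ ^ 2)) W := by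
  refine h.integrable_continuous (hc.mul (hf.comp ?_))
  exact continuous_const.mul (((π.continuous.comp continuous_fst).sub
    continuous_const).norm.pow 2)

/-- the radial energy is at most `et` -/
theorem RR_le_et (h : CylAS W π κ x₀ R h₀ δ) (hg : Prof g g1 g2) (x : Euc m) (l : ℝ) :
    RR W π x g1 l ≤ et W π x g1 l := by
  unfold RR et
  have h6 : Real.exp (-m * l) = Real.exp ((2 - m) * l) * Real.exp (-2 * l) := by
    rw [← Real.exp_add]; congr 1; ring
  rw [h6, mul_assoc]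
  refine mul_le_mul_of_nonneg_left ?_ (Real.exp_pos _).le
  rw [← integral_const_mul]
  have i1 : Integrable (fun p : Euc k × L k => Real.exp (-2 * l) * (qf π p.2 (π p.1 - x) *
      (-2 * g1 (Real.exp (-2 * l) * ‖π p.1 - x‖ ^ 2)))) W :=
    (h.int_ck (continuous_qf π x) (continuous_const.mul hg.k0.cont) x l).const_mul _
  have i2 : Integrable (fun p : Euc k × L k => tl π p.2 *
      (-2 * (Real.exp (-2 * l) * ‖π p.1 - x‖ ^ 2 *
        g1 (Real.exp (-2 * l) * ‖π p.1 - x‖ ^ 2)))) W :=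
    h.int_ck (f := fun t => -2 * (t * g1 t)) (continuous_tl π)
      (continuous_const.mul (continuous_id.mul hg.k0.cont)) x l
  refine integral_mono_ae i1 i2 ?_
  filter_upwards [h.conc] with p hp
  have h1 := qf_le_tl h.sp hp (π p.1 - x)
  have h2 := hg.anti _ (scaled_nonneg l x (π p.1))
  have h3 : 0 ≤ Real.exp (-2 * l) * (-2 * g1 (Real.exp (-2 * l) * ‖π p.1 - x‖ ^ 2)) :=
    mul_nonneg (Real.exp_pos _).le (by linarith)
  have h4 := mul_le_mul_of_nonneg_right h1 h3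
  nlinarith [h4]



end CylAS

end Crest.Agent.R234.Asl_214
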