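import Crest.Agent.R234.Asl7_214

/-!
# Row 234, VF-ASL, part 8 (helper214)

Sharp weighted error of (W3) (helper98 #6717):
`s^{-m} |FV X3| ≤ (δ/2) √(et IF) + δ h₀ s √(K mb) √(IF/2) + (terms with the factor F₀)`, and
`IF' = 2 fl + err3 + f3`, `fl² ≤ IF RR`.
-/

set_option autoImplicit false

open MeasureTheory Set Function Filter Topology
open Crest.GeometryTopology.Submanifold
open Crest.Agent.R234.Vf_884 Crest.Agent.R234.Ar_870 Crest.Agent.R234.Cy_870
open Crest.Agent.R234.AS_456 (AS errA err hp vp)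
open scoped ENNReal NNReal InnerProductSpace

noncomputable section

namespace Crest.Agent.R234.Asl_214

variable {m n k : ℕ} {π : Euc k →L[ℝ] Euc m} {κ : Euc k →L[ℝ] Euc n} {δ : ℝ}
  {x₀ x : Euc m} {R h₀ : ℝ} {W : Measure (Euc k × L k)} {g g1 g2 : ℝ → ℝ}
  {F : Euc n → ℝ} {dF : Euc n → Euc n} {H : Euc n → L n}

/-- the error of (W3) without the vertical field -/
def f3 (W : Measure (Euc k × L k)) (π : Euc k →L[ℝ] Euc m) (κ : Euc k →L[ℝ] Euc n) (x : Euc m)
    (F : Euc n → ℝ) (g1 : ℝ → ℝ) (l : ℝ) : ℝ :=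
  4 * Real.exp (-m * l) * FV W (X3 π κ x F g1 l)

/-- the flux `eF - s^{2-m} FV X2` -/
def fl (W : Measure (Euc k × L k)) (π : Euc k →L[ℝ] Euc m) (κ : Euc k →L[ℝ] Euc n) (x : Euc m)
    (dF : Euc n → Euc n) (H : Euc n → L n) (g : ℝ → ℝ) (l : ℝ) : ℝ :=
  eF W π κ x H g l - rho2 W π κ x dF g l

namespace CylAS




end CylAS

end Crest.Agent.R234.Asl_214
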