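import Mathlib

-- ▼ part R234/Pot1_425
section

/-!
R234 (helper425), POT part 1: the linear complementarity problem on a compact metric space.
-/

open MeasureTheory Filter Topology Set
open scoped ENNReal NNReal

namespace Crest.Agent.R234.Pot_425

noncomputable section

set_option linter.unusedSectionVars false

variable {X : Type*} [MetricSpace X] [CompactSpace X] [MeasurableSpace X] [BorelSpace X]

lemma integrable_cont {Y : Type*} [TopologicalSpace Y] [CompactSpace Y] [MeasurableSpace Y]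
    [OpensMeasurableSpace Y] (μ : Measure Y) [IsFiniteMeasure μ] {g : Y → ℝ} (hg : Continuous g) :
    Integrable g μ := by
  exact (BoundedContinuousFunction.mkOfCompact ⟨g, hg⟩).integrable μ

/-- potential of a measure -/
def pot (K : X × X → ℝ) (μ : Measure X) (x : X) : ℝ := ∫ y, K (x, y) ∂μ

lemma continuous_pot {K : X × X → ℝ} (hK : Continuous K) (μ : Measure X) [IsFiniteMeasure μ] :
    Continuous (pot K μ) := by
  obtain ⟨C, hC⟩ := (isCompact_univ (X := X × X)).exists_bound_of_continuousOn hK.continuousOn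
  refine continuous_of_dominated (bound := fun _ => C) ?_ ?_ ?_ ?_
  · intro x
    exact (hK.comp (by fun_prop : Continuous fun y => (x, y))).aestronglyMeasurable
  · intro x
    exact Eventually.of_forall fun y => hC (x, y) (mem_univ _)
  · exact integrable_const _
  · exact Eventually.of_forall fun y => hK.comp (by fun_prop)

/-- energy -/
def en (K : X × X → ℝ) (μ ν : Measure X) : ℝ := ∫ x, pot K ν x ∂μ

lemma en_eq_prod {K : X × X → ℝ} (hK : Continuous K) (μ ν : Measure X) [IsFiniteMeasure μ]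
    [IsFiniteMeasure ν] : en K μ ν = ∫ p, K p ∂(μ.prod ν) := by
  rw [integral_prod _ (integrable_cont _ hK)]; rfl

lemma en_symm {K : X × X → ℝ} (hK : Continuous K) (hs : ∀ x y, K (x, y) = K (y, x))
    (μ ν : Measure X) [IsFiniteMeasure μ] [IsFiniteMeasure ν] : en K μ ν = en K ν μ := by
  rw [en_eq_prod hK]
  rw [integral_prod_symm _ (integrable_cont _ hK)]
  unfold en pot
  refine integral_congr_ae (Eventually.of_forall fun y => ?_)
  refine integral_congr_ae (Eventually.of_forall fun x => ?_)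
  exact hs x y

lemma continuous_prob {g : X → ℝ} (hg : Continuous g) :
    Continuous fun p : ProbabilityMeasure X => ∫ x, g x ∂(p : Measure X) := by
  have := (FiniteMeasure.continuous_integral_continuousMap (⟨g, hg⟩ : C(X, ℝ))).comp
    (ProbabilityMeasure.toFiniteMeasure_continuous (Ω := X))
  exact this

lemma continuous_prob_en {K : X × X → ℝ} (hK : Continuous K) :
    Continuous fun p : ProbabilityMeasure X => en K (p : Measure X) (p : Measure X) := by
  have h1 : Continuous fun p : ProbabilityMeasure X => p.prod p :=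
    ProbabilityMeasure.continuous_prod.comp (by fun_prop : Continuous fun p : ProbabilityMeasure X => (p, p))
  have h2 : Continuous fun q : ProbabilityMeasure (X × X) => ∫ z, K z ∂(q : Measure (X × X)) := by
    have := (FiniteMeasure.continuous_integral_continuousMap (⟨K, hK⟩ : C(X × X, ℝ))).comp
      (ProbabilityMeasure.toFiniteMeasure_continuous (Ω := X × X))
    exact this
  have h3 := h2.comp h1
  refine h3.congr fun p => ?_
  simp only [Function.comp]
  rw [en_eq_prod hK]
  rfl

lemma pot_add {K : X × X → ℝ} (hK : Continuous K) (μ ν : Measure X) [IsFiniteMeasure μ]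
    [IsFiniteMeasure ν] (x : X) : pot K (μ + ν) x = pot K μ x + pot K ν x := by
  unfold pot
  rw [integral_add_measure]
  · exact integrable_cont _ (hK.comp (by fun_prop))
  · exact integrable_cont _ (hK.comp (by fun_prop))

lemma pot_smul {K : X × X → ℝ} (c : ℝ≥0) (μ : Measure X) (x : X) :
    pot K (c • μ) x = c * pot K μ x := by
  unfold pot
  rw [integral_smul_nnreal_measure]
  rfl

lemma en_add_add {K : X × X → ℝ} (hK : Continuous K) (hs : ∀ x y, K (x, y) = K (y, x))
    (μ ν : Measure X) [IsFiniteMeasure μ] [IsFiniteMeasure ν] :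
    en K (μ + ν) (μ + ν) = en K μ μ + 2 * en K ν μ + en K ν ν := by
  have h1 : en K (μ + ν) (μ + ν) = ∫ x, (pot K μ x + pot K ν x) ∂(μ + ν) :=
    integral_congr_ae (Eventually.of_forall fun x => pot_add hK μ ν x)
  rw [h1, integral_add_measure]
  · rw [integral_add (integrable_cont _ (continuous_pot hK μ)) (integrable_cont _ (continuous_pot hK ν)),
      integral_add (integrable_cont _ (continuous_pot hK μ)) (integrable_cont _ (continuous_pot hK ν))]
    have h2 : ∫ x, pot K ν x ∂μ = ∫ x, pot K μ x ∂ν := en_symm hK hs μ ν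
    rw [h2]
    unfold en
    ring
  · exact integrable_cont _ ((continuous_pot hK μ).add (continuous_pot hK ν))
  · exact integrable_cont _ ((continuous_pot hK μ).add (continuous_pot hK ν))

lemma en_smul_smul {K : X × X → ℝ} (c : ℝ≥0) (μ : Measure X) :
    en K (c • μ) (c • μ) = c ^ 2 * en K μ μ := by
  unfold en
  rw [integral_smul_nnreal_measure]
  have : (fun x => pot K (c • μ) x) = fun x => (c : ℝ) * pot K μ x := by
    funext x; exact pot_smul c μ x
  rw [this, integral_const_mul, NNReal.smul_def, smul_eq_mul]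
  ring

/-- **LCP on a compact space**: for a continuous symmetric positive kernel `K` and a continuous obstacle
`f` there is a finite measure `ε` with `K ε ≥ f` everywhere and `K ε = f` on the support of `ε`. -/
theorem exists_contact {K : X × X → ℝ} (hK : Continuous K) (hs : ∀ x y, K (x, y) = K (y, x))
    (hpos : ∀ p, 0 < K p) {f : X → ℝ} (hf : Continuous f) :
    ∃ ε : Measure X, IsFiniteMeasure ε ∧ (∀ x, f x ≤ pot K ε x) ∧
      ∀ x ∈ ε.support, pot K ε x = f x := by
  classical
  by_cases hne : ∃ x, 0 < f x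
  swap
  · push Not at hne
    refine ⟨0, inferInstance, fun x => ?_, fun x hx => ?_⟩
    · simpa [pot] using hne x
    · simp at hx
  obtain ⟨x0, hx0⟩ := hne
  have : Nonempty X := ⟨x0⟩
  -- the functional on probability measures
  let L : ProbabilityMeasure X → ℝ := fun p => ∫ x, f x ∂(p : Measure X)
  let Q : ProbabilityMeasure X → ℝ := fun p => en K (p : Measure X) (p : Measure X)
  have hL : Continuous L := continuous_prob hf
  have hQ : Continuous Q := continuous_prob_en hK
  -- K ≥ c > 0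
  obtain ⟨pm, -, hpm⟩ := (isCompact_univ (X := X × X)).exists_isMinOn univ_nonempty hK.continuousOn
  have hc : 0 < K pm := hpos pm
  have hKc : ∀ z, K pm ≤ K z := fun z => hpm (mem_univ z)
  have hQpos : ∀ p, 0 < Q p := by
    intro p
    have h1 : ∀ x, K pm ≤ pot K (p : Measure X) x := by
      intro x
      have h2 : ∫ y, K pm ∂(p : Measure X) ≤ ∫ y, K (x, y) ∂(p : Measure X) :=
        integral_mono (integrable_const _) (integrable_cont _ (hK.comp (by fun_prop)))
          (fun y => hKc (x, y))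
      simpa [pot] using h2
    have h3 : ∫ x, K pm ∂(p : Measure X) ≤ ∫ x, pot K (p : Measure X) x ∂(p : Measure X) :=
      integral_mono (integrable_const _) (integrable_cont _ (continuous_pot hK _)) h1
    have h4 : K pm ≤ Q p := by
      have h5 : ∫ x : X, K pm ∂(p : Measure X) = K pm := by simp
      rw [h5] at h3
      exact h3
    linarith
  let R : ProbabilityMeasure X → ℝ := fun p => max (L p) 0 ^ 2 / Q p
  have hR : Continuous R := ((hL.max continuous_const).pow 2).div hQ (fun p => (hQpos p).ne')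
  obtain ⟨p0, -, hp0⟩ := (isCompact_univ (X := ProbabilityMeasure X)).exists_isMaxOn
    ⟨⟨Measure.dirac x0, inferInstance⟩, mem_univ _⟩ hR.continuousOn
  have hmax : ∀ p, R p ≤ R p0 := fun p => hp0 (mem_univ p)
  have hL0 : 0 < L p0 := by
    by_contra hcon
    push Not at hcon
    have h1 : R p0 = 0 := by
      simp only [R, max_eq_right hcon]; simp
    let pd : ProbabilityMeasure X := ⟨Measure.dirac x0, inferInstance⟩
    have h2 : L pd = f x0 := by
      simp only [L, pd]
      simp
    have h3 : 0 < R pd := by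
      simp only [R, h2]
      have : 0 < max (f x0) 0 := lt_max_of_lt_left hx0
      have h5 := hQpos pd
      positivity
    have := hmax pd
    linarith
  -- the minimiser
  let t0 : ℝ≥0 := ⟨L p0 / Q p0, (div_pos hL0 (hQpos p0)).le⟩
  obtain ⟨ε, hεd⟩ : ∃ ε : Measure X, ε = t0 • (p0 : Measure X) := ⟨_, rfl⟩
  have hεfin : IsFiniteMeasure ε := by
    rw [hεd]
    infer_instance
  have hfε : ∫ x, f x ∂ε = t0 * L p0 := by
    rw [hεd, integral_smul_nnreal_measure]
    rfl
  have hQε : en K ε ε = (t0 : ℝ) ^ 2 * Q p0 := by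
    rw [hεd]
    exact en_smul_smul t0 _
  have ht0 : (t0 : ℝ) = L p0 / Q p0 := rfl
  have hFε : en K ε ε / 2 - ∫ x, f x ∂ε = - R p0 / 2 := by
    rw [hfε, hQε, ht0]
    have h1 : R p0 = L p0 ^ 2 / Q p0 := by
      simp only [R, max_eq_left hL0.le]
    rw [h1]
    have := (hQpos p0).ne'
    field_simp
    ring
  -- lower bound of the functional
  have hlow : ∀ μ : Measure X, IsFiniteMeasure μ → - R p0 / 2 ≤ en K μ μ / 2 - ∫ x, f x ∂μ := by
    intro μ hμ
    by_cases h0 : μ = 0
    · subst h0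
      have : 0 ≤ R p0 := by
        have := (hQpos p0)
        positivity
      simp [en]
      linarith
    · let μf : FiniteMeasure X := ⟨μ, hμ⟩
      have hμf : μf ≠ 0 := by
        intro h
        apply h0
        have := congrArg (fun ν : FiniteMeasure X => (ν : Measure X)) h
        simpa [μf] using this
      let p := μf.normalize
      have hself : μ = (μf.mass) • (p : Measure X) := by
        have h1 := μf.self_eq_mass_smul_normalize
        have h2 := congrArg (fun ν : FiniteMeasure X => (ν : Measure X)) h1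
        simpa [μf, p] using h2
      set t : ℝ≥0 := μf.mass with ht
      have h1 : en K μ μ = (t : ℝ) ^ 2 * Q p := by
        rw [hself]; exact en_smul_smul t _
      have h2 : ∫ x, f x ∂μ = t * L p := by
        rw [hself, integral_smul_nnreal_measure]
        rfl
      rw [h1, h2]
      have h3 := hmax p
      have h4 := hQpos p
      have h5 : max (L p) 0 ^ 2 ≤ R p0 * Q p := by
        have : R p * Q p = max (L p) 0 ^ 2 := by
          simp only [R]; field_simp
        rw [← this]
        exact mul_le_mul_of_nonneg_right h3 h4.le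
      have h6 : (t : ℝ) * L p ≤ t * max (L p) 0 :=
        mul_le_mul_of_nonneg_left (le_max_left _ _) t.2
      set a := max (L p) 0
      -- t a ≤ t^2 Q /2 + R/2, as a^2 ≤ R Q
      have h7 : (t : ℝ) * a ≤ (t : ℝ) ^ 2 * Q p / 2 + R p0 / 2 := by
        have h8 : 0 ≤ ((t : ℝ) * Q p - a) ^ 2 := sq_nonneg _
        have h9 : 0 ≤ Q p * ((t : ℝ) ^ 2 * Q p - 2 * t * a + R p0) := by nlinarith
        have h10 : 0 ≤ ((t : ℝ) ^ 2 * Q p - 2 * t * a + R p0) := by
          by_contra hneg
          push Not at hneg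
          have := mul_neg_of_pos_of_neg h4 hneg
          linarith
        linarith
      linarith
  -- first variation
  have hge : ∀ x, f x ≤ pot K ε x := by
    intro x
    by_contra hcon
    push Not at hcon
    -- use ε + s δ_x
    set d := f x - pot K ε x with hd
    have hdpos : 0 < d := by rw [hd]; linarith
    have key : ∀ s : ℝ≥0, 0 ≤ - (s : ℝ) * d + (s : ℝ) ^ 2 * K (x, x) / 2 := by
      intro s
      have h1 := hlow (ε + s • Measure.dirac x) inferInstance
      rw [en_add_add hK hs] at h1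
      have h2 : en K (s • Measure.dirac x) ε = s * pot K ε x := by
        unfold en
        rw [integral_smul_nnreal_measure, integral_dirac, NNReal.smul_def, smul_eq_mul]
      have h3 : en K (s • Measure.dirac x) (s • Measure.dirac x) = (s : ℝ) ^ 2 * K (x, x) := by
        rw [en_smul_smul]
        unfold en pot
        rw [integral_dirac, integral_dirac]
      have h4 : ∫ y, f y ∂(ε + s • Measure.dirac x) = ∫ y, f y ∂ε + s * f x := by
        rw [integral_add_measure (integrable_cont _ hf) (integrable_cont _ hf),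
          integral_smul_nnreal_measure, integral_dirac, NNReal.smul_def, smul_eq_mul]
      rw [h2, h3, h4, ← hFε] at h1
      have : d = f x - pot K ε x := hd
      rw [this]
      nlinarith
    have hk := hpos (x, x)
    have h1 : 0 ≤ - (d / K (x, x)) * d + (d / K (x, x)) ^ 2 * K (x, x) / 2 :=
      key ⟨d / K (x, x), (div_pos hdpos hk).le⟩
    have h2 : - (d / K (x, x)) * d + (d / K (x, x)) ^ 2 * K (x, x) / 2 = - d ^ 2 / K (x, x) / 2 := by
      field_simp
      ring
    rw [h2] at h1
    have h3 : 0 < d ^ 2 / K (x, x) / 2 := by positivity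
    have h4 : - d ^ 2 / K (x, x) / 2 = - (d ^ 2 / K (x, x) / 2) := by ring
    rw [h4] at h1
    linarith
  have hzero : ∫ x, (pot K ε x - f x) ∂ε = 0 := by
    rw [integral_sub (integrable_cont _ (continuous_pot hK ε)) (integrable_cont _ hf)]
    have h1 : ∫ x, pot K ε x ∂ε = en K ε ε := rfl
    rw [h1, hQε, hfε, ht0]
    have := (hQpos p0).ne'
    field_simp
    ring
  have hcont : Continuous fun x => pot K ε x - f x := (continuous_pot hK ε).sub hf
  have hae : (fun x => pot K ε x - f x) =ᵐ[ε] 0 := by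
    rw [← integral_eq_zero_iff_of_nonneg (fun x => sub_nonneg.2 (hge x)) (integrable_cont _ hcont)]
    exact hzero
  refine ⟨ε, inferInstance, hge, fun x hx => ?_⟩
  by_contra hcon
  have hU : {z | pot K ε z - f z ≠ 0} ∈ 𝓝 x := by
    have : IsOpen {z | pot K ε z - f z ≠ 0} := isOpen_ne_fun hcont continuous_const
    exact this.mem_nhds (by
      show pot K ε x - f x ≠ 0
      intro h
      exact hcon (by linarith))
  have h1 := (Measure.mem_support_iff_forall x).1 hx _ hU
  have h2 : ε {z | pot K ε z - f z ≠ 0} = 0 := by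
    have := hae
    rw [Filter.EventuallyEq, ae_iff] at this
    exact this
  rw [h2] at h1
  exact lt_irrefl _ h1


end

end Crest.Agent.R234.Pot_425
end

-- ▼ part R234/Pot2_425
section

/-!
R234 (helper425), POT part 2: radial weights and the scale identity
`d/ds ∫ η(y) v(x - s y) dy = s ∫ ψ(y) Δv(x - s y) dy`.
-/

open MeasureTheory Filter Topology Set Metric
open scoped ENNReal NNReal

namespace Crest.Agent.R234.Pot_425

noncomputable section

set_option linter.unusedSectionVars false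

variable {F : Type*} [NormedAddCommGroup F] [InnerProductSpace ℝ F] [FiniteDimensional ℝ F]
  [MeasurableSpace F] [BorelSpace F]

/-- A radial weight, given by its profile in `t = ‖y‖²`. -/
structure Wt where
  θ : ℝ → ℝ
  θ' : ℝ → ℝ
  deriv : ∀ t, HasDerivAt θ (θ' t) t
  cont' : Continuous θ'
  anti : ∀ t, θ' t ≤ 0
  zero : ∀ t, 1 ≤ t → θ t = 0
  zero' : ∀ t, 1 ≤ t → θ' t = 0

namespace Wt

variable (w : Wt)

lemma cont : Continuous w.θ := continuous_iff_continuousAt.2 fun t => (w.deriv t).continuousAt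

lemma antitone : Antitone w.θ := antitone_of_hasDerivAt_nonpos w.deriv w.anti

lemma nonneg (t : ℝ) : 0 ≤ w.θ t := by
  rcases le_total t 1 with h | h
  · rw [← w.zero 1 le_rfl]
    exact w.antitone h
  · rw [w.zero t h]

/-- the weight `k` -/
def psi (y : F) : ℝ := w.θ (‖y‖ ^ 2)

/-- the averaging density, `∇ψ = - η y` -/
def eta (y : F) : ℝ := -2 * w.θ' (‖y‖ ^ 2)

lemma psi_nonneg (y : F) : 0 ≤ w.psi y := w.nonneg _

lemma eta_nonneg (y : F) : 0 ≤ w.eta y := by
  have := w.anti (‖y‖ ^ 2)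
  unfold eta; linarith

lemma continuous_psi : Continuous (w.psi : F → ℝ) := w.cont.comp (by fun_prop)

lemma continuous_eta : Continuous (w.eta : F → ℝ) :=
  continuous_const.mul (w.cont'.comp (by fun_prop))

lemma psi_zero {y : F} (hy : y ∉ closedBall (0 : F) 1) : w.psi y = 0 := by
  have : 1 < ‖y‖ := by simpa using hy
  exact w.zero _ (by nlinarith)

lemma eta_zero {y : F} (hy : y ∉ closedBall (0 : F) 1) : w.eta y = 0 := by
  have : 1 < ‖y‖ := by simpa using hy
  unfold eta
  rw [w.zero' _ (by nlinarith)]; simp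

lemma psi_zero' {y : F} (hy : 1 ≤ ‖y‖) : w.psi y = 0 := w.zero _ (by nlinarith)

lemma eta_zero' {y : F} (hy : 1 ≤ ‖y‖) : w.eta y = 0 := by
  unfold eta
  rw [w.zero' _ (by nlinarith)]; simp


lemma hasFDerivAt_psi (y : F) :
    HasFDerivAt (w.psi : F → ℝ) (-(w.eta y • innerSL ℝ y)) y := by
  have h1 : HasFDerivAt (fun y : F => ‖y‖ ^ 2) (2 • innerSL ℝ y) y :=
    (hasStrictFDerivAt_norm_sq y).hasFDerivAt
  have h2 := (w.deriv (‖y‖ ^ 2)).comp_hasFDerivAt y h1
  refine h2.congr_fderiv ?_
  ext z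
  simp [eta]
  ring

lemma hasCompactSupport_psi : HasCompactSupport (w.psi : F → ℝ) :=
  HasCompactSupport.intro (isCompact_closedBall (0 : F) 1) (fun _ h => w.psi_zero h)

lemma hasCompactSupport_eta : HasCompactSupport (w.eta : F → ℝ) :=
  HasCompactSupport.intro (isCompact_closedBall (0 : F) 1) (fun _ h => w.eta_zero h)

lemma integrable_psi_mul {h : F → ℝ} (hh : Continuous h) :
    Integrable (fun y => w.psi y * h y) (volume : Measure F) := by
  refine (w.continuous_psi.mul hh).integrable_of_hasCompactSupport ?_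
  exact w.hasCompactSupport_psi.mul_right

lemma integrable_eta_mul {h : F → ℝ} (hh : Continuous h) :
    Integrable (fun y => w.eta y * h y) (volume : Measure F) := by
  refine (w.continuous_eta.mul hh).integrable_of_hasCompactSupport ?_
  exact w.hasCompactSupport_eta.mul_right

end Wt

/-- divergence of a vector field with derivative `H` -/
def dv (H : F →L[ℝ] F) : ℝ :=
  ∑ i, inner ℝ (stdOrthonormalBasis ℝ F i) (H (stdOrthonormalBasis ℝ F i))

lemma continuous_dv : Continuous (dv : (F →L[ℝ] F) → ℝ) := by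
  unfold dv
  refine continuous_finsetSum _ fun i _ => ?_
  exact continuous_const.inner ((ContinuousLinearMap.apply ℝ F (stdOrthonormalBasis ℝ F i)).continuous)

/-- integration by parts -/
lemma ibp (w : Wt) {G : F → F} {H : F → F →L[ℝ] F} (hG : ∀ z, HasFDerivAt G (H z) z)
    (hH : Continuous H) (x : F) (s : ℝ) :
    ∫ y, w.eta y * (-(inner ℝ (G (x - s • y)) y)) = s * ∫ y, w.psi y * dv (H (x - s • y)) := by
  have hGc : Continuous G := continuous_iff_continuousAt.2 fun z => (hG z).continuousAt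
  have hmap : Continuous fun y : F => x - s • y := by fun_prop
  set b := stdOrthonormalBasis ℝ F with hb
  have key : ∀ i, ∫ y, w.psi y * (-s * inner ℝ (b i) (H (x - s • y) (b i))) =
      ∫ y, (w.eta y * inner ℝ y (b i)) * inner ℝ (G (x - s • y)) (b i) := by
    intro i
    have hg : ∀ y : F, HasFDerivAt (fun y : F => inner ℝ (G (x - s • y)) (b i))
        ((-s) • ((innerSL ℝ (b i)).comp (H (x - s • y)))) y := by
      intro y
      have h1 : HasFDerivAt (fun y : F => x - s • y) (-(s • ContinuousLinearMap.id ℝ F)) y := by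
        have h0 : HasFDerivAt (fun y : F => s • y) (s • ContinuousLinearMap.id ℝ F) y :=
          (hasFDerivAt_id (𝕜 := ℝ) y).const_smul s
        exact h0.const_sub x
      have h2 := (hG (x - s • y)).comp y h1
      have h3 := (innerSL ℝ (b i)).hasFDerivAt.comp y h2
      have h4 : (fun y : F => inner ℝ (G (x - s • y)) (b i)) =
          (innerSL ℝ (b i)) ∘ (G ∘ fun y : F => x - s • y) := by
        funext y
        simp [real_inner_comm]
      rw [h4]
      refine h3.congr_fderiv ?_
      ext z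
      simp
    have h := integral_bilinear_hasFDerivAt_right_eq_neg_left_of_integrable
      (μ := (volume : Measure F)) (B := ContinuousLinearMap.mul ℝ ℝ) (v := b i)
      (f := (w.psi : F → ℝ)) (f' := fun y => -(w.eta y • innerSL ℝ y))
      (g := fun y : F => inner ℝ (G (x - s • y)) (b i))
      (g' := fun y => (-s) • ((innerSL ℝ (b i)).comp (H (x - s • y))))
      ?_ ?_ ?_ (fun y _ => w.hasFDerivAt_psi y) (fun y _ => hg y)
    · simp only [ContinuousLinearMap.mul_apply'] at h
      have h1 : ∀ y : F, w.psi y * (((-s) • ((innerSL ℝ (b i)).comp (H (x - s • y)))) (b i)) =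
          w.psi y * (-s * inner ℝ (b i) (H (x - s • y) (b i))) := by
        intro y; simp
      have h2 : ∀ y : F, (-(w.eta y • innerSL ℝ y)) (b i) * inner ℝ (G (x - s • y)) (b i) =
          -((w.eta y * inner ℝ y (b i)) * inner ℝ (G (x - s • y)) (b i)) := by
        intro y; simp
      simp only [h1, h2] at h
      rw [h, integral_neg, neg_neg]
    · simp only [ContinuousLinearMap.mul_apply']
      have : ∀ y : F, (-(w.eta y • innerSL ℝ y)) (b i) * inner ℝ (G (x - s • y)) (b i) =
          w.eta y * (-(inner ℝ y (b i)) * inner ℝ (G (x - s • y)) (b i)) := by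
        intro y; simp; ring
      simp only [this]
      exact w.integrable_eta_mul (by fun_prop)
    · simp only [ContinuousLinearMap.mul_apply']
      refine w.integrable_psi_mul ?_
      have : Continuous fun y : F => H (x - s • y) (b i) := by fun_prop
      have h5 : ∀ y : F, ((-s) • ((innerSL ℝ (b i)).comp (H (x - s • y)))) (b i) =
        -s * inner ℝ (b i) (H (x - s • y) (b i)) := by intro y; simp
      simp only [h5]
      fun_prop
    · simp only [ContinuousLinearMap.mul_apply']
      exact w.integrable_psi_mul (by fun_prop)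
  have h1 : ∀ y : F, w.eta y * (-(inner ℝ (G (x - s • y)) y)) =
      - ∑ i, (w.eta y * inner ℝ y (b i)) * inner ℝ (G (x - s • y)) (b i) := by
    intro y
    have h2 : inner ℝ (G (x - s • y)) y = ∑ i, inner ℝ y (b i) * inner ℝ (G (x - s • y)) (b i) := by
      rw [← b.sum_inner_mul_inner (G (x - s • y)) y]
      refine Finset.sum_congr rfl fun i _ => ?_
      rw [real_inner_comm y (b i)]
      ring
    rw [h2, mul_neg, Finset.mul_sum]
    congr 1
    refine Finset.sum_congr rfl fun i _ => ?_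
    ring
  have h2 : ∀ y : F, w.psi y * dv (H (x - s • y)) =
      ∑ i, w.psi y * inner ℝ (b i) (H (x - s • y) (b i)) := by
    intro y
    unfold dv
    rw [Finset.mul_sum]
  simp only [h1, h2]
  rw [integral_neg, integral_finsetSum, integral_finsetSum]
  · rw [Finset.mul_sum, ← Finset.sum_neg_distrib]
    refine Finset.sum_congr rfl fun i _ => ?_
    rw [← key i, ← integral_neg, ← integral_const_mul]
    refine integral_congr_ae (Eventually.of_forall fun y => ?_)
    simp only
    ring
  · intro i _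
    have : Continuous fun y : F => H (x - s • y) (b i) := by fun_prop
    exact w.integrable_psi_mul (by fun_prop)
  · intro i _
    have : ∀ y : F, w.eta y * inner ℝ y (b i) * inner ℝ (G (x - s • y)) (b i) =
      w.eta y * (inner ℝ y (b i) * inner ℝ (G (x - s • y)) (b i)) := fun y => by ring
    simp only [this]
    exact w.integrable_eta_mul (by fun_prop)

/-- derivative of the kernel mean in the scale -/
theorem scale_deriv (w : Wt) {v : F → ℝ} {G : F → F} {H : F → F →L[ℝ] F}
    (hv : ∀ z, HasFDerivAt v (innerSL ℝ (G z)) z) (hG : ∀ z, HasFDerivAt G (H z) z)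
    (hH : Continuous H) (x : F) (s : ℝ) :
    HasDerivAt (fun s : ℝ => ∫ y, w.eta y * v (x - s • y))
      (s * ∫ y, w.psi y * dv (H (x - s • y))) s := by
  have hGc : Continuous G := continuous_iff_continuousAt.2 fun z => (hG z).continuousAt
  have hvc : Continuous v := continuous_iff_continuousAt.2 fun z => (hv z).continuousAt
  rw [← ibp w hG hH x s]
  have hcont : Continuous fun p : ℝ × F => w.eta p.2 * (-(inner ℝ (G (x - p.1 • p.2)) p.2)) := by
    have := w.continuous_eta (F := F)
    fun_prop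
  obtain ⟨C, hC⟩ := ((isCompact_Icc (a := s - 1) (b := s + 1)).prod
    (isCompact_closedBall (0 : F) 1)).exists_bound_of_continuousOn hcont.continuousOn
  have h := hasDerivAt_integral_of_dominated_loc_of_deriv_le (μ := (volume : Measure F))
    (𝕜 := ℝ) (E := ℝ) (F := fun (s : ℝ) (y : F) => w.eta y * v (x - s • y))
    (F' := fun (s : ℝ) (y : F) => w.eta y * (-(inner ℝ (G (x - s • y)) y)))
    (x₀ := s) (s := Icc (s - 1) (s + 1))
    (bound := (closedBall (0 : F) 1).indicator fun _ => C)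
    (Icc_mem_nhds (by linarith) (by linarith)) ?_ ?_ ?_ ?_ ?_ ?_
  · exact h.2
  · refine Eventually.of_forall fun s' => ?_
    exact (w.integrable_eta_mul (by fun_prop : Continuous fun y : F => v (x - s' • y))).aestronglyMeasurable
  · exact w.integrable_eta_mul (by fun_prop)
  · exact (w.integrable_eta_mul (by fun_prop)).aestronglyMeasurable
  · refine Eventually.of_forall fun y s' hs' => ?_
    by_cases hy : y ∈ closedBall (0 : F) 1
    · rw [indicator_of_mem hy]
      exact hC (s', y) ⟨hs', hy⟩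
    · rw [indicator_of_notMem hy, w.eta_zero hy]
      simp
  · refine (integrable_indicator_iff measurableSet_closedBall).2 ?_
    exact integrableOn_const (by exact (isCompact_closedBall (0 : F) 1).measure_lt_top.ne)
  · refine Eventually.of_forall fun y s' _ => ?_
    have h1 : HasDerivAt (fun s : ℝ => x - s • y) (-y) s' := by
      have h0 := ((hasDerivAt_id s').smul_const y).const_sub x
      simpa using h0
    have h2 := (hv (x - s' • y)).comp_hasDerivAt s' h1
    have h3 := h2.const_mul (w.eta y)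
    refine h3.congr_deriv ?_
    simp

/-- the integrated scale identity -/
theorem scale_identity (w : Wt) {v : F → ℝ} {G : F → F} {H : F → F →L[ℝ] F}
    (hv : ∀ z, HasFDerivAt v (innerSL ℝ (G z)) z) (hG : ∀ z, HasFDerivAt G (H z) z)
    (hH : Continuous H) (x : F) (s : ℝ) :
    ∫ ρ in (0 : ℝ)..s, (ρ * ∫ y, w.psi y * dv (H (x - ρ • y))) =
      (∫ y, w.eta y * v (x - s • y)) - (∫ y : F, w.eta y) * v x := by
  have hcont : Continuous fun ρ : ℝ => ρ * ∫ y, w.psi y * dv (H (x - ρ • y)) := by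
    refine continuous_id.mul ?_
    have hc : Continuous fun p : ℝ × F => w.psi p.2 * dv (H (x - p.1 • p.2)) := by
      have h1 := w.continuous_psi (F := F)
      have h2 := continuous_dv (F := F)
      have h3 : Continuous fun p : ℝ × F => H (x - p.1 • p.2) := by fun_prop
      exact (h1.comp continuous_snd).mul (h2.comp h3)
    have h4 : (fun ρ : ℝ => ∫ y, w.psi y * dv (H (x - ρ • y))) =
        fun ρ : ℝ => ∫ y in closedBall (0 : F) 1, w.psi y * dv (H (x - ρ • y)) := by
      funext ρ
      rw [setIntegral_eq_integral_of_forall_compl_eq_zero]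
      intro y hy
      rw [w.psi_zero hy, zero_mul]
    rw [h4]
    exact continuous_parametric_integral_of_continuous hc (isCompact_closedBall (0 : F) 1)
  have h := intervalIntegral.integral_eq_sub_of_hasDerivAt (a := (0 : ℝ)) (b := s)
    (fun ρ _ => scale_deriv w hv hG hH x ρ) (hcont.intervalIntegrable _ _)
  rw [h]
  congr 1
  simp only [zero_smul, sub_zero]
  rw [integral_mul_const]

end

end Crest.Agent.R234.Pot_425
end

-- ▼ part R234/Pot3_425
section

/-!
R234 (helper425), POT part 3: the mollified Green kernel of the unit ball.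
-/

open MeasureTheory Filter Topology Set Metric
open scoped ENNReal NNReal

namespace Crest.Agent.R234.Pot_425

noncomputable section

set_option linter.unusedSectionVars false

/-! ### one variable profile -/

/-- derivative of the profile -/
def gg1 (m : ℕ) (τ u : ℝ) : ℝ := -(m / 4 : ℝ) * (max u (τ ^ 2)) ^ (-(m : ℝ) / 2 - 1)

/-- the profile `u^(-m/2)/2`, continued by its tangent below `τ²` -/
def gg (m : ℕ) (τ u : ℝ) : ℝ :=
  (1 / 2 : ℝ) * (τ ^ 2) ^ (-(m : ℝ) / 2) + ∫ t in (τ ^ 2)..u, gg1 m τ t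

variable {m : ℕ} {τ : ℝ}

lemma max_pos (hτ : 0 < τ) (u : ℝ) : 0 < max u (τ ^ 2) := lt_max_of_lt_right (by positivity)

lemma continuous_gg1 (hτ : 0 < τ) : Continuous (gg1 m τ) := by
  unfold gg1
  refine continuous_const.mul ?_
  exact (continuous_id.max continuous_const).rpow_const fun u => Or.inl (max_pos hτ u).ne'

lemma hasDerivAt_gg (hτ : 0 < τ) (u : ℝ) : HasDerivAt (gg m τ) (gg1 m τ u) u := by
  have h := intervalIntegral.integral_hasDerivAt_right
    ((continuous_gg1 (m := m) hτ).intervalIntegrable (τ ^ 2) u)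
    ((continuous_gg1 (m := m) hτ).stronglyMeasurableAtFilter _ _) (continuous_gg1 hτ).continuousAt
  exact h.const_add _

lemma continuous_gg (hτ : 0 < τ) : Continuous (gg m τ) :=
  continuous_iff_continuousAt.2 fun u => (hasDerivAt_gg hτ u).continuousAt

lemma gg_of_le (_hτ : 0 < τ) {u : ℝ} (hu : u ≤ τ ^ 2) :
    gg m τ u = (1 / 2 : ℝ) * (τ ^ 2) ^ (-(m : ℝ) / 2) +
      (m / 4 : ℝ) * (τ ^ 2) ^ (-(m : ℝ) / 2 - 1) * (τ ^ 2 - u) := by
  unfold gg
  have h : ∫ t in (τ ^ 2)..u, gg1 m τ t =
      ∫ t in (τ ^ 2)..u, -(m / 4 : ℝ) * (τ ^ 2) ^ (-(m : ℝ) / 2 - 1) := by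
    refine intervalIntegral.integral_congr fun t ht => ?_
    rw [uIcc_of_ge hu] at ht
    simp only [gg1, max_eq_right ht.2]
  rw [h, intervalIntegral.integral_const]
  simp
  ring

lemma gg_of_ge (hτ : 0 < τ) {u : ℝ} (hu : τ ^ 2 ≤ u) :
    gg m τ u = (1 / 2 : ℝ) * u ^ (-(m : ℝ) / 2) := by
  have h2 : 0 < τ ^ 2 := by positivity
  unfold gg
  have h : ∫ t in (τ ^ 2)..u, gg1 m τ t =
      (1 / 2 : ℝ) * u ^ (-(m : ℝ) / 2) - (1 / 2 : ℝ) * (τ ^ 2) ^ (-(m : ℝ) / 2) := by
    have h3 : ∀ t ∈ uIcc (τ ^ 2) u, HasDerivAt (fun t : ℝ => (1 / 2 : ℝ) * t ^ (-(m : ℝ) / 2))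
        (gg1 m τ t) t := by
      intro t ht
      rw [uIcc_of_le hu] at ht
      have ht0 : 0 < t := lt_of_lt_of_le h2 ht.1
      have h4 := (Real.hasDerivAt_rpow_const (x := t) (p := -(m : ℝ) / 2) (Or.inl ht0.ne')).const_mul
        (1 / 2 : ℝ)
      refine h4.congr_deriv ?_
      simp only [gg1, max_eq_left ht.1]
      ring
    exact intervalIntegral.integral_eq_sub_of_hasDerivAt h3
      ((continuous_gg1 hτ).intervalIntegrable _ _)
  rw [h]
  ring

lemma gg_pos (hτ : 0 < τ) (u : ℝ) : 0 < gg m τ u := by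
  have h2 : 0 < τ ^ 2 := by positivity
  rcases le_total u (τ ^ 2) with h | h
  · rw [gg_of_le hτ h]
    have h3 : 0 ≤ τ ^ 2 - u := by linarith
    positivity
  · rw [gg_of_ge hτ h]
    have : 0 < u := lt_of_lt_of_le h2 h
    positivity

/-- the Laplacian profile `4 u g'(u) + 2 m g(u)` -/
def DD (m : ℕ) (τ u : ℝ) : ℝ := 4 * u * gg1 m τ u + 2 * m * gg m τ u

lemma DD_of_ge (hτ : 0 < τ) {u : ℝ} (hu : τ ^ 2 ≤ u) : DD m τ u = 0 := by
  have h2 : 0 < τ ^ 2 := by positivity
  have hu0 : 0 < u := lt_of_lt_of_le h2 hu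
  unfold DD
  rw [gg_of_ge hτ hu]
  simp only [gg1, max_eq_left hu]
  have h3 : u ^ (-(m : ℝ) / 2 - 1) * u = u ^ (-(m : ℝ) / 2) := by
    rw [← Real.rpow_add_one hu0.ne']; congr 1; ring
  rw [← h3]
  ring

lemma DD_of_le (hτ : 0 < τ) {u : ℝ} (hu : u ≤ τ ^ 2) :
    DD m τ u = m * (1 + m / 2) * (τ ^ 2) ^ (-(m : ℝ) / 2 - 1) * (τ ^ 2 - u) := by
  have h2 : 0 < τ ^ 2 := by positivity
  unfold DD
  rw [gg_of_le hτ hu]
  simp only [gg1, max_eq_right hu]
  have h3 : (τ ^ 2) ^ (-(m : ℝ) / 2) = (τ ^ 2) ^ (-(m : ℝ) / 2 - 1) * τ ^ 2 := by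
    rw [← Real.rpow_add_one h2.ne']; congr 1; ring
  rw [h3]
  ring

lemma DD_nonneg (hτ : 0 < τ) (u : ℝ) : 0 ≤ DD m τ u := by
  rcases le_total u (τ ^ 2) with h | h
  · rw [DD_of_le hτ h]
    have h3 : 0 ≤ τ ^ 2 - u := by linarith
    positivity
  · rw [DD_of_ge hτ h]

lemma continuous_DD (hτ : 0 < τ) : Continuous (DD m τ) := by
  unfold DD
  have h1 := continuous_gg1 (m := m) hτ
  have h2 := continuous_gg (m := m) hτ
  fun_prop

/-- primitive of the profile -/
def PP (m : ℕ) (τ u : ℝ) : ℝ := ∫ t in (0 : ℝ)..u, gg m τ t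

lemma hasDerivAt_PP (hτ : 0 < τ) (u : ℝ) : HasDerivAt (PP m τ) (gg m τ u) u :=
  intervalIntegral.integral_hasDerivAt_right
    ((continuous_gg (m := m) hτ).intervalIntegrable 0 u)
    ((continuous_gg (m := m) hτ).stronglyMeasurableAtFilter _ _) (continuous_gg hτ).continuousAt

lemma continuous_PP (hτ : 0 < τ) : Continuous (PP m τ) :=
  continuous_iff_continuousAt.2 fun u => (hasDerivAt_PP hτ u).continuousAt

lemma PP_strictMono (hτ : 0 < τ) : StrictMono (PP m τ) :=
  strictMono_of_hasDerivAt_pos (hasDerivAt_PP hτ) (gg_pos hτ)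

/-! ### functions `Φ(q)` of a quadratic polynomial -/

variable {F : Type*} [NormedAddCommGroup F] [InnerProductSpace ℝ F] [FiniteDimensional ℝ F]

/-- `q(z) = α‖z‖² + ⟨β, z⟩ + γ` -/
def qq (α : ℝ) (β : F) (γ : ℝ) (z : F) : ℝ := α * ‖z‖ ^ 2 + inner ℝ β z + γ

lemma hasFDerivAt_qq (α : ℝ) (β : F) (γ : ℝ) (z : F) :
    HasFDerivAt (qq α β γ) (innerSL ℝ ((2 * α) • z + β)) z := by
  have h1 : HasFDerivAt (fun y : F => ‖y‖ ^ 2) (2 • innerSL ℝ z) z :=
    (hasStrictFDerivAt_norm_sq z).hasFDerivAt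
  have h2 : HasFDerivAt (fun y : F => inner ℝ β y) (innerSL ℝ β) z := (innerSL ℝ β).hasFDerivAt
  have h3 := ((h1.const_mul α).add h2).add_const γ
  refine h3.congr_fderiv ?_
  ext y
  simp [inner_add_left]
  ring

/-- the gradient field -/
def GF (g : ℝ → ℝ) (α : ℝ) (β : F) (γ : ℝ) (z : F) : F := g (qq α β γ z) • ((2 * α) • z + β)

/-- its derivative -/
def HF (g g' : ℝ → ℝ) (α : ℝ) (β : F) (γ : ℝ) (z : F) : F →L[ℝ] F :=
  g (qq α β γ z) • ((2 * α) • ContinuousLinearMap.id ℝ F) +
    (g' (qq α β γ z) • innerSL ℝ ((2 * α) • z + β)).smulRight ((2 * α) • z + β)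

lemma hasFDerivAt_comp_qq {Φ g : ℝ → ℝ} (hΦ : ∀ u, HasDerivAt Φ (g u) u) (α : ℝ) (β : F) (γ : ℝ)
    (z : F) : HasFDerivAt (fun z => Φ (qq α β γ z)) (innerSL ℝ (GF g α β γ z)) z := by
  have h := (hΦ (qq α β γ z)).comp_hasFDerivAt z (hasFDerivAt_qq α β γ z)
  refine h.congr_fderiv ?_
  ext y
  simp [GF]

lemma hasFDerivAt_GF {g g' : ℝ → ℝ} (hg : ∀ u, HasDerivAt g (g' u) u) (α : ℝ) (β : F) (γ : ℝ)
    (z : F) : HasFDerivAt (GF g α β γ) (HF g g' α β γ z) z := by
  have h1 := (hg (qq α β γ z)).comp_hasFDerivAt z (hasFDerivAt_qq α β γ z)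
  have h0 : HasFDerivAt (fun z : F => (2 * α) • z) ((2 * α) • ContinuousLinearMap.id ℝ F) z :=
    (hasFDerivAt_id (𝕜 := ℝ) z).const_smul (2 * α)
  have h2 : HasFDerivAt (fun z : F => (2 * α) • z + β) ((2 * α) • ContinuousLinearMap.id ℝ F) z :=
    h0.add_const β
  exact h1.smul h2

lemma dv_HF (g g' : ℝ → ℝ) (α : ℝ) (β : F) (γ : ℝ) (z : F) :
    dv (HF g g' α β γ z) = g' (qq α β γ z) * ‖(2 * α) • z + β‖ ^ 2 +
      2 * α * (Module.finrank ℝ F : ℝ) * g (qq α β γ z) := by
  unfold dv HF
  set c := (2 * α) • z + β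
  set b := stdOrthonormalBasis ℝ F
  have h1 : ∀ i, inner ℝ (b i) ((g (qq α β γ z) • ((2 * α) • ContinuousLinearMap.id ℝ F) +
      (g' (qq α β γ z) • innerSL ℝ c).smulRight c) (b i)) =
      g (qq α β γ z) * (2 * α) + g' (qq α β γ z) * (inner ℝ c (b i) * inner ℝ (b i) c) := by
    intro i
    simp [inner_add_right, inner_smul_right]
    ring
  simp only [h1]
  have h2 : ∑ i, g' (qq α β γ z) * (inner ℝ c (b i) * inner ℝ (b i) c) =
      g' (qq α β γ z) * ‖c‖ ^ 2 := by
    rw [← Finset.mul_sum, b.sum_inner_mul_inner, real_inner_self_eq_norm_sq]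
  rw [Finset.sum_add_distrib, h2]
  simp
  ring

lemma continuous_HF {g g' : ℝ → ℝ} (hg : Continuous g) (hg' : Continuous g') (α : ℝ) (β : F)
    (γ : ℝ) : Continuous (HF g g' α β γ) := by
  have hq : Continuous (qq α β γ) := by unfold qq; fun_prop
  unfold HF
  refine Continuous.add ?_ ?_
  · exact (hg.comp hq).smul continuous_const
  · have h1 : Continuous fun z : F => g' (qq α β γ z) • innerSL ℝ ((2 * α) • z + β) :=
      (hg'.comp hq).smul ((innerSL ℝ).continuous.comp (by fun_prop))
    exact (ContinuousLinearMap.smulRightL ℝ F F).continuous₂.comp (h1.prodMk (by fun_prop : Continuous fun z : F => (2 * α) • z + β))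

/-! ### the kernel -/

/-- `p(x,y) = ‖x - y‖² + (1 - ‖x‖²)(1 - ‖y‖²)` -/
def pp (x y : F) : ℝ := ‖x - y‖ ^ 2 + (1 - ‖x‖ ^ 2) * (1 - ‖y‖ ^ 2)

/-- mollified Green kernel of the unit ball -/
def KK (m : ℕ) (τ : ℝ) (x y : F) : ℝ := PP m τ (pp x y) - PP m τ (‖x - y‖ ^ 2)

lemma pp_symm (x y : F) : pp x y = pp y x := by
  unfold pp; rw [norm_sub_rev]; ring

lemma KK_symm (x y : F) : KK m τ x y = KK m τ y x := by
  unfold KK; rw [pp_symm, norm_sub_rev]

lemma continuous_KK (hτ : 0 < τ) : Continuous fun z : F × F => KK m τ z.1 z.2 := by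
  have h := continuous_PP (m := m) hτ
  unfold KK pp
  fun_prop

lemma KK_pos (hτ : 0 < τ) {x y : F} (hx : ‖x‖ < 1) (hy : ‖y‖ < 1) : 0 < KK m τ x y := by
  unfold KK
  have h1 : 0 < (1 - ‖x‖ ^ 2) * (1 - ‖y‖ ^ 2) := by
    have h3 := norm_nonneg x
    have h4 := norm_nonneg y
    exact mul_pos (by nlinarith) (by nlinarith)
  have h2 : ‖x - y‖ ^ 2 < pp x y := by unfold pp; linarith
  have := PP_strictMono (m := m) hτ h2
  linarith

lemma KK_zero {x : F} (hx : ‖x‖ = 1) (y : F) : KK m τ x y = 0 := by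
  unfold KK pp; rw [hx]; simp

lemma pp_eq_qq (z y : F) : pp z y = qq (‖y‖ ^ 2) ((-2 : ℝ) • y) 1 z := by
  unfold pp qq
  rw [norm_sub_sq_real, inner_smul_left, real_inner_comm y z]
  simp
  ring

lemma dist_eq_qq (z y : F) : ‖z - y‖ ^ 2 = qq 1 ((-2 : ℝ) • y) (‖y‖ ^ 2) z := by
  unfold qq
  rw [norm_sub_sq_real, inner_smul_left, real_inner_comm y z]
  simp
  ring

/-- gradient field of `K(·,y)` -/
def GK (m : ℕ) (τ : ℝ) (y z : F) : F :=
  GF (gg m τ) (‖y‖ ^ 2) ((-2 : ℝ) • y) 1 z - GF (gg m τ) 1 ((-2 : ℝ) • y) (‖y‖ ^ 2) z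

/-- second derivative of `K(·,y)` -/
def HK (m : ℕ) (τ : ℝ) (y z : F) : F →L[ℝ] F :=
  HF (gg m τ) (gg1 m τ) (‖y‖ ^ 2) ((-2 : ℝ) • y) 1 z -
    HF (gg m τ) (gg1 m τ) 1 ((-2 : ℝ) • y) (‖y‖ ^ 2) z

lemma hasFDerivAt_KK (hτ : 0 < τ) (y z : F) :
    HasFDerivAt (fun z => KK m τ z y) (innerSL ℝ (GK m τ y z)) z := by
  have h1 := hasFDerivAt_comp_qq (hasDerivAt_PP (m := m) hτ) (‖y‖ ^ 2) ((-2 : ℝ) • y) 1 z
  have h2 := hasFDerivAt_comp_qq (hasDerivAt_PP (m := m) hτ) 1 ((-2 : ℝ) • y) (‖y‖ ^ 2) z
  have h3 := h1.sub h2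
  have h4 : (fun z => KK m τ z y) = fun z => PP m τ (qq (‖y‖ ^ 2) ((-2 : ℝ) • y) 1 z) -
      PP m τ (qq 1 ((-2 : ℝ) • y) (‖y‖ ^ 2) z) := by
    funext z
    unfold KK
    rw [pp_eq_qq, dist_eq_qq]
  rw [h4]
  refine h3.congr_fderiv ?_
  simp [GK]

lemma hasFDerivAt_GK (hτ : 0 < τ) (y z : F) : HasFDerivAt (GK m τ y) (HK m τ y z) z :=
  (hasFDerivAt_GF (hasDerivAt_gg (m := m) hτ) (‖y‖ ^ 2) ((-2 : ℝ) • y) 1 z).sub
    (hasFDerivAt_GF (hasDerivAt_gg (m := m) hτ) 1 ((-2 : ℝ) • y) (‖y‖ ^ 2) z)

lemma continuous_HK (hτ : 0 < τ) (y : F) : Continuous (HK m τ y) :=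
  (continuous_HF (continuous_gg hτ) (continuous_gg1 hτ) _ _ _).sub
    (continuous_HF (continuous_gg hτ) (continuous_gg1 hτ) _ _ _)

lemma dv_sub (A B : F →L[ℝ] F) : dv (A - B) = dv A - dv B := by
  unfold dv
  rw [← Finset.sum_sub_distrib]
  refine Finset.sum_congr rfl fun i _ => ?_
  simp [inner_sub_right]

lemma dv_HK (hm : m = Module.finrank ℝ F) (y z : F) :
    dv (HK m τ y z) = ‖y‖ ^ 2 * DD m τ (pp z y) - DD m τ (‖z - y‖ ^ 2) := by
  unfold HK
  rw [dv_sub, dv_HF, dv_HF, ← pp_eq_qq, ← dist_eq_qq]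
  have h1 : ‖(2 * ‖y‖ ^ 2) • z + (-2 : ℝ) • y‖ ^ 2 = 4 * ‖y‖ ^ 2 * pp z y := by
    have : (2 * ‖y‖ ^ 2) • z + (-2 : ℝ) • y = (2 : ℝ) • (‖y‖ ^ 2 • z - y) := by
      rw [smul_sub, smul_smul]; module
    rw [this, norm_smul, mul_pow, norm_sub_sq_real, norm_smul, inner_smul_left]
    unfold pp
    rw [norm_sub_sq_real]
    simp
    ring
  have h2 : ‖(2 * (1 : ℝ)) • z + (-2 : ℝ) • y‖ ^ 2 = 4 * ‖z - y‖ ^ 2 := by
    have : (2 * (1 : ℝ)) • z + (-2 : ℝ) • y = (2 : ℝ) • (z - y) := by module
    rw [this, norm_smul, mul_pow]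
    norm_num
  rw [h1, h2]
  unfold DD
  rw [hm]
  ring



end

end Crest.Agent.R234.Pot_425
end

-- ▼ part R234/Pot4_425

/-!
R234 (helper425), POT part 4: the contact frame.
-/

open MeasureTheory Filter Topology Set Metric
open scoped ENNReal NNReal

namespace Crest.Agent.R234.Pot_425

noncomputable section

set_option linter.unusedSectionVars false

variable {F : Type*} [NormedAddCommGroup F] [InnerProductSpace ℝ F] [FiniteDimensional ℝ F]
  [MeasurableSpace F] [BorelSpace F]

attribute [local irreducible] DD KK PP gg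

/-- the closed ball of radius `1 - τ` as a compact metric space -/
abbrev XB (F : Type*) [NormedAddCommGroup F] (τ : ℝ) : Type _ := ↥(closedBall (0 : F) (1 - τ))

instance (τ : ℝ) : CompactSpace (XB F τ) := isCompact_iff_compactSpace.1 (isCompact_closedBall _ _)

lemma XB_norm {τ : ℝ} (y : XB F τ) : ‖(y : F)‖ ≤ 1 - τ :=
  mem_closedBall_zero_iff.1 y.2

variable {m : ℕ} {τ : ℝ}

/-- potential of a measure on the closed ball, as a function on `F` -/
def pt (m : ℕ) (τ : ℝ) (μ : Measure (XB F τ)) (z : F) : ℝ := ∫ y, KK m τ z (y : F) ∂μ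

/-- mollified density of a measure on the closed ball -/
def ml (m : ℕ) (τ : ℝ) (μ : Measure (XB F τ)) (z : F) : ℝ := ∫ y, DD m τ (‖z - (y : F)‖ ^ 2) ∂μ

lemma ml_nonneg (hτ : 0 < τ) (μ : Measure (XB F τ)) (z : F) : 0 ≤ ml m τ μ z :=
  integral_nonneg fun _ => DD_nonneg hτ _

lemma continuous_param {Y Z : Type*} [TopologicalSpace Y] [TopologicalSpace Z] [CompactSpace Z]
    [FirstCountableTopology Y] [LocallyCompactSpace Y]
    [MeasurableSpace Z] [OpensMeasurableSpace Z] [SecondCountableTopologyEither Z ℝ]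
    (μ : Measure Z) [IsFiniteMeasure μ] {g : Y → Z → ℝ}
    (hg : Continuous fun p : Y × Z => g p.1 p.2) : Continuous fun y => ∫ z, g y z ∂μ := by
  have h := continuous_parametric_integral_of_continuous (μ := μ) (f := g) hg
    (isCompact_univ (X := Z))
  simpa using h

lemma continuous_pt (hτ : 0 < τ) (μ : Measure (XB F τ)) [IsFiniteMeasure μ] :
    Continuous (pt m τ μ) := by
  refine continuous_param μ (g := fun (z : F) (y : XB F τ) => KK m τ z (y : F)) ?_
  exact (continuous_KK hτ).comp (by fun_prop : Continuous fun p : F × XB F τ => (p.1, (p.2 : F)))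

lemma continuous_ml (hτ : 0 < τ) (μ : Measure (XB F τ)) [IsFiniteMeasure μ] :
    Continuous (ml m τ μ) := by
  refine continuous_param μ (g := fun (z : F) (y : XB F τ) => DD m τ (‖z - (y : F)‖ ^ 2)) ?_
  have h : Continuous fun p : F × XB F τ => ‖p.1 - (p.2 : F)‖ ^ 2 := by fun_prop
  exact (continuous_DD (m := m) hτ).comp h

section generic

variable {Z : Type*} [TopologicalSpace Z] [T2Space Z] [CompactSpace Z] [MeasurableSpace Z]
  [BorelSpace Z] [SecondCountableTopology Z]

lemma swap_ball (μ : Measure Z) [IsFiniteMeasure μ] {g : F → Z → ℝ}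
    (hg : Continuous fun p : F × Z => g p.1 p.2)
    (h0 : ∀ y ∉ closedBall (0 : F) 1, ∀ z, g y z = 0) :
    ∫ y, (∫ z, g y z ∂μ) = ∫ z, (∫ y, g y z) ∂μ := by
  rw [integral_integral_swap]
  refine hg.integrable_of_hasCompactSupport ?_
  refine HasCompactSupport.intro ((isCompact_closedBall (0 : F) 1).prod isCompact_univ) ?_
  rintro ⟨a, b⟩ hab
  have : a ∉ closedBall (0 : F) 1 := by
    intro h
    exact hab ⟨h, mem_univ _⟩
  exact h0 a this b

lemma swap_interval (μ : Measure Z) [IsFiniteMeasure μ] {g : ℝ → Z → ℝ}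
    (hg : Continuous fun p : ℝ × Z => g p.1 p.2) {s : ℝ} (hs : 0 ≤ s) :
    ∫ ρ in (0 : ℝ)..s, (∫ z, g ρ z ∂μ) = ∫ z, (∫ ρ in (0 : ℝ)..s, g ρ z) ∂μ := by
  simp only [intervalIntegral.integral_of_le hs]
  rw [integral_integral_swap]
  have h6 : IntegrableOn (fun p : ℝ × Z => g p.1 p.2) (Icc 0 s ×ˢ univ)
      ((volume : Measure ℝ).prod μ) :=
    hg.continuousOn.integrableOn_compact (isCompact_Icc.prod isCompact_univ)
  have h7 : IntegrableOn (fun p : ℝ × Z => g p.1 p.2) (Ioc 0 s ×ˢ univ)
      ((volume : Measure ℝ).prod μ) := h6.mono_set (prod_mono Ioc_subset_Icc_self subset_rfl)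
  rw [IntegrableOn, ← Measure.prod_restrict, Measure.restrict_univ] at h7
  exact h7

lemma continuous_int_ball {Y : Type*} [TopologicalSpace Y] [FirstCountableTopology Y]
    [LocallyCompactSpace Y] {g : Y → F → ℝ} (hg : Continuous fun p : Y × F => g p.1 p.2)
    (h0 : ∀ y ∉ closedBall (0 : F) 1, ∀ z, g z y = 0) : Continuous fun z => ∫ y, g z y := by
  have h4 : (fun z => ∫ y, g z y) = fun z => ∫ y in closedBall (0 : F) 1, g z y := by
    funext z
    rw [setIntegral_eq_integral_of_forall_compl_eq_zero]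
    intro y hy
    exact h0 y hy z
  rw [h4]
  exact continuous_parametric_integral_of_continuous (μ := (volume : Measure F)) hg
    (isCompact_closedBall (0 : F) 1)

end generic





/-- the scale integral `∫_0^s ρ ∫ ψ(y) μ_τ(x - ρ y) dy dρ` (a mollified `∫_0^s μ̂_x(ρ) dρ/ρ`) -/
def SS (m : ℕ) (τ : ℝ) (w : Wt) (μ : Measure (XB F τ)) (x : F) (s : ℝ) : ℝ :=
  ∫ ρ in (0 : ℝ)..s, (ρ * ∫ y, w.psi y * ml m τ μ (x - ρ • y))

lemma SS_nonneg (hτ : 0 < τ) (w : Wt) (μ : Measure (XB F τ)) (x : F) {s : ℝ} (hs : 0 ≤ s) :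
    0 ≤ SS m τ w μ x s := by
  unfold SS
  refine intervalIntegral.integral_nonneg hs fun ρ hρ => mul_nonneg hρ.1 ?_
  exact integral_nonneg fun y => mul_nonneg (w.psi_nonneg y) (ml_nonneg hτ μ _)


end

end Crest.Agent.R234.Pot_425
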