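import Crest.Agent.R234.Avg2_387
import Crest.Agent.R234.Pot4_425

-- ▼ part R234/Avg3_387
section

/-!
# Row 234, VF-AVG, part 3 (helper387)

The scale integral `SS` of helper425 is the primitive of the averaged anomaly; `E = 2 B + U`, `U' = R`,
`U → 0` at small scales.
-/

set_option autoImplicit false

open MeasureTheory Set Function Filter Topology Metric
open Crest.GeometryTopology.Submanifold
open Crest.Agent.R234.Vf_884 Crest.Agent.R234.Ar_870 Crest.Agent.R234.Cy_870
open Crest.Agent.R234.Pot_425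
open scoped ENNReal NNReal InnerProductSpace

noncomputable section

namespace Crest.Agent.R234.Avg_387

variable {m n k : ℕ}

/-! ### generic lemmas -/

theorem swap_c {E Z : Type*} [NormedAddCommGroup E] [InnerProductSpace ℝ E]
    [FiniteDimensional ℝ E] [MeasurableSpace E] [BorelSpace E]
    [TopologicalSpace Z] [T2Space Z] [CompactSpace Z] [MeasurableSpace Z]
    [BorelSpace Z] [SecondCountableTopology Z] (μ : Measure Z) [IsFiniteMeasure μ]
    {f : E → Z → ℝ} (hf : Continuous fun p : E × Z => f p.1 p.2) (r : ℝ)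
    (h0 : ∀ y ∉ closedBall (0 : E) r, ∀ z, f y z = 0) :
    ∫ y, (∫ z, f y z ∂μ) = ∫ z, (∫ y, f y z) ∂μ := by
  rw [integral_integral_swap]
  refine hf.integrable_of_hasCompactSupport ?_
  refine HasCompactSupport.intro ((isCompact_closedBall (0 : E) r).prod isCompact_univ) ?_
  rintro ⟨a, b⟩ hab
  have : a ∉ closedBall (0 : E) r := by
    intro h
    exact hab ⟨h, mem_univ _⟩
  exact h0 a this b


/-! ### the weight on centres and the scale integral -/

/-- the weight on centres -/
def dd (m : ℕ) (τ : ℝ) (h : Euc m) : ℝ := DD m τ (‖h‖ ^ 2)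

variable {τ : ℝ}

theorem cw_dd (hτ : 0 < τ) : CW (dd m τ) τ where
  cont := (continuous_DD hτ).comp (by fun_prop)
  nonneg h := DD_nonneg hτ _
  zero h hh := DD_of_ge hτ (pow_le_pow_left₀ hτ.le hh.le 2)

/-- `s^{2-m} b(χ)` for a measure on the closed ball -/
def hat (w : Wt) (b : Measure (XB (Euc m) τ)) (y : Euc m) (l : ℝ) : ℝ :=
  Real.exp ((2 - m) * l) *
    ∫ z : XB (Euc m) τ, w.θ (Real.exp (-2 * l) * ‖(z : Euc m) - y‖ ^ 2) ∂b

theorem ker_wt (w : Wt) : Ker w.θ w.θ' := ⟨w.deriv, w.cont', w.zero⟩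

theorem psi_scaled (w : Wt) (l : ℝ) (v : Euc m) :
    w.psi ((Real.exp l)⁻¹ • v) = w.θ (Real.exp (-2 * l) * ‖v‖ ^ 2) := by
  unfold Wt.psi
  rw [norm_smul, mul_pow, norm_inv, Real.norm_eq_abs, abs_of_pos (Real.exp_pos _), ← Real.exp_neg,
    ← Real.exp_nat_mul]
  congr 3
  push_cast
  ring

/-- change of variables between `SS` and the averages -/
theorem SS_integrand (hτ : 0 < τ) (w : Wt) (b : Measure (XB (Euc m) τ)) [IsFiniteMeasure b]
    (x : Euc m) (l : ℝ) :
    Real.exp l * (Real.exp l * ∫ y, w.psi y * ml m τ b (x - Real.exp l • y)) =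
      av (dd m τ) (hat w b) x l := by
  set ρ := Real.exp l with hρ
  have hρ0 : 0 < ρ := Real.exp_pos _
  have hpsi := w.continuous_psi (F := Euc m)
  have hD := continuous_DD (m := m) hτ
  -- scaling
  have e1 : ∫ y, w.psi y * ml m τ b (x - ρ • y) =
      (ρ ^ m)⁻¹ * ∫ v : Euc m, w.psi (ρ⁻¹ • v) * ml m τ b (x - v) := by
    have h := Measure.integral_comp_smul (volume : Measure (Euc m))
      (fun v : Euc m => w.psi (ρ⁻¹ • v) * ml m τ b (x - v)) ρ
    simp only [smul_smul, inv_mul_cancel₀ hρ0.ne', one_smul] at h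
    rw [h, finrank_euclideanSpace, Fintype.card_fin, smul_eq_mul, abs_of_pos (by positivity)]
  -- swap
  have e2 : ∫ v : Euc m, w.psi (ρ⁻¹ • v) * ml m τ b (x - v) =
      ∫ z : XB (Euc m) τ, (∫ v : Euc m, w.psi (ρ⁻¹ • v) *
        DD m τ (‖x - v - (z : Euc m)‖ ^ 2)) ∂b := by
    rw [← swap_c (E := Euc m) b (f := fun (v : Euc m) (z : XB (Euc m) τ) =>
      w.psi (ρ⁻¹ • v) * DD m τ (‖x - v - (z : Euc m)‖ ^ 2)) ?_ ρ ?_]
    · refine integral_congr_ae (Eventually.of_forall fun v => ?_)
      simp only [ml]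
      rw [integral_const_mul]
    · have h1 : Continuous fun p : Euc m × XB (Euc m) τ => ρ⁻¹ • p.1 := by fun_prop
      have h2 : Continuous fun p : Euc m × XB (Euc m) τ => ‖x - p.1 - (p.2 : Euc m)‖ ^ 2 := by
        fun_prop
      exact (hpsi.comp h1).mul (hD.comp h2)
    · intro v hv z
      have h3 : w.psi (ρ⁻¹ • v) = 0 := by
        refine w.psi_zero' ?_
        rw [norm_smul, norm_inv, Real.norm_eq_abs, abs_of_pos hρ0]
        have h4 : ρ < ‖v‖ := by simpa using hv
        rw [inv_mul_eq_div, one_le_div hρ0]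
        exact h4.le
      rw [h3, zero_mul]
  -- substitution
  have e3 : ∀ z : XB (Euc m) τ, (∫ v : Euc m, w.psi (ρ⁻¹ • v) *
      DD m τ (‖x - v - (z : Euc m)‖ ^ 2)) =
      ∫ h : Euc m, dd m τ h * w.θ (Real.exp (-2 * l) * ‖(z : Euc m) - (x - h)‖ ^ 2) := by
    intro z
    have h := integral_sub_left_eq_self (fun v : Euc m => w.psi (ρ⁻¹ • v) *
      DD m τ (‖x - v - (z : Euc m)‖ ^ 2)) (volume : Measure (Euc m)) (x - (z : Euc m))
    rw [← h]
    refine integral_congr_ae (Eventually.of_forall fun h => ?_)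
    simp only
    rw [hρ, psi_scaled, mul_comm]
    unfold dd
    congr 2
    · congr 2
      abel_nf
    · congr 1
      rw [← norm_neg]
      congr 2
      abel
  -- swap back
  have e4 : ∫ z : XB (Euc m) τ, (∫ h : Euc m, dd m τ h *
      w.θ (Real.exp (-2 * l) * ‖(z : Euc m) - (x - h)‖ ^ 2)) ∂b =
      ∫ h : Euc m, dd m τ h * ∫ z : XB (Euc m) τ,
        w.θ (Real.exp (-2 * l) * ‖(z : Euc m) - (x - h)‖ ^ 2) ∂b := by
    rw [← swap_c (E := Euc m) b (f := fun (h : Euc m) (z : XB (Euc m) τ) =>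
      dd m τ h * w.θ (Real.exp (-2 * l) * ‖(z : Euc m) - (x - h)‖ ^ 2)) ?_ τ ?_]
    · refine integral_congr_ae (Eventually.of_forall fun v => ?_)
      simp only
      rw [integral_const_mul]
    · have h1 : Continuous fun p : Euc m × XB (Euc m) τ =>
          Real.exp (-2 * l) * ‖(p.2 : Euc m) - (x - p.1)‖ ^ 2 := by fun_prop
      exact ((cw_dd hτ).cont.comp continuous_fst).mul (w.cont.comp h1)
    · intro v hv z
      rw [(cw_dd hτ).zero' hv, zero_mul]
  rw [e1, e2]
  simp only [e3]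
  rw [e4]
  unfold av hat
  have e5 : ∀ h : Euc m, dd m τ h * (Real.exp ((2 - m) * l) * ∫ z : XB (Euc m) τ,
      w.θ (Real.exp (-2 * l) * ‖(z : Euc m) - (x - h)‖ ^ 2) ∂b) =
      Real.exp ((2 - m) * l) * (dd m τ h * ∫ z : XB (Euc m) τ,
      w.θ (Real.exp (-2 * l) * ‖(z : Euc m) - (x - h)‖ ^ 2) ∂b) := fun h => by ring
  simp only [e5]
  rw [integral_const_mul]
  have e6 : ρ * (ρ * ((ρ ^ m)⁻¹)) = Real.exp ((2 - m) * l) := by
    rw [hρ, ← Real.exp_nat_mul, ← Real.exp_neg, ← Real.exp_add, ← Real.exp_add]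
    congr 1
    ring
  rw [← e6]
  ring

/-- **`SS` is the primitive of the averaged functional** -/
theorem hasDerivAt_SS (hτ : 0 < τ) (w : Wt) (b : Measure (XB (Euc m) τ)) [IsFiniteMeasure b]
    (x : Euc m) (l : ℝ) :
    HasDerivAt (fun l => SS m τ w b x (Real.exp l)) (av (dd m τ) (hat w b) x l) l := by
  have hJ : Continuous fun ρ : ℝ => ρ * ∫ y, w.psi y * ml m τ b (x - ρ • y) := by
    refine continuous_id.mul ?_
    refine continuous_int_ball (g := fun (ρ : ℝ) (y : Euc m) =>
      w.psi y * ml m τ b (x - ρ • y)) ?_ ?_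
    · have h : Continuous fun p : ℝ × Euc m => x - p.1 • p.2 := by fun_prop
      exact ((w.continuous_psi (F := Euc m)).comp continuous_snd).mul
        ((continuous_ml hτ b).comp h)
    · intro y hy z
      rw [w.psi_zero hy, zero_mul]
  have h1 : HasDerivAt (fun s => SS m τ w b x s)
      (Real.exp l * ∫ y, w.psi y * ml m τ b (x - Real.exp l • y)) (Real.exp l) :=
    (hJ.integral_hasStrictDerivAt 0 (Real.exp l)).hasDerivAt
  have h2 := h1.comp l (Real.hasDerivAt_exp l)
  refine h2.congr_deriv ?_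
  rw [← SS_integrand hτ w b x l]
  ring

theorem tendsto_SS (hτ : 0 < τ) (w : Wt) (b : Measure (XB (Euc m) τ)) [IsFiniteMeasure b]
    (x : Euc m) : Tendsto (fun l => SS m τ w b x (Real.exp l)) atBot (𝓝 0) := by
  have hJ : Continuous fun ρ : ℝ => ρ * ∫ y, w.psi y * ml m τ b (x - ρ • y) := by
    refine continuous_id.mul ?_
    refine continuous_int_ball (g := fun (ρ : ℝ) (y : Euc m) =>
      w.psi y * ml m τ b (x - ρ • y)) ?_ ?_
    · have h : Continuous fun p : ℝ × Euc m => x - p.1 • p.2 := by fun_prop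
      exact ((w.continuous_psi (F := Euc m)).comp continuous_snd).mul
        ((continuous_ml hτ b).comp h)
    · intro y hy z
      rw [w.psi_zero hy, zero_mul]
  have h1 : Continuous fun s => SS m τ w b x s := by
    unfold SS
    exact continuous_iff_continuousAt.2 fun s =>
      (hJ.integral_hasStrictDerivAt 0 s).hasDerivAt.continuousAt
  have h2 : SS m τ w b x 0 = 0 := by unfold SS; simp
  have h3 := (h1.tendsto 0).comp Real.tendsto_exp_atBot
  rw [h2] at h3
  exact h3

/-! ### small scales -/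

variable {d : Euc m → ℝ} {L₀ L₁ : ℝ} {x : Euc m}
  {π : Euc k →L[ℝ] Euc m} {κ : Euc k →L[ℝ] Euc n} {V : Measure (Euc k × L k)}
  {g g1 g2 : ℝ → ℝ} {h₀ : ℝ} {F : Euc n → ℝ} {dF : Euc n → Euc n} {H : Euc n → L n}


/-- the averaged mass is `O(s^m)` -/
theorem av_mass_le (h : AFr V π κ x τ L₀ L₁) (hd : CW d τ) (hg : Prof g g1 g2) {D : ℝ}
    (hD : ∀ h, d h ≤ D) {l : ℝ} (hl : l < L₀) :
    av d (fun y l => ∫ p, 1 * g (Real.exp (-2 * l) * ‖π p.1 - y‖ ^ 2) ∂V) x l ≤
      D * (V {p | ‖π p.1 - x‖ ^ 2 < Real.exp (2 * L₁)}).toReal *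
        (Real.exp (m * l) * ∫ v : Euc m, g (‖v‖ ^ 2)) := by
  set S : Set (Euc k × L k) := {p | ‖π p.1 - x‖ ^ 2 < Real.exp (2 * L₁)} with hS
  have hSm : MeasurableSet S := measurableSet_lt (measurable_rho π x) measurable_const
  set ν : Measure (Euc k × L k) := V.restrict S with hν
  have hfin : IsFiniteMeasure ν := ⟨by rw [hν, Measure.restrict_apply_univ]; exact h.fr.fin⟩
  have hD0 : 0 ≤ D := (hd.nonneg 0).trans (hD 0)
  obtain ⟨K, hK0, hK, -, -⟩ := hg.k0.exists_bound
  have e1 : av d (fun y l => ∫ p, 1 * g (Real.exp (-2 * l) * ‖π p.1 - y‖ ^ 2) ∂V) x l =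
      ∫ h, ∫ p, d h * g (Real.exp (-2 * l) * ‖π p.1 - (x - h)‖ ^ 2) ∂ν := by
    unfold av
    refine integral_congr_ae (Eventually.of_forall fun y => ?_)
    simp only [one_mul]
    rw [integral_const_mul]
    by_cases hy : y ∈ closedBall (0 : Euc m) τ
    · congr 1
      symm
      refine setIntegral_eq_integral_of_forall_compl_eq_zero fun p hp => ?_
      have h1 : ¬ ‖π p.1 - (x - y)‖ ^ 2 < Real.exp (2 * L₀) := fun hcon =>
        hp (h.region (sub_mem hy) hcon)
      refine hg.k0.zero _ ?_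
      calc (1:ℝ) = Real.exp (-2 * l) * Real.exp (2 * l) := by rw [← Real.exp_add]; simp
          _ ≤ Real.exp (-2 * l) * Real.exp (2 * L₀) := by
              gcongr
          _ ≤ _ := mul_le_mul_of_nonneg_left (not_lt.1 h1) (Real.exp_pos _).le
    · rw [hd.zero' hy]; simp
  have hcont : Continuous fun q : Euc m × (Euc k × L k) =>
      d q.1 * g (Real.exp (-2 * l) * ‖π q.2.1 - (x - q.1)‖ ^ 2) := by
    refine (hd.cont.comp continuous_fst).mul (hg.k0.continuous.comp ?_)
    fun_prop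
  have hint : Integrable (uncurry fun (h : Euc m) (p : Euc k × L k) =>
      d h * g (Real.exp (-2 * l) * ‖π p.1 - (x - h)‖ ^ 2)) ((volume : Measure (Euc m)).prod ν) := by
    have hdi : Integrable (fun h : Euc m => d h * K) :=
      hd.integrable (f := fun _ => K) continuousOn_const
    refine Integrable.mono' (hdi.comp_fst ν) hcont.aestronglyMeasurable ?_
    refine Eventually.of_forall fun q => ?_
    simp only [uncurry]
    rw [Real.norm_eq_abs, abs_mul, abs_of_nonneg (hd.nonneg _)]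
    exact mul_le_mul_of_nonneg_left (hK _ (by positivity)) (hd.nonneg _)
  rw [e1, integral_integral_swap hint]
  have e2 : ∀ p : Euc k × L k, ∫ h : Euc m, d h *
      g (Real.exp (-2 * l) * ‖π p.1 - (x - h)‖ ^ 2) ≤
      D * (Real.exp (m * l) * ∫ v : Euc m, g (‖v‖ ^ 2)) := by
    intro p
    have e3 : ∫ v : Euc m, g (Real.exp (-2 * l) * ‖v - (x - π p.1)‖ ^ 2) =
        Real.exp (m * l) * ∫ v : Euc m, g (‖v‖ ^ 2) := leb_scale g _ l
    rw [← e3, ← integral_const_mul]
    have e4 : ∀ h : Euc m, ‖π p.1 - (x - h)‖ = ‖h - (x - π p.1)‖ := by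
      intro h
      congr 1
      abel
    have i1 : Integrable fun h : Euc m => g (Real.exp (-2 * l) * ‖h - (x - π p.1)‖ ^ 2) := by
      refine (hg.k0.continuous.comp (by fun_prop : Continuous fun h : Euc m =>
        Real.exp (-2 * l) * ‖h - (x - π p.1)‖ ^ 2)).integrable_of_hasCompactSupport ?_
      refine HasCompactSupport.intro (isCompact_closedBall (x - π p.1) (Real.exp l))
        fun v hv => ?_
      refine hg.k0.zero _ (Ker.one_le_of _ ?_)
      have : Real.exp l < dist v (x - π p.1) := by simpa using hv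
      rw [dist_eq_norm] at this
      exact this.le
    simp only [e4]
    refine integral_mono_of_nonneg (Eventually.of_forall fun h => ?_) (i1.const_mul D)
      (Eventually.of_forall fun h => ?_)
    · exact mul_nonneg (hd.nonneg _) (hg.nonneg _ (by positivity))
    · exact mul_le_mul_of_nonneg_right (hD h) (hg.nonneg _ (by positivity))
  calc ∫ p, (∫ h : Euc m, d h * g (Real.exp (-2 * l) * ‖π p.1 - (x - h)‖ ^ 2)) ∂ν
      ≤ ∫ _, D * (Real.exp (m * l) * ∫ v : Euc m, g (‖v‖ ^ 2)) ∂ν := by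
        refine integral_mono_of_nonneg (Eventually.of_forall fun p => ?_) (integrable_const _)
          (Eventually.of_forall e2)
        exact integral_nonneg fun h => mul_nonneg (hd.nonneg _) (hg.nonneg _ (by positivity))
    _ = _ := by
        rw [integral_const, smul_eq_mul, Measure.real, hν, Measure.restrict_apply_univ]
        ring

/-- **the averaged excess tends to zero at small scales** -/
theorem tendsto_EEa (h : AFr V π κ x τ L₀ L₁) (hd : CW d τ) (hg : Prof g g1 g2) (Q : ℝ) :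
    Tendsto (EEa d V π g Q x) atBot (𝓝 0) := by
  obtain ⟨D, hD⟩ : ∃ D, ∀ h, d h ≤ D := by
    obtain ⟨D, hD⟩ := (isCompact_closedBall (0 : Euc m) τ).exists_bound_of_continuousOn
      hd.cont.continuousOn
    refine ⟨max D 0, fun h => ?_⟩
    by_cases hh : h ∈ closedBall (0 : Euc m) τ
    · exact ((le_abs_self _).trans (hD h hh)).trans (le_max_left _ _)
    · rw [hd.zero' hh]; exact le_max_right _ _
  have hD0 : 0 ≤ D := (hd.nonneg 0).trans (hD 0)
  set cg := ∫ v : Euc m, g (‖v‖ ^ 2) with hcg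
  have hcg0 : 0 ≤ cg := integral_nonneg fun v => hg.nonneg _ (by positivity)
  set A := D * (V {p | ‖π p.1 - x‖ ^ 2 < Real.exp (2 * L₁)}).toReal with hA
  have hA0 : 0 ≤ A := mul_nonneg hD0 ENNReal.toReal_nonneg
  set M := ∫ h, d h with hM
  have hM0 : 0 ≤ M := integral_nonneg hd.nonneg
  have hb : ∀ l < L₀, |EEa d V π g Q x l| ≤ Real.exp (2 * l) * ((A + |Q| * M) * cg) := by
    intro l hl
    have e1 : EEa d V π g Q x l = Real.exp ((2 - m) * l) *
        (av d (fun y l => ∫ p, 1 * g (Real.exp (-2 * l) * ‖π p.1 - y‖ ^ 2) ∂V) x l -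
          Q * (Real.exp (m * l) * cg * M)) := by
      unfold EEa EE
      rw [av_mul_left d (fun y l => ∫ p, 1 * g (Real.exp (-2 * l) * ‖π p.1 - y‖ ^ 2) ∂V -
        Q * ∫ v : Euc m, 1 * g (Real.exp (-2 * l) * ‖v - y‖ ^ 2))
        (fun l => Real.exp ((2 - m) * l)) x l,
        av_sub hd (h.co_one hg.k0) ((AFr.co_leb x τ L₀ g).const_mul Q) hl, av_const_mul]
      congr 3
      unfold av
      simp only [one_mul]
      have : ∀ h : Euc m, d h * ∫ v : Euc m, g (Real.exp (-2 * l) * ‖v - (x - h)‖ ^ 2) =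
          (Real.exp (m * l) * cg) * d h := fun h => by
        rw [leb_scale g _ l]; ring
      simp only [this]
      rw [integral_const_mul]
    have e2 := av_mass_le h hd hg hD hl
    have e3 : 0 ≤ av d (fun y l => ∫ p, 1 * g (Real.exp (-2 * l) * ‖π p.1 - y‖ ^ 2) ∂V) x l := by
      refine av_nonneg hd fun y _ => integral_nonneg fun p => ?_
      simp only [Pi.zero_apply, one_mul]
      exact hg.nonneg _ (by positivity)
    rw [e1, abs_mul, abs_of_pos (Real.exp_pos _)]
    have e4 : |av d (fun y l => ∫ p, 1 * g (Real.exp (-2 * l) * ‖π p.1 - y‖ ^ 2) ∂V) x l -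
          Q * (Real.exp (m * l) * cg * M)| ≤ Real.exp (m * l) * ((A + |Q| * M) * cg) := by
      refine (abs_sub _ _).trans ?_
      rw [abs_of_nonneg e3, abs_mul, abs_of_nonneg (by positivity : 0 ≤ Real.exp (m * l) * cg * M)]
      calc _ ≤ A * (Real.exp (m * l) * cg) + |Q| * (Real.exp (m * l) * cg * M) :=
            add_le_add e2 le_rfl
        _ = _ := by ring
    calc Real.exp ((2 - m) * l) * _ ≤ Real.exp ((2 - m) * l) *
          (Real.exp (m * l) * ((A + |Q| * M) * cg)) :=
          mul_le_mul_of_nonneg_left e4 (Real.exp_pos _).le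
      _ = _ := by
          rw [← mul_assoc, ← Real.exp_add]
          congr 2
          ring
  have ht : Tendsto (fun l : ℝ => Real.exp (2 * l) * ((A + |Q| * M) * cg)) atBot (𝓝 0) := by
    have h1 : Tendsto (fun l : ℝ => Real.exp (2 * l)) atBot (𝓝 0) :=
      Real.tendsto_exp_atBot.comp (tendsto_id.const_mul_atBot two_pos)
    simpa using h1.mul_const ((A + |Q| * M) * cg)
  rw [tendsto_zero_iff_abs_tendsto_zero]
  refine squeeze_zero' (Eventually.of_forall fun l => abs_nonneg _) ?_ ht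
  filter_upwards [eventually_lt_atBot L₀] with l hl
  exact hb l hl

end Crest.Agent.R234.Avg_387
end
end

-- ▼ part R234/Avg4_387
section

/-!
# Row 234, VF-AVG, part 4 (helper387)

The anomaly of a stationary varifold in a cylinder as a difference of two measures on the closed ball,
`E = 2 B + U`, and the contact inequality in the form of helper309.
-/

set_option autoImplicit false

open MeasureTheory Set Function Filter Topology Metric
open Crest.GeometryTopology.Submanifold
open Crest.Agent.R234.Vf_884 Crest.Agent.R234.Ar_870 Crest.Agent.R234.Cy_870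
open Crest.Agent.R234.Pot_425
open scoped ENNReal NNReal InnerProductSpace

noncomputable section

namespace Crest.Agent.R234.Avg_387

variable {m n k : ℕ} {τ : ℝ}

/-- `b₁ - b₂` represents the anomaly `π_#((1 - tl/2) W) - Q dx` on functions vanishing off the ball of
radius `1 - τ` -/
structure Rep (b₁ b₂ : Measure (XB (Euc m) τ)) (W : Measure (Euc k × L k))
    (π : Euc k →L[ℝ] Euc m) (Q : ℝ) : Prop where
  rep : ∀ φ : Euc m → ℝ, Continuous φ → (∀ z, 1 - τ ≤ ‖z‖ → φ z = 0) →
    ∫ z : XB (Euc m) τ, φ (z : Euc m) ∂b₁ - ∫ z : XB (Euc m) τ, φ (z : Euc m) ∂b₂ =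
      ∫ p, φ (π p.1) * (1 - tl π p.2 / 2) ∂W - Q * ∫ z, φ z

variable {d : Euc m → ℝ} {L₀ L₁ : ℝ} {x : Euc m}
  {π : Euc k →L[ℝ] Euc m} {κ : Euc k →L[ℝ] Euc n} {W : Measure (Euc k × L k)}
  {g2 : ℝ → ℝ} {h₀ R Q : ℝ} {x₀ : Euc m} {b₁ b₂ : Measure (XB (Euc m) τ)}

/-- the averaged scale integral -/
def BB (w : Wt) (b₁ b₂ : Measure (XB (Euc m) τ)) (x : Euc m) (l : ℝ) : ℝ :=
  SS m τ w b₁ x (Real.exp l) - SS m τ w b₂ x (Real.exp l)



theorem co_hat (w : Wt) (b : Measure (XB (Euc m) τ)) [IsFiniteMeasure b]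
    (x : Euc m) (r L₀ : ℝ) : CO x r L₀ (hat w b) := by
  have h1 : Continuous fun q : Euc m × ℝ =>
      ∫ z : XB (Euc m) τ, w.θ (Real.exp (-2 * q.2) * ‖(z : Euc m) - q.1‖ ^ 2) ∂b := by
    refine continuous_param b (g := fun (q : Euc m × ℝ) (z : XB (Euc m) τ) =>
      w.θ (Real.exp (-2 * q.2) * ‖(z : Euc m) - q.1‖ ^ 2)) ?_
    exact w.cont.comp (by fun_prop)
  have h2 : Continuous (uncurry (hat w b : Euc m → ℝ → ℝ)) := by
    unfold hat
    exact (by fun_prop : Continuous fun q : Euc m × ℝ => Real.exp ((2 - m) * q.2)).mul h1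
  exact h2.continuousOn


theorem tendsto_BB (hτ : 0 < τ) (w : Wt) [IsFiniteMeasure b₁] [IsFiniteMeasure b₂] (x : Euc m) :
    Tendsto (BB w b₁ b₂ x) atBot (𝓝 0) := by
  have := (tendsto_SS hτ w b₁ x).sub (tendsto_SS hτ w b₂ x)
  rw [sub_zero] at this
  exact this










end Crest.Agent.R234.Avg_387
end
end

-- ▼ part R234/Avg5_387

/-!
# Row 234, VF-AVG, part 5 (helper387)

Joint continuity in (centre, scale) of the averaged quantities, quasi-monotonicity of the energies in the
scale, change of centre, `R(t) ≤ C (U(t+4) - U(t+3))`, bound of the error term of (W3), mean values.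
-/

set_option autoImplicit false

open MeasureTheory Set Function Filter Topology Metric
open Crest.GeometryTopology.Submanifold
open Crest.Agent.R234.Vf_884 Crest.Agent.R234.Ar_870 Crest.Agent.R234.Cy_870
open Crest.Agent.R234.Pot_425
open scoped ENNReal NNReal InnerProductSpace

noncomputable section

namespace Crest.Agent.R234.Avg_387

variable {m n k : ℕ} {τ : ℝ} {d : Euc m → ℝ} {L₀ L₁ : ℝ} {x x' : Euc m}
  {π : Euc k →L[ℝ] Euc m} {κ : Euc k →L[ℝ] Euc n} {W : Measure (Euc k × L k)}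
  {g g1 g2 : ℝ → ℝ} {h₀ R Q : ℝ} {x₀ : Euc m} {b₁ b₂ : Measure (XB (Euc m) τ)}
  {F : Euc n → ℝ} {dF : Euc n → Euc n} {H : Euc n → L n} {q q1 q2 : Euc m → ℝ → ℝ}

/-! ### joint continuity -/

theorem cont_of_CO (h : ∀ x : Euc m, ∀ L₀ : ℝ, CO x 1 L₀ q) : Continuous (uncurry q) := by
  rw [continuous_iff_continuousAt]
  rintro ⟨y, l⟩
  refine (h y (l + 1)).continuousAt ?_
  refine prod_mem_nhds ?_ (Iio_mem_nhds (by linarith))
  exact closedBall_mem_nhds _ one_pos

theorem CO_of_cont (h : Continuous (uncurry q)) (x : Euc m) (τ L₀ : ℝ) : CO x τ L₀ q :=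
  h.continuousOn

/-- averages of jointly continuous functions are jointly continuous -/
theorem continuous_av2 (hd : CW d τ) (h : Continuous (uncurry q)) :
    Continuous (uncurry (av d q)) := by
  have h1 : (uncurry (av d q)) = fun p : Euc m × ℝ =>
      ∫ h in closedBall (0 : Euc m) τ, d h * q (p.1 - h) p.2 := by
    funext p
    simp only [uncurry, av]
    rw [setIntegral_eq_integral_of_forall_compl_eq_zero]
    intro y hy
    rw [hd.zero' hy, zero_mul]
  rw [h1]
  refine continuous_parametric_integral_of_continuous (μ := (volume : Measure (Euc m)))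
    (f := fun (p : Euc m × ℝ) (h : Euc m) => d h * q (p.1 - h) p.2) ?_
    (isCompact_closedBall (0 : Euc m) τ)
  have h2 : Continuous fun p : (Euc m × ℝ) × Euc m => (p.1.1 - p.2, p.1.2) := by fun_prop
  exact (hd.cont.comp continuous_snd).mul (h.comp h2)

theorem cont2_EE (h : CylStat W π κ x₀ R h₀) (hg : Ker g g1) (Q : ℝ) :
    Continuous (uncurry fun y l => EE W π y g Q l) :=
  cont_of_CO fun x L₀ => (afr_of_cyl h zero_le_one x L₀).co_EE hg Q

theorem cont2_ee (h : CylStat W π κ x₀ R h₀) (hg : Ker g g1) :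
    Continuous (uncurry fun y l => ee W π y g l) :=
  cont_of_CO fun x L₀ => (afr_of_cyl h zero_le_one x L₀).co_ee hg

theorem cont2_bb (h : CylStat W π κ x₀ R h₀) (hg : Ker g g1) (Q : ℝ) :
    Continuous (uncurry fun y l => bb W π y g Q l) :=
  cont_of_CO fun x L₀ => (afr_of_cyl h zero_le_one x L₀).co_bb hg Q

theorem cont2_RR (h : CylStat W π κ x₀ R h₀) (hg : Ker g1 g2) :
    Continuous (uncurry fun y l => RR W π y g1 l) :=
  cont_of_CO fun x L₀ => (afr_of_cyl h zero_le_one x L₀).co_RR hg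



theorem cont2_err3 (h : CylStat W π κ x₀ R h₀) (hF : Well F dF H) (hg : Prof g g1 g2) :
    Continuous (uncurry fun y l => err3 W π κ y F g1 g2 l) :=
  cont_of_CO fun x L₀ => (afr_of_cyl h zero_le_one x L₀).co_err3 (h.hgt' x _) hF hg.k1 hg.k1.cont








theorem cont2_SS (hτ : 0 < τ) (w : Wt) (b : Measure (XB (Euc m) τ)) [IsFiniteMeasure b] :
    Continuous fun p : Euc m × ℝ => SS m τ w b p.1 p.2 := by
  unfold SS
  have hJ : Continuous fun q : (Euc m × ℝ) × ℝ =>
      q.2 * ∫ y, w.psi y * ml m τ b (q.1.1 - q.2 • y) := by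
    refine continuous_snd.mul ?_
    refine continuous_int_ball (g := fun (q : (Euc m × ℝ) × ℝ) (y : Euc m) =>
      w.psi y * ml m τ b (q.1.1 - q.2 • y)) ?_ ?_
    · have h : Continuous fun p : ((Euc m × ℝ) × ℝ) × Euc m => p.1.1.1 - p.1.2 • p.2 := by
        fun_prop
      exact ((w.continuous_psi (F := Euc m)).comp continuous_snd).mul
        ((continuous_ml hτ b).comp h)
    · intro y hy z
      rw [w.psi_zero hy, zero_mul]
  exact intervalIntegral.continuous_parametric_intervalIntegral_of_continuous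
    (f := fun (p : Euc m × ℝ) (ρ : ℝ) => ρ * ∫ y, w.psi y * ml m τ b (p.1 - ρ • y)) hJ
    continuous_snd

theorem cont2_BB (hτ : 0 < τ) (w : Wt) [IsFiniteMeasure b₁] [IsFiniteMeasure b₂] :
    Continuous (uncurry (BB w b₁ b₂ : Euc m → ℝ → ℝ)) := by
  have h : Continuous fun p : Euc m × ℝ => (p.1, Real.exp p.2) := by fun_prop
  exact ((cont2_SS hτ w b₁).comp h).sub ((cont2_SS hτ w b₂).comp h)


/-! ### quasi-monotonicity and change of centre -/

theorem Prof.anti' (hg : Prof g g1 g2) {s t : ℝ} (hs : 0 ≤ s) (hst : s ≤ t) : g t ≤ g s := by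
  have hanti : AntitoneOn g (Ici 0) := by
    refine antitoneOn_of_deriv_nonpos (convex_Ici 0) hg.k0.continuous.continuousOn
      (fun u _ => (hg.k0.der u).differentiableAt.differentiableWithinAt) fun u hu => ?_
    rw [interior_Ici] at hu
    rw [(hg.k0.der u).deriv]
    exact hg.anti u (le_of_lt hu)
  exact hanti hs (hs.trans hst) hst




/-- kernel comparison for a change of centre: `g ≤ K`, `c ≤ g` on `[0, r²]`, `(1 + A) e^{-j} ≤ r` -/
theorem ker_change (hg : Prof g g1 g2) {K c r A j : ℝ} (hK : ∀ t, 0 ≤ t → g t ≤ K) (hc : 0 < c)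
    (_hr : 0 ≤ r) (hcr : ∀ t, 0 ≤ t → t ≤ r ^ 2 → c ≤ g t) (_hA : 0 ≤ A)
    (hj : (1 + A) * Real.exp (-j) ≤ r) {y y' : Euc m} {t : ℝ} (hy : ‖y' - y‖ ≤ A * Real.exp t)
    (v : Euc m) : g (Real.exp (-2 * t) * ‖v - y'‖ ^ 2) ≤
      (K / c) * g (Real.exp (-2 * (t + j)) * ‖v - y‖ ^ 2) := by
  have hK0 : 0 ≤ K := (hg.nonneg 0 le_rfl).trans (hK 0 le_rfl)
  by_cases hv : ‖v - y'‖ < Real.exp t
  · have h1 : ‖v - y‖ ≤ (1 + A) * Real.exp t := by
      have : ‖v - y‖ ≤ ‖v - y'‖ + ‖y' - y‖ := norm_sub_le_norm_sub_add_norm_sub v y' y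
      linarith
    have h2 : Real.exp (-2 * (t + j)) * ‖v - y‖ ^ 2 ≤ r ^ 2 := by
      have e1 : Real.exp (-2 * (t + j)) * ‖v - y‖ ^ 2 = (Real.exp (-(t + j)) * ‖v - y‖) ^ 2 := by
        rw [mul_pow, ← Real.exp_nat_mul]
        congr 2
        push_cast
        ring
      rw [e1]
      refine pow_le_pow_left₀ (by positivity) ?_ 2
      calc Real.exp (-(t + j)) * ‖v - y‖ ≤ Real.exp (-(t + j)) * ((1 + A) * Real.exp t) :=
            mul_le_mul_of_nonneg_left h1 (Real.exp_pos _).le
        _ = (1 + A) * Real.exp (-j) := by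
            have : Real.exp (-(t + j)) * Real.exp t = Real.exp (-j) := by
              rw [← Real.exp_add]; congr 1; ring
            rw [← this]; ring
        _ ≤ r := hj
    have h3 := hcr _ (by positivity) h2
    calc g (Real.exp (-2 * t) * ‖v - y'‖ ^ 2) ≤ K := hK _ (by positivity)
      _ = (K / c) * c := by field_simp
      _ ≤ _ := mul_le_mul_of_nonneg_left h3 (by positivity)
  · rw [hg.k0.zero _ (Ker.one_le_of y' (not_lt.1 hv))]
    exact mul_nonneg (by positivity) (hg.nonneg _ (by positivity))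





/-! ### the radial energy -/





/-! ### the error term of (W3) -/

/-- **bound of the averaged error term** -/
theorem abs_err3a_le (h : CylStat W π κ x₀ R h₀) (hd : CW d τ) (hF : Well F dF H)
    (hg : Prof g g1 g2) {K A c a : ℝ}
    (hK1 : ∀ t, 0 ≤ t → |g1 t| ≤ K) (hK2 : ∀ t, 0 ≤ t → |t * g2 t| ≤ K)
    (hA : ∀ᵐ p ∂W, F (κ p.1) ≤ A) (hA0 : 0 ≤ A) (hc : 0 < c)
    (hga : ∀ t, 0 ≤ t → t < Real.exp (-2 * a) → c ≤ g t) (x : Euc m) (l : ℝ) :
    |err3a d W π κ F g1 g2 x l| ≤
      12 * K * A / c * Real.exp ((m - 2) * a) * Real.exp (-2 * l) * eea d W π g x (l + a) := by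
  have hK0 : 0 ≤ K := (abs_nonneg _).trans (hK1 0 le_rfl)
  have c1 := cont2_ee h hg.k0
  have c3 := cont2_err3 h hF hg
  have hpt : ∀ y : Euc m, |err3 W π κ y F g1 g2 l| ≤
      12 * K * A / c * Real.exp ((m - 2) * a) * Real.exp (-2 * l) * ee W π y g (l + a) := by
    intro y
    have h1 := h.abs_err3_le hF hg hK1 hK2 hA hA0 y l
    have h2 := h.te_le_ee hg hga y l
    refine h1.trans ?_
    calc 12 * K * A * Real.exp (-2 * l) * te W π y l =
          (12 * K * A / c * Real.exp (-2 * l)) * (c * te W π y l) := by field_simp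
      _ ≤ (12 * K * A / c * Real.exp (-2 * l)) *
          (Real.exp ((m - 2) * a) * ee W π y g (l + a)) :=
          mul_le_mul_of_nonneg_left h2 (by positivity)
      _ = _ := by ring
  unfold err3a eea av
  rw [← integral_const_mul]
  have i1 : ∀ l : ℝ, Integrable fun y : Euc m => d y * ee W π (x - y) g l := fun l =>
    (CO_of_cont c1 x τ (l + 1)).integrable hd (by linarith : l < l + 1)
  have h3 := norm_integral_le_of_norm_le (f := fun y : Euc m => d y * err3 W π κ (x - y) F g1 g2 l)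
    ((i1 (l + a)).const_mul (12 * K * A / c * Real.exp ((m - 2) * a) * Real.exp (-2 * l)))
    (Eventually.of_forall fun y => by
      rw [Real.norm_eq_abs, abs_mul, abs_of_nonneg (hd.nonneg y)]
      have := mul_le_mul_of_nonneg_left (hpt (x - y)) (hd.nonneg y)
      linarith)
  rwa [Real.norm_eq_abs] at h3

/-! ### mean values -/

/-- a centre at which `q` is at most its mean -/
theorem exists_le_mean (hd : CW d τ) (hM : 0 < ∫ h, d h) (hq : CO x τ L₀ q) {l : ℝ}
    (hl : l < L₀) : ∃ h ∈ closedBall (0 : Euc m) τ, q (x - h) l * ∫ h, d h ≤ av d q x l := by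
  by_contra hcon
  push Not at hcon
  have hi := hq.integrable hd hl
  have hi2 : Integrable fun h : Euc m => d h * (av d q x l / ∫ h, d h) :=
    hd.integrable (f := fun _ => av d q x l / ∫ h, d h) continuousOn_const
  have h1 : ∀ h : Euc m, d h * (av d q x l / ∫ h, d h) ≤ d h * q (x - h) l := by
    intro h
    by_cases hh : h ∈ closedBall (0 : Euc m) τ
    · have := hcon h hh
      refine mul_le_mul_of_nonneg_left ?_ (hd.nonneg h)
      rw [div_le_iff₀ hM]
      exact this.le
    · rw [hd.zero' hh]; simp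
  have h2 : ∫ h, (d h * q (x - h) l - d h * (av d q x l / ∫ h, d h)) = 0 := by
    rw [integral_sub hi hi2, integral_mul_const]
    have : (∫ h, d h) * (av d q x l / ∫ h, d h) = av d q x l := by field_simp
    rw [this]
    unfold av
    ring
  rw [integral_eq_zero_iff_of_nonneg (fun h => sub_nonneg.2 (h1 h)) (hi.sub hi2)] at h2
  have h3 : ∀ᵐ h : Euc m, d h = 0 := by
    filter_upwards [h2] with h hh
    by_contra hne
    have hmem : h ∈ closedBall (0 : Euc m) τ := by
      by_contra hn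
      exact hne (hd.zero' hn)
    have h4 := hcon h hmem
    have h5 : av d q x l / (∫ h, d h) < q (x - h) l := by
      rw [div_lt_iff₀ hM]; exact h4
    have h6 : 0 < d h := lt_of_le_of_ne (hd.nonneg h) (Ne.symm hne)
    have h7 : d h * q (x - h) l - d h * (av d q x l / ∫ h, d h) = 0 := hh
    nlinarith
  have h4 : ∫ h, d h = 0 := by
    rw [integral_congr_ae h3]; simp
  rw [h4] at hM
  exact lt_irrefl _ hM

end Crest.Agent.R234.Avg_387
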