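import Mathlib

-- ▼ part R234/Ode1_201
section

/-!
# R234 / Ode1_201 : the robust ODE of #5124 (2) (task 1307, VF-ODE)

`l = log s`, `U' = R ≥ 0`, `I' = 2 e + ρ`, `e² ≤ R I + κ U²`, `|ρ| ≤ κ U`, `Y = I / U`:
* `Y' ≤ 1 + 2 κ` always,
* `Y' ≤ 4 η + 2 κ` and `(log U)' ≥ 3 / Y` at the good scales `e ≥ 2 (1 - η) U`.
-/

namespace Crest.Agent.R234.Ode_201

open MeasureTheory Set Filter
open scoped Topology

/-- composition of an absolutely continuous function with a function which is Lipschitz on the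
image -/
theorem ac_comp {f φ : ℝ → ℝ} {a b K : ℝ} {s : Set ℝ} (hf : AbsolutelyContinuousOnInterval f a b)
    (hs : ∀ x ∈ uIcc a b, f x ∈ s) (hφ : ∀ x ∈ s, ∀ y ∈ s, |φ x - φ y| ≤ K * |x - y|) :
    AbsolutelyContinuousOnInterval (fun x => φ (f x)) a b := by
  rw [absolutelyContinuousOnInterval_iff] at hf ⊢
  intro ε hε
  have hK : 0 < |K| + 1 := by positivity
  obtain ⟨δ, hδ, h⟩ := hf (ε / (|K| + 1)) (by positivity)
  refine ⟨δ, hδ, fun E hE hs' => ?_⟩
  have h1 := h E hE hs'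
  have h2 : ∑ i ∈ Finset.range E.1, dist (φ (f (E.2 i).1)) (φ (f (E.2 i).2))
      ≤ ∑ i ∈ Finset.range E.1, (|K| + 1) * dist (f (E.2 i).1) (f (E.2 i).2) := by
    apply Finset.sum_le_sum
    intro i hi
    have hmem := hE.1 i hi
    rw [Real.dist_eq, Real.dist_eq]
    refine (hφ _ (hs _ hmem.1) _ (hs _ hmem.2)).trans ?_
    apply mul_le_mul_of_nonneg_right _ (abs_nonneg _)
    exact (le_abs_self K).trans (by linarith)
  rw [← Finset.mul_sum] at h2
  calc _ ≤ (|K| + 1) * ∑ i ∈ Finset.range E.1, dist (f (E.2 i).1) (f (E.2 i).2) := h2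
    _ < (|K| + 1) * (ε / (|K| + 1)) := mul_lt_mul_of_pos_left h1 hK
    _ = ε := by field_simp

/-- the data of the robust ODE on `[a, b]` -/
structure Dat (κ a b : ℝ) (U I R e ρ : ℝ → ℝ) : Prop where
  hab : a ≤ b
  k0 : 0 ≤ κ
  Upos : 0 < U a
  Inn : ∀ x ∈ Icc a b, 0 ≤ I x
  hR : IntervalIntegrable R volume a b
  he : IntervalIntegrable e volume a b
  hρ : IntervalIntegrable ρ volume a b
  hU : ∀ x ∈ Icc a b, U x = U a + ∫ t in a..x, R t
  hI : ∀ x ∈ Icc a b, I x = I a + ∫ t in a..x, (2 * e t + ρ t)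
  Rnn : ∀ᵐ t, t ∈ Icc a b → 0 ≤ R t
  cs : ∀ᵐ t, t ∈ Icc a b → e t ^ 2 ≤ R t * I t + κ * U t ^ 2
  rho : ∀ᵐ t, t ∈ Icc a b → |ρ t| ≤ κ * U t

variable {κ a b : ℝ} {U I R e ρ : ℝ → ℝ}

theorem Dat.mono (h : Dat κ a b U I R e ρ) {x y : ℝ} (hx : x ∈ Icc a b) (hy : y ∈ Icc a b)
    (hxy : x ≤ y) : U x ≤ U y := by
  have h1 : IntervalIntegrable R volume a x :=
    h.hR.mono_set (by rw [uIcc_of_le hx.1, uIcc_of_le h.hab]; exact Icc_subset_Icc_right hx.2)
  have h2 : IntervalIntegrable R volume a y :=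
    h.hR.mono_set (by rw [uIcc_of_le hy.1, uIcc_of_le h.hab]; exact Icc_subset_Icc_right hy.2)
  have h3 : IntervalIntegrable R volume x y :=
    h.hR.mono_set (by
      rw [uIcc_of_le hxy, uIcc_of_le h.hab]; exact Icc_subset_Icc hx.1 hy.2)
  have h4 := intervalIntegral.integral_interval_sub_left h2 h1
  have h5 : 0 ≤ ∫ t in x..y, R t := by
    apply intervalIntegral.integral_nonneg_of_ae_restrict hxy
    rw [EventuallyLE, ae_restrict_iff' measurableSet_Icc]
    filter_upwards [h.Rnn] with t ht htt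
    exact ht ⟨hx.1.trans htt.1, htt.2.trans hy.2⟩
  rw [h.hU x hx, h.hU y hy]
  linarith

theorem Dat.pos (h : Dat κ a b U I R e ρ) {x : ℝ} (hx : x ∈ Icc a b) : 0 < U x :=
  h.Upos.trans_le (h.mono ⟨le_refl _, h.hab⟩ hx hx.1)

/-- restriction to a subinterval -/
theorem Dat.sub (h : Dat κ a b U I R e ρ) {c d : ℝ} (hc : a ≤ c) (hcd : c ≤ d) (hd : d ≤ b) :
    Dat κ c d U I R e ρ := by
  have hsub : uIcc c d ⊆ uIcc a b := by
    rw [uIcc_of_le hcd, uIcc_of_le h.hab]; exact Icc_subset_Icc hc hd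
  have hS : Icc c d ⊆ Icc a b := Icc_subset_Icc hc hd
  have hac : IntervalIntegrable R volume a c :=
    h.hR.mono_set (by
      rw [uIcc_of_le hc, uIcc_of_le h.hab]; exact Icc_subset_Icc_right (hcd.trans hd))
  have hac' : IntervalIntegrable (fun t => 2 * e t + ρ t) volume a c :=
    ((h.he.const_mul 2).add h.hρ).mono_set (by
      rw [uIcc_of_le hc, uIcc_of_le h.hab]; exact Icc_subset_Icc_right (hcd.trans hd))
  refine ⟨hcd, h.k0, h.pos ⟨hc, hcd.trans hd⟩, fun x hx => h.Inn x (hS hx), h.hR.mono_set hsub,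
    h.he.mono_set hsub, h.hρ.mono_set hsub, fun x hx => ?_, fun x hx => ?_, ?_, ?_, ?_⟩
  · have hcx : IntervalIntegrable R volume c x :=
      h.hR.mono_set (by
        rw [uIcc_of_le hx.1, uIcc_of_le h.hab]; exact Icc_subset_Icc hc (hx.2.trans hd))
    rw [h.hU x (hS hx), h.hU c ⟨hc, hcd.trans hd⟩,
      ← intervalIntegral.integral_add_adjacent_intervals hac hcx]
    ring
  · have hcx : IntervalIntegrable (fun t => 2 * e t + ρ t) volume c x :=
      ((h.he.const_mul 2).add h.hρ).mono_set (by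
        rw [uIcc_of_le hx.1, uIcc_of_le h.hab]; exact Icc_subset_Icc hc (hx.2.trans hd))
    rw [h.hI x (hS hx), h.hI c ⟨hc, hcd.trans hd⟩,
      ← intervalIntegral.integral_add_adjacent_intervals hac' hcx]
    ring
  · filter_upwards [h.Rnn] with t ht htt using ht (hS htt)
  · filter_upwards [h.cs] with t ht htt using ht (hS htt)
  · filter_upwards [h.rho] with t ht htt using ht (hS htt)

theorem Dat.acU (h : Dat κ a b U I R e ρ) : AbsolutelyContinuousOnInterval U a b := by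
  have h1 := (h.hR.absolutelyContinuousOnInterval_intervalIntegral
    (left_mem_uIcc : a ∈ uIcc a b))
  have h2 : AbsolutelyContinuousOnInterval (fun _ : ℝ => U a) a b := by
    rw [absolutelyContinuousOnInterval_iff]
    intro ε hε
    exact ⟨1, one_pos, fun E _ _ => by simpa using hε⟩
  have h3 := h2.add h1
  rw [absolutelyContinuousOnInterval_iff] at h3 ⊢
  intro ε hε
  obtain ⟨δ, hδ, H⟩ := h3 ε hε
  refine ⟨δ, hδ, fun E hE hs => ?_⟩
  refine lt_of_le_of_lt (le_of_eq ?_) (H E hE hs)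
  apply Finset.sum_congr rfl
  intro i hi
  have hm := hE.1 i hi
  rw [uIcc_of_le h.hab] at hm
  simp only [Pi.add_apply]
  rw [h.hU _ hm.1, h.hU _ hm.2]

theorem Dat.acI (h : Dat κ a b U I R e ρ) : AbsolutelyContinuousOnInterval I a b := by
  have hint := (h.he.const_mul 2).add h.hρ
  have h1 := (hint.absolutelyContinuousOnInterval_intervalIntegral
    (left_mem_uIcc : a ∈ uIcc a b))
  have h2 : AbsolutelyContinuousOnInterval (fun _ : ℝ => I a) a b := by
    rw [absolutelyContinuousOnInterval_iff]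
    intro ε hε
    exact ⟨1, one_pos, fun E _ _ => by simpa using hε⟩
  have h3 := h2.add h1
  rw [absolutelyContinuousOnInterval_iff] at h3 ⊢
  intro ε hε
  obtain ⟨δ, hδ, H⟩ := h3 ε hε
  refine ⟨δ, hδ, fun E hE hs => ?_⟩
  refine lt_of_le_of_lt (le_of_eq ?_) (H E hE hs)
  apply Finset.sum_congr rfl
  intro i hi
  have hm := hE.1 i hi
  rw [uIcc_of_le h.hab] at hm
  simp only [Pi.add_apply]
  rw [h.hI _ hm.1, h.hI _ hm.2]

theorem Dat.acInv (h : Dat κ a b U I R e ρ) :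
    AbsolutelyContinuousOnInterval (fun x => (U x)⁻¹) a b := by
  refine ac_comp (φ := fun y => y⁻¹) (s := Ici (U a)) (K := ((U a)⁻¹) ^ 2) h.acU ?_ ?_
  · intro x hx
    rw [uIcc_of_le h.hab] at hx
    exact h.mono ⟨le_refl _, h.hab⟩ hx hx.1
  · intro x hx y hy
    have hx0 : 0 < x := h.Upos.trans_le hx
    have hy0 : 0 < y := h.Upos.trans_le hy
    have e1 : x⁻¹ - y⁻¹ = (y - x) * (x⁻¹ * y⁻¹) := by field_simp
    rw [e1, abs_mul, abs_sub_comm y x, abs_of_pos (a := x⁻¹ * y⁻¹) (by positivity), mul_comm]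
    apply mul_le_mul_of_nonneg_right _ (abs_nonneg _)
    rw [sq]
    exact mul_le_mul (inv_anti₀ h.Upos hx) (inv_anti₀ h.Upos hy) (by positivity)
      (by have := h.Upos; positivity)

theorem Dat.acLog (h : Dat κ a b U I R e ρ) :
    AbsolutelyContinuousOnInterval (fun x => Real.log (U x)) a b := by
  refine ac_comp (φ := Real.log) (s := Ici (U a)) (K := (U a)⁻¹) h.acU ?_ ?_
  · intro x hx
    rw [uIcc_of_le h.hab] at hx
    exact h.mono ⟨le_refl _, h.hab⟩ hx hx.1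
  · intro x hx y hy
    have key : ∀ x y : ℝ, U a ≤ x → x ≤ y → |Real.log x - Real.log y| ≤ (U a)⁻¹ * |x - y| := by
      intro x y hx hxy
      have hx0 : 0 < x := h.Upos.trans_le hx
      have hy0 : 0 < y := hx0.trans_le hxy
      rw [abs_sub_comm, abs_sub_comm x y, abs_of_nonneg (sub_nonneg.2 hxy),
        abs_of_nonneg (sub_nonneg.2 (Real.log_le_log hx0 hxy)), ← Real.log_div hy0.ne' hx0.ne']
      have := Real.log_le_sub_one_of_pos (div_pos hy0 hx0)
      refine this.trans ?_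
      have e1 : y / x - 1 = x⁻¹ * (y - x) := by field_simp
      rw [e1]
      exact mul_le_mul_of_nonneg_right (inv_anti₀ h.Upos hx) (sub_nonneg.2 hxy)
    rcases le_total x y with hxy | hxy
    · exact key x y hx hxy
    · rw [abs_sub_comm, abs_sub_comm x y]; exact key y x hy hxy

theorem Dat.derU (h : Dat κ a b U I R e ρ) :
    ∀ᵐ x, x ∈ Ioo a b → HasDerivAt U (R x) x := by
  filter_upwards [h.hR.ae_hasDerivAt_integral] with x hx hxx
  have h1 := hx (by rw [uIcc_of_le h.hab]; exact Ioo_subset_Icc_self hxx) a left_mem_uIcc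
  have h2 := h1.const_add (U a)
  refine h2.congr_of_eventuallyEq ?_
  filter_upwards [isOpen_Ioo.mem_nhds hxx] with y hy
  exact h.hU y (Ioo_subset_Icc_self hy)

theorem Dat.derI (h : Dat κ a b U I R e ρ) :
    ∀ᵐ x, x ∈ Ioo a b → HasDerivAt I (2 * e x + ρ x) x := by
  filter_upwards [((h.he.const_mul 2).add h.hρ).ae_hasDerivAt_integral] with x hx hxx
  have h1 := hx (by rw [uIcc_of_le h.hab]; exact Ioo_subset_Icc_self hxx) a left_mem_uIcc
  have h2 := h1.const_add (I a)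
  refine h2.congr_of_eventuallyEq ?_
  filter_upwards [isOpen_Ioo.mem_nhds hxx] with y hy
  exact h.hI y (Ioo_subset_Icc_self hy)

theorem Dat.acY (h : Dat κ a b U I R e ρ) :
    AbsolutelyContinuousOnInterval (fun x => I x * (U x)⁻¹) a b := by
  have := h.acI.mul h.acInv
  exact this

/-- the elementary inequality behind everything -/
theorem Dat.derY (h : Dat κ a b U I R e ρ) :
    ∀ᵐ x, x ∈ Ioo a b → deriv (fun x => I x * (U x)⁻¹) x
      ≤ 2 * (e x / U x) - (e x / U x) ^ 2 + 2 * κ := by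
  filter_upwards [h.derU, h.derI, h.cs, h.rho] with x hU hI hcs hrho hx
  have hxI := Ioo_subset_Icc_self hx
  have hp := h.pos hxI
  have h1 : HasDerivAt (fun x => I x * (U x)⁻¹)
      ((2 * e x + ρ x) * (U x)⁻¹ + I x * (-R x / U x ^ 2)) x :=
    (hI hx).mul ((hU hx).inv hp.ne')
  rw [h1.deriv]
  have h2 := hcs hxI
  have h3 := (abs_le.1 (hrho hxI)).2
  have e1 : (2 * e x + ρ x) * (U x)⁻¹ + I x * (-R x / U x ^ 2)
      = (2 * e x * U x + ρ x * U x - R x * I x) / U x ^ 2 := by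
    field_simp
    ring
  have e2 : 2 * (e x / U x) - (e x / U x) ^ 2 + 2 * κ
      = (2 * e x * U x - e x ^ 2 + 2 * κ * U x ^ 2) / U x ^ 2 := by
    field_simp
  rw [e1, e2]
  apply div_le_div_of_nonneg_right _ (by positivity)
  nlinarith [mul_le_mul_of_nonneg_right h3 hp.le]

theorem Dat.intY (h : Dat κ a b U I R e ρ) :
    IntervalIntegrable (deriv (fun x => I x * (U x)⁻¹)) volume a b :=
  h.acY.intervalIntegrable_deriv

/-- `Y(b) - Y(a) ≤ (1 + 2 κ) (b - a)` : whatever the signs -/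
theorem Dat.Y_le (h : Dat κ a b U I R e ρ) :
    I b / U b - I a / U a ≤ (1 + 2 * κ) * (b - a) := by
  have h1 := h.acY.integral_deriv_eq_sub
  rw [div_eq_mul_inv, div_eq_mul_inv, ← h1]
  have h2 : ∫ x in a..b, deriv (fun x => I x * (U x)⁻¹) x ≤ ∫ x in a..b, (1 + 2 * κ) := by
    apply intervalIntegral.integral_mono_ae_restrict h.hab h.intY (by simp)
    rw [EventuallyLE, ae_restrict_iff' measurableSet_Icc]
    have hne : ∀ᵐ x : ℝ, x ≠ a ∧ x ≠ b := by
      have : ∀ c : ℝ, ∀ᵐ x : ℝ, x ≠ c := fun c => by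
        simp [ae_iff]
      filter_upwards [this a, this b] with x h1 h2 using ⟨h1, h2⟩
    filter_upwards [h.derY, hne] with x hx hn hxx
    have := hx ⟨lt_of_le_of_ne hxx.1 hn.1.symm, lt_of_le_of_ne hxx.2 hn.2⟩
    nlinarith [sq_nonneg (e x / U x - 1)]
  rw [intervalIntegral.integral_const, smul_eq_mul] at h2
  linarith

theorem ae_ne_two (a b : ℝ) : ∀ᵐ x : ℝ, x ≠ a ∧ x ≠ b := by
  have : ∀ c : ℝ, ∀ᵐ x : ℝ, x ≠ c := fun c => by
    simp [ae_iff]
  filter_upwards [this a, this b] with x h1 h2 using ⟨h1, h2⟩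

theorem integral_ind {a b : ℝ} (hab : a ≤ b) {Ω : Set ℝ} (hΩ : MeasurableSet Ω) :
    ∫ x in a..b, Ω.indicator (fun _ => (1 : ℝ)) x ≤ (volume (Ω ∩ Icc a b)).toReal := by
  rw [intervalIntegral.integral_of_le hab, integral_indicator hΩ, Measure.restrict_restrict hΩ]
  simp only [integral_const, smul_eq_mul, mul_one, Measure.real, Measure.restrict_apply
      MeasurableSet.univ, univ_inter]
  apply ENNReal.toReal_mono
  · exact ne_of_lt (lt_of_le_of_lt (measure_mono inter_subset_right) (by simp))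
  · exact measure_mono (inter_subset_inter_right _ Ioc_subset_Icc_self)

theorem ii_ind {a b : ℝ} {Ω : Set ℝ} (hΩ : MeasurableSet Ω) :
    IntervalIntegrable (fun x => Ω.indicator (fun _ => (1 : ℝ)) x) volume a b := by
  rw [intervalIntegrable_iff]
  exact (integrableOn_const (by simp)).indicator hΩ

/-- on the good scales `Y' ≤ 4 η + 2 κ` -/
theorem Dat.Y_good (h : Dat κ a b U I R e ρ) {η : ℝ} {Ω : Set ℝ} (hΩ : MeasurableSet Ω)
    (h0 : 0 ≤ η)
    (hg : ∀ᵐ t, t ∈ Icc a b → t ∉ Ω → 2 * (1 - η) * U t ≤ e t) :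
    I b / U b - I a / U a ≤ (volume (Ω ∩ Icc a b)).toReal + (4 * η + 2 * κ) * (b - a) := by
  have h1 := h.acY.integral_deriv_eq_sub
  rw [div_eq_mul_inv, div_eq_mul_inv, ← h1]
  have hk := h.k0
  have hi : IntervalIntegrable (fun x => Ω.indicator (fun _ => (1 : ℝ)) x + (4 * η + 2 * κ))
      volume a b := (ii_ind hΩ).add (by simp)
  have h2 : ∫ x in a..b, deriv (fun x => I x * (U x)⁻¹) x
      ≤ ∫ x in a..b, (Ω.indicator (fun _ => (1 : ℝ)) x + (4 * η + 2 * κ)) := by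
    apply intervalIntegral.integral_mono_ae_restrict h.hab h.intY hi
    rw [EventuallyLE, ae_restrict_iff' measurableSet_Icc]
    filter_upwards [h.derY, ae_ne_two a b, hg] with x hx hn hgx hxx
    have h3 := hx ⟨lt_of_le_of_ne hxx.1 hn.1.symm, lt_of_le_of_ne hxx.2 hn.2⟩
    by_cases hxΩ : x ∈ Ω
    · simp only [indicator_of_mem hxΩ]
      nlinarith [sq_nonneg (e x / U x - 1)]
    · simp only [indicator_of_notMem hxΩ]
      have h4 := hgx hxx hxΩ
      have hp := h.pos hxx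
      have h5 : 2 * (1 - η) ≤ e x / U x := by
        rw [le_div_iff₀ hp]; exact h4
      set A := e x / U x
      -- 2 A - A^2 = A (2 - A) ≤ 4 η
      by_cases hA : 2 ≤ A
      · nlinarith
      · push Not at hA
        by_cases hA0 : 0 ≤ A
        · nlinarith
        · push Not at hA0
          nlinarith
  rw [intervalIntegral.integral_add (ii_ind hΩ) (by simp), intervalIntegral.integral_const,
    smul_eq_mul] at h2
  have h6 := integral_ind h.hab hΩ
  linarith

/-- growth of `log U` : at least `3 / S` at every good scale if `Y ≤ S` -/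
theorem Dat.log_ge (h : Dat κ a b U I R e ρ) {η S : ℝ} {Ω : Set ℝ} (hΩ : MeasurableSet Ω)
    (h8 : 4 * (1 - η) ^ 2 - κ ≥ 3) (h1η : η ≤ 1) (hS : 0 < S)
    (hY : ∀ x ∈ Icc a b, I x / U x ≤ S)
    (hg : ∀ᵐ t, t ∈ Icc a b → t ∉ Ω → 2 * (1 - η) * U t ≤ e t) :
    3 / S * ((b - a) - (volume (Ω ∩ Icc a b)).toReal) ≤ Real.log (U b) - Real.log (U a) := by
  have h1 := h.acLog.integral_deriv_eq_sub
  rw [← h1]
  have hi : IntervalIntegrable (fun x => 3 / S * (1 - Ω.indicator (fun _ => (1 : ℝ)) x))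
      volume a b := by
    apply IntervalIntegrable.const_mul
    exact IntervalIntegrable.sub (by simp) (ii_ind hΩ)
  have h2 : ∫ x in a..b, 3 / S * (1 - Ω.indicator (fun _ => (1 : ℝ)) x)
      ≤ ∫ x in a..b, deriv (fun x => Real.log (U x)) x := by
    apply intervalIntegral.integral_mono_ae_restrict h.hab hi h.acLog.intervalIntegrable_deriv
    rw [EventuallyLE, ae_restrict_iff' measurableSet_Icc]
    filter_upwards [h.derU, ae_ne_two a b, hg, h.Rnn, h.cs] with x hx hn hgx hR hcs hxx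
    have h3 := hx ⟨lt_of_le_of_ne hxx.1 hn.1.symm, lt_of_le_of_ne hxx.2 hn.2⟩
    have hp := h.pos hxx
    have h4 : HasDerivAt (fun x => Real.log (U x)) (R x / U x) x := h3.log hp.ne'
    rw [h4.deriv]
    by_cases hxΩ : x ∈ Ω
    · simp only [indicator_of_mem hxΩ, sub_self, mul_zero]
      exact div_nonneg (hR hxx) hp.le
    · simp only [indicator_of_notMem hxΩ, sub_zero, mul_one]
      have h5 := hgx hxx hxΩ
      have h6 := hcs hxx
      have hI0 := h.Inn x hxx
      have h7 : 3 * U x ^ 2 ≤ R x * I x := by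
        have h9 : (2 * (1 - η) * U x) ^ 2 ≤ e x ^ 2 := by
          apply pow_le_pow_left₀ _ h5
          have : 0 ≤ 1 - η := by linarith
          positivity
        nlinarith [sq_nonneg (U x)]
      have h8' : I x ≤ S * U x := by
        have := hY x hxx
        rwa [div_le_iff₀ hp] at this
      rw [div_le_div_iff₀ hS hp]
      -- 3 U ≤ R S
      have h10 : R x * I x ≤ R x * (S * U x) := mul_le_mul_of_nonneg_left h8' (hR hxx)
      have h11 : 3 * U x * U x ≤ R x * S * U x := by nlinarith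
      exact le_of_mul_le_mul_right h11 hp
  refine le_trans ?_ h2
  rw [intervalIntegral.integral_const_mul, intervalIntegral.integral_sub (by simp) (ii_ind hΩ),
    intervalIntegral.integral_const, smul_eq_mul, mul_one]
  have h6 := integral_ind h.hab hΩ
  apply mul_le_mul_of_nonneg_left _ (by positivity)
  linarith

/-! ### dyadic blocks -/

/-- the recursion in one block `[T, 2 T]` -/
theorem Dat.block (h : Dat κ a b U I R e ρ) {η T : ℝ} {Ω : Set ℝ} (hΩ : MeasurableSet Ω)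
    (h0 : 0 ≤ η) (hT : 0 < T) (haT : a ≤ T) (hTb : 2 * T ≤ b)
    (hg : ∀ᵐ t, t ∈ Icc a b → t ∉ Ω → 2 * (1 - η) * U t ≤ e t) :
    (∀ x ∈ Icc T (2 * T), I x / U x ≤
      T * (I T / U T / T + (volume (Ω ∩ Icc T (2 * T))).toReal / T + (4 * η + 2 * κ))) ∧
    I (2 * T) / U (2 * T) / (2 * T) ≤
      (I T / U T / T + (volume (Ω ∩ Icc T (2 * T))).toReal / T + (4 * η + 2 * κ)) / 2 := by
  have hk := h.k0
  have key : ∀ x ∈ Icc T (2 * T), I x / U x ≤
      T * (I T / U T / T + (volume (Ω ∩ Icc T (2 * T))).toReal / T + (4 * η + 2 * κ)) := by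
    intro x hx
    have h1 := (h.sub haT hx.1 (hx.2.trans hTb)).Y_good hΩ h0 (by
      filter_upwards [hg] with t ht htt using ht ⟨haT.trans htt.1, htt.2.trans (hx.2.trans hTb)⟩)
    have h2 : (volume (Ω ∩ Icc T x)).toReal ≤ (volume (Ω ∩ Icc T (2 * T))).toReal := by
      apply ENNReal.toReal_mono
      · exact ne_of_lt (lt_of_le_of_lt (measure_mono inter_subset_right) (by simp))
      · exact measure_mono (inter_subset_inter_right _ (Icc_subset_Icc_right hx.2))
    have h3 : (4 * η + 2 * κ) * (x - T) ≤ (4 * η + 2 * κ) * T :=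
      mul_le_mul_of_nonneg_left (by linarith [hx.2]) (by positivity)
    have h4 : T * (I T / U T / T + (volume (Ω ∩ Icc T (2 * T))).toReal / T + (4 * η + 2 * κ))
        = I T / U T + (volume (Ω ∩ Icc T (2 * T))).toReal + (4 * η + 2 * κ) * T := by
      field_simp
    rw [h4]
    linarith
  refine ⟨key, ?_⟩
  have h5 := key (2 * T) ⟨by linarith, le_refl _⟩
  rw [div_le_iff₀ (by positivity)]
  calc _ ≤ _ := h5
    _ = _ := by ring

theorem Dat.block_growth (h : Dat κ a b U I R e ρ) {η T : ℝ} {Ω : Set ℝ} (hΩ : MeasurableSet Ω)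
    (h0 : 0 < η) (h16 : η ≤ 1 / 16) (hκ : κ ≤ η) (hT : 0 < T) (haT : a ≤ T) (hTb : 2 * T ≤ b)
    (hg : ∀ᵐ t, t ∈ Icc a b → t ∉ Ω → 2 * (1 - η) * U t ≤ e t) :
    3 / (I T / U T / T + (volume (Ω ∩ Icc T (2 * T))).toReal / T + (4 * η + 2 * κ)) *
      (1 - (volume (Ω ∩ Icc T (2 * T))).toReal / T) ≤ Real.log (U (2 * T)) - Real.log (U T) := by
  have hk := h.k0
  have hTm : T ∈ Icc a b := ⟨haT, by linarith⟩
  have hI0 : 0 ≤ I T / U T := div_nonneg (h.Inn T hTm) (h.pos hTm).le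
  have hz : 0 < I T / U T / T + (volume (Ω ∩ Icc T (2 * T))).toReal / T + (4 * η + 2 * κ) := by
    have : 0 ≤ (volume (Ω ∩ Icc T (2 * T))).toReal := ENNReal.toReal_nonneg
    positivity
  have h1 := (h.sub haT (by linarith : T ≤ 2 * T) hTb).log_ge (S := T * (I T / U T / T +
    (volume (Ω ∩ Icc T (2 * T))).toReal / T + (4 * η + 2 * κ))) hΩ (by nlinarith)
    (by linarith) (by positivity) (h.block hΩ h0.le hT haT hTb hg).1 (by
      filter_upwards [hg] with t ht htt using ht ⟨haT.trans htt.1, htt.2.trans hTb⟩)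
  refine le_trans (le_of_eq ?_) h1
  field_simp
  ring

/-- **growth over `K` dyadic blocks** : `e ≥ 2 (1 - η) U` off `Ω`, the mean density of `Ω` in the
blocks is `≤ η`, `Y(2^k0) ≤ A 2^k0`, `A ≤ η K` ⟹ `log U` grows by `≥ 3 K / (32 η)`. -/
theorem Dat.growth {k0 K : ℕ} (h : Dat κ (2 ^ k0) (2 ^ (k0 + K)) U I R e ρ) {η A : ℝ}
    {Ω : Set ℝ} (hΩ : MeasurableSet Ω) (h0 : 0 < η) (h16 : η ≤ 1 / 16) (hκ : κ ≤ η)
    (hg : ∀ᵐ t, t ∈ Icc ((2 : ℝ) ^ k0) (2 ^ (k0 + K)) → t ∉ Ω → 2 * (1 - η) * U t ≤ e t)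
    (hsum : ∑ k ∈ Finset.range K,
      (volume (Ω ∩ Icc ((2 : ℝ) ^ (k0 + k)) (2 ^ (k0 + k + 1)))).toReal / 2 ^ (k0 + k) ≤ η * K)
    (hA : I (2 ^ k0) / U (2 ^ k0) ≤ A * 2 ^ k0) (hK : A ≤ η * K) :
    3 * K / (32 * η) ≤ Real.log (U (2 ^ (k0 + K))) - Real.log (U (2 ^ k0)) := by
  have hk := h.k0
  rcases Nat.eq_zero_or_pos K with rfl | hKpos
  · simp
  have hKr : (0 : ℝ) < K := by exact_mod_cast hKpos
  set y : ℕ → ℝ := fun k => I (2 ^ (k0 + k)) / U (2 ^ (k0 + k)) / 2 ^ (k0 + k) with hy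
  set θ : ℕ → ℝ := fun k =>
    (volume (Ω ∩ Icc ((2 : ℝ) ^ (k0 + k)) (2 ^ (k0 + k + 1)))).toReal / 2 ^ (k0 + k) with hθ
  set c : ℝ := 4 * η + 2 * κ with hc
  set L : ℕ → ℝ := fun k => Real.log (U (2 ^ (k0 + k))) with hL
  have hpow : ∀ k, (2 : ℝ) * 2 ^ (k0 + k) = 2 ^ (k0 + k + 1) := fun k => by ring
  have hle : ∀ k, k ≤ K → (2 : ℝ) ^ (k0 + k) ∈ Icc ((2 : ℝ) ^ k0) (2 ^ (k0 + K)) := fun k hk' =>
    ⟨pow_le_pow_right₀ (by norm_num) (by lia), pow_le_pow_right₀ (by norm_num) (by lia)⟩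
  have hy0 : ∀ k, k ≤ K → 0 ≤ y k := fun k hk' =>
    div_nonneg (div_nonneg (h.Inn _ (hle k hk')) (h.pos (hle k hk')).le) (by positivity)
  have hθ0 : ∀ k, 0 ≤ θ k := fun k => div_nonneg ENNReal.toReal_nonneg (by positivity)
  have hθ1 : ∀ k, θ k ≤ 1 := by
    intro k
    simp only [hθ]
    rw [div_le_one (by positivity)]
    have h1 : volume (Ω ∩ Icc ((2 : ℝ) ^ (k0 + k)) (2 ^ (k0 + k + 1)))
        ≤ ENNReal.ofReal (2 ^ (k0 + k)) := by
      refine (measure_mono inter_subset_right).trans (le_of_eq ?_)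
      rw [Real.volume_Icc]
      congr 1
      ring
    have h2 := ENNReal.toReal_mono (by simp) h1
    rwa [ENNReal.toReal_ofReal (by positivity)] at h2
  have hrec : ∀ k, k < K → y (k + 1) ≤ (y k + θ k + c) / 2 := by
    intro k hk'
    have h1 := (h.block (T := 2 ^ (k0 + k)) hΩ h0.le (by positivity) (hle k hk'.le).1
      (by rw [hpow]; exact (hle (k + 1) hk').2) hg).2
    rw [hpow] at h1
    exact h1
  have hgr : ∀ k, k < K → 3 / (y k + θ k + c) * (1 - θ k) ≤ L (k + 1) - L k := by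
    intro k hk'
    have h1 := h.block_growth (T := 2 ^ (k0 + k)) hΩ h0 h16 hκ (by positivity) (hle k hk'.le).1
      (by rw [hpow]; exact (hle (k + 1) hk').2) hg
    rw [hpow] at h1
    exact h1
  have hyA : y 0 ≤ A := by
    simp only [hy, add_zero]
    rw [div_le_iff₀ (by positivity)]
    exact hA
  -- sum of the `y k`
  have hsy : ∑ k ∈ Finset.range K, y k ≤ 2 * A + ∑ k ∈ Finset.range K, (θ k + c) := by
    have h1 : ∀ n, n ≤ K → ∑ k ∈ Finset.range n, y k + 2 * y n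
        ≤ 2 * y 0 + ∑ k ∈ Finset.range n, (θ k + c) := by
      intro n
      induction n with
      | zero => intro _; simp
      | succ n ih =>
        intro hn
        rw [Finset.sum_range_succ, Finset.sum_range_succ]
        have h2 := ih (by lia)
        have h3 := hrec n (by lia)
        linarith
    have h2 := h1 K le_rfl
    have h3 := hy0 K le_rfl
    linarith
  have hsz : ∑ k ∈ Finset.range K, (y k + θ k + c) ≤ 16 * η * K := by
    have h1 : ∑ k ∈ Finset.range K, (y k + θ k + c)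
        = ∑ k ∈ Finset.range K, y k + ∑ k ∈ Finset.range K, (θ k + c) := by
      rw [← Finset.sum_add_distrib]
      exact Finset.sum_congr rfl fun k _ => by ring
    have h2 : ∑ k ∈ Finset.range K, (θ k + c) = ∑ k ∈ Finset.range K, θ k + K * c := by
      rw [Finset.sum_add_distrib]; simp
    have h3 : ∑ k ∈ Finset.range K, θ k ≤ η * K := hsum
    rw [h1]
    nlinarith
  set T : ℝ := 16 * η with hT
  have hTpos : 0 < T := by positivity
  have hpt : ∀ k, k < K → 3 * ((2 / T) * (1 - θ k) - (y k + θ k + c) / T ^ 2)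
      ≤ L (k + 1) - L k := by
    intro k hk'
    refine le_trans ?_ (hgr k hk')
    set z := y k + θ k + c with hz
    have hzpos : 0 < z := by
      have := hy0 k hk'.le
      have := hθ0 k
      simp only [hz, hc]
      positivity
    have h1 : 2 / T - z / T ^ 2 ≤ 1 / z := by
      have e1 : 1 / z - (2 / T - z / T ^ 2) = (T - z) ^ 2 / (z * T ^ 2) := by
        field_simp
        ring
      have : 0 ≤ (T - z) ^ 2 / (z * T ^ 2) := by positivity
      linarith
    have h2 : 0 ≤ 1 - θ k := by linarith [hθ1 k]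
    have h3 : (2 / T) * (1 - θ k) - z / T ^ 2 ≤ (1 / z) * (1 - θ k) := by
      have h4 := mul_le_mul_of_nonneg_right h1 h2
      have h5 : z / T ^ 2 * (1 - θ k) ≤ z / T ^ 2 := by
        have : 0 ≤ z / T ^ 2 := by positivity
        nlinarith [hθ0 k]
      nlinarith
    calc _ ≤ 3 * ((1 / z) * (1 - θ k)) := by linarith
      _ = _ := by ring
  have htel : ∑ k ∈ Finset.range K, (L (k + 1) - L k) = L K - L 0 := Finset.sum_range_sub L K
  have hfin : ∑ k ∈ Finset.range K, 3 * ((2 / T) * (1 - θ k) - (y k + θ k + c) / T ^ 2)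
      ≤ L K - L 0 := by
    rw [← htel]
    exact Finset.sum_le_sum fun k hk' => hpt k (Finset.mem_range.1 hk')
  have hval : 3 * K / (32 * η)
      ≤ ∑ k ∈ Finset.range K, 3 * ((2 / T) * (1 - θ k) - (y k + θ k + c) / T ^ 2) := by
    have e1 : ∑ k ∈ Finset.range K, 3 * ((2 / T) * (1 - θ k) - (y k + θ k + c) / T ^ 2)
        = 3 * ((2 / T) * (K - ∑ k ∈ Finset.range K, θ k)
          - (∑ k ∈ Finset.range K, (y k + θ k + c)) / T ^ 2) := by
      rw [← Finset.mul_sum, Finset.sum_sub_distrib, ← Finset.mul_sum, Finset.sum_sub_distrib,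
        ← Finset.sum_div]
      simp
    rw [e1]
    have h3 : ∑ k ∈ Finset.range K, θ k ≤ η * K := hsum
    have h4 : (∑ k ∈ Finset.range K, (y k + θ k + c)) / T ^ 2 ≤ K / T := by
      rw [div_le_div_iff₀ (by positivity) hTpos]
      calc _ ≤ (16 * η * K) * T := mul_le_mul_of_nonneg_right hsz hTpos.le
        _ = K * T ^ 2 := by simp only [hT]; ring
    have h5 : (2 / T) * (K - η * K) ≤ (2 / T) * (K - ∑ k ∈ Finset.range K, θ k) :=
      mul_le_mul_of_nonneg_left (by linarith) (by positivity)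
    have h6 : (2 / T) * (K - η * K) = (K / T) * (2 - 2 * η) := by field_simp
    have h7 : 3 * K / (32 * η) = 3 * ((K / T) * (1 / 2)) := by
      simp only [hT]; field_simp; norm_num
    have h8 : (K / T) * (1 / 2) ≤ (K / T) * (1 - 2 * η) :=
      mul_le_mul_of_nonneg_left (by linarith) (by positivity)
    rw [h7]
    nlinarith
  have : L 0 = Real.log (U (2 ^ k0)) := by simp [hL]
  rw [← this]
  exact hval.trans hfin

end Crest.Agent.R234.Ode_201
end

-- ▼ part R234/Ode2_201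
section

/-!
# R234 / Ode2_201 : real-variable half of (6) and the contradiction of the run (#5124 (2), (6))
-/

namespace Crest.Agent.R234.Ode_201

open MeasureTheory Set Filter
open scoped Topology

variable {κ a b : ℝ} {U I R e ρ : ℝ → ℝ}

/-- `U` extended from `[a, b]` by constants -/
noncomputable def ext (a b : ℝ) (U : ℝ → ℝ) : ℝ → ℝ := fun t => U (max a (min b t))

theorem ext_eq {t : ℝ} (ht : t ∈ Icc a b) : ext a b U t = U t := by
  unfold ext
  rw [min_eq_right ht.2, max_eq_right ht.1]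

theorem Dat.ext_meas (h : Dat κ a b U I R e ρ) : Measurable (ext a b U) := by
  have h1 : ContinuousOn U (Icc a b) := by
    have := h.acU.continuousOn
    rwa [uIcc_of_le h.hab] at this
  have h2 : Continuous (ext a b U) := by
    unfold ext
    rw [← continuousOn_univ]
    refine h1.comp (by fun_prop) ?_
    intro t _
    exact ⟨le_max_left _ _, max_le h.hab (min_le_left _ _)⟩
  exact h2.measurable

theorem integral_ind_ge {a b : ℝ} (hab : a ≤ b) {Ω : Set ℝ} (hΩ : MeasurableSet Ω) :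
    (volume (Ω ∩ Icc a b)).toReal ≤ ∫ x in a..b, Ω.indicator (fun _ => (1 : ℝ)) x := by
  rw [intervalIntegral.integral_of_le hab, ← integral_Icc_eq_integral_Ioc,
    integral_indicator hΩ, Measure.restrict_restrict hΩ]
  simp [Measure.real]

/-- **(6), one block** : `E ≤ C0 t R` off `Ω0` and `U (2 T) ≤ K1 U T` ⟹ `{E > K2 U} \ Ω0` has
measure `≤ (2 C0 K1 / K2) T` in `[T, 2 T]`. -/
theorem Dat.ratio (h : Dat κ a b U I R e ρ) {T C0 K1 K2 : ℝ} {E : ℝ → ℝ} {Ω0 : Set ℝ}
    (hE : Measurable E) (hΩ : MeasurableSet Ω0) (hT : 0 < T) (haT : a ≤ T) (hTb : 2 * T ≤ b)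
    (hC0 : 0 < C0) (hK2 : 0 < K2)
    (hg : ∀ᵐ t, t ∈ Icc a b → t ∉ Ω0 → E t ≤ C0 * t * R t)
    (hK1 : U (2 * T) ≤ K1 * U T) :
    (volume (({t | K2 * ext a b U t < E t} \ Ω0) ∩ Icc T (2 * T))).toReal
      ≤ 2 * C0 * K1 / K2 * T := by
  set S : Set ℝ := ({t | K2 * ext a b U t < E t} \ Ω0) ∩ Icc T (2 * T) with hS
  have hSm : MeasurableSet S := by
    refine ((measurableSet_lt ?_ hE).diff hΩ).inter measurableSet_Icc
    exact h.ext_meas.const_mul K2
  have hTT : T ≤ 2 * T := by linarith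
  have hTm : T ∈ Icc a b := ⟨haT, by linarith⟩
  have h2Tm : 2 * T ∈ Icc a b := ⟨by linarith, hTb⟩
  have hUT := h.pos hTm
  have hsub := h.sub haT hTT hTb
  have h1 : U (2 * T) = U T + ∫ t in T..(2 * T), R t := hsub.hU _ ⟨hTT, le_rfl⟩
  set c : ℝ := K2 * U T / (2 * C0 * T) with hc
  have hcp : 0 < c := by positivity
  -- lower bound of the integral
  have h2 : c * (volume S).toReal ≤ ∫ t in T..(2 * T), R t := by
    have h3 : IntervalIntegrable (fun t => c * S.indicator (fun _ => (1 : ℝ)) t) volume T (2 * T) :=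
      (ii_ind hSm).const_mul c
    have h4 : ∫ t in T..(2 * T), c * S.indicator (fun _ => (1 : ℝ)) t ≤ ∫ t in T..(2 * T), R t := by
      apply intervalIntegral.integral_mono_ae_restrict hTT h3 hsub.hR
      rw [EventuallyLE, ae_restrict_iff' measurableSet_Icc]
      filter_upwards [hg, h.Rnn] with t ht hR htt
      have htm : t ∈ Icc a b := ⟨haT.trans htt.1, htt.2.trans hTb⟩
      by_cases hts : t ∈ S
      · simp only [indicator_of_mem hts, mul_one]
        have h5 := ht htm hts.1.2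
        have h6 : K2 * ext a b U t < E t := hts.1.1
        rw [ext_eq htm] at h6
        have h7 : U T ≤ U t := h.mono hTm htm htt.1
        have h8 : K2 * U T ≤ C0 * t * R t := by
          have := mul_le_mul_of_nonneg_left h7 hK2.le
          linarith
        have h9 : C0 * t * R t ≤ 2 * C0 * T * R t := by
          apply mul_le_mul_of_nonneg_right _ (hR htm)
          nlinarith [htt.2]
        rw [hc, div_le_iff₀ (by positivity)]
        linarith
      · simp only [indicator_of_notMem hts, mul_zero]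
        exact hR htm
    rw [intervalIntegral.integral_const_mul] at h4
    have h6 := integral_ind_ge hTT hSm
    have h5 : S ∩ Icc T (2 * T) = S := by
      rw [hS, inter_assoc, inter_self]
    rw [h5] at h6
    exact (mul_le_mul_of_nonneg_left h6 hcp.le).trans h4
  have h3 : c * (volume S).toReal ≤ K1 * U T := by linarith
  have h4 : (volume S).toReal ≤ K1 * U T / c := by
    rw [le_div_iff₀ hcp]
    linarith
  refine h4.trans (le_of_eq ?_)
  rw [hc]
  field_simp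

/-- **THE RUN** (#5124 (2) + real-variable half of (6)). -/
theorem Dat.run {k0 K : ℕ} (h : Dat κ (2 ^ k0) (2 ^ (k0 + K)) U I R e ρ) {η A H C0 K2 : ℝ}
    {E : ℝ → ℝ} {Ω0 : Set ℝ} (hE : Measurable E) (hΩ : MeasurableSet Ω0)
    (h0 : 0 < η) (h16 : η ≤ 1 / 16) (hκ : κ ≤ η) (hK : 0 < K)
    (hA : I (2 ^ k0) / U (2 ^ k0) ≤ A * 2 ^ k0) (hAK : A ≤ η * K)
    (hH0 : 0 < H) (hH : Real.log (U (2 ^ (k0 + K))) - Real.log (U (2 ^ k0)) ≤ H)
    (hsum : ∑ k ∈ Finset.range K,
      (volume (Ω0 ∩ Icc ((2 : ℝ) ^ (k0 + k)) (2 ^ (k0 + k + 1)))).toReal / 2 ^ (k0 + k)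
        ≤ η / 2 * K)
    (hC0 : 0 < C0) (hK2 : 8 * C0 * Real.exp (4 * H / (η * K)) / η ≤ K2)
    (hg6 : ∀ᵐ t, t ∈ Icc ((2 : ℝ) ^ k0) (2 ^ (k0 + K)) → t ∉ Ω0 → E t ≤ C0 * t * R t)
    (hg2 : ∀ᵐ t, t ∈ Icc ((2 : ℝ) ^ k0) (2 ^ (k0 + K)) → t ∉ Ω0 → E t ≤ K2 * U t →
      2 * (1 - η) * U t ≤ e t) :
    3 * K / (32 * η) ≤ H := by
  have hKr : (0 : ℝ) < K := by exact_mod_cast hK
  set aa : ℝ := 2 ^ k0 with haa
  set bb : ℝ := 2 ^ (k0 + K) with hbb
  set K1 : ℝ := Real.exp (4 * H / (η * K)) with hK1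
  have hK1p : 0 < K1 := Real.exp_pos _
  have hK2p : 0 < K2 := lt_of_lt_of_le (by positivity) hK2
  set B : Set ℝ := {t | K2 * ext aa bb U t < E t} with hB
  have hBm : MeasurableSet B := measurableSet_lt (h.ext_meas.const_mul K2) hE
  set Ω : Set ℝ := Ω0 ∪ B with hΩd
  have hΩm : MeasurableSet Ω := hΩ.union hBm
  refine le_trans (h.growth hΩm h0 h16 hκ ?_ ?_ hA hAK) hH
  · filter_upwards [hg2] with t ht htm htΩ
    have h1 : t ∉ Ω0 := fun h' => htΩ (Or.inl h')
    have h2 : ¬ (K2 * ext aa bb U t < E t) := fun h' => htΩ (Or.inr h')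
    rw [ext_eq htm] at h2
    exact ht htm h1 (not_lt.mp h2)
  · set L : ℕ → ℝ := fun k => Real.log (U (2 ^ (k0 + k))) with hL
    have hpow : ∀ k, (2 : ℝ) * 2 ^ (k0 + k) = 2 ^ (k0 + k + 1) := fun k => by ring
    have hle : ∀ k, k ≤ K → (2 : ℝ) ^ (k0 + k) ∈ Icc aa bb := fun k hk' =>
      ⟨pow_le_pow_right₀ (by norm_num) (by lia), pow_le_pow_right₀ (by norm_num) (by lia)⟩
    have hblk : ∀ k, k < K →
        (volume (Ω ∩ Icc ((2 : ℝ) ^ (k0 + k)) (2 ^ (k0 + k + 1)))).toReal / 2 ^ (k0 + k)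
          ≤ (volume (Ω0 ∩ Icc ((2 : ℝ) ^ (k0 + k)) (2 ^ (k0 + k + 1)))).toReal / 2 ^ (k0 + k)
            + η / 4 + η * K / (4 * H) * (L (k + 1) - L k) := by
      intro k hk
      have hP : (0 : ℝ) < 2 ^ (k0 + k) := by positivity
      have hmk := hle k hk.le
      have hmk1 := hle (k + 1) hk
      have hUk := h.pos hmk
      have hUk1 := h.pos hmk1
      have hmono : L k ≤ L (k + 1) := by
        apply Real.log_le_log hUk
        apply h.mono hmk hmk1
        exact pow_le_pow_right₀ (by norm_num) (by lia)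
      -- subadditivity
      have hs1 : (volume (Ω ∩ Icc ((2 : ℝ) ^ (k0 + k)) (2 ^ (k0 + k + 1)))).toReal
          ≤ (volume (Ω0 ∩ Icc ((2 : ℝ) ^ (k0 + k)) (2 ^ (k0 + k + 1)))).toReal
            + (volume ((B \ Ω0) ∩ Icc ((2 : ℝ) ^ (k0 + k)) (2 ^ (k0 + k + 1)))).toReal := by
        have hf1 : volume (Ω0 ∩ Icc ((2 : ℝ) ^ (k0 + k)) (2 ^ (k0 + k + 1))) ≠ ⊤ :=
          ne_of_lt (lt_of_le_of_lt (measure_mono inter_subset_right) (by simp))
        have hf2 : volume ((B \ Ω0) ∩ Icc ((2 : ℝ) ^ (k0 + k)) (2 ^ (k0 + k + 1))) ≠ ⊤ :=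
          ne_of_lt (lt_of_le_of_lt (measure_mono inter_subset_right) (by simp))
        rw [← ENNReal.toReal_add hf1 hf2]
        apply ENNReal.toReal_mono (ENNReal.add_ne_top.mpr ⟨hf1, hf2⟩)
        refine le_trans (measure_mono ?_) (measure_union_le _ _)
        rintro t ⟨ht1, ht2⟩
        by_cases h' : t ∈ Ω0
        · exact Or.inl ⟨h', ht2⟩
        · exact Or.inr ⟨⟨ht1.resolve_left h', h'⟩, ht2⟩
      -- the measure of the bad part
      have hs2 : (volume ((B \ Ω0) ∩ Icc ((2 : ℝ) ^ (k0 + k)) (2 ^ (k0 + k + 1)))).toReal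
          / 2 ^ (k0 + k) ≤ η / 4 + η * K / (4 * H) * (L (k + 1) - L k) := by
        by_cases hbad : U (2 ^ (k0 + k + 1)) ≤ K1 * U (2 ^ (k0 + k))
        · have h1 := h.ratio (T := 2 ^ (k0 + k)) (K1 := K1) hE hΩ hP hmk.1
            (by rw [hpow]; exact hmk1.2) hC0 hK2p hg6 (by rw [hpow]; exact hbad)
          rw [hpow] at h1
          have h2 : 2 * C0 * K1 / K2 ≤ η / 4 := by
            rw [div_le_iff₀ hK2p]
            rw [div_le_iff₀ h0] at hK2
            linarith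
          have h3 : 0 ≤ η * K / (4 * H) * (L (k + 1) - L k) :=
            mul_nonneg (by positivity) (by linarith)
          rw [div_le_iff₀ hP]
          calc _ ≤ 2 * C0 * K1 / K2 * 2 ^ (k0 + k) := h1
            _ ≤ η / 4 * 2 ^ (k0 + k) := mul_le_mul_of_nonneg_right h2 hP.le
            _ ≤ _ := by
              apply mul_le_mul_of_nonneg_right _ hP.le
              linarith
        · push Not at hbad
          have h1 : 4 * H / (η * K) < L (k + 1) - L k := by
            have h2 := Real.log_lt_log (by positivity) hbad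
            rw [Real.log_mul hK1p.ne' hUk.ne', hK1, Real.log_exp] at h2
            have h3 : L (k + 1) = Real.log (U (2 ^ (k0 + k + 1))) := rfl
            have h4 : L k = Real.log (U (2 ^ (k0 + k))) := rfl
            rw [h3, h4]
            linarith
          have h5 : 1 ≤ η * K / (4 * H) * (L (k + 1) - L k) := by
            have h6 : η * K / (4 * H) * (4 * H / (η * K)) = 1 := by field_simp
            have h7 := mul_lt_mul_of_pos_left h1 (show 0 < η * K / (4 * H) by positivity)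
            linarith
          have h8 : (volume ((B \ Ω0) ∩ Icc ((2 : ℝ) ^ (k0 + k)) (2 ^ (k0 + k + 1)))).toReal
              ≤ 2 ^ (k0 + k) := by
            have h9 : volume ((B \ Ω0) ∩ Icc ((2 : ℝ) ^ (k0 + k)) (2 ^ (k0 + k + 1)))
                ≤ ENNReal.ofReal (2 ^ (k0 + k)) := by
              refine (measure_mono inter_subset_right).trans (le_of_eq ?_)
              rw [Real.volume_Icc]
              congr 1
              ring
            have h10 := ENNReal.toReal_mono (by simp) h9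
            rwa [ENNReal.toReal_ofReal (by positivity)] at h10
          rw [div_le_iff₀ hP]
          nlinarith
      calc _ ≤ ((volume (Ω0 ∩ Icc ((2 : ℝ) ^ (k0 + k)) (2 ^ (k0 + k + 1)))).toReal
            + (volume ((B \ Ω0) ∩ Icc ((2 : ℝ) ^ (k0 + k)) (2 ^ (k0 + k + 1)))).toReal)
            / 2 ^ (k0 + k) := by
              apply div_le_div_of_nonneg_right hs1 hP.le
        _ ≤ _ := by
              rw [add_div]
              linarith
    have htel : ∑ k ∈ Finset.range K, (L (k + 1) - L k) = L K - L 0 := Finset.sum_range_sub L K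
    have hLK : L K - L 0 ≤ H := by
      simp only [hL, add_zero]
      exact hH
    calc _ ≤ ∑ k ∈ Finset.range K,
          ((volume (Ω0 ∩ Icc ((2 : ℝ) ^ (k0 + k)) (2 ^ (k0 + k + 1)))).toReal / 2 ^ (k0 + k)
            + η / 4 + η * K / (4 * H) * (L (k + 1) - L k)) :=
          Finset.sum_le_sum fun k hk => hblk k (Finset.mem_range.mp hk)
      _ = ∑ k ∈ Finset.range K,
          (volume (Ω0 ∩ Icc ((2 : ℝ) ^ (k0 + k)) (2 ^ (k0 + k + 1)))).toReal / 2 ^ (k0 + k)
            + K * (η / 4) + η * K / (4 * H) * (L K - L 0) := by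
          rw [Finset.sum_add_distrib, Finset.sum_add_distrib, ← Finset.mul_sum, htel]
          simp
      _ ≤ η / 2 * K + K * (η / 4) + η * K / (4 * H) * H := by
          have := mul_le_mul_of_nonneg_left hLK (show 0 ≤ η * K / (4 * H) by positivity)
          linarith
      _ = η * K := by
          field_simp
          ring

/-- **(ODE3)** pigeonhole over the mergings: increasing times `τ 0 ≤ … ≤ τ (N + 1)` with
`τ 0 ≤ 2 ^ p`, `2 ^ (p + M) ≤ τ (N + 1)`: some `[τ i, τ (i + 1)]` contains `K` consecutive dyadic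
blocks as soon as `(K + 2) (N + 1) ≤ M`. -/
theorem exists_run {N p M K : ℕ} {τ : ℕ → ℝ} (h0 : τ 0 ≤ 2 ^ p) (h1 : (2 : ℝ) ^ (p + M) ≤ τ (N + 1))
    (hK : (K + 2) * (N + 1) ≤ M) :
    ∃ i ≤ N, ∃ k, p ≤ k ∧ k + K ≤ p + M ∧ τ i ≤ 2 ^ k ∧ (2 : ℝ) ^ (k + K) ≤ τ (i + 1) := by
  by_contra hcon
  push Not at hcon
  -- by induction `τ i ≤ 2 ^ (p + (K + 2) i)`
  have key : ∀ i, i ≤ N + 1 → τ i ≤ 2 ^ (p + (K + 1) * i) := by
    intro i
    induction i with
    | zero => intro _; simpa using h0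
    | succ i ih =>
      intro hi
      have h2 := ih (by lia)
      have hb : p + (K + 1) * i + K ≤ p + M := by nlinarith
      have h3 := hcon i (by lia) (p + (K + 1) * i) (by lia) hb h2
      refine h3.le.trans ?_
      apply pow_le_pow_right₀ (by norm_num)
      nlinarith
  have h2 := key (N + 1) le_rfl
  have h3 : (2 : ℝ) ^ (p + M) ≤ 2 ^ (p + (K + 1) * (N + 1)) := h1.trans h2
  have h4 : p + M ≤ p + (K + 1) * (N + 1) := (pow_le_pow_iff_right₀ (by norm_num)).mp h3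
  nlinarith

end Crest.Agent.R234.Ode_201
end

-- ▼ part R234/Core1_809

/-!
# R234 / Core1_809 : node N10 of the core (#5124 (2)+(6)), the contradiction at ONE contact point

Everything is along `l = log (s / s0)`. `W` is the type of well configurations, `q w` the gap,
`eF w`, `IF w`, `er w` the well energy, the well height and the error of (W3).
-/

set_option autoImplicit false

namespace Crest.Agent.R234.Core_809

open MeasureTheory Set Filter
open Crest.Agent.R234.Ode_201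
open scoped Topology

/-- the data at one (averaged) contact centre on the window `[a0, T]` of `l`:
`U' = R ≥ 0`, `U ≤ E`; (W2), (W3) for all wells `w` with `q w ^ 2 ≤ q1`. -/
structure PtDat {W : Type*} (q : W → ℝ) (κ a0 T q1 : ℝ) (U E R : ℝ → ℝ)
    (eF IF er : W → ℝ → ℝ) : Prop where
  haT : a0 ≤ T
  k0 : 0 ≤ κ
  Upos : 0 < U a0
  hR : IntervalIntegrable R volume a0 T
  hU : ∀ x ∈ Icc a0 T, U x = U a0 + ∫ t in a0..x, R t
  Rnn : ∀ᵐ t, t ∈ Icc a0 T → 0 ≤ R t
  UE : ∀ x ∈ Icc a0 T, U x ≤ E x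
  Em : Measurable E
  Inn : ∀ w, ∀ x ∈ Icc a0 T, 0 ≤ IF w x
  he : ∀ w, q w ^ 2 ≤ q1 → IntervalIntegrable (eF w) volume a0 T
  hρ : ∀ w, q w ^ 2 ≤ q1 → IntervalIntegrable (er w) volume a0 T
  hI : ∀ w, q w ^ 2 ≤ q1 → ∀ x ∈ Icc a0 T, IF w x = IF w a0 + ∫ t in a0..x, (2 * eF w t + er w t)
  cs : ∀ w, q w ^ 2 ≤ q1 → ∀ᵐ t, t ∈ Icc a0 T → eF w t ^ 2 ≤ R t * IF w t + κ * U t ^ 2
  rho : ∀ w, q w ^ 2 ≤ q1 → ∀ᵐ t, t ∈ Icc a0 T → |er w t| ≤ κ * U t

/-- the data of (U, E, R) alone, as a `Dat` with zero wells -/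
theorem PtDat.dat0 {W : Type*} {q : W → ℝ} {κ a0 T q1 : ℝ} {U E R : ℝ → ℝ}
    {eF IF er : W → ℝ → ℝ} (h : PtDat q κ a0 T q1 U E R eF IF er) :
    Dat κ a0 T U (fun _ => 0) R (fun _ => 0) (fun _ => 0) where
  hab := h.haT
  k0 := h.k0
  Upos := h.Upos
  Inn := fun _ _ => le_rfl
  hR := h.hR
  he := by simp
  hρ := by simp
  hU := h.hU
  hI := fun x _ => by simp
  Rnn := h.Rnn
  cs := by
    filter_upwards with t _
    have := h.k0
    simp only [ne_eq, OfNat.ofNat_ne_zero, not_false_eq_true, zero_pow, mul_zero, zero_add]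
    positivity
  rho := by
    filter_upwards with t ht
    have hU0 : ∀ x ∈ Icc a0 T, 0 < U x := by
      intro x hx
      rw [h.hU x hx]
      have h1 : 0 ≤ ∫ t in a0..x, R t := by
        apply intervalIntegral.integral_nonneg_of_ae_restrict hx.1
        rw [EventuallyLE, ae_restrict_iff' measurableSet_Icc]
        filter_upwards [h.Rnn] with t h1 h2 using h1 ⟨h2.1, h2.2.trans hx.2⟩
      have := h.Upos
      linarith
    have := h.k0
    have := hU0 t ht
    simp only [abs_zero]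
    positivity

theorem PtDat.dat {W : Type*} {q : W → ℝ} {κ a0 T q1 : ℝ} {U E R : ℝ → ℝ}
    {eF IF er : W → ℝ → ℝ} (h : PtDat q κ a0 T q1 U E R eF IF er) {w : W} (hw : q w ^ 2 ≤ q1) :
    Dat κ a0 T U (IF w) R (eF w) (er w) where
  hab := h.haT
  k0 := h.k0
  Upos := h.Upos
  Inn := h.Inn w
  hR := h.hR
  he := h.he w hw
  hρ := h.hρ w hw
  hU := h.hU
  hI := h.hI w hw
  Rnn := h.Rnn
  cs := h.cs w hw
  rho := h.rho w hw

theorem PtDat.pos {W : Type*} {q : W → ℝ} {κ a0 T q1 : ℝ} {U E R : ℝ → ℝ}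
    {eF IF er : W → ℝ → ℝ} (h : PtDat q κ a0 T q1 U E R eF IF er) {x : ℝ} (hx : x ∈ Icc a0 T) :
    0 < U x := h.dat0.pos hx

theorem PtDat.mono {W : Type*} {q : W → ℝ} {κ a0 T q1 : ℝ} {U E R : ℝ → ℝ}
    {eF IF er : W → ℝ → ℝ} (h : PtDat q κ a0 T q1 U E R eF IF er) {x y : ℝ} (hx : x ∈ Icc a0 T)
    (hy : y ∈ Icc a0 T) (hxy : x ≤ y) : U x ≤ U y := h.dat0.mono hx hy hxy

/-- **search of a good scale** in the zone of the dyadic blocks `a + 1, …, a + K - 1`. -/
theorem search {κ a0 T : ℝ} {U I R e ρ E : ℝ → ℝ} (h : Dat κ a0 T U I R e ρ) {Ω0 : Set ℝ}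
    (hE : Measurable E) (hΩ : MeasurableSet Ω0) {a K : ℕ} {η H C0 K2 : ℝ}
    (ha : a0 ≤ 2 ^ a) (hT : (2 : ℝ) ^ (a + K) ≤ T)
    (h16 : η ≤ 1 / 16) (hK : 2 ≤ K) (hH0 : 0 < H)
    (hH : Real.log (U (2 ^ (a + K))) - Real.log (U (2 ^ a)) ≤ H)
    (hsum : ∑ k ∈ Finset.range K,
      (volume (Ω0 ∩ Icc ((2 : ℝ) ^ (a + k)) (2 ^ (a + k + 1)))).toReal / 2 ^ (a + k) ≤ η / 2 * K)
    (hC0 : 0 < C0) (hK2 : 8 * C0 * Real.exp (4 * H / K) ≤ K2)
    (hg6 : ∀ᵐ t, t ∈ Icc a0 T → t ∉ Ω0 → E t ≤ C0 * t * R t) :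
    ∃ t, (2 : ℝ) ^ (a + 1) ≤ t ∧ t ≤ 2 ^ (a + K) ∧ t ∉ Ω0 ∧ E t ≤ K2 * U t := by
  have hKr : (2 : ℝ) ≤ K := by exact_mod_cast hK
  have hK2p : 0 < K2 := lt_of_lt_of_le (by positivity) hK2
  have hle : ∀ k, k ≤ K → (2 : ℝ) ^ (a + k) ∈ Icc a0 T := fun k hk' =>
    ⟨ha.trans (pow_le_pow_right₀ (by norm_num) (by lia)),
      (pow_le_pow_right₀ (by norm_num) (by lia)).trans hT⟩
  set θ : ℕ → ℝ := fun k =>
    (volume (Ω0 ∩ Icc ((2 : ℝ) ^ (a + k)) (2 ^ (a + k + 1)))).toReal / 2 ^ (a + k) with hθ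
  set L : ℕ → ℝ := fun k => Real.log (U (2 ^ (a + k))) with hL
  have hθ0 : ∀ k, 0 ≤ θ k := fun k => div_nonneg ENNReal.toReal_nonneg (by positivity)
  have hLm : ∀ k, k < K → L k ≤ L (k + 1) := by
    intro k hk
    apply Real.log_le_log (h.pos (hle k hk.le))
    exact h.mono (hle k hk.le) (hle (k + 1) hk) (pow_le_pow_right₀ (by norm_num) (by lia))
  -- a good block
  have hex : ∃ k, 1 ≤ k ∧ k < K ∧ θ k ≤ 1 / 4 ∧ L (k + 1) - L k ≤ 4 * H / K := by
    by_contra hcon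
    push Not at hcon
    have h1 : ∀ k ∈ Finset.range K, (if k = 0 then (0 : ℝ) else 1)
        ≤ 4 * θ k + K / (4 * H) * (L (k + 1) - L k) := by
      intro k hk
      have hkK := Finset.mem_range.mp hk
      have hm := hLm k hkK
      have h3 : 0 ≤ K / (4 * H) * (L (k + 1) - L k) :=
        mul_nonneg (by positivity) (by linarith)
      have h4 := hθ0 k
      split_ifs with hk0
      · linarith
      · by_cases h5 : θ k ≤ 1 / 4
        · have h6 := hcon k (by lia) hkK h5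
          have h7 : 1 < K / (4 * H) * (L (k + 1) - L k) := by
            have h8 : K / (4 * H) * (4 * H / K) = 1 := by field_simp
            have h9 : K / (4 * H) * (4 * H / K) < K / (4 * H) * (L (k + 1) - L k) :=
              mul_lt_mul_of_pos_left h6 (by positivity)
            linarith
          linarith
        · push Not at h5
          linarith
    have h2 := Finset.sum_le_sum h1
    rw [Finset.sum_add_distrib, ← Finset.mul_sum, ← Finset.mul_sum, Finset.sum_range_sub] at h2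
    have h3 : ∑ k ∈ Finset.range K, (if k = 0 then (0 : ℝ) else 1) = K - 1 := by
      have h4 : ∑ k ∈ Finset.range K, (if k = 0 then (0 : ℝ) else 1)
          = ∑ k ∈ Finset.range K, ((1 : ℝ) - if k = 0 then 1 else 0) := by
        apply Finset.sum_congr rfl
        intro k _
        split_ifs <;> simp
      rw [h4, Finset.sum_sub_distrib]
      simp only [Finset.sum_const, Finset.card_range, nsmul_eq_mul, mul_one]
      rw [Finset.sum_ite_eq' (Finset.range K) 0]
      simp [show 0 < K by lia]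
    rw [h3] at h2
    have h5 : K / (4 * H) * (L K - L 0) ≤ K / 4 := by
      have h6 : L K - L 0 ≤ H := by
        simp only [hL, add_zero]
        exact hH
      calc K / (4 * H) * (L K - L 0) ≤ K / (4 * H) * H :=
            mul_le_mul_of_nonneg_left h6 (by positivity)
        _ = K / 4 := by field_simp
    have h7 : ∑ k ∈ Finset.range K, θ k ≤ η / 2 * K := hsum
    nlinarith
  obtain ⟨k, hk1, hkK, hθk, hLk⟩ := hex
  set P : ℝ := 2 ^ (a + k) with hP
  have hPpos : 0 < P := by positivity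
  have hpow : 2 * P = 2 ^ (a + k + 1) := by rw [hP]; ring
  have hPm := hle k hkK.le
  have hP1m := hle (k + 1) hkK
  have hUP := h.pos hPm
  have hUP1 := h.pos hP1m
  have hK1 : U (2 * P) ≤ Real.exp (4 * H / K) * U P := by
    rw [hpow]
    have h1 : Real.log (U (2 ^ (a + (k + 1)))) ≤ 4 * H / K + Real.log (U P) := by
      have : L (k + 1) - L k ≤ 4 * H / K := hLk
      simp only [hL] at this
      linarith
    calc U (2 ^ (a + k + 1)) = Real.exp (Real.log (U (2 ^ (a + (k + 1))))) :=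
          (Real.exp_log hUP1).symm
      _ ≤ Real.exp (4 * H / K + Real.log (U P)) := Real.exp_le_exp.mpr h1
      _ = _ := by rw [Real.exp_add, Real.exp_log hUP]
  have h1 := h.ratio hE hΩ hPpos hPm.1 (by rw [hpow]; exact hP1m.2) hC0 hK2p hg6 hK1
  have h2 : 2 * C0 * Real.exp (4 * H / K) / K2 * P ≤ P / 4 := by
    have h3 : 2 * C0 * Real.exp (4 * H / K) / K2 ≤ 1 / 4 := by
      rw [div_le_iff₀ hK2p]; linarith
    nlinarith
  set S : Set ℝ := ({t | K2 * ext a0 T U t < E t} \ Ω0) ∩ Icc P (2 * P) with hS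
  have h3 : (volume (Ω0 ∩ Icc P (2 * P))).toReal ≤ P / 4 := by
    have h4 : (volume (Ω0 ∩ Icc P (2 ^ (a + k + 1)))).toReal / P ≤ 1 / 4 := hθk
    rw [div_le_iff₀ hPpos] at h4
    rw [hpow]
    linarith
  -- the rest of the block is not empty
  have hne : ¬ (Icc P (2 * P) ⊆ (Ω0 ∩ Icc P (2 * P)) ∪ S) := by
    intro hsub
    have h5 := measure_mono (μ := volume) hsub
    have h6 := h5.trans (measure_union_le _ _)
    have hfin : ∀ A : Set ℝ, volume (A ∩ Icc P (2 * P)) ≠ ⊤ := fun A =>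
      ne_of_lt (lt_of_le_of_lt (measure_mono inter_subset_right) (by simp))
    have h7 : (volume (Icc P (2 * P))).toReal
        ≤ (volume (Ω0 ∩ Icc P (2 * P))).toReal + (volume S).toReal := by
      rw [← ENNReal.toReal_add (hfin _) (hfin _)]
      exact ENNReal.toReal_mono (ENNReal.add_ne_top.mpr ⟨hfin _, hfin _⟩) h6
    rw [Real.volume_Icc, ENNReal.toReal_ofReal (by linarith)] at h7
    linarith
  rw [not_subset] at hne
  obtain ⟨t, ht, htn⟩ := hne
  have ht1 : t ∉ Ω0 := fun h' => htn (Or.inl ⟨h', ht⟩)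
  have htm : t ∈ Icc a0 T := ⟨hPm.1.trans ht.1, ht.2.trans (by rw [hpow]; exact hP1m.2)⟩
  have ht2 : ¬ (K2 * ext a0 T U t < E t) := fun h' => htn (Or.inr ⟨⟨h', ht1⟩, ht⟩)
  rw [ext_eq htm] at ht2
  refine ⟨t, ?_, ?_, ht1, not_lt.mp ht2⟩
  · exact (pow_le_pow_right₀ (by norm_num) (by lia)).trans ht.1
  · refine ht.2.trans ?_
    rw [hpow]
    exact pow_le_pow_right₀ (by norm_num) (by lia)

theorem zone_sum {f : ℕ → ℝ} (hf : ∀ k, 0 ≤ f k) {j K n : ℕ} (hj : (j + 1) * K ≤ n) :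
    ∑ k ∈ Finset.range K, f (j * K + k) ≤ ∑ k ∈ Finset.range n, f k := by
  have h1 : ∑ k ∈ Finset.range K, f (j * K + k)
      = ∑ k ∈ (Finset.range K).map (addLeftEmbedding (j * K)), f k := by
    rw [Finset.sum_map]
    rfl
  rw [h1]
  apply Finset.sum_le_sum_of_subset_of_nonneg
  · intro x hx
    simp only [Finset.mem_map, Finset.mem_range, addLeftEmbedding_apply] at hx ⊢
    obtain ⟨y, hy, rfl⟩ := hx
    nlinarith
  · intro k _ _
    exact hf k

set_option maxHeartbeats 1000000 in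
/-- **NODE N10 (PT)**: the contradiction at one contact point. `Ω0` is the set of bad scales,
`N` the bound for the number of separated heights, `K` the number of dyadic blocks per zone. -/
theorem pt_false {W : Type*} {q : W → ℝ} {κ a0 T q1 : ℝ} {U E R : ℝ → ℝ}
    {eF IF er : W → ℝ → ℝ} (h : PtDat q κ a0 T q1 U E R eF IF er)
    {N p K : ℕ} {η H C0 K2 Θ c1 C3 A KR M B : ℝ} {e : ℝ → ℝ} {Ω0 : Set ℝ}
    (hΩ : MeasurableSet Ω0) (ha0 : a0 ≤ 2 ^ p) (hT : (2 : ℝ) ^ (p + (2 * N + 1) * K) ≤ T)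
    (hη0 : 0 < η) (h16 : η ≤ 1 / 16) (hκ : κ ≤ η) (hK : 4 ≤ K)
    (hH0 : 0 < H) (hH : Real.log (U T) - Real.log (U a0) ≤ H)
    (hsum : ∑ k ∈ Finset.range ((2 * N + 1) * K),
      (volume (Ω0 ∩ Icc ((2 : ℝ) ^ (p + k)) (2 ^ (p + k + 1)))).toReal / 2 ^ (p + k) ≤ η / 2 * K)
    (hC0 : 0 < C0) (hK2 : 8 * C0 * Real.exp (4 * H / (η * K)) / η ≤ K2)
    (hg6 : ∀ t ∈ Icc a0 T, t ∉ Ω0 → E t ≤ C0 * t * R t)
    (hg2 : ∀ w, q w ^ 2 ≤ q1 → ∀ t ∈ Icc a0 T, t + 1 ≤ T → t ∉ Ω0 → Θ * t * E t ≤ q w ^ 2 →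
      IF w (t + 1) ≤ c1 * q w ^ 2 → IF w t ≤ B * t * E t → IF w (t + 1) ≤ B * (t * U (t + 1)) →
      2 * (1 - η) * E t ≤ eF w t)
    (hg1 : ∀ t ∈ Icc a0 T, t ∉ Ω0 → e (t + 3) ≤ C3 * E t)
    (hrun : ∀ τ : ℕ → ℝ, (∀ i ≤ N, a0 ≤ τ i ∧ τ i ≤ T ∧ 1 ≤ τ i) →
      (∀ i < N, 16 * τ i ≤ τ (i + 1)) →
      (∀ i ≤ N, A * e (τ i + 3) ≤ M ^ 2 * (U (τ i) * τ i)) →
      ∃ i < N, ∃ w, q w ^ 2 = M ^ 2 * (U (τ (i + 1)) * τ (i + 1)) / 4 ∧
        IF w (τ i) ≤ KR * M ^ 2 * (U (τ i) * τ i))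
    (hq1 : M ^ 2 * (U T * T) ≤ q1) (hΘ : 0 ≤ Θ) (hM : 4 * K2 * Θ ≤ M ^ 2) (hA : 0 ≤ A)
    (hC3 : 0 ≤ C3) (hM2 : A * C3 * K2 ≤ M ^ 2) (hc1 : 0 < c1) (hM3 : 16 ≤ c1 * M ^ 2)
    (hKR0 : 0 ≤ KR) (hKR : 8 * KR ≤ c1 * 2 ^ K) (hAK : KR * M ^ 2 + 2 ≤ η * K)
    (hfin : H < 3 * K / (32 * η)) (hB : KR * M ^ 2 + 4 ≤ B) : False := by
  have hKr : (4 : ℝ) ≤ K := by exact_mod_cast hK
  have hKpos : (0 : ℝ) < K := by linarith
  have hK2p : 0 < K2 := lt_of_lt_of_le (by positivity) hK2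
  have hκ0 := h.k0
  have hκ2 : 1 + 2 * κ ≤ 2 := by linarith
  have hmem : ∀ k, k ≤ (2 * N + 1) * K → (2 : ℝ) ^ (p + k) ∈ Icc a0 T := fun k hk =>
    ⟨ha0.trans (pow_le_pow_right₀ (by norm_num) (by lia)),
      (pow_le_pow_right₀ (by norm_num) (by lia)).trans hT⟩
  have hTm : T ∈ Icc a0 T := ⟨h.haT, le_rfl⟩
  have ha0m : a0 ∈ Icc a0 T := ⟨le_rfl, h.haT⟩
  have hgrow : ∀ x y, x ∈ Icc a0 T → y ∈ Icc a0 T → Real.log (U y) - Real.log (U x) ≤ H := by
    intro x y hx hy
    have h1 : Real.log (U y) ≤ Real.log (U T) :=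
      Real.log_le_log (h.pos hy) (h.mono hy hTm hy.2)
    have h2 : Real.log (U a0) ≤ Real.log (U x) :=
      Real.log_le_log (h.pos ha0m) (h.mono ha0m hx hx.1)
    linarith
  have hθ0 : ∀ k, 0 ≤ (volume (Ω0 ∩ Icc ((2 : ℝ) ^ (p + k)) (2 ^ (p + k + 1)))).toReal /
      2 ^ (p + k) := fun k => div_nonneg ENNReal.toReal_nonneg (by positivity)
  have hzone : ∀ j, j ≤ 2 * N → ∑ k ∈ Finset.range K,
      (volume (Ω0 ∩ Icc ((2 : ℝ) ^ (p + j * K + k)) (2 ^ (p + j * K + k + 1)))).toReal /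
        2 ^ (p + j * K + k) ≤ η / 2 * K := by
    intro j hj
    refine le_trans ?_ hsum
    have h1 := zone_sum hθ0 (j := j) (K := K) (n := (2 * N + 1) * K)
      (Nat.mul_le_mul_right K (by lia))
    simpa only [← add_assoc] using h1
  have hexp : Real.exp (4 * H / K) ≤ Real.exp (4 * H / (η * K)) / η := by
    have h1 : 4 * H / K ≤ 4 * H / (η * K) := by
      apply div_le_div_of_nonneg_left (by positivity) (by positivity)
      nlinarith
    have h2 := Real.exp_le_exp.mpr h1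
    rw [le_div_iff₀ hη0]
    have := Real.exp_pos (4 * H / K)
    nlinarith
  -- the division points
  have hsearch : ∀ i, i ≤ N → ∃ t, (2 : ℝ) ^ (p + 2 * i * K + 1) ≤ t ∧ t ≤ 2 ^ (p + 2 * i * K + K) ∧
      t ∉ Ω0 ∧ E t ≤ K2 * U t := by
    intro i hi
    have hb1 : 2 * i * K ≤ (2 * N + 1) * K := Nat.mul_le_mul_right K (by lia)
    have hb2 : 2 * i * K + K ≤ (2 * N + 1) * K := by
      calc 2 * i * K + K = (2 * i + 1) * K := by ring
        _ ≤ _ := Nat.mul_le_mul_right K (by lia)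
    have hm1 := hmem _ hb1
    have hm2 := hmem _ hb2
    rw [← add_assoc] at hm2
    refine search h.dat0 h.Em hΩ (η := η) (H := H) (C0 := C0) hm1.1 hm2.2 h16 (by lia) hH0
      (hgrow _ _ hm1 hm2) (hzone (2 * i) (by lia)) hC0 ?_ ?_
    · have h1 : 8 * C0 * Real.exp (4 * H / K) ≤ 8 * C0 * (Real.exp (4 * H / (η * K)) / η) :=
        mul_le_mul_of_nonneg_left hexp (by positivity)
      calc _ ≤ _ := h1
        _ = 8 * C0 * Real.exp (4 * H / (η * K)) / η := by ring
        _ ≤ K2 := hK2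
    · filter_upwards with t ht htΩ using hg6 t ht htΩ
  choose! τ hτ1 hτ2 hτ3 hτ4 using hsearch
  have hτm : ∀ i ≤ N, a0 ≤ τ i ∧ τ i ≤ T ∧ 1 ≤ τ i := by
    intro i hi
    have hb1 : 2 * i * K ≤ (2 * N + 1) * K := Nat.mul_le_mul_right K (by lia)
    have hb2 : 2 * i * K + K ≤ (2 * N + 1) * K := by
      calc 2 * i * K + K = (2 * i + 1) * K := by ring
        _ ≤ _ := Nat.mul_le_mul_right K (by lia)
    have hm1 := hmem _ hb1
    have hm2 := hmem _ hb2
    rw [← add_assoc] at hm2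
    refine ⟨hm1.1.trans ((pow_le_pow_right₀ (by norm_num) (by lia)).trans (hτ1 i hi)),
      (hτ2 i hi).trans hm2.2, le_trans ?_ (hτ1 i hi)⟩
    exact one_le_pow₀ (by norm_num)
  have hτstep : ∀ i < N, 16 * τ i ≤ τ (i + 1) := by
    intro i hi
    have h1 := hτ2 i hi.le
    have h2 := hτ1 (i + 1) hi
    have h3 : (16 : ℝ) * 2 ^ (p + 2 * i * K + K) ≤ 2 ^ (p + 2 * (i + 1) * K + 1) := by
      have h4 : (16 : ℝ) * 2 ^ (p + 2 * i * K + K) = 2 ^ (p + 2 * i * K + K + 4) := by ring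
      rw [h4]
      apply pow_le_pow_right₀ (by norm_num)
      nlinarith
    linarith
  have hτe : ∀ i ≤ N, A * e (τ i + 3) ≤ M ^ 2 * (U (τ i) * τ i) := by
    intro i hi
    obtain ⟨h1, h2, h3⟩ := hτm i hi
    have h4 := hg1 (τ i) ⟨h1, h2⟩ (hτ3 i hi)
    have h5 := hτ4 i hi
    have h6 : 0 < U (τ i) := h.pos ⟨h1, h2⟩
    calc A * e (τ i + 3) ≤ A * (C3 * E (τ i)) := mul_le_mul_of_nonneg_left h4 hA
      _ ≤ A * (C3 * (K2 * U (τ i))) :=
          mul_le_mul_of_nonneg_left (mul_le_mul_of_nonneg_left h5 hC3) hA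
      _ = (A * C3 * K2) * U (τ i) := by ring
      _ ≤ M ^ 2 * U (τ i) := mul_le_mul_of_nonneg_right hM2 h6.le
      _ = M ^ 2 * (U (τ i) * 1) := by ring
      _ ≤ M ^ 2 * (U (τ i) * τ i) := by
          apply mul_le_mul_of_nonneg_left _ (sq_nonneg M)
          exact mul_le_mul_of_nonneg_left h3 h6.le
  obtain ⟨i, hiN, w, hqw, hIw⟩ := hrun τ hτm hτstep hτe
  obtain ⟨hi1, hi2, hi3⟩ := hτm i hiN.le
  obtain ⟨hj1, hj2, hj3⟩ := hτm (i + 1) hiN
  have him : τ i ∈ Icc a0 T := ⟨hi1, hi2⟩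
  have hjm : τ (i + 1) ∈ Icc a0 T := ⟨hj1, hj2⟩
  have hUi := h.pos him
  have hUj := h.pos hjm
  have hqle : q w ^ 2 ≤ q1 := by
    rw [hqw]
    have h1 : U (τ (i + 1)) * τ (i + 1) ≤ U T * T :=
      mul_le_mul (h.mono hjm hTm hj2) hj2 (by linarith) (h.pos hTm).le
    have h2 := mul_le_mul_of_nonneg_left h1 (sq_nonneg M)
    have h3 : 0 ≤ M ^ 2 * (U (τ (i + 1)) * τ (i + 1)) := by positivity
    linarith
  have hdat := h.dat hqle
  -- the run zone
  set k0 : ℕ := p + (2 * i + 1) * K with hk0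
  have hz1 : p + 2 * i * K + K = k0 := by rw [hk0]; ring
  have hz2 : p + 2 * (i + 1) * K = k0 + K := by rw [hk0]; ring
  have hb1 : (2 * i + 1) * K ≤ (2 * N + 1) * K := Nat.mul_le_mul_right K (by lia)
  have hb2 : (2 * i + 1) * K + K ≤ (2 * N + 1) * K := by
    calc (2 * i + 1) * K + K = (2 * i + 2) * K := by ring
      _ ≤ _ := Nat.mul_le_mul_right K (by lia)
  have hm1 : (2 : ℝ) ^ k0 ∈ Icc a0 T := hmem _ hb1
  have hm2 : (2 : ℝ) ^ (k0 + K) ∈ Icc a0 T := by
    have := hmem _ hb2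
    rwa [← add_assoc] at this
  have hτi_le : τ i ≤ 2 ^ k0 := by
    have := hτ2 i hiN.le
    rwa [hz1] at this
  have hτj_ge : (2 : ℝ) ^ (k0 + K) * 2 ≤ τ (i + 1) := by
    have := hτ1 (i + 1) hiN
    rw [hz2, pow_succ] at this
    exact this
  have hpk : (1 : ℝ) ≤ 2 ^ k0 := one_le_pow₀ (by norm_num)
  have hpk2 : (1 : ℝ) ≤ 2 ^ (k0 + K) := one_le_pow₀ (by norm_num)
  -- heights along the zone
  have hY : ∀ t, τ i ≤ t → t ≤ T → IF w t ≤ (KR * M ^ 2 * τ i + 2 * t) * U t := by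
    intro t h1 h2
    have htm : t ∈ Icc a0 T := ⟨hi1.trans h1, h2⟩
    have hUt := h.pos htm
    have h3 := (hdat.sub hi1 h1 h2).Y_le
    have h4 : IF w (τ i) / U (τ i) ≤ KR * M ^ 2 * τ i := by
      rw [div_le_iff₀ hUi]
      linarith [hIw]
    have h5 : (1 + 2 * κ) * (t - τ i) ≤ 2 * (t - τ i) :=
      mul_le_mul_of_nonneg_right hκ2 (by linarith)
    have h6 : IF w t / U t ≤ KR * M ^ 2 * τ i + 2 * t := by linarith
    rwa [div_le_iff₀ hUt] at h6
  have hD := hdat.sub hm1.1 (pow_le_pow_right₀ (by norm_num) (by lia) :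
    (2 : ℝ) ^ k0 ≤ 2 ^ (k0 + K)) hm2.2
  have hfinal := hD.run (η := η) (A := KR * M ^ 2 + 2) (H := H) (C0 := C0) (K2 := K2) (E := E)
    (Ω0 := Ω0) h.Em hΩ hη0 h16 hκ (by lia)
    (by
      rw [div_le_iff₀ (h.pos hm1)]
      refine (hY _ hτi_le hm1.2).trans ?_
      apply mul_le_mul_of_nonneg_right _ (h.pos hm1).le
      have : KR * M ^ 2 * τ i ≤ KR * M ^ 2 * 2 ^ k0 :=
        mul_le_mul_of_nonneg_left hτi_le (by positivity)
      linarith)
    hAK hH0 (hgrow _ _ hm1 hm2) (hzone (2 * i + 1) (by lia)) hC0 hK2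
    (by
      filter_upwards with t ht htΩ
      exact hg6 t ⟨hm1.1.trans ht.1, ht.2.trans hm2.2⟩ htΩ)
    (by
      filter_upwards with t ht htΩ hEt
      have htm : t ∈ Icc a0 T := ⟨hm1.1.trans ht.1, ht.2.trans hm2.2⟩
      have ht1 : 1 ≤ t := hpk.trans ht.1
      have htj : t + 1 ≤ τ (i + 1) := by linarith [ht.2]
      have htT : t + 1 ≤ T := htj.trans hj2
      have hUt := h.pos htm
      have htj' : t ≤ τ (i + 1) := by linarith
      have hUmono : U t ≤ U (τ (i + 1)) := h.mono htm hjm htj'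
      have hUmono1 : U (t + 1) ≤ U (τ (i + 1)) :=
        h.mono ⟨htm.1.trans (by linarith), htT⟩ hjm htj
      have hΘt : Θ * t * E t ≤ q w ^ 2 := by
        rw [hqw]
        have h1 : Θ * t * E t ≤ Θ * t * (K2 * U t) :=
          mul_le_mul_of_nonneg_left hEt (by positivity)
        have h2 : U t * t ≤ U (τ (i + 1)) * τ (i + 1) :=
          mul_le_mul hUmono htj' (by linarith) hUj.le
        have h3 : 4 * K2 * Θ * (U t * t) ≤ M ^ 2 * (U t * t) :=
          mul_le_mul_of_nonneg_right hM (by positivity)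
        have h4 : M ^ 2 * (U t * t) ≤ M ^ 2 * (U (τ (i + 1)) * τ (i + 1)) :=
          mul_le_mul_of_nonneg_left h2 (sq_nonneg M)
        have h5 : 4 * (Θ * t * (K2 * U t)) = 4 * K2 * Θ * (U t * t) := by ring
        linarith
      have hIt : IF w (t + 1) ≤ c1 * q w ^ 2 := by
        have h1 := hY (t + 1) (by linarith [ht.1]) htT
        have hcoef : 0 ≤ KR * M ^ 2 * τ i + 2 * (t + 1) := by positivity
        have h2 : (KR * M ^ 2 * τ i + 2 * (t + 1)) * U (t + 1)
            ≤ (KR * M ^ 2 * τ i + 2 * (t + 1)) * U (τ (i + 1)) :=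
          mul_le_mul_of_nonneg_left hUmono1 hcoef
        have h3 : 8 * KR * τ i ≤ c1 * τ (i + 1) := by
          calc 8 * KR * τ i ≤ c1 * 2 ^ K * τ i := mul_le_mul_of_nonneg_right hKR (by linarith)
            _ ≤ c1 * 2 ^ K * 2 ^ k0 := mul_le_mul_of_nonneg_left hτi_le (by positivity)
            _ = c1 * 2 ^ (k0 + K) := by ring
            _ ≤ c1 * τ (i + 1) := mul_le_mul_of_nonneg_left (by linarith) hc1.le
        have h4 : KR * M ^ 2 * τ i ≤ c1 * M ^ 2 * τ (i + 1) / 8 := by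
          have h4' := mul_le_mul_of_nonneg_right h3 (sq_nonneg M)
          have h4'' : 8 * KR * τ i * M ^ 2 = 8 * (KR * M ^ 2 * τ i) := by ring
          have h4a : c1 * τ (i + 1) * M ^ 2 = c1 * M ^ 2 * τ (i + 1) := by ring
          linarith
        have h5 : 2 * (t + 1) ≤ c1 * M ^ 2 * τ (i + 1) / 8 := by
          have h6 : 16 * τ (i + 1) ≤ c1 * M ^ 2 * τ (i + 1) :=
            mul_le_mul_of_nonneg_right hM3 (by linarith)
          linarith
        have h7 : (KR * M ^ 2 * τ i + 2 * (t + 1)) * U (τ (i + 1))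
            ≤ (c1 * M ^ 2 * τ (i + 1) / 4) * U (τ (i + 1)) := by
          apply mul_le_mul_of_nonneg_right _ hUj.le
          linarith
        rw [hqw]
        have h8' : c1 * (M ^ 2 * (U (τ (i + 1)) * τ (i + 1)) / 4)
            = (c1 * M ^ 2 * τ (i + 1) / 4) * U (τ (i + 1)) := by ring
        linarith
      have hτt : τ i ≤ t := hτi_le.trans ht.1
      have hKM : 0 ≤ KR * M ^ 2 := by positivity
      have hcoef : KR * M ^ 2 * τ i ≤ KR * M ^ 2 * t := mul_le_mul_of_nonneg_left hτt hKM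
      have hB1 : IF w t ≤ B * t * E t := by
        have h1 := hY t hτt (by linarith)
        have h2 : (KR * M ^ 2 * τ i + 2 * t) * U t ≤ (B * t) * U t := by
          apply mul_le_mul_of_nonneg_right _ hUt.le
          have h3 : (KR * M ^ 2 + 4) * t ≤ B * t := mul_le_mul_of_nonneg_right hB (by linarith)
          linarith
        have h3 : (B * t) * U t ≤ (B * t) * E t :=
          mul_le_mul_of_nonneg_left (h.UE t htm) (mul_nonneg (by linarith) (by linarith))
        linarith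
      have hB2 : IF w (t + 1) ≤ B * (t * U (t + 1)) := by
        have h1 := hY (t + 1) (by linarith) htT
        have hU1 : 0 < U (t + 1) := h.pos ⟨by linarith [htm.1], htT⟩
        have h2 : (KR * M ^ 2 * τ i + 2 * (t + 1)) * U (t + 1) ≤ (B * t) * U (t + 1) := by
          apply mul_le_mul_of_nonneg_right _ hU1.le
          have h3 : (KR * M ^ 2 + 4) * t ≤ B * t := mul_le_mul_of_nonneg_right hB (by linarith)
          linarith
        linarith
      have h8 := hg2 w hqle t htm htT htΩ hΘt hIt hB1 hB2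
      have h9 := h.UE t htm
      have h10 : 2 * (1 - η) * U t ≤ 2 * (1 - η) * E t :=
        mul_le_mul_of_nonneg_left h9 (by linarith)
      linarith)
  linarith

end Crest.Agent.R234.Core_809
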