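import Crest.Agent.R234.Raw2_387
import Crest.Agent.R234.Shp1_98
import Crest.Agent.R234.Core2_809

-- ▼ part R234/Fld1_387
section

/-!
# Row 234 (helper387): kernel comparisons for the averaged quantities

Quasi-monotonicity in the scale and change of centre for `kk`, `kt`, `RR`, `hat` and their averages.
-/

set_option autoImplicit false

open MeasureTheory Set Function Filter Topology Metric
open Crest.GeometryTopology.Submanifold
open Crest.Agent.R234.Vf_884 Crest.Agent.R234.Ar_870 Crest.Agent.R234.Cy_870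
open Crest.Agent.R234.Pot_425 Crest.Agent.R234.Avg_387 Crest.Agent.R234.Rep_387
open Crest.Agent.R234.Raw_387
open scoped ENNReal NNReal InnerProductSpace

noncomputable section

namespace Crest.Agent.R234.Fld_387

variable {m n k : ℕ} {τ : ℝ} {W : Measure (Euc k × L k)} {π : Euc k →L[ℝ] Euc m}
  {κ : Euc k →L[ℝ] Euc n} {d : Euc m → ℝ} {x x' : Euc m} {g g1 g2 : ℝ → ℝ}
  {c : Euc k × L k → ℝ} {C : ℝ}

/-- comparison of averages with a common shift of the centres -/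
theorem av_le_shift (hd : CW d τ) {q : Euc m → ℝ → ℝ} (hq : Continuous (uncurry q))
    {t t' B : ℝ} (h : ∀ z : Euc m, q (x' - z) t ≤ B * q (x - z) t') :
    av d q x' t ≤ B * av d q x t' := by
  unfold av
  rw [← integral_const_mul]
  have i1 : ∀ (z : Euc m) (l : ℝ), Integrable fun y : Euc m => d y * q (z - y) l :=
    fun z l => (CO_of_cont hq z τ (l + 1)).integrable hd (by linarith : l < l + 1)
  refine integral_mono (i1 x' t) ((i1 x t').const_mul _) fun y => ?_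
  have h2 := mul_le_mul_of_nonneg_left (h y) (hd.nonneg y)
  simp only
  linarith

/-! ### `kk` -/

theorem kk_le_of_ker (h : FF W π κ) (hc : Cf W c C) (hg : Prof g g1 g2) {y y' : Euc m}
    {t t' A : ℝ} (hA : ∀ v : Euc m, g (Real.exp (-2 * t) * ‖v - y'‖ ^ 2) ≤
      A * g (Real.exp (-2 * t') * ‖v - y‖ ^ 2)) :
    kk W π c g y' t ≤ A * Real.exp ((m - 2) * (t' - t)) * kk W π c g y t' := by
  unfold kk
  have i1 : ∀ (z : Euc m) (l : ℝ), Integrable (fun p : Euc k × L k => c p *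
      g (Real.exp (-2 * l) * ‖π p.1 - z‖ ^ 2)) W := fun z l =>
    (h.fr z (l + 1)).integrable_c hc.meas.aestronglyMeasurable hc.bd hg.k0
      (by linarith : l ≤ l + 1)
  have e1 : ∫ p, c p * g (Real.exp (-2 * t) * ‖π p.1 - y'‖ ^ 2) ∂W ≤
      A * ∫ p, c p * g (Real.exp (-2 * t') * ‖π p.1 - y‖ ^ 2) ∂W := by
    rw [← integral_const_mul]
    refine integral_mono (i1 y' t) ((i1 y t').const_mul A) fun p => ?_
    have h2 := mul_le_mul_of_nonneg_left (hA (π p.1)) (hc.nonneg p)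
    simp only
    linarith
  have e2 : Real.exp ((2 - m) * t) =
      Real.exp ((m - 2) * (t' - t)) * Real.exp ((2 - m) * t') := by
    rw [← Real.exp_add]; congr 1; ring
  calc _ ≤ Real.exp ((2 - m) * t) *
        (A * ∫ p, c p * g (Real.exp (-2 * t') * ‖π p.1 - y‖ ^ 2) ∂W) :=
        mul_le_mul_of_nonneg_left e1 (Real.exp_pos _).le
    _ = _ := by rw [e2]; ring

theorem ker_mono (hg : Prof g g1 g2) (y v : Euc m) {t t' : ℝ} (ht : t ≤ t') :
    g (Real.exp (-2 * t) * ‖v - y‖ ^ 2) ≤ 1 * g (Real.exp (-2 * t') * ‖v - y‖ ^ 2) := by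
  rw [one_mul]
  refine Prof.anti' hg (by positivity) ?_
  refine mul_le_mul_of_nonneg_right (Real.exp_le_exp.2 ?_) (by positivity)
  linarith

theorem kk_mono (h : FF W π κ) (hc : Cf W c C) (hg : Prof g g1 g2) (y : Euc m) {t t' : ℝ}
    (ht : t ≤ t') : kk W π c g y t ≤ Real.exp ((m - 2) * (t' - t)) * kk W π c g y t' := by
  have h1 := kk_le_of_ker h hc hg (y := y) (y' := y) (t := t) (t' := t') (A := 1)
    fun v => ker_mono hg y v ht
  rwa [one_mul] at h1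

theorem akk_mono (h : FF W π κ) (hd : CW d τ) (hc : Cf W c C) (hg : Prof g g1 g2)
    (x : Euc m) {t t' : ℝ} (ht : t ≤ t') :
    av d (fun y l => kk W π c g y l) x t ≤
      Real.exp ((m - 2) * (t' - t)) * av d (fun y l => kk W π c g y l) x t' :=
  av_le_shift hd (cont2_kk h hc hg.k0) fun z => kk_mono h hc hg (x - z) ht

theorem akk_change (h : FF W π κ) (hd : CW d τ) (hc : Cf W c C) (hg : Prof g g1 g2)
    {K c₀ r A j : ℝ} (hK : ∀ t, 0 ≤ t → g t ≤ K) (hc0 : 0 < c₀) (hr : 0 ≤ r)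
    (hcr : ∀ t, 0 ≤ t → t ≤ r ^ 2 → c₀ ≤ g t) (hA : 0 ≤ A) (hj : (1 + A) * Real.exp (-j) ≤ r)
    {t : ℝ} (hx : ‖x' - x‖ ≤ A * Real.exp t) :
    av d (fun y l => kk W π c g y l) x' t ≤ (K / c₀) * Real.exp ((m - 2) * j) *
      av d (fun y l => kk W π c g y l) x (t + j) := by
  refine av_le_shift hd (cont2_kk h hc hg.k0) fun z => ?_
  have h1 := kk_le_of_ker h hc hg (y := x - z) (y' := x' - z) (t := t) (t' := t + j)
    (A := K / c₀) fun v => ker_change hg hK hc0 hr hcr hA hj (by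
      have : x' - z - (x - z) = x' - x := by abel
      rw [this]; exact hx) v
  have e1 : t + j - t = j := by ring
  rwa [e1] at h1

/-! ### the tilt energy -/

theorem eea_eq (h : FF W π κ) (hd : CW d τ) (g : ℝ → ℝ) (x : Euc m) (l : ℝ) :
    eea d W π g x l = av d (fun y l => kk W π (tc π) g y l) x l :=
  av_congr hd fun y _ => ee_eq_kk h g y l

theorem eea_mono' (h : FF W π κ) (hd : CW d τ) (hg : Prof g g1 g2) (x : Euc m) {t t' : ℝ}
    (ht : t ≤ t') : eea d W π g x t ≤ Real.exp ((m - 2) * (t' - t)) * eea d W π g x t' := by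
  rw [eea_eq h hd, eea_eq h hd]
  exact akk_mono h hd (cf_tc h) hg x ht

theorem eea_change' (h : FF W π κ) (hd : CW d τ) (hg : Prof g g1 g2)
    {K c₀ r A j : ℝ} (hK : ∀ t, 0 ≤ t → g t ≤ K) (hc0 : 0 < c₀) (hr : 0 ≤ r)
    (hcr : ∀ t, 0 ≤ t → t ≤ r ^ 2 → c₀ ≤ g t) (hA : 0 ≤ A) (hj : (1 + A) * Real.exp (-j) ≤ r)
    {t : ℝ} (hx : ‖x' - x‖ ≤ A * Real.exp t) :
    eea d W π g x' t ≤ (K / c₀) * Real.exp ((m - 2) * j) * eea d W π g x (t + j) := by
  rw [eea_eq h hd, eea_eq h hd]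
  exact akk_change h hd (cf_tc h) hg hK hc0 hr hcr hA hj hx

/-! ### `kt` -/

/-- pointwise comparison of `-g1` at two scales -/
theorem k1_le (hg : Prof g g1 g2) {K c₀ j : ℝ}
    (hK : ∀ t, 0 ≤ t → -g1 t ≤ K) (hc0 : 0 < c₀)
    (hcr : ∀ t, 0 ≤ t → t ≤ Real.exp (-2 * j) → c₀ ≤ -g1 t) (y v : Euc m) {t l : ℝ}
    (hl : t + j ≤ l) :
    -2 * g1 (Real.exp (-2 * t) * ‖v - y‖ ^ 2) ≤
      (K / c₀) * (-2 * g1 (Real.exp (-2 * l) * ‖v - y‖ ^ 2)) := by
  have hK0 : 0 ≤ K := by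
    have h1 := hg.anti 0 le_rfl
    have h2 := hK 0 le_rfl
    linarith
  by_cases hv : ‖v - y‖ < Real.exp t
  · have h3 : Real.exp (-2 * l) * ‖v - y‖ ^ 2 ≤ Real.exp (-2 * j) := by
      calc Real.exp (-2 * l) * ‖v - y‖ ^ 2 ≤ Real.exp (-2 * l) * Real.exp t ^ 2 :=
            mul_le_mul_of_nonneg_left (pow_le_pow_left₀ (norm_nonneg _) hv.le 2)
              (Real.exp_pos _).le
        _ = Real.exp (-2 * l + 2 * t) := by
            rw [← Real.exp_nat_mul, ← Real.exp_add]; norm_num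
        _ ≤ _ := Real.exp_le_exp.2 (by linarith)
    have h4 := hcr _ (by positivity) h3
    have h5 := hK (Real.exp (-2 * t) * ‖v - y‖ ^ 2) (by positivity)
    calc -2 * g1 (Real.exp (-2 * t) * ‖v - y‖ ^ 2) ≤ 2 * K := by linarith
      _ = (K / c₀) * (2 * c₀) := by field_simp
      _ ≤ _ := mul_le_mul_of_nonneg_left (by linarith) (by positivity)
  · rw [hg.k1.zero _ (Ker.one_le_of y (not_lt.1 hv)), mul_zero]
    have h6 := hg.anti (Real.exp (-2 * l) * ‖v - y‖ ^ 2) (by positivity)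
    exact mul_nonneg (by positivity) (by linarith)

theorem kt_eq (c : Euc k × L k → ℝ) (g1 : ℝ → ℝ) (y : Euc m) (l : ℝ) :
    kt W π c g1 y l = Real.exp (-m * l) * ∫ p, c p *
      (‖π p.1 - y‖ ^ 2 * (-2 * g1 (Real.exp (-2 * l) * ‖π p.1 - y‖ ^ 2))) ∂W := by
  unfold kt
  have e1 : Real.exp ((2 - m) * l) = Real.exp (-m * l) * Real.exp (2 * l) := by
    rw [← Real.exp_add]; congr 1; ring
  rw [e1, mul_assoc, ← integral_const_mul]
  congr 1
  refine integral_congr_ae (Eventually.of_forall fun p => ?_)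
  simp only
  have e2 : Real.exp (2 * l) * Real.exp (-2 * l) = 1 := by
    rw [← Real.exp_add]
    have : 2 * l + -2 * l = 0 := by ring
    rw [this, Real.exp_zero]
  linear_combination (-2 * (c p * ‖π p.1 - y‖ ^ 2 *
    g1 (Real.exp (-2 * l) * ‖π p.1 - y‖ ^ 2))) * e2

theorem integrable_kt (h : FF W π κ) (hc : Cf W c C) (hg : Prof g g1 g2) (y : Euc m) (l : ℝ) :
    Integrable (fun p : Euc k × L k => c p *
      (‖π p.1 - y‖ ^ 2 * (-2 * g1 (Real.exp (-2 * l) * ‖π p.1 - y‖ ^ 2)))) W := by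
  have i2 := integrable_tk (h.fr y (l + 1)) hc.meas.aestronglyMeasurable hc.bd hg.k0
    (by linarith : l ≤ l + 1)
  refine (i2.const_mul (-2 * Real.exp (2 * l))).congr (Eventually.of_forall fun p => ?_)
  simp only
  have e2 : Real.exp (2 * l) * Real.exp (-2 * l) = 1 := by
    rw [← Real.exp_add]
    have : 2 * l + -2 * l = 0 := by ring
    rw [this, Real.exp_zero]
  linear_combination (-2 * (c p * ‖π p.1 - y‖ ^ 2 *
    g1 (Real.exp (-2 * l) * ‖π p.1 - y‖ ^ 2))) * e2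

/-- **`kt(t) ≤ (K/c₀) e^{m(l-t)} kt(l)`** for `t + j ≤ l` -/
theorem kt_le (h : FF W π κ) (hc : Cf W c C) (hg : Prof g g1 g2) {K c₀ j : ℝ}
    (hK : ∀ t, 0 ≤ t → -g1 t ≤ K) (hc0 : 0 < c₀)
    (hcr : ∀ t, 0 ≤ t → t ≤ Real.exp (-2 * j) → c₀ ≤ -g1 t) (y : Euc m) {t l : ℝ}
    (hl : t + j ≤ l) :
    kt W π c g1 y t ≤ (K / c₀) * Real.exp (m * (l - t)) * kt W π c g1 y l := by
  rw [kt_eq, kt_eq]
  have e1 : ∫ p, c p * (‖π p.1 - y‖ ^ 2 * (-2 * g1 (Real.exp (-2 * t) * ‖π p.1 - y‖ ^ 2))) ∂W ≤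
      (K / c₀) * ∫ p, c p *
        (‖π p.1 - y‖ ^ 2 * (-2 * g1 (Real.exp (-2 * l) * ‖π p.1 - y‖ ^ 2))) ∂W := by
    rw [← integral_const_mul]
    refine integral_mono (integrable_kt h hc hg y t) ((integrable_kt h hc hg y l).const_mul _)
      fun p => ?_
    have h2 := k1_le hg hK hc0 hcr y (π p.1) hl
    have h3 := mul_le_mul_of_nonneg_left h2
      (mul_nonneg (hc.nonneg p) (by positivity : 0 ≤ ‖π p.1 - y‖ ^ 2))
    simp only
    calc c p * (‖π p.1 - y‖ ^ 2 * (-2 * g1 (Real.exp (-2 * t) * ‖π p.1 - y‖ ^ 2)))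
        = c p * ‖π p.1 - y‖ ^ 2 * (-2 * g1 (Real.exp (-2 * t) * ‖π p.1 - y‖ ^ 2)) := by ring
      _ ≤ _ := h3
      _ = _ := by ring
  have e2 : Real.exp (-m * t) = Real.exp (m * (l - t)) * Real.exp (-m * l) := by
    rw [← Real.exp_add]; congr 1; ring
  calc _ ≤ Real.exp (-m * t) * ((K / c₀) * ∫ p, c p *
        (‖π p.1 - y‖ ^ 2 * (-2 * g1 (Real.exp (-2 * l) * ‖π p.1 - y‖ ^ 2))) ∂W) :=
        mul_le_mul_of_nonneg_left e1 (Real.exp_pos _).le
    _ = _ := by rw [e2]; ring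

theorem akt_le (h : FF W π κ) (hd : CW d τ) (hc : Cf W c C) (hg : Prof g g1 g2) {K c₀ j : ℝ}
    (hK : ∀ t, 0 ≤ t → -g1 t ≤ K) (hc0 : 0 < c₀)
    (hcr : ∀ t, 0 ≤ t → t ≤ Real.exp (-2 * j) → c₀ ≤ -g1 t) (x : Euc m) {t l : ℝ}
    (hl : t + j ≤ l) :
    av d (fun y l => kt W π c g1 y l) x t ≤ (K / c₀) * Real.exp (m * (l - t)) *
      av d (fun y l => kt W π c g1 y l) x l :=
  av_le_shift hd (cont2_kt h hc hg) fun z => kt_le h hc hg hK hc0 hcr (x - z) hl

theorem et_eq_kt (h : FF W π κ) (g1 : ℝ → ℝ) (y : Euc m) (l : ℝ) :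
    et W π g1 y l = kt W π (tc π) g1 y l := by
  unfold et kt
  congr 1
  refine integral_congr_ae ?_
  filter_upwards [h.conc] with p hp
  unfold tc
  rw [max_eq_left (tl_nonneg h.sp.hh (isPr_of_G hp))]

theorem eta_le (h : FF W π κ) (hd : CW d τ) (hg : Prof g g1 g2) {K c₀ j : ℝ}
    (hK : ∀ t, 0 ≤ t → -g1 t ≤ K) (hc0 : 0 < c₀)
    (hcr : ∀ t, 0 ≤ t → t ≤ Real.exp (-2 * j) → c₀ ≤ -g1 t) (x : Euc m) {t l : ℝ}
    (hl : t + j ≤ l) :
    eta d W π g1 x t ≤ (K / c₀) * Real.exp (m * (l - t)) * eta d W π g1 x l := by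
  have e1 : ∀ l, eta d W π g1 x l = av d (fun y l => kt W π (tc π) g1 y l) x l := fun l =>
    av_congr hd fun y _ => et_eq_kt h g1 y l
  rw [e1, e1]
  exact akt_le h hd (cf_tc h) hg hK hc0 hcr x hl

/-! ### the radial energy -/

theorem RR_le' (h : FF W π κ) (hg : Prof g g1 g2) {K c₀ j : ℝ}
    (hK : ∀ t, 0 ≤ t → -g1 t ≤ K) (hc0 : 0 < c₀)
    (hcr : ∀ t, 0 ≤ t → t ≤ Real.exp (-2 * j) → c₀ ≤ -g1 t) (y : Euc m) {t l : ℝ}
    (hl : t + j ≤ l) :
    RR W π y g1 t ≤ (K / c₀) * Real.exp (m * (l - t)) * RR W π y g1 l := by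
  unfold RR
  have i1 : ∀ (z : Euc m) (l : ℝ), Integrable (fun p : Euc k × L k => qf π p.2 (π p.1 - z) *
      (-2 * g1 (Real.exp (-2 * l) * ‖π p.1 - z‖ ^ 2))) W := fun z l => by
    have h1 := (h.fr z (l + 1)).integrable_c (continuous_qf π z).aestronglyMeasurable
      (h.fr z (l + 1)).qf_bound hg.k1 (by linarith : l ≤ l + 1)
    refine (h1.const_mul (-2)).congr (Eventually.of_forall fun p => ?_)
    simp only
    ring
  have e1 : ∫ p, qf π p.2 (π p.1 - y) * (-2 * g1 (Real.exp (-2 * t) * ‖π p.1 - y‖ ^ 2)) ∂W ≤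
      (K / c₀) * ∫ p, qf π p.2 (π p.1 - y) *
        (-2 * g1 (Real.exp (-2 * l) * ‖π p.1 - y‖ ^ 2)) ∂W := by
    rw [← integral_const_mul]
    refine integral_mono_ae (i1 y t) ((i1 y l).const_mul _) ?_
    filter_upwards [h.conc] with p hp
    have h1 := qf_nonneg h.sp.hh (isPr_of_G hp) (π p.1 - y)
    have h3 := mul_le_mul_of_nonneg_left (k1_le hg hK hc0 hcr y (π p.1) hl) h1
    linarith
  have e2 : Real.exp (-m * t) = Real.exp (m * (l - t)) * Real.exp (-m * l) := by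
    rw [← Real.exp_add]; congr 1; ring
  calc _ ≤ Real.exp (-m * t) * ((K / c₀) * ∫ p, qf π p.2 (π p.1 - y) *
        (-2 * g1 (Real.exp (-2 * l) * ‖π p.1 - y‖ ^ 2)) ∂W) :=
        mul_le_mul_of_nonneg_left e1 (Real.exp_pos _).le
    _ = _ := by rw [e2]; ring

theorem RRa_le' (h : FF W π κ) (hd : CW d τ) (hg : Prof g g1 g2) {K c₀ j : ℝ}
    (hK : ∀ t, 0 ≤ t → -g1 t ≤ K) (hc0 : 0 < c₀)
    (hcr : ∀ t, 0 ≤ t → t ≤ Real.exp (-2 * j) → c₀ ≤ -g1 t) (x : Euc m) {t l : ℝ}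
    (hl : t + j ≤ l) :
    RRa d W π g1 x t ≤ (K / c₀) * Real.exp (m * (l - t)) * RRa d W π g1 x l :=
  av_le_shift hd (cont2_RR' h hg.k1) fun z => RR_le' h hg hK hc0 hcr (x - z) hl

/-! ### measures -/

theorem hat_le_of_ker (w : Wt) (μ : Measure (XB (Euc m) τ)) [IsFiniteMeasure μ] {y y' : Euc m}
    {t t' A : ℝ} (hA : ∀ v : Euc m, w.θ (Real.exp (-2 * t) * ‖v - y'‖ ^ 2) ≤
      A * w.θ (Real.exp (-2 * t') * ‖v - y‖ ^ 2)) :
    hat w μ y' t ≤ A * Real.exp ((m - 2) * (t' - t)) * hat w μ y t' := by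
  unfold hat
  have hi : ∀ (z : Euc m) (l : ℝ), Integrable (fun v : XB (Euc m) τ =>
      w.θ (Real.exp (-2 * l) * ‖(v : Euc m) - z‖ ^ 2)) μ := by
    intro z l
    have hc : Continuous fun v : XB (Euc m) τ =>
        w.θ (Real.exp (-2 * l) * ‖(v : Euc m) - z‖ ^ 2) := w.cont.comp (by fun_prop)
    obtain ⟨K, hK⟩ := (isCompact_univ :
      IsCompact (univ : Set (XB (Euc m) τ))).exists_bound_of_continuousOn hc.continuousOn
    exact Integrable.of_bound hc.aestronglyMeasurable K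
      (Eventually.of_forall fun z => hK z (mem_univ _))
  have e1 : ∫ v : XB (Euc m) τ, w.θ (Real.exp (-2 * t) * ‖(v : Euc m) - y'‖ ^ 2) ∂μ ≤
      A * ∫ v : XB (Euc m) τ, w.θ (Real.exp (-2 * t') * ‖(v : Euc m) - y‖ ^ 2) ∂μ := by
    rw [← integral_const_mul]
    exact integral_mono (hi y' t) ((hi y t').const_mul A) fun v => hA v
  have e2 : Real.exp ((2 - m) * t) =
      Real.exp ((m - 2) * (t' - t)) * Real.exp ((2 - m) * t') := by
    rw [← Real.exp_add]; congr 1; ring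
  calc _ ≤ Real.exp ((2 - m) * t) *
        (A * ∫ v : XB (Euc m) τ, w.θ (Real.exp (-2 * t') * ‖(v : Euc m) - y‖ ^ 2) ∂μ) :=
        mul_le_mul_of_nonneg_left e1 (Real.exp_pos _).le
    _ = _ := by rw [e2]; ring

theorem hata_mono (hτ : 0 < τ) {w : Wt} (hg : Prof w.θ w.θ' g2) (μ : Measure (XB (Euc m) τ))
    [IsFiniteMeasure μ] (x : Euc m) {t t' : ℝ} (ht : t ≤ t') :
    hata w μ x t ≤ Real.exp ((m - 2) * (t' - t)) * hata w μ x t' := by
  refine av_le_shift (cw_dd hτ) (cont2_hat w μ) fun z => ?_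
  have h1 := hat_le_of_ker w μ (y := x - z) (y' := x - z) (t := t) (t' := t') (A := 1)
    fun v => ker_mono hg (x - z) v ht
  rwa [one_mul] at h1

theorem hata_change (hτ : 0 < τ) {w : Wt} (hg : Prof w.θ w.θ' g2) (μ : Measure (XB (Euc m) τ))
    [IsFiniteMeasure μ] {K c₀ r A j : ℝ} (hK : ∀ t, 0 ≤ t → w.θ t ≤ K) (hc0 : 0 < c₀) (hr : 0 ≤ r)
    (hcr : ∀ t, 0 ≤ t → t ≤ r ^ 2 → c₀ ≤ w.θ t) (hA : 0 ≤ A) (hj : (1 + A) * Real.exp (-j) ≤ r)
    {t : ℝ} (hx : ‖x' - x‖ ≤ A * Real.exp t) :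
    hata w μ x' t ≤ (K / c₀) * Real.exp ((m - 2) * j) * hata w μ x (t + j) := by
  refine av_le_shift (cw_dd hτ) (cont2_hat w μ) fun z => ?_
  have h1 := hat_le_of_ker w μ (y := x - z) (y' := x' - z) (t := t) (t' := t + j)
    (A := K / c₀) fun v => ker_change hg hK hc0 hr hcr hA hj (by
      have : x' - z - (x - z) = x' - x := by abel
      rw [this]; exact hx) v
  have e1 : t + j - t = j := by ring
  rwa [e1] at h1

/-! ### the decaying error -/

/-- `p(t) ≤ (K/c₀) e^{m(l-t)} p(l)` -/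
theorem pY_le (h : FF W π κ) (hτ : 0 < τ) {w : Wt} (hg : Prof w.θ w.θ' g2)
    (hc : Cf W (yc κ) C) {δ : ℝ} (hδ : 0 ≤ δ) {K c₀ j : ℝ}
    (hK : ∀ t, 0 ≤ t → -w.θ' t ≤ K) (hc0 : 0 < c₀)
    (hcr : ∀ t, 0 ≤ t → t ≤ Real.exp (-2 * j) → c₀ ≤ -w.θ' t) (hj : 0 ≤ j) (x : Euc m)
    {t l : ℝ} (hl : t + j ≤ l) :
    pY δ W π κ τ w x t ≤ (K / c₀) * Real.exp (m * (l - t)) * pY δ W π κ τ w x l := by
  have hd := cw_dd (m := m) hτ
  have h1 := akk_mono h hd hc hg x (by linarith : t ≤ l)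
  have h2 := akt_le h hd hc hg hK hc0 hcr x hl
  have h3 : 1 ≤ K / c₀ := by
    rw [one_le_div hc0]
    have a1 := hcr 0 le_rfl (Real.exp_pos _).le
    have a2 := hK 0 le_rfl
    linarith
  have h4 : 0 ≤ av (dd m τ) (fun y l => kk W π (yc κ) w.θ y l) x l :=
    av_nonneg hd fun _ _ => kk_nonneg hc hg _ _
  have h5 : Real.exp ((m - 2) * (l - t)) ≤ (K / c₀) * Real.exp (m * (l - t)) := by
    have a1 : Real.exp ((m - 2) * (l - t)) ≤ Real.exp (m * (l - t)) := by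
      refine Real.exp_le_exp.2 ?_
      nlinarith
    have a2 := mul_le_mul_of_nonneg_right h3 (Real.exp_pos (m * (l - t))).le
    linarith
  have h6 := h1.trans (mul_le_mul_of_nonneg_right h5 h4)
  have h7 := mul_le_mul_of_nonneg_left (add_le_add h6 h2) (by positivity : 0 ≤ 2 * δ)
  unfold pY
  refine h7.trans (le_of_eq ?_)
  ring

end Crest.Agent.R234.Fld_387
end
end

-- ▼ part R234/Fld2_387
section

/-!
# Row 234 (helper387): one averaged contact centre, the fields of `Core_809.Fld` (abstract part)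

`Ctr`: 98's `Raw` on scales `l ≤ T` with the kernel comparisons, tallness and nonnegativity of the
potential on `[a, T]`.  Conclusions: `qm`, `rr`, `eb`, `reg`, positivity and lower bound of `es`,
comparison of two centres.
-/

set_option autoImplicit false

open MeasureTheory Set Filter Topology

noncomputable section

namespace Crest.Agent.R234.Fld_387

open Crest.Agent.R234.Shp_98

/-- one averaged contact centre -/
structure Ctr (m K δ CC A D₀ a T : ℝ) (E e et b g R f p P B : ℝ → ℝ) : Prop where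
  raw : Raw m K 2 δ T E e et b g R f p P B
  m2 : 2 ≤ m
  K2 : 2 ≤ K
  hA : Real.exp (m - 2) ≤ A
  CC1 : 1 ≤ CC
  D0 : 0 < D₀
  aT : a ≤ T
  ce : ∀ s t, s ≤ t → t ≤ T → e s ≤ Real.exp ((m - 2) * (t - s)) * e t
  cg : ∀ s t, s ≤ t → t ≤ T → g s ≤ Real.exp ((m - 2) * (t - s)) * g t
  cet : ∀ s t, s + 3 ≤ t → t ≤ T → et s ≤ CC * Real.exp (m * (t - s)) * et t
  cR : ∀ s t, s + 3 ≤ t → t ≤ T → R s ≤ CC * Real.exp (m * (t - s)) * R t
  cp : ∀ s t, s + 3 ≤ t → t ≤ T → p s ≤ CC * Real.exp (m * (t - s)) * p t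
  hf : ∀ l ≤ T, |f l| ≤ δ * (e l + et l) + p l / 2
  tall : D₀ ≤ Us K δ E e P B a
  hB : ∀ l, a ≤ l → l ≤ T → 0 ≤ B l
  hEe : ∀ l, a ≤ l → l + 1 ≤ T → E l ≤ A * e (l + 1)
  PT : P T ≤ D₀

namespace Ctr

variable {m K δ CC A D₀ a T : ℝ} {E e et b g R f p P B : ℝ → ℝ}

theorem A1 (h : Ctr m K δ CC A D₀ a T E e et b g R f p P B) : 1 ≤ A := by
  have h1 := h.hA
  have h2 := Real.add_one_le_exp (m - 2)
  have h3 := h.m2
  linarith

theorem P_mono (h : Ctr m K δ CC A D₀ a T E e et b g R f p P B) {s t : ℝ} (hst : s ≤ t)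
    (ht : t ≤ T) : P s ≤ P t := by
  have h1 : MonotoneOn P (Iic T) := by
    refine monotoneOn_of_deriv_nonneg (convex_Iic T) h.raw.cP.continuousOn
      (fun x hx => ?_) (fun x hx => ?_)
    · rw [interior_Iic] at hx
      exact (h.raw.dP x (le_of_lt hx)).differentiableAt.differentiableWithinAt
    · rw [interior_Iic] at hx
      rw [(h.raw.dP x (le_of_lt hx)).deriv]
      exact h.raw.p0 x (le_of_lt hx)
  exact h1 (hst.trans ht) ht hst

theorem U_pos (h : Ctr m K δ CC A D₀ a T E e et b g R f p P B) {l : ℝ} (h1 : a ≤ l) (h2 : l ≤ T) :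
    D₀ ≤ Us K δ E e P B l :=
  h.tall.trans (h.raw.Us_mono h.K2 h1 h2)

theorem UE (h : Ctr m K δ CC A D₀ a T E e et b g R f p P B) {l : ℝ} (h1 : a ≤ l) (h2 : l ≤ T) :
    Us K δ E e P B l ≤ Es K δ E e P l := by
  have h3 := h.hB l h1 h2
  have h4 : Us K δ E e P B l = Es K δ E e P l - 2 * B l := rfl
  linarith

/-- field `qm` -/
theorem qm (h : Ctr m K δ CC A D₀ a T E e et b g R f p P B) {s t : ℝ} (hst : s ≤ t)
    (ht : t ≤ T) : es m K δ E e b g P s ≤ Real.exp ((m - 2) * (t - s)) * es m K δ E e b g P t := by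
  rw [h.raw.es_eq (hst.trans ht), h.raw.es_eq ht]
  have h1 := h.ce s t hst ht
  have h2 := h.cg s t hst ht
  have h3 := h.P_mono hst ht
  have h4 := h.raw.P0 t ht
  have h5 : 1 ≤ Real.exp ((m - 2) * (t - s)) := by
    refine Real.one_le_exp (mul_nonneg ?_ ?_)
    · linarith [h.m2]
    · linarith
  have h6 : 1 * P t ≤ Real.exp ((m - 2) * (t - s)) * P t := mul_le_mul_of_nonneg_right h5 h4
  have h7 : 0 ≤ 1 + (2 + m) * K * δ := by
    have := h.raw.K0
    have := h.raw.δ0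
    have := h.m2
    positivity
  have h8 := mul_le_mul_of_nonneg_left h1 h7
  nlinarith

/-- field `eb` -/
theorem eb (h : Ctr m K δ CC A D₀ a T E e et b g R f p P B) {l : ℝ} (h1 : a ≤ l) (h2 : l + 1 ≤ T) :
    Es K δ E e P l ≤ A * es m K δ E e b g P (l + 1) := by
  rw [h.raw.es_eq h2]
  unfold Es
  have h3 := h.hEe l h1 h2
  have hA := h.A1
  have h4 : e l ≤ A * e (l + 1) := by
    have h5 := h.ce l (l + 1) (by linarith) h2
    have e1 : (m - 2) * (l + 1 - l) = m - 2 := by ring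
    rw [e1] at h5
    exact h5.trans (mul_le_mul_of_nonneg_right h.hA (h.raw.e0 _ h2))
  have h5 := h.P_mono (by linarith : l ≤ l + 1) h2
  have h6 := h.raw.P0 _ h2
  have h7 := h.raw.e0 _ h2
  have h8 := h.raw.g0 _ h2
  have hK := h.raw.K0
  have hδ := h.raw.δ0
  have hm := h.raw.m0
  have h10 : K * δ * e l ≤ K * δ * (A * e (l + 1)) :=
    mul_le_mul_of_nonneg_left h4 (by positivity)
  have h13 : 1 * P (l + 1) ≤ A * (2 * P (l + 1)) := by nlinarith
  have h14 : 0 ≤ A * (m + 1) * (K * δ * e (l + 1)) := by positivity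
  have h15 : 0 ≤ A * g (l + 1) := by positivity
  nlinarith

/-- lower bound of `es` -/
theorem le_es (h : Ctr m K δ CC A D₀ a T E e et b g R f p P B) {l : ℝ} (h1 : a + 1 ≤ l)
    (h2 : l ≤ T) : D₀ / A ≤ es m K δ E e b g P l := by
  have h3 := h.eb (l := l - 1) (by linarith) (by linarith)
  have h4 := h.UE (l := l - 1) (by linarith) (by linarith)
  have h5 := h.U_pos (l := l - 1) (by linarith) (by linarith)
  have e1 : l - 1 + 1 = l := by ring
  rw [e1] at h3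
  rw [div_le_iff₀ (by linarith [h.A1])]
  linarith

/-- field `epos` -/
theorem epos (h : Ctr m K δ CC A D₀ a T E e et b g R f p P B) {l : ℝ} (h1 : a + 1 ≤ l)
    (h2 : l ≤ T) : 0 < es m K δ E e b g P l := by
  have h3 := h.le_es h1 h2
  have h4 : 0 < D₀ / A := div_pos h.D0 (by linarith [h.A1])
  linarith

/-- lower bound of `Rs` with half of `p` -/
theorem Rs_lower (h : Ctr m K δ CC A D₀ a T E e et b g R f p P B) {l : ℝ} (hl : l ≤ T) :
    R l + 2 * g l + (K - 1) * δ * (e l + et l) + p l / 2 ≤ Rs K δ e et g R f p l := by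
  have h1 := (abs_le.1 (h.hf l hl)).1
  have h2 : 0 ≤ K * δ * e l := by
    have := h.raw.K0
    have := h.raw.δ0
    have := h.raw.e0 l hl
    positivity
  unfold Rs
  nlinarith

/-- the pieces of `Rs` at two scales -/
theorem Rs_le_Rs (h : Ctr m K δ CC A D₀ a T E e et b g R f p P B) {s t : ℝ} (hst : s + 3 ≤ t)
    (ht : t ≤ T) : Rs K δ e et g R f p s ≤
      6 * CC * Real.exp (m * (t - s)) * Rs K δ e et g R f p t := by
  have hs : s ≤ T := by linarith
  have h0 := h.raw.Rs_upper hs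
  have h1 := h.Rs_lower ht
  have hm := h.m2
  have hC := h.CC1
  set X : ℝ := CC * Real.exp (m * (t - s)) with hX
  have hX0 : 0 ≤ X := by
    have := Real.exp_pos (m * (t - s))
    positivity
  have hX1 : Real.exp ((m - 2) * (t - s)) ≤ X := by
    have a1 : Real.exp ((m - 2) * (t - s)) ≤ Real.exp (m * (t - s)) :=
      Real.exp_le_exp.2 (by nlinarith)
    have a2 := mul_le_mul_of_nonneg_right hC (Real.exp_pos (m * (t - s))).le
    rw [hX]
    linarith
  have h2 := h.cR s t hst ht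
  have h3 := h.cet s t hst ht
  have h4 := h.cp s t hst ht
  have h5 : e s ≤ X * e t := (h.ce s t (by linarith) ht).trans
    (mul_le_mul_of_nonneg_right hX1 (h.raw.e0 t ht))
  have h6 : g s ≤ X * g t := (h.cg s t (by linarith) ht).trans
    (mul_le_mul_of_nonneg_right hX1 (h.raw.g0 t ht))
  have hR := h.raw.R0 t ht
  have hg := h.raw.g0 t ht
  have he := h.raw.e0 t ht
  have het := h.raw.et0 ht
  have hp := h.raw.p0 t ht
  have hK := h.K2
  have hδ := h.raw.δ0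
  have h7 : Rs K δ e et g R f p s ≤
      X * (R t + 2 * g t + (2 * K + 2) * δ * (e t + et t) + 2 * p t) := by
    have b1 : (2 * K + 2) * δ * (e s + et s) ≤ (2 * K + 2) * δ * (X * e t + X * et t) :=
      mul_le_mul_of_nonneg_left (add_le_add h5 h3) (by positivity)
    nlinarith
  have h8 : R t + 2 * g t + (2 * K + 2) * δ * (e t + et t) + 2 * p t ≤
      6 * Rs K δ e et g R f p t := by
    have b2 : (2 * K + 2) * (δ * (e t + et t)) ≤ 6 * ((K - 1) * (δ * (e t + et t))) := by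
      have : 0 ≤ δ * (e t + et t) := by positivity
      nlinarith
    nlinarith
  have h9 := mul_le_mul_of_nonneg_left h8 hX0
  calc _ ≤ _ := h7
    _ ≤ _ := h9
    _ = _ := by rw [hX]; ring

/-- field `rr` -/
theorem rr (h : Ctr m K δ CC A D₀ a T E e et b g R f p P B) {l : ℝ} (hl : l + 4 ≤ T) :
    Rs K δ e et g R f p l ≤ 6 * CC * Real.exp (4 * m) *
      (Us K δ E e P B (l + 4) - Us K δ E e P B (l + 3)) := by
  have hK : (2 : ℝ) ≤ K := h.K2
  rw [h.raw.Us_sub (s := l + 3) (t := l + 4) (by linarith) hl,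
    ← intervalIntegral.integral_const_mul]
  have h1 : ∫ _ in (l + 3)..(l + 4), Rs K δ e et g R f p l ≤
      ∫ x in (l + 3)..(l + 4), 6 * CC * Real.exp (4 * m) * Rs K δ e et g R f p x := by
    refine intervalIntegral.integral_mono_on (by linarith) (by simp)
      ((h.raw.cont_Rs.const_mul _).intervalIntegrable _ _) fun x hx => ?_
    have hxT : x ≤ T := hx.2.trans hl
    refine (h.Rs_le_Rs hx.1 hxT).trans ?_
    refine mul_le_mul_of_nonneg_right ?_ (h.raw.Rs_nonneg hK hxT)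
    have h2 := h.CC1
    refine mul_le_mul_of_nonneg_left (Real.exp_le_exp.2 ?_) (by positivity)
    have h3 := h.m2
    nlinarith [hx.2]
  rw [intervalIntegral.integral_const, smul_eq_mul] at h1
  have e1 : l + 4 - (l + 3) = 1 := by ring
  rw [e1, one_mul] at h1
  exact h1

/-- 504's `RD` -/
theorem rd (h : Ctr m K δ CC A D₀ a T E e et b g R f p P B) :
    ∃ D₁, Reg1_504.RD A D₀ D₁ a T (Es K δ E e P) (es m K δ E e b g P) (bs m K δ e b g)
      (Rs K δ e et g R f p) (fun _ => 0) (Us K δ E e P B) := by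
  obtain ⟨D₁, hD₁⟩ := (isCompact_Icc (a := a) (b := T)).exists_bound_of_continuousOn
    h.raw.cont_es.continuousOn
  have hst : ∀ {q : ℝ → ℝ}, (∀ s t, s ≤ t → t ≤ T → q s ≤ Real.exp ((m - 2) * (t - s)) * q t) →
      (∀ l ≤ T, 0 ≤ q l) → ∀ s ∈ Icc a T, ∀ t ∈ Icc a T, s ≤ t → t ≤ s + 1 → q s ≤ A * q t := by
    intro q hq hq0 s hs t ht h1 h2
    refine (hq s t h1 ht.2).trans (mul_le_mul_of_nonneg_right ?_ (hq0 t ht.2))
    refine le_trans (Real.exp_le_exp.2 ?_) h.hA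
    have := h.m2
    nlinarith
  exact ⟨D₁, h.raw.rd h.K2 h.A1 h.D0 h.tall (fun l hl => h.hB l hl.1 hl.2)
    (fun l hl => (le_abs_self _).trans (hD₁ l hl))
    (fun t ht ht1 => h.hEe t ht.1 ht1.2) (hst h.ce h.raw.e0) (hst h.cg h.raw.g0)
    (fun s _ t ht h1 => h.P_mono h1 ht.2)⟩

/-- field `reg` -/
theorem reg (h : Ctr m K δ CC A D₀ a T E e et b g R f p P B) {l : ℝ} (h1 : a ≤ l)
    (h2 : l + 1 ≤ T) : es m K δ E e b g P l ≤ 48 * A * (Es K δ E e P l +
      (Us K δ E e P B (l + 1) - Us K δ E e P B l)) := by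
  obtain ⟨D₁, hD⟩ := h.rd
  have h3 := hD.e_le (s := l) ⟨h1, by linarith⟩ ⟨by linarith, h2⟩
  have h4 := h.UE h1 (by linarith)
  have h5 := h.A1
  have h6 := h.raw.Us_mono h.K2 (by linarith : l ≤ l + 1) h2
  refine h3.trans ?_
  have h7 : Es K δ E e P l + Us K δ E e P B (l + 1) ≤
      2 * (Es K δ E e P l + (Us K δ E e P B (l + 1) - Us K δ E e P B l)) := by linarith
  have h8 := mul_le_mul_of_nonneg_left h7 (by positivity : 0 ≤ 24 * A)
  linarith

/-- field `nbr` -/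
theorem nbr {E' e' et' b' g' R' f' p' P' B' : ℝ → ℝ}
    (h : Ctr m K δ CC A D₀ a T E e et b g R f p P B)
    (h' : Ctr m K δ CC A D₀ a T E' e' et' b' g' R' f' p' P' B') {CK l : ℝ} (h1 : a ≤ l)
    (h2 : l + 2 ≤ T) (he : e' l ≤ CK * e (l + 2)) (hg : g' l ≤ CK * g (l + 2)) (hCK : 0 ≤ CK) :
    es m K δ E' e' b' g' P' l ≤ (CK + 2 * A) * es m K δ E e b g P (l + 2) := by
  have h3 := h.eb (l := l + 1) (by linarith) (by linarith)
  have e1 : l + 1 + 1 = l + 2 := by ring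
  rw [e1] at h3
  have h4 := h.UE (l := l + 1) (by linarith) (by linarith)
  have h5 := h.U_pos (l := l + 1) (by linarith) (by linarith)
  have h6 : P' l ≤ D₀ := (h'.P_mono (by linarith : l ≤ T) le_rfl).trans h'.PT
  have h7 : P' l ≤ A * es m K δ E e b g P (l + 2) := by linarith
  rw [h'.raw.es_eq (by linarith)]
  have h8 := h.raw.es_eq h2
  have h9 := h.raw.P0 _ h2
  have h10 : 0 ≤ 1 + (2 + m) * K * δ := by
    have := h.raw.K0
    have := h.raw.δ0
    have := h.m2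
    positivity
  have h11 := mul_le_mul_of_nonneg_left he h10
  have h12 : CK * es m K δ E e b g P (l + 2) = CK * ((1 + (2 + m) * K * δ) * e (l + 2) +
      2 * g (l + 2) + 2 * P (l + 2)) := by rw [h8]
  have h13 : 0 ≤ CK * P (l + 2) := mul_nonneg hCK h9
  nlinarith

end Ctr

end Crest.Agent.R234.Fld_387
end
end

-- ▼ part R234/Fld3_387

/-!
# Row 234 (helper387): the sharp averaged quantities of a part, `Ctr` and `Core_809.Fld`

`Da` = data (part `W`, projections, weight, averaging radius, the measures `β, γ, b₂`),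
`Da.Ok` = its properties, `Da.At` = the hypotheses at one contact centre.
-/

set_option autoImplicit false

open MeasureTheory Set Function Filter Topology Metric
open Crest.GeometryTopology.Submanifold
open Crest.Agent.R234.Vf_884 Crest.Agent.R234.Ar_870 Crest.Agent.R234.Cy_870
open Crest.Agent.R234.Pot_425 Crest.Agent.R234.Avg_387 Crest.Agent.R234.Rep_387
open Crest.Agent.R234.Raw_387
open scoped ENNReal NNReal InnerProductSpace

noncomputable section

namespace Crest.Agent.R234.Fld_387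

variable {m n k : ℕ}

/-- data of the averaged frame of a part `W` -/
structure Da (m n k : ℕ) where
  /-- the part -/
  W : Measure (Euc k × L k)
  /-- horizontal coordinates -/
  π : Euc k →L[ℝ] Euc m
  /-- vertical coordinates -/
  κ : Euc k →L[ℝ] Euc n
  /-- the profile -/
  w : Wt
  /-- averaging radius -/
  τ : ℝ
  /-- multiplicity -/
  Q : ℝ
  /-- sharpening constant -/
  K : ℝ
  /-- sharpening parameter -/
  δ : ℝ
  /-- first variation parameter of the decaying error -/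
  δ' : ℝ
  /-- first measure of the contact problem -/
  β : Measure (XB (Euc m) τ)
  /-- remaining part of the first measure -/
  γ : Measure (XB (Euc m) τ)
  /-- second measure -/
  b₂ : Measure (XB (Euc m) τ)

namespace Da

variable (D : Da m n k) (x : Euc m)

/-- averaged `E` -/
def E : ℝ → ℝ := EEa (dd m D.τ) D.W D.π D.w.θ D.Q x
/-- averaged `e` -/
def e : ℝ → ℝ := eea (dd m D.τ) D.W D.π D.w.θ x
/-- averaged radial tilt energy -/
def et : ℝ → ℝ := eta (dd m D.τ) D.W D.π D.w.θ' x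
/-- averaged `b` -/
def b : ℝ → ℝ := bba (dd m D.τ) D.W D.π D.w.θ D.Q x
/-- averaged `γ^` -/
def g : ℝ → ℝ := hata D.w D.γ x
/-- averaged `R` -/
def R : ℝ → ℝ := RRa (dd m D.τ) D.W D.π D.w.θ' x
/-- averaged first variation error -/
def f : ℝ → ℝ := fun l => - av (dd m D.τ) (f1 D.W D.π D.w.θ) x l
/-- decaying error -/
def p : ℝ → ℝ := pY D.δ' D.W D.π D.κ D.τ D.w x
/-- primitive of the decaying error -/
def P : ℝ → ℝ := PY D.δ' D.W D.π D.κ D.τ D.w x
/-- contact potential difference -/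
def B : ℝ → ℝ := BB D.w D.β (b2s D.b₂ D.W D.π (D.K * m / 2 * D.δ)) x
/-- sharp `E` -/
def Es : ℝ → ℝ := Shp_98.Es D.K D.δ (D.E x) (D.e x) (D.P x)
/-- sharp `U` -/
def Us : ℝ → ℝ := Shp_98.Us D.K D.δ (D.E x) (D.e x) (D.P x) (D.B x)
/-- sharp `R` -/
def Rs : ℝ → ℝ := Shp_98.Rs D.K D.δ (D.e x) (D.et x) (D.g x) (D.R x) (D.f x) (D.p x)
/-- sharp `b` -/
def bs : ℝ → ℝ := Shp_98.bs m D.K D.δ (D.e x) (D.b x) (D.g x)
/-- sharp `e` -/
def es : ℝ → ℝ := Shp_98.es m D.K D.δ (D.E x) (D.e x) (D.b x) (D.g x) (D.P x)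

/-- properties of the data -/
structure Ok (D : Da m n k) (h₀ c₀ K₀ : ℝ) (g2 : ℝ → ℝ) : Prop where
  m2 : 2 ≤ m
  ff : FF D.W D.π D.κ
  hh : ∀ᵐ p ∂D.W, ‖D.κ p.1‖ ≤ h₀
  τ0 : 0 < D.τ
  prof : Prof D.w.θ D.w.θ' g2
  fβ : IsFiniteMeasure D.β
  fγ : IsFiniteMeasure D.γ
  fb₂ : IsFiniteMeasure D.b₂
  rep : Rep (D.β + D.γ) D.b₂ D.W D.π D.Q
  δ0 : 0 < D.δ
  δ'0 : 0 ≤ D.δ'
  δδ : D.δ' ≤ D.δ
  K2 : 2 ≤ D.K
  c0 : 0 < c₀
  wl : ∀ t, 0 ≤ t → t ≤ 1 / 12 → c₀ ≤ D.w.θ t ∧ c₀ ≤ -D.w.θ' t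
  wu : ∀ t, 0 ≤ t → D.w.θ t ≤ K₀ ∧ -D.w.θ' t ≤ K₀

/-- hypotheses at one contact centre, logarithmic scales `l ∈ [a, T]` -/
structure At (D : Da m n k) (A D₀ a T : ℝ) (x : Euc m) : Prop where
  hT : ‖x‖ + Real.exp T + 2 * D.τ ≤ 1
  hf : ∀ y ∈ closedBall x D.τ, ∀ l ≤ T, |f1 D.W D.π D.w.θ y l| ≤ D.δ' *
    (ee D.W D.π y D.w.θ l + Raw_387.et D.W D.π D.w.θ' y l +
      kk D.W D.π (yc D.κ) D.w.θ y l + kt D.W D.π (yc D.κ) D.w.θ' y l)
  tall : D₀ ≤ D.Us x a
  hB : ∀ l, a ≤ l → l ≤ T → 0 ≤ D.B x l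
  hEe : ∀ l, a ≤ l → l + 1 ≤ T → D.E x l ≤ A * D.e x (l + 1)
  PT : D.P x T ≤ D₀

end Da

/-- averaged bound of the first variation error -/
theorem abs_av_f1_le {W : Measure (Euc k × L k)} {π : Euc k →L[ℝ] Euc m}
    {κ : Euc k →L[ℝ] Euc n} {τ : ℝ} (h : FF W π κ) (hτ : 0 < τ) {w : Wt} {g2 : ℝ → ℝ}
    (hg : Prof w.θ w.θ' g2) {C : ℝ} (hc : Cf W (yc κ) C) {δ' : ℝ} {x : Euc m} {l : ℝ}
    (hf : ∀ y ∈ closedBall x τ, |f1 W π w.θ y l| ≤ δ' * (ee W π y w.θ l +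
      et W π w.θ' y l + kk W π (yc κ) w.θ y l + kt W π (yc κ) w.θ' y l)) :
    |av (dd m τ) (f1 W π w.θ) x l| ≤ δ' * (eea (dd m τ) W π w.θ x l +
      eta (dd m τ) W π w.θ' x l) + pY δ' W π κ τ w x l / 2 := by
  have hd := cw_dd (m := m) hτ
  have hl1 : l < l + 1 := by linarith
  have c0 : CO x τ (l + 1) (fun y l => f1 W π w.θ y l) :=
    CO_of_cont (cont2_f1 h hg) x τ (l + 1)
  have c1 : CO x τ (l + 1) (fun y l => ee W π y w.θ l) :=
    CO_of_cont (cont2_ee' h hg.k0) x τ (l + 1)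
  have c2 : CO x τ (l + 1) (fun y l => et W π w.θ' y l) :=
    CO_of_cont (cont2_et h hg) x τ (l + 1)
  have c3 : CO x τ (l + 1) (fun y l => kk W π (yc κ) w.θ y l) :=
    CO_of_cont (cont2_kk h hc hg.k0) x τ (l + 1)
  have c4 : CO x τ (l + 1) (fun y l => kt W π (yc κ) w.θ' y l) :=
    CO_of_cont (cont2_kt h hc hg) x τ (l + 1)
  have c5 : CO x τ (l + 1) (fun y l => δ' * (ee W π y w.θ l +
    et W π w.θ' y l + kk W π (yc κ) w.θ y l + kt W π (yc κ) w.θ' y l)) :=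
    (((c1.add c2).add c3).add c4).const_mul δ'
  have e1 : av (dd m τ) (fun y l => δ' * (ee W π y w.θ l +
    et W π w.θ' y l + kk W π (yc κ) w.θ y l + kt W π (yc κ) w.θ' y l)) x l =
      δ' * (eea (dd m τ) W π w.θ x l + eta (dd m τ) W π w.θ' x l) +
        pY δ' W π κ τ w x l / 2 := by
    rw [av_const_mul, av_add hd ((c1.add c2).add c3) c4 hl1, av_add hd (c1.add c2) c3 hl1,
      av_add hd c1 c2 hl1]
    unfold pY eea eta
    ring
  have e2 := av_mono hd c0 c5 hl1 fun y hy => (le_abs_self _).trans (hf y hy)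
  have e3 := av_mono hd c0.neg c5 hl1 fun y hy => (neg_le_abs _).trans (hf y hy)
  have e4 : av (dd m τ) (fun y l => -f1 W π w.θ y l) x l =
      - av (dd m τ) (f1 W π w.θ) x l := by
    unfold av
    rw [← integral_neg]
    refine integral_congr_ae (Eventually.of_forall fun y => ?_)
    simp only
    ring
  rw [e1] at e2 e3
  rw [e4] at e3
  have e8 : av (dd m τ) (fun y l => f1 W π w.θ y l) x l = av (dd m τ) (f1 W π w.θ) x l := rfl
  rw [e8] at e2
  rw [abs_le]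
  constructor <;> linarith

namespace Da

variable {D : Da m n k} {h₀ c₀ K₀ A D₀ a T : ℝ} {g2 : ℝ → ℝ} {x x' : Euc m}

theorem Ok.K₀0 (ok : D.Ok h₀ c₀ K₀ g2) : c₀ ≤ K₀ :=
  ((ok.wl 0 le_rfl (by norm_num)).1).trans (ok.wu 0 le_rfl).1

/-- **98's `Raw`** -/
theorem At.raw (ok : D.Ok h₀ c₀ K₀ g2) (hx : D.At A D₀ a T x) :
    Shp_98.Raw m D.K 2 D.δ T (D.E x) (D.e x) (D.et x) (D.b x) (D.g x) (D.R x) (D.f x) (D.p x)
      (D.P x) (D.B x) := by
  have f1 := ok.fβ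
  have f2 := ok.fγ
  have f3 := ok.fb₂
  have hm := ok.m2
  refine Raw_387.raw (by lia) ok.ff ok.hh ok.τ0 ok.prof rfl ok.rep ok.δ0 ok.δ'0 ok.δδ
    (by linarith [ok.K2]) hx.hT fun y hy l hl => ?_
  refine (hx.hf y hy l hl).trans ?_
  have hc := cf_yc (W := D.W) (κ := D.κ) ok.hh
  have h1 : 0 ≤ ee D.W D.π y D.w.θ l := by
    rw [ee_eq_kk ok.ff]
    exact kk_nonneg (cf_tc ok.ff) ok.prof _ _
  have h2 : 0 ≤ Raw_387.et D.W D.π D.w.θ' y l := by
    rw [et_eq_kt ok.ff]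
    exact kt_nonneg (cf_tc ok.ff) ok.prof _ _
  have h3 := kk_nonneg (π := D.π) hc ok.prof y l
  have h4 := kt_nonneg (π := D.π) hc ok.prof y l
  have h5 := ok.δ'0
  refine mul_le_mul_of_nonneg_right (by linarith) (by positivity)

theorem exp_six : Real.exp (-2 * 3) ≤ 1 / 12 := by
  have h1 := Real.exp_one_gt_d9
  have h2 : Real.exp (-2 * 3) = (Real.exp 1 ^ 6)⁻¹ := by
    rw [← Real.exp_nat_mul, ← Real.exp_neg]
    norm_num
  rw [h2]
  have h3 : (12 : ℝ) ≤ Real.exp 1 ^ 6 := by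
    have : (2 : ℝ) ^ 6 ≤ Real.exp 1 ^ 6 := pow_le_pow_left₀ (by norm_num) (by linarith) 6
    linarith
  rw [inv_le_comm₀ (by positivity) (by norm_num)]
  linarith

/-- **one averaged contact centre** -/
theorem At.ctr (ok : D.Ok h₀ c₀ K₀ g2) (hx : D.At A D₀ a T x) (hA : Real.exp ((m:ℝ) - 2) ≤ A)
    (hD₀ : 0 < D₀) (haT : a ≤ T) :
    Ctr m D.K D.δ (K₀ / c₀) A D₀ a T (D.E x) (D.e x) (D.et x) (D.b x) (D.g x) (D.R x) (D.f x)
      (D.p x) (D.P x) (D.B x) := by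
  have f1 := ok.fβ
  have f2 := ok.fγ
  have f3 := ok.fb₂
  have hd := cw_dd (m := m) ok.τ0
  have hc := cf_yc (W := D.W) (κ := D.κ) ok.hh
  have hm : (2:ℝ) ≤ m := by exact_mod_cast ok.m2
  have hw : ∀ t, 0 ≤ t → t ≤ Real.exp (-2 * 3) → c₀ ≤ -D.w.θ' t := fun t h1 h2 =>
    (ok.wl t h1 (h2.trans exp_six)).2
  have hraw := hx.raw ok
  exact
    { raw := hraw
      m2 := hm
      K2 := ok.K2
      hA := hA
      CC1 := (one_le_div ok.c0).2 ok.K₀0
      D0 := hD₀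
      aT := haT
      ce := fun s t h1 _ => eea_mono' ok.ff hd ok.prof x h1
      cg := fun s t h1 _ => hata_mono ok.τ0 ok.prof D.γ x h1
      cet := fun s t h1 _ => eta_le ok.ff hd ok.prof (fun t ht => (ok.wu t ht).2) ok.c0 hw x h1
      cR := fun s t h1 _ => RRa_le' ok.ff hd ok.prof (fun t ht => (ok.wu t ht).2) ok.c0 hw x h1
      cp := fun s t h1 _ => pY_le ok.ff ok.τ0 ok.prof hc ok.δ'0 (fun t ht => (ok.wu t ht).2)
        ok.c0 hw (by norm_num) x h1
      hf := fun l hl => by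
        have h1 := abs_av_f1_le ok.ff ok.τ0 ok.prof hc (δ' := D.δ') (x := x) (l := l)
          fun y hy => hx.hf y hy l hl
        have h2 : |D.f x l| = |av (dd m D.τ) (Avg_387.f1 D.W D.π D.w.θ) x l| := by
          unfold Da.f
          rw [abs_neg]
        rw [h2]
        refine h1.trans ?_
        have h3 : D.δ' * (D.e x l + D.et x l) ≤ D.δ * (D.e x l + D.et x l) :=
          mul_le_mul_of_nonneg_right ok.δδ (add_nonneg (hraw.e0 l hl) (hraw.et0 hl))
        have h4 : D.δ' * (eea (dd m D.τ) D.W D.π D.w.θ x l +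
          eta (dd m D.τ) D.W D.π D.w.θ' x l) = D.δ' * (D.e x l + D.et x l) := rfl
        have h5 : pY D.δ' D.W D.π D.κ D.τ D.w x l = D.p x l := rfl
        rw [h4, h5]
        linarith
      tall := hx.tall
      hB := hx.hB
      hEe := hx.hEe
      PT := hx.PT }

/-- the comparison constant of two centres -/
def CK (m : ℕ) (c₀ K₀ : ℝ) : ℝ := (K₀ / c₀) * Real.exp (((m:ℝ) - 2) * 2)

theorem exp_two_le : (1 + 1) * Real.exp (-2) ≤ 0.28 := by
  have h1 := Real.exp_one_gt_d9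
  have h2 : Real.exp (-2) = (Real.exp 1 ^ 2)⁻¹ := by
    rw [← Real.exp_nat_mul, ← Real.exp_neg]
    norm_num
  rw [h2]
  have h3 : (7.38 : ℝ) ≤ Real.exp 1 ^ 2 := by nlinarith
  have h4 : (Real.exp 1 ^ 2)⁻¹ ≤ (7.38 : ℝ)⁻¹ := inv_anti₀ (by norm_num) h3
  norm_num at h4 ⊢
  linarith

theorem e_change (ok : D.Ok h₀ c₀ K₀ g2) {l : ℝ} (hx : ‖x' - x‖ ≤ Real.exp l) :
    D.e x' l ≤ CK m c₀ K₀ * D.e x (l + 2) := by
  refine eea_change' ok.ff (cw_dd ok.τ0) ok.prof (fun t ht => (ok.wu t ht).1) ok.c0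
    (r := 0.28) (by norm_num) (fun t h1 h2 => (ok.wl t h1 (h2.trans (by norm_num))).1)
    zero_le_one exp_two_le (by rwa [one_mul])

theorem g_change (ok : D.Ok h₀ c₀ K₀ g2) {l : ℝ} (hx : ‖x' - x‖ ≤ Real.exp l) :
    D.g x' l ≤ CK m c₀ K₀ * D.g x (l + 2) := by
  have f2 := ok.fγ
  refine hata_change ok.τ0 ok.prof D.γ (fun t ht => (ok.wu t ht).1) ok.c0
    (r := 0.28) (by norm_num) (fun t h1 h2 => (ok.wl t h1 (h2.trans (by norm_num))).1)
    zero_le_one exp_two_le (by rwa [one_mul])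

theorem CK_nonneg (ok : D.Ok h₀ c₀ K₀ g2) : 0 ≤ CK m c₀ K₀ := by
  unfold CK
  have h1 := ok.c0
  have h2 := ok.K₀0
  have h3 : 0 ≤ K₀ / c₀ := div_nonneg (by linarith) h1.le
  positivity

/-! ### measurability in the centre -/

theorem cont2_Es (ok : D.Ok h₀ c₀ K₀ g2) : Continuous (uncurry D.Es) := by
  have hd := cw_dd (m := m) ok.τ0
  have hc := cf_yc (W := D.W) (κ := D.κ) ok.hh
  exact ((continuous_av2 hd (cont2_EE' ok.ff ok.prof.k0 D.Q)).add
    ((continuous_av2 hd (cont2_ee' ok.ff ok.prof.k0)).const_mul (D.K * D.δ))).add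
    (cont2_PY ok.ff ok.τ0 ok.prof hc D.δ')

theorem cont2_Us (ok : D.Ok h₀ c₀ K₀ g2) : Continuous (uncurry D.Us) := by
  have f1 := ok.fβ
  have f3 := ok.fb₂
  have hc0 : 0 ≤ D.K * m / 2 * D.δ := by
    have := ok.K2
    have := ok.δ0
    positivity
  have hft := finite_tm (τ := D.τ) ok.ff hc0
  have hfs : IsFiniteMeasure (b2s D.b₂ D.W D.π (D.K * m / 2 * D.δ)) := by
    unfold b2s; infer_instance
  exact (cont2_Es ok).sub ((cont2_BB ok.τ0 D.w).const_mul 2)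

theorem cont2_es (ok : D.Ok h₀ c₀ K₀ g2) : Continuous (uncurry D.es) := by
  have f2 := ok.fγ
  have hd := cw_dd (m := m) ok.τ0
  have hb : Continuous (uncurry D.bs) :=
    ((continuous_av2 hd (cont2_bb' ok.ff ok.prof.k0 D.Q)).sub (cont2_hata ok.τ0 D.w D.γ)).sub
      ((continuous_av2 hd (cont2_ee' ok.ff ok.prof.k0)).const_mul (D.K * m / 2 * D.δ))
  exact ((cont2_Es ok).const_mul 2).sub (hb.const_mul 2)

theorem meas_of_cont2 {q : Euc m → ℝ → ℝ} (h : Continuous (uncurry q)) (l : ℝ) :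
    Measurable fun x => q x l := by
  have h2 : Continuous fun x : Euc m => (x, l) := by fun_prop
  exact (h.comp h2).measurable

end Da

/-! ### shift of the time -/

/-- shift of `PtDat` -/
theorem ptDat_shift {ι : Type*} {q : ι → ℝ} {κ a0 T q1 L₀ : ℝ} {U E R : ℝ → ℝ}
    {eF IF er : ι → ℝ → ℝ} (h : Core_809.PtDat q κ (L₀ + a0) (L₀ + T) q1 U E R eF IF er) :
    Core_809.PtDat q κ a0 T q1 (fun t => U (L₀ + t)) (fun t => E (L₀ + t))
      (fun t => R (L₀ + t)) (fun w t => eF w (L₀ + t)) (fun w t => IF w (L₀ + t))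
      (fun w t => er w (L₀ + t)) := by
  have hmem : ∀ {t : ℝ}, t ∈ Icc a0 T → L₀ + t ∈ Icc (L₀ + a0) (L₀ + T) := fun {t} ht =>
    ⟨by linarith [ht.1], by linarith [ht.2]⟩
  have hint : ∀ {f : ℝ → ℝ}, IntervalIntegrable f volume (L₀ + a0) (L₀ + T) →
      IntervalIntegrable (fun t => f (L₀ + t)) volume a0 T := fun {f} hf => by
    have := hf.comp_add_left L₀
    simpa using this
  have hae : ∀ {P : ℝ → Prop}, (∀ᵐ t, P t) → ∀ᵐ t, P (L₀ + t) := fun {P} hP =>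
    (measurePreserving_add_left (volume : Measure ℝ) L₀).quasiMeasurePreserving.ae hP
  refine
    { haT := by linarith [h.haT]
      k0 := h.k0
      Upos := h.Upos
      hR := hint h.hR
      hU := fun x hx => ?_
      Rnn := ?_
      UE := fun x hx => h.UE _ (hmem hx)
      Em := h.Em.comp (measurable_const_add L₀)
      Inn := fun w x hx => h.Inn w _ (hmem hx)
      he := fun w hw => hint (h.he w hw)
      hρ := fun w hw => hint (h.hρ w hw)
      hI := fun w hw x hx => ?_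
      cs := fun w hw => ?_
      rho := fun w hw => ?_ }
  · have h1 := h.hU _ (hmem hx)
    rw [intervalIntegral.integral_comp_add_left]
    exact h1
  · filter_upwards [hae h.Rnn] with t ht1 ht2
    exact ht1 (hmem ht2)
  · have h1 := h.hI w hw _ (hmem hx)
    rw [intervalIntegral.integral_comp_add_left (fun t => 2 * eF w t + er w t)]
    exact h1
  · filter_upwards [hae (h.cs w hw)] with t ht1 ht2
    exact ht1 (hmem ht2)
  · filter_upwards [hae (h.rho w hw)] with t ht1 ht2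
    exact ht1 (hmem ht2)

/-- **`Core_809.Fld` for the sharp averaged quantities**, `t = l - L₀`, `e^{L₀} = 2 r₀`; the well
part (`hpt`, `hcs`) is a hypothesis. -/
theorem fld {d : ℕ} {D : Da (d + 2) n k} {h₀ c₀ K₀ : ℝ} {g2 : ℝ → ℝ} (ok : D.Ok h₀ c₀ K₀ g2)
    {Z : Set (Euc (d + 2))} {A D₀ r0 L₀ a0 T κ' q1 : ℝ} {ι : Type*} {q : ι → ℝ}
    (hA : Real.exp d ≤ A) (hD₀ : 0 < D₀) (hr : Real.exp L₀ = 2 * r0) (haT : a0 ≤ T)
    (hZ : ∀ x ∈ Z, D.At A D₀ (L₀ + a0 - 1) (L₀ + T) x)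
    {eF IF er : Euc (d + 2) → ι → ℝ → ℝ}
    (hpt : ∀ x ∈ Z, Core_809.PtDat q κ' (L₀ + a0) (L₀ + T) q1 (D.Us x) (D.Es x) (D.Rs x)
      (eF x) (IF x) (er x))
    (hcs : ∀ x ∈ Z, ∀ w, q w ^ 2 ≤ q1 → ∀ l ∈ Icc (L₀ + a0) (L₀ + T),
      eF x w l ^ 2 ≤ D.Rs x l * IF x w l + κ' * D.Us x l ^ 2) :
    Core_809.Fld Z q d κ' a0 T q1 r0 (48 * A)
      (6 * (K₀ / c₀) * Real.exp (4 * ((d + 2 : ℕ) : ℝ))) A (Da.CK (d + 2) c₀ K₀ + 2 * A)
      (fun x t => D.Us x (L₀ + t)) (fun x t => D.Es x (L₀ + t)) (fun x t => D.Rs x (L₀ + t))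
      (fun x t => D.es x (L₀ + t)) (fun x w t => eF x w (L₀ + t))
      (fun x w t => IF x w (L₀ + t)) (fun x w t => er x w (L₀ + t)) := by
  have hm : (((d + 2 : ℕ) : ℝ) - 2) = d := by push_cast; ring
  have hctr : ∀ x ∈ Z, _ := fun x hx => (hZ x hx).ctr ok (by rw [hm]; exact hA) hD₀
    (by linarith)
  refine
    { pt := fun x hx => ptDat_shift (hpt x hx)
      cs := fun x hx w hw t ht => hcs x hx w hw _ ⟨by linarith [ht.1], by linarith [ht.2]⟩
      epos := fun x hx t ht => (hctr x hx).epos (by linarith [ht.1]) (by linarith [ht.2])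
      reg := fun x hx t h1 h2 => ?_
      qm := fun x hx t t' h1 h2 h3 => ?_
      rr := fun x hx t h1 h2 => ?_
      eb := fun x hx t h1 h2 => ?_
      nbr := fun x hx x' hx' t h1 h2 h3 => ?_
      me := fun t => Da.meas_of_cont2 (Da.cont2_es ok) (L₀ + t)
      mU := fun t => Da.meas_of_cont2 (Da.cont2_Us ok) (L₀ + t) }
  · have h3 := (hctr x hx).reg (l := L₀ + t) (by linarith) (by linarith)
    have e1 : L₀ + t + 1 = L₀ + (t + 1) := by ring
    rw [e1] at h3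
    exact h3
  · have h4 := (hctr x hx).qm (s := L₀ + t) (t := L₀ + t') (by linarith) (by linarith)
    have e1 : (((d + 2 : ℕ) : ℝ) - 2) * (L₀ + t' - (L₀ + t)) = d * (t' - t) := by
      rw [hm]; ring
    rw [e1] at h4
    exact h4
  · have h3 := (hctr x hx).rr (l := L₀ + t) (by linarith)
    have e1 : L₀ + t + 4 = L₀ + (t + 4) := by ring
    have e2 : L₀ + t + 3 = L₀ + (t + 3) := by ring
    rw [e1, e2] at h3
    exact h3
  · have h3 := (hctr x hx).eb (l := L₀ + t) (by linarith) (by linarith)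
    have e1 : L₀ + t + 1 = L₀ + (t + 1) := by ring
    rw [e1] at h3
    exact h3
  · have h4 : ‖x' - x‖ ≤ Real.exp (L₀ + t) := by
      rw [Real.exp_add, hr, ← dist_eq_norm, dist_comm]
      exact h3
    have h5 := (hctr x hx).nbr (hctr x' hx') (l := L₀ + t) (by linarith) (by linarith)
      (Da.e_change ok h4) (Da.g_change ok h4) (Da.CK_nonneg ok)
    have e1 : L₀ + t + 2 = L₀ + (t + 2) := by ring
    rw [e1] at h5
    exact h5


end Crest.Agent.R234.Fld_387
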