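import Crest.Agent.R234.Shp1_98
import Crest.Agent.R234.Raw2_387
import Crest.Agent.R234.N5a_372
import Crest.Agent.R234.Fld3_387

-- ▼ part R234/Bds1_214
section

/-!
# Row 234, BDS part 1 (helper214): bounds at one contact centre

Over helper98's `Raw` (sharp averaged quantities of one contact centre, all scales `l ≤ Tr`):
`Es l ≤ A es (l+1)`, `D₀ / A ≤ es`, `K₀ δ e l ≤ A Us (l+1)`, `2 g l ≤ A Us (l+1)`, and the upper
bounds of `Us`, `es`, `Es`, `B` from the values at one top scale.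
-/

set_option autoImplicit false

open MeasureTheory Set Filter Topology

noncomputable section

namespace Crest.Agent.R234.Bds_214

open Crest.Agent.R234.Shp_98

/-- quasi-monotonicity in one step, and the mean bound `E ≤ A e(· + 1)`, on `[a, Tr]` -/
structure Qm (A a Tr : ℝ) (E e g P : ℝ → ℝ) : Prop where
  A1 : 1 ≤ A
  qe : ∀ s t, a ≤ s → s ≤ t → t ≤ s + 1 → t ≤ Tr → e s ≤ A * e t
  qg : ∀ s t, a ≤ s → s ≤ t → t ≤ s + 1 → t ≤ Tr → g s ≤ A * g t
  qP : ∀ s t, a ≤ s → s ≤ t → t ≤ Tr → P s ≤ P t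
  Ee : ∀ t, a ≤ t → t + 1 ≤ Tr → E t ≤ A * e (t + 1)

variable {m K K₀ c δ Tr a A : ℝ} {E e et b g R f p P B : ℝ → ℝ}

section
variable (h : Raw m K c δ Tr E e et b g R f p P B) (q : Qm A a Tr E e g P)
include h q





/-- `g` from `Us` -/
theorem g_up (hcK : c ≤ K) (hU0 : ∀ l, a ≤ l → l ≤ Tr → 0 ≤ Us K δ E e P B l) {l : ℝ}
    (hl : a ≤ l) (hl1 : l + 1 ≤ Tr) :
    2 * g l ≤ A * Us K δ E e P B (l + 1) := by
  have hA : 0 < A := by linarith [q.A1]
  have h1 := h.Us_sub (s := l) (t := l + 1) (by linarith) hl1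
  have h2 : ∫ x in l..(l + 1), (2 * (g l / A)) ≤ ∫ x in l..(l + 1), Rs K δ e et g R f p x := by
    refine intervalIntegral.integral_mono_on (by linarith) (by simp)
      (h.cont_Rs.intervalIntegrable _ _) fun x hx => ?_
    have hx' : x ≤ Tr := hx.2.trans hl1
    have h3 := h.Rs_lower (K₀ := 0) (by linarith) hx'
    have h5 := h.R0 x hx'
    have h7 : g l / A ≤ g x := by
      rw [div_le_iff₀ hA]
      linarith [q.qg l x hl hx.1 hx.2 hx']
    linarith
  simp only [intervalIntegral.integral_const, smul_eq_mul] at h2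
  have h8 := hU0 l hl (by linarith)
  have h9 : (l + 1 - l) * (2 * (g l / A)) = 2 * g l / A := by ring
  rw [h9, div_le_iff₀ hA] at h2
  nlinarith



end

/-- all bounds at one centre; `V` bounds `Us` on `[a, T₁]` -/
structure Bd1 (A K₀ m K δ a T₁ D₀ V P₁ : ℝ) (E e b g P B : ℝ → ℝ) : Prop where
  Ulow : ∀ l, a ≤ l → l ≤ T₁ → D₀ ≤ Us K δ E e P B l
  Uup : ∀ l, a ≤ l → l ≤ T₁ → Us K δ E e P B l ≤ V
  elow : ∀ l, a + 1 ≤ l → l ≤ T₁ → D₀ / A ≤ es m K δ E e b g P l
  eup : ∀ l, a ≤ l → l + 1 ≤ T₁ → es m K δ E e b g P l ≤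
    ((1 + (2 + m) * K * δ) / (K₀ * δ) + 1) * A * V + 2 * P₁
  Eup : ∀ l, a ≤ l → l + 2 ≤ T₁ → Es K δ E e P l ≤
    A * (((1 + (2 + m) * K * δ) / (K₀ * δ) + 1) * A * V + 2 * P₁)
  Bup : ∀ l, a ≤ l → l + 2 ≤ T₁ → B l ≤
    A / 2 * (((1 + (2 + m) * K * δ) / (K₀ * δ) + 1) * A * V + 2 * P₁)


end Crest.Agent.R234.Bds_214
end
end

-- ▼ part R234/Bds2_214
section

/-!
# Row 234, BDS part 2 (helper214): balls against scale integrals

* `ball_le_SS` : the mass of a ball is bounded by the scale integral `SS` one step above;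
* `hata_le`, `eea_le` : the averaged functionals are bounded by masses of balls;
* `muB = π_# (tl W) + γ`.
-/

set_option autoImplicit false

open MeasureTheory Set Function Filter Topology Metric
open Crest.GeometryTopology.Submanifold
open Crest.Agent.R234.Vf_884 Crest.Agent.R234.Ar_870 Crest.Agent.R234.Cy_870
open Crest.Agent.R234.Pot_425 Crest.Agent.R234.Avg_387 Crest.Agent.R234.Rep_387
open Crest.Agent.R234.Raw_387
open Crest.Agent.R234.N5_372 (eM bm ov bm_apply)
open scoped ENNReal NNReal InnerProductSpace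

noncomputable section

namespace Crest.Agent.R234.Bds_214

variable {m n k : ℕ} {τ : ℝ}

/-- a ball of the base in `XB` -/
def bal (τ : ℝ) (x : Euc m) (s : ℝ) : Set (XB (Euc m) τ) := {z | ‖(z : Euc m) - x‖ ≤ s}

theorem measurableSet_bal (x : Euc m) (s : ℝ) : MeasurableSet (bal τ x s) :=
  (isClosed_le (by fun_prop) continuous_const).measurableSet


theorem integrable_theta (w : Wt) (b : Measure (XB (Euc m) τ)) [IsFiniteMeasure b] (y : Euc m)
    (l : ℝ) : Integrable (fun z : XB (Euc m) τ =>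
      w.θ (Real.exp (-2 * l) * ‖(z : Euc m) - y‖ ^ 2)) b := by
  have hc : Continuous fun z : XB (Euc m) τ =>
      w.θ (Real.exp (-2 * l) * ‖(z : Euc m) - y‖ ^ 2) := w.cont.comp (by fun_prop)
  obtain ⟨K, hK⟩ := (isCompact_univ : IsCompact (univ : Set (XB (Euc m) τ))).exists_bound_of_continuousOn
    hc.continuousOn
  exact Integrable.of_bound hc.aestronglyMeasurable K
    (Eventually.of_forall fun z => hK z (mem_univ _))

theorem hat_ge (w : Wt) (b : Measure (XB (Euc m) τ)) [IsFiniteMeasure b] {x y : Euc m}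
    {s t c₀ r : ℝ} (hy : ‖y - x‖ ≤ τ) (hθ : ∀ u, 0 ≤ u → u ≤ r ^ 2 → c₀ ≤ w.θ u)
    (hs : s + τ ≤ r * Real.exp t) :
    Real.exp ((2 - m) * t) * (c₀ * b.real (bal τ x s)) ≤ hat w b y t := by
  unfold hat
  refine mul_le_mul_of_nonneg_left ?_ (Real.exp_pos _).le
  have h1 : c₀ * b.real (bal τ x s) = ∫ z, (bal τ x s).indicator (fun _ => c₀) z ∂b := by
    rw [integral_indicator_const _ (measurableSet_bal x s), smul_eq_mul, mul_comm]
  rw [h1]
  refine integral_mono ((integrable_const _).indicator (measurableSet_bal x s))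
    (integrable_theta w b y t) fun z => ?_
  by_cases hz : z ∈ bal τ x s
  · rw [indicator_of_mem hz]
    refine hθ _ (by positivity) ?_
    have h2 : ‖(z : Euc m) - y‖ ≤ ‖(z : Euc m) - x‖ + ‖x - y‖ :=
      norm_sub_le_norm_sub_add_norm_sub _ _ _
    rw [norm_sub_rev x y] at h2
    have h3 : ‖(z : Euc m) - x‖ ≤ s := hz
    have h4 : ‖(z : Euc m) - y‖ ≤ r * Real.exp t := by linarith
    have h5 : ‖(z : Euc m) - y‖ ^ 2 ≤ (r * Real.exp t) ^ 2 := pow_le_pow_left₀ (norm_nonneg _) h4 2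
    have h6 : Real.exp (-2 * t) * Real.exp t ^ 2 = 1 := by
      rw [← Real.exp_nat_mul, ← Real.exp_add]
      have : -2 * t + ((2 : ℕ) : ℝ) * t = 0 := by push_cast; ring
      rw [this, Real.exp_zero]
    calc Real.exp (-2 * t) * ‖(z : Euc m) - y‖ ^ 2 ≤ Real.exp (-2 * t) * (r * Real.exp t) ^ 2 :=
          mul_le_mul_of_nonneg_left h5 (Real.exp_pos _).le
      _ = r ^ 2 * (Real.exp (-2 * t) * Real.exp t ^ 2) := by ring
      _ = r ^ 2 := by rw [h6, mul_one]
  · rw [indicator_of_notMem hz]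
    exact w.nonneg _

theorem av_ge_const (hτ : 0 < τ) {q : Euc m → ℝ → ℝ} {x : Euc m} {l C : ℝ}
    (hq : Continuous (uncurry q)) (h : ∀ y ∈ closedBall x τ, C ≤ q y l) :
    Md m * C ≤ av (dd m τ) q x l := by
  have h2 := av_mono (cw_dd (m := m) hτ)
    (CO_const (x := x) (τ := τ) (L₀ := l + 1) (fun _ => C) continuous_const)
    (CO_of_cont hq x τ (l + 1)) (by linarith : l < l + 1) h
  refine le_trans (le_of_eq ?_) h2
  unfold av
  rw [integral_mul_const, integral_dd hτ]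

theorem av_le_const (hτ : 0 < τ) {q : Euc m → ℝ → ℝ} {x : Euc m} {l C : ℝ}
    (hq : Continuous (uncurry q)) (h : ∀ y ∈ closedBall x τ, q y l ≤ C) :
    av (dd m τ) q x l ≤ Md m * C := by
  have h2 := av_le_of_le (cw_dd (m := m) hτ) (CO_of_cont hq x τ (l + 1))
    (by linarith : l < l + 1) h
  rw [integral_dd hτ] at h2
  linarith

/-- **the mass of a ball is bounded by the scale integral** -/
theorem ball_le_SS (hm : 2 ≤ m) (hτ : 0 < τ) (w : Wt) (b : Measure (XB (Euc m) τ))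
    [IsFiniteMeasure b] (x : Euc m) {s l c₀ r : ℝ} (hr : 0 ≤ r) (hc : 0 ≤ c₀)
    (hθ : ∀ u, 0 ≤ u → u ≤ r ^ 2 → c₀ ≤ w.θ u) (hs : s + τ ≤ r * Real.exp l) :
    Md m * c₀ * Real.exp ((2 - m) * (l + 1)) * b.real (bal τ x s) ≤
      SS m τ w b x (Real.exp (l + 1)) := by
  have h0 : 0 ≤ SS m τ w b x (Real.exp l) := SS_nonneg hτ w b x (Real.exp_pos _).le
  have hcont : Continuous (hata w b x) := by
    have h2 : Continuous fun l : ℝ => (x, l) := by fun_prop
    exact (cont2_hata hτ w b).comp h2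
  have h1 : SS m τ w b x (Real.exp (l + 1)) - SS m τ w b x (Real.exp l) =
      ∫ t in l..(l + 1), hata w b x t := by
    symm
    exact intervalIntegral.integral_eq_sub_of_hasDerivAt
      (f := fun l => SS m τ w b x (Real.exp l)) (fun t _ => hasDerivAt_SS hτ w b x t)
      (hcont.intervalIntegrable _ _)
  have hm' : (2:ℝ) ≤ m := by exact_mod_cast hm
  have hM : 0 ≤ Md m := by
    have : 0 < m := by omega
    exact (Md_pos this).le
  have h2 : ∫ t in l..(l + 1), (Md m * c₀ * Real.exp ((2 - m) * (l + 1)) * b.real (bal τ x s)) ≤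
      ∫ t in l..(l + 1), hata w b x t := by
    refine intervalIntegral.integral_mono_on (by linarith) (by simp)
      (hcont.intervalIntegrable _ _) fun t ht => ?_
    have h3 : Real.exp l ≤ Real.exp t := Real.exp_le_exp.2 ht.1
    have h4 : s + τ ≤ r * Real.exp t := hs.trans (mul_le_mul_of_nonneg_left h3 hr)
    have h5 := av_ge_const (m := m) hτ (x := x) (l := t) (cont2_hat w b)
      (C := Real.exp ((2 - m) * t) * (c₀ * b.real (bal τ x s))) fun y hy =>
        hat_ge w b (mem_closedBall_iff_norm.1 hy) hθ h4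
    have h6 : Real.exp ((2 - m) * (l + 1)) ≤ Real.exp ((2 - m) * t) := by
      apply Real.exp_le_exp.2
      have := ht.2
      nlinarith
    calc Md m * c₀ * Real.exp ((2 - m) * (l + 1)) * b.real (bal τ x s) =
        Md m * (Real.exp ((2 - m) * (l + 1)) * (c₀ * b.real (bal τ x s))) := by ring
      _ ≤ Md m * (Real.exp ((2 - m) * t) * (c₀ * b.real (bal τ x s))) := by gcongr
      _ ≤ _ := h5
  simp only [intervalIntegral.integral_const, smul_eq_mul] at h2
  have h9 : (l + 1 - l) * (Md m * c₀ * Real.exp ((2 - m) * (l + 1)) * b.real (bal τ x s)) =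
      Md m * c₀ * Real.exp ((2 - m) * (l + 1)) * b.real (bal τ x s) := by ring
  rw [h9] at h2
  linarith

/-- the averaged functional of a measure is bounded by the mass of a ball -/
theorem hata_le (hτ : 0 < τ) (w : Wt) (b : Measure (XB (Euc m) τ)) [IsFiniteMeasure b]
    (x : Euc m) {s l Kθ : ℝ} (hK : ∀ u, 0 ≤ u → w.θ u ≤ Kθ)
    (hs : Real.exp l + τ ≤ s) :
    hata w b x l ≤ Md m * (Real.exp ((2 - m) * l) * (Kθ * b.real (bal τ x s))) := by
  refine av_le_const hτ (cont2_hat w b) fun y hy => ?_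
  unfold hat
  refine mul_le_mul_of_nonneg_left ?_ (Real.exp_pos _).le
  have h1 : Kθ * b.real (bal τ x s) = ∫ z, (bal τ x s).indicator (fun _ => Kθ) z ∂b := by
    rw [integral_indicator_const _ (measurableSet_bal x s), smul_eq_mul, mul_comm]
  rw [h1]
  refine integral_mono (integrable_theta w b y l)
    ((integrable_const _).indicator (measurableSet_bal x s)) fun z => ?_
  by_cases hz : z ∈ bal τ x s
  · rw [indicator_of_mem hz]
    exact hK _ (by positivity)
  · rw [indicator_of_notMem hz]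
    have h3 : s < ‖(z : Euc m) - x‖ := not_le.1 hz
    have h2 : ‖(z : Euc m) - x‖ ≤ ‖(z : Euc m) - y‖ + ‖y - x‖ :=
      norm_sub_le_norm_sub_add_norm_sub _ _ _
    have h4 : ‖y - x‖ ≤ τ := mem_closedBall_iff_norm.1 hy
    have h5 : Real.exp l ≤ ‖(z : Euc m) - y‖ := by linarith
    exact (w.zero _ (Ker.one_le_of y h5)).le

variable {W : Measure (Euc k × L k)} {π : Euc k →L[ℝ] Euc m} {κ : Euc k →L[ℝ] Euc n}

theorem integrable_tl (h : FF W π κ) : Integrable (fun p : Euc k × L k => tl π p.2) W := by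
  have : IsFiniteMeasure W := ⟨h.fin⟩
  refine Integrable.of_bound ((measurable_tl π).comp continuous_snd).aestronglyMeasurable m ?_
  filter_upwards [h.conc] with p hp
  rw [Real.norm_eq_abs, abs_of_nonneg (tl_nonneg h.sp.hh (isPr_of_G hp))]
  exact tl_le h.sp.hh (isPr_of_G hp)

theorem eM_real (h : FF W π κ) {A : Set (Euc m)} (hA : MeasurableSet A) :
    (eM W π).real A = ∫ p in ov π A, tl π p.2 ∂W := by
  unfold Measure.real
  have h0 : eM W π A = ∫⁻ p in ov π A, ENNReal.ofReal (tl π p.2) ∂W := bm_apply W π _ hA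
  rw [h0, ← ofReal_integral_eq_lintegral_ofReal (integrable_tl h).restrict,
    ENNReal.toReal_ofReal]
  · refine integral_nonneg_of_ae (ae_restrict_of_ae ?_)
    filter_upwards [h.conc] with p hp
    exact tl_nonneg h.sp.hh (isPr_of_G hp)
  · refine ae_restrict_of_ae ?_
    filter_upwards [h.conc] with p hp
    exact tl_nonneg h.sp.hh (isPr_of_G hp)

theorem eM_finite (h : FF W π κ) : IsFiniteMeasure (eM W π) := by
  constructor
  have h0 : eM W π univ = ∫⁻ p in ov π univ, ENNReal.ofReal (tl π p.2) ∂W :=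
    bm_apply W π _ MeasurableSet.univ
  rw [h0, ← ofReal_integral_eq_lintegral_ofReal (integrable_tl h).restrict]
  · exact ENNReal.ofReal_lt_top
  · refine ae_restrict_of_ae ?_
    filter_upwards [h.conc] with p hp
    exact tl_nonneg h.sp.hh (isPr_of_G hp)

theorem measurableSet_ov {A : Set (Euc m)} (hA : MeasurableSet A) :
    MeasurableSet (ov π A : Set (Euc k × L k)) := Crest.Agent.R234.N5_372.measurable_base π hA

/-- the averaged tilt energy is bounded by the energy of a ball -/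
theorem eea_le (h : FF W π κ) (hτ : 0 < τ) {w : Wt} (x : Euc m) {s l Kθ : ℝ}
    (hK : ∀ u, 0 ≤ u → w.θ u ≤ Kθ) (hs : Real.exp l + τ ≤ s) :
    eea (dd m τ) W π w.θ x l ≤
      Md m * (Real.exp ((2 - m) * l) * (Kθ * (eM W π).real (closedBall x s))) := by
  have : IsFiniteMeasure W := ⟨h.fin⟩
  refine av_le_const hτ (cont2_ee' h (ker_wt w)) fun y hy => ?_
  unfold ee
  refine mul_le_mul_of_nonneg_left ?_ (Real.exp_pos _).le
  rw [eM_real h measurableSet_closedBall, ← integral_const_mul,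
    ← integral_indicator (measurableSet_ov measurableSet_closedBall)]
  have i1 := (h.fr y (l + 1)).integrable_c (aestronglyMeasurable_tl π W)
    (h.fr y (l + 1)).tl_bound (ker_wt w) (by linarith : l ≤ l + 1)
  refine integral_mono_ae i1 (((integrable_tl h).const_mul _).indicator
    (measurableSet_ov measurableSet_closedBall)) ?_
  filter_upwards [h.conc] with p hp
  have htl := tl_nonneg h.sp.hh (isPr_of_G hp)
  by_cases hz : p ∈ (ov π (closedBall x s) : Set (Euc k × L k))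
  · rw [indicator_of_mem hz, mul_comm]
    exact mul_le_mul_of_nonneg_right (hK _ (by positivity)) htl
  · rw [indicator_of_notMem hz]
    have h3 : s < ‖π p.1 - x‖ := by
      have : π p.1 ∉ closedBall x s := hz
      rwa [mem_closedBall_iff_norm, not_le] at this
    have h2 : ‖π p.1 - x‖ ≤ ‖π p.1 - y‖ + ‖y - x‖ :=
      norm_sub_le_norm_sub_add_norm_sub _ _ _
    have h4 : ‖y - x‖ ≤ τ := mem_closedBall_iff_norm.1 hy
    have h5 : Real.exp l ≤ ‖π p.1 - y‖ := by linarith
    rw [w.zero _ (Ker.one_le_of y h5), mul_zero]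

/-- `μ = π_#(tl W) + γ` on the base -/
def muB (W : Measure (Euc k × L k)) (π : Euc k →L[ℝ] Euc m) (γ : Measure (XB (Euc m) τ)) :
    Measure (Euc m) := eM W π + γ.map Subtype.val

theorem real_map_val (b : Measure (XB (Euc m) τ)) (x : Euc m) (s : ℝ) :
    (b.map Subtype.val).real (closedBall x s) = b.real (bal τ x s) := by
  unfold Measure.real
  rw [Measure.map_apply measurable_subtype_coe measurableSet_closedBall]
  congr 2

theorem real_map_univ (b : Measure (XB (Euc m) τ)) :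
    (b.map Subtype.val).real univ = b.real univ := by
  unfold Measure.real
  rw [Measure.map_apply measurable_subtype_coe MeasurableSet.univ, preimage_univ]

theorem finite_muB (h : FF W π κ) (γ : Measure (XB (Euc m) τ)) [IsFiniteMeasure γ] :
    IsFiniteMeasure (muB W π γ) := by
  have := eM_finite h
  unfold muB
  infer_instance

theorem muB_real (h : FF W π κ) (γ : Measure (XB (Euc m) τ)) [IsFiniteMeasure γ] (x : Euc m)
    (s : ℝ) : (muB W π γ).real (closedBall x s) =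
      (eM W π).real (closedBall x s) + γ.real (bal τ x s) := by
  have := eM_finite h
  unfold muB
  rw [measureReal_add_apply, real_map_val]

theorem muB_univ (h : FF W π κ) (γ : Measure (XB (Euc m) τ)) [IsFiniteMeasure γ] :
    (muB W π γ).real univ = ∫ p, tl π p.2 ∂W + γ.real univ := by
  have := eM_finite h
  unfold muB
  rw [measureReal_add_apply, real_map_univ, eM_real h MeasurableSet.univ]
  have : (ov π univ : Set (Euc k × L k)) = univ := by
    ext p; simp [ov]
  rw [this, Measure.restrict_univ]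

/-- **lower bound of `μ` on balls** -/
theorem muB_low (h : FF W π κ) (hτ : 0 < τ) {w : Wt} (γ : Measure (XB (Euc m) τ))
    [IsFiniteMeasure γ] (x : Euc m) {s l Kθ : ℝ}
    (hK : ∀ u, 0 ≤ u → w.θ u ≤ Kθ) (hs : Real.exp l + τ ≤ s) :
    eea (dd m τ) W π w.θ x l + hata w γ x l ≤
      Md m * Kθ * Real.exp ((2 - m) * l) * (muB W π γ).real (closedBall x s) := by
  have h1 := eea_le h hτ x hK hs
  have h2 := hata_le hτ w γ x hK hs
  rw [muB_real h]
  linarith

end Crest.Agent.R234.Bds_214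
end
end

-- ▼ part R234/Bds3_214

/-!
# Row 234, BDS part 3 (helper214): the bounds of `Core_809.CBase` at one centre, over helper387's
`Da`, `Ok`, `At`

Hypotheses at the centre `x`: `At A D₀ a T x`, `P x T ≤ D₀ / (4 A)` and the upper bound
`e x l ≤ V` on `[a, T]` (Caccioppoli at the window scales).  All constants are functions of
`m, K, A, c₀, K₀`.
-/

set_option autoImplicit false

open MeasureTheory Set Function Filter Topology Metric
open Crest.GeometryTopology.Submanifold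
open Crest.Agent.R234.Vf_884 Crest.Agent.R234.Ar_870 Crest.Agent.R234.Cy_870
open Crest.Agent.R234.Pot_425 Crest.Agent.R234.Avg_387 Crest.Agent.R234.Rep_387
open Crest.Agent.R234.Raw_387 Crest.Agent.R234.Fld_387
open Crest.Agent.R234.N5_372 (eM)
open scoped ENNReal NNReal InnerProductSpace

noncomputable section

namespace Crest.Agent.R234.Bds_214

variable {m n k : ℕ} {D : Da m n k} {h₀ c₀ K₀ A D₀ a T : ℝ} {g2 : ℝ → ℝ} {x : Euc m}

/-- the decaying error is monotone in the scale -/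
theorem P_mono (ok : D.Ok h₀ c₀ K₀ g2) (hx : D.At A D₀ a T x) {s t : ℝ} (hst : s ≤ t)
    (ht : t ≤ T) : D.P x s ≤ D.P x t := by
  have hr := hx.raw ok
  have h1 : MonotoneOn (D.P x) (Iic T) := by
    refine monotoneOn_of_deriv_nonneg (convex_Iic T) hr.cP.continuousOn
      (fun x hx => ?_) (fun x hx => ?_)
    · rw [interior_Iic] at hx
      exact (hr.dP x (le_of_lt hx)).differentiableAt.differentiableWithinAt
    · rw [interior_Iic] at hx
      rw [(hr.dP x (le_of_lt hx)).deriv]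
      exact hr.p0 x (le_of_lt hx)
  exact h1 (hst.trans ht) ht hst

/-- **restriction of the window** -/
theorem At_mono (ok : D.Ok h₀ c₀ K₀ g2) (hx : D.At A D₀ a T x) {a' T' : ℝ} (ha : a ≤ a')
    (haT : a' ≤ T') (hT : T' ≤ T) : D.At A D₀ a' T' x where
  hT := by
    have h1 := Real.exp_le_exp.2 hT
    have h2 := hx.hT
    linarith
  hf := fun y hy l hl => hx.hf y hy l (hl.trans hT)
  tall := hx.tall.trans ((hx.raw ok).Us_mono ok.K2 ha (haT.trans hT))
  hB := fun l h1 h2 => hx.hB l (ha.trans h1) (h2.trans hT)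
  hEe := fun l h1 h2 => hx.hEe l (ha.trans h1) (h2.trans hT)
  PT := (P_mono ok hx hT le_rfl).trans hx.PT

theorem qm_of (ok : D.Ok h₀ c₀ K₀ g2) (hx : D.At A D₀ a T x) (hA : Real.exp ((m : ℝ) - 2) ≤ A)
    (hD₀ : 0 < D₀) (haT : a ≤ T) : Qm A a T (D.E x) (D.e x) (D.g x) (D.P x) := by
  have hc := hx.ctr ok hA hD₀ haT
  have hm : (2 : ℝ) ≤ m := hc.m2
  have hst : ∀ {q : ℝ → ℝ}, (∀ s t, s ≤ t → t ≤ T → q s ≤ Real.exp ((m - 2) * (t - s)) * q t) →
      (∀ l ≤ T, 0 ≤ q l) → ∀ s t, a ≤ s → s ≤ t → t ≤ s + 1 → t ≤ T → q s ≤ A * q t := by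
    intro q hq hq0 s t _ h1 h2 ht
    refine (hq s t h1 ht).trans (mul_le_mul_of_nonneg_right ?_ (hq0 t ht))
    refine le_trans (Real.exp_le_exp.2 ?_) hA
    nlinarith
  exact ⟨hc.A1, hst hc.ce hc.raw.e0, hst hc.cg hc.raw.g0, fun s t _ h1 h2 => hc.P_mono h1 h2,
    hx.hEe⟩

/-- the constant of `es` -/
def Ce (m : ℕ) (K A : ℝ) : ℝ := 1 + (2 + m) * K + 3 * A * (A + K)

/-- **bounds of the sharp quantities at one centre** -/
structure Pt (D : Da m n k) (V A D₀ a T : ℝ) (x : Euc m) : Prop where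
  Ulow : ∀ l, a ≤ l → l ≤ T → D₀ ≤ D.Us x l
  elow : ∀ l, a + 1 ≤ l → l ≤ T → D₀ / A ≤ D.es x l
  eglow : ∀ l, a + 1 ≤ l → l ≤ T → D₀ / (2 * A * (2 + (2 + m) * D.K)) ≤ D.e x l + D.g x l
  DV : D₀ ≤ 2 * (A + D.K) * V
  Eup : ∀ l, a ≤ l → l + 1 ≤ T → D.Es x l ≤ 2 * (A + D.K) * V
  Uup : ∀ l, a ≤ l → l + 1 ≤ T → D.Us x l ≤ 2 * (A + D.K) * V
  Bup : ∀ l, a ≤ l → l + 1 ≤ T → D.B x l ≤ (A + D.K) * V
  eup : ∀ l, a ≤ l → l + 2 ≤ T → D.es x l ≤ Ce m D.K A * V

theorem pt (ok : D.Ok h₀ c₀ K₀ g2) (hx : D.At A D₀ a T x) (hA : Real.exp ((m : ℝ) - 2) ≤ A)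
    (hD₀ : 0 < D₀) (haT : a + 1 ≤ T) (hδ : D.δ ≤ 1) {V : ℝ}
    (he : ∀ l, a ≤ l → l ≤ T → D.e x l ≤ V) (hP : D.P x T ≤ D₀ / (4 * A)) :
    Pt D V A D₀ a T x := by
  have hc := hx.ctr ok hA hD₀ (by linarith)
  have hq := qm_of ok hx hA hD₀ (by linarith)
  have hr := hx.raw ok
  have hA1 : 1 ≤ A := hc.A1
  have hK : 2 ≤ D.K := ok.K2
  have hδ0 : 0 < D.δ := ok.δ0
  have hm : (2 : ℝ) ≤ m := hc.m2
  have hPl : ∀ l, l ≤ T → D.P x l ≤ D₀ / (4 * A) := fun l hl => (P_mono ok hx hl le_rfl).trans hP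
  have hP4 : D₀ / (4 * A) ≤ D₀ / 4 := by
    apply div_le_div_of_nonneg_left hD₀.le (by norm_num)
    linarith
  have hV : 0 ≤ V := (hr.e0 a (by linarith)).trans (he a le_rfl (by linarith))
  have hUl : ∀ l, a ≤ l → l ≤ T → D₀ ≤ D.Us x l := fun l h1 h2 => hc.U_pos h1 h2
  have hE1 : ∀ l, a ≤ l → l + 1 ≤ T → D.Es x l ≤ (A + D.K) * V + D₀ / 4 := by
    intro l h1 h2
    have h3 := hx.hEe l h1 h2
    have h4 := he (l + 1) (by linarith) h2
    have h5 := he l h1 (by linarith)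
    have h6 := (hPl l (by linarith)).trans hP4
    have h7 : D.Es x l = D.E x l + D.K * D.δ * D.e x l + D.P x l := by
      unfold Da.Es Shp_98.Es
      ring
    have h8 : D.K * D.δ * D.e x l ≤ D.K * V := by
      have a1 : D.δ * D.e x l ≤ 1 * V :=
        mul_le_mul hδ h5 (hr.e0 l (by linarith)) zero_le_one
      calc D.K * D.δ * D.e x l = D.K * (D.δ * D.e x l) := by ring
        _ ≤ D.K * (1 * V) := mul_le_mul_of_nonneg_left a1 (by linarith)
        _ = D.K * V := by ring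
    have h9 : A * D.e x (l + 1) ≤ A * V := mul_le_mul_of_nonneg_left h4 (by linarith)
    rw [h7]
    linarith
  have hUE : ∀ l, a ≤ l → l ≤ T → D.Us x l ≤ D.Es x l := fun l h1 h2 => hc.UE h1 h2
  have hDV : D₀ ≤ 4 / 3 * ((A + D.K) * V) := by
    have h1 := hUl a le_rfl (by linarith)
    have h2 := hUE a le_rfl (by linarith)
    have h3 := hE1 a le_rfl haT
    linarith
  have hAKV : 0 ≤ (A + D.K) * V := mul_nonneg (by linarith) hV
  have hEup : ∀ l, a ≤ l → l + 1 ≤ T → D.Es x l ≤ 2 * (A + D.K) * V := by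
    intro l h1 h2
    have h3 := hE1 l h1 h2
    linarith
  have hUup : ∀ l, a ≤ l → l + 1 ≤ T → D.Us x l ≤ 2 * (A + D.K) * V := fun l h1 h2 =>
    (hUE l h1 (by linarith)).trans (hEup l h1 h2)
  have hel : ∀ l, a + 1 ≤ l → l ≤ T → D₀ / A ≤ D.es x l := fun l h1 h2 => hc.le_es h1 h2
  refine ⟨hUl, hel, ?_, by linarith, hEup, hUup, ?_, ?_⟩
  · intro l h1 h2
    have h3 := hel l h1 h2
    have h4 : D.es x l = (1 + (2 + m) * D.K * D.δ) * D.e x l + 2 * D.g x l + 2 * D.P x l :=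
      hr.es_eq h2
    rw [h4] at h3
    have h5 := hPl l h2
    have h6 := hr.e0 l h2
    have h7 := hr.g0 l h2
    have h8 : (1 + (2 + m) * D.K * D.δ) * D.e x l ≤ (1 + (2 + m) * D.K) * D.e x l := by
      apply mul_le_mul_of_nonneg_right _ h6
      have : (2 + (m : ℝ)) * D.K * D.δ ≤ (2 + m) * D.K * 1 :=
        mul_le_mul_of_nonneg_left hδ (by positivity)
      linarith
    have h9 : D₀ / A = 4 * (D₀ / (4 * A)) := by
      field_simp
    have h10 : D₀ / (2 * A * (2 + (2 + m) * D.K)) = 2 * (D₀ / (4 * A)) / (2 + (2 + m) * D.K) := by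
      field_simp
      norm_num
    have hpos : 0 < 2 + (2 + (m : ℝ)) * D.K := by positivity
    rw [h10, div_le_iff₀ hpos]
    have h11 : 0 ≤ (2 + (m : ℝ)) * D.K * D.g x l := by
      have : 0 ≤ D.g x l := h7
      positivity
    have h12 : 0 ≤ D.e x l := h6
    have h13 : D.P x l ≤ D₀ / (4 * A) := h5
    nlinarith
  · intro l h1 h2
    have h3 := hEup l h1 h2
    have h4 := hUl l h1 (by linarith)
    have h5 : D.Us x l = D.Es x l - 2 * D.B x l := rfl
    linarith
  · intro l h1 h2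
    have h4 : D.es x l = (1 + (2 + m) * D.K * D.δ) * D.e x l + 2 * D.g x l + 2 * D.P x l :=
      hr.es_eq (by linarith)
    have hU0 : ∀ l, a ≤ l → l ≤ T → 0 ≤ Shp_98.Us D.K D.δ (D.E x) (D.e x) (D.P x) (D.B x) l :=
      fun l h1 h2 => hD₀.le.trans (hUl l h1 h2)
    have h5 : 2 * D.g x l ≤ A * D.Us x (l + 1) :=
      g_up hr hq hK hU0 h1 (by linarith)
    have h6 := hUup (l + 1) (by linarith) (by linarith)
    have h7 := he l h1 (by linarith)
    have h8 := (hPl l (by linarith)).trans hP4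
    have h9 : (1 + (2 + m) * D.K * D.δ) * D.e x l ≤ (1 + (2 + m) * D.K) * V := by
      have a1 : (2 + (m : ℝ)) * D.K * D.δ ≤ (2 + m) * D.K * 1 :=
        mul_le_mul_of_nonneg_left hδ (by positivity)
      exact mul_le_mul (by linarith) h7 (hr.e0 l (by linarith)) (by positivity)
    have h10 : A * D.Us x (l + 1) ≤ A * (2 * (A + D.K) * V) :=
      mul_le_mul_of_nonneg_left h6 (by linarith)
    have h11 : (A + D.K) * V ≤ A * ((A + D.K) * V) := le_mul_of_one_le_left hAKV hA1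
    rw [h4]
    unfold Ce
    nlinarith

/-! ### balls -/

theorem exp_pow_sub (hm : 2 ≤ m) (l : ℝ) :
    Real.exp ((2 - m) * l) * Real.exp l ^ (m - 2) = 1 := by
  rw [← Real.exp_nat_mul, ← Real.exp_add, Nat.cast_sub hm]
  have : (2 - (m : ℝ)) * l + ((m : ℝ) - ((2 : ℕ) : ℝ)) * l = 0 := by push_cast; ring
  rw [this, Real.exp_zero]

/-- the constant of the upper bound of `ε` -/
def Cε (m : ℕ) (K A c₀ : ℝ) : ℝ := (A + K) / (Md m * c₀) * 24 ^ (m - 2)

/-- **upper bound of the contact measure on a ball** -/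
theorem eps_up (ok : D.Ok h₀ c₀ K₀ g2) {V : ℝ} (hp : Pt D V A D₀ a T x)
    {ε : Measure (XB (Euc m) D.τ)} [IsFiniteMeasure ε]
    (hss : ∀ l, a ≤ l → l ≤ T → SS m D.τ D.w ε x (Real.exp l) ≤ D.B x l)
    {s : ℝ} (hs : 0 < s) (hτs : D.τ ≤ s) (h1 : a ≤ Real.log (8 * s) + 1)
    (h2 : Real.log (8 * s) + 2 ≤ T) :
    ε.real (bal D.τ x s) ≤ Cε m D.K A c₀ * V * s ^ (m - 2) := by
  have hm := ok.m2
  have hM : 0 < Md m := Md_pos (by omega)
  have hc := ok.c0
  set l := Real.log (8 * s) with hl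
  have hel : Real.exp l = 8 * s := Real.exp_log (by positivity)
  have h3 := ball_le_SS hm ok.τ0 D.w ε x (s := s) (l := l) (c₀ := c₀) (r := 1 / 4)
    (by norm_num) hc.le (fun u hu hu2 => (ok.wl u hu (hu2.trans (by norm_num))).1)
    (by rw [hel]; linarith)
  have h4 := hss (l + 1) h1 (by linarith)
  have h5 := hp.Bup (l + 1) h1 (by linarith)
  have h6 : Md m * c₀ * Real.exp ((2 - m) * (l + 1)) * ε.real (bal D.τ x s) ≤ (A + D.K) * V :=
    h3.trans (h4.trans h5)
  have h7 := exp_pow_sub hm (l + 1)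
  have h8 : Real.exp (l + 1) ≤ 24 * s := by
    rw [Real.exp_add, hel]
    have := Real.exp_one_lt_d9
    nlinarith
  have h9 : Real.exp (l + 1) ^ (m - 2) ≤ (24 * s) ^ (m - 2) :=
    pow_le_pow_left₀ (Real.exp_pos _).le h8 _
  have h0 : 0 ≤ ε.real (bal D.τ x s) := measureReal_nonneg
  have h10 : Md m * c₀ * ε.real (bal D.τ x s) =
      (Md m * c₀ * Real.exp ((2 - m) * (l + 1)) * ε.real (bal D.τ x s)) *
        Real.exp (l + 1) ^ (m - 2) := by
    symm
    calc _ = Md m * c₀ * ε.real (bal D.τ x s) *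
          (Real.exp ((2 - m) * (l + 1)) * Real.exp (l + 1) ^ (m - 2)) := by ring
      _ = _ := by rw [h7, mul_one]
  have h11 : 0 ≤ (A + D.K) * V := by
    refine le_trans ?_ h6
    positivity
  have h12 : Md m * c₀ * ε.real (bal D.τ x s) ≤ (A + D.K) * V * (24 * s) ^ (m - 2) := by
    rw [h10]
    exact mul_le_mul h6 h9 (by positivity) h11
  have h13 : Cε m D.K A c₀ * V * s ^ (m - 2) =
      (A + D.K) * V * (24 * s) ^ (m - 2) / (Md m * c₀) := by
    unfold Cε
    rw [mul_pow]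
    field_simp
  rw [h13, le_div_iff₀ (by positivity)]
  linarith

/-- the constant of the lower bound of `μ` -/
def cμ (m : ℕ) (K A K₀ : ℝ) : ℝ := 1 / (2 * A * (2 + (2 + m) * K) * (Md m * K₀) * 2 ^ (m - 2))

/-- **lower bound of `μ` on a ball** -/
theorem mu_low (ok : D.Ok h₀ c₀ K₀ g2) {V : ℝ} (hp : Pt D V A D₀ a T x) (hA : 0 < A)
    (hD₀ : 0 < D₀) {s : ℝ} (hs : 0 < s) (hτs : D.τ ≤ s / 2) (h1 : a + 1 ≤ Real.log (s / 2))
    (h2 : Real.log (s / 2) ≤ T) :
    cμ m D.K A K₀ * D₀ * s ^ (m - 2) ≤ (muB D.W D.π D.γ).real (closedBall x s) := by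
  have hm := ok.m2
  have hM : 0 < Md m := Md_pos (by omega)
  have hK₀ : 0 < K₀ := ok.c0.trans_le ok.K₀0
  have hK := ok.K2
  have f2 := ok.fγ
  set l := Real.log (s / 2) with hl
  have hel : Real.exp l = s / 2 := Real.exp_log (by positivity)
  have h3 := muB_low ok.ff ok.τ0 (w := D.w) D.γ x (s := s) (l := l) (Kθ := K₀)
    (fun u hu => (ok.wu u hu).1) (by rw [hel]; linarith)
  have h4 := hp.eglow l h1 h2
  have h5 : D₀ / (2 * A * (2 + (2 + m) * D.K)) ≤
      Md m * K₀ * Real.exp ((2 - m) * l) * (muB D.W D.π D.γ).real (closedBall x s) :=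
    h4.trans h3
  have h7 := exp_pow_sub hm l
  have h8 := mul_le_mul_of_nonneg_right h5 (by positivity : 0 ≤ Real.exp l ^ (m - 2))
  have h9 : Md m * K₀ * Real.exp ((2 - m) * l) * (muB D.W D.π D.γ).real (closedBall x s) *
      Real.exp l ^ (m - 2) = Md m * K₀ * (muB D.W D.π D.γ).real (closedBall x s) := by
    calc _ = Md m * K₀ * (muB D.W D.π D.γ).real (closedBall x s) *
        (Real.exp ((2 - m) * l) * Real.exp l ^ (m - 2)) := by ring
      _ = _ := by rw [h7, mul_one]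
  rw [h9, hel] at h8
  have hpos : 0 < 2 + (2 + (m : ℝ)) * D.K := by positivity
  have h10 : cμ m D.K A K₀ * D₀ * s ^ (m - 2) =
      D₀ / (2 * A * (2 + (2 + m) * D.K)) * (s / 2) ^ (m - 2) / (Md m * K₀) := by
    unfold cμ
    rw [div_pow]
    field_simp
  rw [h10, div_le_iff₀ (by positivity)]
  linarith

end Crest.Agent.R234.Bds_214
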