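import Mathlib

/-!
Row 234, core (helper534): Vitali content package, (3) and (5)(a) of 504 #5124.
`content`   : Vitali: disjoint balls, 5r-covering, sum of r^d against a finite measure.
`proj_le`   : Lebesgue measure of the image of the centres under a 1-Lipschitz map into a d-dimensional space.
`compare`   : comparison of two measures at points where one ball of one is dominated by one ball of the other.
-/

set_option autoImplicit false

open Set Filter Topology MeasureTheory Metric Module Function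
open scoped ENNReal NNReal

namespace Crest.Agent.R234.Vit_534

section content

variable {X : Type*} [PseudoMetricSpace X] [MeasurableSpace X] [OpensMeasurableSpace X]

omit [MeasurableSpace X] [OpensMeasurableSpace X] in
/-- (V0) Vitali selection: disjoint balls whose 5-fold enlargements cover the centres. -/
theorem select (A : Set X) (ρ : X → ℝ) (s : ℝ) (hρ : ∀ x ∈ A, ρ x ≤ s) (hρ0 : ∀ x ∈ A, 0 ≤ ρ x) :
    ∃ u ⊆ A, u.PairwiseDisjoint (fun x => closedBall x (ρ x)) ∧
      A ⊆ ⋃ x ∈ u, closedBall x (5 * ρ x) := by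
  obtain ⟨u, hu, hd, hc⟩ := Vitali.exists_disjoint_subfamily_covering_enlargement_closedBall
    A (fun x => x) ρ s hρ 5 (by norm_num)
  refine ⟨u, hu, hd, fun x hx => ?_⟩
  obtain ⟨b, hb, hsub⟩ := hc x hx
  simp only [mem_iUnion]
  exact ⟨b, hb, hsub (mem_closedBall_self (hρ0 x hx))⟩

/-- sum of the measures of disjoint balls -/
theorem tsum_le (f : Measure X) (u : Set X) (ρ : X → ℝ)
    (hd : u.PairwiseDisjoint (fun x => closedBall x (ρ x))) (B : Set X)
    (hB : ∀ x ∈ u, closedBall x (ρ x) ⊆ B) :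
    ∑' x : u, f (closedBall (x : X) (ρ x)) ≤ f B := by
  refine (tsum_meas_le_meas_iUnion_of_disjoint f (fun x : u => measurableSet_closedBall) ?_).trans
    (measure_mono (iUnion_subset fun x => hB x x.2))
  intro x y hxy
  exact hd x.2 y.2 (fun h => hxy (Subtype.ext h))

/-- (V1) content estimate -/
theorem content (f : Measure X) (A B : Set X) (ρ : X → ℝ) (s : ℝ) (hρ : ∀ x ∈ A, ρ x ≤ s)
    (hρ0 : ∀ x ∈ A, 0 ≤ ρ x) (φ : X → ℝ≥0∞) (h : ∀ x ∈ A, φ x ≤ f (closedBall x (ρ x)))
    (hB : ∀ x ∈ A, closedBall x (ρ x) ⊆ B) :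
    ∃ u ⊆ A, u.PairwiseDisjoint (fun x => closedBall x (ρ x)) ∧
      (A ⊆ ⋃ x ∈ u, closedBall x (5 * ρ x)) ∧ ∑' x : u, φ x ≤ f B := by
  obtain ⟨u, hu, hd, hc⟩ := select A ρ s hρ hρ0
  refine ⟨u, hu, hd, hc, ?_⟩
  exact (ENNReal.tsum_le_tsum fun x : u => h x (hu x.2)).trans
    (tsum_le f u ρ hd B fun x hx => hB x (hu hx))

/-- a disjoint family of balls charged by a finite measure is countable -/
theorem countable_of (f : Measure X) (u B : Set X) (ρ : X → ℝ)
    (hd : u.PairwiseDisjoint (fun x => closedBall x (ρ x)))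
    (hB : ∀ x ∈ u, closedBall x (ρ x) ⊆ B) (hfin : f B ≠ ∞)
    (hpos : ∀ x ∈ u, f (closedBall x (ρ x)) ≠ 0) : u.Countable := by
  have h1 : ∑' x : u, f (closedBall (x : X) (ρ x)) ≠ ∞ :=
    ne_top_of_le_ne_top hfin (tsum_le f u ρ hd B hB)
  have h2 := Summable.countable_support_ennreal h1
  have h3 : support (fun x : u => f (closedBall (x : X) (ρ x))) = univ := by
    ext x
    simp only [mem_support, mem_univ, iff_true]
    exact hpos x x.2
  rw [h3, countable_univ_iff] at h2
  exact countable_coe_iff.1 h2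

/-- (V3) comparison: if every point of `A` has a ball with `g (ball r) ≥ κ e (ball 5r)` then `κ e A ≤ g B`. -/
theorem compare (e g : Measure X) (A B : Set X) (ρ : X → ℝ) (s : ℝ) (hρ : ∀ x ∈ A, ρ x ≤ s)
    (hρ0 : ∀ x ∈ A, 0 ≤ ρ x) (κ : ℝ≥0∞)
    (h : ∀ x ∈ A, κ * e (closedBall x (5 * ρ x)) ≤ g (closedBall x (ρ x)))
    (hg : ∀ x ∈ A, g (closedBall x (ρ x)) ≠ 0)
    (hB : ∀ x ∈ A, closedBall x (ρ x) ⊆ B) (hfin : g B ≠ ∞) : κ * e A ≤ g B := by
  obtain ⟨u, hu, hd, hc⟩ := select A ρ s hρ hρ0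
  have hcount : u.Countable := countable_of g u B ρ hd (fun x hx => hB x (hu hx)) hfin
    (fun x hx => hg x (hu hx))
  have : Countable u := hcount.to_subtype
  calc κ * e A ≤ κ * e (⋃ x ∈ u, closedBall x (5 * ρ x)) := by gcongr
    _ ≤ κ * ∑' x : u, e (closedBall (x : X) (5 * ρ x)) := by
        gcongr
        exact measure_biUnion_le e hcount _
    _ = ∑' x : u, κ * e (closedBall (x : X) (5 * ρ x)) := ENNReal.tsum_mul_left.symm
    _ ≤ ∑' x : u, g (closedBall (x : X) (ρ x)) := ENNReal.tsum_le_tsum fun x => h x (hu x.2)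
    _ ≤ g B := tsum_le g u ρ hd B fun x hx => hB x (hu hx)

/-- (V3) without positivity, in a second countable space. -/
theorem compare' [SecondCountableTopology X] (e g : Measure X) (A B : Set X) (ρ : X → ℝ) (s : ℝ)
    (hρ : ∀ x ∈ A, ρ x ≤ s) (hρ0 : ∀ x ∈ A, 0 < ρ x) (κ : ℝ≥0∞)
    (h : ∀ x ∈ A, κ * e (closedBall x (5 * ρ x)) ≤ g (closedBall x (ρ x)))
    (hB : ∀ x ∈ A, closedBall x (ρ x) ⊆ B) : κ * e A ≤ g B := by
  rcases eq_or_ne (g B) ∞ with hfin | hfin
  · rw [hfin]; exact le_top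
  rcases eq_or_ne κ 0 with rfl | hκ
  · simp
  set A0 : Set X := {x ∈ A | g (closedBall x (ρ x)) = 0} with hA0
  set A1 : Set X := {x ∈ A | g (closedBall x (ρ x)) ≠ 0} with hA1
  have hsplit : A ⊆ A1 ∪ A0 := by
    intro x hx
    by_cases hx0 : g (closedBall x (ρ x)) = 0
    · exact Or.inr ⟨hx, hx0⟩
    · exact Or.inl ⟨hx, hx0⟩
  have h0 : e A0 = 0 := by
    refine measure_null_of_locally_null A0 fun x hx => ?_
    refine ⟨ball x (5 * ρ x), mem_nhdsWithin_of_mem_nhds (ball_mem_nhds x ?_), ?_⟩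
    · have := hρ0 x hx.1; positivity
    · have h1 := h x hx.1
      rw [hx.2] at h1
      have h2 : κ * e (closedBall x (5 * ρ x)) = 0 := le_antisymm h1 (zero_le)
      have h3 : e (closedBall x (5 * ρ x)) = 0 := by
        rcases mul_eq_zero.1 h2 with h | h
        · exact absurd h hκ
        · exact h
      exact measure_mono_null ball_subset_closedBall h3
  have h1 : κ * e A1 ≤ g B := compare e g A1 B ρ s (fun x hx => hρ x hx.1)
    (fun x hx => (hρ0 x hx.1).le) κ (fun x hx => h x hx.1) (fun x hx => hx.2)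
    (fun x hx => hB x hx.1) hfin
  calc κ * e A ≤ κ * (e A1 + e A0) := by
        gcongr
        exact (measure_mono hsplit).trans (measure_union_le _ _)
    _ = κ * e A1 := by rw [h0, add_zero]
    _ ≤ g B := h1

variable {L : Type*} [NormedAddCommGroup L] [NormedSpace ℝ L] [FiniteDimensional ℝ L]
  [MeasurableSpace L] [BorelSpace L]

/-- (V2) Lebesgue measure of a Lipschitz image of the set of centres. -/
theorem proj_le (ν : Measure L) [ν.IsAddHaarMeasure] (f : Measure X) (A B : Set X) (ρ : X → ℝ) (s : ℝ)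
    (hρ : ∀ x ∈ A, ρ x ≤ s) (hρ0 : ∀ x ∈ A, 0 < ρ x) (lam : ℝ≥0∞)
    (h : ∀ x ∈ A, lam * ENNReal.ofReal (ρ x ^ finrank ℝ L) ≤ f (closedBall x (ρ x)))
    (hB : ∀ x ∈ A, closedBall x (ρ x) ⊆ B) (K : ℝ≥0) (π : X → L) (hπ : LipschitzWith K π) :
    lam * ν (π '' A) ≤ ENNReal.ofReal ((5 * K) ^ finrank ℝ L) * ν (ball 0 1) * f B := by
  rcases eq_or_ne lam 0 with rfl | hlam
  · simp
  set d := finrank ℝ L with hd'
  rcases eq_or_ne (f B) ∞ with hfin | hfin
  · rcases eq_or_ne K 0 with hK | hK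
    · -- constant map
      rcases eq_or_ne d 0 with hd0 | hd0
      · rw [hfin, ENNReal.mul_top]
        · exact le_top
        · refine mul_ne_zero ?_ (measure_ball_pos ν 0 one_pos).ne'
          rw [hd0]; simp
      · have hc : (π '' A).Subsingleton := by
          rintro _ ⟨x, -, rfl⟩ _ ⟨y, -, rfl⟩
          have := hπ x y
          rw [hK] at this
          simpa using this
        have : Nontrivial L := Module.nontrivial_of_finrank_pos (R := ℝ) (Nat.pos_of_ne_zero hd0)
        have hz : ν (π '' A) = 0 := hc.measure_zero ν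
        rw [hz]; simp
    · rw [hfin, ENNReal.mul_top]
      · exact le_top
      · refine mul_ne_zero ?_ (measure_ball_pos ν 0 one_pos).ne'
        have : (0:ℝ) < K := by positivity
        simp only [ne_eq, ENNReal.ofReal_eq_zero, not_le]
        positivity
  obtain ⟨u, hu, hd, hc⟩ := select A ρ s hρ (fun x hx => (hρ0 x hx).le)
  have hcount : u.Countable := countable_of f u B ρ hd (fun x hx => hB x (hu hx)) hfin (by
    intro x hx h0
    have h1 := h x (hu hx)
    rw [h0] at h1
    have h2 : lam * ENNReal.ofReal (ρ x ^ d) = 0 := le_antisymm h1 (zero_le)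
    rcases mul_eq_zero.1 h2 with h | h
    · exact hlam h
    · have := hρ0 x (hu hx)
      rw [ENNReal.ofReal_eq_zero] at h
      have : 0 < ρ x ^ d := by positivity
      linarith)
  have : Countable u := hcount.to_subtype
  have hb : ∀ x : u, lam * ν (π '' closedBall (x : X) (5 * ρ x)) ≤
      ENNReal.ofReal ((5 * K) ^ d) * ν (ball 0 1) * f (closedBall (x : X) (ρ x)) := by
    intro x
    have hx0 := (hρ0 x (hu x.2)).le
    have h1 : π '' closedBall (x : X) (5 * ρ x) ⊆ closedBall (π x) (K * (5 * ρ x)) := by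
      rintro _ ⟨y, hy, rfl⟩
      exact (hπ.dist_le_mul y x).trans (by gcongr; exact hy)
    calc lam * ν (π '' closedBall (x : X) (5 * ρ x))
        ≤ lam * ν (closedBall (π x) (K * (5 * ρ x))) := by gcongr
      _ = lam * (ENNReal.ofReal ((K * (5 * ρ x)) ^ d) * ν (ball 0 1)) := by
          rw [Measure.addHaar_closedBall ν _ (by positivity)]
      _ = ENNReal.ofReal ((5 * K) ^ d) * ν (ball 0 1) * (lam * ENNReal.ofReal (ρ x ^ d)) := by
          have : (K * (5 * ρ x)) ^ d = (5 * K) ^ d * ρ x ^ d := by rw [← mul_pow]; ring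
          rw [this, ENNReal.ofReal_mul (by positivity)]
          ring
      _ ≤ _ := by gcongr; exact h x (hu x.2)
  calc lam * ν (π '' A) ≤ lam * ν (⋃ x ∈ u, π '' closedBall x (5 * ρ x)) := by
        gcongr
        rw [← image_iUnion₂]
        exact image_mono hc
    _ ≤ lam * ∑' x : u, ν (π '' closedBall (x : X) (5 * ρ x)) := by
        gcongr
        exact measure_biUnion_le ν hcount _
    _ = ∑' x : u, lam * ν (π '' closedBall (x : X) (5 * ρ x)) := ENNReal.tsum_mul_left.symm
    _ ≤ ∑' x : u, ENNReal.ofReal ((5 * K) ^ d) * ν (ball 0 1) * f (closedBall (x : X) (ρ x)) :=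
        ENNReal.tsum_le_tsum hb
    _ = ENNReal.ofReal ((5 * K) ^ d) * ν (ball 0 1) * ∑' x : u, f (closedBall (x : X) (ρ x)) :=
        ENNReal.tsum_mul_left
    _ ≤ _ := by gcongr; exact tsum_le f u ρ hd B fun x hx => hB x (hu hx)

end content



end Crest.Agent.R234.Vit_534
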