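import Crest.Agent.R234.Crs3_173

-- ▼ part R234/Crs4_173
section

/-!
# Row 234, N0-COARSE, part 4 (helper173): `N` is close to an integer on the whole ball

`int_at`    : strong constancy at one point.
`one_integer` : the integer does not depend on the point.
`cover_int` : from small balls to the whole ball.
-/

set_option autoImplicit false

open MeasureTheory Set Function Filter Topology Metric
open Crest.GeometryTopology.Submanifold
open Crest.Agent.R234.Vf_884 Crest.Agent.R234.Ar_870 Crest.Agent.R234.Cy_870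
open Crest.Agent.R234.AS_456 (AS errA err hp vp)
open Crest.Agent.R234.Asl_214 Crest.Agent.R234.Th_164
open scoped ENNReal NNReal ContDiff InnerProductSpace

noncomputable section

namespace Crest.Agent.R234.Crs_173

/-- bound of the energy with height correction -/
theorem we_le {m n k : ℕ} {π : Euc k →L[ℝ] Euc m} {κ : Euc k →L[ℝ] Euc n}
    {W : Measure (Euc k × L k)} {x₀ : Euc m} {R h₀ δ c M₁ : ℝ} (h : CylAS W π κ x₀ R h₀ δ)
    (h0 : 0 ≤ δ) (hc1 : c ≤ 1) (hM : W.real univ ≤ M₁) (hδ : δ ≤ c)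
    (hh : h₀ ^ 2 ≤ c) (hE : ∫ p, tl π p.2 ∂W ≤ c) {S : Set (Euc m)} (hS : MeasurableSet S) :
    wM W π (we π δ fun z => ‖vp π z‖ ^ 2) S ≤ ENNReal.ofReal (c * (1 + M₁)) := by
  have : IsFiniteMeasure W := ⟨h.fin⟩
  have hc0 : 0 ≤ c := h0.trans hδ
  have hM0 : 0 ≤ M₁ := measureReal_nonneg.trans hM
  have hwe0 : ∀ᵐ p ∂W, 0 ≤ we π δ (fun z => ‖vp π z‖ ^ 2) p := by
    filter_upwards [h.tl_nonneg'] with p hp
    exact add_nonneg hp (mul_nonneg h0 (by positivity))
  have c1 := CylAS.continuous_tl (k := k) π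
  have c2 : Continuous fun p : Euc k × L k => δ * ‖vp π p.1‖ ^ 2 :=
    continuous_const.mul (((vp π).continuous.comp continuous_fst).norm.pow 2)
  have i1 : Integrable (fun p : Euc k × L k => tl π p.2) W := h.integrable_continuous c1
  have i2 : Integrable (fun p : Euc k × L k => δ * ‖vp π p.1‖ ^ 2) W := h.integrable_continuous c2
  have hwei : Integrable (we π δ fun z => ‖vp π z‖ ^ 2) W := i1.add i2
  refine wM_le hwe0 hwei hS ?_
  have e1 : ∫ p in (fun p => π p.1) ⁻¹' S, we π δ (fun z => ‖vp π z‖ ^ 2) p ∂W ≤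
      ∫ p, we π δ (fun z => ‖vp π z‖ ^ 2) p ∂W := setIntegral_le_integral hwei hwe0
  have e2 : ∫ p, we π δ (fun z => ‖vp π z‖ ^ 2) p ∂W =
      (∫ p, tl π p.2 ∂W) + ∫ p, δ * ‖vp π p.1‖ ^ 2 ∂W := integral_add i1 i2
  have e3 : ∫ p, δ * ‖vp π p.1‖ ^ 2 ∂W ≤ c * M₁ := by
    calc ∫ p, δ * ‖vp π p.1‖ ^ 2 ∂W ≤ ∫ _p, c ∂W := by
          refine integral_mono_ae i2 (integrable_const _) ?_
          filter_upwards [h.hgt] with p hp
          rw [norm_vp_eq h.sp]
          have h1 : ‖κ p.1‖ ^ 2 ≤ c := (pow_le_pow_left₀ (norm_nonneg _) hp 2).trans hh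
          calc δ * ‖κ p.1‖ ^ 2 ≤ c * c := by gcongr
            _ ≤ c * 1 := by gcongr
            _ = c := mul_one c
      _ = c * W.real univ := by rw [integral_const, smul_eq_mul, mul_comm]
      _ ≤ c * M₁ := by gcongr
  calc _ ≤ _ := e1
    _ ≤ c + c * M₁ := by rw [e2]; exact add_le_add hE e3
    _ = c * (1 + M₁) := by ring

/-- strong constancy at one point -/
theorem int_at (m : ℕ) {M₁ : ℝ} (hM₁ : 0 ≤ M₁) {η : ℝ} (hη : 0 < η) :
    ∃ c : ℝ, 0 < c ∧ c ≤ 1 ∧ ∀ {n k : ℕ} {π : Euc k →L[ℝ] Euc m} {κ : Euc k →L[ℝ] Euc n}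
      {W : Measure (Euc k × L k)} {N : Euc m → ℝ≥0∞} {x₀ : Euc m} {R h₀ δ : ℝ},
      CylAS W π κ x₀ R h₀ δ → Area W π (ball x₀ R) N → 0 ≤ δ → W.real univ ≤ M₁ →
      δ ≤ c → h₀ ^ 2 ≤ c → ∫ p, tl π p.2 ∂W ≤ c →
      ∀ (x : Euc m) (r : ℝ), 0 < r → r ≤ 1 → ball x (4 * r) ⊆ ball x₀ R →
        ∃ j : ℕ, ∫ y in ball x r, |(N y).toReal - j| ≤ η := by
  set C : ℝ := Sc173.Csc m with hC
  set M : ℝ := M₁ + 1 with hM
  have hM0 : 0 < M := by linarith
  have hm0 : (0 : ℝ) ≤ m := Nat.cast_nonneg m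
  set A : ℝ := (m + 2) * (1 + M₁) with hA
  have hA0 : 0 < A := by positivity
  set c : ℝ := min 1 (min (1 / A) ((η / (4 * (|C| + 1))) ^ 2 / (M * A))) with hc
  have hc0 : 0 < c := lt_min one_pos (lt_min (by positivity) (by positivity))
  have hc1 : c ≤ 1 := min_le_left _ _
  have hc2 : c ≤ 1 / A := (min_le_right _ _).trans (min_le_left _ _)
  have hc3 : c ≤ (η / (4 * (|C| + 1))) ^ 2 / (M * A) := (min_le_right _ _).trans (min_le_right _ _)
  refine ⟨c, hc0, hc1, ?_⟩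
  intro n k π κ W N x₀ R h₀ δ h hN h0 hW hδ hh hE x r hr hr1 hsub
  have hfin : IsFiniteMeasure W := ⟨h.fin⟩
  have hS := setup_of_cylAS h h0 (hδ.trans hc1) hN
  have H := hyp_of_setup hS (σ := 0) le_rfl
  have hμ : muM W π (ball x (4 * r)) ≤ ENNReal.ofReal M₁ := by
    rw [muM_apply W measurableSet_ball]
    refine (measure_mono (subset_univ _)).trans ?_
    rw [← ENNReal.ofReal_toReal (measure_ne_top W _)]
    exact ENNReal.ofReal_le_ofReal hW
  obtain ⟨j, hj⟩ := exists_integer (sc2 m) (C₁ := m + 2) (by positivity) H (x := x) (r := r)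
    (M := M) (δ := A * c) hr (by positivity)
    (by
      calc A * c ≤ A * (1 / A) := by gcongr
        _ = 1 := by field_simp
        _ ≤ M := by linarith)
    hsub
    (by
      have h1 := (H.le_mass _ measurableSet_ball hsub).trans hμ
      exact ((ENNReal.ofReal_le_ofReal_iff hM₁).1 h1).trans (by linarith))
    (by
      have h1 := we_le h h0 hc1 hW hδ hh hE (S := ball x (4 * r)) measurableSet_ball
      calc _ ≤ ENNReal.ofReal (m + 2) * ENNReal.ofReal (c * (1 + M₁)) := by gcongr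
        _ = ENNReal.ofReal (A * c) := by
            rw [← ENNReal.ofReal_mul (by positivity)]
            congr 1
            rw [hA]; ring)
    (by
      calc _ ≤ ENNReal.ofReal (δ * (m + h₀ ^ 2)) * muM W π (ball x (4 * r)) :=
            H.low _ measurableSet_ball hsub
        _ ≤ ENNReal.ofReal (δ * (m + h₀ ^ 2)) * ENNReal.ofReal M₁ := by gcongr
        _ = ENNReal.ofReal (δ * (m + h₀ ^ 2) * M₁) := (ENNReal.ofReal_mul (by positivity)).symm
        _ ≤ ENNReal.ofReal (A * c / r) := by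
            refine ENNReal.ofReal_le_ofReal ?_
            rw [le_div_iff₀ hr]
            have h1 : h₀ ^ 2 ≤ 2 := by linarith
            calc δ * (m + h₀ ^ 2) * M₁ * r ≤ c * (m + 2) * (1 + M₁) * 1 := by
                  gcongr
                  linarith
              _ = A * c := by rw [hA]; ring)
  refine ⟨j, hj.trans ?_⟩
  have h1 : Real.sqrt (M * (A * c)) ≤ η / (4 * (|C| + 1)) := by
    rw [Real.sqrt_le_left (by positivity)]
    calc M * (A * c) ≤ M * (A * ((η / (4 * (|C| + 1))) ^ 2 / (M * A))) := by gcongr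
      _ = _ := by field_simp
  calc 4 * (C * Real.sqrt (M * (A * c))) ≤ 4 * (|C| * (η / (4 * (|C| + 1)))) := by
        gcongr
        exact le_abs_self C
    _ = η * (|C| / (|C| + 1)) := by field_simp
    _ ≤ η * 1 := by
        gcongr
        rw [div_le_one (by positivity)]
        linarith
    _ = η := mul_one η

/-- the integer does not depend on the point -/
theorem one_integer {d : ℕ} {f : Eu d → ℝ} {U : Set (Eu d)} (hf : IntegrableOn f U) {ρ r η : ℝ}
    (hr : 0 < r) (hU : ∀ x ∈ closedBall (0 : Eu d) ρ, ball x r ⊆ U)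
    (hη : 2 * η < om d * (r / 2) ^ d)
    (h : ∀ x ∈ closedBall (0 : Eu d) ρ, ∃ j : ℕ, ∫ y in ball x r, |f y - j| ≤ η) :
    ∃ j : ℕ, ∀ x ∈ closedBall (0 : Eu d) ρ, ∫ y in ball x r, |f y - j| ≤ η := by
  choose! j hj using h
  have key : ∀ x ∈ closedBall (0 : Eu d) ρ, ∀ y ∈ closedBall (0 : Eu d) ρ, dist x y ≤ r / 2 →
      j x = j y := by
    intro x hx y hy hxy
    have hsx : ball x (r / 2) ⊆ ball x r := ball_subset_ball (by linarith)
    have hsy : ball x (r / 2) ⊆ ball y r := ball_subset_ball' (by linarith)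
    have hi := hf.mono_set (hU x hx)
    have hi' := hf.mono_set (hU y hy)
    have hint : ∀ (z : Eu d) (a : ℕ), z ∈ closedBall (0 : Eu d) ρ →
        IntegrableOn (fun w => |f w - (a : ℝ)|) (ball z r) := by
      intro z a hz
      have h1 : IntegrableOn (fun _ : Eu d => (a : ℝ)) (ball z r) :=
        integrableOn_const measure_ball_lt_top.ne
      exact ((hf.mono_set (hU z hz)).sub h1).abs
    refine eq_of_close (ν := volume) (B := ball x (r / 2)) (hi.mono_set hsx)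
      measure_ball_lt_top.ne ?_
    have h1 : ∫ w in ball x (r / 2), |f w - (j x : ℝ)| ≤ η :=
      (setIntegral_mono_set (hint x _ hx) (Eventually.of_forall fun _ => abs_nonneg _)
        hsx.eventuallyLE).trans (hj x hx)
    have h2 : ∫ w in ball x (r / 2), |f w - (j y : ℝ)| ≤ η :=
      (setIntegral_mono_set (hint y _ hy) (Eventually.of_forall fun _ => abs_nonneg _)
        hsy.eventuallyLE).trans (hj y hy)
    rw [vol_ball x (by positivity)]
    linarith
  refine ⟨j 0, fun x hx => ?_⟩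
  suffices hs : j x = j 0 by
    rw [← hs]; exact hj x hx
  obtain ⟨a, ha⟩ := exists_nat_gt (‖x‖ / (r / 2))
  have ha0 : (0 : ℝ) < a := lt_of_le_of_lt (by positivity) ha
  have hx' : ‖x‖ ≤ ρ := by rwa [mem_closedBall_zero_iff] at hx
  have hmem : ∀ i : ℕ, i ≤ a → ((i : ℝ) / a) • x ∈ closedBall (0 : Eu d) ρ := by
    intro i hi
    rw [mem_closedBall_zero_iff, norm_smul, Real.norm_eq_abs, abs_of_nonneg (by positivity)]
    have h1 : (i : ℝ) / a ≤ 1 := by
      rw [div_le_one ha0]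
      exact_mod_cast hi
    calc (i : ℝ) / a * ‖x‖ ≤ 1 * ρ := by gcongr
      _ = ρ := one_mul ρ
  have hind : ∀ i : ℕ, i ≤ a → j (((i : ℝ) / a) • x) = j 0 := by
    intro i
    induction i with
    | zero => intro _; simp
    | succ i ih =>
      intro hi
      rw [← ih (by omega)]
      refine key _ (hmem _ hi) _ (hmem _ (by omega)) ?_
      rw [dist_eq_norm, ← sub_smul, norm_smul]
      have h1 : ((i + 1 : ℕ) : ℝ) / a - (i : ℝ) / a = 1 / a := by
        push_cast; ring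
      rw [h1, Real.norm_eq_abs, abs_of_nonneg (by positivity)]
      have h2 : ‖x‖ < a * (r / 2) := (div_lt_iff₀ (by positivity)).1 ha
      rw [div_mul_eq_mul_div, one_mul, div_le_iff₀ ha0]
      linarith
  have := hind a le_rfl
  rwa [div_self ha0.ne', one_smul] at this

/-- from small balls to the whole ball -/
theorem cover_int (d : ℕ) {ρ r : ℝ} (hr : 0 < r) : ∃ K : ℕ, ∀ {f : Eu d → ℝ}
    {U : Set (Eu d)} (_ : IntegrableOn f U) (_ : ∀ x, 0 ≤ f x)
    (_ : ∀ x ∈ closedBall (0 : Eu d) ρ, ball x r ⊆ U) {η : ℝ}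
    (_ : ∀ x ∈ closedBall (0 : Eu d) ρ, ∫ y in ball x r, f y ≤ η),
    ∫ y in closedBall (0 : Eu d) ρ, f y ≤ K * η := by
  classical
  obtain ⟨t, ht, htf, hcov⟩ := (isCompact_closedBall (0 : Eu d) ρ).finite_cover_balls hr
  refine ⟨htf.toFinset.card, ?_⟩
  intro f U hf hf0 hU η h
  have hi : ∀ x ∈ htf.toFinset, Integrable ((ball x r).indicator f) := by
    intro x hx
    exact (integrable_indicator_iff measurableSet_ball).2
      (hf.mono_set (hU x (ht (htf.mem_toFinset.1 hx))))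
  have hc : IntegrableOn f (closedBall (0 : Eu d) ρ) := by
    refine hf.mono_set (hcov.trans ?_)
    exact iUnion₂_subset fun x hx => hU x (ht hx)
  calc ∫ y in closedBall (0 : Eu d) ρ, f y
      = ∫ y, (closedBall (0 : Eu d) ρ).indicator f y :=
        (integral_indicator measurableSet_closedBall).symm
    _ ≤ ∫ y, ∑ x ∈ htf.toFinset, (ball x r).indicator f y := by
        refine integral_mono ((integrable_indicator_iff measurableSet_closedBall).2 hc)
          (integrable_finsetSum _ hi) fun y => ?_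
        change (closedBall (0 : Eu d) ρ).indicator f y ≤ ∑ x ∈ htf.toFinset, (ball x r).indicator f y
        have hnn : ∀ x ∈ htf.toFinset, 0 ≤ (ball x r).indicator f y := fun x _ =>
          Set.indicator_nonneg (fun z _ => hf0 z) y
        by_cases hy : y ∈ closedBall (0 : Eu d) ρ
        · obtain ⟨x, hx, hxy⟩ := mem_iUnion₂.1 (hcov hy)
          rw [Set.indicator_of_mem hy]
          calc f y = (ball x r).indicator f y := (Set.indicator_of_mem hxy f).symm
            _ ≤ _ := Finset.single_le_sum hnn (htf.mem_toFinset.2 hx)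
        · rw [Set.indicator_of_notMem hy]
          exact Finset.sum_nonneg hnn
    _ = ∑ x ∈ htf.toFinset, ∫ y, (ball x r).indicator f y := integral_finsetSum _ hi
    _ ≤ ∑ _x ∈ htf.toFinset, η := by
        refine Finset.sum_le_sum fun x hx => ?_
        rw [integral_indicator measurableSet_ball]
        exact h x (ht (htf.mem_toFinset.1 hx))
    _ = _ := by rw [Finset.sum_const, nsmul_eq_mul]

end Crest.Agent.R234.Crs_173
end
end

-- ▼ part R234/Crs5_173
section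

/-!
# Row 234, N0-COARSE, part 5 (helper173): `N` is close to `Q` at the top scale

`top` : (b) of 309 #7283:  `∫_{B_{7/2}} |N - Q| ≤ ε`  if `h₀², δ, ∫ tl ≤ c(m, Q, C₀, ε)`.
-/

set_option autoImplicit false

open MeasureTheory Set Function Filter Topology Metric
open Crest.GeometryTopology.Submanifold
open Crest.Agent.R234.Vf_884 Crest.Agent.R234.Ar_870 Crest.Agent.R234.Cy_870
open Crest.Agent.R234.AS_456 (AS errA err hp vp)
open Crest.Agent.R234.Asl_214 Crest.Agent.R234.Th_164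
open scoped ENNReal NNReal ContDiff InnerProductSpace

noncomputable section

namespace Crest.Agent.R234.Crs_173

/-- two naturals, real arithmetic -/
theorem nat_eq_of_close {j Q : ℕ} {a b θ : ℝ} (ha : 0 < a) (hb : b ≤ a) (hb' : (1 - θ) * a ≤ b)
    (hθ : θ * (Q + 1) ≤ 1 / 4) (h0 : 0 ≤ θ) (h : |(j : ℝ) * b - Q * a| ≤ 11 / 32 * a) : j = Q := by
  have hQ : (0 : ℝ) ≤ Q := Nat.cast_nonneg Q
  obtain ⟨h1, h2⟩ := abs_le.1 h
  have hθ1 : θ ≤ 1 / 4 := by nlinarith
  have hb0 : 0 ≤ b := le_trans (by nlinarith) hb'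
  rcases lt_trichotomy j Q with hlt | heq | hgt
  · exfalso
    have h3 : (j : ℝ) + 1 ≤ Q := by exact_mod_cast hlt
    have h4 : (j : ℝ) * b ≤ (Q - 1) * a := by
      have : (0 : ℝ) ≤ j := Nat.cast_nonneg j
      calc (j : ℝ) * b ≤ j * a := by gcongr
        _ ≤ (Q - 1) * a := by gcongr; linarith
    linarith
  · exact heq
  · exfalso
    have h3 : (Q : ℝ) + 1 ≤ j := by exact_mod_cast hgt
    have h4 : (Q + 1) * ((1 - θ) * a) ≤ (j : ℝ) * b := by
      calc (Q + 1) * ((1 - θ) * a) ≤ (Q + 1) * b := by gcongr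
        _ ≤ j * b := by gcongr
    have h5 : θ * (Q + 1) * a ≤ 1 / 4 * a := by gcongr
    nlinarith

/-- **N0-COARSE (b)**: `N` is close to `Q` in `L¹(B_{7/2})`. -/
theorem top (m Q : ℕ) {C₀ : ℝ} (hC₀ : 0 ≤ C₀) {ε : ℝ} (hε : 0 < ε) :
    ∃ c : ℝ, 0 < c ∧ c ≤ 1 / 16 ∧ ∀ {n k : ℕ} {π : Euc k →L[ℝ] Euc m} {κ : Euc k →L[ℝ] Euc n}
      {W : Measure (Euc k × L k)} {N : Euc m → ℝ≥0∞} {h₀ δ : ℝ}, In W π κ N Q C₀ h₀ δ →
      δ ≤ c → h₀ ^ 2 ≤ c → ∫ p, tl π p.2 ∂W ≤ c →
        ∫ y in ball 0 (7 / 2), |(N y).toReal - Q| ≤ ε := by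
  have hom := om_pos m
  have hQ : (0 : ℝ) ≤ Q := Nat.cast_nonneg Q
  set M₁ : ℝ := (Q + 1) * (om m * 4 ^ m) with hM₁
  have hM0 : 0 < M₁ := by positivity
  set wm : ℝ := om m * 4 ^ m with hw
  have hw0 : 0 < wm := by positivity
  set θ : ℝ := min (wm / 32) (1 / (4 * (Q + 1))) with hθ
  have hθ0 : 0 < θ := lt_min (by positivity) (by positivity)
  have hθ1 : θ ≤ wm / 32 := min_le_left _ _
  have hθ2 : θ * (Q + 1) ≤ 1 / 4 := by
    calc θ * (Q + 1) ≤ 1 / (4 * (Q + 1)) * (Q + 1) := by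
          gcongr
          exact min_le_right _ _
      _ = 1 / 4 := by field_simp
  obtain ⟨d, hd0, hd1, hd⟩ := exists_annulus m C₀ hθ0
  obtain ⟨hdA, hdB⟩ := hd d hd0 le_rfl
  obtain ⟨K, hK⟩ := cover_int m (ρ := 4 - d) (r := d / 4) (by positivity)
  set η : ℝ := min (om m * (d / 4 / 2) ^ m / 4) (min ε (wm / 32) / (K + 1)) with hη
  have hη0 : 0 < η := lt_min (by positivity) (div_pos (lt_min hε (by positivity)) (by positivity))
  have hη1 : 2 * η < om m * (d / 4 / 2) ^ m := by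
    have h1 : η ≤ om m * (d / 4 / 2) ^ m / 4 := min_le_left _ _
    have h2 : 0 < om m * (d / 4 / 2) ^ m := by positivity
    linarith
  have hη2 : K * η ≤ min ε (wm / 32) := by
    have h1 : η ≤ min ε (wm / 32) / (K + 1) := min_le_right _ _
    have h2 : 0 ≤ min ε (wm / 32) := le_min hε.le (by positivity)
    calc K * η ≤ K * (min ε (wm / 32) / (K + 1)) := by gcongr
      _ = min ε (wm / 32) * (K / (K + 1)) := by ring
      _ ≤ min ε (wm / 32) * 1 := by
          gcongr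
          rw [div_le_one (by positivity)]
          linarith
      _ = _ := mul_one _
  obtain ⟨c₁, hc0, hc1, hc⟩ := int_at m hM0.le hη0
  set c : ℝ := min (min c₁ (1 / 16)) (min (d ^ 2) (wm / 32 / (1 + M₁))) with hcd
  have hcc1 : c ≤ c₁ := (min_le_left _ _).trans (min_le_left _ _)
  have hcc2 : c ≤ 1 / 16 := (min_le_left _ _).trans (min_le_right _ _)
  have hcc3 : c ≤ d ^ 2 := (min_le_right _ _).trans (min_le_left _ _)
  have hcc4 : c ≤ wm / 32 / (1 + M₁) := (min_le_right _ _).trans (min_le_right _ _)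
  refine ⟨c, lt_min (lt_min hc0 (by norm_num)) (lt_min (by positivity) (by positivity)), hcc2, ?_⟩
  intro n k π κ W N h₀ δ h hδ hh hE
  have hfin : IsFiniteMeasure W := ⟨h.cyl.fin⟩
  have hmu : IsFiniteMeasure (muM W π) := by unfold muM; infer_instance
  have hhd : h₀ ≤ d := (sq_le_sq₀ h.hh hd0.le).1 (hh.trans hcc3)
  have hWM : W.real univ ≤ M₁ := by
    have h1 := (abs_le.1 h.mass).2
    rw [hM₁]
    have : 0 ≤ wm := hw0.le
    nlinarith
  have hU : ∀ x ∈ closedBall (0 : Euc m) (4 - d), ball x (4 * (d / 4)) ⊆ ball 0 4 := by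
    intro x hx
    refine ball_subset_ball' ?_
    have := mem_closedBall.1 hx
    linarith
  have hU1 : ∀ x ∈ closedBall (0 : Euc m) (4 - d), ball x (d / 4) ⊆ ball 0 4 := fun x hx =>
    (ball_subset_ball (by linarith)).trans (hU x hx)
  have hNi : IntegrableOn (fun x => (N x).toReal) (ball (0 : Euc m) 4) :=
    h.area.integrableOn h.cyl.sp.hh h.cyl.conc measurableSet_ball
  obtain ⟨j, hj⟩ := one_integer (f := fun x => (N x).toReal) hNi (ρ := 4 - d) (r := d / 4)
    (η := η) (by positivity) hU1 hη1 (fun x hx =>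
      hc h.cyl h.area h.δ0 hWM (hδ.trans hcc1) (hh.trans hcc1) (hE.trans hcc1) x (d / 4)
        (by positivity) (by linarith) (hU x hx))
  have hji : IntegrableOn (fun x => |(N x).toReal - (j : ℝ)|) (ball (0 : Euc m) 4) :=
    (hNi.sub (integrableOn_const measure_ball_lt_top.ne)).abs
  have hcov := hK hji (fun _ => abs_nonneg _) hU1 hj
  set cB : Set (Euc m) := closedBall 0 (4 - d) with hcB
  have hcBm : MeasurableSet cB := measurableSet_closedBall
  have hcBs : cB ⊆ ball 0 4 := closedBall_subset_ball (by linarith)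
  have hsmall : ∫ y in cB, |(N y).toReal - (j : ℝ)| ≤ min ε (wm / 32) := hcov.trans hη2
  -- the integer is `Q`
  have hS := setup_of_cylAS h.cyl h.δ0 (hδ.trans (hcc1.trans hc1)) h.area
  have H := hyp_of_setup hS (σ := 0) le_rfl
  have e1 : wM W π (we π δ fun z => ‖vp π z‖ ^ 2) cB ≤ ENNReal.ofReal (wm / 32) := by
    refine (we_le h.cyl h.δ0 (hcc1.trans hc1) hWM hδ hh hE hcBm).trans ?_
    refine ENNReal.ofReal_le_ofReal ?_
    calc c * (1 + M₁) ≤ wm / 32 / (1 + M₁) * (1 + M₁) := by gcongr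
      _ = wm / 32 := by field_simp
  have e0 : 0 ≤ ∫ y in cB, (N y).toReal := integral_nonneg fun _ => ENNReal.toReal_nonneg
  have e2 : (muM W π).real cB ≤ (∫ y in cB, (N y).toReal) + wm / 32 := by
    have h1 := (H.mass _ hcBm hcBs).trans (add_le_add le_rfl e1)
    rw [← ENNReal.ofReal_add e0 (by positivity)] at h1
    rw [measureReal_def]
    exact ENNReal.toReal_le_of_le_ofReal (by positivity) h1
  have e3 : ∫ y in cB, (N y).toReal ≤ (muM W π).real cB := by
    have h1 := H.le_mass _ hcBm hcBs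
    rw [← ENNReal.ofReal_toReal (measure_ne_top (muM W π) cB)] at h1
    exact (ENNReal.ofReal_le_ofReal_iff ENNReal.toReal_nonneg).1 h1
  have e4 : (muM W π).real cB = W.real ((fun p => π p.1) ⁻¹' cB) := by
    rw [measureReal_def, muM_apply W hcBm]; rfl
  have e5 : W.real ((fun p => π p.1) ⁻¹' cB) ≤ W.real univ := measureReal_mono (subset_univ _)
  have e6 : W.real univ ≤ W.real ((fun p => π p.1) ⁻¹' cB) + θ := by
    have h1 := (annulus hC₀ h.cyl h.ub hd0 hd1 hhd).trans hdA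
    have h2 : (univ : Set (Euc k × L k)) ⊆
        ((fun p => π p.1) ⁻¹' cB) ∪ {p | 4 - d ≤ ‖π p.1‖} := by
      intro p _
      by_cases hp : ‖π p.1‖ ≤ 4 - d
      · left
        change π p.1 ∈ cB
        rw [hcB, mem_closedBall_zero_iff]
        exact hp
      · right
        exact (not_le.1 hp).le
    calc W.real univ ≤ W.real (((fun p => π p.1) ⁻¹' cB) ∪ {p | 4 - d ≤ ‖π p.1‖}) :=
          measureReal_mono h2
      _ ≤ _ := measureReal_union_le _ _
      _ ≤ _ := by gcongr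
  have hvol : volume.real cB = om m * (4 - d) ^ m := vol_closedBall (0 : Euc m) (by linarith)
  have hvf : volume cB ≠ ⊤ := measure_closedBall_lt_top.ne
  have e7 : |(∫ y in cB, (N y).toReal) - j * (om m * (4 - d) ^ m)| ≤ wm / 32 := by
    have hjc : IntegrableOn (fun _ : Euc m => (j : ℝ)) cB := integrableOn_const hvf
    have h1 : (∫ y in cB, (N y).toReal) - j * (om m * (4 - d) ^ m) =
        ∫ y in cB, ((N y).toReal - j) := by
      rw [integral_sub (hNi.mono_set hcBs) hjc, setIntegral_const, smul_eq_mul, hvol]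
      ring
    rw [h1]
    exact abs_integral_le_integral_abs.trans (hsmall.trans (min_le_right _ _))
  have e8 := h.mass
  have hle4 : om m * (4 - d) ^ m ≤ wm := by
    rw [hw]
    gcongr
    · linarith
    · linarith
  have hge4 : (1 - θ) * wm ≤ om m * (4 - d) ^ m := by
    calc (1 - θ) * wm = om m * ((1 - θ) * 4 ^ m) := by rw [hw]; ring
      _ ≤ _ := by gcongr
  have hjQ : j = Q := by
    refine nat_eq_of_close hw0 hle4 hge4 hθ2 hθ0.le ?_
    rw [abs_le] at e7 e8 ⊢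
    constructor <;> linarith [e7.1, e7.2, e8.1, e8.2]
  rw [hjQ] at hsmall hji
  refine le_trans ?_ (hsmall.trans (min_le_left _ _))
  refine setIntegral_mono_set (hji.mono_set hcBs) (Eventually.of_forall fun _ => abs_nonneg _) ?_
  exact (ball_subset_closedBall.trans
    (closedBall_subset_closedBall (by linarith))).eventuallyLE

end Crest.Agent.R234.Crs_173
end
end

-- ▼ part R234/Crs6_173

/-!
# Row 234, N0-COARSE, part 6 (helper173): all scales `≥ A h₀`, and the set form of TH3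

`energy`    : mass and energy at scales `≥ h₀`.
`chain_all` : `∫_{B_r(x)} |N - Q| ≤ ε r^m` down to the scale up to which the steep energy is small.
`coarse`    : (c) of 309 #7283.
`set_form`  : (d) of 309 #7283.
-/

set_option autoImplicit false

open MeasureTheory Set Function Filter Topology Metric
open Crest.GeometryTopology.Submanifold
open Crest.Agent.R234.Vf_884 Crest.Agent.R234.Ar_870 Crest.Agent.R234.Cy_870
open Crest.Agent.R234.AS_456 (AS errA err hp vp)
open Crest.Agent.R234.Asl_214 Crest.Agent.R234.Th_164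
open scoped ENNReal NNReal InnerProductSpace

noncomputable section

namespace Crest.Agent.R234.Crs_173

variable {m n k : ℕ} {π : Euc k →L[ℝ] Euc m} {κ : Euc k →L[ℝ] Euc n} {δ : ℝ}
  {x₀ x : Euc m} {R h₀ : ℝ} {W : Measure (Euc k × L k)} {N : Euc m → ℝ≥0∞}

/-- mass and energy at scales `≥ h₀` -/
theorem energy (m : ℕ) {C₀ : ℝ} (hC₀ : 0 ≤ C₀) : ∃ C : ℝ, 1 ≤ C ∧ ∀ {n k : ℕ}
    {π : Euc k →L[ℝ] Euc m} {κ : Euc k →L[ℝ] Euc n} {W : Measure (Euc k × L k)} {h₀ δ : ℝ},
    CylAS W π κ 0 4 h₀ δ →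
    (∀ (z : Euc k) (r : ℝ), 0 < r → r ≤ 1 → W.real (closedBall z r ×ˢ univ) ≤ C₀ * r ^ m) →
    0 ≤ δ → δ ≤ 1 / 16 → ∀ x ∈ closedBall (0 : Euc m) 3, ∀ r, 0 < r → h₀ ≤ r → r ≤ 1 / 4 →
      MB W π x r ≤ C * r ^ m ∧ TB W π x r ≤ C * (h₀ / r) ^ 2 * r ^ m := by
  obtain ⟨Ca, hCa, hcacc⟩ := cacc m
  refine ⟨Ca * (C₀ + 1) * 4 ^ m, ?_, ?_⟩
  · have h1 : (1 : ℝ) ≤ 4 ^ m := one_le_pow₀ (by norm_num)
    calc (1 : ℝ) = 1 * 1 * 1 := by ring
      _ ≤ Ca * (C₀ + 1) * 4 ^ m := by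
          gcongr
          linarith
  intro n k π κ W h₀ δ h hub h0 hδ x hx r hr hhr hr1
  have hx3 : ‖x‖ ≤ 3 := by rwa [mem_closedBall_zero_iff] at hx
  have h1 := mass_cyl h hub x hr (by linarith) hhr
  have h2 := mass_cyl h hub x (r := 2 * r) (by positivity) (by linarith) (by linarith)
  have h3 := hcacc h h0 hδ (by linarith) x r hr (by linarith) (by rw [sub_zero]; linarith)
  have hrm : 0 < r ^ m := by positivity
  refine ⟨?_, ?_⟩
  · refine h1.trans ?_
    rw [mul_pow]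
    have h4 : (2 : ℝ) ^ m ≤ 4 ^ m := pow_le_pow_left₀ (by norm_num) (by norm_num) m
    calc C₀ * (2 ^ m * r ^ m) = 1 * C₀ * 2 ^ m * r ^ m := by ring
      _ ≤ Ca * (C₀ + 1) * 4 ^ m * r ^ m := by
          gcongr
          linarith
  · refine h3.trans ?_
    have e1 : 2 * (2 * r) = 4 * r := by ring
    rw [e1, mul_pow] at h2
    calc Ca * (h₀ / r) ^ 2 * MB W π x (2 * r) ≤ Ca * (h₀ / r) ^ 2 * (C₀ * (4 ^ m * r ^ m)) := by
          gcongr
      _ ≤ Ca * (h₀ / r) ^ 2 * ((C₀ + 1) * (4 ^ m * r ^ m)) := by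
          gcongr
          linarith
      _ = _ := by ring

/-- integrability of the steep weight -/
theorem integrable_ws (h : CylAS W π κ x₀ R h₀ δ) (σ : ℝ) :
    Integrable (ws π σ) W ∧ (∀ᵐ p ∂W, 0 ≤ ws π σ p) ∧ ∀ᵐ p ∂W, ws π σ p ≤ tl π p.2 := by
  have hfin : IsFiniteMeasure W := ⟨h.fin⟩
  have h0 : ∀ᵐ p ∂W, 0 ≤ ws π σ p := by
    filter_upwards [h.conc] with p hp
    exact ws_nonneg h.sp.hh hp
  have h1 : ∀ᵐ p ∂W, ws π σ p ≤ tl π p.2 := by
    filter_upwards [h.tl_nonneg'] with p hp0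
    unfold ws
    by_cases hs : p ∈ {p : Euc k × L k | σ < tl π p.2}
    · rw [Set.indicator_of_mem hs]
    · rw [Set.indicator_of_notMem hs]; exact hp0
  refine ⟨?_, h0, h1⟩
  refine (h.integrable_continuous (CylAS.continuous_tl (k := k) π)).mono'
    (measurable_ws π σ).aestronglyMeasurable ?_
  filter_upwards [h0, h1] with p hp1 hp2
  rw [Real.norm_eq_abs, abs_of_nonneg hp1]
  exact hp2

/-- from the integral over the cylinder to the projected measure -/
theorem es_of_int (h : CylAS W π κ x₀ R h₀ δ) {σ a r : ℝ} {x : Euc m}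
    (hi : ∫ p in ovr π x r, ws π σ p ∂W ≤ a) :
    wM W π (ws π σ) (ball x r) ≤ ENNReal.ofReal a := by
  have hfin : IsFiniteMeasure W := ⟨h.fin⟩
  obtain ⟨h1, h2, -⟩ := integrable_ws h σ
  refine wM_le h2 h1 measurableSet_ball ?_
  rw [← ovr_eq]
  exact hi

/-- the steep energy is at most the energy -/
theorem es_le_TB (h : CylAS W π κ x₀ R h₀ δ) (σ : ℝ) {a r : ℝ} {x : Euc m}
    (hi : TB W π x r ≤ a) : wM W π (ws π σ) (ball x r) ≤ ENNReal.ofReal a := by
  refine es_of_int h (le_trans ?_ hi)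
  obtain ⟨h1, -, h3⟩ := integrable_ws h σ
  exact integral_mono_ae h1.integrableOn
    (h.integrable_continuous (CylAS.continuous_tl (k := k) π)).integrableOn
    (ae_restrict_of_ae h3)

/-- steep energy above the scale `A h₀` -/
theorem es_coarse {C A δ₁ : ℝ} (hC : 1 ≤ C) (hA : 1 + C / δ₁ ≤ A) (hδ₁ : 0 < δ₁)
    (h : CylAS W π κ x₀ R h₀ δ) (hh : 0 ≤ h₀) (σ : ℝ) {r : ℝ} (hr : 0 < r) (hr1 : A * h₀ ≤ r)
    (hTB : TB W π x r ≤ C * (h₀ / r) ^ 2 * r ^ m) :
    wM W π (ws π σ) (ball x r) ≤ ENNReal.ofReal (δ₁ * r ^ m) := by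
  refine es_le_TB h σ (hTB.trans ?_)
  have hCd : 0 < C / δ₁ := by positivity
  have hA0 : 1 ≤ A := by linarith
  have h1 : h₀ / r ≤ 1 / A := by
    rw [div_le_div_iff₀ hr (by linarith)]
    linarith
  have h2 : (h₀ / r) ^ 2 ≤ (1 / A) ^ 2 := pow_le_pow_left₀ (by positivity) h1 2
  have h3 : C * (1 / A) ^ 2 ≤ δ₁ := by
    have h4 : C / δ₁ ≤ A ^ 2 := by nlinarith
    rw [div_pow, one_pow, mul_one_div, div_le_iff₀ (by positivity)]
    rw [div_le_iff₀ hδ₁] at h4
    linarith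
  calc C * (h₀ / r) ^ 2 * r ^ m ≤ C * (1 / A) ^ 2 * r ^ m := by gcongr
    _ ≤ δ₁ * r ^ m := by gcongr

/-- **`N` is close to `Q` down to the scale up to which the steep energy is small** -/
theorem chain_all (m Q : ℕ) {C₀ : ℝ} (hC₀ : 0 ≤ C₀) {ε : ℝ} (hε : 0 < ε) :
    ∃ σ₁ lam A c : ℝ, 0 < σ₁ ∧ 0 < lam ∧ 1 ≤ A ∧ 0 < c ∧ c ≤ 1 / 16 ∧
      ∀ {n k : ℕ} {π : Euc k →L[ℝ] Euc m} {κ : Euc k →L[ℝ] Euc n}
      {W : Measure (Euc k × L k)} {N : Euc m → ℝ≥0∞} {h₀ δ : ℝ}, In W π κ N Q C₀ h₀ δ →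
      δ ≤ c → h₀ ^ 2 ≤ c → ∫ p, tl π p.2 ∂W ≤ c → ∀ σ, 0 ≤ σ → σ ≤ σ₁ →
      ∀ x ∈ closedBall (0 : Euc m) 3, ∀ s,
        (∀ r, 0 < r → s ≤ r → r < A * h₀ →
          wM W π (ws π σ) (ball x r) ≤ ENNReal.ofReal (lam * r ^ m)) →
        ∀ r, 0 < r → s ≤ r → r ≤ 1 / 4 → ∫ y in ball x r, |(N y).toReal - Q| ≤ ε * r ^ m := by
  obtain ⟨ε₀, hε0, hε01, hε0w⟩ := exists_eps m
  set ε₁ : ℝ := min ε₀ (ε / 4 ^ m) with hε₁
  have hε1 : 0 < ε₁ := lt_min hε0 (by positivity)
  have hε11 : ε₁ ≤ 1 := (min_le_left _ _).trans hε01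
  have hε1w : ε₁ * (1 + 4 ^ m) < om m := by
    refine lt_of_le_of_lt ?_ hε0w
    gcongr
    exact min_le_left _ _
  obtain ⟨c₁, hc1, hc1', δ₁, hδ1, hδ1', hT⟩ := TH1 (sc2 m) Q (C₁ := m + 2) (by positivity) hε1 hε11
    hε1w
  obtain ⟨C, hC, hen⟩ := energy m hC₀
  obtain ⟨ct, hct, hct', htop⟩ := top m Q hC₀ (ε := ε₁ * (1 / 4) ^ m) (by positivity)
  have hm0 : (0 : ℝ) ≤ m := Nat.cast_nonneg m
  set A : ℝ := 1 + C / δ₁ with hA
  have hA1 : 1 ≤ A := by
    have : 0 < C / δ₁ := by positivity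
    linarith
  set c : ℝ := min ct (min (c₁ / 2) (δ₁ / (m + 1))) with hcd
  have hcc1 : c ≤ ct := min_le_left _ _
  have hcc2 : c ≤ c₁ / 2 := (min_le_right _ _).trans (min_le_left _ _)
  have hcc3 : c ≤ δ₁ / (m + 1) := (min_le_right _ _).trans (min_le_right _ _)
  refine ⟨c₁ / 2, δ₁, A, c, by positivity, hδ1, hA1,
    lt_min hct (lt_min (by positivity) (by positivity)), hcc1.trans hct', ?_⟩
  intro n k π κ W N h₀ δ h hδ hh hE σ hσ0 hσ1 x hx s hs r hr hsr hr1
  have hc0 : 0 ≤ c := h.δ0.trans hδ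
  have hcle : c ≤ 1 := by linarith [hcc1, hct']
  have hS := setup_of_cylAS h.cyl h.δ0 (hδ.trans hcle) h.area
  have H := hyp_of_setup hS hσ0
  have hx3 : ‖x‖ ≤ 3 := by rwa [mem_closedBall_zero_iff] at hx
  have hxR : ball x (1 / 4) ⊆ ball (0 : Euc m) 4 := by
    refine ball_subset_ball' ?_
    rw [dist_zero_right]; linarith
  have hxT : ball x (1 / 4) ⊆ ball (0 : Euc m) (7 / 2) := by
    refine ball_subset_ball' ?_
    rw [dist_zero_right]; linarith
  have hg : δ * (m + h₀ ^ 2) ≤ δ₁ := by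
    calc δ * (m + h₀ ^ 2) ≤ δ₁ / (m + 1) * (m + 1) := by
          gcongr
          · exact hδ.trans hcc3
          · exact hh.trans hcle
      _ = δ₁ := by field_simp
  have hNi : IntegrableOn (fun x => |(N x).toReal - (Q : ℝ)|) (ball (0 : Euc m) 4) := by
    have : IsFiniteMeasure W := ⟨h.cyl.fin⟩
    exact ((h.area.integrableOn h.cyl.sp.hh h.cyl.conc measurableSet_ball).sub
      (integrableOn_const measure_ball_lt_top.ne)).abs
  have h1 := hT (σ + δ * h₀ ^ 2) (δ * (m + h₀ ^ 2)) (ball 0 4) _ _ _ _ _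
    (by have := h.δ0; positivity)
    (by
      have h2 : δ * h₀ ^ 2 ≤ c * 1 := by
        gcongr
        exact hh.trans hcle
      linarith)
    (by have := h.δ0; positivity) H x s (1 / 4) hxR
    (by have := h.δ0; nlinarith)
    (by
      refine le_trans ?_ (htop h (hδ.trans hcc1) (hh.trans hcc1) (hE.trans hcc1))
      refine setIntegral_mono_set (hNi.mono_set (ball_subset_ball (by norm_num)))
        (Eventually.of_forall fun _ => abs_nonneg _) hxT.eventuallyLE)
    (by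
      intro ρ hρ hsρ hρ1
      rcases lt_or_ge ρ (A * h₀) with h2 | h2
      · exact hs ρ hρ hsρ h2
      · have h3 : h₀ ≤ ρ := by
          have := h.hh
          nlinarith
        exact es_coarse hC le_rfl hδ1 h.cyl h.hh σ hρ h2
          (hen h.cyl h.ub h.δ0 (hδ.trans (hcc1.trans hct')) x hx ρ hρ h3 hρ1).2)
    r hr hsr hr1
  refine h1.trans ?_
  have h4 : 4 ^ m * ε₁ ≤ ε := by
    calc 4 ^ m * ε₁ ≤ 4 ^ m * (ε / 4 ^ m) := by
          gcongr
          exact min_le_right _ _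
      _ = ε := by field_simp
  gcongr

/-- **N0-COARSE (c)**: all scales `≥ A h₀`. -/
theorem coarse (m Q : ℕ) {C₀ : ℝ} (hC₀ : 0 ≤ C₀) {ε : ℝ} (hε : 0 < ε) :
    ∃ A c : ℝ, 1 ≤ A ∧ 0 < c ∧ c ≤ 1 / 16 ∧
      ∀ {n k : ℕ} {π : Euc k →L[ℝ] Euc m} {κ : Euc k →L[ℝ] Euc n}
      {W : Measure (Euc k × L k)} {N : Euc m → ℝ≥0∞} {h₀ δ : ℝ}, In W π κ N Q C₀ h₀ δ →
      δ ≤ c → h₀ ^ 2 ≤ c → ∫ p, tl π p.2 ∂W ≤ c → ∀ x ∈ closedBall (0 : Euc m) 3,
      ∀ r, 0 < r → A * h₀ ≤ r → r ≤ 1 / 4 →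
        ∫ y in ball x r, |(N y).toReal - Q| ≤ ε * r ^ m ∧ MB W π x r ≤ A * r ^ m ∧
        TB W π x r ≤ A * (h₀ / r) ^ 2 * r ^ m := by
  obtain ⟨σ₁, lam, A, c, hσ, hlam, hA, hc, hc', hT⟩ := chain_all m Q hC₀ hε
  obtain ⟨C, hC, hen⟩ := energy m hC₀
  refine ⟨max A C, c, hA.trans (le_max_left _ _), hc, hc', ?_⟩
  intro n k π κ W N h₀ δ h hδ hh hE x hx r hr hAr hr1
  have hAr' : A * h₀ ≤ r := by
    refine le_trans ?_ hAr
    have := h.hh
    gcongr
    exact le_max_left _ _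
  have h1 : h₀ ≤ r := by
    have := h.hh
    nlinarith
  obtain ⟨h2, h3⟩ := hen h.cyl h.ub h.δ0 (hδ.trans hc') x hx r hr h1 hr1
  refine ⟨hT h hδ hh hE 0 le_rfl hσ.le x hx (A * h₀) (fun ρ _ h4 h5 => absurd h4 (not_le.2 h5)) r hr
    hAr' hr1, h2.trans ?_, h3.trans ?_⟩
  · gcongr
    exact le_max_right _ _
  · gcongr
    exact le_max_right _ _

end Crest.Agent.R234.Crs_173
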