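import Crest.Agent.R234.Pot4_425
import Crest.Agent.R234.Rep1_387
import Crest.Agent.R234.Raw2_387

-- ▼ part R234/Dom1_309
section

/-!
Row 234, VF-SOFT (helper309): localised contact frame over `Pot_425`.
`pt_mean2`: the averaging identity for `‖x‖ + s ≤ 1`; `contact_loc`: the contact measure is carried by the
`τ`-neighbourhood of the support of `b₁` (weak maximum principle by mean values).
-/

open MeasureTheory Filter Topology Set Metric
open scoped ENNReal NNReal

namespace Crest.Agent.R234.Dom_309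

open Crest.Agent.R234.Pot_425

noncomputable section

set_option linter.unusedSectionVars false

variable {F : Type*} [NormedAddCommGroup F] [InnerProductSpace ℝ F] [FiniteDimensional ℝ F]
  [MeasurableSpace F] [BorelSpace F]

variable {m : ℕ} {τ : ℝ}

attribute [local irreducible] DD KK PP gg

lemma pp_ge2 (hτ : 0 < τ) {z y : F} (hz : ‖z‖ ≤ 1) (hy : ‖y‖ ≤ 1 - τ) : τ ^ 2 ≤ pp z y := by
  have h1 : pp z y = 1 - 2 * inner ℝ z y + ‖z‖ ^ 2 * ‖y‖ ^ 2 := by
    unfold pp
    rw [norm_sub_sq_real]; ring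
  have h2 := real_inner_le_norm z y
  have h3 : ‖z‖ * ‖y‖ ≤ 1 - τ := by
    calc ‖z‖ * ‖y‖ ≤ 1 * ‖y‖ := by gcongr
      _ ≤ 1 - τ := by linarith
  have h4 : τ ≤ 1 - ‖z‖ * ‖y‖ := by linarith
  have h5 : (1 - ‖z‖ * ‖y‖) ^ 2 ≤ pp z y := by rw [h1]; nlinarith
  nlinarith

lemma dv_HK2 (hm : m = Module.finrank ℝ F) (hτ : 0 < τ) {y z : F} (hz : ‖z‖ ≤ 1)
    (hy : ‖y‖ ≤ 1 - τ) : dv (HK m τ y z) = - DD m τ (‖z - y‖ ^ 2) := by
  rw [dv_HK hm, DD_of_ge hτ (pp_ge2 hτ hz hy)]
  ring

/-- averaging identity for potentials, up to the unit sphere -/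
theorem pt_mean2 (hm : m = Module.finrank ℝ F) (hτ : 0 < τ) (w : Wt) (μ : Measure (XB F τ))
    [IsFiniteMeasure μ] {x : F} {s : ℝ} (hs : 0 ≤ s) (hx : ‖x‖ + s ≤ 1) :
    ∫ y, w.eta y * pt m τ μ (x - s • y) = (∫ y : F, w.eta y) * pt m τ μ x - SS m τ w μ x s := by
  have hpsi := w.continuous_psi (F := F)
  have heta := w.continuous_eta (F := F)
  have hK := continuous_KK (m := m) (F := F) hτ
  have hD := continuous_DD (m := m) hτ
  have e1 : ∫ y', w.eta y' * pt m τ μ (x - s • y') =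
      ∫ y : XB F τ, (∫ y' : F, w.eta y' * KK m τ (x - s • y') (y : F)) ∂μ := by
    rw [← swap_ball (F := F) μ (g := fun (y' : F) (y : XB F τ) =>
      w.eta y' * KK m τ (x - s • y') (y : F))]
    · refine integral_congr_ae (Eventually.of_forall fun y' => ?_)
      simp only [pt]
      rw [integral_const_mul]
    · have h : Continuous fun p : F × XB F τ => (x - s • p.1, (p.2 : F)) := by fun_prop
      exact (heta.comp continuous_fst).mul (hK.comp h)
    · intro y' hy' y
      rw [w.eta_zero hy', zero_mul]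
  let J : ℝ × XB F τ → ℝ := fun p => ∫ y' : F, w.psi y' * DD m τ (‖(x - p.1 • y') - (p.2 : F)‖ ^ 2)
  have hJ : Continuous J := by
    refine continuous_int_ball (g := fun (p : ℝ × XB F τ) (y' : F) =>
      w.psi y' * DD m τ (‖(x - p.1 • y') - (p.2 : F)‖ ^ 2)) ?_ ?_
    · have h : Continuous fun p : (ℝ × XB F τ) × F => ‖(x - p.1.1 • p.2) - (p.1.2 : F)‖ ^ 2 := by
        fun_prop
      exact (hpsi.comp continuous_snd).mul (hD.comp h)
    · intro y' hy' z
      simp only [w.psi_zero hy', zero_mul]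
  have e2 : ∀ y : XB F τ, ∫ y' : F, w.eta y' * KK m τ (x - s • y') (y : F) =
      (∫ y : F, w.eta y) * KK m τ x (y : F) - ∫ ρ in (0 : ℝ)..s, (ρ * J (ρ, y)) := by
    intro y
    have h := scale_identity w (hasFDerivAt_KK (m := m) hτ (y : F)) (hasFDerivAt_GK hτ (y : F))
      (continuous_HK hτ (y : F)) x s
    have h2 : ∫ ρ in (0 : ℝ)..s, (ρ * ∫ y', w.psi y' * dv (HK m τ (y : F) (x - ρ • y'))) =
        - ∫ ρ in (0 : ℝ)..s, (ρ * J (ρ, y)) := by
      rw [← intervalIntegral.integral_neg]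
      refine intervalIntegral.integral_congr fun ρ hρ => ?_
      rw [uIcc_of_le hs] at hρ
      simp only [J]
      rw [← mul_neg, ← integral_neg]
      congr 1
      refine integral_congr_ae (Eventually.of_forall fun y' => ?_)
      simp only
      by_cases hy : y' ∈ closedBall (0 : F) 1
      · have hy1 : ‖y'‖ ≤ 1 := by simpa using hy
        have hz : ‖x - ρ • y'‖ ≤ 1 := by
          have h5 : ‖ρ • y'‖ ≤ s := by
            rw [norm_smul, Real.norm_of_nonneg hρ.1]
            nlinarith [norm_nonneg y', hρ.1, hρ.2]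
          have := norm_sub_le x (ρ • y')
          linarith
        rw [dv_HK2 hm hτ hz (XB_norm y)]
        ring
      · rw [w.psi_zero hy]; simp
    rw [h2] at h
    linarith
  rw [e1]
  simp only [e2]
  have hint1 : Integrable (fun y : XB F τ => (∫ y : F, w.eta y) * KK m τ x (y : F)) μ := by
    refine integrable_cont μ ?_
    have h : Continuous fun y : XB F τ => (x, (y : F)) := by fun_prop
    exact continuous_const.mul (hK.comp h)
  have hcI : Continuous fun y : XB F τ => ∫ ρ in (0 : ℝ)..s, (ρ * J (ρ, y)) := by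
    refine intervalIntegral.continuous_parametric_intervalIntegral_of_continuous' ?_ _ _
    show Continuous fun p : XB F τ × ℝ => p.2 * J (p.2, p.1)
    exact continuous_snd.mul (hJ.comp (continuous_snd.prodMk continuous_fst))
  rw [integral_sub hint1 (integrable_cont μ hcI), integral_const_mul]
  have e5 : ∫ y : XB F τ, (∫ ρ in (0 : ℝ)..s, (ρ * J (ρ, y))) ∂μ = SS m τ w μ x s := by
    rw [← swap_interval μ (g := fun (ρ : ℝ) (y : XB F τ) => ρ * J (ρ, y)) ?_ hs]
    · refine intervalIntegral.integral_congr fun ρ _ => ?_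
      show ∫ y : XB F τ, ρ * J (ρ, y) ∂μ = _
      rw [integral_const_mul]
      congr 1
      simp only [J]
      rw [← swap_ball (F := F) μ (g := fun (y' : F) (y : XB F τ) =>
        w.psi y' * DD m τ (‖(x - ρ • y') - (y : F)‖ ^ 2))]
      · refine integral_congr_ae (Eventually.of_forall fun y' => ?_)
        simp only [ml]
        rw [integral_const_mul]
      · have h : Continuous fun p : F × XB F τ => ‖(x - ρ • p.1) - (p.2 : F)‖ ^ 2 := by
          fun_prop
        exact (hpsi.comp continuous_fst).mul (hD.comp h)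
      · intro y' hy' y
        rw [w.psi_zero hy']; simp
    · exact continuous_fst.mul hJ
  rw [e5]
  rfl

/-! ### the profiles `x²/(x+a)` -/

/-- `x₊² / (x₊ + a)` -/
def fa (a x : ℝ) : ℝ := (max x 0) ^ 2 / (max x 0 + a)

/-- its derivative -/
def fa' (a x : ℝ) : ℝ := ((max x 0) ^ 2 + 2 * a * max x 0) / (max x 0 + a) ^ 2

lemma hasDerivAt_fa {a : ℝ} (ha : 0 < a) (x : ℝ) : HasDerivAt (fa a) (fa' a x) x := by
  rcases lt_trichotomy x 0 with h | h | h
  · have h1 : fa' a x = 0 := by simp [fa', max_eq_right h.le]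
    rw [h1]
    refine (hasDerivAt_const x (0 : ℝ)).congr_of_eventuallyEq ?_
    filter_upwards [eventually_lt_nhds h] with y hy
    simp [fa, max_eq_right (le_of_lt hy)]
  · subst h
    have h1 : fa' a 0 = 0 := by simp [fa']
    rw [h1, hasDerivAt_iff_isLittleO]
    have h2 : fa a 0 = 0 := by simp [fa]
    simp only [h2, sub_zero, smul_zero]
    have h3 : (fun x : ℝ => fa a x) =O[𝓝 0] fun x : ℝ => x ^ 2 := by
      refine Asymptotics.IsBigO.of_bound a⁻¹ (Eventually.of_forall fun y => ?_)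
      have h4 : 0 ≤ max y 0 := le_max_right _ _
      have h5 : (max y 0) ^ 2 ≤ y ^ 2 := by
        rcases le_total y 0 with h | h
        · rw [max_eq_right h]; nlinarith [sq_nonneg y]
        · rw [max_eq_left h]
      unfold fa
      rw [Real.norm_of_nonneg (show 0 ≤ (max y 0) ^ 2 / (max y 0 + a) by positivity),
        Real.norm_of_nonneg (show (0 : ℝ) ≤ y ^ 2 by positivity), inv_mul_eq_div]
      calc (max y 0) ^ 2 / (max y 0 + a) ≤ (max y 0) ^ 2 / a := by gcongr; linarith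
        _ ≤ y ^ 2 / a := by gcongr
    refine h3.trans_isLittleO ?_
    have := Asymptotics.isLittleO_pow_id (𝕜 := ℝ) (n := 2) (by norm_num)
    simpa using this
  · have h0 : 0 < x + a := by linarith
    have h1 : HasDerivAt (fun x : ℝ => x ^ 2 / (x + a)) (fa' a x) x := by
      have h2 := (hasDerivAt_pow 2 x).div ((hasDerivAt_id x).add_const a) h0.ne'
      refine h2.congr_deriv ?_
      simp only [fa', max_eq_left h.le, id]
      field_simp
      ring
    refine h1.congr_of_eventuallyEq ?_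
    filter_upwards [eventually_gt_nhds h] with y hy
    simp [fa, max_eq_left (le_of_lt hy)]

lemma continuous_fa' {a : ℝ} (ha : 0 < a) : Continuous (fa' a) := by
  unfold fa'
  have h : Continuous fun x : ℝ => max x 0 := continuous_id.max continuous_const
  refine (((h.pow 2).add (continuous_const.mul h))).div ((h.add continuous_const).pow 2) fun x => ?_
  have h4 : 0 ≤ max x 0 := le_max_right _ _
  have h5 : 0 < max x 0 + a := by linarith
  exact (pow_pos h5 2).ne'

lemma fa'_nonneg {a : ℝ} (ha : 0 < a) (x : ℝ) : 0 ≤ fa' a x := by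
  have h4 : 0 ≤ max x 0 := le_max_right _ _
  unfold fa'; positivity

lemma fa'_le_one {a : ℝ} (ha : 0 < a) (x : ℝ) : fa' a x ≤ 1 := by
  have h4 : 0 ≤ max x 0 := le_max_right _ _
  unfold fa'
  rw [div_le_one (by positivity)]
  nlinarith [sq_nonneg a]

lemma fa'_pos {a : ℝ} (ha : 0 < a) {x : ℝ} (hx : 0 < x) : 0 < fa' a x := by
  unfold fa'
  rw [max_eq_left hx.le]
  positivity

/-- the weights -/
def wa {a : ℝ} (ha : 0 < a) : Wt where
  θ t := fa a (1 - t)
  θ' t := -fa' a (1 - t)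
  deriv t := by
    have h := (hasDerivAt_fa ha (1 - t)).comp t ((hasDerivAt_id t).const_sub 1)
    refine h.congr_deriv ?_
    simp
  cont' := ((continuous_fa' ha).comp (by fun_prop)).neg
  anti t := by have := fa'_nonneg ha (1 - t); linarith
  zero t ht := by simp [fa, max_eq_right (by linarith : 1 - t ≤ 0)]
  zero' t ht := by simp [fa', max_eq_right (by linarith : 1 - t ≤ 0)]

lemma wa_eta {a : ℝ} (ha : 0 < a) (y : F) : (wa ha).eta y = 2 * fa' a (1 - ‖y‖ ^ 2) := by
  simp [Wt.eta, wa]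

lemma wa_psi {a : ℝ} (ha : 0 < a) (y : F) : (wa ha).psi y = fa a (1 - ‖y‖ ^ 2) := by
  simp [Wt.psi, wa]

/-! ### the localised contact frame -/

lemma ml_zero (hτ : 0 < τ) (μ : Measure (XB F τ)) [IsFiniteMeasure μ] {z : F}
    (h : ∀ y ∈ μ.support, τ ≤ ‖z - (y : F)‖) : ml m τ μ z = 0 := by
  unfold ml
  have h1 : ∀ᵐ y ∂μ, y ∈ μ.support := Measure.support_mem_ae
  have h2 : (fun y : XB F τ => DD m τ (‖z - (y : F)‖ ^ 2)) =ᵐ[μ] fun _ => 0 := by
    filter_upwards [h1] with y hy
    exact DD_of_ge hτ (by have := h y hy; gcongr)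
  rw [integral_congr_ae h2]
  simp

lemma pt_zero (μ : Measure (XB F τ)) {z : F} (hz : ‖z‖ = 1) : pt m τ μ z = 0 := by
  unfold pt
  simp [KK_zero hz]

/-- weak maximum principle by mean values -/
theorem max_principle (hm : m = Module.finrank ℝ F) (hm0 : 0 < m) (hτ : 0 < τ)
    (b₁ b₂ ε : Measure (XB F τ)) [IsFiniteMeasure b₁] [IsFiniteMeasure b₂] [IsFiniteMeasure ε]
    (S : Set F) (hS : IsClosed S) (hml : ∀ z : F, ‖z‖ < 1 → z ∉ S → ml m τ b₁ z = 0)
    (hle : ∀ z ∈ S, ‖z‖ ≤ 1 → pt m τ b₁ z - pt m τ b₂ z - pt m τ ε z ≤ 0) (z : F) (hz : ‖z‖ ≤ 1) :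
    pt m τ b₁ z - pt m τ b₂ z - pt m τ ε z ≤ 0 := by
  by_contra hcon
  rw [not_le] at hcon
  set v : F → ℝ := fun z => pt m τ b₁ z - pt m τ b₂ z - pt m τ ε z with hv
  have hvc : Continuous v :=
    ((continuous_pt hτ b₁).sub (continuous_pt hτ b₂)).sub (continuous_pt hτ ε)
  have hYc : IsCompact (closedBall (0 : F) 1) := isCompact_closedBall _ _
  obtain ⟨x1, hx1, hmax⟩ := hYc.exists_isMaxOn ⟨z, by simpa using hz⟩ hvc.continuousOn
  set M := v x1 with hM
  have hMpos : 0 < M := lt_of_lt_of_le hcon (hmax (by simpa using hz : z ∈ closedBall (0:F) 1))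
  have hKc : IsCompact (closedBall (0 : F) 1 ∩ v ⁻¹' {M}) :=
    hYc.inter_right (isClosed_singleton.preimage hvc)
  obtain ⟨x, hx, hxmax⟩ := hKc.exists_isMaxOn ⟨x1, hx1, rfl⟩ continuous_norm.continuousOn
  have hxM : v x = M := hx.2
  have hx1' : ‖x‖ ≤ 1 := by simpa using hx.1
  have hxlt : ‖x‖ < 1 := by
    rcases hx1'.lt_or_eq with h | h
    · exact h
    · exfalso
      have : v x = 0 := by simp only [hv, pt_zero _ h]; ring
      linarith
  have hxS : x ∉ S := fun h => by have := hle x h hx1'; linarith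
  -- a small ball
  obtain ⟨s, hs0, hs⟩ : ∃ s : ℝ, 0 < s ∧ closedBall x s ⊆ ball 0 1 ∩ Sᶜ := by
    have hopen : IsOpen (ball (0 : F) 1 ∩ Sᶜ) := isOpen_ball.inter hS.isOpen_compl
    exact Metric.nhds_basis_closedBall.mem_iff.1 (hopen.mem_nhds ⟨by simpa using hxlt, hxS⟩)
  set w : Wt := wa one_pos with hw
  have hball : ∀ y : F, ‖y‖ ≤ 1 → ∀ ρ ∈ Icc 0 s, ‖x - ρ • y‖ < 1 ∧ x - ρ • y ∉ S := by
    intro y hy ρ hρ
    have h1 : x - ρ • y ∈ closedBall x s := by
      rw [mem_closedBall, dist_eq_norm, sub_sub_cancel_left, norm_neg, norm_smul,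
        Real.norm_of_nonneg hρ.1]
      nlinarith [norm_nonneg y, hρ.1, hρ.2]
    have h2 := hs h1
    exact ⟨by simpa using h2.1, h2.2⟩
  have : Nontrivial F := Module.nontrivial_of_finrank_pos (R := ℝ) (by omega)
  -- the point of the sphere in direction x
  obtain ⟨u, hu1, hu2⟩ : ∃ u : F, ‖u‖ = 1 ∧ x = ‖x‖ • u := by
    rcases eq_or_ne x 0 with h0 | h0
    · obtain ⟨u, hu⟩ := exists_norm_eq F (zero_le_one (α := ℝ))
      exact ⟨u, hu, by simp [h0]⟩
    · refine ⟨(‖x‖)⁻¹ • x, by rw [norm_smul, norm_inv, norm_norm, inv_mul_cancel₀ (by simpa)], ?_⟩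
      rw [smul_smul, mul_inv_cancel₀ (by simpa), one_smul]
  have hxs : ‖x‖ + s ≤ 1 := by
    by_contra h
    rw [not_le] at h
    have h1 : u ∈ closedBall x s := by
      rw [mem_closedBall, dist_eq_norm, hu2]
      have : u - ‖x‖ • u = (1 - ‖x‖) • u := by rw [sub_smul, one_smul]
      rw [this, norm_smul, hu1, mul_one, Real.norm_of_nonneg (by linarith)]
      linarith
    have h2 := (hs h1).1
    simp [hu1] at h2
  have i1 := pt_mean2 hm hτ w b₁ hs0.le hxs
  have i2 := pt_mean2 hm hτ w b₂ hs0.le hxs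
  have i3 := pt_mean2 hm hτ w ε hs0.le hxs
  have hSS : SS m τ w b₁ x s = 0 := by
    unfold SS
    rw [intervalIntegral.integral_congr (g := fun _ => (0 : ℝ)), intervalIntegral.integral_zero]
    intro ρ hρ
    rw [uIcc_of_le hs0.le] at hρ
    simp only
    rw [mul_eq_zero]; right
    have : (fun y : F => w.psi y * ml m τ b₁ (x - ρ • y)) = fun _ => 0 := by
      funext y
      by_cases hy : y ∈ closedBall (0 : F) 1
      · have h := hball y (by simpa using hy) ρ hρ
        rw [hml _ h.1 h.2, mul_zero]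
      · rw [w.psi_zero hy, zero_mul]
    rw [this]; simp
  have n2 := SS_nonneg (m := m) hτ w b₂ x hs0.le
  have n3 := SS_nonneg (m := m) hτ w ε x hs0.le
  have hcx : ∀ μ : Measure (XB F τ), IsFiniteMeasure μ →
      Continuous fun y : F => pt m τ μ (x - s • y) := by
    intro μ hμ
    have h : Continuous fun y : F => x - s • y := by fun_prop
    exact (continuous_pt hτ μ).comp h
  have j1 := w.integrable_eta_mul (hcx b₁ inferInstance)
  have j2 := w.integrable_eta_mul (hcx b₂ inferInstance)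
  have j3 := w.integrable_eta_mul (hcx ε inferInstance)
  have hint : ∫ y, w.eta y * v (x - s • y) = (∫ y, w.eta y * pt m τ b₁ (x - s • y)) -
      (∫ y, w.eta y * pt m τ b₂ (x - s • y)) - ∫ y, w.eta y * pt m τ ε (x - s • y) := by
    have k1 := integral_sub j1 j2
    have k2 := integral_sub (j1.sub j2) j3
    simp only [Pi.sub_apply] at k2
    rw [← k1, ← k2]
    refine integral_congr_ae (Eventually.of_forall fun y => ?_)
    simp only [hv]
    ring
  have hge : (∫ y : F, w.eta y) * M ≤ ∫ y, w.eta y * v (x - s • y) := by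
    rw [hint, i1, i2, i3, hSS, ← hxM]
    simp only [hv]
    nlinarith
  -- strict inequality
  have hvx : Continuous fun y : F => v (x - s • y) := by
    have h : Continuous fun y : F => x - s • y := by fun_prop
    exact hvc.comp h
  have hpos : 0 < ∫ y : F, w.eta y * (M - v (x - s • y)) := by
    refine Continuous.integral_pos_of_hasCompactSupport_nonneg_nonzero
      (w.continuous_eta.mul (continuous_const.sub hvx)) w.hasCompactSupport_eta.mul_right
      (x := -((1 / 2 : ℝ) • u)) ?_ ?_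
    · intro y
      by_cases hy : y ∈ closedBall (0 : F) 1
      · have h := hball y (by simpa using hy) s ⟨hs0.le, le_rfl⟩
        have h2 : v (x - s • y) ≤ M := hmax (by simpa using h.1.le)
        exact mul_nonneg (w.eta_nonneg y) (by linarith)
      · simp [w.eta_zero hy]
    · have hn : ‖-((1 / 2 : ℝ) • u)‖ = 1 / 2 := by
        rw [norm_neg, norm_smul, hu1, mul_one]; norm_num
      have he : 0 < w.eta (-((1 / 2 : ℝ) • u)) := by
        rw [hw, wa_eta, hn]
        have := fa'_pos one_pos (x := 1 - (1 / 2 : ℝ) ^ 2) (by norm_num)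
        linarith
      have hx2 : x - s • (-((1 / 2 : ℝ) • u)) = (‖x‖ + s / 2) • u := by
        conv_lhs => rw [hu2]
        rw [smul_neg, sub_neg_eq_add, smul_smul, ← add_smul]
        ring_nf
      have hn2 : ‖x - s • (-((1 / 2 : ℝ) • u))‖ = ‖x‖ + s / 2 := by
        rw [hx2, norm_smul, hu1, mul_one, Real.norm_of_nonneg (by positivity)]
      have hlt : v (x - s • (-((1 / 2 : ℝ) • u))) < M := by
        have h := hball (-((1 / 2 : ℝ) • u)) (by rw [hn]; norm_num) s ⟨hs0.le, le_rfl⟩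
        have h2 : v (x - s • (-((1 / 2 : ℝ) • u))) ≤ M := hmax (by simpa using h.1.le)
        refine lt_of_le_of_ne h2 fun heq => ?_
        have h3 := hxmax (show x - s • (-((1 / 2 : ℝ) • u)) ∈ closedBall (0 : F) 1 ∩ v ⁻¹' {M} from
          ⟨by simpa using h.1.le, heq⟩)
        have h3 : ‖x - s • (-((1 / 2 : ℝ) • u))‖ ≤ ‖x‖ := h3
        rw [hn2] at h3
        linarith
      exact (mul_pos he (by linarith)).ne'
  have hcontra : ∫ y : F, w.eta y * (M - v (x - s • y)) =
      (∫ y : F, w.eta y) * M - ∫ y, w.eta y * v (x - s • y) := by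
    rw [← integral_mul_const, ← integral_sub _ (w.integrable_eta_mul hvx)]
    · refine integral_congr_ae (Eventually.of_forall fun y => ?_)
      simp only
      ring
    · have := w.integrable_eta_mul (F := F) (h := fun _ => M) continuous_const
      exact this
  linarith

/-- **LOCALISED CONTACT FRAME.**  As `Pot_425.contact_ball`, but the domination holds on the whole unit
ball, the contact measure is carried by the `τ`-neighbourhood of the support of `b₁`, and the scale
inequality holds for `‖x‖ + s ≤ 1`. -/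
theorem contact_loc (hm : m = Module.finrank ℝ F) (hm0 : 0 < m) (hτ : 0 < τ)
    (b₁ b₂ : Measure (XB F τ)) [IsFiniteMeasure b₁] [IsFiniteMeasure b₂]
    (hb : ∀ y ∈ b₁.support, ‖(y : F)‖ ≤ 1 - 2 * τ) :
    ∃ ε : Measure (XB F τ), IsFiniteMeasure ε ∧
      (∀ z : F, ‖z‖ ≤ 1 → pt m τ b₁ z - pt m τ b₂ z ≤ pt m τ ε z) ∧
      (∀ x ∈ ε.support, ∃ y ∈ b₁.support, ‖(x : F) - (y : F)‖ ≤ τ) ∧
      (∀ x ∈ ε.support, pt m τ ε (x : F) = pt m τ b₁ (x : F) - pt m τ b₂ (x : F)) ∧
      (∀ x ∈ ε.support, ∀ (w : Wt) (s : ℝ), 0 ≤ s → ‖(x : F)‖ + s ≤ 1 →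
        0 ≤ SS m τ w ε (x : F) s ∧
          SS m τ w ε (x : F) s ≤ SS m τ w b₁ (x : F) s - SS m τ w b₂ (x : F) s) := by
  -- the compact set
  set C : Set (XB F τ) := ⋃ y ∈ b₁.support, closedBall y τ with hC
  have hsc : IsCompact b₁.support := Measure.isClosed_support.isCompact
  have hCeq : C = cthickening τ b₁.support := (hsc.cthickening_eq_biUnion_closedBall hτ.le).symm
  have hCcl : IsClosed C := by rw [hCeq]; exact isClosed_cthickening
  have hCcomp : CompactSpace C := isCompact_iff_compactSpace.1 hCcl.isCompact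
  let ι : C → XB F τ := Subtype.val
  have hι : Continuous ι := continuous_subtype_val
  have hιm : Measurable ι := hι.measurable
  let K' : C × C → ℝ := fun p => KK m τ (p.1.1 : F) (p.2.1 : F)
  have hK' : Continuous K' := by
    have h : Continuous fun p : C × C => ((p.1.1 : F), (p.2.1 : F)) := by fun_prop
    exact (continuous_KK (m := m) hτ).comp h
  have hsym : ∀ x y : C, K' (x, y) = K' (y, x) := fun x y => KK_symm _ _
  have hpos : ∀ p, 0 < K' p := by
    intro p
    have h1 := XB_norm p.1.1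
    have h2 := XB_norm p.2.1
    exact KK_pos hτ (by linarith) (by linarith)
  let f : C → ℝ := fun x => pt m τ b₁ (x.1 : F) - pt m τ b₂ (x.1 : F)
  have hf : Continuous f := by
    have h1 : Continuous fun x : C => (x.1 : F) := by fun_prop
    exact ((continuous_pt hτ b₁).comp h1).sub ((continuous_pt hτ b₂).comp h1)
  obtain ⟨ε', hε', hge, hsupp⟩ := exists_contact hK' hsym hpos hf
  set ε : Measure (XB F τ) := ε'.map ι with hε
  have hεfin : IsFiniteMeasure ε := by rw [hε]; infer_instance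
  have hptε : ∀ z : F, pt m τ ε z = ∫ y : C, KK m τ z (y.1 : F) ∂ε' := by
    intro z
    unfold pt
    rw [hε, integral_map hιm.aemeasurable]
    exact ((continuous_KK (m := m) hτ).comp (by fun_prop : Continuous fun y : XB F τ =>
      (z, (y : F)))).aestronglyMeasurable
  -- support
  have hsuppC : ∀ x ∈ ε.support, ∃ hx : x ∈ C, (⟨x, hx⟩ : C) ∈ ε'.support := by
    intro x hx
    rw [Measure.mem_support_iff_forall] at hx
    have hxC : x ∈ C := by
      by_contra hcon
      have h1 := hx Cᶜ (hCcl.isOpen_compl.mem_nhds hcon)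
      rw [hε, Measure.map_apply hιm hCcl.measurableSet.compl] at h1
      have : ι ⁻¹' Cᶜ = ∅ := by
        ext y
        simp [ι]
      rw [this] at h1
      simp at h1
    refine ⟨hxC, ?_⟩
    rw [Measure.mem_support_iff_forall]
    intro U hU
    rw [nhds_subtype_eq_comap, mem_comap] at hU
    obtain ⟨V, hV, hVU⟩ := hU
    obtain ⟨W, hWV, hWo, hxW⟩ := _root_.mem_nhds_iff.1 hV
    have h1 := hx W (hWo.mem_nhds hxW)
    rw [hε, Measure.map_apply hιm hWo.measurableSet] at h1
    exact h1.trans_le (measure_mono ((preimage_mono hWV).trans hVU))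
  have heq : ∀ x ∈ ε.support, pt m τ ε (x : F) = pt m τ b₁ (x : F) - pt m τ b₂ (x : F) := by
    intro x hx
    obtain ⟨hxC, hx'⟩ := hsuppC x hx
    rw [hptε]
    exact hsupp _ hx'
  -- domination
  set S : Set F := (Subtype.val : XB F τ → F) '' C with hS
  have hScl : IsClosed S := (hCcl.isCompact.image continuous_subtype_val).isClosed
  have hml : ∀ z : F, ‖z‖ < 1 → z ∉ S → ml m τ b₁ z = 0 := by
    intro z _ hzS
    refine ml_zero hτ b₁ fun y hy => ?_
    by_contra hcon
    rw [not_le] at hcon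
    have hzn : ‖z‖ ≤ 1 - τ := by
      have h1 := hb y hy
      have h2 : ‖z‖ ≤ ‖z - (y : F)‖ + ‖(y : F)‖ := by
        have := norm_add_le (z - (y : F)) (y : F)
        simpa using this
      linarith
    apply hzS
    refine ⟨⟨z, by simpa using hzn⟩, ?_, rfl⟩
    rw [hC, mem_iUnion₂]
    exact ⟨y, hy, by rw [mem_closedBall, Subtype.dist_eq, dist_eq_norm]; exact hcon.le⟩
  have hle : ∀ z ∈ S, ‖z‖ ≤ 1 → pt m τ b₁ z - pt m τ b₂ z - pt m τ ε z ≤ 0 := by
    rintro z ⟨x, hx, rfl⟩ _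
    have h1 := hge ⟨x, hx⟩
    rw [hptε]
    simp only [f, pot, K'] at h1
    linarith
  have hdom := max_principle hm hm0 hτ b₁ b₂ ε S hScl hml hle
  refine ⟨ε, hεfin, fun z hz => by linarith [hdom z hz], ?_, heq, ?_⟩
  · intro x hx
    obtain ⟨hxC, _⟩ := hsuppC x hx
    rw [hC, mem_iUnion₂] at hxC
    obtain ⟨y, hy, hxy⟩ := hxC
    rw [mem_closedBall, Subtype.dist_eq, dist_eq_norm] at hxy
    exact ⟨y, hy, hxy⟩
  · intro x hx w s hs hxs
    refine ⟨SS_nonneg hτ w ε _ hs, ?_⟩
    have e0 := pt_mean2 hm hτ w ε hs hxs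
    have e1 := pt_mean2 hm hτ w b₁ hs hxs
    have e2 := pt_mean2 hm hτ w b₂ hs hxs
    have hcx : ∀ μ : Measure (XB F τ), IsFiniteMeasure μ →
        Continuous fun y : F => pt m τ μ ((x : F) - s • y) := by
      intro μ hμ
      have h : Continuous fun y : F => (x : F) - s • y := by fun_prop
      exact (continuous_pt hτ μ).comp h
    have hnn : 0 ≤ (∫ y : F, w.eta y * pt m τ ε ((x : F) - s • y)) -
        ((∫ y : F, w.eta y * pt m τ b₁ ((x : F) - s • y)) -
          (∫ y : F, w.eta y * pt m τ b₂ ((x : F) - s • y))) := by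
      have i1 := w.integrable_eta_mul (hcx b₁ inferInstance)
      have i2 := w.integrable_eta_mul (hcx b₂ inferInstance)
      have i0 := w.integrable_eta_mul (hcx ε hεfin)
      have h8 : ∫ y : F, (w.eta y * pt m τ ε ((x : F) - s • y) -
          (w.eta y * pt m τ b₁ ((x : F) - s • y) - w.eta y * pt m τ b₂ ((x : F) - s • y))) =
          (∫ y : F, w.eta y * pt m τ ε ((x : F) - s • y)) -
        ((∫ y : F, w.eta y * pt m τ b₁ ((x : F) - s • y)) -
          (∫ y : F, w.eta y * pt m τ b₂ ((x : F) - s • y))) := by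
        refine (integral_sub i0 (i1.sub i2)).trans ?_
        congr 1
        exact integral_sub i1 i2
      rw [← h8]
      refine integral_nonneg fun y => ?_
      simp only [Pi.zero_apply]
      by_cases hy : y ∈ closedBall (0 : F) 1
      · have hy1 : ‖y‖ ≤ 1 := by simpa using hy
        have hz : ‖(x : F) - s • y‖ ≤ 1 := by
          have h5 : ‖s • y‖ ≤ s := by
            rw [norm_smul, Real.norm_of_nonneg hs]
            nlinarith [norm_nonneg y]
          have := norm_sub_le (x : F) (s • y)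
          linarith
        have h6 := hdom _ hz
        have h7 := w.eta_nonneg y
        nlinarith
      · rw [w.eta_zero hy]; simp
    rw [e0, e1, e2, heq x hx] at hnn
    linarith

end

end Crest.Agent.R234.Dom_309
end

-- ▼ part R234/Dom2_309
section

/-!
Row 234, VF-SOFT / N0 (helper309): domination tested with the bump `1 - ‖z‖²`.
If `pt b₁ - pt b₂ ≤ pt ε` on the unit ball, then
`∫ (1 - ‖z‖²) db₁ - ∫ (1 - ‖z‖²) db₂ ≤ ∫ (1 - ‖z‖²) dε + τ² b₁(1)`.
-/

open MeasureTheory Filter Topology Set Metric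
open scoped ENNReal NNReal

namespace Crest.Agent.R234.Dom_309

open Crest.Agent.R234.Pot_425

noncomputable section

set_option linter.unusedSectionVars false

variable {F : Type*} [NormedAddCommGroup F] [InnerProductSpace ℝ F] [FiniteDimensional ℝ F]
  [MeasurableSpace F] [BorelSpace F]

variable {m : ℕ} {τ : ℝ}

/-- the kernel vanishes linearly at the sphere -/
lemma exists_KK_bound (m : ℕ) (hτ : 0 < τ) : ∃ G : ℝ, 0 ≤ G ∧ ∀ z y : F, ‖z‖ ≤ 1 → ‖y‖ ≤ 1 →
    0 ≤ KK m τ z y ∧ KK m τ z y ≤ G * (1 - ‖z‖ ^ 2) := by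
  have hg := continuous_gg (m := m) hτ
  obtain ⟨G, hG⟩ := (isCompact_Icc (a := (0:ℝ)) (b := 5)).exists_bound_of_continuousOn hg.continuousOn
  refine ⟨|G|, abs_nonneg _, fun z y hz hy => ?_⟩
  have h1 : 0 ≤ 1 - ‖z‖ ^ 2 := by nlinarith [norm_nonneg z]
  have h2 : 0 ≤ 1 - ‖y‖ ^ 2 := by nlinarith [norm_nonneg y]
  have h2' : 1 - ‖y‖ ^ 2 ≤ 1 := by nlinarith [norm_nonneg y]
  have h1' : 1 - ‖z‖ ^ 2 ≤ 1 := by nlinarith [norm_nonneg z]
  have h3 : 0 ≤ (1 - ‖z‖ ^ 2) * (1 - ‖y‖ ^ 2) := mul_nonneg h1 h2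
  have h4 : ‖z - y‖ ≤ 2 := by
    have := norm_sub_le z y
    linarith
  have h5 : ‖z - y‖ ^ 2 ≤ 4 := by nlinarith [norm_nonneg (z - y)]
  have h6 : 0 ≤ ‖z - y‖ ^ 2 := by positivity
  have h7 : (1 - ‖z‖ ^ 2) * (1 - ‖y‖ ^ 2) ≤ 1 - ‖z‖ ^ 2 := by nlinarith
  have hle : ‖z - y‖ ^ 2 ≤ pp z y := by unfold pp; linarith
  have hpp5 : pp z y ≤ 5 := by unfold pp; linarith
  have e1 : KK m τ z y = ∫ t in (‖z - y‖ ^ 2)..(pp z y), gg m τ t := by
    unfold KK PP
    rw [intervalIntegral.integral_interval_sub_left (hg.intervalIntegrable _ _)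
      (hg.intervalIntegrable _ _)]
  constructor
  · rw [e1]
    exact intervalIntegral.integral_nonneg hle fun t _ => (gg_pos hτ t).le
  · rw [e1]
    have h8 := intervalIntegral.norm_integral_le_of_norm_le_const (a := ‖z - y‖ ^ 2) (b := pp z y)
      (C := |G|) (f := gg m τ) (fun t ht => by
        rw [uIoc_of_le hle] at ht
        exact (hG t ⟨by linarith [ht.1], by linarith [ht.2]⟩).trans (le_abs_self _))
    rw [Real.norm_eq_abs, abs_of_nonneg (by linarith : 0 ≤ pp z y - ‖z - y‖ ^ 2)] at h8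
    have h9 : pp z y - ‖z - y‖ ^ 2 = (1 - ‖z‖ ^ 2) * (1 - ‖y‖ ^ 2) := by unfold pp; ring
    rw [h9] at h8
    calc _ ≤ |G| * ((1 - ‖z‖ ^ 2) * (1 - ‖y‖ ^ 2)) := (le_abs_self _).trans h8
      _ ≤ |G| * (1 - ‖z‖ ^ 2) := mul_le_mul_of_nonneg_left h7 (abs_nonneg _)

attribute [local irreducible] DD KK PP gg

/-- the bump -/
def bp (y : F) : ℝ := max (1 - ‖y‖ ^ 2) 0

lemma continuous_bp : Continuous (bp : F → ℝ) := by
  unfold bp
  exact (continuous_const.sub (continuous_norm.pow 2)).max continuous_const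

lemma bp_zero {y : F} (hy : y ∉ closedBall (0 : F) 1) : bp y = 0 := by
  have : 1 < ‖y‖ := by simpa using hy
  exact max_eq_right (by nlinarith)



lemma abs_psi_sub {a : ℝ} (ha : 0 < a) (y : F) : |(wa ha).psi y - bp y| ≤ a := by
  rw [wa_psi]
  unfold fa bp
  set x := max (1 - ‖y‖ ^ 2) 0 with hx
  have hx0 : 0 ≤ x := le_max_right _ _
  have h1 : x ^ 2 / (x + a) - x = -(a * x / (x + a)) := by
    field_simp
    ring
  rw [h1, abs_neg, abs_of_nonneg (by positivity), div_le_iff₀ (by positivity)]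
  nlinarith

/-- `∫ bump(y) μ_τ(-ρ y) dy` -/
def J0 (m : ℕ) (τ : ℝ) (μ : Measure (XB F τ)) (ρ : ℝ) : ℝ := ∫ y, bp y * ml m τ μ (0 - ρ • y)

lemma continuous_J0 (hτ : 0 < τ) (μ : Measure (XB F τ)) [IsFiniteMeasure μ] :
    Continuous (J0 m τ μ) := by
  unfold J0
  refine continuous_int_ball (g := fun (ρ : ℝ) (y : F) => bp y * ml m τ μ (0 - ρ • y)) ?_ ?_
  · have h1 := continuous_ml (m := m) hτ μ
    have h2 : Continuous fun p : ℝ × F => (0 : F) - p.1 • p.2 := by fun_prop
    exact (continuous_bp.comp continuous_snd).mul (h1.comp h2)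
  · intro y hy z
    simp only [bp_zero hy, zero_mul]

lemma integrable_bp_mul {h : F → ℝ} (hh : Continuous h) :
    Integrable (fun y => bp y * h y) (volume : Measure F) := by
  refine (continuous_bp.mul hh).integrable_of_hasCompactSupport ?_
  refine HasCompactSupport.intro (isCompact_closedBall (0 : F) 1) fun y hy => ?_
  simp only [Pi.mul_apply, bp_zero hy, zero_mul]

/-- bound of the mollified density near the ball -/
lemma exists_ml_bound (hτ : 0 < τ) (μ : Measure (XB F τ)) [IsFiniteMeasure μ] :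
    ∃ C, 0 ≤ C ∧ ∀ z : F, ‖z‖ ≤ 1 → ml m τ μ z ≤ C := by
  obtain ⟨C, hC⟩ := (isCompact_closedBall (0 : F) 1).exists_bound_of_continuousOn
    (continuous_ml (m := m) hτ μ).continuousOn
  refine ⟨|C|, abs_nonneg _, fun z hz => ?_⟩
  have := hC z (by simpa using hz)
  exact (le_abs_self _).trans (this.trans (le_abs_self _))

lemma J_sub_le (hτ : 0 < τ) (μ : Measure (XB F τ)) [IsFiniteMeasure μ] {C : ℝ}
    (hC : ∀ z : F, ‖z‖ ≤ 1 → ml m τ μ z ≤ C) {a : ℝ} (ha : 0 < a) {ρ : ℝ} (hρ : ρ ∈ Icc (0:ℝ) 1) :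
    |(∫ y, (wa ha).psi y * ml m τ μ ((0 : F) - ρ • y)) - J0 m τ μ ρ| ≤
      a * (C * (volume : Measure F).real (closedBall 0 1)) := by
  have hc : Continuous fun y : F => ml m τ μ ((0 : F) - ρ • y) :=
    (continuous_ml (m := m) hτ μ).comp (by fun_prop)
  have i1 := (wa ha).integrable_psi_mul hc
  have i2 := integrable_bp_mul hc
  unfold J0
  rw [← integral_sub i1 i2]
  have hfin : (volume : Measure F) (closedBall 0 1) ≠ ∞ :=
    (isCompact_closedBall (0 : F) 1).measure_lt_top.ne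
  have h1 : Integrable ((closedBall (0 : F) 1).indicator fun _ : F => a * C) := by
    rw [integrable_indicator_iff measurableSet_closedBall]
    exact integrableOn_const hfin
  calc |∫ y, ((wa ha).psi y * ml m τ μ ((0 : F) - ρ • y) - bp y * ml m τ μ ((0 : F) - ρ • y))|
      ≤ ∫ y, |(wa ha).psi y * ml m τ μ ((0 : F) - ρ • y) - bp y * ml m τ μ ((0 : F) - ρ • y)| :=
        abs_integral_le_integral_abs
    _ ≤ ∫ y, (closedBall (0 : F) 1).indicator (fun _ : F => a * C) y := by
        refine integral_mono (i1.sub i2).abs h1 fun y => ?_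
        by_cases hy : y ∈ closedBall (0 : F) 1
        · rw [indicator_of_mem hy]
          have hy1 : ‖y‖ ≤ 1 := by simpa using hy
          have hz : ‖(0 : F) - ρ • y‖ ≤ 1 := by
            rw [zero_sub, norm_neg, norm_smul, Real.norm_of_nonneg hρ.1]
            nlinarith [norm_nonneg y, hρ.1, hρ.2]
          simp only
          rw [← sub_mul, abs_mul]
          have h2 := ml_nonneg (m := m) hτ μ ((0 : F) - ρ • y)
          rw [abs_of_nonneg h2]
          exact mul_le_mul (abs_psi_sub ha y) (hC _ hz) h2 ha.le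
        · rw [indicator_of_notMem hy]
          simp only
          rw [(wa ha).psi_zero hy, bp_zero hy]
          simp
    _ = a * (C * (volume : Measure F).real (closedBall 0 1)) := by
        rw [integral_indicator measurableSet_closedBall, setIntegral_const, smul_eq_mul]
        ring

lemma fa'_tendsto {x : ℝ} (hx : 0 < x) :
    Tendsto (fun n : ℕ => fa' (1 / ((n : ℝ) + 1)) x) atTop (𝓝 1) := by
  have h1 : Tendsto (fun n : ℕ => 1 / ((n : ℝ) + 1)) atTop (𝓝 0) :=
    tendsto_one_div_add_atTop_nhds_zero_nat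
  have h2 : Tendsto (fun a : ℝ => fa' a x) (𝓝 0) (𝓝 (fa' 0 x)) := by
    have hc : ContinuousAt (fun a : ℝ => fa' a x) 0 := by
      unfold fa'
      refine ContinuousAt.div (by fun_prop) (by fun_prop) ?_
      rw [max_eq_left hx.le]
      positivity
    exact hc
  have h3 : fa' 0 x = 1 := by
    unfold fa'
    rw [max_eq_left hx.le]
    field_simp
    ring
  rw [h3] at h2
  exact h2.comp h1

/-- limit of the averages -/
lemma tendsto_avg {v : F → ℝ} (hv : Continuous v) (s : ℝ) :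
    Tendsto (fun n : ℕ => ∫ y, (wa (show (0:ℝ) < 1 / ((n : ℝ) + 1) by positivity)).eta y *
      v ((0 : F) - s • y)) atTop (𝓝 (∫ y in ball (0 : F) 1, 2 * v ((0 : F) - s • y))) := by
  have hc : Continuous fun y : F => v ((0 : F) - s • y) := hv.comp (by fun_prop)
  obtain ⟨C, hC⟩ := (isCompact_closedBall (0 : F) 1).exists_bound_of_continuousOn hc.continuousOn
  have hfin : (volume : Measure F) (closedBall 0 1) ≠ ∞ :=
    (isCompact_closedBall (0 : F) 1).measure_lt_top.ne
  rw [← integral_indicator isOpen_ball.measurableSet]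
  refine tendsto_integral_of_dominated_convergence
    ((closedBall (0 : F) 1).indicator fun _ : F => 2 * C) ?_ ?_ ?_ ?_
  · intro n
    exact ((wa _).integrable_eta_mul hc).aestronglyMeasurable
  · rw [integrable_indicator_iff measurableSet_closedBall]
    exact integrableOn_const hfin
  · intro n
    refine Eventually.of_forall fun y => ?_
    by_cases hy : y ∈ closedBall (0 : F) 1
    · rw [indicator_of_mem hy, norm_mul]
      have h1 := fa'_nonneg (show (0:ℝ) < 1 / ((n : ℝ) + 1) by positivity) (1 - ‖y‖ ^ 2)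
      have h2 := fa'_le_one (show (0:ℝ) < 1 / ((n : ℝ) + 1) by positivity) (1 - ‖y‖ ^ 2)
      rw [wa_eta, Real.norm_of_nonneg (by positivity)]
      exact mul_le_mul (by linarith) (hC y hy) (norm_nonneg _) zero_le_two
    · rw [indicator_of_notMem hy, (wa _).eta_zero hy]
      simp
  · refine Eventually.of_forall fun y => ?_
    by_cases hy : y ∈ ball (0 : F) 1
    · rw [indicator_of_mem hy]
      simp only [wa_eta]
      have hy1 : ‖y‖ < 1 := by simpa using hy
      have h := (fa'_tendsto (x := 1 - ‖y‖ ^ 2) (by nlinarith [norm_nonneg y])).const_mul 2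
      rw [mul_one] at h
      exact h.mul_const _
    · rw [indicator_of_notMem hy]
      have hy1 : 1 ≤ ‖y‖ := by simpa using hy
      refine tendsto_const_nhds.congr fun n => ?_
      rw [(wa _).eta_zero' hy1, zero_mul]

/-- the signed potential -/
def vv (m : ℕ) (τ : ℝ) (b₁ b₂ ε : Measure (XB F τ)) (z : F) : ℝ :=
  pt m τ b₁ z - pt m τ b₂ z - pt m τ ε z

lemma continuous_vv (hτ : 0 < τ) (b₁ b₂ ε : Measure (XB F τ)) [IsFiniteMeasure b₁]
    [IsFiniteMeasure b₂] [IsFiniteMeasure ε] : Continuous (vv m τ b₁ b₂ ε) :=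
  ((continuous_pt hτ b₁).sub (continuous_pt hτ b₂)).sub (continuous_pt hτ ε)

lemma avg_eq (hm : m = Module.finrank ℝ F) (hτ : 0 < τ) (w : Wt) (b₁ b₂ ε : Measure (XB F τ))
    [IsFiniteMeasure b₁] [IsFiniteMeasure b₂] [IsFiniteMeasure ε] {s : ℝ} (hs : 0 ≤ s)
    (hs1 : s ≤ 1) :
    ∫ y, w.eta y * vv m τ b₁ b₂ ε ((0 : F) - s • y) =
      (∫ y : F, w.eta y) * vv m τ b₁ b₂ ε 0 -
        (SS m τ w b₁ 0 s - SS m τ w b₂ 0 s - SS m τ w ε 0 s) := by
  have hx : ‖(0 : F)‖ + s ≤ 1 := by simpa using hs1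
  have e1 := pt_mean2 hm hτ w b₁ hs hx
  have e2 := pt_mean2 hm hτ w b₂ hs hx
  have e3 := pt_mean2 hm hτ w ε hs hx
  have hcx : ∀ μ : Measure (XB F τ), IsFiniteMeasure μ →
      Continuous fun y : F => pt m τ μ ((0 : F) - s • y) := by
    intro μ hμ
    have h : Continuous fun y : F => (0 : F) - s • y := by fun_prop
    exact (continuous_pt hτ μ).comp h
  have j1 := w.integrable_eta_mul (hcx b₁ inferInstance)
  have j2 := w.integrable_eta_mul (hcx b₂ inferInstance)
  have j3 := w.integrable_eta_mul (hcx ε inferInstance)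
  have k1 := integral_sub j1 j2
  have k2 := integral_sub (j1.sub j2) j3
  simp only [Pi.sub_apply] at k2
  have hint : ∫ y, w.eta y * vv m τ b₁ b₂ ε ((0 : F) - s • y) =
      (∫ y, w.eta y * pt m τ b₁ ((0 : F) - s • y)) -
      (∫ y, w.eta y * pt m τ b₂ ((0 : F) - s • y)) - ∫ y, w.eta y * pt m τ ε ((0 : F) - s • y) := by
    rw [← k1, ← k2]
    refine integral_congr_ae (Eventually.of_forall fun y => ?_)
    simp only [vv]
    ring
  rw [hint, e1, e2, e3]
  unfold vv
  ring

/-- `SS(1) - SS(s)` against the bump -/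
lemma SS_sub_le (hτ : 0 < τ) (μ : Measure (XB F τ)) [IsFiniteMeasure μ] {C : ℝ} (hC0 : 0 ≤ C)
    (hC : ∀ z : F, ‖z‖ ≤ 1 → ml m τ μ z ≤ C) {a : ℝ} (ha : 0 < a) {s : ℝ} (hs : 0 ≤ s)
    (hs1 : s ≤ 1) :
    |(SS m τ (wa ha) μ 0 1 - SS m τ (wa ha) μ 0 s) - ∫ ρ in s..1, ρ * J0 m τ μ ρ| ≤
      a * (C * (volume : Measure F).real (closedBall 0 1)) := by
  have hJc : Continuous fun ρ : ℝ => ∫ y, (wa ha).psi y * ml m τ μ ((0 : F) - ρ • y) := by
    refine continuous_int_ball (g := fun (ρ : ℝ) (y : F) =>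
      (wa ha).psi y * ml m τ μ ((0 : F) - ρ • y)) ?_ ?_
    · have h1 := continuous_ml (m := m) hτ μ
      have h2 : Continuous fun p : ℝ × F => (0 : F) - p.1 • p.2 := by fun_prop
      exact ((wa ha).continuous_psi.comp continuous_snd).mul (h1.comp h2)
    · intro y hy z
      simp only [(wa ha).psi_zero hy, zero_mul]
  have hc1 : Continuous fun ρ : ℝ => ρ * ∫ y, (wa ha).psi y * ml m τ μ ((0 : F) - ρ • y) :=
    continuous_id.mul hJc
  have hc2 : Continuous fun ρ : ℝ => ρ * J0 m τ μ ρ := continuous_id.mul (continuous_J0 hτ μ)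
  have e1 : SS m τ (wa ha) μ 0 1 - SS m τ (wa ha) μ 0 s =
      ∫ ρ in s..1, ρ * ∫ y, (wa ha).psi y * ml m τ μ ((0 : F) - ρ • y) := by
    unfold SS
    rw [intervalIntegral.integral_interval_sub_left (hc1.intervalIntegrable _ _)
      (hc1.intervalIntegrable _ _)]
  rw [e1, ← intervalIntegral.integral_sub (hc1.intervalIntegrable _ _)
    (hc2.intervalIntegrable _ _)]
  have h3 := intervalIntegral.norm_integral_le_of_norm_le_const (a := s) (b := 1)
    (C := a * (C * (volume : Measure F).real (closedBall 0 1)))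
    (f := fun ρ => ρ * (∫ y, (wa ha).psi y * ml m τ μ ((0 : F) - ρ • y)) - ρ * J0 m τ μ ρ) ?_
  · rw [Real.norm_eq_abs] at h3
    refine h3.trans ?_
    rw [abs_of_nonneg (by linarith : (0:ℝ) ≤ 1 - s)]
    have h4 : 0 ≤ a * (C * (volume : Measure F).real (closedBall 0 1)) := by positivity
    nlinarith
  · intro ρ hρ
    rw [uIoc_of_le hs1] at hρ
    have hρ' : ρ ∈ Icc (0:ℝ) 1 := ⟨by linarith [hρ.1], hρ.2⟩
    rw [← mul_sub, norm_mul, Real.norm_of_nonneg hρ'.1, Real.norm_eq_abs]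
    have h5 := J_sub_le hτ μ hC ha hρ'
    have h6 : 0 ≤ |(∫ y, (wa ha).psi y * ml m τ μ ((0 : F) - ρ • y)) - J0 m τ μ ρ| := abs_nonneg _
    nlinarith [hρ'.1, hρ'.2]

/-- the identity with the uniform weight -/
lemma uniform_identity (hm : m = Module.finrank ℝ F) (hτ : 0 < τ) (b₁ b₂ ε : Measure (XB F τ))
    [IsFiniteMeasure b₁] [IsFiniteMeasure b₂] [IsFiniteMeasure ε] {s : ℝ} (hs : 0 ≤ s)
    (hs1 : s ≤ 1) :
    (∫ y in ball (0 : F) 1, 2 * vv m τ b₁ b₂ ε ((0 : F) - (1 : ℝ) • y)) -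
      (∫ y in ball (0 : F) 1, 2 * vv m τ b₁ b₂ ε ((0 : F) - s • y)) =
      - ((∫ ρ in s..1, ρ * J0 m τ b₁ ρ) - (∫ ρ in s..1, ρ * J0 m τ b₂ ρ)
        - ∫ ρ in s..1, ρ * J0 m τ ε ρ) := by
  obtain ⟨C1, hC10, hC1⟩ := exists_ml_bound (m := m) hτ b₁
  obtain ⟨C2, hC20, hC2⟩ := exists_ml_bound (m := m) hτ b₂
  obtain ⟨C3, hC30, hC3⟩ := exists_ml_bound (m := m) hτ ε
  have hvc := continuous_vv (m := m) hτ b₁ b₂ ε
  have hpos : ∀ n : ℕ, (0:ℝ) < 1 / ((n : ℝ) + 1) := fun n => by positivity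
  have t1 := (tendsto_avg hvc 1).sub (tendsto_avg hvc s)
  set V := (volume : Measure F).real (closedBall 0 1) with hV
  have t2 : Tendsto (fun n : ℕ =>
      -((SS m τ (wa (hpos n)) b₁ 0 1 - SS m τ (wa (hpos n)) b₁ 0 s) -
        (SS m τ (wa (hpos n)) b₂ 0 1 - SS m τ (wa (hpos n)) b₂ 0 s) -
        (SS m τ (wa (hpos n)) ε 0 1 - SS m τ (wa (hpos n)) ε 0 s))) atTop
      (𝓝 (- ((∫ ρ in s..1, ρ * J0 m τ b₁ ρ) - (∫ ρ in s..1, ρ * J0 m τ b₂ ρ)
        - ∫ ρ in s..1, ρ * J0 m τ ε ρ))) := by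
    have h0 : ∀ (C : ℝ) , Tendsto (fun n : ℕ => 1 / ((n : ℝ) + 1) * (C * V)) atTop (𝓝 0) := by
      intro C
      have := (tendsto_one_div_add_atTop_nhds_zero_nat (𝕜 := ℝ)).mul_const (C * V)
      simpa using this
    have k : ∀ (μ : Measure (XB F τ)) (hμ : IsFiniteMeasure μ) (C : ℝ), 0 ≤ C →
        (∀ z : F, ‖z‖ ≤ 1 → ml m τ μ z ≤ C) →
        Tendsto (fun n : ℕ => SS m τ (wa (hpos n)) μ 0 1 - SS m τ (wa (hpos n)) μ 0 s) atTop
          (𝓝 (∫ ρ in s..1, ρ * J0 m τ μ ρ)) := by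
      intro μ hμ C hC0 hC
      rw [tendsto_iff_norm_sub_tendsto_zero]
      refine squeeze_zero (fun _ => norm_nonneg _) (fun n => ?_) (h0 C)
      rw [Real.norm_eq_abs]
      exact SS_sub_le hτ μ hC0 hC (hpos n) hs hs1
    exact (((k b₁ inferInstance C1 hC10 hC1).sub (k b₂ inferInstance C2 hC20 hC2)).sub
      (k ε inferInstance C3 hC30 hC3)).neg
  refine tendsto_nhds_unique t1 (t2.congr fun n => ?_)
  rw [avg_eq hm hτ (wa (hpos n)) b₁ b₂ ε zero_le_one le_rfl,
    avg_eq hm hτ (wa (hpos n)) b₁ b₂ ε hs hs1]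
  ring

lemma exists_pt_bound (m : ℕ) (hτ : 0 < τ) (μ : Measure (XB F τ)) [IsFiniteMeasure μ] :
    ∃ C : ℝ, 0 ≤ C ∧ ∀ z : F, ‖z‖ ≤ 1 → pt m τ μ z ≤ C * (1 - ‖z‖ ^ 2) := by
  obtain ⟨G, hG0, hG⟩ := exists_KK_bound (F := F) m hτ
  refine ⟨G * μ.real univ, by positivity, fun z hz => ?_⟩
  have h1 : pt m τ μ z ≤ ∫ _ : XB F τ, G * (1 - ‖z‖ ^ 2) ∂μ := by
    unfold pt
    refine integral_mono ?_ (integrable_const _) fun y => ?_
    · exact integrable_cont μ ((continuous_KK (m := m) hτ).comp (by fun_prop :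
        Continuous fun y : XB F τ => (z, (y : F))))
    · have := XB_norm y
      exact (hG z y hz (by linarith)).2
  refine h1.trans (le_of_eq ?_)
  rw [integral_const, smul_eq_mul]
  ring

/-- the difference of the two averages is quadratically small -/
lemma avg_diff_ge (hm : m = Module.finrank ℝ F) (hτ : 0 < τ) (b₁ b₂ ε : Measure (XB F τ))
    [IsFiniteMeasure b₁] [IsFiniteMeasure b₂] [IsFiniteMeasure ε]
    (hv : ∀ z : F, ‖z‖ ≤ 1 → vv m τ b₁ b₂ ε z ≤ 0) :
    ∃ C : ℝ, 0 ≤ C ∧ ∀ s ∈ Ioo (0:ℝ) 1, - (C * ((1 - s) * (1 - s ^ m))) ≤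
      (∫ y in ball (0 : F) 1, 2 * vv m τ b₁ b₂ ε ((0 : F) - (1 : ℝ) • y)) -
      (∫ y in ball (0 : F) 1, 2 * vv m τ b₁ b₂ ε ((0 : F) - s • y)) := by
  obtain ⟨C2, hC20, hC2⟩ := exists_pt_bound (F := F) m hτ b₂
  obtain ⟨C3, hC30, hC3⟩ := exists_pt_bound (F := F) m hτ ε
  have hptn : ∀ z : F, ‖z‖ ≤ 1 → 0 ≤ pt m τ b₁ z := by
    intro z hz
    obtain ⟨G, hG0, hG⟩ := exists_KK_bound (F := F) m hτ
    exact integral_nonneg fun y => (hG z y hz (by have := XB_norm y; linarith)).1
  set V := (volume : Measure F).real (ball 0 1) with hV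
  refine ⟨4 * (C2 + C3) * V, by positivity, fun s hs => ?_⟩
  have hs0 := hs.1
  set g : F → ℝ := fun z => 2 * vv m τ b₁ b₂ ε ((0 : F) - z) with hg
  have hgc : Continuous g := continuous_const.mul ((continuous_vv hτ b₁ b₂ ε).comp (by fun_prop))
  have hgi : ∀ r : ℝ, IntegrableOn g (ball (0 : F) r) := fun r =>
    (hgc.continuousOn.integrableOn_compact (isCompact_closedBall (0 : F) r)).mono_set
      ball_subset_closedBall
  have hg0 : ∀ z : F, ‖z‖ ≤ 1 → g z ≤ 0 := fun z hz => by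
    have := hv ((0 : F) - z) (by simpa using hz)
    simp only [hg]; linarith
  have hglow : ∀ z : F, ‖z‖ ≤ 1 → -(2 * (C2 + C3) * (1 - ‖z‖ ^ 2)) ≤ g z := fun z hz => by
    have hz' : ‖(0 : F) - z‖ ≤ 1 := by simpa using hz
    have h1 := hptn _ hz'
    have h2 := hC2 _ hz'
    have h3 := hC3 _ hz'
    have hn : ‖(0 : F) - z‖ = ‖z‖ := by simp
    rw [hn] at h2 h3
    simp only [hg, vv]
    linarith
  have e1 : ∫ y in ball (0 : F) 1, 2 * vv m τ b₁ b₂ ε ((0 : F) - (1 : ℝ) • y) =
      ∫ y in ball (0 : F) 1, g y := by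
    refine integral_congr_ae (Eventually.of_forall fun y => ?_)
    simp only [hg, one_smul]
  have e2 : ∫ y in ball (0 : F) 1, 2 * vv m τ b₁ b₂ ε ((0 : F) - s • y) =
      (s ^ m)⁻¹ * ∫ y in ball (0 : F) s, g y := by
    have h := Measure.setIntegral_comp_smul_of_pos (volume : Measure F) g (ball (0 : F) 1) hs0
    rw [_root_.smul_ball hs0.ne', smul_zero, Real.norm_of_nonneg hs0.le, mul_one, ← hm, smul_eq_mul] at h
    exact h
  have hIs : ∫ y in ball (0 : F) s, g y ≤ 0 :=
    setIntegral_nonpos measurableSet_ball fun z hz => hg0 z (by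
      have : ‖z‖ < s := by simpa using hz
      linarith [hs.2])
  have hsm : 1 ≤ (s ^ m)⁻¹ := (one_le_inv₀ (by positivity)).2 (pow_le_one₀ hs0.le hs.2.le)
  have h3 : (s ^ m)⁻¹ * ∫ y in ball (0 : F) s, g y ≤ ∫ y in ball (0 : F) s, g y := by nlinarith
  have hsub : ball (0 : F) s ⊆ ball 0 1 := ball_subset_ball hs.2.le
  have h4 : (∫ y in ball (0 : F) 1, g y) - ∫ y in ball (0 : F) s, g y =
      ∫ y in ball (0 : F) 1 \ ball 0 s, g y := by
    rw [setIntegral_sdiff measurableSet_ball (hgi 1) hsub]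
  have hcon : ∀ c : ℝ, ∫ _ in ball (0 : F) 1 \ ball 0 s, c = c * (V * (1 - s ^ m)) := by
    intro c
    rw [setIntegral_sdiff measurableSet_ball (integrableOn_const measure_ball_lt_top.ne) hsub,
      setIntegral_const, setIntegral_const, smul_eq_mul, smul_eq_mul]
    have h5 : (volume : Measure F).real (ball (0 : F) s) = s ^ m * V := by
      rw [hV, measureReal_def, measureReal_def, Measure.addHaar_ball_of_pos _ _ hs0, ← hm,
        ENNReal.toReal_mul, ENNReal.toReal_ofReal (by positivity)]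
    rw [h5, ← hV]
    ring
  have h6 : ∫ _ in ball (0 : F) 1 \ ball 0 s, (-(2 * (C2 + C3) * (1 - s ^ 2))) ≤
      ∫ y in ball (0 : F) 1 \ ball 0 s, g y := by
    refine setIntegral_mono_on ?_ ((hgi 1).mono_set sdiff_subset)
      (measurableSet_ball.diff measurableSet_ball) fun z hz => ?_
    · exact integrableOn_const ((measure_mono sdiff_subset).trans_lt measure_ball_lt_top).ne
    · have hz1 : ‖z‖ < 1 := by simpa using hz.1
      have hz2 : s ≤ ‖z‖ := by simpa using hz.2
      refine le_trans ?_ (hglow z hz1.le)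
      have h7 : s ^ 2 ≤ ‖z‖ ^ 2 := by gcongr
      have h8 : 0 ≤ 2 * (C2 + C3) := by positivity
      nlinarith
  rw [hcon] at h6
  rw [e1, e2]
  have h9 : 1 - s ^ 2 ≤ 2 * (1 - s) := by nlinarith [hs.2]
  have h10 : 0 ≤ 1 - s ^ m := by
    have := pow_le_one₀ (n := m) hs0.le hs.2.le
    linarith
  have hV0 : 0 ≤ V := measureReal_nonneg
  have h11 : 2 * (C2 + C3) * (1 - s ^ 2) * (V * (1 - s ^ m)) ≤
      2 * (C2 + C3) * (2 * (1 - s)) * (V * (1 - s ^ m)) := by
    have : 0 ≤ V * (1 - s ^ m) := by positivity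
    have : 0 ≤ 2 * (C2 + C3) := by positivity
    gcongr
  have h12 : 2 * (C2 + C3) * (2 * (1 - s)) * (V * (1 - s ^ m)) =
      4 * (C2 + C3) * V * ((1 - s) * (1 - s ^ m)) := by ring
  linarith

/-- **the bump inequality** in mollified form -/
theorem J0_nonpos (hm : m = Module.finrank ℝ F) (hτ : 0 < τ) (b₁ b₂ ε : Measure (XB F τ))
    [IsFiniteMeasure b₁] [IsFiniteMeasure b₂] [IsFiniteMeasure ε]
    (hv : ∀ z : F, ‖z‖ ≤ 1 → vv m τ b₁ b₂ ε z ≤ 0) :
    J0 m τ b₁ 1 - J0 m τ b₂ 1 - J0 m τ ε 1 ≤ 0 := by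
  by_contra hcon
  rw [not_le] at hcon
  obtain ⟨C, hC0, hC⟩ := avg_diff_ge hm hτ b₁ b₂ ε hv
  have c1 := continuous_J0 (m := m) hτ b₁
  have c2 := continuous_J0 (m := m) hτ b₂
  have c3 := continuous_J0 (m := m) hτ ε
  set Φ : ℝ → ℝ := fun ρ => ρ * J0 m τ b₁ ρ - ρ * J0 m τ b₂ ρ - ρ * J0 m τ ε ρ with hΦ
  have hΦc : Continuous Φ := ((continuous_id.mul c1).sub (continuous_id.mul c2)).sub
    (continuous_id.mul c3)
  have hΦ1 : 0 < Φ 1 := by simp only [hΦ, one_mul]; exact hcon
  -- points near 1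
  have ev1 : ∀ᶠ ρ in 𝓝 (1:ℝ), Φ 1 / 2 < Φ ρ :=
    hΦc.continuousAt.eventually (lt_mem_nhds (half_lt_self hΦ1))
  have ev2 : ∀ᶠ s in 𝓝 (1:ℝ), C * (1 - s ^ m) < Φ 1 / 2 := by
    have h1 : ContinuousAt (fun s : ℝ => C * (1 - s ^ m)) 1 := by fun_prop
    have h2 : C * (1 - (1:ℝ) ^ m) < Φ 1 / 2 := by
      rw [one_pow, sub_self, mul_zero]; linarith
    exact h1.eventually (gt_mem_nhds h2)
  obtain ⟨δ, hδ0, hδ⟩ := Metric.eventually_nhds_iff.1 (ev1.and ev2)
  set s : ℝ := 1 - min δ 1 / 2 with hs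
  have hmin : 0 < min δ 1 := lt_min hδ0 one_pos
  have hmin1 : min δ 1 ≤ 1 := min_le_right _ _
  have hmind : min δ 1 ≤ δ := min_le_left _ _
  have hs01 : s ∈ Ioo (0:ℝ) 1 := ⟨by rw [hs]; linarith, by rw [hs]; linarith⟩
  have hnear : ∀ ρ ∈ Icc s 1, dist ρ 1 < δ := by
    intro ρ hρ
    rw [Real.dist_eq, abs_of_nonpos (by linarith [hρ.2])]
    have := hρ.1
    rw [hs] at this
    linarith
  have h1 := hC s hs01
  rw [uniform_identity hm hτ b₁ b₂ ε hs01.1.le hs01.2.le] at h1
  have i1 : IntervalIntegrable (fun ρ => ρ * J0 m τ b₁ ρ) volume s 1 :=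
    (continuous_id.mul c1).intervalIntegrable _ _
  have i2 : IntervalIntegrable (fun ρ => ρ * J0 m τ b₂ ρ) volume s 1 :=
    (continuous_id.mul c2).intervalIntegrable _ _
  have i3 : IntervalIntegrable (fun ρ => ρ * J0 m τ ε ρ) volume s 1 :=
    (continuous_id.mul c3).intervalIntegrable _ _
  rw [← intervalIntegral.integral_sub i1 i2, ← intervalIntegral.integral_sub (i1.sub i2) i3] at h1
  have h2 : (1 - s) * (Φ 1 / 2) ≤ ∫ ρ in s..1, Φ ρ := by
    have h3 : (∫ _ in s..1, Φ 1 / 2) = (1 - s) * (Φ 1 / 2) := by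
      rw [intervalIntegral.integral_const, smul_eq_mul]
    rw [← h3]
    refine intervalIntegral.integral_mono_on hs01.2.le (by simp)
      (hΦc.intervalIntegrable _ _) fun ρ hρ => ?_
    exact (hδ (hnear ρ hρ)).1.le
  have h4 := (hδ (hnear s ⟨le_rfl, hs01.2.le⟩)).2
  have h5 : 0 < 1 - s := by linarith [hs01.2]
  have h6 : ∫ ρ in s..1, Φ ρ ≤ C * ((1 - s) * (1 - s ^ m)) := by
    simp only [hΦ]
    linarith
  have h7 : (1 - s) * (C * (1 - s ^ m)) < (1 - s) * (Φ 1 / 2) := mul_lt_mul_of_pos_left h4 h5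
  nlinarith

/-! ### the exact value of the mollified bump -/

/-- mass of the mollifier -/
def cD (F : Type*) [NormedAddCommGroup F] [InnerProductSpace ℝ F] [FiniteDimensional ℝ F]
    [MeasurableSpace F] [BorelSpace F] (m : ℕ) (τ : ℝ) : ℝ := ∫ u : F, DD m τ (‖u‖ ^ 2)

/-- second moment of the mollifier -/
def kD (F : Type*) [NormedAddCommGroup F] [InnerProductSpace ℝ F] [FiniteDimensional ℝ F]
    [MeasurableSpace F] [BorelSpace F] (m : ℕ) (τ : ℝ) : ℝ := ∫ u : F, ‖u‖ ^ 2 * DD m τ (‖u‖ ^ 2)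

lemma DD_far (hτ : 0 < τ) {u : F} (hu : u ∉ closedBall (0 : F) τ) : DD m τ (‖u‖ ^ 2) = 0 := by
  have : τ < ‖u‖ := by simpa using hu
  exact DD_of_ge hτ (by gcongr)

lemma integrable_mul_DD (hτ : 0 < τ) {h : F → ℝ} (hh : Continuous h) :
    Integrable (fun u : F => h u * DD m τ (‖u‖ ^ 2)) := by
  have hc : Continuous fun u : F => h u * DD m τ (‖u‖ ^ 2) :=
    hh.mul ((continuous_DD hτ).comp (continuous_norm.pow 2))
  refine hc.integrable_of_hasCompactSupport ?_
  refine HasCompactSupport.intro (isCompact_closedBall (0 : F) τ) fun y hy => ?_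
  rw [DD_far hτ hy, mul_zero]

lemma cD_pos (hm : m = Module.finrank ℝ F) (hm0 : 0 < m) (hτ : 0 < τ) : 0 < cD F m τ := by
  have hc : Continuous fun u : F => DD m τ (‖u‖ ^ 2) :=
    (continuous_DD hτ).comp (continuous_norm.pow 2)
  refine Continuous.integral_pos_of_hasCompactSupport_nonneg_nonzero hc
    (HasCompactSupport.intro (isCompact_closedBall (0 : F) τ) fun y hy => DD_far hτ hy)
    (fun u => DD_nonneg hτ _) (x := 0) ?_
  have hm1 : (0:ℝ) < m := by exact_mod_cast hm0
  have h2 : 0 < τ ^ 2 := by positivity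
  have h3 : 0 < (τ ^ 2) ^ (-(m : ℝ) / 2 - 1) := Real.rpow_pos_of_pos h2 _
  rw [norm_zero, zero_pow two_ne_zero, DD_of_le hτ h2.le, sub_zero]
  have h4 : (0:ℝ) < m * (1 + m / 2) * (τ ^ 2) ^ (-(m : ℝ) / 2 - 1) * τ ^ 2 := by positivity
  exact h4.ne'

lemma kD_nonneg (hτ : 0 < τ) : 0 ≤ kD F m τ :=
  integral_nonneg fun u => mul_nonneg (by positivity) (DD_nonneg hτ _)

lemma kD_le (hτ : 0 < τ) : kD F m τ ≤ τ ^ 2 * cD F m τ := by
  unfold kD cD
  rw [← integral_const_mul]
  refine integral_mono (integrable_mul_DD hτ (continuous_norm.pow 2))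
    (integrable_mul_DD hτ continuous_const) fun u => ?_
  simp only
  by_cases hu : u ∈ closedBall (0 : F) τ
  · have h1 : ‖u‖ ≤ τ := by simpa using hu
    have h2 := DD_nonneg (m := m) hτ (‖u‖ ^ 2)
    gcongr
  · rw [DD_far hτ hu]; simp

/-- mollified bump = bump - constant -/
lemma int_bp_DD (hτ : 0 < τ) {z : F} (hz : ‖z‖ ≤ 1 - τ) :
    ∫ y : F, bp y * DD m τ (‖((0 : F) - (1 : ℝ) • y) - z‖ ^ 2) =
      cD F m τ * (1 - ‖z‖ ^ 2) - kD F m τ := by
  have e0 : ∫ y : F, bp y * DD m τ (‖((0 : F) - (1 : ℝ) • y) - z‖ ^ 2) =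
      ∫ u : F, bp (-z - u) * DD m τ (‖u‖ ^ 2) := by
    rw [← integral_sub_left_eq_self (fun y : F => bp y *
      DD m τ (‖((0 : F) - (1 : ℝ) • y) - z‖ ^ 2)) volume (-z)]
    refine integral_congr_ae (Eventually.of_forall fun u => ?_)
    simp only
    have : (0 : F) - (1 : ℝ) • (-z - u) - z = u := by
      rw [one_smul]; abel
    rw [this]
  have e1 : ∀ u : F, bp (-z - u) * DD m τ (‖u‖ ^ 2) =
      (1 - ‖z‖ ^ 2) * DD m τ (‖u‖ ^ 2) - ‖u‖ ^ 2 * DD m τ (‖u‖ ^ 2) -
        (2 * inner ℝ z u) * DD m τ (‖u‖ ^ 2) := by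
    intro u
    by_cases hu : u ∈ closedBall (0 : F) τ
    · have h1 : ‖u‖ ≤ τ := by simpa using hu
      have h2 : ‖-z - u‖ ≤ 1 := by
        have := norm_sub_le (-z) u
        rw [norm_neg] at this
        linarith
      have h3 : bp (-z - u) = 1 - ‖-z - u‖ ^ 2 :=
        max_eq_left (by nlinarith [norm_nonneg (-z - u)])
      have h4 : ‖-z - u‖ ^ 2 = ‖z‖ ^ 2 + 2 * inner ℝ z u + ‖u‖ ^ 2 := by
        rw [norm_sub_sq_real, norm_neg, inner_neg_left]; ring
      rw [h3, h4]; ring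
    · rw [DD_far hτ hu]; ring
  have i1 := integrable_mul_DD (m := m) hτ (h := fun _ : F => (1 - ‖z‖ ^ 2)) continuous_const
  have i2 := integrable_mul_DD (m := m) hτ (h := fun u : F => ‖u‖ ^ 2) (continuous_norm.pow 2)
  have i3 := integrable_mul_DD (m := m) hτ (h := fun u : F => 2 * inner ℝ z u) (by fun_prop)
  have e2 : ∫ u : F, (2 * inner ℝ z u) * DD m τ (‖u‖ ^ 2) = 0 := by
    have h := integral_neg_eq_self (fun u : F => (2 * inner ℝ z u) * DD m τ (‖u‖ ^ 2)) volume
    have h2 : ∫ u : F, (2 * inner ℝ z (-u)) * DD m τ (‖-u‖ ^ 2) =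
        - ∫ u : F, (2 * inner ℝ z u) * DD m τ (‖u‖ ^ 2) := by
      rw [← integral_neg]
      refine integral_congr_ae (Eventually.of_forall fun u => ?_)
      simp only [inner_neg_right, norm_neg]
      ring
    rw [h2] at h
    linarith
  have k1 := integral_sub i1 i2
  have k2 := integral_sub (i1.sub i2) i3
  simp only [Pi.sub_apply] at k2
  rw [e0, integral_congr_ae (Eventually.of_forall e1), k2, k1, e2, integral_const_mul]
  unfold cD kD
  ring

lemma J0_one (hτ : 0 < τ) (μ : Measure (XB F τ)) [IsFiniteMeasure μ] :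
    J0 m τ μ 1 = cD F m τ * (∫ z : XB F τ, (1 - ‖(z : F)‖ ^ 2) ∂μ) - kD F m τ * μ.real univ := by
  have e0 : J0 m τ μ 1 = ∫ z : XB F τ, (∫ y : F, bp y *
      DD m τ (‖((0 : F) - (1 : ℝ) • y) - (z : F)‖ ^ 2)) ∂μ := by
    rw [← swap_ball (F := F) μ (g := fun (y : F) (z : XB F τ) =>
      bp y * DD m τ (‖((0 : F) - (1 : ℝ) • y) - (z : F)‖ ^ 2))]
    · unfold J0 ml
      refine integral_congr_ae (Eventually.of_forall fun y => ?_)
      simp only
      rw [integral_const_mul]
    · have h3 : Continuous fun p : F × XB F τ => ‖((0 : F) - (1 : ℝ) • p.1) - (p.2 : F)‖ ^ 2 := by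
        fun_prop
      exact (continuous_bp.comp continuous_fst).mul ((continuous_DD (m := m) hτ).comp h3)
    · intro y hy z
      rw [bp_zero hy, zero_mul]
  rw [e0]
  have e1 : ∀ z : XB F τ, ∫ y : F, bp y * DD m τ (‖((0 : F) - (1 : ℝ) • y) - (z : F)‖ ^ 2) =
      cD F m τ * (1 - ‖(z : F)‖ ^ 2) - kD F m τ := fun z => int_bp_DD hτ (XB_norm z)
  simp only [e1]
  have hc : Continuous fun z : XB F τ => (1 - ‖(z : F)‖ ^ 2) := by fun_prop
  have hi := integrable_cont μ hc
  rw [integral_sub (hi.const_mul _) (integrable_const _), integral_const_mul, integral_const,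
    smul_eq_mul]
  ring

/-- **BUMP DOMINATION.** -/
theorem bump_dom (hm : m = Module.finrank ℝ F) (hm0 : 0 < m) (hτ : 0 < τ)
    (b₁ b₂ ε : Measure (XB F τ))
    [IsFiniteMeasure b₁] [IsFiniteMeasure b₂] [IsFiniteMeasure ε]
    (hv : ∀ z : F, ‖z‖ ≤ 1 → pt m τ b₁ z - pt m τ b₂ z ≤ pt m τ ε z) :
    ∫ z : XB F τ, (1 - ‖(z : F)‖ ^ 2) ∂b₁ - ∫ z : XB F τ, (1 - ‖(z : F)‖ ^ 2) ∂b₂ ≤
      ∫ z : XB F τ, (1 - ‖(z : F)‖ ^ 2) ∂ε + τ ^ 2 * b₁.real univ := by
  have h := J0_nonpos hm hτ b₁ b₂ ε (fun z hz => by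
    have := hv z hz
    unfold vv; linarith)
  rw [J0_one hτ b₁, J0_one hτ b₂, J0_one hτ ε] at h
  have hc := cD_pos (F := F) hm hm0 hτ
  have hk := kD_nonneg (F := F) (m := m) hτ
  have hk2 := kD_le (F := F) (m := m) hτ
  have n1 : 0 ≤ b₁.real univ := measureReal_nonneg
  have n2 : 0 ≤ b₂.real univ := measureReal_nonneg
  have n3 : 0 ≤ ε.real univ := measureReal_nonneg
  set c := cD F m τ
  set κ := kD F m τ
  set I1 := ∫ z : XB F τ, (1 - ‖(z : F)‖ ^ 2) ∂b₁
  set I2 := ∫ z : XB F τ, (1 - ‖(z : F)‖ ^ 2) ∂b₂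
  set I3 := ∫ z : XB F τ, (1 - ‖(z : F)‖ ^ 2) ∂ε
  have h1 : c * (I1 - I2 - I3) ≤ c * (τ ^ 2 * b₁.real univ) := by
    have h2 : κ * b₁.real univ ≤ τ ^ 2 * c * b₁.real univ := mul_le_mul_of_nonneg_right hk2 n1
    have h3 : 0 ≤ κ * b₂.real univ := mul_nonneg hk n2
    have h4 : 0 ≤ κ * ε.real univ := mul_nonneg hk n3
    nlinarith
  have h5 := le_of_mul_le_mul_left h1 hc
  linarith

end

end Crest.Agent.R234.Dom_309
end

-- ▼ part R234/N0a_309
section

/-!
Row 234, node N0 (helper309), file a: contact frame + bump, abstract form.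
`b₁ = β + γ` (`β` = tall part inside `‖z‖ ≤ 1 - lam`), obstacle for `β - (b₂ + e)`.
-/

open MeasureTheory Filter Topology Set Metric
open scoped ENNReal NNReal

namespace Crest.Agent.R234.N0_309

open Crest.Agent.R234.Pot_425 Crest.Agent.R234.Dom_309

noncomputable section

set_option linter.unusedSectionVars false

variable {F : Type*} [NormedAddCommGroup F] [InnerProductSpace ℝ F] [FiniteDimensional ℝ F]
  [MeasurableSpace F] [BorelSpace F]

variable {m : ℕ} {τ : ℝ}

/-- abstract N0 on the closed ball of radius `1 - τ`. -/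
theorem contact_bump (hm : m = Module.finrank ℝ F) (hm0 : 0 < m) (hτ : 0 < τ) (hτ1 : τ ≤ 1)
    (β γ b₂ e : Measure (XB F τ)) [IsFiniteMeasure β] [IsFiniteMeasure γ] [IsFiniteMeasure b₂]
    [IsFiniteMeasure e] (hb : ∀ y ∈ β.support, ‖(y : F)‖ ≤ 1 - 2 * τ) :
    ∃ ε : Measure (XB F τ), IsFiniteMeasure ε ∧
      (∫ z : XB F τ, (1 - ‖(z : F)‖ ^ 2) ∂(β + γ) - ∫ z : XB F τ, (1 - ‖(z : F)‖ ^ 2) ∂b₂ ≤
        ε.real univ + ∫ z : XB F τ, (1 - ‖(z : F)‖ ^ 2) ∂γ + e.real univ + τ ^ 2 * β.real univ) ∧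
      (∀ x ∈ ε.support, ∃ y ∈ β.support, ‖(x : F) - (y : F)‖ ≤ τ) ∧
      (∀ x ∈ ε.support, ∀ (w : Wt) (s : ℝ), 0 ≤ s → ‖(x : F)‖ + s ≤ 1 →
        0 ≤ SS m τ w ε (x : F) s ∧
          SS m τ w ε (x : F) s ≤ SS m τ w β (x : F) s - SS m τ w (b₂ + e) (x : F) s) := by
  obtain ⟨ε, hε, hdom, hsupp, _, hSS⟩ := contact_loc hm hm0 hτ β (b₂ + e) hb
  refine ⟨ε, hε, ?_, hsupp, hSS⟩
  have h := bump_dom hm hm0 hτ β (b₂ + e) ε hdom
  have hc : Continuous fun z : XB F τ => (1 - ‖(z : F)‖ ^ 2) := by fun_prop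
  have i1 := integrable_cont β hc
  have i2 := integrable_cont γ hc
  have i3 := integrable_cont b₂ hc
  have i4 := integrable_cont e hc
  have i5 := integrable_cont ε hc
  rw [integral_add_measure i3 i4] at h
  rw [integral_add_measure i1 i2]
  have hle : ∀ (μ : Measure (XB F τ)) [IsFiniteMeasure μ],
      ∫ z : XB F τ, (1 - ‖(z : F)‖ ^ 2) ∂μ ≤ μ.real univ := by
    intro μ _
    have h1 : ∫ z : XB F τ, (1 - ‖(z : F)‖ ^ 2) ∂μ ≤ ∫ _ : XB F τ, (1 : ℝ) ∂μ :=
      integral_mono (integrable_cont μ hc) (integrable_const _) fun z => by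
        simp only
        nlinarith [norm_nonneg (z : F)]
    rw [integral_const, smul_eq_mul, mul_one] at h1
    exact h1
  have h1 := hle ε
  have h2 := hle e
  linarith

end

end Crest.Agent.R234.N0_309
end

-- ▼ part R234/N0b_309
section

/-!
Row 234, node N0 (helper309), file b: from measures on the base to the contact problem on the closed
ball of radius `1 - τ`.  `B₁, B₂` = positive and negative part of the anomaly, `E` = absorption of the
almost stationarity, `T` = tall points of the base, `lam` = width of the boundary layer.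
-/

set_option autoImplicit false

open MeasureTheory Filter Topology Set Metric
open scoped ENNReal NNReal

namespace Crest.Agent.R234.N0_309

open Crest.GeometryTopology.Submanifold
open Crest.Agent.R234.Vf_884
open Crest.Agent.R234.Pot_425 Crest.Agent.R234.Dom_309 Crest.Agent.R234.Rep_387
open Crest.Agent.R234.Loc1_290 (bump bump_nonneg bump_le_one)

noncomputable section

variable {m : ℕ} {τ lam : ℝ} {T : Set (Euc m)}

/-- the tall part of the base, away from the boundary. -/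
def tall (T : Set (Euc m)) (lam : ℝ) : Set (Euc m) := T ∩ closedBall 0 (1 - lam)

theorem measurableSet_tall (hT : MeasurableSet T) : MeasurableSet (tall T lam) :=
  hT.inter measurableSet_closedBall

theorem bump_eq {z : Euc m} (hz : ‖z‖ ≤ 1) : bump 1 (0 : Euc m) z = 1 - ‖z‖ ^ 2 := by
  unfold bump
  rw [sub_zero, one_pow, div_one, max_eq_right]
  nlinarith [norm_nonneg z]

theorem continuous_bump : Continuous fun z : Euc m => bump 1 (0 : Euc m) z := by
  unfold bump
  fun_prop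

theorem toXB_univ (B : Measure (Euc m)) :
    toXB τ B univ = B (closedBall (0 : Euc m) (1 - τ)) := by
  have h := toXB_apply (τ := τ) B univ
  simp only [mem_univ, univ_inter] at h
  have h2 : {z : XB (Euc m) τ | True} = univ := by ext; simp
  rw [h2] at h
  exact h


/-- the anomaly tested with the bump, on the closed ball of radius `1 - τ`. -/
theorem bump_toXB (hτ : 0 < τ) {B1 B2 : Measure (Euc m)}
    (h1 : B1 (closedBall 0 1) < ⊤) (h2 : B2 (closedBall 0 1) < ⊤) :
    ∫ z in closedBall (0 : Euc m) 1, bump 1 (0 : Euc m) z ∂B1 -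
        ∫ z in closedBall (0 : Euc m) 1, bump 1 (0 : Euc m) z ∂B2 ≤
      ∫ z : XB (Euc m) τ, (1 - ‖(z : Euc m)‖ ^ 2) ∂(toXB τ B1) -
        ∫ z : XB (Euc m) τ, (1 - ‖(z : Euc m)‖ ^ 2) ∂(toXB τ B2) +
      2 * τ * B1.real (closedBall (0 : Euc m) 1) := by
  have hsub : closedBall (0 : Euc m) (1 - τ) ⊆ closedBall 0 1 :=
    closedBall_subset_closedBall (by linarith)
  have key : ∀ B : Measure (Euc m),
      ∫ z : XB (Euc m) τ, (1 - ‖(z : Euc m)‖ ^ 2) ∂(toXB τ B) =
        ∫ z in closedBall (0 : Euc m) (1 - τ), bump 1 (0 : Euc m) z ∂B := by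
    intro B
    rw [integral_toXB B fun z => 1 - ‖z‖ ^ 2]
    refine setIntegral_congr_fun measurableSet_closedBall fun z hz => ?_
    exact (bump_eq (mem_closedBall_zero_iff.1 (hsub hz))).symm
  have hint : ∀ B : Measure (Euc m), B (closedBall 0 1) < ⊤ →
      IntegrableOn (fun z : Euc m => bump 1 (0 : Euc m) z) (closedBall 0 1) B := by
    intro B hB
    refine IntegrableOn.of_bound hB continuous_bump.aestronglyMeasurable 1
      (Eventually.of_forall fun z => ?_)
    rw [Real.norm_eq_abs, abs_of_nonneg (bump_nonneg _ _ _)]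
    exact bump_le_one _ _ _
  rw [key, key]
  have e1 : ∫ z in closedBall (0 : Euc m) 1, bump 1 (0 : Euc m) z ∂B1 ≤
      ∫ z in closedBall (0 : Euc m) (1 - τ), bump 1 (0 : Euc m) z ∂B1 +
        2 * τ * B1.real (closedBall (0 : Euc m) 1) := by
    have h3 : ∫ z in closedBall (0 : Euc m) 1, bump 1 (0 : Euc m) z ∂B1 =
        ∫ z in closedBall (0 : Euc m) (1 - τ), bump 1 (0 : Euc m) z ∂B1 +
        ∫ z in closedBall (0 : Euc m) 1 \ closedBall (0 : Euc m) (1 - τ),
          bump 1 (0 : Euc m) z ∂B1 := by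
      rw [setIntegral_sdiff measurableSet_closedBall (hint B1 h1) hsub]
      ring
    have h4 : ∫ z in closedBall (0 : Euc m) 1 \ closedBall (0 : Euc m) (1 - τ),
        bump 1 (0 : Euc m) z ∂B1 ≤ 2 * τ * B1.real (closedBall (0 : Euc m) 1) := by
      have hm : MeasurableSet (closedBall (0 : Euc m) 1 \ closedBall (0 : Euc m) (1 - τ)) :=
        measurableSet_closedBall.diff measurableSet_closedBall
      have hfin : B1 (closedBall (0 : Euc m) 1 \ closedBall (0 : Euc m) (1 - τ)) < ⊤ :=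
        (measure_mono sdiff_subset).trans_lt h1
      have h5 : ∫ z in closedBall (0 : Euc m) 1 \ closedBall (0 : Euc m) (1 - τ),
          bump 1 (0 : Euc m) z ∂B1 ≤
          ∫ z in closedBall (0 : Euc m) 1 \ closedBall (0 : Euc m) (1 - τ), (2 * τ) ∂B1 := by
        refine setIntegral_mono_on ((hint B1 h1).mono_set sdiff_subset)
          (integrableOn_const hfin.ne) hm fun z hz => ?_
        have hz1 : ‖z‖ ≤ 1 := mem_closedBall_zero_iff.1 hz.1
        have hz2 : 1 - τ < ‖z‖ := by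
          by_contra hcon
          exact hz.2 (mem_closedBall_zero_iff.2 (not_lt.1 hcon))
        rw [bump_eq hz1]
        nlinarith
      refine h5.trans ?_
      rw [setIntegral_const, smul_eq_mul, mul_comm]
      refine mul_le_mul_of_nonneg_left ?_ (by linarith)
      exact measureReal_mono sdiff_subset h1.ne
    linarith
  have e2 : ∫ z in closedBall (0 : Euc m) (1 - τ), bump 1 (0 : Euc m) z ∂B2 ≤
      ∫ z in closedBall (0 : Euc m) 1, bump 1 (0 : Euc m) z ∂B2 :=
    setIntegral_mono_set (hint B2 h2) (Eventually.of_forall fun z => bump_nonneg _ _ _)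
      hsub.eventuallyLE
  linarith

/-- **N0, measures on the base** -/
theorem contact_measures (hm0 : 0 < m) (hτ : 0 < τ) (hτ1 : 2 * τ ≤ lam) (hlam : lam ≤ 1)
    {B1 B2 E : Measure (Euc m)} (h1 : B1 (closedBall 0 1) < ⊤) (h2 : B2 (closedBall 0 1) < ⊤)
    (h3 : E (closedBall 0 1) < ⊤) (hT : MeasurableSet T) :
    ∃ ε : Measure (XB (Euc m) τ), IsFiniteMeasure ε ∧
      (∫ z in closedBall (0 : Euc m) 1, bump 1 (0 : Euc m) z ∂B1 -
        ∫ z in closedBall (0 : Euc m) 1, bump 1 (0 : Euc m) z ∂B2 ≤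
        ε.real univ + B1.real (closedBall 0 1 \ T) + E.real (closedBall 0 1) +
          (2 * lam + 3 * τ) * B1.real (closedBall 0 1)) ∧
      (∀ x ∈ ε.support, ∃ y ∈ closure (tall T lam), ‖(x : Euc m) - y‖ ≤ τ) ∧
      (∀ x ∈ ε.support, ∀ (w : Wt) (s : ℝ), 0 ≤ s → ‖(x : Euc m)‖ + s ≤ 1 →
        0 ≤ SS m τ w ε (x : Euc m) s ∧
          SS m τ w ε (x : Euc m) s ≤
            SS m τ w ((toXB τ B1).restrict {z | (z : Euc m) ∈ tall T lam}) (x : Euc m) s -
              SS m τ w (toXB τ B2 + toXB τ E) (x : Euc m) s) := by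
  have hτ1' : τ ≤ 1 := by linarith
  have hsub : closedBall (0 : Euc m) (1 - τ) ⊆ closedBall 0 1 :=
    closedBall_subset_closedBall (by linarith)
  have hf : ∀ B : Measure (Euc m), B (closedBall 0 1) < ⊤ → IsFiniteMeasure (toXB τ B) :=
    fun B hB => finite_toXB ((measure_mono hsub).trans_lt hB)
  have hf1 := hf B1 h1
  have hf2 := hf B2 h2
  have hf3 := hf E h3
  set A : Set (XB (Euc m) τ) := {z | (z : Euc m) ∈ tall T lam} with hAdef
  have hA : MeasurableSet A := measurable_subtype_coe (measurableSet_tall hT)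
  set β := (toXB τ B1).restrict A with hβ
  set γ := (toXB τ B1).restrict Aᶜ with hγ
  have hsum : β + γ = toXB τ B1 := Measure.restrict_add_restrict_compl hA
  have hsuppβ : ∀ y ∈ β.support, (y : Euc m) ∈ closure (tall T lam) := by
    intro y hy
    by_contra hcon
    have hopen : IsOpen {z : XB (Euc m) τ | (z : Euc m) ∉ closure (tall T lam)} :=
      (isClosed_closure.preimage continuous_subtype_val).isOpen_compl
    have h4 : {z : XB (Euc m) τ | (z : Euc m) ∉ closure (tall T lam)} ∈ 𝓝 y :=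
      hopen.mem_nhds hcon
    rw [Measure.mem_support_iff_forall] at hy
    have h5 := hy _ h4
    have h6 : β {z : XB (Euc m) τ | (z : Euc m) ∉ closure (tall T lam)} = 0 := by
      rw [hβ, Measure.restrict_apply hopen.measurableSet]
      have : {z : XB (Euc m) τ | (z : Euc m) ∉ closure (tall T lam)} ∩ A = ∅ := by
        ext z
        simp only [mem_inter_iff, mem_empty_iff_false, iff_false, not_and]
        exact fun h7 h8 => h7 (subset_closure h8)
      rw [this, measure_empty]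
    exact absurd h5 (by rw [h6]; exact lt_irrefl _)
  have hnorm : ∀ y ∈ β.support, ‖(y : Euc m)‖ ≤ 1 - 2 * τ := by
    intro y hy
    have h4 := hsuppβ y hy
    have h5 : closure (tall T lam) ⊆ closedBall (0 : Euc m) (1 - lam) :=
      closure_minimal inter_subset_right isClosed_closedBall
    have h6 := mem_closedBall_zero_iff.1 (h5 h4)
    linarith
  obtain ⟨ε, hε, hbump, hsupp, hSS⟩ := contact_bump (F := Euc m) (m := m)
    (by rw [finrank_euclideanSpace_fin]) hm0 hτ hτ1' β γ (toXB τ B2) (toXB τ E) hnorm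
  refine ⟨ε, hε, ?_, ?_, hSS⟩
  · have h4 := bump_toXB hτ h1 h2
    rw [hsum] at hbump
    -- the part of `γ`
    have hγle : ∫ z : XB (Euc m) τ, (1 - ‖(z : Euc m)‖ ^ 2) ∂γ ≤
        B1.real (closedBall 0 1 \ T) + 2 * lam * B1.real (closedBall 0 1) := by
      have hD : MeasurableSet {z : XB (Euc m) τ | (z : Euc m) ∉ T} :=
        (measurable_subtype_coe hT).compl
      have hcz : Continuous fun z : XB (Euc m) τ => (1 - ‖(z : Euc m)‖ ^ 2) := by fun_prop
      have h5 : ∫ z : XB (Euc m) τ, (1 - ‖(z : Euc m)‖ ^ 2) ∂γ ≤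
          ∫ z : XB (Euc m) τ, ({z : XB (Euc m) τ | (z : Euc m) ∉ T}.indicator
            (fun _ => (1 : ℝ)) z + 2 * lam) ∂γ := by
        refine integral_mono_ae (integrable_cont γ hcz)
          (((integrable_const (1 : ℝ)).indicator hD).add (integrable_const _)) ?_
        rw [hγ]
        filter_upwards [ae_restrict_mem hA.compl] with z hz
        by_cases hzT : (z : Euc m) ∈ T
        · have hz2 : 1 - lam < ‖(z : Euc m)‖ := by
            by_contra hcon
            exact hz ⟨hzT, mem_closedBall_zero_iff.2 (not_lt.1 hcon)⟩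
          rw [indicator_of_notMem (by simpa using hzT), zero_add]
          nlinarith
        · rw [indicator_of_mem (by simpa using hzT)]
          have := sq_nonneg ‖(z : Euc m)‖
          linarith
      refine h5.trans ?_
      rw [integral_add ((integrable_const (1 : ℝ)).indicator hD) (integrable_const _),
        integral_indicator_const _ hD, integral_const, smul_eq_mul, smul_eq_mul, mul_one]
      have h6 : γ.real {z : XB (Euc m) τ | (z : Euc m) ∉ T} ≤ B1.real (closedBall 0 1 \ T) := by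
        have h7 : γ.real {z : XB (Euc m) τ | (z : Euc m) ∉ T} ≤
            (toXB τ B1).real {z : XB (Euc m) τ | (z : Euc m) ∉ T} := by
          rw [hγ]
          exact ENNReal.toReal_mono (measure_ne_top _ _) (Measure.restrict_apply_le _ _)
        refine h7.trans ?_
        have h8 : (toXB τ B1) {z : XB (Euc m) τ | (z : Euc m) ∉ T} =
            B1 (Tᶜ ∩ closedBall (0 : Euc m) (1 - τ)) := toXB_apply B1 Tᶜ
        rw [measureReal_def, measureReal_def, h8]
        refine ENNReal.toReal_mono ((measure_mono sdiff_subset).trans_lt h1).ne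
          (measure_mono ?_)
        intro z hz
        exact ⟨hsub hz.2, hz.1⟩
      have h9 : γ.real univ ≤ B1.real (closedBall 0 1) := by
        have h10 : γ.real univ ≤ (toXB τ B1).real univ := by
          rw [hγ]
          exact ENNReal.toReal_mono (measure_ne_top _ _) (Measure.restrict_apply_le _ _)
        refine h10.trans ?_
        rw [measureReal_def, measureReal_def, toXB_univ]
        exact ENNReal.toReal_mono h1.ne (measure_mono hsub)
      have h10 : γ.real univ * (2 * lam) ≤ 2 * lam * B1.real (closedBall 0 1) := by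
        rw [mul_comm]
        exact mul_le_mul_of_nonneg_left h9 (by linarith)
      linarith
    have hEle : (toXB τ E).real univ ≤ E.real (closedBall 0 1) := by
      rw [measureReal_def, measureReal_def, toXB_univ]
      exact ENNReal.toReal_mono h3.ne (measure_mono hsub)
    have hβle : β.real univ ≤ B1.real (closedBall 0 1) := by
      have h10 : β.real univ ≤ (toXB τ B1).real univ := by
        rw [hβ]
        exact ENNReal.toReal_mono (measure_ne_top _ _) (Measure.restrict_apply_le _ _)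
      refine h10.trans ?_
      rw [measureReal_def, measureReal_def, toXB_univ]
      exact ENNReal.toReal_mono h1.ne (measure_mono hsub)
    have h6 : τ ^ 2 * β.real univ ≤ τ * B1.real (closedBall 0 1) := by
      have h7 : τ ^ 2 ≤ τ := by nlinarith
      have h8 : 0 ≤ β.real univ := measureReal_nonneg
      calc τ ^ 2 * β.real univ ≤ τ * β.real univ := mul_le_mul_of_nonneg_right h7 h8
        _ ≤ _ := mul_le_mul_of_nonneg_left hβle hτ.le
    linarith
  · intro x hx
    obtain ⟨y, hy, hxy⟩ := hsupp x hx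
    exact ⟨y, hsuppβ y hy, hxy⟩

end

end Crest.Agent.R234.N0_309
end

-- ▼ part R234/N0c_309

/-!
Row 234, node N0 (helper309), file c: the contact problem for a varifold with sheets
(387's measures `B1`, `B2`, `tm`; `b2s = b₂ + c π_#(tl W)`).
-/

set_option autoImplicit false

open MeasureTheory Filter Topology Set Metric
open scoped ENNReal NNReal

namespace Crest.Agent.R234.N0_309

open Crest.GeometryTopology.Submanifold
open Crest.Agent.R234.Vf_884 Crest.Agent.R234.Ar_870 Crest.Agent.R234.Cy_870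
open Crest.Agent.R234.Pot_425 Crest.Agent.R234.Dom_309 Crest.Agent.R234.Rep_387
open Crest.Agent.R234.Raw_387 Crest.Agent.R234.Avg_387
open Crest.Agent.R234.Loc1_290 (bump bump_nonneg bump_le_one bump_eq_zero)

noncomputable section

variable {m n k : ℕ} {τ lam : ℝ} {T : Set (Euc m)} {π : Euc k →L[ℝ] Euc m}
  {κ : Euc k →L[ℝ] Euc n} {D : VarifoldData m k} {U : Set (Euc k)} {W₀ : Set (Euc k)} {Q : ℝ}

section

variable (S : Sheets D π) (hD : IsIntegralVarifoldIn U D) (hπ : IsCo π)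
  (hW : MeasurableSet W₀) (hfin : VD D (W₀ ×ˢ univ) < ⊤)

include hD hπ hW hfin in
/-- mass of `B₁` over a bounded set -/
theorem B1_real {A : Set (Euc m)} (hA : MeasurableSet A) (hvA : volume A < ⊤) :
    (B1 S W₀ Q).real A =
      (∫ p in {p : Euc k × L k | π p.1 ∈ A}, max (an π p.2) 0
        ∂((VD D).restrict (W₀ ×ˢ univ))) +
        ∫ x in A, max ((S.N W₀ x).toReal - Q) 0 := by
  have h1 := setIntegral_B1 (Q := Q) S hD hπ hW hfin hA hvA (φ := fun _ => 1)
    measurable_const (K := 1) (fun _ => by simp)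
  simpa using h1

include hD hπ hW hfin in
/-- mass of `B₁` with the quadratic vertical form -/
theorem B1_real_le {A : Set (Euc m)} (hA : MeasurableSet A) (hvA : volume A < ⊤) :
    (B1 S W₀ Q).real A ≤
      (m / 2 : ℝ) * (∫ p in {p : Euc k × L k | π p.1 ∈ A}, qq π p.2
        ∂((VD D).restrict (W₀ ×ˢ univ))) +
        ∫ x in A, max ((S.N W₀ x).toReal - Q) 0 := by
  rw [B1_real S hD hπ hW hfin hA hvA, ← integral_const_mul]
  refine add_le_add ?_ le_rfl
  have i1 := integrableOn_cont hD hfin (f := fun P => max (an π P) 0)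
    ((continuous_an π).max continuous_const)
  have i2 := (integrableOn_cont hD hfin (continuous_qq π)).const_mul (m / 2 : ℝ)
  refine integral_mono_ae i1.integrableOn i2.integrableOn ?_
  filter_upwards [ae_restrict_of_ae (ae_restrict_of_ae (VD_conc hD))] with p hp
  exact max_an_le_qq hπ hp

include hD hπ hW hfin in
/-- mass of `B₁` with the tilt -/
theorem B1_real_le_tl {A : Set (Euc m)} (hA : MeasurableSet A) (hvA : volume A < ⊤) :
    (B1 S W₀ Q).real A ≤
      (1 / 2 : ℝ) * (∫ p, tl π p.2 ∂((VD D).restrict (W₀ ×ˢ univ))) +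
        ∫ x in A, max ((S.N W₀ x).toReal - Q) 0 := by
  rw [B1_real S hD hπ hW hfin hA hvA]
  refine add_le_add ?_ le_rfl
  have i1 := integrableOn_cont hD hfin (f := fun P => max (an π P) 0)
    ((continuous_an π).max continuous_const)
  have i2 := (integrableOn_cont hD hfin (measurable_tl π)).const_mul (1 / 2 : ℝ)
  have h0 : ∀ᵐ p ∂((VD D).restrict (W₀ ×ˢ (univ : Set (L k)))), 0 ≤ tl π p.2 := by
    filter_upwards [ae_restrict_of_ae (VD_conc hD)] with p hp
    exact tl_nonneg hπ (isPr_of_G hp)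
  rw [← integral_const_mul]
  calc ∫ p in {p : Euc k × L k | π p.1 ∈ A}, max (an π p.2) 0 ∂((VD D).restrict (W₀ ×ˢ univ))
      ≤ ∫ p in {p : Euc k × L k | π p.1 ∈ A}, 1 / 2 * tl π p.2
          ∂((VD D).restrict (W₀ ×ˢ univ)) := by
        refine integral_mono_ae i1.integrableOn i2.integrableOn ?_
        filter_upwards [ae_restrict_of_ae (ae_restrict_of_ae (VD_conc hD))] with p hp
        have := max_an_le_tl hπ hp
        linarith
    _ ≤ ∫ p, 1 / 2 * tl π p.2 ∂((VD D).restrict (W₀ ×ˢ univ)) := by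
        refine setIntegral_le_integral i2 ?_
        filter_upwards [h0] with p hp
        simp only [Pi.zero_apply]
        linarith

/-- mass of `π_#(c tl W)` -/
theorem tm_real_le {W : Measure (Euc k × L k)} (h : FF W π κ) {c : ℝ} (hc : 0 ≤ c)
    {A : Set (Euc m)} (hA : MeasurableSet A) :
    tm W π c A < ⊤ ∧ (tm W π c).real A ≤ c * ∫ p, tl π p.2 ∂W := by
  have hf : IsFiniteMeasure W := ⟨h.fin⟩
  have hC : ∀ᵐ p ∂W, c * tl π p.2 ≤ c * m := by
    filter_upwards [h.conc] with p hp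
    exact mul_le_mul_of_nonneg_left (tl_le h.sp.hh (isPr_of_G hp)) hc
  refine ⟨mk_lt_top (C := c * m) hC hA integrableOn_zero, ?_⟩
  have h1 := setIntegral_mk (W := W) (π := π) (ρ := fun P => c * tl π P) (ν := fun _ => 0)
    ((measurable_tl π).measurable.const_mul c) (C := c * m) hC measurable_const hA
    integrableOn_zero (φ := fun _ => 1) measurable_const (K := 1) (fun _ => by simp)
  have h2 : (tm W π c).real A =
      ∫ p in {p : Euc k × L k | π p.1 ∈ A}, max (c * tl π p.2) 0 ∂W := by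
    unfold tm
    simpa using h1
  have h0 : ∀ᵐ p ∂W, 0 ≤ tl π p.2 := by
    filter_upwards [h.conc] with p hp
    exact tl_nonneg h.sp.hh (isPr_of_G hp)
  have i1 : Integrable (fun p : Euc k × L k => tl π p.2) W := by
    refine Integrable.of_bound ((measurable_tl π).measurable.comp
      measurable_snd).aestronglyMeasurable m ?_
    filter_upwards [h.conc] with p hp
    rw [Real.norm_eq_abs, abs_of_nonneg (tl_nonneg h.sp.hh (isPr_of_G hp))]
    exact tl_le h.sp.hh (isPr_of_G hp)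
  rw [h2, ← integral_const_mul]
  calc ∫ p in {p : Euc k × L k | π p.1 ∈ A}, max (c * tl π p.2) 0 ∂W
      = ∫ p in {p : Euc k × L k | π p.1 ∈ A}, c * tl π p.2 ∂W := by
        refine integral_congr_ae ?_
        filter_upwards [ae_restrict_of_ae h0] with p hp
        rw [max_eq_left (mul_nonneg hc hp)]
    _ ≤ ∫ p, c * tl π p.2 ∂W := by
        refine setIntegral_le_integral (i1.const_mul c) ?_
        filter_upwards [h0] with p hp
        simp only [Pi.zero_apply]
        exact mul_nonneg hc hp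

include hD hW hfin in
/-- **N0, varifold with sheets**: `anom ≤ ε(1) + (small part of b₁) + c ∫ tl + boundary layer`. -/
theorem contact_sheets (hm0 : 0 < m) (hs : Split π κ) (hτ : 0 < τ) (hτ1 : 2 * τ ≤ lam)
    (hlam : lam ≤ 1) (hT : MeasurableSet T) {c : ℝ} (hc : 0 ≤ c) :
    ∃ ε : Measure (XB (Euc m) τ), IsFiniteMeasure ε ∧
      (∫ p, bump 1 (0 : Euc m) (π p.1) * (1 - tl π p.2 / 2) ∂((VD D).restrict (W₀ ×ˢ univ))
          - Q * ∫ v : Euc m, bump 1 (0 : Euc m) v ≤
        ε.real univ +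
        ((m / 2 : ℝ) * (∫ p in {p : Euc k × L k | π p.1 ∈ closedBall (0 : Euc m) 1 \ T},
            qq π p.2 ∂((VD D).restrict (W₀ ×ˢ univ))) +
          ∫ x in closedBall (0 : Euc m) 1 \ T, max ((S.N W₀ x).toReal - Q) 0) +
        c * ∫ p, tl π p.2 ∂((VD D).restrict (W₀ ×ˢ univ)) +
        (2 * lam + 3 * τ) *
          ((1 / 2 : ℝ) * (∫ p, tl π p.2 ∂((VD D).restrict (W₀ ×ˢ univ))) +
            ∫ x in closedBall (0 : Euc m) 1, max ((S.N W₀ x).toReal - Q) 0)) ∧
      (∀ x ∈ ε.support, ∃ y ∈ closure (tall T lam), ‖(x : Euc m) - y‖ ≤ τ) ∧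
      (∀ x ∈ ε.support, ∀ (w : Wt) (s : ℝ), 0 ≤ s → ‖(x : Euc m)‖ + s ≤ 1 →
        0 ≤ SS m τ w ε (x : Euc m) s ∧
          SS m τ w ε (x : Euc m) s ≤
            SS m τ w (beta S W₀ Q τ (tall T lam)) (x : Euc m) s -
              SS m τ w (b2s (b2 S W₀ Q τ) ((VD D).restrict (W₀ ×ˢ univ)) π c)
                (x : Euc m) s) := by
  have hπ : IsCo π := hs.hh
  have hFF : FF ((VD D).restrict (W₀ ×ˢ (univ : Set (L k)))) π κ := by
    refine ⟨hs, ae_restrict_of_ae (VD_conc hD), ?_⟩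
    rw [Measure.restrict_apply_univ]
    exact hfin
  have hcb : MeasurableSet (closedBall (0 : Euc m) 1) := measurableSet_closedBall
  have hvol : volume (closedBall (0 : Euc m) 1) < ⊤ := measure_closedBall_lt_top
  obtain ⟨hE1, hE2⟩ := tm_real_le hFF hc hcb
  obtain ⟨ε, hε, hb, hsupp, hSS⟩ := contact_measures (T := T) hm0 hτ hτ1 hlam
    (B1_lt_top (Q := Q) S hD hπ hW hfin hcb hvol) (B2_lt_top (Q := Q) S hD hπ hW hfin hcb hvol)
    hE1 hT
  refine ⟨ε, hε, ?_, hsupp, hSS⟩
  have h0 : ∀ x : Euc m, x ∉ closedBall (0 : Euc m) 1 → bump 1 (0 : Euc m) x = 0 := by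
    intro x hx
    refine bump_eq_zero one_pos ?_
    rw [sub_zero]
    have : 1 < ‖x‖ := by simpa using hx
    exact this.le
  have h1 := B1_sub_B2 (Q := Q) S hD hπ hW hfin hcb hvol
    (φ := fun z => bump 1 (0 : Euc m) z) continuous_bump.measurable (K := 1)
    (fun x => by rw [abs_of_nonneg (bump_nonneg _ _ _)]; exact bump_le_one _ _ _) h0
  rw [h1] at hb
  have hvd : volume (closedBall (0 : Euc m) 1 \ T) < ⊤ :=
    (measure_mono sdiff_subset).trans_lt hvol
  have h2 := B1_real_le (Q := Q) S hD hπ hW hfin (hcb.diff hT) hvd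
  have h3 := B1_real_le_tl (Q := Q) S hD hπ hW hfin hcb hvol
  have h4 : (2 * lam + 3 * τ) * (B1 S W₀ Q).real (closedBall 0 1) ≤
      (2 * lam + 3 * τ) * ((1 / 2 : ℝ) * (∫ p, tl π p.2 ∂((VD D).restrict (W₀ ×ˢ univ))) +
            ∫ x in closedBall (0 : Euc m) 1, max ((S.N W₀ x).toReal - Q) 0) :=
    mul_le_mul_of_nonneg_left h3 (by linarith)
  linarith

end

end

end Crest.Agent.R234.N0_309
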