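import Crest.Agent.R234.Asl7_214
import Crest.Agent.R234.Shp1_98
import Crest.Agent.R234.Raw2_387
import Crest.Agent.R234.Wi5_870

-- ▼ part R234/Shp2_98
section

/-!
# Row 234 (helper98): weighted bounds of the first variation errors

The errors of (W1) and (W3) for almost stationary varifolds, with the weights of the profile
(needed for the absorption of Shp1_98):

* `abs_X1_le` : `|s^{2-m} FV X1| ≤ 2 δ (e + et) + 2 δ (y + yt)`,
* `abs_X3_le` : `|4 s^{-m} FV X3| ≤ 2 δ √(IF et) + tt`.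
-/

set_option autoImplicit false

open MeasureTheory Set Function Filter Topology
open Crest.GeometryTopology.Submanifold
open Crest.Agent.R234.Vf_884 Crest.Agent.R234.Ar_870 Crest.Agent.R234.Cy_870
open Crest.Agent.R234.Asl_214
open scoped ENNReal NNReal InnerProductSpace

noncomputable section

namespace Crest.Agent.R234.Shp2_98

/-- Cauchy-Schwarz in the form `∫ √(u v) ≤ √(∫ u ∫ v)` -/
theorem integral_sqrt_mul_le {α : Type*} [MeasurableSpace α] {μ : Measure α} {u v : α → ℝ}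
    (hu : Integrable u μ) (hv : Integrable v μ) (hu0 : 0 ≤ᵐ[μ] u) (hv0 : 0 ≤ᵐ[μ] v) :
    ∫ a, √(u a * v a) ∂μ ≤ √((∫ a, u a ∂μ) * ∫ a, v a ∂μ) := by
  have hi : Integrable (fun a => √(u a * v a)) μ := by
    refine (hu.add hv).mono' ?_ ?_
    · exact Real.continuous_sqrt.comp_aestronglyMeasurable
        (hu.aestronglyMeasurable.mul hv.aestronglyMeasurable)
    · filter_upwards [hu0, hv0] with a h1 h2
      simp only [Pi.zero_apply] at h1 h2
      rw [Real.norm_eq_abs, abs_of_nonneg (Real.sqrt_nonneg _), Pi.add_apply]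
      rw [Real.sqrt_le_left (add_nonneg h1 h2)]
      nlinarith [mul_nonneg h1 h2]
  set I := ∫ a, √(u a * v a) ∂μ with hI
  have hI0 : 0 ≤ I := integral_nonneg fun a => Real.sqrt_nonneg _
  have key : ∀ c : ℝ, 0 ≤ (∫ a, u a ∂μ) * (c * c) + (-2 * I) * c + ∫ a, v a ∂μ := by
    intro c
    have e1 : ∫ a, ((c * c) * u a + (-2 * c) * √(u a * v a) + v a) ∂μ =
        (∫ a, u a ∂μ) * (c * c) + (-2 * I) * c + ∫ a, v a ∂μ := by
      have e2 : ∫ a, ((c * c) * u a + (-2 * c) * √(u a * v a) + v a) ∂μ =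
          (∫ a, ((c * c) * u a + (-2 * c) * √(u a * v a)) ∂μ) + ∫ a, v a ∂μ :=
        integral_add ((hu.const_mul _).add (hi.const_mul _)) hv
      have e3 : ∫ a, ((c * c) * u a + (-2 * c) * √(u a * v a)) ∂μ =
          (∫ a, (c * c) * u a ∂μ) + ∫ a, (-2 * c) * √(u a * v a) ∂μ :=
        integral_add (hu.const_mul _) (hi.const_mul _)
      rw [e2, e3, integral_const_mul, integral_const_mul, ← hI]
      ring
    rw [← e1]
    refine integral_nonneg_of_ae ?_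
    filter_upwards [hu0, hv0] with a h1 h2
    simp only [Pi.zero_apply] at h1 h2 ⊢
    rw [Real.sqrt_mul h1]
    have h3 : √(u a) ^ 2 = u a := Real.sq_sqrt h1
    have h4 : √(v a) ^ 2 = v a := Real.sq_sqrt h2
    nlinarith [sq_nonneg (c * √(u a) - √(v a))]
  have hd := discrim_le_zero key
  unfold discrim at hd
  have h3 : I ^ 2 ≤ (∫ a, u a ∂μ) * ∫ a, v a ∂μ := by nlinarith
  calc I = √(I ^ 2) := (Real.sqrt_sq hI0).symm
    _ ≤ _ := Real.sqrt_le_sqrt h3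

variable {m n k : ℕ} {π : Euc k →L[ℝ] Euc m} {κ : Euc k →L[ℝ] Euc n} {δ : ℝ}
  {x₀ x : Euc m} {R h₀ : ℝ} {W : Measure (Euc k × L k)} {g g1 g2 : ℝ → ℝ}

/-- `s^{2-m} ∫ c(p) f(t) dW`, `t = r² / s²`. -/
def kk (W : Measure (Euc k × L k)) (π : Euc k →L[ℝ] Euc m) (x : Euc m)
    (c : Euc k × L k → ℝ) (f : ℝ → ℝ) (l : ℝ) : ℝ :=
  Real.exp ((2 - m) * l) * ∫ p, c p * f (Real.exp (-2 * l) * ‖π p.1 - x‖ ^ 2) ∂W

/-- the kernel of the derivative: `-2 t g'(t)` -/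
def k2 (g1 : ℝ → ℝ) (t : ℝ) : ℝ := -2 * (t * g1 t)

/-- height part `s^{2-m} ∫ |y|² f(t) dW` -/
def yk (W : Measure (Euc k × L k)) (π : Euc k →L[ℝ] Euc m) (κ : Euc k →L[ℝ] Euc n) (x : Euc m)
    (f : ℝ → ℝ) (l : ℝ) : ℝ :=
  kk W π x (fun p => ‖κ p.1‖ ^ 2) f l

theorem ee_eq_kk (W : Measure (Euc k × L k)) (π : Euc k →L[ℝ] Euc m) (x : Euc m) (g : ℝ → ℝ)
    (l : ℝ) : ee W π x g l = kk W π x (fun p => tl π p.2) g l := rfl

theorem et_eq_kk (W : Measure (Euc k × L k)) (π : Euc k →L[ℝ] Euc m) (x : Euc m) (g1 : ℝ → ℝ)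
    (l : ℝ) : et W π x g1 l = kk W π x (fun p => tl π p.2) (k2 g1) l := rfl

theorem k2_nonneg (hg : Prof g g1 g2) {t : ℝ} (ht : 0 ≤ t) : 0 ≤ k2 g1 t := by
  unfold k2
  have := mul_nonneg ht (neg_nonneg.2 (hg.anti t ht))
  linarith

theorem continuous_k2 (hg : Ker g g1) : Continuous (k2 g1) := by
  have := hg.cont
  unfold k2
  fun_prop

theorem continuous_sd (π : Euc k →L[ℝ] Euc m) (x : Euc m) (l : ℝ) :
    Continuous fun p : Euc k × L k => Real.exp (-2 * l) * ‖π p.1 - x‖ ^ 2 :=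
  continuous_const.mul
    (((π.continuous.comp continuous_fst).sub continuous_const).norm.pow 2)

/-- weighted bound of the derivative of the radial field -/
theorem norm_dR_le2 (hg : Prof g g1 g2) (l : ℝ) (x v : Euc m) :
    ‖dR g g1 l x v‖ ≤ g (Real.exp (-2 * l) * ‖v - x‖ ^ 2) +
      k2 g1 (Real.exp (-2 * l) * ‖v - x‖ ^ 2) := by
  set t := Real.exp (-2 * l) * ‖v - x‖ ^ 2 with ht
  have ht0 : 0 ≤ t := scaled_nonneg l x v
  have hg0 : 0 ≤ g t := Prof.nonneg hg _ ht0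
  have h1 : ‖g t • ContinuousLinearMap.id ℝ (Euc m)‖ ≤ g t := by
    rw [norm_smul, Real.norm_eq_abs, abs_of_nonneg hg0]
    exact mul_le_of_le_one_right hg0 ContinuousLinearMap.norm_id_le
  have h2 : ‖(innerSL ℝ ((2 * Real.exp (-2 * l) * g1 t) • (v - x))).smulRight (v - x)‖ ≤
      k2 g1 t := by
    rw [ContinuousLinearMap.norm_smulRight_apply, innerSL_apply_norm, norm_smul,
      Real.norm_eq_abs, abs_mul, abs_of_nonneg (by positivity : (0:ℝ) ≤ 2 * Real.exp (-2 * l)),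
      abs_of_nonpos (hg.anti t ht0)]
    apply le_of_eq
    unfold k2
    rw [ht]
    ring
  unfold dR
  rw [← ht]
  exact (norm_add_le _ _).trans (add_le_add h1 h2)

theorem norm_R_le2 (hg : Prof g g1 g2) (l : ℝ) (x v : Euc m) :
    ‖g (Real.exp (-2 * l) * ‖v - x‖ ^ 2) • (v - x)‖ ≤
      g (Real.exp (-2 * l) * ‖v - x‖ ^ 2) * Real.exp l := by
  have ht0 := scaled_nonneg l x v
  rw [norm_smul, Real.norm_eq_abs, abs_of_nonneg (Prof.nonneg hg _ ht0)]
  rcases le_or_gt (Real.exp l) ‖v - x‖ with h1 | h1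
  · rw [hg.k0.zero _ (Ker.one_le_of x h1), zero_mul, zero_mul]
  · exact mul_le_mul_of_nonneg_left h1.le (Prof.nonneg hg _ ht0)

/-- a field vanishing over `‖v - x‖ ≥ s` vanishes over `‖v - x₀‖ ≥ R` -/
theorem far {s : ℝ} (hs : ‖x - x₀‖ + s ≤ R) {v : Euc m} (hv : R ≤ ‖v - x₀‖) : s ≤ ‖v - x‖ := by
  have h1 : ‖v - x₀‖ ≤ ‖v - x‖ + ‖x - x₀‖ := norm_sub_le_norm_sub_add_norm_sub v x x₀
  linarith

/-- **(a)** the error of (W1), weighted -/
theorem abs_X1_le (h : CylAS W π κ x₀ R h₀ δ) (h0 : 0 ≤ δ) (hg : Prof g g1 g2) {l : ℝ}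
    (hl : ‖x - x₀‖ + Real.exp l ≤ R) (hl0 : l ≤ 0) :
    |Real.exp ((2 - m) * l) * FV W (X1 π x g l)| ≤
      2 * δ * (ee W π x g l + et W π x g1 l) +
        2 * δ * (yk W π κ x g l + yk W π κ x (k2 g1) l) := by
  have c0 := continuous_sd (k := k) π x l
  have cg : Continuous fun p : Euc k × L k => g (Real.exp (-2 * l) * ‖π p.1 - x‖ ^ 2) :=
    hg.k0.continuous.comp c0
  have ck : Continuous fun p : Euc k × L k => k2 g1 (Real.exp (-2 * l) * ‖π p.1 - x‖ ^ 2) :=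
    (continuous_k2 hg.k0).comp c0
  have ct := CylAS.continuous_tl (k := k) π
  have cy : Continuous fun p : Euc k × L k => ‖κ p.1‖ ^ 2 :=
    (κ.continuous.comp continuous_fst).norm.pow 2
  have h1 := h.fv_hor h0 (f := fun _ => (1:ℝ)) (df := fun _ => 0)
    (fun y => hasFDerivAt_const _ _) continuous_const (hasFDerivAt_R hg.k0 l x)
    (continuous_dR hg.k0 l x) (fun v hv => by
      rw [hg.k0.zero _ (Ker.one_le_of x (far hl hv)), zero_smul])
  have i1 : Integrable (fun p : Euc k × L k =>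
      tl π p.2 * g (Real.exp (-2 * l) * ‖π p.1 - x‖ ^ 2)) W :=
    h.integrable_continuous (ct.mul cg)
  have i2 : Integrable (fun p : Euc k × L k =>
      tl π p.2 * k2 g1 (Real.exp (-2 * l) * ‖π p.1 - x‖ ^ 2)) W :=
    h.integrable_continuous (ct.mul ck)
  have i3 : Integrable (fun p : Euc k × L k =>
      ‖κ p.1‖ ^ 2 * g (Real.exp (-2 * l) * ‖π p.1 - x‖ ^ 2)) W :=
    h.integrable_continuous (cy.mul cg)
  have i4 : Integrable (fun p : Euc k × L k =>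
      ‖κ p.1‖ ^ 2 * k2 g1 (Real.exp (-2 * l) * ‖π p.1 - x‖ ^ 2)) W :=
    h.integrable_continuous (cy.mul ck)
  have h2 : ∫ p, (δ * (tl π p.2 + ‖κ p.1‖ ^ 2) * (|(fun _ : Euc n => (1:ℝ)) (κ p.1)| *
        (‖dR g g1 l x (π p.1)‖ + ‖g (Real.exp (-2 * l) * ‖π p.1 - x‖ ^ 2) • (π p.1 - x)‖)) +
        δ * (√(tl π p.2) + ‖κ p.1‖) * (‖(fun _ : Euc n => (0 : Euc n →L[ℝ] ℝ)) (κ p.1)‖ *
          ‖g (Real.exp (-2 * l) * ‖π p.1 - x‖ ^ 2) • (π p.1 - x)‖)) ∂W ≤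
      2 * δ * ((∫ p, tl π p.2 * g (Real.exp (-2 * l) * ‖π p.1 - x‖ ^ 2) ∂W) +
        ∫ p, tl π p.2 * k2 g1 (Real.exp (-2 * l) * ‖π p.1 - x‖ ^ 2) ∂W) +
      2 * δ * ((∫ p, ‖κ p.1‖ ^ 2 * g (Real.exp (-2 * l) * ‖π p.1 - x‖ ^ 2) ∂W) +
        ∫ p, ‖κ p.1‖ ^ 2 * k2 g1 (Real.exp (-2 * l) * ‖π p.1 - x‖ ^ 2) ∂W) := by
    have e1 : 2 * δ * ((∫ p, tl π p.2 * g (Real.exp (-2 * l) * ‖π p.1 - x‖ ^ 2) ∂W) +
        ∫ p, tl π p.2 * k2 g1 (Real.exp (-2 * l) * ‖π p.1 - x‖ ^ 2) ∂W) +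
      2 * δ * ((∫ p, ‖κ p.1‖ ^ 2 * g (Real.exp (-2 * l) * ‖π p.1 - x‖ ^ 2) ∂W) +
        ∫ p, ‖κ p.1‖ ^ 2 * k2 g1 (Real.exp (-2 * l) * ‖π p.1 - x‖ ^ 2) ∂W) =
      ∫ p, (2 * δ * (tl π p.2 * g (Real.exp (-2 * l) * ‖π p.1 - x‖ ^ 2) +
          tl π p.2 * k2 g1 (Real.exp (-2 * l) * ‖π p.1 - x‖ ^ 2)) +
        2 * δ * (‖κ p.1‖ ^ 2 * g (Real.exp (-2 * l) * ‖π p.1 - x‖ ^ 2) +
          ‖κ p.1‖ ^ 2 * k2 g1 (Real.exp (-2 * l) * ‖π p.1 - x‖ ^ 2))) ∂W := by
      have j1 := integral_add ((i1.add i2).const_mul (2 * δ)) ((i3.add i4).const_mul (2 * δ))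
      simp only [Pi.add_apply] at j1
      rw [j1, integral_const_mul, integral_const_mul, integral_add i1 i2, integral_add i3 i4]
    rw [e1]
    refine integral_mono_ae ?_ (((i1.add i2).const_mul _).add ((i3.add i4).const_mul _)) ?_
    · refine h.integrable_continuous ?_
      have c4 : Continuous fun p : Euc k × L k => ‖dR g g1 l x (π p.1)‖ :=
        ((continuous_dR hg.k0 l x).comp (π.continuous.comp continuous_fst)).norm
      have c5 : Continuous fun p : Euc k × L k =>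
          ‖g (Real.exp (-2 * l) * ‖π p.1 - x‖ ^ 2) • (π p.1 - x)‖ :=
        (cg.smul ((π.continuous.comp continuous_fst).sub continuous_const)).norm
      have c2 : Continuous fun p : Euc k × L k => ‖κ p.1‖ :=
        (κ.continuous.comp continuous_fst).norm
      exact ((continuous_const.mul (ct.add cy)).mul (continuous_const.mul (c4.add c5))).add
        ((continuous_const.mul (ct.sqrt.add c2)).mul (continuous_const.mul c5))
    · filter_upwards [h.tl_nonneg'] with p ht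
      have a1 := norm_dR_le2 hg l x (π p.1)
      have a2 := norm_R_le2 hg l x (π p.1)
      have a3 : 0 ≤ g (Real.exp (-2 * l) * ‖π p.1 - x‖ ^ 2) := Prof.nonneg hg _ (scaled_nonneg l x _)
      have a4 : 0 ≤ k2 g1 (Real.exp (-2 * l) * ‖π p.1 - x‖ ^ 2) :=
        k2_nonneg hg (scaled_nonneg l x _)
      have a5 : g (Real.exp (-2 * l) * ‖π p.1 - x‖ ^ 2) * Real.exp l ≤
          g (Real.exp (-2 * l) * ‖π p.1 - x‖ ^ 2) :=
        mul_le_of_le_one_right a3 (Real.exp_le_one_iff.2 hl0)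
      simp only [abs_one, one_mul, norm_zero, zero_mul, mul_zero, add_zero]
      have a6 : ‖dR g g1 l x (π p.1)‖ + ‖g (Real.exp (-2 * l) * ‖π p.1 - x‖ ^ 2) • (π p.1 - x)‖ ≤
          2 * (g (Real.exp (-2 * l) * ‖π p.1 - x‖ ^ 2) +
            k2 g1 (Real.exp (-2 * l) * ‖π p.1 - x‖ ^ 2)) := by linarith
      have a7 : 0 ≤ δ * (tl π p.2 + ‖κ p.1‖ ^ 2) := by positivity
      have a8 := mul_le_mul_of_nonneg_left a6 a7
      refine a8.trans (le_of_eq ?_)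
      ring
  have h3 := h1.trans h2
  rw [abs_mul, abs_of_pos (Real.exp_pos _)]
  have h4 := mul_le_mul_of_nonneg_left h3 (Real.exp_pos ((2 - m) * l)).le
  refine h4.trans (le_of_eq ?_)
  rw [ee_eq_kk, et_eq_kk]
  simp only [yk, kk]
  ring


end Crest.Agent.R234.Shp2_98
end
end

-- ▼ part R234/Shp4_98
section

/-!
# Row 234 (helper98): absorption with heights

The error of (W3) contains `δ' √(IF Y)`, `Y` = the height kernel which also is in `p = P'`.  It is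
absorbed in `Rs` when `|f| ≤ c δ (e + et) + p / 2` and `2 K₀ δ' Y ≤ p`.
-/

set_option autoImplicit false

open MeasureTheory Set Filter Topology

noncomputable section

namespace Crest.Agent.R234.Shp_98

/-- absorption in (W2), (W3): `IF' / 2 = F + G`, `F² ≤ IF R`. -/
theorem cs_absorb2 {I R et Y F G c δ δ' κ t U : ℝ} (hI : 0 ≤ I) (hR : 0 ≤ R) (hRet : R ≤ et)
    (hY : 0 ≤ Y) (hF : F ^ 2 ≤ I * R) (hδ : 0 < δ) (hδ1 : δ ≤ 1) (hδ' : 0 ≤ δ') (hδδ : δ' ≤ δ)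
    (hc : 0 ≤ c) (hG : |G| ≤ c * (δ * √(I * et) + δ' * √(I * Y)) + t)
    (ht : 4 * t ^ 2 ≤ κ * δ * U ^ 2) :
    (F + G) ^ 2 ≤ I * (R + (3 * c + 1 + 3 * c ^ 2) * (δ * et + δ' * Y)) + κ * U ^ 2 := by
  have het : 0 ≤ et := hR.trans hRet
  set a : ℝ := √(I * et) with ha
  have ha0 : 0 ≤ a := Real.sqrt_nonneg _
  have ha2 : a ^ 2 = I * et := Real.sq_sqrt (by positivity)
  set b : ℝ := √(I * Y) with hb
  have hb0 : 0 ≤ b := Real.sqrt_nonneg _
  have hb2 : b ^ 2 = I * Y := Real.sq_sqrt (by positivity)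
  have hFa : |F| ≤ a := by
    apply Real.abs_le_sqrt
    exact hF.trans (mul_le_mul_of_nonneg_left hRet hI)
  have h1 : |F * G| ≤ a * (c * (δ * a + δ' * b) + t) := by
    rw [abs_mul]
    exact mul_le_mul hFa hG (abs_nonneg _) ha0
  have h2 : G ^ 2 ≤ (c * (δ * a + δ' * b) + t) ^ 2 := by
    rw [← sq_abs G]
    exact pow_le_pow_left₀ (abs_nonneg _) hG 2
  have h3 : F * G ≤ a * (c * (δ * a + δ' * b) + t) := (le_abs_self _).trans h1
  -- `2 a t ≤ δ a² + t² / δ`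
  have h4 : 2 * (a * t) ≤ δ * a ^ 2 + t ^ 2 / δ := by
    have h5 : 0 ≤ (δ * a - t) ^ 2 / δ := by positivity
    have h6 : (δ * a - t) ^ 2 / δ = δ * a ^ 2 - 2 * (a * t) + t ^ 2 / δ := by
      field_simp
      ring
    linarith
  have h7 : t ^ 2 ≤ t ^ 2 / δ := by
    rw [le_div_iff₀ hδ]
    nlinarith [sq_nonneg t]
  have h8 : 4 * (t ^ 2 / δ) ≤ κ * U ^ 2 := by
    have : 4 * (t ^ 2 / δ) = 4 * t ^ 2 / δ := by ring
    rw [this, div_le_iff₀ hδ]
    linarith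
  -- `2 a b ≤ a² + b²`
  have h10 : 2 * (a * b) ≤ a ^ 2 + b ^ 2 := by nlinarith [sq_nonneg (a - b)]
  have h11 : c * δ' * (2 * (a * b)) ≤ c * δ' * (a ^ 2 + b ^ 2) :=
    mul_le_mul_of_nonneg_left h10 (by positivity)
  have h12 : c * δ' * a ^ 2 ≤ c * δ * a ^ 2 := by
    have := mul_le_mul_of_nonneg_left hδδ hc
    nlinarith [sq_nonneg a]
  have h13 : (c * (δ * a + δ' * b) + t) ^ 2 ≤
      3 * (c ^ 2 * δ * a ^ 2) + 3 * (c ^ 2 * δ' * b ^ 2) + 3 * t ^ 2 := by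
    have e1 : (c * (δ * a + δ' * b) + t) ^ 2 ≤
        3 * (c * δ * a) ^ 2 + 3 * (c * δ' * b) ^ 2 + 3 * t ^ 2 := by
      have : ∀ u v w : ℝ, (u + v + w) ^ 2 ≤ 3 * u ^ 2 + 3 * v ^ 2 + 3 * w ^ 2 := fun u v w => by
        nlinarith [sq_nonneg (u - v), sq_nonneg (u - w), sq_nonneg (v - w)]
      have h := this (c * δ * a) (c * δ' * b) t
      have e : c * (δ * a + δ' * b) + t = c * δ * a + c * δ' * b + t := by ring
      rw [e]
      exact h
    have e2 : (c * δ * a) ^ 2 ≤ c ^ 2 * δ * a ^ 2 := by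
      have : (c * δ * a) ^ 2 = c ^ 2 * δ * a ^ 2 * δ := by ring
      rw [this]
      exact mul_le_of_le_one_right (by positivity) hδ1
    have e3 : (c * δ' * b) ^ 2 ≤ c ^ 2 * δ' * b ^ 2 := by
      have : (c * δ' * b) ^ 2 = c ^ 2 * δ' * b ^ 2 * δ' := by ring
      rw [this]
      exact mul_le_of_le_one_right (by positivity) (hδδ.trans hδ1)
    linarith
  have h14 : I * (R + (3 * c + 1 + 3 * c ^ 2) * (δ * et + δ' * Y)) =
      I * R + (3 * c + 1 + 3 * c ^ 2) * (δ * a ^ 2 + δ' * b ^ 2) := by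
    rw [ha2, hb2]; ring
  rw [h14]
  have h15 : 0 ≤ (2 * c + 1) * (δ' * b ^ 2) := by positivity
  have h16 : a * (c * (δ * a + δ' * b) + t) = c * δ * a ^ 2 + c * δ' * (a * b) + a * t := by ring
  rw [h16] at h3
  have h17 : (F + G) ^ 2 = F ^ 2 + 2 * (F * G) + G ^ 2 := by ring
  rw [h17]
  have h18 : (3 * c + 1 + 3 * c ^ 2) * (δ * a ^ 2 + δ' * b ^ 2) =
      2 * (c * δ * a ^ 2) + c * δ * a ^ 2 + δ * a ^ 2 + 3 * (c ^ 2 * δ * a ^ 2) +
        c * δ' * b ^ 2 + 3 * (c ^ 2 * δ' * b ^ 2) + (2 * c + 1) * (δ' * b ^ 2) := by ring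
  rw [h18]
  have h19 : c * δ' * (a ^ 2 + b ^ 2) = c * δ' * a ^ 2 + c * δ' * b ^ 2 := by ring
  have h20 : c * δ' * (2 * (a * b)) = 2 * (c * δ' * (a * b)) := by ring
  rw [h19, h20] at h11
  linarith

namespace Raw

variable {m K K₀ c δ T : ℝ} {E e et b g R f p P B : ℝ → ℝ}

/-- lower bound of `Rs` with the spare half of `p` -/
theorem Rs_lower2 (h : Raw m K c δ T E e et b g R f p P B) (hK : c + K₀ ≤ K) {l : ℝ}
    (hl : l ≤ T) (hf : |f l| ≤ c * δ * (e l + et l) + p l / 2) :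
    R l + 2 * g l + K₀ * δ * (e l + et l) + p l / 2 ≤ Rs K δ e et g R f p l := by
  have h0 := h.e0 l hl
  have h00 := h.et0 hl
  have hδ := h.δ0
  have hK0 := h.K0
  have h1 := (abs_le.1 hf).1
  have h2 : (c + K₀) * (δ * (e l + et l)) ≤ K * (δ * (e l + et l)) :=
    mul_le_mul_of_nonneg_right hK (by positivity)
  have h3 : 0 ≤ K * δ * e l := by positivity
  unfold Rs
  nlinarith

/-- the Cauchy-Schwarz inequality with all errors absorbed, at one scale -/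
theorem cs2 (h : Raw m K c δ T E e et b g R f p P B) {κ a c₁ δ' I Y F G tt : ℝ} (hδ1 : δ ≤ 1)
    (hδ' : 0 ≤ δ') (hδδ : δ' ≤ δ) (hκ : 0 ≤ κ) (hc₁ : 0 ≤ c₁)
    (hK : c + (3 * c₁ + 1 + 3 * c₁ ^ 2) ≤ K) (hcK : c ≤ K)
    (hU : 0 < Us K δ E e P B a) {l : ℝ} (hal : a ≤ l) (hl : l ≤ T)
    (hf : |f l| ≤ c * δ * (e l + et l) + p l / 2) (hY0 : 0 ≤ Y)
    (hY : (3 * c₁ + 1 + 3 * c₁ ^ 2) * (δ' * Y) ≤ p l / 2)
    (hI0 : 0 ≤ I) (hF : F ^ 2 ≤ I * R l)
    (hG : |G| ≤ c₁ * (δ * √(I * et l) + δ' * √(I * Y)) + tt)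
    (ht : 4 * tt ^ 2 ≤ κ * δ * Us K δ E e P B a ^ 2) :
    (F + G) ^ 2 ≤ I * Rs K δ e et g R f p l + κ * Us K δ E e P B l ^ 2 := by
  have h1 := cs_absorb2 (U := Us K δ E e P B a) (κ := κ) hI0 (h.R0 l hl) (h.Ret l hl) hY0 hF
    h.δ0 hδ1 hδ' hδδ hc₁ hG ht
  have h2 := h.Rs_lower2 hK hl hf
  have h3 := h.g0 l hl
  have h4 : Us K δ E e P B a ^ 2 ≤ Us K δ E e P B l ^ 2 :=
    pow_le_pow_left₀ hU.le (h.Us_mono hcK hal hl) 2
  have h5 : 0 ≤ 3 * c₁ + 1 + 3 * c₁ ^ 2 := by positivity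
  have h6 : 0 ≤ (3 * c₁ + 1 + 3 * c₁ ^ 2) * δ * e l := by
    have h7 := h.e0 l hl
    have h9 := h.δ0
    positivity
  have h10 : R l + (3 * c₁ + 1 + 3 * c₁ ^ 2) * (δ * et l + δ' * Y) ≤ Rs K δ e et g R f p l := by
    nlinarith
  have h11 := mul_le_mul_of_nonneg_left h10 hI0
  have h12 := mul_le_mul_of_nonneg_left h4 hκ
  linarith

/-- **809's `PtDat`**, heights absorbed: `eF = IF' / 2 = F + G`, `er = 0`. -/
theorem ptDat2 (h : Raw m K c δ T E e et b g R f p P B) {W : Type*} {q : W → ℝ}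
    {κ a q1 c₁ δ' : ℝ} {Y : ℝ → ℝ} {IF F G tt : W → ℝ → ℝ} (hδ1 : δ ≤ 1) (hδ' : 0 ≤ δ')
    (hδδ : δ' ≤ δ) (haT : a ≤ T) (hκ : 0 ≤ κ) (hc₁ : 0 ≤ c₁)
    (hK : c + (3 * c₁ + 1 + 3 * c₁ ^ 2) ≤ K) (hcK : c ≤ K)
    (hU : 0 < Us K δ E e P B a) (hB : ∀ l ∈ Icc a T, 0 ≤ B l)
    (hf : ∀ l ∈ Icc a T, |f l| ≤ c * δ * (e l + et l) + p l / 2)
    (hY0 : ∀ l ∈ Icc a T, 0 ≤ Y l)
    (hY : ∀ l ∈ Icc a T, (3 * c₁ + 1 + 3 * c₁ ^ 2) * (δ' * Y l) ≤ p l / 2)
    (hI0 : ∀ w, ∀ l ∈ Icc a T, 0 ≤ IF w l)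
    (hcF : ∀ w, q w ^ 2 ≤ q1 → Continuous fun l => F w l + G w l)
    (hI : ∀ w, q w ^ 2 ≤ q1 → ∀ l ≤ T, HasDerivAt (IF w) (2 * (F w l + G w l)) l)
    (hF : ∀ w, q w ^ 2 ≤ q1 → ∀ l ∈ Icc a T, F w l ^ 2 ≤ IF w l * R l)
    (hG : ∀ w, q w ^ 2 ≤ q1 → ∀ l ∈ Icc a T,
      |G w l| ≤ c₁ * (δ * √(IF w l * et l) + δ' * √(IF w l * Y l)) + tt w l)
    (ht : ∀ w, q w ^ 2 ≤ q1 → ∀ l ∈ Icc a T,
      4 * tt w l ^ 2 ≤ κ * δ * Us K δ E e P B a ^ 2) :
    Core_809.PtDat q κ a T q1 (Us K δ E e P B) (Es K δ E e P) (Rs K δ e et g R f p)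
      (fun w l => F w l + G w l) IF (fun _ _ => 0) where
  haT := haT
  k0 := hκ
  Upos := hU
  hR := h.cont_Rs.intervalIntegrable _ _
  hU := fun x hx => by
    have := h.Us_sub (s := a) (t := x) haT hx.2
    linarith
  Rnn := by
    filter_upwards with t ht
    exact h.Rs_nonneg hcK ht.2
  UE := fun x hx => by
    have h1 := hB x hx
    have h3 : Us K δ E e P B x = Es K δ E e P x - 2 * B x := rfl
    linarith
  Em := h.cont_Es.measurable
  Inn := hI0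
  he := fun w hw => (hcF w hw).intervalIntegrable _ _
  hρ := fun w _ => by simp
  hI := fun w hw x hx => by
    have h1 : ∫ t in a..x, 2 * (F w t + G w t) = IF w x - IF w a := by
      refine intervalIntegral.integral_eq_sub_of_hasDerivAt (fun y hy => ?_)
        (((hcF w hw).const_mul 2).intervalIntegrable _ _)
      exact hI w hw y (hy.2.trans (max_le haT hx.2))
    simp only [add_zero]
    linarith
  cs := fun w hw => by
    filter_upwards with t htt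
    have h1 := h.cs2 hδ1 hδ' hδδ hκ hc₁ hK hcK hU htt.1 htt.2 (hf t htt) (hY0 t htt) (hY t htt)
      (hI0 w t htt) (hF w hw t htt) (hG w hw t htt) (ht w hw t htt)
    linarith
  rho := fun w _ => by
    filter_upwards with t ht
    rw [abs_zero]
    exact mul_nonneg hκ (hU.le.trans (h.Us_mono hcK ht.1 ht.2))

end Raw


end Crest.Agent.R234.Shp_98
end
end

-- ▼ part R234/Shp5_98

/-!
# Row 234 (helper98): the wells at an averaged contact centre

Weighted bound of the error of (W3) with the heights kept, its average, and the well part of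
`Core_809.PtDat` : `IF = IFa`, `eF = IF' / 2 = (eFa - av f2) + (err3a + av f3) / 2`.
-/

set_option autoImplicit false

open MeasureTheory Set Function Filter Topology Metric
open Crest.GeometryTopology.Submanifold
open Crest.Agent.R234.Vf_884 Crest.Agent.R234.Ar_870 Crest.Agent.R234.Cy_870
open Crest.Agent.R234.Asl_214
open scoped ENNReal NNReal InnerProductSpace

noncomputable section

namespace Crest.Agent.R234.Shp2_98

variable {m n k : ℕ} {π : Euc k →L[ℝ] Euc m} {κ : Euc k →L[ℝ] Euc n} {δ : ℝ}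
  {x₀ x : Euc m} {R h₀ : ℝ} {W : Measure (Euc k × L k)} {g g1 g2 : ℝ → ℝ}

/-- **(b')** the error of (W3), weighted, heights kept -/
theorem abs_X3_le2 (h : CylAS W π κ x₀ R h₀ δ) (h0 : 0 ≤ δ) (hh : 0 ≤ h₀) (hg : Prof g g1 g2)
    {K : ℝ} (hK : Bd g1 g2 K) {F : Euc n → ℝ} {dF : Euc n → Euc n} {H : Euc n → L n}
    (hF : Well F dF H) {F₀ : ℝ} (hF₀ : ∀ y, ‖y‖ ≤ h₀ → F y ≤ F₀) {l : ℝ}
    (hl : ‖x - x₀‖ + Real.exp l ≤ R) (hl0 : l ≤ 0) :
    |4 * Real.exp (-m * l) * FV W (X3 π κ x F g1 l)| ≤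
      2 * δ * √(IF W π κ x F g1 l * et W π x g1 l) +
        2 * δ * √(IF W π κ x F g1 l * yk W π κ x (k2 g1) l) +
        16 * K * δ * F₀ * (Real.exp (-2 * l) * tb W π x l + h₀ ^ 2 * mb W π x l) := by
  have : IsFiniteMeasure W := ⟨h.fin⟩
  have hK0 := hK.nonneg
  have hF0 : 0 ≤ F₀ := (hF.nonneg 0).trans (hF₀ 0 (by simpa using hh))
  set t : Euc k × L k → ℝ := fun p => Real.exp (-2 * l) * ‖π p.1 - x‖ ^ 2 with ht
  have ht0 : ∀ p, 0 ≤ t p := fun p => scaled_nonneg l x _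
  have c0 : Continuous t := continuous_sd (k := k) π x l
  have cg1 : Continuous fun p : Euc k × L k => g1 (t p) := hg.k0.cont.comp c0
  have ct := CylAS.continuous_tl (k := k) π
  have cn : Continuous fun p : Euc k × L k => ‖π p.1 - x‖ :=
    ((π.continuous.comp continuous_fst).sub continuous_const).norm
  have cF : Continuous fun p : Euc k × L k => F (κ p.1) :=
    hF.contF.comp (κ.continuous.comp continuous_fst)
  have cdF : Continuous fun p : Euc k × L k => ‖dF (κ p.1)‖ :=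
    (hF.contdF.comp (κ.continuous.comp continuous_fst)).norm
  have cκ : Continuous fun p : Euc k × L k => ‖κ p.1‖ := (κ.continuous.comp continuous_fst).norm
  set ξ : Euc m → Euc m := fun v => g1 (Real.exp (-2 * l) * ‖v - x‖ ^ 2) • (v - x) with hξ
  have cξ : Continuous fun p : Euc k × L k => ‖ξ (π p.1)‖ :=
    (cg1.smul ((π.continuous.comp continuous_fst).sub continuous_const)).norm
  have cdξ : Continuous fun p : Euc k × L k => ‖dR g1 g2 l x (π p.1)‖ :=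
    ((continuous_dR hg.k1 l x).comp (π.continuous.comp continuous_fst)).norm
  have hfv := h.fv_hor h0 hF.hasF ((innerSL ℝ).continuous.comp hF.contdF)
    (hasFDerivAt_R hg.k1 l x) (continuous_dR hg.k1 l x) (fun v hv => by
      rw [hg.k1.zero _ (Ker.one_le_of x (far hl hv)), zero_smul])
  -- the three parts
  have iA : Integrable (fun p : Euc k × L k => δ * (tl π p.2 + ‖κ p.1‖ ^ 2) *
      (|F (κ p.1)| * (‖dR g1 g2 l x (π p.1)‖ + ‖ξ (π p.1)‖))) W :=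
    h.integrable_continuous ((continuous_const.mul (ct.add (cκ.pow 2))).mul
      (cF.abs.mul (cdξ.add cξ)))
  have iB : Integrable (fun p : Euc k × L k => δ * (√(tl π p.2) + ‖κ p.1‖) *
      (‖innerSL ℝ (dF (κ p.1))‖ * ‖ξ (π p.1)‖)) W := by
    simp only [innerSL_apply_norm]
    exact h.integrable_continuous ((continuous_const.mul (ct.sqrt.add cκ)).mul (cdF.mul cξ))
  have hsplit : |FV W (X3 π κ x F g1 l)| ≤
      (∫ p, δ * (tl π p.2 + ‖κ p.1‖ ^ 2) *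
        (|F (κ p.1)| * (‖dR g1 g2 l x (π p.1)‖ + ‖ξ (π p.1)‖)) ∂W) +
      ∫ p, δ * (√(tl π p.2) + ‖κ p.1‖) * (‖innerSL ℝ (dF (κ p.1))‖ * ‖ξ (π p.1)‖) ∂W := by
    rw [← integral_add iA iB]
    exact hfv
  -- part A
  have hA : ∫ p, δ * (tl π p.2 + ‖κ p.1‖ ^ 2) *
        (|F (κ p.1)| * (‖dR g1 g2 l x (π p.1)‖ + ‖ξ (π p.1)‖)) ∂W ≤
      δ * F₀ * (4 * K) * (TB W π x (Real.exp l) + h₀ ^ 2 * MB W π x (Real.exp l)) := by
    have e1 : δ * F₀ * (4 * K) * (TB W π x (Real.exp l) + h₀ ^ 2 * MB W π x (Real.exp l)) =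
        ∫ p in ovr π x (Real.exp l), (δ * F₀ * (4 * K) * tl π p.2 +
          δ * F₀ * (4 * K) * h₀ ^ 2) ∂W := by
      rw [integral_add ((h.integrable_continuous ct).restrict.const_mul _) (integrable_const _),
        integral_const_mul, integral_const]
      simp only [Measure.real, Measure.restrict_apply_univ, smul_eq_mul, TB, MB]
      ring
    rw [e1, ← integral_indicator (measurableSet_ovr π x _)]
    refine integral_mono_ae iA ?_ ?_
    · rw [integrable_indicator_iff (measurableSet_ovr π x _)]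
      exact (((h.integrable_continuous ct).restrict).const_mul _).add (integrable_const _)
    · filter_upwards [h.tl_nonneg', h.hgt] with p htl hy
      by_cases hp : p ∈ ovr π x (Real.exp l)
      · rw [indicator_of_mem hp]
        have b1 : ‖dR g1 g2 l x (π p.1)‖ + ‖ξ (π p.1)‖ ≤ 4 * K := by
          have b2 := norm_dR_le hK l x (π p.1)
          have b3 := norm_R_le hg.k1 hK l x (π p.1)
          have b4 : K * Real.exp l ≤ K :=
            mul_le_of_le_one_right hK0 (Real.exp_le_one_iff.2 hl0)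
          simp only [hξ]
          linarith
        have b5 : |F (κ p.1)| * (‖dR g1 g2 l x (π p.1)‖ + ‖ξ (π p.1)‖) ≤ F₀ * (4 * K) := by
          rw [abs_of_nonneg (hF.nonneg _)]
          exact mul_le_mul (hF₀ _ hy) b1 (by positivity) hF0
        have b6 : ‖κ p.1‖ ^ 2 ≤ h₀ ^ 2 := pow_le_pow_left₀ (norm_nonneg _) hy 2
        have b7 : δ * (tl π p.2 + ‖κ p.1‖ ^ 2) ≤ δ * (tl π p.2 + h₀ ^ 2) :=
          mul_le_mul_of_nonneg_left (by linarith) h0
        have b8 := mul_le_mul b7 b5 (by positivity) (by positivity)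
        refine b8.trans (le_of_eq ?_)
        ring
      · rw [indicator_of_notMem hp]
        have hp' : Real.exp l ≤ ‖π p.1 - x‖ := not_lt.1 hp
        rw [dR_zero hg.k1 hp']
        simp only [hξ]
        rw [hg.k1.zero _ (Ker.one_le_of x hp')]
        simp
  -- part B
  have iu : Integrable (fun p : Euc k × L k => 2 * F (κ p.1) * (-g1 (t p))) W :=
    h.integrable_continuous ((continuous_const.mul cF).mul cg1.neg)
  have iv : Integrable (fun p : Euc k × L k => tl π p.2 * ((-g1 (t p)) * ‖π p.1 - x‖ ^ 2)) W :=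
    h.integrable_continuous (ct.mul (cg1.neg.mul (cn.pow 2)))
  have iw : Integrable (fun p : Euc k × L k =>
      ‖κ p.1‖ ^ 2 * ((-g1 (t p)) * ‖π p.1 - x‖ ^ 2)) W :=
    h.integrable_continuous ((cκ.pow 2).mul (cg1.neg.mul (cn.pow 2)))
  have hu0 : 0 ≤ᵐ[W] fun p : Euc k × L k => 2 * F (κ p.1) * (-g1 (t p)) := by
    filter_upwards with p
    have := hg.anti _ (ht0 p)
    have := hF.nonneg (κ p.1)
    simp only [Pi.zero_apply]
    nlinarith
  have hv0 : 0 ≤ᵐ[W] fun p : Euc k × L k => tl π p.2 * ((-g1 (t p)) * ‖π p.1 - x‖ ^ 2) := by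
    filter_upwards [h.tl_nonneg'] with p htl
    have := neg_nonneg.2 (hg.anti _ (ht0 p))
    simp only [Pi.zero_apply]
    positivity
  have hw0 : 0 ≤ᵐ[W] fun p : Euc k × L k => ‖κ p.1‖ ^ 2 * ((-g1 (t p)) * ‖π p.1 - x‖ ^ 2) := by
    filter_upwards with p
    have := neg_nonneg.2 (hg.anti _ (ht0 p))
    simp only [Pi.zero_apply]
    positivity
  have hsq1 : Integrable (fun p : Euc k × L k => √(2 * F (κ p.1) * (-g1 (t p)) *
      (tl π p.2 * ((-g1 (t p)) * ‖π p.1 - x‖ ^ 2)))) W :=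
    h.integrable_continuous (((continuous_const.mul cF).mul cg1.neg).mul
      (ct.mul (cg1.neg.mul (cn.pow 2)))).sqrt
  have hsq2 : Integrable (fun p : Euc k × L k => √(2 * F (κ p.1) * (-g1 (t p)) *
      (‖κ p.1‖ ^ 2 * ((-g1 (t p)) * ‖π p.1 - x‖ ^ 2)))) W :=
    h.integrable_continuous (((continuous_const.mul cF).mul cg1.neg).mul
      ((cκ.pow 2).mul (cg1.neg.mul (cn.pow 2)))).sqrt
  have hB : ∫ p, δ * (√(tl π p.2) + ‖κ p.1‖) * (‖innerSL ℝ (dF (κ p.1))‖ * ‖ξ (π p.1)‖) ∂W ≤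
      δ * √((∫ p, 2 * F (κ p.1) * (-g1 (t p)) ∂W) *
          ∫ p, tl π p.2 * ((-g1 (t p)) * ‖π p.1 - x‖ ^ 2) ∂W) +
        δ * √((∫ p, 2 * F (κ p.1) * (-g1 (t p)) ∂W) *
          ∫ p, ‖κ p.1‖ ^ 2 * ((-g1 (t p)) * ‖π p.1 - x‖ ^ 2) ∂W) := by
    have h1 := mul_le_mul_of_nonneg_left (integral_sqrt_mul_le iu iv hu0 hv0) h0
    have h2 := mul_le_mul_of_nonneg_left (integral_sqrt_mul_le iu iw hu0 hw0) h0
    refine le_trans ?_ (add_le_add h1 h2)
    rw [← integral_const_mul, ← integral_const_mul,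
      ← integral_add (hsq1.const_mul _) (hsq2.const_mul _)]
    refine integral_mono_ae iB ((hsq1.const_mul _).add (hsq2.const_mul _)) ?_
    filter_upwards [h.tl_nonneg', h.hgt] with p htl hy
    have hg1 : 0 ≤ -g1 (t p) := neg_nonneg.2 (hg.anti _ (ht0 p))
    have hr : 0 ≤ ‖π p.1 - x‖ := norm_nonneg _
    have hFn := hF.nonneg (κ p.1)
    have hdF : ‖dF (κ p.1)‖ ≤ √(2 * F (κ p.1)) := by
      apply Real.le_sqrt_of_sq_le
      exact hF.grad _
    have hξn : ‖ξ (π p.1)‖ = (-g1 (t p)) * ‖π p.1 - x‖ := by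
      simp only [hξ]
      rw [norm_smul, Real.norm_eq_abs, abs_of_nonpos (hg.anti _ (ht0 p))]
    have e1 : √(2 * F (κ p.1) * (-g1 (t p)) * (‖κ p.1‖ ^ 2 * ((-g1 (t p)) * ‖π p.1 - x‖ ^ 2))) =
        ‖κ p.1‖ * (√(2 * F (κ p.1)) * ((-g1 (t p)) * ‖π p.1 - x‖)) := by
      have : 2 * F (κ p.1) * (-g1 (t p)) * (‖κ p.1‖ ^ 2 * ((-g1 (t p)) * ‖π p.1 - x‖ ^ 2)) =
          ‖κ p.1‖ ^ 2 * (2 * F (κ p.1) * ((-g1 (t p)) * ‖π p.1 - x‖) ^ 2) := by ring
      rw [this, Real.sqrt_mul (by positivity), Real.sqrt_sq (norm_nonneg _),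
        Real.sqrt_mul (by positivity), Real.sqrt_sq (by positivity)]
    have e2 : √(2 * F (κ p.1) * (-g1 (t p)) * (tl π p.2 * ((-g1 (t p)) * ‖π p.1 - x‖ ^ 2))) =
        √(tl π p.2) * (√(2 * F (κ p.1)) * ((-g1 (t p)) * ‖π p.1 - x‖)) := by
      have : 2 * F (κ p.1) * (-g1 (t p)) * (tl π p.2 * ((-g1 (t p)) * ‖π p.1 - x‖ ^ 2)) =
          tl π p.2 * (2 * F (κ p.1) * ((-g1 (t p)) * ‖π p.1 - x‖) ^ 2) := by ring
      rw [this, Real.sqrt_mul htl, Real.sqrt_mul (by positivity), Real.sqrt_sq (by positivity)]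
    rw [e1, e2, innerSL_apply_norm, hξn]
    have q1 := Real.sqrt_nonneg (tl π p.2)
    have q2 : ‖dF (κ p.1)‖ * ((-g1 (t p)) * ‖π p.1 - x‖) ≤
        √(2 * F (κ p.1)) * ((-g1 (t p)) * ‖π p.1 - x‖) :=
      mul_le_mul_of_nonneg_right hdF (by positivity)
    have q3 : 0 ≤ √(2 * F (κ p.1)) * ((-g1 (t p)) * ‖π p.1 - x‖) := by positivity
    have q5 := mul_le_mul_of_nonneg_left q2 (by positivity : 0 ≤ δ * (√(tl π p.2) + ‖κ p.1‖))
    refine q5.trans (le_of_eq ?_)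
    ring
  -- the integrals
  have e1 : ∫ p, 2 * F (κ p.1) * (-g1 (t p)) ∂W = Real.exp (m * l) * IF W π κ x F g1 l / 2 := by
    unfold IF
    rw [← mul_assoc, ← Real.exp_add]
    have : (m : ℝ) * l + -m * l = 0 := by ring
    rw [this, Real.exp_zero, one_mul, ← integral_div]
    refine integral_congr_ae (Eventually.of_forall fun p => ?_)
    simp only [ht]
    ring
  have e2 : ∫ p, tl π p.2 * ((-g1 (t p)) * ‖π p.1 - x‖ ^ 2) ∂W =
      Real.exp (m * l) * et W π x g1 l / 2 := by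
    rw [et_eq_kk]
    unfold kk k2
    rw [← mul_assoc, ← Real.exp_add]
    have : (m : ℝ) * l + (2 - m) * l = 2 * l := by ring
    rw [this, ← integral_const_mul, ← integral_div]
    refine integral_congr_ae (Eventually.of_forall fun p => ?_)
    simp only [ht]
    have h3 : Real.exp (2 * l) * Real.exp (-2 * l) = 1 := by
      rw [← Real.exp_add]
      have : 2 * l + -2 * l = 0 := by ring
      rw [this, Real.exp_zero]
    linear_combination (-(tl π p.2 * g1 (Real.exp (-2 * l) * ‖π p.1 - x‖ ^ 2) *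
      ‖π p.1 - x‖ ^ 2)) * h3.symm
  have e3 : ∫ p, ‖κ p.1‖ ^ 2 * ((-g1 (t p)) * ‖π p.1 - x‖ ^ 2) ∂W =
      Real.exp (m * l) * yk W π κ x (k2 g1) l / 2 := by
    unfold yk kk k2
    rw [← mul_assoc, ← Real.exp_add]
    have : (m : ℝ) * l + (2 - m) * l = 2 * l := by ring
    rw [this, ← integral_const_mul, ← integral_div]
    refine integral_congr_ae (Eventually.of_forall fun p => ?_)
    simp only [ht]
    have h3 : Real.exp (2 * l) * Real.exp (-2 * l) = 1 := by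
      rw [← Real.exp_add]
      have : 2 * l + -2 * l = 0 := by ring
      rw [this, Real.exp_zero]
    linear_combination (-(‖κ p.1‖ ^ 2 * g1 (Real.exp (-2 * l) * ‖π p.1 - x‖ ^ 2) *
      ‖π p.1 - x‖ ^ 2)) * h3.symm
  have hIF : 0 ≤ IF W π κ x F g1 l := by
    have : 0 ≤ ∫ p, 2 * F (κ p.1) * (-g1 (t p)) ∂W := integral_nonneg_of_ae hu0
    rw [e1] at this
    have h4 := Real.exp_pos (m * l)
    by_contra hcon
    push Not at hcon
    have : Real.exp (m * l) * IF W π κ x F g1 l < 0 := mul_neg_of_pos_of_neg h4 hcon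
    linarith
  have het : 0 ≤ et W π x g1 l := by
    have : 0 ≤ ∫ p, tl π p.2 * ((-g1 (t p)) * ‖π p.1 - x‖ ^ 2) ∂W := integral_nonneg_of_ae hv0
    rw [e2] at this
    have h4 := Real.exp_pos (m * l)
    by_contra hcon
    push Not at hcon
    have : Real.exp (m * l) * et W π x g1 l < 0 := mul_neg_of_pos_of_neg h4 hcon
    linarith
  have hyk : 0 ≤ yk W π κ x (k2 g1) l := by
    have : 0 ≤ ∫ p, ‖κ p.1‖ ^ 2 * ((-g1 (t p)) * ‖π p.1 - x‖ ^ 2) ∂W :=
      integral_nonneg_of_ae hw0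
    rw [e3] at this
    have h4 := Real.exp_pos (m * l)
    by_contra hcon
    push Not at hcon
    have : Real.exp (m * l) * yk W π κ x (k2 g1) l < 0 := mul_neg_of_pos_of_neg h4 hcon
    linarith
  have s1 : √((∫ p, 2 * F (κ p.1) * (-g1 (t p)) ∂W) *
          ∫ p, tl π p.2 * ((-g1 (t p)) * ‖π p.1 - x‖ ^ 2) ∂W) =
      Real.exp (m * l) / 2 * √(IF W π κ x F g1 l * et W π x g1 l) := by
    rw [e1, e2]
    have : Real.exp (m * l) * IF W π κ x F g1 l / 2 * (Real.exp (m * l) * et W π x g1 l / 2) =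
        (Real.exp (m * l) / 2) ^ 2 * (IF W π κ x F g1 l * et W π x g1 l) := by ring
    rw [this, Real.sqrt_mul (by positivity), Real.sqrt_sq (by positivity)]
  have s2 : √((∫ p, 2 * F (κ p.1) * (-g1 (t p)) ∂W) *
          ∫ p, ‖κ p.1‖ ^ 2 * ((-g1 (t p)) * ‖π p.1 - x‖ ^ 2) ∂W) =
      Real.exp (m * l) / 2 * √(IF W π κ x F g1 l * yk W π κ x (k2 g1) l) := by
    rw [e1, e3]
    have : Real.exp (m * l) * IF W π κ x F g1 l / 2 *
        (Real.exp (m * l) * yk W π κ x (k2 g1) l / 2) =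
        (Real.exp (m * l) / 2) ^ 2 * (IF W π κ x F g1 l * yk W π κ x (k2 g1) l) := by ring
    rw [this, Real.sqrt_mul (by positivity), Real.sqrt_sq (by positivity)]
  have hfin : |FV W (X3 π κ x F g1 l)| ≤
      δ * F₀ * (4 * K) * (TB W π x (Real.exp l) + h₀ ^ 2 * MB W π x (Real.exp l)) +
      (δ * (Real.exp (m * l) / 2 * √(IF W π κ x F g1 l * et W π x g1 l)) +
        δ * (Real.exp (m * l) / 2 * √(IF W π κ x F g1 l * yk W π κ x (k2 g1) l))) := by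
    refine hsplit.trans (add_le_add hA (hB.trans ?_))
    rw [s1, s2]
  rw [abs_mul, abs_of_pos (by positivity : (0:ℝ) < 4 * Real.exp (-m * l))]
  have h4 := mul_le_mul_of_nonneg_left hfin (by positivity : (0:ℝ) ≤ 4 * Real.exp (-m * l))
  refine h4.trans (le_of_eq ?_)
  rw [TB_eq, MB_eq]
  have h5 : Real.exp (-m * l) * Real.exp (m * l) = 1 := by
    rw [← Real.exp_add]
    have : -(m : ℝ) * l + m * l = 0 := by ring
    rw [this, Real.exp_zero]
  have h6 : Real.exp (-m * l) * Real.exp ((m - 2) * l) = Real.exp (-2 * l) := by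
    rw [← Real.exp_add]
    congr 1
    ring
  linear_combination (16 * K * δ * F₀ * tb W π x l) * h6 +
    (16 * K * δ * F₀ * h₀ ^ 2 * mb W π x l +
      2 * δ * √(IF W π κ x F g1 l * et W π x g1 l) +
      2 * δ * √(IF W π κ x F g1 l * yk W π κ x (k2 g1) l)) * h5


end Crest.Agent.R234.Shp2_98

namespace Crest.Agent.R234.Shp_98

open Crest.Agent.R234.Avg_387 Crest.Agent.R234.Raw_387 Crest.Agent.R234.Pot_425
open Crest.Agent.R234.Wi_870 (abs_av_le av_const)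

variable {m n k : ℕ} {π : Euc k →L[ℝ] Euc m} {κ : Euc k →L[ℝ] Euc n} {δ : ℝ}
  {x₀ x : Euc m} {R h₀ τ : ℝ} {W : Measure (Euc k × L k)} {g g1 g2 : ℝ → ℝ} {d : Euc m → ℝ}
  {F : Euc n → ℝ} {dF : Euc n → Euc n} {H : Euc n → L n}

theorem ff_of_cylAS (h : CylAS W π κ x₀ R h₀ δ) : FF W π κ := ⟨h.sp, h.conc, h.fin⟩

theorem hgt_all {L : ℝ} (hh : ∀ᵐ p ∂W, ‖κ p.1‖ ≤ h₀) (x : Euc m) : Hgt W π κ x L h₀ := by
  filter_upwards [hh] with p hp _
  exact hp

/-- averaged kernel height -/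
def Ya (d : Euc m → ℝ) (W : Measure (Euc k × L k)) (π : Euc k →L[ℝ] Euc m)
    (κ : Euc k →L[ℝ] Euc n) (g1 : ℝ → ℝ) (x : Euc m) (l : ℝ) : ℝ :=
  av d (fun y l => kt W π (yc κ) g1 y l) x l

theorem Ya_nonneg (hh : ∀ᵐ p ∂W, ‖κ p.1‖ ≤ h₀) (hd : CW d τ) (hg : Prof g g1 g2) (x : Euc m)
    (l : ℝ) : 0 ≤ Ya d W π κ g1 x l := av_nonneg hd fun _ _ => kt_nonneg (cf_yc hh) hg _ _

theorem RR_nonneg (h : FF W π κ) (hg : Prof g g1 g2) (y : Euc m) (l : ℝ) :
    0 ≤ RR W π y g1 l := Wi_870.RR_nonneg' hg (h.fr y l) y l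

theorem et_nonneg (h : FF W π κ) (hg : Prof g g1 g2) (y : Euc m) (l : ℝ) :
    0 ≤ Raw_387.et W π g1 y l := (RR_nonneg h hg y l).trans (RR_le_et h hg y l)

theorem eta_nonneg (h : FF W π κ) (hd : CW d τ) (hg : Prof g g1 g2) (x : Euc m) (l : ℝ) :
    0 ≤ eta d W π g1 x l := av_nonneg hd fun _ _ => et_nonneg h hg _ _

/-- average of a geometric mean -/
theorem av_sqrt_le (hd : CW d τ) {L₀ : ℝ} {u v : Euc m → ℝ → ℝ} (hu : CO x τ L₀ u)
    (hv : CO x τ L₀ v) {l : ℝ} (hl : l < L₀) (hu0 : ∀ y ∈ closedBall x τ, 0 ≤ u y l)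
    (hv0 : ∀ y ∈ closedBall x τ, 0 ≤ v y l) :
    av d (fun y l => √(u y l * v y l)) x l ≤ √(av d u x l * av d v x l) := by
  have hc : CO x τ L₀ (fun y l => √(u y l * v y l)) :=
    Real.continuous_sqrt.comp_continuousOn (hu.mul hv)
  apply Real.le_sqrt_of_sq_le
  exact av_cs hd hc hu hv hl hu0 hv0 fun y hy => by
    rw [Real.sq_sqrt (mul_nonneg (hu0 y hy) (hv0 y hy))]

/-- the average of the error of (W3) -/
theorem abs_av_f3_le (h : CylAS W π κ x₀ R h₀ δ) (h0 : 0 ≤ δ) (hh : 0 ≤ h₀) (hτ : 0 ≤ τ)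
    (hd : CW d τ) (hg : Prof g g1 g2) {K : ℝ} (hK : Bd g1 g2 K) (hF : Well F dF H) {F₀ : ℝ}
    (hF₀ : ∀ y, ‖y‖ ≤ h₀ → F y ≤ F₀) {l : ℝ} (hl : ‖x - x₀‖ + τ + Real.exp l ≤ R)
    (hl0 : l ≤ 0) {tM mM : ℝ} (htb : ∀ y ∈ closedBall x τ, tb W π y l ≤ tM)
    (hmb : ∀ y ∈ closedBall x τ, mb W π y l ≤ mM) :
    |av d (Avg_387.f3 W π κ F g1) x l| ≤
      2 * δ * √(IFa d W π κ F g1 x l * eta d W π g1 x l) +
      2 * δ * √(IFa d W π κ F g1 x l * Ya d W π κ g1 x l) +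
      16 * K * δ * F₀ * (Real.exp (-2 * l) * tM + h₀ ^ 2 * mM) * ∫ v, d v := by
  have hf := ff_of_cylAS h
  have hl1 : l < l + 1 := by linarith
  have hK0 := hK.nonneg
  have hF0 : 0 ≤ F₀ := (hF.nonneg 0).trans (hF₀ 0 (by simpa using hh))
  have hcy := cf_yc (W := W) (κ := κ) h.hgt
  have hA := hf.afr hτ x (l + 1)
  have hHg : Hgt W π κ x (Real.log (Real.exp (l + 1) + τ)) h₀ := hgt_all h.hgt x
  have c3 : CO x τ (l + 1) (fun y l => Avg_387.f3 W π κ F g1 y l) := hA.co_f3 hHg hF hg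
  have cI : CO x τ (l + 1) (fun y l => IF W π κ y F g1 l) := hA.co_IF hHg hF hg.k1
  have ce : CO x τ (l + 1) (fun y l => Raw_387.et W π g1 y l) :=
    CO_of_cont (cont2_et hf hg) x τ (l + 1)
  have cy : CO x τ (l + 1) (fun y l => kt W π (yc κ) g1 y l) :=
    CO_of_cont (cont2_kt hf hcy hg) x τ (l + 1)
  have cIe : CO x τ (l + 1) (fun y l => √(IF W π κ y F g1 l * Raw_387.et W π g1 y l)) :=
    Real.continuous_sqrt.comp_continuousOn (cI.mul ce)
  have cIy : CO x τ (l + 1) (fun y l => √(IF W π κ y F g1 l * kt W π (yc κ) g1 y l)) :=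
    Real.continuous_sqrt.comp_continuousOn (cI.mul cy)
  set D₀ : ℝ := 16 * K * δ * F₀ * (Real.exp (-2 * l) * tM + h₀ ^ 2 * mM) with hD₀
  have cD : CO x τ (l + 1) (fun (_ : Euc m) (_ : ℝ) => D₀) := CO_const _ continuous_const
  have h1 := abs_av_le hd c3 (((cIe.const_mul (2 * δ)).add (cIy.const_mul (2 * δ))).add cD) hl1
    fun y hy => by
      have hyx : ‖y - x‖ ≤ τ := by rwa [mem_closedBall_iff_norm] at hy
      have hy2 : ‖y - x₀‖ + Real.exp l ≤ R := by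
        have := norm_sub_le_norm_sub_add_norm_sub y x x₀
        linarith
      have h2 := Shp2_98.abs_X3_le2 h h0 hh hg hK hF hF₀ hy2 hl0
      refine h2.trans (add_le_add le_rfl ?_)
      refine mul_le_mul_of_nonneg_left ?_ (by positivity)
      have h3 := mul_le_mul_of_nonneg_left (htb y hy) (Real.exp_pos (-2 * l)).le
      have h4 := mul_le_mul_of_nonneg_left (hmb y hy) (sq_nonneg h₀)
      linarith
  refine h1.trans ?_
  rw [av_add hd ((cIe.const_mul (2 * δ)).add (cIy.const_mul (2 * δ))) cD hl1,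
    av_add hd (cIe.const_mul (2 * δ)) (cIy.const_mul (2 * δ)) hl1, av_const_mul, av_const_mul,
    av_const]
  have h5 := av_sqrt_le hd cI ce hl1 (fun y _ => IF_nonneg hF hg W l)
    (fun y _ => et_nonneg hf hg y l)
  have h6 := av_sqrt_le hd cI cy hl1 (fun y _ => IF_nonneg hF hg W l)
    (fun y _ => kt_nonneg hcy hg y l)
  have h7 := mul_le_mul_of_nonneg_left h5 (by positivity : 0 ≤ 2 * δ)
  have h8 := mul_le_mul_of_nonneg_left h6 (by positivity : 0 ≤ 2 * δ)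
  exact add_le_add (add_le_add h7 h8) le_rfl

theorem tS_univ (W : Measure (Euc k × L k)) (π : Euc k →L[ℝ] Euc m) (κ : Euc k →L[ℝ] Euc n)
    (y : Euc m) (l : ℝ) : Wi_870.tS W π κ y l univ = TB W π y (Real.exp l) := by
  unfold Wi_870.tS TB ovr
  have : {p : Euc k × L k | ‖π p.1 - y‖ ^ 2 < Real.exp (2 * l) ∧ κ p.1 ∈ (univ : Set (Euc n))} =
      {p | ‖π p.1 - y‖ < Real.exp l} := by
    ext p
    have h1 : Real.exp (2 * l) = Real.exp l ^ 2 := by
      rw [← Real.exp_nat_mul]; norm_num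
    simp only [mem_univ, and_true, mem_ofPred_eq, h1]
    exact pow_lt_pow_iff_left₀ (norm_nonneg _) (Real.exp_pos _).le two_ne_zero
  rw [this]

/-- the average of the tilt error of (W3) -/
theorem abs_err3a_le (h : CylAS W π κ x₀ R h₀ δ) (hτ : 0 ≤ τ)
    (hd : CW d τ) (hg : Prof g g1 g2) {K : ℝ} (hK : Bd g1 g2 K) (hF : Well F dF H) {A : ℝ}
    (hA : ∀ y, |F y| ≤ A) {l tM : ℝ} (htb : ∀ y ∈ closedBall x τ, tb W π y l ≤ tM) :
    |err3a d W π κ F g1 g2 x l| ≤ 12 * K * A * (Real.exp (-2 * l) * tM) * ∫ v, d v := by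
  have hf := ff_of_cylAS h
  have hl1 : l < l + 1 := by linarith
  have hK0 := hK.nonneg
  have hA0 : 0 ≤ A := (abs_nonneg _).trans (hA 0)
  have hAf := hf.afr hτ x (l + 1)
  have hHg : Hgt W π κ x (Real.log (Real.exp (l + 1) + τ)) h₀ := hgt_all h.hgt x
  have c3 : CO x τ (l + 1) (fun y l => err3 W π κ y F g1 g2 l) :=
    hAf.co_err3 hHg hF hg.k1 hg.k1.cont
  have cD : CO x τ (l + 1) (fun (_ : Euc m) (_ : ℝ) =>
      12 * K * A * (Real.exp (-2 * l) * tM)) := CO_const _ continuous_const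
  have h1 := abs_av_le hd c3 cD hl1 fun y hy => by
    have h2 := Wi_870.abs_err3_le_S (κ := κ) (h.fr y l) hg hK.b0 hK.b2 hA
      (S := univ) MeasurableSet.univ (fun y hy => absurd (mem_univ y) hy) le_rfl
    rw [tS_univ, TB_eq] at h2
    refine h2.trans ?_
    have h3 : Real.exp (-m * l) * Real.exp ((m - 2) * l) = Real.exp (-2 * l) := by
      rw [← Real.exp_add]; congr 1; ring
    have h4 : 12 * K * A * Real.exp (-m * l) * (Real.exp ((m - 2) * l) * tb W π y l) =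
        12 * K * A * (Real.exp (-2 * l) * tb W π y l) := by
      rw [← h3]; ring
    rw [h4]
    refine mul_le_mul_of_nonneg_left ?_ (by positivity)
    exact mul_le_mul_of_nonneg_left (htb y hy) (Real.exp_pos _).le
  rw [av_const] at h1
  exact h1

/-! ### the family of wells -/

/-- separated centres and a positive gap -/
def WP (n : ℕ) : Type := {p : Finset (Euc n) × ℝ // Well_761.Sep p.1 p.2 ∧ 0 < p.2}

/-- the gap -/
def qW (w : WP n) : ℝ := w.1.2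

/-- the well function -/
def FW (w : WP n) : Euc n → ℝ := Well_761.wells w.1.1 w.1.2

/-- its gradient -/
def dFW (w : WP n) : Euc n → Euc n := Well_761.wellsG w.1.1 w.1.2

/-- its Hessian -/
def HW (w : WP n) : Euc n → L n := Well_761.wellsH w.1.1 w.1.2

theorem well_FW (w : WP n) : Well (FW w) (dFW w) (HW w) where
  hasF y := Well_761.wells_hasFDerivAt _ w.2.2 y
  hasdF y := Well_761.wellsG_hasFDerivAt _ _ y
  contH := by
    have h1 : HW w = fderiv ℝ (dFW w) := by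
      funext y
      exact (Well_761.wellsG_hasFDerivAt w.1.1 w.1.2 y).fderiv.symm
    rw [h1]
    exact (Well_761.wellsG_contDiff w.1.1 w.1.2).continuous_fderiv (by simp)
  nonneg y := Well_761.wells_nonneg w.2.2 w.2.1 y
  grad y := Well_761.wellsG_sq_le w.2.2 w.2.1 y

theorem abs_FW_le (w : WP n) (y : Euc n) : |FW w y| ≤ qW w ^ 2 / 32 := by
  rw [abs_of_nonneg ((well_FW w).nonneg y)]
  exact (Well_761.wells_le_top y).trans (Well_761.wellTop_le _)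

/-- `IF` of the family -/
def IFw (d : Euc m → ℝ) (W : Measure (Euc k × L k)) (π : Euc k →L[ℝ] Euc m)
    (κ : Euc k →L[ℝ] Euc n) (g1 : ℝ → ℝ) (x : Euc m) (w : WP n) (l : ℝ) : ℝ :=
  IFa d W π κ (FW w) g1 x l

/-- main part of `IF' / 2` -/
def Fm (d : Euc m → ℝ) (W : Measure (Euc k × L k)) (π : Euc k →L[ℝ] Euc m)
    (κ : Euc k →L[ℝ] Euc n) (g : ℝ → ℝ) (x : Euc m) (w : WP n) (l : ℝ) : ℝ :=
  eFa d W π κ (HW w) g x l - av d (f2 W π κ (dFW w) g) x l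

/-- error part of `IF' / 2` -/
def Gm (d : Euc m → ℝ) (W : Measure (Euc k × L k)) (π : Euc k →L[ℝ] Euc m)
    (κ : Euc k →L[ℝ] Euc n) (g1 g2 : ℝ → ℝ) (x : Euc m) (w : WP n) (l : ℝ) : ℝ :=
  (err3a d W π κ (FW w) g1 g2 x l + av d (Avg_387.f3 W π κ (FW w) g1) x l) / 2

theorem IFw_nonneg (hd : CW d τ) (hg : Prof g g1 g2) (x : Euc m) (w : WP n) (l : ℝ) :
    0 ≤ IFw d W π κ g1 x w l := IFa_nonneg hd (well_FW w) hg W x l

theorem hasDerivAt_IFw (h : FF W π κ) (hh : ∀ᵐ p ∂W, ‖κ p.1‖ ≤ h₀) (hτ : 0 ≤ τ) (hd : CW d τ)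
    (hg : Prof g g1 g2) (x : Euc m) (w : WP n) (l : ℝ) :
    HasDerivAt (IFw d W π κ g1 x w)
      (2 * (Fm d W π κ g x w l + Gm d W π κ g1 g2 x w l)) l := by
  have h1 := (h.afr hτ x (l + 1)).W3a (hgt_all hh x) hd (well_FW w) hg (by linarith : l < l + 1)
  refine h1.congr_deriv ?_
  unfold Fm Gm
  ring

theorem Fm_sq_le (h : FF W π κ) (hh : ∀ᵐ p ∂W, ‖κ p.1‖ ≤ h₀) (hτ : 0 ≤ τ) (hd : CW d τ)
    (hg : Prof g g1 g2) (x : Euc m) (w : WP n) (l : ℝ) :
    Fm d W π κ g x w l ^ 2 ≤ IFw d W π κ g1 x w l * RRa d W π g1 x l :=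
  (h.afr hτ x (l + 1)).W2a (hgt_all hh x) hd (well_FW w) hg (by linarith : l < l + 1)

theorem cont_FG (h : FF W π κ) (hh : ∀ᵐ p ∂W, ‖κ p.1‖ ≤ h₀) (hτ : 0 ≤ τ) (hd : CW d τ)
    (hg : Prof g g1 g2) (x : Euc m) (w : WP n) :
    Continuous fun l => Fm d W π κ g x w l + Gm d W π κ g1 g2 x w l := by
  have c1 : Continuous (eFa d W π κ (HW w) g x) :=
    continuous_of_CO hd fun L₀ => (h.afr hτ x L₀).co_eF (hgt_all hh x) (well_FW w) hg.k0
  have c2 : Continuous (av d (f2 W π κ (dFW w) g) x) :=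
    continuous_of_CO hd fun L₀ => (h.afr hτ x L₀).co_f2 (hgt_all hh x) (well_FW w) hg
  have c3 : Continuous (err3a d W π κ (FW w) g1 g2 x) :=
    continuous_of_CO hd fun L₀ => (h.afr hτ x L₀).co_err3 (hgt_all hh x) (well_FW w) hg.k1
      hg.k1.cont
  have c4 : Continuous (av d (Avg_387.f3 W π κ (FW w) g1) x) :=
    continuous_of_CO hd fun L₀ => (h.afr hτ x L₀).co_f3 (hgt_all hh x) (well_FW w) hg
  unfold Fm Gm
  fun_prop

/-- the non absorbed error at gap `q` -/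
def tw (K δ h₀ M₀ q tM mM l : ℝ) : ℝ :=
  K * q ^ 2 * M₀ / 4 * (δ * (Real.exp (-2 * l) * tM + h₀ ^ 2 * mM) + Real.exp (-2 * l) * tM)

/-- **the error part** -/
theorem abs_Gm_le (h : CylAS W π κ x₀ R h₀ δ) (h0 : 0 ≤ δ) (hh : 0 ≤ h₀) (hτ : 0 ≤ τ)
    (hd : CW d τ) (hg : Prof g g1 g2) {K : ℝ} (hK : Bd g1 g2 K) {l : ℝ}
    (hl : ‖x - x₀‖ + τ + Real.exp l ≤ R) (hl0 : l ≤ 0) {tM mM : ℝ} (htM : 0 ≤ tM)
    (htb : ∀ y ∈ closedBall x τ, tb W π y l ≤ tM)
    (hmb : ∀ y ∈ closedBall x τ, mb W π y l ≤ mM) (w : WP n) :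
    |Gm d W π κ g1 g2 x w l| ≤
      δ * √(IFw d W π κ g1 x w l * eta d W π g1 x l) +
      δ * √(IFw d W π κ g1 x w l * Ya d W π κ g1 x l) +
      tw K δ h₀ (∫ v, d v) (qW w) tM mM l := by
  have h1 := abs_av_f3_le h h0 hh hτ hd hg hK (well_FW w) (F₀ := qW w ^ 2 / 32)
    (fun y _ => (le_abs_self _).trans (abs_FW_le w y)) hl hl0 htb hmb
  have h2 := abs_err3a_le h hτ hd hg hK (well_FW w) (abs_FW_le w) htb
  have hI0 : 0 ≤ ∫ v, d v := integral_nonneg hd.nonneg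
  have hK0 := hK.nonneg
  have h3 : |Gm d W π κ g1 g2 x w l| ≤
      (|err3a d W π κ (FW w) g1 g2 x l| + |av d (Avg_387.f3 W π κ (FW w) g1) x l|) / 2 := by
    unfold Gm
    rw [abs_div, abs_two]
    exact div_le_div_of_nonneg_right (abs_add_le _ _) two_pos.le
  have h4 : 0 ≤ K * qW w ^ 2 * (∫ v, d v) * (Real.exp (-2 * l) * tM) := by positivity
  refine h3.trans ?_
  unfold tw IFw
  nlinarith

end Crest.Agent.R234.Shp_98
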