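import Crest.Agent.R234.GL1_394

-- ▼ part R234/Swb1_159
section

/-!
# Row 234, F6-BLOCK (helper159), part 1: one minimal surface seen from two frames

Abstract comparison of `EE` and `II` of `GL_394` for two charts `c1`, `c2` of the SAME surface whose
base coordinates are related by `O ∘ θ`, `O` an isometry, `|Dθ - 1| ≤ σ`, `|θ 0| ≤ σ e^l`.
-/

set_option autoImplicit false

open MeasureTheory Set Metric Filter Topology
open Crest.GeometryTopology.Submanifold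
open Crest.Agent.R234.Vf_884 Crest.Agent.R234.Ar_870 Crest.Agent.R234.Cy_870
open Crest.Agent.R234.GL_394
open scoped ENNReal NNReal InnerProductSpace

noncomputable section

namespace Crest.Agent.R234.Swb_159

variable {m k : ℕ}

/-- two charts of the same surface, base coordinates related by `O ∘ θ` on the ball of radius `R`. -/
structure Blk (c1 c2 : Ch m k) (O : Euc m ≃ₗᵢ[ℝ] Euc m) (θ : Euc m → Euc m) (dθ : Euc m → L m)
    (R σ : ℝ) (V : Measure (Euc k × L k)) : Prop where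
  s0 : 0 ≤ σ
  s1 : σ ≤ 1 / 4
  R0 : 0 < R
  rel : ∀ᵐ p ∂V, (‖c1.x p.1‖ ≤ R ∧ c2.x p.1 = O (θ (c1.x p.1)) ∧ c2.f p.1 = c1.f p.1) ∨
    (R ≤ ‖c1.x p.1‖ ∧ R ≤ ‖c2.x p.1‖)
  der : ∀ v ∈ closedBall (0 : Euc m) R, HasFDerivWithinAt θ (dθ v) (closedBall 0 R) v
  near : ∀ v ∈ closedBall (0 : Euc m) R, ‖dθ v - ContinuousLinearMap.id ℝ (Euc m)‖ ≤ σ
  hj : ∀ v ∈ closedBall (0 : Euc m) R, c1.j v = c2.j (O (θ v)) * |(dθ v).det|
  cj : ContinuousOn c1.j (closedBall (0 : Euc m) R)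

namespace Blk

variable {c1 c2 : Ch m k} {O : Euc m ≃ₗᵢ[ℝ] Euc m} {θ : Euc m → Euc m} {dθ : Euc m → L m}
  {R σ : ℝ} {V : Measure (Euc k × L k)} (h : Blk c1 c2 O θ dθ R σ V)
include h

theorem lip {u v : Euc m} (hu : u ∈ closedBall (0 : Euc m) R) (hv : v ∈ closedBall (0 : Euc m) R) :
    ‖(θ v - v) - (θ u - u)‖ ≤ σ * ‖v - u‖ := by
  refine (convex_closedBall (0 : Euc m) R).norm_image_sub_le_of_norm_hasFDerivWithin_le
    (f := fun v => θ v - v) (f' := fun v => dθ v - ContinuousLinearMap.id ℝ (Euc m))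
    (fun v hv => (h.der v hv).sub (hasFDerivWithinAt_id v _)) h.near hu hv

theorem zero_mem : (0 : Euc m) ∈ closedBall (0 : Euc m) R := mem_closedBall_self h.R0.le

theorem close {e : ℝ} (hb : ‖θ 0‖ ≤ σ * e) {v : Euc m} (hv : v ∈ closedBall (0 : Euc m) R) :
    ‖θ v - v‖ ≤ σ * (e + ‖v‖) := by
  have h1 := h.lip h.zero_mem hv
  rw [sub_zero, sub_zero] at h1
  have h2 : ‖θ v - v‖ ≤ ‖(θ v - v) - θ 0‖ + ‖θ 0‖ := by
    calc ‖θ v - v‖ = ‖((θ v - v) - θ 0) + θ 0‖ := by rw [sub_add_cancel]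
      _ ≤ _ := norm_add_le _ _
  linarith

theorem le_norm {e : ℝ} (hb : ‖θ 0‖ ≤ σ * e) {v : Euc m} (hv : v ∈ closedBall (0 : Euc m) R) :
    (1 - σ) * ‖v‖ - σ * e ≤ ‖θ v‖ := by
  have h1 := h.close hb hv
  have h2 : ‖v‖ ≤ ‖θ v‖ + ‖θ v - v‖ := by
    calc ‖v‖ = ‖θ v - (θ v - v)‖ := by rw [sub_sub_cancel]
      _ ≤ _ := norm_sub_le _ _
  linarith

theorem inj : InjOn θ (closedBall (0 : Euc m) R) := by
  intro u hu v hv huv
  have h1 := h.lip hu hv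
  rw [huv] at h1
  have e : θ v - v - (θ v - u) = -(v - u) := by abel
  rw [e, norm_neg] at h1
  have hs := h.s1
  have h2 : ‖v - u‖ = 0 := by nlinarith [norm_nonneg (v - u)]
  rw [norm_eq_zero, sub_eq_zero] at h2
  exact h2.symm

theorem cont : ContinuousOn θ (closedBall (0 : Euc m) R) := fun v hv =>
  (h.der v hv).continuousWithinAt

/-- the image contains the ball of radius `e`. -/
theorem surj {e : ℝ} (he : 0 < e) (hb : ‖θ 0‖ ≤ σ * e) (hl : (1 + 3 * σ) * e ≤ R) {y : Euc m}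
    (hy : ‖y‖ ≤ e) : ∃ v ∈ closedBall (0 : Euc m) R, θ v = y := by
  have hs0 := h.s0
  have hs1 := h.s1
  set T : Euc m → Euc m := fun v => y - (θ v - v) with hT
  have hkey : e + σ * (e + R) ≤ R := by
    have h1 : 1 + σ ≤ (1 - σ) * (1 + 3 * σ) := by nlinarith
    have h2 : (1 + σ) * e ≤ (1 - σ) * R := by
      calc (1 + σ) * e ≤ ((1 - σ) * (1 + 3 * σ)) * e := mul_le_mul_of_nonneg_right h1 he.le
        _ = (1 - σ) * ((1 + 3 * σ) * e) := by ring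
        _ ≤ _ := mul_le_mul_of_nonneg_left hl (by linarith)
    linarith
  have hmaps : MapsTo T (closedBall (0 : Euc m) R) (closedBall 0 R) := by
    intro v hv
    rw [mem_closedBall_zero_iff] at hv ⊢
    have h1 := h.close hb (mem_closedBall_zero_iff.2 hv)
    calc ‖y - (θ v - v)‖ ≤ ‖y‖ + ‖θ v - v‖ := norm_sub_le _ _
      _ ≤ e + σ * (e + R) := add_le_add hy (h1.trans
          (mul_le_mul_of_nonneg_left (by linarith) hs0))
      _ ≤ R := hkey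
  obtain ⟨s, hs⟩ : ∃ s : ℝ≥0, (s : ℝ) = σ := ⟨⟨σ, hs0⟩, rfl⟩
  have hlip : LipschitzOnWith s T (closedBall (0 : Euc m) R) := by
    refine LipschitzOnWith.of_dist_le_mul fun u hu v hv => ?_
    rw [dist_eq_norm, dist_eq_norm, hs]
    have e : T u - T v = (θ v - v) - (θ u - u) := by simp only [hT]; abel
    rw [e, norm_sub_rev u v]
    exact h.lip hu hv
  have hcomp : IsComplete (closedBall (0 : Euc m) R) := isClosed_closedBall.isComplete
  have hcontr : ContractingWith s (hmaps.restrict T _ _) := by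
    refine ⟨?_, hlip.mapsToRestrict hmaps⟩
    rw [← NNReal.coe_lt_coe, hs, NNReal.coe_one]
    linarith
  obtain ⟨v, hv, hfix, -⟩ := ContractingWith.exists_fixedPoint' hcomp hmaps hcontr h.zero_mem
    (edist_ne_top _ _)
  refine ⟨v, hv, ?_⟩
  have h1 : y - (θ v - v) = v := hfix
  have h2 : y = v + (θ v - v) := by
    rw [← sub_eq_iff_eq_add]; exact h1
  rw [h2]; abel

end Blk

/-! ### the test function -/

/-- difference of the two kernels in the first base coordinate -/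
def dl (θ : Euc m → Euc m) (R : ℝ) (q : ℝ → ℝ) (l : ℝ) (v : Euc m) : ℝ :=
  (closedBall (0 : Euc m) R).indicator (fun v => q (Real.exp (-2 * l) * ‖θ v‖ ^ 2) -
    q (Real.exp (-2 * l) * ‖v‖ ^ 2)) v

theorem exp_mul_sq (l : ℝ) : Real.exp (-2 * l) * Real.exp l ^ 2 = 1 := by
  rw [← Real.exp_nat_mul, ← Real.exp_add]
  have : -2 * l + (2 : ℕ) * l = 0 := by push_cast; ring
  rw [this, Real.exp_zero]

theorem ker_zero {q q' : ℝ → ℝ} (hq : Ker q q') {l t : ℝ} (ht : Real.exp l ≤ t) :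
    q (Real.exp (-2 * l) * t ^ 2) = 0 := by
  apply hq.zero
  rw [← exp_mul_sq l]
  have h2 : Real.exp l ^ 2 ≤ t ^ 2 := pow_le_pow_left₀ (Real.exp_pos l).le ht 2
  exact mul_le_mul_of_nonneg_left h2 (Real.exp_pos _).le

namespace Blk

variable {c1 c2 : Ch m k} {O : Euc m ≃ₗᵢ[ℝ] Euc m} {θ : Euc m → Euc m} {dθ : Euc m → L m}
  {R σ : ℝ} {V : Measure (Euc k × L k)} (h : Blk c1 c2 O θ dθ R σ V)
include h

/-- beyond `(1 + 3σ) e^l` both kernels vanish. -/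
theorem big {l : ℝ} (hb : ‖θ 0‖ ≤ σ * Real.exp l) {v : Euc m}
    (hv : v ∈ closedBall (0 : Euc m) R) (hl : (1 + 3 * σ) * Real.exp l ≤ ‖v‖) :
    Real.exp l ≤ ‖θ v‖ ∧ Real.exp l ≤ ‖v‖ := by
  have hs0 := h.s0
  have hs1 := h.s1
  have he := Real.exp_pos l
  constructor
  · refine le_trans ?_ (h.le_norm hb hv)
    have hk : 1 + σ ≤ (1 - σ) * (1 + 3 * σ) := by nlinarith
    have h1 : (1 + σ) * Real.exp l ≤ (1 - σ) * ‖v‖ := by
      calc (1 + σ) * Real.exp l ≤ ((1 - σ) * (1 + 3 * σ)) * Real.exp l :=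
            mul_le_mul_of_nonneg_right hk he.le
        _ = (1 - σ) * ((1 + 3 * σ) * Real.exp l) := by ring
        _ ≤ _ := mul_le_mul_of_nonneg_left hl (by linarith)
    linarith
  · nlinarith

theorem dl_zero {q q' : ℝ → ℝ} (hq : Ker q q') {l : ℝ} (hb : ‖θ 0‖ ≤ σ * Real.exp l) {v : Euc m}
    (hv : (1 + 3 * σ) * Real.exp l ≤ ‖v‖) : dl θ R q l v = 0 := by
  unfold dl
  by_cases hR : v ∈ closedBall (0 : Euc m) R
  · rw [indicator_of_mem hR]
    obtain ⟨h1, h2⟩ := h.big hb hR hv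
    simp only [ker_zero hq h1, ker_zero hq h2, sub_self]
  · exact indicator_of_notMem hR _

theorem abs_dl_le {q q' : ℝ → ℝ} (hq : Ker q q') {G : ℝ} (hG : ∀ t, 0 ≤ t → |q' t| ≤ G) {l : ℝ}
    (hb : ‖θ 0‖ ≤ σ * Real.exp l) (v : Euc m) : |dl θ R q l v| ≤ 12 * G * σ := by
  have hs0 := h.s0
  have hs1 := h.s1
  have hG0 : 0 ≤ G := (abs_nonneg _).trans (hG 0 le_rfl)
  have he0 := Real.exp_pos l
  by_cases hv : (1 + 3 * σ) * Real.exp l ≤ ‖v‖
  · rw [h.dl_zero hq hb hv, abs_zero]; positivity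
  push Not at hv
  unfold dl
  by_cases hR : v ∈ closedBall (0 : Euc m) R
  · rw [indicator_of_mem hR]
    have he := exp_mul_sq l
    have h1 := h.close hb hR
    have n0 := norm_nonneg v
    have n1 := norm_nonneg (θ v)
    have hvb : ‖v‖ ≤ 7 / 4 * Real.exp l := hv.le.trans (by nlinarith)
    have h1' : ‖θ v - v‖ ≤ σ * (11 / 4 * Real.exp l) :=
      h1.trans (mul_le_mul_of_nonneg_left (by linarith) hs0)
    have h2 : ‖θ v‖ ≤ ‖v‖ + ‖θ v - v‖ := by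
      calc ‖θ v‖ = ‖v + (θ v - v)‖ := by rw [add_sub_cancel]
        _ ≤ _ := norm_add_le _ _
    have h2' : ‖θ v‖ + ‖v‖ ≤ 67 / 16 * Real.exp l := by nlinarith
    have h3 : |q (Real.exp (-2 * l) * ‖θ v‖ ^ 2) - q (Real.exp (-2 * l) * ‖v‖ ^ 2)| ≤
        G * |Real.exp (-2 * l) * ‖θ v‖ ^ 2 - Real.exp (-2 * l) * ‖v‖ ^ 2| := by
      have := (convex_Ici (0:ℝ)).norm_image_sub_le_of_norm_hasDerivWithin_le
        (f := q) (f' := q') (C := G) (fun t _ => (hq.der t).hasDerivWithinAt)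
        (fun t ht => by rw [Real.norm_eq_abs]; exact hG t ht)
        (x := Real.exp (-2 * l) * ‖v‖ ^ 2) (y := Real.exp (-2 * l) * ‖θ v‖ ^ 2)
        (by show (0:ℝ) ≤ _; positivity) (by show (0:ℝ) ≤ _; positivity)
      rwa [Real.norm_eq_abs, Real.norm_eq_abs] at this
    refine h3.trans ?_
    have h4 : |‖θ v‖ - ‖v‖| ≤ σ * (11 / 4 * Real.exp l) := (abs_norm_sub_norm_le _ _).trans h1'
    have h5 : |Real.exp (-2 * l) * ‖θ v‖ ^ 2 - Real.exp (-2 * l) * ‖v‖ ^ 2| ≤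
        Real.exp (-2 * l) * ((σ * (11 / 4 * Real.exp l)) * (67 / 16 * Real.exp l)) := by
      have e : Real.exp (-2 * l) * ‖θ v‖ ^ 2 - Real.exp (-2 * l) * ‖v‖ ^ 2 =
          Real.exp (-2 * l) * ((‖θ v‖ - ‖v‖) * (‖θ v‖ + ‖v‖)) := by ring
      rw [e, abs_mul, abs_of_pos (Real.exp_pos _), abs_mul, abs_of_nonneg (add_nonneg n1 n0)]
      refine mul_le_mul_of_nonneg_left ?_ (Real.exp_pos _).le
      exact mul_le_mul h4 h2' (by positivity) (by positivity)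
    have h6 : Real.exp (-2 * l) * ((σ * (11 / 4 * Real.exp l)) * (67 / 16 * Real.exp l)) ≤
        12 * σ := by
      have e : Real.exp (-2 * l) * ((σ * (11 / 4 * Real.exp l)) * (67 / 16 * Real.exp l)) =
          (11 / 4 * (67 / 16)) * σ * (Real.exp (-2 * l) * Real.exp l ^ 2) := by ring
      rw [e, he, mul_one]
      refine mul_le_mul_of_nonneg_right (by norm_num) hs0
    calc G * |Real.exp (-2 * l) * ‖θ v‖ ^ 2 - Real.exp (-2 * l) * ‖v‖ ^ 2| ≤ G * (12 * σ) :=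
          mul_le_mul_of_nonneg_left (h5.trans h6) hG0
      _ = _ := by ring
  · rw [indicator_of_notMem hR, abs_zero]; positivity

theorem measurable_dl {q q' : ℝ → ℝ} (hq : Ker q q') (l : ℝ) : Measurable (dl θ R q l) := by
  have hB : MeasurableSet (closedBall (0 : Euc m) R) := measurableSet_closedBall
  have hc : ContinuousOn (fun v => q (Real.exp (-2 * l) * ‖θ v‖ ^ 2) -
      q (Real.exp (-2 * l) * ‖v‖ ^ 2)) (closedBall (0 : Euc m) R) := by
    refine ContinuousOn.sub ?_ ?_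
    · exact hq.continuous.comp_continuousOn ((h.cont.norm.pow 2).const_mul _)
    · exact (hq.continuous.comp ((continuous_norm.pow 2).const_mul _)).continuousOn
  classical
  have h1 := hc.measurable_piecewise (g := fun _ => (0:ℝ)) continuousOn_const hB
  have h2 : dl θ R q l = (closedBall (0 : Euc m) R).piecewise
      (fun v => q (Real.exp (-2 * l) * ‖θ v‖ ^ 2) - q (Real.exp (-2 * l) * ‖v‖ ^ 2))
      (fun _ => (0:ℝ)) := by
    funext v
    unfold dl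
    by_cases hv : v ∈ closedBall (0 : Euc m) R
    · rw [indicator_of_mem hv, piecewise_eq_of_mem _ _ _ hv]
    · rw [indicator_of_notMem hv, piecewise_eq_of_notMem _ _ _ hv]
  rw [h2]; exact h1

/-- **the two densities transform into each other.** -/
theorem int_j {q q' : ℝ → ℝ} (hq : Ker q q') {l : ℝ} (hb : ‖θ 0‖ ≤ σ * Real.exp l)
    (hl : (1 + 3 * σ) * Real.exp l ≤ R) :
    (∫ v : Euc m, c2.j v * q (Real.exp (-2 * l) * ‖v‖ ^ 2)) -
      ∫ v : Euc m, c1.j v * q (Real.exp (-2 * l) * ‖v‖ ^ 2) = ∫ v, dl θ R q l v * c1.j v := by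
  have hs0 := h.s0
  have hs1 := h.s1
  have he := Real.exp_pos l
  have hB : MeasurableSet (closedBall (0 : Euc m) R) := measurableSet_closedBall
  have hcB : IsCompact (closedBall (0 : Euc m) R) := isCompact_closedBall 0 R
  have e0 : ∫ v : Euc m, c2.j v * q (Real.exp (-2 * l) * ‖v‖ ^ 2) =
      ∫ v : Euc m, c2.j (O v) * q (Real.exp (-2 * l) * ‖v‖ ^ 2) := by
    have h1 := (O.measurePreserving).integral_comp O.toHomeomorph.measurableEmbedding
      (fun v : Euc m => c2.j v * q (Real.exp (-2 * l) * ‖v‖ ^ 2))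
    rw [← h1]
    refine integral_congr_ae (ae_of_all _ fun v => ?_)
    simp only [LinearIsometryEquiv.norm_map]
  have e1 : ∫ v : Euc m, c2.j (O v) * q (Real.exp (-2 * l) * ‖v‖ ^ 2) =
      ∫ v in θ '' closedBall (0 : Euc m) R, c2.j (O v) * q (Real.exp (-2 * l) * ‖v‖ ^ 2) := by
    refine (setIntegral_eq_integral_of_forall_compl_eq_zero fun v hv => ?_).symm
    have h1 : Real.exp l ≤ ‖v‖ := by
      by_contra hc
      push Not at hc
      apply hv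
      obtain ⟨u, hu, huv⟩ := h.surj he hb hl hc.le
      exact ⟨u, hu, huv⟩
    rw [ker_zero hq h1, mul_zero]
  have e2 : ∫ v in θ '' closedBall (0 : Euc m) R, c2.j (O v) *
      q (Real.exp (-2 * l) * ‖v‖ ^ 2) =
      ∫ v in closedBall (0 : Euc m) R, |(dθ v).det| • (c2.j (O (θ v)) *
        q (Real.exp (-2 * l) * ‖θ v‖ ^ 2)) :=
    integral_image_eq_integral_abs_det_fderiv_smul volume hB h.der h.inj _
  have e3 : ∫ v in closedBall (0 : Euc m) R, |(dθ v).det| • (c2.j (O (θ v)) *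
        q (Real.exp (-2 * l) * ‖θ v‖ ^ 2)) =
      ∫ v in closedBall (0 : Euc m) R, c1.j v * q (Real.exp (-2 * l) * ‖θ v‖ ^ 2) := by
    refine setIntegral_congr_fun hB fun v hv => ?_
    simp only [h.hj v hv, smul_eq_mul]
    ring
  have e4 : ∫ v : Euc m, c1.j v * q (Real.exp (-2 * l) * ‖v‖ ^ 2) =
      ∫ v in closedBall (0 : Euc m) R, c1.j v * q (Real.exp (-2 * l) * ‖v‖ ^ 2) := by
    refine (setIntegral_eq_integral_of_forall_compl_eq_zero fun v hv => ?_).symm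
    have h1 : Real.exp l ≤ ‖v‖ := by
      rw [mem_closedBall_zero_iff, not_le] at hv
      nlinarith
    rw [ker_zero hq h1, mul_zero]
  have c1c : ContinuousOn (fun v => c1.j v * q (Real.exp (-2 * l) * ‖θ v‖ ^ 2))
      (closedBall (0 : Euc m) R) :=
    h.cj.mul (hq.continuous.comp_continuousOn ((h.cont.norm.pow 2).const_mul _))
  have c2c : ContinuousOn (fun v => c1.j v * q (Real.exp (-2 * l) * ‖v‖ ^ 2))
      (closedBall (0 : Euc m) R) :=
    h.cj.mul (hq.continuous.comp ((continuous_norm.pow 2).const_mul _)).continuousOn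
  rw [e0, e1, e2, e3, e4, ← integral_sub (c1c.integrableOn_compact hcB)
    (c2c.integrableOn_compact hcB), ← integral_indicator hB]
  congr 1
  funext v
  unfold dl
  by_cases hv : v ∈ closedBall (0 : Euc m) R
  · rw [indicator_of_mem hv, indicator_of_mem hv]; ring
  · rw [indicator_of_notMem hv, indicator_of_notMem hv, zero_mul]

/-- **the two pushed forward measures.** -/
theorem ae_dl {q q' : ℝ → ℝ} (hq : Ker q q') {l : ℝ} (hb : ‖θ 0‖ ≤ σ * Real.exp l)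
    (hl : (1 + 3 * σ) * Real.exp l ≤ R) :
    ∀ᵐ p ∂V, q (Real.exp (-2 * l) * ‖c2.x p.1‖ ^ 2) - q (Real.exp (-2 * l) * ‖c1.x p.1‖ ^ 2) =
      dl θ R q l (c1.x p.1) := by
  have hs0 := h.s0
  have he := Real.exp_pos l
  filter_upwards [h.rel] with p hp
  rcases hp with ⟨h1, h2, -⟩ | ⟨h1, h2⟩
  · rw [h2, LinearIsometryEquiv.norm_map]
    unfold dl
    rw [indicator_of_mem (mem_closedBall_zero_iff.2 h1)]
  · have h3 : Real.exp l ≤ ‖c1.x p.1‖ := by nlinarith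
    have h4 : Real.exp l ≤ ‖c2.x p.1‖ := by nlinarith
    rw [ker_zero hq h3, ker_zero hq h4, h.dl_zero hq hb (hl.trans h1), sub_zero]

/-- **(E), identity.** -/
theorem EE_sub [IsFiniteMeasure V] {q q' : ℝ → ℝ} (hq : Ker q q')
    (m1 : AEMeasurable (fun p : Euc k × L k => c1.x p.1) V)
    (m2 : AEMeasurable (fun p : Euc k × L k => c2.x p.1) V) (Q : ℝ) {l : ℝ}
    (hb : ‖θ 0‖ ≤ σ * Real.exp l) (hl : (1 + 3 * σ) * Real.exp l ≤ R) :
    GL_394.EE c2 V q Q l - GL_394.EE c1 V q Q l = Real.exp ((2 - m) * l) *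
      (∫ p, dl θ R q l (c1.x p.1) ∂V - Q * ∫ v, dl θ R q l v * c1.j v) := by
  obtain ⟨Kq, -, hKq, -⟩ := hq.exists_bound
  have i : ∀ {x : Euc k × L k → Euc m}, AEMeasurable x V →
      Integrable (fun p => 1 * q (Real.exp (-2 * l) * ‖x p‖ ^ 2)) V := by
    intro x hx
    refine Integrable.mono' (integrable_const Kq) ?_ ?_
    · have h1 : AEMeasurable (fun p => Real.exp (-2 * l) * ‖x p‖ ^ 2) V :=
        (hx.norm.pow_const 2).const_mul _
      exact ((hq.continuous.measurable.comp_aemeasurable h1).const_mul 1).aestronglyMeasurable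
    · filter_upwards with p
      rw [one_mul, Real.norm_eq_abs]
      exact hKq _ (by positivity)
  have e1 : ∫ p, 1 * q (Real.exp (-2 * l) * ‖c2.x p.1‖ ^ 2) ∂V -
      ∫ p, 1 * q (Real.exp (-2 * l) * ‖c1.x p.1‖ ^ 2) ∂V = ∫ p, dl θ R q l (c1.x p.1) ∂V := by
    rw [← integral_sub (i m2) (i m1)]
    refine integral_congr_ae ?_
    filter_upwards [h.ae_dl hq hb hl] with p hp
    rw [← hp]; ring
  have e2 := h.int_j hq hb hl
  unfold GL_394.EE
  rw [← e1, ← e2]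
  ring

/-- **(E), estimate through the total variation measure `e2` of `x_# V - Q j` (618, 354).** -/
theorem EE_sub_le [IsFiniteMeasure V] {q q' : ℝ → ℝ} (hq : Ker q q')
    (m1 : AEMeasurable (fun p : Euc k × L k => c1.x p.1) V)
    (m2 : AEMeasurable (fun p : Euc k × L k => c2.x p.1) V) (Q : ℝ) {l : ℝ}
    (hb : ‖θ 0‖ ≤ σ * Real.exp l)
    (hl : (1 + 3 * σ) * Real.exp l ≤ R) {G : ℝ} (hG : ∀ t, 0 ≤ t → |q' t| ≤ G)
    (hτ0 : ∀ᵐ p ∂V, 0 ≤ c1.tau p.1 p.2)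
    (hτi : Integrable (fun p => c1.tau p.1 p.2) V) {e2 : Measure (Euc m)}
    (hfin : e2 (closedBall 0 ((1 + 3 * σ) * Real.exp l)) ≠ ⊤)
    (habs : ∀ f : Euc m → ℝ, Measurable f → (∃ C, ∀ v, |f v| ≤ C) →
      (∀ v ∉ closedBall (0 : Euc m) ((1 + 3 * σ) * Real.exp l), f v = 0) →
      |∫ p, f (c1.x p.1) * (1 - c1.tau p.1 p.2 / 2) ∂V - Q * ∫ v, f v * c1.j v| ≤
        ∫ v, |f v| ∂e2) :
    |GL_394.EE c2 V q Q l - GL_394.EE c1 V q Q l| ≤ 12 * G * σ * (Real.exp ((2 - m) * l) *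
      (e2.real (closedBall 0 ((1 + 3 * σ) * Real.exp l)) +
        (1 / 2) * ∫ p in {p | ‖c1.x p.1‖ ≤ (1 + 3 * σ) * Real.exp l}, c1.tau p.1 p.2 ∂V)) := by
  have hs0 := h.s0
  have hG0 : 0 ≤ G := (abs_nonneg _).trans (hG 0 le_rfl)
  have he := Real.exp_pos l
  set r := (1 + 3 * σ) * Real.exp l with hr
  have hd := h.abs_dl_le hq hG hb
  have hdm := h.measurable_dl hq l
  have hd0 : ∀ v ∉ closedBall (0 : Euc m) r, dl θ R q l v = 0 := by
    intro v hv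
    rw [mem_closedBall_zero_iff, not_le] at hv
    exact h.dl_zero hq hb hv.le
  have h1 := habs (dl θ R q l) hdm ⟨_, hd⟩ hd0
  have hC0 : 0 ≤ 12 * G * σ := by positivity
  -- the measure `e2`
  have h2 : ∫ v, |dl θ R q l v| ∂e2 ≤ 12 * G * σ * e2.real (closedBall 0 r) := by
    have e : ∫ v, |dl θ R q l v| ∂e2 = ∫ v in closedBall (0 : Euc m) r, |dl θ R q l v| ∂e2 :=
      (setIntegral_eq_integral_of_forall_compl_eq_zero fun v hv => by rw [hd0 v hv, abs_zero]).symm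
    rw [e]
    have h3 := norm_setIntegral_le_of_norm_le_const (μ := e2) (s := closedBall (0 : Euc m) r)
      (f := fun v => |dl θ R q l v|) (C := 12 * G * σ) hfin.lt_top
      (fun v _ => by rw [Real.norm_eq_abs, abs_abs]; exact hd v)
    exact (le_abs_self _).trans h3
  -- the tilt part
  have iδ : Integrable (fun p : Euc k × L k => dl θ R q l (c1.x p.1)) V := by
    refine Integrable.mono' (integrable_const (12 * G * σ))
      ((hdm.comp_aemeasurable m1).aestronglyMeasurable) ?_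
    filter_upwards with p
    rw [Real.norm_eq_abs]; exact hd _
  have iδτ : Integrable (fun p : Euc k × L k => dl θ R q l (c1.x p.1) * c1.tau p.1 p.2) V := by
    refine Integrable.mono' (hτi.norm.const_mul (12 * G * σ))
      ((hdm.comp_aemeasurable m1).aestronglyMeasurable.mul hτi.1) ?_
    filter_upwards with p
    rw [norm_mul]
    exact mul_le_mul_of_nonneg_right (by rw [Real.norm_eq_abs]; exact hd _) (norm_nonneg _)
  have e3 : ∫ p, dl θ R q l (c1.x p.1) * (1 - c1.tau p.1 p.2 / 2) ∂V =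
      ∫ p, dl θ R q l (c1.x p.1) ∂V -
        (1 / 2) * ∫ p, dl θ R q l (c1.x p.1) * c1.tau p.1 p.2 ∂V := by
    rw [← integral_const_mul, ← integral_sub iδ (iδτ.const_mul _)]
    refine integral_congr_ae (ae_of_all _ fun p => ?_)
    ring
  have h4 : |∫ p, dl θ R q l (c1.x p.1) * c1.tau p.1 p.2 ∂V| ≤ 12 * G * σ *
      ∫ p in {p | ‖c1.x p.1‖ ≤ r}, c1.tau p.1 p.2 ∂V := by
    have e4 : ∫ p, dl θ R q l (c1.x p.1) * c1.tau p.1 p.2 ∂V =
        ∫ p in {p | ‖c1.x p.1‖ ≤ r}, dl θ R q l (c1.x p.1) * c1.tau p.1 p.2 ∂V := by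
      refine (setIntegral_eq_integral_of_forall_compl_eq_zero fun p hp => ?_).symm
      rw [hd0 _ (by rw [mem_closedBall_zero_iff]; exact hp), zero_mul]
    rw [e4, ← integral_const_mul, ← Real.norm_eq_abs]
    refine norm_integral_le_of_norm_le (hτi.integrableOn.const_mul _) ?_
    refine ae_restrict_of_ae ?_
    filter_upwards [hτ0] with p hp
    rw [norm_mul, Real.norm_eq_abs, Real.norm_eq_abs, abs_of_nonneg hp]
    exact mul_le_mul_of_nonneg_right (hd _) hp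
  rw [h.EE_sub hq m1 m2 Q hb hl, abs_mul, abs_of_pos (Real.exp_pos _)]
  have e5 : ∫ p, dl θ R q l (c1.x p.1) ∂V - Q * ∫ v, dl θ R q l v * c1.j v =
      (∫ p, dl θ R q l (c1.x p.1) * (1 - c1.tau p.1 p.2 / 2) ∂V - Q * ∫ v, dl θ R q l v * c1.j v) +
        (1 / 2) * ∫ p, dl θ R q l (c1.x p.1) * c1.tau p.1 p.2 ∂V := by
    rw [e3]; ring
  have h5 : |∫ p, dl θ R q l (c1.x p.1) ∂V - Q * ∫ v, dl θ R q l v * c1.j v| ≤
      12 * G * σ * (e2.real (closedBall 0 r) +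
        (1 / 2) * ∫ p in {p | ‖c1.x p.1‖ ≤ r}, c1.tau p.1 p.2 ∂V) := by
    rw [e5]
    refine (abs_add_le _ _).trans ?_
    rw [abs_mul, abs_of_pos (by norm_num : (0:ℝ) < 1 / 2)]
    linarith
  calc Real.exp ((2 - m) * l) * |∫ p, dl θ R q l (c1.x p.1) ∂V - Q * ∫ v, dl θ R q l v * c1.j v| ≤
      Real.exp ((2 - m) * l) * (12 * G * σ * (e2.real (closedBall 0 r) +
        (1 / 2) * ∫ p in {p | ‖c1.x p.1‖ ≤ r}, c1.tau p.1 p.2 ∂V)) :=
        mul_le_mul_of_nonneg_left h5 (Real.exp_pos _).le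
    _ = _ := by ring

end Blk

end Crest.Agent.R234.Swb_159
end
end

-- ▼ part R234/Swb2_159

/-!
# Row 234, F6-BLOCK (helper159), part 2: the height functional in two frames
-/

set_option autoImplicit false
set_option linter.unusedSectionVars false

open MeasureTheory Set Metric Filter Topology
open Crest.GeometryTopology.Submanifold
open Crest.Agent.R234.Vf_884 Crest.Agent.R234.Ar_870 Crest.Agent.R234.Cy_870
open Crest.Agent.R234.GL_394
open scoped ENNReal NNReal InnerProductSpace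

noncomputable section

namespace Crest.Agent.R234.Swb_159

variable {m k : ℕ}

local notation "adj" => ContinuousLinearMap.adjoint

/-- normalised quadratic forms at two close vectors. -/
theorem quad_close {v w : Euc m} (hv : v ≠ 0) (hw : w ≠ 0) {B : L m} {c η : ℝ}
    (hB : ‖B‖ ≤ c * ‖v‖) (hη : ‖w - v‖ ≤ η) :
    |⟪w, B w⟫_ℝ / ‖w‖ ^ 2 - ⟪v, B v⟫_ℝ / ‖v‖ ^ 2| ≤ 4 * c * η := by
  have nv : 0 < ‖v‖ := norm_pos_iff.2 hv
  have nw : 0 < ‖w‖ := norm_pos_iff.2 hw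
  have hη0 : 0 ≤ η := (norm_nonneg _).trans hη
  set a := ‖v‖⁻¹ • v with ha
  set b := ‖w‖⁻¹ • w with hb
  have na : ‖a‖ = 1 := by rw [ha, norm_smul, norm_inv, norm_norm, inv_mul_cancel₀ nv.ne']
  have nb : ‖b‖ = 1 := by rw [hb, norm_smul, norm_inv, norm_norm, inv_mul_cancel₀ nw.ne']
  have e1 : ⟪w, B w⟫_ℝ / ‖w‖ ^ 2 = ⟪b, B b⟫_ℝ := by
    rw [hb, map_smul, inner_smul_left, inner_smul_right]
    simp only [conj_trivial]
    field_simp
  have e2 : ⟪v, B v⟫_ℝ / ‖v‖ ^ 2 = ⟪a, B a⟫_ℝ := by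
    rw [ha, map_smul, inner_smul_left, inner_smul_right]
    simp only [conj_trivial]
    field_simp
  have hab : ‖b - a‖ ≤ 2 * η / ‖v‖ := by
    have e : b - a = ‖v‖⁻¹ • (w - v) + (‖w‖⁻¹ - ‖v‖⁻¹) • w := by
      rw [hb, ha]; module
    rw [e]
    refine (norm_add_le _ _).trans ?_
    rw [norm_smul, norm_smul, norm_inv, norm_norm, Real.norm_eq_abs]
    have h1 : |‖w‖⁻¹ - ‖v‖⁻¹| * ‖w‖ = |‖v‖ - ‖w‖| / ‖v‖ := by
      rw [← abs_of_pos nw, ← abs_mul, abs_of_pos nw]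
      have : (‖w‖⁻¹ - ‖v‖⁻¹) * ‖w‖ = (‖v‖ - ‖w‖) / ‖v‖ := by field_simp
      rw [this, abs_div, abs_of_pos nv]
    rw [h1]
    have h2 : |‖v‖ - ‖w‖| ≤ η := by
      rw [abs_sub_comm]; exact (abs_norm_sub_norm_le _ _).trans hη
    have h3 : |‖v‖ - ‖w‖| / ‖v‖ ≤ η / ‖v‖ := by gcongr
    have h4 : ‖v‖⁻¹ * ‖w - v‖ ≤ η / ‖v‖ := by
      rw [inv_mul_eq_div]; gcongr
    have h5 : 2 * η / ‖v‖ = η / ‖v‖ + η / ‖v‖ := by ring
    linarith
  rw [e1, e2]
  have e : ⟪b, B b⟫_ℝ - ⟪a, B a⟫_ℝ = ⟪b - a, B b⟫_ℝ + ⟪a, B (b - a)⟫_ℝ := by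
    rw [inner_sub_left, map_sub, inner_sub_right]; ring
  rw [e]
  have hc : 0 ≤ c * ‖v‖ := (norm_nonneg _).trans hB
  have t1 : |⟪b - a, B b⟫_ℝ| ≤ (2 * η / ‖v‖) * (c * ‖v‖) := by
    refine (abs_real_inner_le_norm _ _).trans (mul_le_mul hab ?_ (norm_nonneg _) (by positivity))
    refine (B.le_opNorm b).trans ?_
    rw [nb, mul_one]; exact hB
  have t2 : |⟪a, B (b - a)⟫_ℝ| ≤ (c * ‖v‖) * (2 * η / ‖v‖) := by
    refine (abs_real_inner_le_norm _ _).trans ?_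
    rw [na, one_mul]
    exact (B.le_opNorm _).trans (mul_le_mul hB hab (norm_nonneg _) hc)
  have t3 : (2 * η / ‖v‖) * (c * ‖v‖) = 2 * c * η := by field_simp
  have t4 : (c * ‖v‖) * (2 * η / ‖v‖) = 2 * c * η := by field_simp
  rw [t3] at t1
  rw [t4] at t2
  exact (abs_add_le _ _).trans (by linarith)

/-- transformation of `⟪v, G v⟫ / |v|²` under a linear map close to the identity and a small shift. -/
theorem mu_pt {v w : Euc m} {G A : L m} {a b σ c η : ℝ} (hσ0 : 0 ≤ σ) (hσ1 : σ ≤ 1 / 4)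
    (hA : ‖A - ContinuousLinearMap.id ℝ (Euc m)‖ ≤ σ)
    (hG : ‖G - ContinuousLinearMap.id ℝ (Euc m)‖ ≤ c * ‖v‖)
    (hG1 : ‖G - ContinuousLinearMap.id ℝ (Euc m)‖ ≤ 1 / 2) (hc : 0 ≤ c)
    (hη : ‖w - v‖ ≤ η)
    (ha : ⟪v, G v⟫_ℝ = a * ‖v‖ ^ 2) (ha0 : v = 0 → a = 1)
    (hb : ⟪w, (A ∘L G ∘L adj A) w⟫_ℝ = b * ‖w‖ ^ 2) (hb0 : w = 0 → b = 1) :
    |b - a| ≤ 4 * σ + 4 * c * η := by
  have hη0 : 0 ≤ η := (norm_nonneg _).trans hη
  set I := ContinuousLinearMap.id ℝ (Euc m) with hI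
  set B := G - I with hB
  have hcη : 0 ≤ c * η := mul_nonneg hc hη0
  -- `a - 1`
  have a1 : v ≠ 0 → a - 1 = ⟪v, B v⟫_ℝ / ‖v‖ ^ 2 := by
    intro hv
    have nv : 0 < ‖v‖ := norm_pos_iff.2 hv
    have : ⟪v, B v⟫_ℝ = ⟪v, G v⟫_ℝ - ‖v‖ ^ 2 := by
      rw [hB, _root_.sub_apply, inner_sub_right, hI, ContinuousLinearMap.id_apply,
        real_inner_self_eq_norm_sq]
    rw [this, ha]; field_simp
  have hadj : ‖adj A - I‖ ≤ σ := by
    have : adj A - I = adj (A - I) := by rw [map_sub, hI, ContinuousLinearMap.adjoint_id]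
    rw [this, LinearIsometryEquiv.norm_map]; exact hA
  have hI1 : ‖I‖ ≤ 1 := ContinuousLinearMap.norm_id_le
  have hGn : ‖G‖ ≤ 3 / 2 := by
    have : G = B + I := by rw [hB]; abel
    rw [this]; exact (norm_add_le _ _).trans (by linarith)
  have hadjn : ‖adj A‖ ≤ 5 / 4 := by
    have : adj A = (adj A - I) + I := by abel
    rw [this]; exact (norm_add_le _ _).trans (by linarith)
  have hC : ‖A ∘L G ∘L adj A - G‖ ≤ 4 * σ := by
    have e : A ∘L G ∘L adj A - G = (A - I) ∘L (G ∘L adj A) + G ∘L (adj A - I) := by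
      rw [ContinuousLinearMap.sub_comp, ContinuousLinearMap.comp_sub, hI,
        ContinuousLinearMap.id_comp, ContinuousLinearMap.comp_id]
      abel
    rw [e]
    refine (norm_add_le _ _).trans ?_
    have t1 : ‖(A - I) ∘L (G ∘L adj A)‖ ≤ σ * (3 / 2 * (5 / 4)) := by
      refine (ContinuousLinearMap.opNorm_comp_le _ _).trans
        (mul_le_mul hA ?_ (norm_nonneg _) hσ0)
      exact (ContinuousLinearMap.opNorm_comp_le _ _).trans
        (mul_le_mul hGn hadjn (norm_nonneg _) (by norm_num))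
    have t2 : ‖G ∘L (adj A - I)‖ ≤ 3 / 2 * σ :=
      (ContinuousLinearMap.opNorm_comp_le _ _).trans
        (mul_le_mul hGn hadj (norm_nonneg _) (by norm_num))
    linarith
  by_cases hw : w = 0
  · rw [hb0 hw]
    by_cases hv : v = 0
    · rw [ha0 hv, sub_self, abs_zero]; linarith
    · have nv : 0 < ‖v‖ := norm_pos_iff.2 hv
      rw [abs_sub_comm, a1 hv, abs_div, abs_of_pos (by positivity : (0:ℝ) < ‖v‖ ^ 2)]
      have h1 : |⟪v, B v⟫_ℝ| ≤ (c * ‖v‖) * ‖v‖ ^ 2 := by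
        refine (abs_real_inner_le_norm _ _).trans ?_
        calc ‖v‖ * ‖B v‖ ≤ ‖v‖ * ((c * ‖v‖) * ‖v‖) := mul_le_mul_of_nonneg_left
              ((B.le_opNorm v).trans (mul_le_mul_of_nonneg_right hG nv.le)) nv.le
          _ = _ := by ring
      have h2 : |⟪v, B v⟫_ℝ| / ‖v‖ ^ 2 ≤ c * ‖v‖ := by
        rw [div_le_iff₀ (by positivity)]; exact h1
      have h3 : ‖v‖ ≤ η := by rw [hw, zero_sub, norm_neg] at hη; exact hη
      have h4 : c * ‖v‖ ≤ c * η := mul_le_mul_of_nonneg_left h3 hc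
      linarith
  · have nw : 0 < ‖w‖ := norm_pos_iff.2 hw
    have b1 : b - 1 = ⟪w, B w⟫_ℝ / ‖w‖ ^ 2 + ⟪w, (A ∘L G ∘L adj A - G) w⟫_ℝ / ‖w‖ ^ 2 := by
      have : ⟪w, B w⟫_ℝ + ⟪w, (A ∘L G ∘L adj A - G) w⟫_ℝ = b * ‖w‖ ^ 2 - ‖w‖ ^ 2 := by
        rw [← hb, hB, _root_.sub_apply, _root_.sub_apply, inner_sub_right, inner_sub_right, hI,
          ContinuousLinearMap.id_apply, real_inner_self_eq_norm_sq]
        ring
      rw [← add_div, this]; field_simp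
    have h5 : |⟪w, (A ∘L G ∘L adj A - G) w⟫_ℝ / ‖w‖ ^ 2| ≤ 4 * σ := by
      rw [abs_div, abs_of_pos (by positivity : (0:ℝ) < ‖w‖ ^ 2), div_le_iff₀ (by positivity)]
      refine (abs_real_inner_le_norm _ _).trans ?_
      calc ‖w‖ * ‖(A ∘L G ∘L adj A - G) w‖ ≤ ‖w‖ * ((4 * σ) * ‖w‖) :=
            mul_le_mul_of_nonneg_left ((ContinuousLinearMap.le_opNorm _ w).trans
              (mul_le_mul_of_nonneg_right hC nw.le)) nw.le
        _ = _ := by ring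
    by_cases hv : v = 0
    · have hB0 : B = 0 := by
        rw [hv, norm_zero, mul_zero] at hG
        exact norm_le_zero_iff.1 hG
      rw [ha0 hv, b1, hB0]
      simp only [_root_.zero_apply, inner_zero_right, zero_div, zero_add]
      linarith
    · have h6 := quad_close hv hw hG hη
      have e : b - a = (⟪w, B w⟫_ℝ / ‖w‖ ^ 2 - ⟪v, B v⟫_ℝ / ‖v‖ ^ 2) +
          ⟪w, (A ∘L G ∘L adj A - G) w⟫_ℝ / ‖w‖ ^ 2 := by
        have h7 := a1 hv
        linarith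
      rw [e]
      exact (abs_add_le _ _).trans (by linarith)

/-- the metric data of the two charts -/
structure BlkG (c1 c2 : Ch m k) (O : Euc m ≃ₗᵢ[ℝ] Euc m) (θ : Euc m → Euc m) (dθ : Euc m → L m)
    (R c : ℝ) : Prop where
  c0 : 0 ≤ c
  gi : ∀ v ∈ closedBall (0 : Euc m) R, ∀ u : Euc m, ⟪O u, c2.gi (O (θ v)) (O u)⟫_ℝ =
    ⟪u, (dθ v ∘L c1.gi v ∘L adj (dθ v)) u⟫_ℝ
  gsub : ∀ v ∈ closedBall (0 : Euc m) R, ‖c1.gi v - ContinuousLinearMap.id ℝ (Euc m)‖ ≤ c * ‖v‖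
  ghalf : ∀ v ∈ closedBall (0 : Euc m) R, ‖c1.gi v - ContinuousLinearMap.id ℝ (Euc m)‖ ≤ 1 / 2
  mu1 : ∀ v, ⟪v, c1.gi v v⟫_ℝ = c1.mu v * ‖v‖ ^ 2
  mu2 : ∀ v, ⟪v, c2.gi v v⟫_ℝ = c2.mu v * ‖v‖ ^ 2
  mu10 : c1.mu 0 = 1
  mu20 : c2.mu 0 = 1

namespace Blk

variable {c1 c2 : Ch m k} {O : Euc m ≃ₗᵢ[ℝ] Euc m} {θ : Euc m → Euc m} {dθ : Euc m → L m}
  {R σ c : ℝ} {V : Measure (Euc k × L k)} (h : Blk c1 c2 O θ dθ R σ V)
  (hg : BlkG c1 c2 O θ dθ R c)
include h hg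

theorem abs_mu_sub {l : ℝ} (hb : ‖θ 0‖ ≤ σ * Real.exp l) (hc : c * Real.exp l ≤ 1) {v : Euc m}
    (hv : v ∈ closedBall (0 : Euc m) R) (hvl : ‖v‖ ≤ 7 / 4 * Real.exp l) :
    |c2.mu (O (θ v)) - c1.mu v| ≤ 16 * σ := by
  have hs0 := h.s0
  have he := Real.exp_pos l
  have hcl := h.close hb hv
  have h2 := hg.mu2 (O (θ v))
  rw [hg.gi v hv (θ v), LinearIsometryEquiv.norm_map] at h2
  have h3 := mu_pt h.s0 h.s1 (h.near v hv) (hg.gsub v hv) (hg.ghalf v hv) hg.c0 hcl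
    (hg.mu1 v) (fun h0 => by rw [h0]; exact hg.mu10) h2
    (fun h0 => by rw [h0, map_zero]; exact hg.mu20)
  refine h3.trans ?_
  have h4 : c * (Real.exp l + ‖v‖) ≤ 11 / 4 := by
    calc c * (Real.exp l + ‖v‖) ≤ c * (11 / 4 * Real.exp l) :=
          mul_le_mul_of_nonneg_left (by linarith) hg.c0
      _ = 11 / 4 * (c * Real.exp l) := by ring
      _ ≤ _ := by linarith
  have e : 4 * c * (σ * (Real.exp l + ‖v‖)) = 4 * σ * (c * (Real.exp l + ‖v‖)) := by ring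
  rw [e]
  have := mul_le_mul_of_nonneg_left h4 (by positivity : 0 ≤ 4 * σ)
  linarith

theorem abs_mu1_le {v : Euc m} (hv : v ∈ closedBall (0 : Euc m) R) : |c1.mu v| ≤ 3 / 2 := by
  by_cases h0 : v = 0
  · rw [h0, hg.mu10]; norm_num
  have nv : 0 < ‖v‖ := norm_pos_iff.2 h0
  have h1 : |c1.mu v * ‖v‖ ^ 2| ≤ 3 / 2 * ‖v‖ ^ 2 := by
    rw [← hg.mu1 v]
    refine (abs_real_inner_le_norm _ _).trans ?_
    have h2 : ‖c1.gi v‖ ≤ 3 / 2 := by
      have e : c1.gi v = (c1.gi v - ContinuousLinearMap.id ℝ (Euc m)) +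
        ContinuousLinearMap.id ℝ (Euc m) := by abel
      rw [e]
      refine (norm_add_le _ _).trans ?_
      have h3 := hg.ghalf v hv
      have h4 : ‖ContinuousLinearMap.id ℝ (Euc m)‖ ≤ 1 := ContinuousLinearMap.norm_id_le
      linarith
    calc ‖v‖ * ‖c1.gi v v‖ ≤ ‖v‖ * (3 / 2 * ‖v‖) := mul_le_mul_of_nonneg_left
          ((ContinuousLinearMap.le_opNorm _ v).trans (mul_le_mul_of_nonneg_right h2 nv.le)) nv.le
      _ = _ := by ring
  rw [abs_mul, abs_of_pos (by positivity : (0:ℝ) < ‖v‖ ^ 2)] at h1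
  exact le_of_mul_le_mul_right h1 (by positivity)

/-- **(I): pointwise comparison of the kernels.** -/
theorem abs_ker_sub {g1 g2 : ℝ → ℝ} (hq : Ker g1 g2) {G1 G2 : ℝ}
    (hG1 : ∀ t, 0 ≤ t → |g1 t| ≤ G1) (hG2 : ∀ t, 0 ≤ t → |g2 t| ≤ G2) {l : ℝ}
    (hb : ‖θ 0‖ ≤ σ * Real.exp l) (hc : c * Real.exp l ≤ 1) {v : Euc m}
    (hv : v ∈ closedBall (0 : Euc m) R) :
    |c2.mu (O (θ v)) * (-4 * g1 (Real.exp (-2 * l) * ‖θ v‖ ^ 2)) -
      c1.mu v * (-4 * g1 (Real.exp (-2 * l) * ‖v‖ ^ 2))| ≤ (64 * G1 + 72 * G2) * σ := by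
  have hs0 := h.s0
  have hs1 := h.s1
  have he := Real.exp_pos l
  have hG10 : 0 ≤ G1 := (abs_nonneg _).trans (hG1 0 le_rfl)
  have hG20 : 0 ≤ G2 := (abs_nonneg _).trans (hG2 0 le_rfl)
  by_cases hbig : (1 + 3 * σ) * Real.exp l ≤ ‖v‖
  · obtain ⟨h1, h2⟩ := h.big hb hv hbig
    rw [ker_zero hq h1, ker_zero hq h2]
    simp only [mul_zero, sub_zero, abs_zero]
    positivity
  push Not at hbig
  have hvl : ‖v‖ ≤ 7 / 4 * Real.exp l := hbig.le.trans (by nlinarith)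
  have h1 := h.abs_mu_sub hg hb hc hv hvl
  have h2 := h.abs_dl_le hq hG2 hb v
  rw [dl, indicator_of_mem hv] at h2
  have h3 := hG1 (Real.exp (-2 * l) * ‖θ v‖ ^ 2) (by positivity)
  have h4 := h.abs_mu1_le hg hv
  set a := g1 (Real.exp (-2 * l) * ‖θ v‖ ^ 2)
  set b := g1 (Real.exp (-2 * l) * ‖v‖ ^ 2)
  have e : c2.mu (O (θ v)) * (-4 * a) - c1.mu v * (-4 * b) =
      -4 * ((c2.mu (O (θ v)) - c1.mu v) * a + c1.mu v * (a - b)) := by ring
  rw [e, abs_mul]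
  have e4 : |(-4:ℝ)| = 4 := by norm_num
  rw [e4]
  have h5 : |(c2.mu (O (θ v)) - c1.mu v) * a| ≤ (16 * σ) * G1 := by
    rw [abs_mul]; exact mul_le_mul h1 h3 (abs_nonneg _) (by positivity)
  have h6 : |c1.mu v * (a - b)| ≤ 3 / 2 * (12 * G2 * σ) := by
    rw [abs_mul]; exact mul_le_mul h4 h2 (abs_nonneg _) (by norm_num)
  have h7 := abs_add_le ((c2.mu (O (θ v)) - c1.mu v) * a) (c1.mu v * (a - b))
  calc 4 * |(c2.mu (O (θ v)) - c1.mu v) * a + c1.mu v * (a - b)| ≤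
      4 * ((16 * σ) * G1 + 3 / 2 * (12 * G2 * σ)) := by linarith
    _ = _ := by ring

/-- **(I), estimate.** -/
theorem II_sub_le {g1 g2 : ℝ → ℝ} (hq : Ker g1 g2) {G1 G2 : ℝ}
    (hG1 : ∀ t, 0 ≤ t → |g1 t| ≤ G1) (hG2 : ∀ t, 0 ≤ t → |g2 t| ≤ G2) {l : ℝ}
    (hb : ‖θ 0‖ ≤ σ * Real.exp l) (hc : c * Real.exp l ≤ 1)
    (hl : (1 + 3 * σ) * Real.exp l ≤ R)
    (m1 : AEMeasurable (fun p : Euc k × L k => c1.x p.1) V)
    (i1 : Integrable (fun p => (c1.f p.1 * c1.mu (c1.x p.1)) *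
      (-4 * g1 (Real.exp (-2 * l) * ‖c1.x p.1‖ ^ 2))) V)
    (i2 : Integrable (fun p => (c2.f p.1 * c2.mu (c2.x p.1)) *
      (-4 * g1 (Real.exp (-2 * l) * ‖c2.x p.1‖ ^ 2))) V)
    (hf0 : ∀ p : Euc k × L k, 0 ≤ c1.f p.1)
    (hfi : IntegrableOn (fun p => c1.f p.1) {p | ‖c1.x p.1‖ ≤ (1 + 3 * σ) * Real.exp l} V) :
    |II c2 V g1 l - II c1 V g1 l| ≤ (64 * G1 + 72 * G2) * σ * (Real.exp (-m * l) *
      ∫ p in {p | ‖c1.x p.1‖ ≤ (1 + 3 * σ) * Real.exp l}, c1.f p.1 ∂V) := by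
  have hs0 := h.s0
  have hG10 : 0 ≤ G1 := (abs_nonneg _).trans (hG1 0 le_rfl)
  have hG20 : 0 ≤ G2 := (abs_nonneg _).trans (hG2 0 le_rfl)
  have he := Real.exp_pos l
  set r := (1 + 3 * σ) * Real.exp l with hr
  have hset : NullMeasurableSet {p : Euc k × L k | ‖c1.x p.1‖ ≤ r} V :=
    m1.norm.nullMeasurable measurableSet_Iic
  -- pointwise
  have hpt : ∀ᵐ p ∂V, |(c2.f p.1 * c2.mu (c2.x p.1)) *
      (-4 * g1 (Real.exp (-2 * l) * ‖c2.x p.1‖ ^ 2)) - (c1.f p.1 * c1.mu (c1.x p.1)) *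
      (-4 * g1 (Real.exp (-2 * l) * ‖c1.x p.1‖ ^ 2))| ≤
      {p : Euc k × L k | ‖c1.x p.1‖ ≤ r}.indicator
        (fun p => (64 * G1 + 72 * G2) * σ * c1.f p.1) p := by
    filter_upwards [h.rel] with p hp
    have hfp := hf0 p
    rcases hp with ⟨h1, h2, h3⟩ | ⟨h1, h2⟩
    · have hB : c1.x p.1 ∈ closedBall (0 : Euc m) R := mem_closedBall_zero_iff.2 h1
      by_cases hcr : ‖c1.x p.1‖ ≤ r
      · rw [indicator_of_mem (show p ∈ {p : Euc k × L k | ‖c1.x p.1‖ ≤ r} from hcr), h3, h2,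
          LinearIsometryEquiv.norm_map]
        have h4 := h.abs_ker_sub hg hq hG1 hG2 hb hc hB
        have e : (c1.f p.1 * c2.mu (O (θ (c1.x p.1)))) *
            (-4 * g1 (Real.exp (-2 * l) * ‖θ (c1.x p.1)‖ ^ 2)) - (c1.f p.1 * c1.mu (c1.x p.1)) *
            (-4 * g1 (Real.exp (-2 * l) * ‖c1.x p.1‖ ^ 2)) = c1.f p.1 *
            (c2.mu (O (θ (c1.x p.1))) * (-4 * g1 (Real.exp (-2 * l) * ‖θ (c1.x p.1)‖ ^ 2)) -
              c1.mu (c1.x p.1) * (-4 * g1 (Real.exp (-2 * l) * ‖c1.x p.1‖ ^ 2))) := by ring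
        rw [e, abs_mul, abs_of_nonneg hfp, mul_comm]
        exact mul_le_mul_of_nonneg_right h4 hfp
      · rw [indicator_of_notMem (show p ∉ {p : Euc k × L k | ‖c1.x p.1‖ ≤ r} from hcr)]
        push Not at hcr
        obtain ⟨h4, h5⟩ := h.big hb hB hcr.le
        rw [h2, LinearIsometryEquiv.norm_map, ker_zero hq h4, ker_zero hq h5]
        simp
    · have h4 : Real.exp l ≤ ‖c1.x p.1‖ := by nlinarith
      have h5 : Real.exp l ≤ ‖c2.x p.1‖ := by nlinarith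
      rw [ker_zero hq h4, ker_zero hq h5]
      simp only [mul_zero, sub_zero, abs_zero]
      by_cases hcr : ‖c1.x p.1‖ ≤ r
      · rw [indicator_of_mem (show p ∈ {p : Euc k × L k | ‖c1.x p.1‖ ≤ r} from hcr)]
        positivity
      · rw [indicator_of_notMem (show p ∉ {p : Euc k × L k | ‖c1.x p.1‖ ≤ r} from hcr)]
  have hint : |∫ p, ((c2.f p.1 * c2.mu (c2.x p.1)) *
      (-4 * g1 (Real.exp (-2 * l) * ‖c2.x p.1‖ ^ 2)) - (c1.f p.1 * c1.mu (c1.x p.1)) *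
      (-4 * g1 (Real.exp (-2 * l) * ‖c1.x p.1‖ ^ 2))) ∂V| ≤ (64 * G1 + 72 * G2) * σ *
      ∫ p in {p | ‖c1.x p.1‖ ≤ r}, c1.f p.1 ∂V := by
    rw [← integral_const_mul, ← integral_indicator₀ hset, ← Real.norm_eq_abs]
    refine norm_integral_le_of_norm_le ?_ ?_
    · exact IntegrableOn.integrable_indicator₀ (hfi.const_mul _) hset
    · filter_upwards [hpt] with p hp
      rw [Real.norm_eq_abs]; exact hp
  rw [integral_sub i2 i1] at hint
  have e : II c2 V g1 l - II c1 V g1 l = Real.exp (-m * l) *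
      ((∫ p, (c2.f p.1 * c2.mu (c2.x p.1)) *
      (-4 * g1 (Real.exp (-2 * l) * ‖c2.x p.1‖ ^ 2)) ∂V) - ∫ p, (c1.f p.1 * c1.mu (c1.x p.1)) *
      (-4 * g1 (Real.exp (-2 * l) * ‖c1.x p.1‖ ^ 2)) ∂V) := by
    unfold II; ring
  rw [e, abs_mul, abs_of_pos (Real.exp_pos _)]
  calc _ ≤ Real.exp (-m * l) * ((64 * G1 + 72 * G2) * σ *
      ∫ p in {p | ‖c1.x p.1‖ ≤ r}, c1.f p.1 ∂V) :=
        mul_le_mul_of_nonneg_left hint (Real.exp_pos _).le
    _ = _ := by ring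

end Blk

/-! ### restriction -/

/-- kernels do not see the part of the measure beyond `e^l`. -/
theorem setIntegral_ker_eq {c : Ch m k} {V : Measure (Euc k × L k)} {S1 S2 : Set (Euc k × L k)}
    (h1 : MeasurableSet S1) (h2 : MeasurableSet S2) {q q' : ℝ → ℝ} (hq : Ker q q') {l : ℝ}
    (F : Euc k × L k → ℝ) (a : ℝ)
    (h : ∀ᵐ p ∂V, p ∈ S1 → p ∉ S2 → Real.exp l ≤ ‖c.x p.1‖) :
    ∫ p in S1, F p * (a * q (Real.exp (-2 * l) * ‖c.x p.1‖ ^ 2)) ∂V =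
      ∫ p in S1 ∩ S2, F p * (a * q (Real.exp (-2 * l) * ‖c.x p.1‖ ^ 2)) ∂V := by
  rw [← integral_indicator h1, ← integral_indicator (h1.inter h2)]
  refine integral_congr_ae ?_
  filter_upwards [h] with p hp
  by_cases p1 : p ∈ S1
  · by_cases p2 : p ∈ S2
    · rw [indicator_of_mem p1, indicator_of_mem (show p ∈ S1 ∩ S2 from ⟨p1, p2⟩)]
    · rw [indicator_of_mem p1, indicator_of_notMem (fun hc => p2 hc.2), ker_zero hq (hp p1 p2),
        mul_zero, mul_zero]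
  · rw [indicator_of_notMem p1, indicator_of_notMem (fun hc => p1 hc.1)]

theorem EE_restrict {c : Ch m k} {V : Measure (Euc k × L k)} {S1 S2 : Set (Euc k × L k)}
    (h1 : MeasurableSet S1) (h2 : MeasurableSet S2) {q q' : ℝ → ℝ} (hq : Ker q q') {l : ℝ}
    (h : ∀ᵐ p ∂V, p ∈ S1 → p ∉ S2 → Real.exp l ≤ ‖c.x p.1‖) (Q : ℝ) :
    GL_394.EE c (V.restrict S1) q Q l = GL_394.EE c (V.restrict (S1 ∩ S2)) q Q l := by
  have := setIntegral_ker_eq h1 h2 hq (fun _ => 1) 1 h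
  simp only [one_mul] at this
  unfold GL_394.EE
  simp only [one_mul]
  rw [this]

theorem II_restrict {c : Ch m k} {V : Measure (Euc k × L k)} {S1 S2 : Set (Euc k × L k)}
    (h1 : MeasurableSet S1) (h2 : MeasurableSet S2) {q q' : ℝ → ℝ} (hq : Ker q q') {l : ℝ}
    (h : ∀ᵐ p ∂V, p ∈ S1 → p ∉ S2 → Real.exp l ≤ ‖c.x p.1‖) :
    II c (V.restrict S1) q l = II c (V.restrict (S1 ∩ S2)) q l := by
  have := setIntegral_ker_eq h1 h2 hq (fun p => c.f p.1 * c.mu (c.x p.1)) (-4) h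
  unfold II
  rw [this]

end Crest.Agent.R234.Swb_159
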