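import Crest.Agent.R234.Foot1_842
import Crest.Agent.R234.Swb2_159

/-!
# Row 234, F6-BLOCK (helper159), part 3: metric and density of a graph in a rotated frame

`A = H (1 + qᵀ p)` (`p = Dv(a)`), `D (A x) = H' (p x - q x)` (`D = Dw(ψ a)`):
`gop p = Aᵀ gop D A`, `dns p = |det A| dns D`, `ginv D = A ginv p Aᵀ`.
-/

set_option autoImplicit false
set_option linter.unusedSectionVars false

open MeasureTheory Set Metric Filter Topology
open Crest.GeometryTopology.Submanifold
open scoped ENNReal NNReal ContDiff RealInnerProductSpace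

noncomputable section

namespace Crest.Agent.R234.Swb_159

open Crest.Agent.R234.Ell1_3 Crest.Agent.R234.Main_456 Crest.Agent.R234.Grot_842
open Crest.Agent.R234.Foot_842

local notation "adj" => ContinuousLinearMap.adjoint

theorem det_adj' {E : Type*} [NormedAddCommGroup E] [InnerProductSpace ℝ E]
    [FiniteDimensional ℝ E] (B : E →L[ℝ] E) : (adj B).det = B.det := by
  classical
  have h1 : (adj B).det = (LinearMap.toMatrix (stdOrthonormalBasis ℝ E).toBasis
      (stdOrthonormalBasis ℝ E).toBasis (LinearMap.adjoint (B : E →ₗ[ℝ] E))).det := by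
    rw [LinearMap.det_toMatrix]; rfl
  have h2 : B.det = (LinearMap.toMatrix (stdOrthonormalBasis ℝ E).toBasis
      (stdOrthonormalBasis ℝ E).toBasis (B : E →ₗ[ℝ] E)).det := by
    rw [LinearMap.det_toMatrix]
  rw [h1, h2, LinearMap.toMatrix_adjoint, Matrix.det_conjTranspose]
  simp

section Pointwise

variable {m n : ℕ} {q p D : Euc m →L[ℝ] Euc n} {H : Euc m →L[ℝ] Euc m} {H' : Euc n →L[ℝ] Euc n}

/-- the metric in the two base coordinates -/
theorem gop_dchg (hR : Rt q H H') (hD : ∀ y, D (dchg q H p y) = H' (p y - q y)) :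
    gop p = adj (dchg q H p) ∘L gop D ∘L dchg q H p := by
  refine ContinuousLinearMap.ext fun y => ext_inner_left ℝ fun x => ?_
  have h1 : ⟪x, (adj (dchg q H p) ∘L gop D ∘L dchg q H p) y⟫ =
      ⟪dchg q H p x, gop D (dchg q H p y)⟫ := by
    rw [ContinuousLinearMap.comp_apply, ContinuousLinearMap.comp_apply,
      ContinuousLinearMap.adjoint_inner_right]
  rw [h1, gop_inner, gop_inner, hD, hD, dchg_apply, dchg_apply, hR.isom]

theorem gdet_dchg (hR : Rt q H H') (hD : ∀ y, D (dchg q H p y) = H' (p y - q y)) :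
    gdet p = (dchg q H p).det ^ 2 * gdet D := by
  have h1 := gop_dchg hR hD
  have h2 : gdet p = (adj (dchg q H p)).det * ((gop D).det * (dchg q H p).det) := by
    have h3 : gdet p = (adj (dchg q H p) ∘L gop D ∘L dchg q H p).det := by
      rw [← h1]; rfl
    rw [h3]
    have h4 : ∀ A B : Euc m →L[ℝ] Euc m, (A ∘L B).det = A.det * B.det := fun A B => by
      simp only [ContinuousLinearMap.det, ContinuousLinearMap.toLinearMap_comp]
      exact LinearMap.det_comp _ _
    rw [h4, h4]
  have h5 : (adj (dchg q H p)).det = (dchg q H p).det := det_adj' _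
  rw [h2, h5]
  have h7 : (gop D).det = gdet D := rfl
  rw [h7]; ring

/-- **the area densities** -/
theorem dns_dchg (hR : Rt q H H') (hD : ∀ y, D (dchg q H p y) = H' (p y - q y)) :
    dns p = dns D * |(dchg q H p).det| := by
  rw [dns, dns, gdet_dchg hR hD, Real.sqrt_mul (sq_nonneg _), Real.sqrt_sq_eq_abs, mul_comm]

/-- **the inverse metrics** -/
theorem ginv_dchg (hR : Rt q H H') (hD : ∀ y, D (dchg q H p y) = H' (p y - q y)) :
    ginv D = dchg q H p ∘L ginv p ∘L adj (dchg q H p) := by
  have h1 := gop_dchg hR hD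
  set A := dchg q H p with hA
  have hsurj := dchg_surj hR p D hD
  have hinj : ∀ u v : Euc m, adj A u = adj A v → u = v := by
    intro u v huv
    refine ext_inner_right ℝ fun w => ?_
    obtain ⟨y, rfl⟩ := hsurj w
    rw [← hA, ← ContinuousLinearMap.adjoint_inner_left, ← ContinuousLinearMap.adjoint_inner_left,
      huv]
  have h2 : gop D ∘L (A ∘L ginv p ∘L adj A) = ContinuousLinearMap.id ℝ (Euc m) := by
    refine ContinuousLinearMap.ext fun u => hinj _ _ ?_
    have h3 : adj A ((gop D ∘L (A ∘L ginv p ∘L adj A)) u) =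
        (adj A ∘L gop D ∘L A) (ginv p (adj A u)) := rfl
    rw [h3, ← h1]
    exact congrArg (fun T : Euc m →L[ℝ] Euc m => T (adj A u)) (gop_ginv p)
  calc ginv D = ginv D ∘L (gop D ∘L (A ∘L ginv p ∘L adj A)) := by
        rw [h2, ContinuousLinearMap.comp_id]
    _ = (ginv D ∘L gop D) ∘L (A ∘L ginv p ∘L adj A) := rfl
    _ = A ∘L ginv p ∘L adj A := by rw [ginv_gop, ContinuousLinearMap.id_comp]

end Pointwise

/-! ### the normalised change of coordinates -/

section Norm

variable {m n : ℕ}

/-- `θ y = ψ (H y)`: base coordinate of the rotated frame as a function of the normalised base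
coordinate `y = H⁻¹ (X - X0)` of the old frame. -/
def th (q : Euc m →L[ℝ] Euc n) (H : Euc m →L[ℝ] Euc m) (v : Euc m → Euc n) (y : Euc m) : Euc m :=
  chg q H v (H y)


variable {q : Euc m →L[ℝ] Euc n} {H : Euc m →L[ℝ] Euc m} {H' : Euc n →L[ℝ] Euc n}
  {v : Euc m → Euc n}





end Norm

end Crest.Agent.R234.Swb_159
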