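import Crest.Agent.R234.Gi4_456
import Crest.Agent.R234.Swb3_159
import Crest.Agent.R234.Sw3_733

-- ▼ part R234/Swb4_159
section

/-!
# Row 234, F6-BLOCK (helper159), part 4: one surface as a graph over two frames with the same base point

`M = graph w` over `(π, ρ)` = `graph w'` over `(rπ, rρ) = (H (π + qᵀ ρ), H' (ρ - q π))`:
`w' (H (X + qᵀ w X)) = H' (w X - q X)`.
-/

set_option autoImplicit false
set_option linter.unusedSectionVars false

open MeasureTheory Set Metric Filter Topology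
open Crest.GeometryTopology.Submanifold
open scoped ENNReal NNReal ContDiff RealInnerProductSpace

noncomputable section

namespace Crest.Agent.R234.Swb_159

open Crest.Agent.R234.Vf_884 (L)
open Crest.Agent.R234.Ell1_3 Crest.Agent.R234.Main_456 Crest.Agent.R234.Grot_842
open Crest.Agent.R234.Foot_842 (dchg dchg_apply fr_inner)
open Crest.Agent.R234.Gi_456 (Gr tube IsFoot foot yy Bt Lo Loi adj_Lo_Lo det_Lo det_Lo_pos Loi_spec
  Loi_Lo Lo_Loi norm_Lo_le le_norm_Lo giB jB muG ch)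
open Crest.Agent.R234.GLK_128 (gg)

local notation "adj" => ContinuousLinearMap.adjoint

variable {m n k : ℕ}

/-- base coordinate of the rotated frame -/
def psi (q : Euc m →L[ℝ] Euc n) (H : Euc m →L[ℝ] Euc m) (w : Euc m → Euc n) (X : Euc m) : Euc m :=
  H (X + adj q (w X))

/-- the same surface over two frames -/
structure Same (q : Euc m →L[ℝ] Euc n) (H : Euc m →L[ℝ] Euc m) (H' : Euc n →L[ℝ] Euc n)
    (w w' : Euc m → Euc n) (A : Set (Euc m)) : Prop where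
  rt : Rt q H H'
  opn : IsOpen A
  dw : Differentiable ℝ w
  dw' : Differentiable ℝ w'
  rel : ∀ X ∈ A, w' (psi q H w X) = H' (w X - q X)

variable {q : Euc m →L[ℝ] Euc n} {H : Euc m →L[ℝ] Euc m} {H' : Euc n →L[ℝ] Euc n}
  {w w' : Euc m → Euc n} {A : Set (Euc m)} {π : Euc k →L[ℝ] Euc m} {ρ : Euc k →L[ℝ] Euc n}
  {x : Euc k} {r r' : ℝ}

theorem hasFDerivAt_psi {X : Euc m} (hw : DifferentiableAt ℝ w X) :
    HasFDerivAt (psi q H w) (dchg q H (fderiv ℝ w X)) X :=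
  H.hasFDerivAt.comp X ((hasFDerivAt_id X).add ((adj q).hasFDerivAt.comp X hw.hasFDerivAt))

namespace Same

variable (h : Same q H H' w w' A)
include h

theorem hD {X : Euc m} (hX : X ∈ A) (y : Euc m) :
    fderiv ℝ w' (psi q H w X) (dchg q H (fderiv ℝ w X) y) = H' (fderiv ℝ w X y - q y) := by
  have h4 : HasFDerivAt (fun X => w' (psi q H w X)) ((fderiv ℝ w' (psi q H w X)) ∘L
      (dchg q H (fderiv ℝ w X))) X :=
    (h.dw' _).hasFDerivAt.comp X (hasFDerivAt_psi (h.dw X))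
  have h5 : HasFDerivAt (fun X => H' (w X - q X)) (H' ∘L (fderiv ℝ w X - q)) X :=
    H'.hasFDerivAt.comp X ((h.dw X).hasFDerivAt.sub q.hasFDerivAt)
  have h6 : HasFDerivAt (fun X => w' (psi q H w X)) (H' ∘L (fderiv ℝ w X - q)) X := by
    refine h5.congr_of_eventuallyEq ?_
    filter_upwards [h.opn.mem_nhds hX] with Y hY
    exact h.rel Y hY
  have h8 := congrArg (fun T : Euc m →L[ℝ] Euc n => T y) (h4.unique h6)
  simpa using h8

/-- normal vectors are normal in both frames -/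
theorem normal (hf : Frame π ρ) {X : Euc m} (hX : X ∈ A) {ν : Euc k}
    (hν : π ν + adj (fderiv ℝ w X) (ρ ν) = 0) :
    rπ π ρ q H ν + adj (fderiv ℝ w' (psi q H w X)) (rρ π ρ q H' ν) = 0 := by
  set D := fderiv ℝ w' (psi q H w X) with hD
  have hD2 : ∀ y, D (dchg q H (fderiv ℝ w X) y) = H' (fderiv ℝ w X y - q y) := h.hD hX
  have hsurj := Foot_842.dchg_surj h.rt (fderiv ℝ w X) D hD2
  refine ext_inner_right ℝ fun Y => ?_
  obtain ⟨y, rfl⟩ := hsurj Y
  rw [inner_zero_left, inner_add_left, ContinuousLinearMap.adjoint_inner_left, hD2]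
  set τ : Euc k := adj π y + adj ρ (fderiv ℝ w X y) with hτ
  have e3 : π τ = y := by rw [hτ, map_add, fr_ππ hf, fr_πρ hf, add_zero]
  have e4 : ρ τ = fderiv ℝ w X y := by rw [hτ, map_add, fr_ρπ hf, fr_ρρ hf, zero_add]
  have e1 : dchg q H (fderiv ℝ w X) y = rπ π ρ q H τ := by
    rw [rπ_apply, e3, e4, dchg_apply]
  have e2 : H' (fderiv ℝ w X y - q y) = rρ π ρ q H' τ := by
    rw [rρ_apply, e3, e4]
  rw [e1, e2, fr_inner (frame_rot hf h.rt), ← fr_inner hf]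
  rw [e3, e4]
  have h5 := congrArg (fun w => ⟪w, y⟫) hν
  simpa [inner_add_left, ContinuousLinearMap.adjoint_inner_left] using h5

end Same

/-- the point of the graph over `X` -/
def pnt (π : Euc k →L[ℝ] Euc m) (ρ : Euc k →L[ℝ] Euc n) (x : Euc k) (w : Euc m → Euc n)
    (X : Euc m) : Euc k := x + adj π X + adj ρ (w X)

theorem Same.pnt (h : Same q H H' w w' A) (hf : Frame π ρ) {X : Euc m} (hX : X ∈ A) :
    pnt (rπ π ρ q H) (rρ π ρ q H') x w' (psi q H w X) = pnt π ρ x w X := by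
  have h1 := fr_full (frame_rot hf h.rt) (adj π X + adj ρ (w X))
  have e1 : rπ π ρ q H (adj π X + adj ρ (w X)) = psi q H w X := by
    rw [rπ_apply]
    simp only [map_add, fr_ππ hf, fr_πρ hf, fr_ρρ hf, fr_ρπ hf, psi]
    simp
  have e2 : rρ π ρ q H' (adj π X + adj ρ (w X)) = w' (psi q H w X) := by
    rw [rρ_apply, h.rel X hX]
    simp only [map_add, fr_ππ hf, fr_πρ hf, fr_ρρ hf, fr_ρπ hf]
    simp
  rw [e1, e2] at h1
  unfold Swb_159.pnt
  rw [add_assoc, h1, add_assoc]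

/-- the vector from the foot point -/
theorem isFoot_iff (hf : Frame π ρ) {z : Euc k} {X : Euc m} : IsFoot π ρ x r w z X ↔
    (π (z - pnt π ρ x w X) + adj (fderiv ℝ w X) (ρ (z - pnt π ρ x w X)) = 0 ∧
      ‖ρ (z - pnt π ρ x w X)‖ ≤ 2 * r) := by
  have e1 : π (z - pnt π ρ x w X) = π (z - x) - X := by
    unfold pnt
    simp only [map_sub, map_add, fr_ππ hf, fr_πρ hf]; abel
  have e2 : ρ (z - pnt π ρ x w X) = ρ (z - x) - w X := by
    unfold pnt
    simp only [map_sub, map_add, fr_ρρ hf, fr_ρπ hf]; abel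
  rw [e1, e2]
  constructor
  · rintro ⟨h1, h2⟩
    refine ⟨?_, h2⟩
    have h3 : adj (fderiv ℝ w X) (ρ (z - x) - w X) = X - π (z - x) :=
      eq_sub_of_add_eq' h1.symm
    rw [h3]; abel
  · rintro ⟨h1, h2⟩
    refine ⟨?_, h2⟩
    have h3 : adj (fderiv ℝ w X) (ρ (z - x) - w X) = X - π (z - x) := by
      have := eq_neg_of_add_eq_zero_right h1
      rw [this]; abel
    rw [h3]; abel

/-- **the foot point in the rotated frame** -/
theorem Same.isFoot (h : Same q H H' w w' A) (hf : Frame π ρ) {z : Euc k} {X : Euc m} (hX : X ∈ A)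
    (hz : IsFoot π ρ x r w z X) (hr' : ‖z - Swb_159.pnt π ρ x w X‖ ≤ 2 * r') :
    IsFoot (rπ π ρ q H) (rρ π ρ q H') x r' w' z (psi q H w X) := by
  rw [isFoot_iff (frame_rot hf h.rt), h.pnt hf hX]
  exact ⟨h.normal hf hX ((isFoot_iff hf).1 hz).1,
    (fr_norm_ρ (frame_rot hf h.rt) _).trans hr'⟩

theorem nu_of_isFoot (hf : Frame π ρ) {z : Euc k} {X : Euc m} (hz : IsFoot π ρ x r w z X) :
    Bt π ρ w X (ρ (z - x) - w X) = z - pnt π ρ x w X := by
  have h3 : adj (fderiv ℝ w X) (ρ (z - x) - w X) = X - π (z - x) :=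
    eq_sub_of_add_eq' hz.1.symm
  have h4 := fr_full hf (z - x)
  have e : Bt π ρ w X (ρ (z - x) - w X) = adj ρ (ρ (z - x) - w X) -
      adj π (adj (fderiv ℝ w X) (ρ (z - x) - w X)) := rfl
  rw [e, h3]
  simp only [map_sub] at h4 ⊢
  have h5 : z - pnt π ρ x w X = (z - x) - adj π X - adj ρ (w X) := by
    unfold pnt; abel
  rw [h5, ← h4]
  abel

/-! ### isometries -/

/-- `Lo q ∘ H₀` is an isometry if `H₀ = (1 + qᵀ q)^(-1/2)` -/
theorem exists_iso (q0 : Euc m →L[ℝ] Euc n) : ∃ (U : Euc m ≃ₗᵢ[ℝ] Euc m) (H0 H0i : L m),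
    (∀ v, U v = Lo q0 (H0 v)) ∧ (∀ v, H0 (H0i v) = v) ∧ (∀ v, H0i (H0 v) = v) ∧
    ‖H0‖ ≤ 1 ∧ ‖H0 - ContinuousLinearMap.id ℝ (Euc m)‖ ≤ ‖q0‖ ^ 2 ∧
    ‖H0i - ContinuousLinearMap.id ℝ (Euc m)‖ ≤ 2 * ‖q0‖ ^ 2 := by
  obtain ⟨H0, H0', hR⟩ := exists_Rt q0
  have hn : ∀ v, ‖Lo q0 (H0 v)‖ = ‖v‖ := by
    intro v
    have h1 : ‖Lo q0 (H0 v)‖ ^ 2 = ‖v‖ ^ 2 := by
      rw [Gi_456.norm_Lo_sq]
      have h2 : ⟪H0 v, gop q0 (H0 v)⟫ = ‖H0 v‖ ^ 2 + ‖q0 (H0 v)‖ ^ 2 := by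
        rw [gop_inner, real_inner_self_eq_norm_sq, real_inner_self_eq_norm_sq]
      rw [← h2, ← real_inner_self_eq_norm_sq, hR.sym, hR.inv]
    exact (sq_eq_sq₀ (norm_nonneg _) (norm_nonneg _)).1 h1
  let T : Euc m →ₗᵢ[ℝ] Euc m :=
    { toLinearMap := ((Lo q0 ∘L H0 : L m) : Euc m →ₗ[ℝ] Euc m), norm_map' := hn }
  refine ⟨T.toLinearIsometryEquiv rfl, H0, H0 ∘L gop q0, fun v => rfl, fun v => hR.sq_gop v,
    fun v => hR.inv v, hR.norm_le, ?_, ?_⟩
  · exact hR.norm_sub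
  · have h0 : ‖H0‖ ≤ 1 := hR.norm_le
    have e : H0 ∘L gop q0 - ContinuousLinearMap.id ℝ (Euc m) =
        (H0 - 1) + H0 ∘L (adj q0 ∘L q0) := by
      rw [gop, ContinuousLinearMap.comp_add, ContinuousLinearMap.comp_id]
      show _ = H0 - ContinuousLinearMap.id ℝ (Euc m) + _
      abel
    rw [e]
    refine (norm_add_le _ _).trans ?_
    have t1 : ‖H0 ∘L (adj q0 ∘L q0)‖ ≤ 1 * (‖q0‖ * ‖q0‖) := by
      refine (ContinuousLinearMap.opNorm_comp_le _ _).trans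
        (mul_le_mul h0 ?_ (norm_nonneg _) zero_le_one)
      refine (ContinuousLinearMap.opNorm_comp_le _ _).trans ?_
      rw [LinearIsometryEquiv.norm_map]
    have t2 := hR.norm_sub
    nlinarith

theorem abs_det_iso (U : Euc m ≃ₗᵢ[ℝ] Euc m) :
    |((U.toContinuousLinearEquiv : Euc m ≃L[ℝ] Euc m) : L m).det| = 1 := by
  set T : L m := ((U.toContinuousLinearEquiv : Euc m ≃L[ℝ] Euc m) : L m) with hT
  have h1 : adj T ∘L T = ContinuousLinearMap.id ℝ (Euc m) := by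
    refine ContinuousLinearMap.ext fun u => ext_inner_left ℝ fun v => ?_
    rw [ContinuousLinearMap.comp_apply, ContinuousLinearMap.adjoint_inner_right]
    show ⟪U v, U u⟫ = ⟪v, u⟫
    exact U.inner_map_map v u
  have h2 : (adj T ∘L T).det = (adj T).det * T.det := by
    simp only [ContinuousLinearMap.det, ContinuousLinearMap.toLinearMap_comp]
    exact LinearMap.det_comp _ _
  rw [det_adj'] at h2
  rw [h1] at h2
  have h3 : (ContinuousLinearMap.id ℝ (Euc m)).det = 1 := by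
    simp [ContinuousLinearMap.det]
  rw [h3] at h2
  have h4 : |T.det| * |T.det| = 1 := by rw [← abs_mul, ← h2, abs_one]
  nlinarith [abs_nonneg T.det]

end Crest.Agent.R234.Swb_159
end
end

-- ▼ part R234/Swb5_159
section

/-!
# Row 234, F6-BLOCK (helper159), part 5: the normalised charts of `Gi_456` of one surface in two frames
-/

set_option autoImplicit false
set_option linter.unusedSectionVars false

open MeasureTheory Set Metric Filter Topology
open Crest.GeometryTopology.Submanifold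
open scoped ENNReal NNReal ContDiff RealInnerProductSpace

noncomputable section

namespace Crest.Agent.R234.Swb_159

open Crest.Agent.R234.Vf_884 (L)
open Crest.Agent.R234.Ell1_3 Crest.Agent.R234.Main_456 Crest.Agent.R234.Grot_842
open Crest.Agent.R234.Foot_842 (dchg dchg_apply fr_inner)
open Crest.Agent.R234.Gi_456 (Gr tube IsFoot foot yy Bt Lo Loi adj_Lo_Lo det_Lo det_Lo_pos Loi_spec
  Loi_Lo Lo_Loi norm_Lo_le le_norm_Lo giB jB muG ch)

local notation "adj" => ContinuousLinearMap.adjoint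

variable {m n k : ℕ}

theorem det_comp' (A B : L m) : (A ∘L B).det = A.det * B.det := by
  simp only [ContinuousLinearMap.det, ContinuousLinearMap.toLinearMap_comp]
  exact LinearMap.det_comp _ _

theorem norm_Lo_op {q : Euc m →L[ℝ] Euc n} (hq : ‖q‖ ≤ 1 / 8) : ‖Lo q‖ ≤ 65 / 64 :=
  ContinuousLinearMap.opNorm_le_bound _ (by norm_num) fun v => norm_Lo_le hq v

/-- the linear data of the change of normalised coordinates -/
structure Lin (q0 q2 : Euc m →L[ℝ] Euc n) (O : Euc m ≃ₗᵢ[ℝ] Euc m) (B : L m) : Prop where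
  O_B : ∀ v, O (B v) = Lo q2 v
  B_sub : ‖B ∘L Loi q0 - ContinuousLinearMap.id ℝ (Euc m)‖ ≤ 2 * ‖q0‖ ^ 2 + 4 * ‖q2‖ ^ 2
  B_le : ∀ v, ‖B v‖ = ‖Lo q2 v‖
  B_near : ∀ K : L m, ‖B ∘L K ∘L Loi q0 - ContinuousLinearMap.id ℝ (Euc m)‖ ≤
    2 * ‖q0‖ ^ 2 + 4 * ‖q2‖ ^ 2 + 2 * ‖K - ContinuousLinearMap.id ℝ (Euc m)‖

theorem exists_Lin {q0 q2 : Euc m →L[ℝ] Euc n} (h0 : ‖q0‖ ≤ 1 / 8) (h2 : ‖q2‖ ≤ 1 / 8) :
    ∃ (O : Euc m ≃ₗᵢ[ℝ] Euc m) (B : L m), Lin q0 q2 O B := by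
  obtain ⟨U0, H0, H0i, a1, a2, a3, a4, a5, a6⟩ := exists_iso q0
  obtain ⟨U2, H2, H2i, b1, b2, b3, b4, b5, b6⟩ := exists_iso q2
  have hLo0 : ‖Lo q0‖ ≤ 65 / 64 := norm_Lo_op h0
  have hLoi : ‖Loi q0‖ ≤ 1 := (Loi_spec q0).2.2
  have hI : ‖ContinuousLinearMap.id ℝ (Euc m)‖ ≤ 1 := ContinuousLinearMap.norm_id_le
  have hH2i : ‖H2i‖ ≤ 33 / 32 := by
    have e : H2i = (H2i - ContinuousLinearMap.id ℝ (Euc m)) +
      ContinuousLinearMap.id ℝ (Euc m) := by abel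
    rw [e]
    refine (norm_add_le _ _).trans ?_
    nlinarith [norm_nonneg q2]
  have hBn : ∀ K : L m, ‖(Lo q0 ∘L H0 ∘L H2i) ∘L K ∘L Loi q0 -
      ContinuousLinearMap.id ℝ (Euc m)‖ ≤
      2 * ‖q0‖ ^ 2 + 4 * ‖q2‖ ^ 2 + 2 * ‖K - ContinuousLinearMap.id ℝ (Euc m)‖ := by
    intro K
    set I := ContinuousLinearMap.id ℝ (Euc m) with hIdef
    have e : (Lo q0 ∘L H0 ∘L H2i) ∘L K ∘L Loi q0 - I =
        Lo q0 ∘L (H0 ∘L H2i ∘L (K - I) + (H0 ∘L (H2i - I) + (H0 - I))) ∘L Loi q0 := by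
      refine ContinuousLinearMap.ext fun v => ?_
      have h9 : v = Lo q0 (Loi q0 v) := (Lo_Loi q0 v).symm
      simp only [_root_.sub_apply, _root_.add_apply, ContinuousLinearMap.comp_apply, hIdef,
        ContinuousLinearMap.id_apply, map_sub, map_add]
      have h10 : Lo q0 (Loi q0 v) = v := Lo_Loi q0 v
      rw [h10]
      abel
    rw [e]
    have t1 : ‖H0 ∘L H2i ∘L (K - I)‖ ≤ 33 / 32 * ‖K - I‖ := by
      refine (ContinuousLinearMap.opNorm_comp_le _ _).trans ?_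
      calc ‖H0‖ * ‖H2i ∘L (K - I)‖ ≤ 1 * (33 / 32 * ‖K - I‖) :=
            mul_le_mul a4 ((ContinuousLinearMap.opNorm_comp_le _ _).trans
              (mul_le_mul_of_nonneg_right hH2i (norm_nonneg _))) (norm_nonneg _) zero_le_one
        _ = _ := one_mul _
    have t2 : ‖H0 ∘L (H2i - I)‖ ≤ 2 * ‖q2‖ ^ 2 := by
      refine (ContinuousLinearMap.opNorm_comp_le _ _).trans ?_
      calc ‖H0‖ * ‖H2i - I‖ ≤ 1 * (2 * ‖q2‖ ^ 2) :=
            mul_le_mul a4 b6 (norm_nonneg _) zero_le_one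
        _ = _ := one_mul _
    have t3 : ‖H0 ∘L H2i ∘L (K - I) + (H0 ∘L (H2i - I) + (H0 - I))‖ ≤
        33 / 32 * ‖K - I‖ + (2 * ‖q2‖ ^ 2 + ‖q0‖ ^ 2) :=
      (norm_add_le _ _).trans (add_le_add t1 ((norm_add_le _ _).trans (add_le_add t2 a5)))
    have t4 : ‖Lo q0 ∘L (H0 ∘L H2i ∘L (K - I) + (H0 ∘L (H2i - I) + (H0 - I))) ∘L Loi q0‖ ≤
        65 / 64 * ((33 / 32 * ‖K - I‖ + (2 * ‖q2‖ ^ 2 + ‖q0‖ ^ 2)) * 1) := by
      refine (ContinuousLinearMap.opNorm_comp_le _ _).trans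
        (mul_le_mul hLo0 ?_ (norm_nonneg _) (by norm_num))
      exact (ContinuousLinearMap.opNorm_comp_le _ _).trans
        (mul_le_mul t3 hLoi (norm_nonneg _) (by positivity))
    refine t4.trans ?_
    nlinarith [norm_nonneg (K - I), sq_nonneg ‖q0‖, sq_nonneg ‖q2‖]
  refine ⟨U0.symm.trans U2, Lo q0 ∘L H0 ∘L H2i, ?_, ?_, ?_, hBn⟩
  · intro v
    have e1 : (Lo q0 ∘L H0 ∘L H2i) v = U0 (H2i v) := (a1 (H2i v)).symm
    rw [e1]
    show U2 (U0.symm (U0 (H2i v))) = _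
    rw [U0.symm_apply_apply, b1, b2]
  · have h3 := hBn (ContinuousLinearMap.id ℝ (Euc m))
    rw [sub_self, norm_zero, mul_zero, add_zero, ContinuousLinearMap.id_comp] at h3
    exact h3
  · intro v
    have e1 : (Lo q0 ∘L H0 ∘L H2i) v = U0 (H2i v) := (a1 (H2i v)).symm
    rw [e1, LinearIsometryEquiv.norm_map, ← b2 v, ← b1, LinearIsometryEquiv.norm_map, b3]

theorem Lin.abs_det {q0 q2 : Euc m →L[ℝ] Euc n} {O : Euc m ≃ₗᵢ[ℝ] Euc m} {B : L m}
    (h : Lin q0 q2 O B) : |B.det| = (Lo q2).det := by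
  have h1 : ((O.toContinuousLinearEquiv : Euc m ≃L[ℝ] Euc m) : L m) ∘L B = Lo q2 :=
    ContinuousLinearMap.ext fun v => h.O_B v
  have h2 := det_comp' ((O.toContinuousLinearEquiv : Euc m ≃L[ℝ] Euc m) : L m) B
  rw [h1] at h2
  have h3 := congrArg abs h2
  rw [abs_mul, abs_det_iso, one_mul, abs_of_pos (det_Lo_pos q2)] at h3
  exact h3.symm

theorem det_Loi (q : Euc m →L[ℝ] Euc n) : (Loi q).det = (Lo q).det⁻¹ := by
  have h1 := det_comp' (Loi q) (Lo q)
  rw [(Loi_spec q).1] at h1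
  have h2 : (ContinuousLinearMap.id ℝ (Euc m)).det = 1 := by simp [ContinuousLinearMap.det]
  rw [h2] at h1
  exact eq_inv_of_mul_eq_one_left h1.symm

/-! ### the change of normalised coordinates -/

/-- `θ` -/
def thn (q : Euc m →L[ℝ] Euc n) (H : Euc m →L[ℝ] Euc m) (w : Euc m → Euc n) (X0 X0' : Euc m)
    (B : L m) (y : Euc m) : Euc m := B (psi q H w (Gi_456.pt w X0 y) - X0')

def dthn (q : Euc m →L[ℝ] Euc n) (H : Euc m →L[ℝ] Euc m) (w : Euc m → Euc n) (X0 : Euc m)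
    (B : L m) (y : Euc m) : L m :=
  B ∘L dchg q H (fderiv ℝ w (Gi_456.pt w X0 y)) ∘L Loi (fderiv ℝ w X0)

variable {q : Euc m →L[ℝ] Euc n} {H : Euc m →L[ℝ] Euc m} {H' : Euc n →L[ℝ] Euc n}
  {w w' : Euc m → Euc n} {A : Set (Euc m)} {π : Euc k →L[ℝ] Euc m} {ρ : Euc k →L[ℝ] Euc n}
  {x : Euc k} {r r' : ℝ} {X0 X0' : Euc m} {O : Euc m ≃ₗᵢ[ℝ] Euc m} {B : L m}

theorem hasFDerivAt_thn (hw : Differentiable ℝ w) (y : Euc m) :
    HasFDerivAt (thn q H w X0 X0' B) (dthn q H w X0 B y) y := by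
  have h1 : HasFDerivAt (Gi_456.pt w X0) (Loi (fderiv ℝ w X0)) y :=
    (Loi (fderiv ℝ w X0)).hasFDerivAt.const_add X0
  exact B.hasFDerivAt.comp y (((hasFDerivAt_psi (hw _)).comp y h1).sub_const X0')

theorem norm_dchg_sub (hR : Rt q H H') (hq : ‖q‖ ≤ 1 / 8) {p : Euc m →L[ℝ] Euc n}
    (hp : ‖p‖ ≤ 1 / 8) : ‖dchg q H p - ContinuousLinearMap.id ℝ (Euc m)‖ ≤
      2 * ‖q‖ ^ 2 + 2 * (‖q‖ * ‖p‖) := by
  set I := ContinuousLinearMap.id ℝ (Euc m) with hI
  have e : dchg q H p - I = (H - 1) ∘L (I + adj q ∘L p) + adj q ∘L p := by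
    show H ∘L (I + adj q ∘L p) - I = (H - I) ∘L (I + adj q ∘L p) + adj q ∘L p
    rw [ContinuousLinearMap.sub_comp, hI, ContinuousLinearMap.id_comp]
    abel
  rw [e]
  have t1 : ‖adj q ∘L p‖ ≤ ‖q‖ * ‖p‖ := by
    refine (ContinuousLinearMap.opNorm_comp_le _ _).trans ?_
    rw [LinearIsometryEquiv.norm_map]
  have t2 : ‖I + adj q ∘L p‖ ≤ 2 := by
    have h1 : ‖I‖ ≤ 1 := ContinuousLinearMap.norm_id_le
    have h2 : ‖q‖ * ‖p‖ ≤ 1 / 8 * (1 / 8) := mul_le_mul hq hp (norm_nonneg _) (by norm_num)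
    exact (norm_add_le _ _).trans (by linarith)
  have t3 : ‖(H - 1) ∘L (I + adj q ∘L p)‖ ≤ ‖q‖ ^ 2 * 2 :=
    (ContinuousLinearMap.opNorm_comp_le _ _).trans
      (mul_le_mul hR.norm_sub t2 (norm_nonneg _) (by positivity))
  refine (norm_add_le _ _).trans ?_
  have := mul_nonneg (norm_nonneg q) (norm_nonneg p)
  linarith

/-- size of `dθ - 1` -/
theorem norm_dthn_sub (hL : Lin (fderiv ℝ w X0) (fderiv ℝ w' X0') O B) (hR : Rt q H H')
    (hq : ‖q‖ ≤ 1 / 8) (hw : ∀ X, ‖fderiv ℝ w X‖ ≤ 1 / 8) {σ : ℝ}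
    (hσ : 2 * ‖fderiv ℝ w X0‖ ^ 2 + 4 * ‖fderiv ℝ w' X0'‖ ^ 2 + 5 * ‖q‖ ≤ σ) (y : Euc m) :
    ‖dthn q H w X0 B y - ContinuousLinearMap.id ℝ (Euc m)‖ ≤ σ := by
  have h1 := hL.B_near (dchg q H (fderiv ℝ w (Gi_456.pt w X0 y)))
  have h2 := norm_dchg_sub hR hq (hw (Gi_456.pt w X0 y))
  refine h1.trans (le_trans ?_ hσ)
  have h3 : ‖q‖ ^ 2 ≤ ‖q‖ * (1 / 8) := by
    rw [sq]; exact mul_le_mul_of_nonneg_left hq (norm_nonneg _)
  have h4 : ‖q‖ * ‖fderiv ℝ w (Gi_456.pt w X0 y)‖ ≤ ‖q‖ * (1 / 8) :=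
    mul_le_mul_of_nonneg_left (hw _) (norm_nonneg _)
  have := norm_nonneg q
  linarith

theorem norm_thn_zero (hL : Lin (fderiv ℝ w X0) (fderiv ℝ w' X0') O B)
    (hw' : ‖fderiv ℝ w' X0'‖ ≤ 1 / 8) :
    ‖thn q H w X0 X0' B 0‖ ≤ 65 / 64 * ‖psi q H w X0 - X0'‖ := by
  unfold thn
  rw [Gi_456.pt_zero, hL.B_le]
  exact norm_Lo_le hw' _

theorem pt_thn (hL : Lin (fderiv ℝ w X0) (fderiv ℝ w' X0') O B) (y : Euc m) :
    Gi_456.pt w' X0' (O (thn q H w X0 X0' B y)) = psi q H w (Gi_456.pt w X0 y) := by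
  unfold thn
  rw [hL.O_B]
  show X0' + Loi (fderiv ℝ w' X0') (Lo (fderiv ℝ w' X0') _) = _
  rw [Loi_Lo]; abel

/-- **the densities** -/
theorem jB_thn (h : Same q H H' w w' A) (hL : Lin (fderiv ℝ w X0) (fderiv ℝ w' X0') O B)
    {y : Euc m} (hy : Gi_456.pt w X0 y ∈ A) :
    jB w X0 y = jB w' X0' (O (thn q H w X0 X0' B y)) * |(dthn q H w X0 B y).det| := by
  have h1 := dns_dchg h.rt (h.hD hy)
  have h2 : (dthn q H w X0 B y).det = B.det *
      ((dchg q H (fderiv ℝ w (Gi_456.pt w X0 y))).det * (Loi (fderiv ℝ w X0)).det) := by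
    unfold dthn
    rw [det_comp', det_comp']
  have p0 := det_Lo_pos (fderiv ℝ w X0)
  have p2 := det_Lo_pos (fderiv ℝ w' X0')
  rw [jB, jB, pt_thn hL, h1, h2, abs_mul, abs_mul, hL.abs_det, det_Loi, abs_inv, abs_of_pos p0]
  field_simp

/-- **the inverse metrics** -/
theorem giB_thn (h : Same q H H' w w' A) (hL : Lin (fderiv ℝ w X0) (fderiv ℝ w' X0') O B)
    {y : Euc m} (hy : Gi_456.pt w X0 y ∈ A) (u : Euc m) :
    ⟪O u, giB w' X0' (O (thn q H w X0 X0' B y)) (O u)⟫ =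
      ⟪u, (dthn q H w X0 B y ∘L giB w X0 y ∘L adj (dthn q H w X0 B y)) u⟫ := by
  set p := fderiv ℝ w (Gi_456.pt w X0 y) with hp
  set D := fderiv ℝ w' (psi q H w (Gi_456.pt w X0 y)) with hD
  have h1 : ginv D = dchg q H p ∘L ginv p ∘L adj (dchg q H p) := ginv_dchg h.rt (h.hD hy)
  set L2 := Lo (fderiv ℝ w' X0') with hL2
  set L0 := Lo (fderiv ℝ w X0) with hL0
  have e1 : giB w' X0' (O (thn q H w X0 X0' B y)) = L2 ∘L ginv D ∘L adj L2 := by
    rw [giB, pt_thn hL]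
  have e2 : giB w X0 y = L0 ∘L ginv p ∘L adj L0 := rfl
  have e3 : adj L2 (O u) = adj B u := by
    refine ext_inner_right ℝ fun v => ?_
    rw [ContinuousLinearMap.adjoint_inner_left, ContinuousLinearMap.adjoint_inner_left, hL2,
      ← hL.O_B, LinearIsometryEquiv.inner_map_map]
  have e4 : ⟪O u, (L2 ∘L ginv D ∘L adj L2) (O u)⟫ = ⟪adj B u, ginv D (adj B u)⟫ := by
    show ⟪O u, L2 (ginv D (adj L2 (O u)))⟫ = _
    rw [← ContinuousLinearMap.adjoint_inner_left, e3]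
  have e5 : adj L0 (adj (dthn q H w X0 B y) u) = adj (dchg q H p) (adj B u) := by
    have e6 : dthn q H w X0 B y ∘L L0 = B ∘L dchg q H p := by
      refine ContinuousLinearMap.ext fun v => ?_
      show B (dchg q H p (Loi (fderiv ℝ w X0) (Lo (fderiv ℝ w X0) v))) = _
      rw [Loi_Lo]; rfl
    have e7 := congrArg (fun T : L m => adj T u) e6
    simp only [ContinuousLinearMap.adjoint_comp] at e7
    exact e7
  have e8 : ⟪u, (dthn q H w X0 B y ∘L (L0 ∘L ginv p ∘L adj L0) ∘L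
      adj (dthn q H w X0 B y)) u⟫ = ⟪adj (dchg q H p) (adj B u),
        ginv p (adj (dchg q H p) (adj B u))⟫ := by
    show ⟪u, dthn q H w X0 B y (L0 (ginv p (adj L0 (adj (dthn q H w X0 B y) u))))⟫ = _
    rw [← ContinuousLinearMap.adjoint_inner_left, ← ContinuousLinearMap.adjoint_inner_left, e5]
  rw [e1, e2, e4, e8, h1]
  show ⟪adj B u, dchg q H p (ginv p (adj (dchg q H p) (adj B u)))⟫ = _
  rw [← ContinuousLinearMap.adjoint_inner_left]

/-- `|giB y - 1| ≤ |y| / (30 r)` -/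
theorem norm_giB_sub (h : Gr r w) (X0 y : Euc m) :
    ‖giB w X0 y - ContinuousLinearMap.id ℝ (Euc m)‖ ≤ 1 / (30 * r) * ‖y‖ := by
  have hr := h.pos
  set q0 := fderiv ℝ w X0 with hq0
  set p := fderiv ℝ w (Gi_456.pt w X0 y) with hp
  have h0 : ‖q0‖ ≤ 1 / 8 := h.d1 X0
  have h1 : ‖p‖ ≤ 1 / 8 := h.d1 _
  have h2 : ‖p - q0‖ ≤ 1 / (8 * r) * ‖y‖ := by
    have h3 := h.lip' (Gi_456.pt w X0 y) X0
    refine h3.trans (mul_le_mul_of_nonneg_left ?_ (by positivity))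
    have e : Gi_456.pt w X0 y - X0 = Loi (fderiv ℝ w X0) y := by
      show X0 + _ - X0 = _; abel
    rw [e]
    refine (ContinuousLinearMap.le_opNorm _ _).trans ?_
    exact mul_le_of_le_one_left (norm_nonneg _) (Loi_spec _).2.2
  have h4 : ‖ginv p - ginv q0‖ ≤ 1 / 4 * ‖p - q0‖ := by
    have e : ginv p - ginv q0 = ginv p ∘L (gop q0 - gop p) ∘L ginv q0 := by
      have e1 : ginv p ∘L (gop q0 - gop p) ∘L ginv q0 =
          ginv p ∘L (gop q0 ∘L ginv q0) - (ginv p ∘L gop p) ∘L ginv q0 := by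
        rw [ContinuousLinearMap.sub_comp, ContinuousLinearMap.comp_sub]; rfl
      rw [e1, gop_ginv, ginv_gop, ContinuousLinearMap.comp_id, ContinuousLinearMap.id_comp]
    have e2 : gop q0 - gop p = -(adj p ∘L (p - q0)) - adj (p - q0) ∘L q0 := by
      rw [gop, gop, map_sub, ContinuousLinearMap.comp_sub, ContinuousLinearMap.sub_comp]
      abel
    have e3 : ‖gop q0 - gop p‖ ≤ 1 / 4 * ‖p - q0‖ := by
      rw [e2]
      refine (norm_sub_le _ _).trans ?_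
      rw [norm_neg]
      have t1 : ‖adj p ∘L (p - q0)‖ ≤ 1 / 8 * ‖p - q0‖ := by
        refine (ContinuousLinearMap.opNorm_comp_le _ _).trans ?_
        rw [LinearIsometryEquiv.norm_map]
        exact mul_le_mul_of_nonneg_right h1 (norm_nonneg _)
      have t2 : ‖adj (p - q0) ∘L q0‖ ≤ ‖p - q0‖ * (1 / 8) := by
        refine (ContinuousLinearMap.opNorm_comp_le _ _).trans ?_
        rw [LinearIsometryEquiv.norm_map]
        exact mul_le_mul_of_nonneg_left h0 (norm_nonneg _)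
      linarith
    have n1 := Sw_733.norm_ginv_le p
    have n2 := Sw_733.norm_ginv_le q0
    rw [e]
    calc ‖ginv p ∘L (gop q0 - gop p) ∘L ginv q0‖ ≤ ‖ginv p‖ * (‖gop q0 - gop p‖ * ‖ginv q0‖) :=
          (ContinuousLinearMap.opNorm_comp_le _ _).trans (mul_le_mul_of_nonneg_left
            (ContinuousLinearMap.opNorm_comp_le _ _) (norm_nonneg _))
      _ ≤ 1 * ((1 / 4 * ‖p - q0‖) * 1) :=
          mul_le_mul n1 (mul_le_mul e3 n2 (norm_nonneg _) (by positivity)) (by positivity)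
            zero_le_one
      _ = _ := by ring
  have h5 : giB w X0 y - ContinuousLinearMap.id ℝ (Euc m) =
      Lo q0 ∘L (ginv p - ginv q0) ∘L adj (Lo q0) := by
    have e := Gi_456.giB_zero w X0
    have e1 : giB w X0 0 = Lo q0 ∘L ginv q0 ∘L adj (Lo q0) := by
      rw [giB, Gi_456.pt_zero]
    rw [← e, e1, ContinuousLinearMap.sub_comp, ContinuousLinearMap.comp_sub]
    rfl
  rw [h5]
  have hLo := norm_Lo_op h0
  calc ‖Lo q0 ∘L (ginv p - ginv q0) ∘L adj (Lo q0)‖ ≤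
      ‖Lo q0‖ * (‖ginv p - ginv q0‖ * ‖adj (Lo q0)‖) :=
        (ContinuousLinearMap.opNorm_comp_le _ _).trans (mul_le_mul_of_nonneg_left
          (ContinuousLinearMap.opNorm_comp_le _ _) (norm_nonneg _))
    _ ≤ 65 / 64 * ((1 / 4 * (1 / (8 * r) * ‖y‖)) * (65 / 64)) := by
        rw [LinearIsometryEquiv.norm_map]
        refine mul_le_mul hLo (mul_le_mul (h4.trans (mul_le_mul_of_nonneg_left h2 (by norm_num)))
          hLo (norm_nonneg _) (by positivity)) (by positivity) (by norm_num)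
    _ ≤ 1 / (30 * r) * ‖y‖ := by
        have e1 : 65 / 64 * ((1 / 4 * (1 / (8 * r) * ‖y‖)) * (65 / 64)) =
          (65 / 64 * (65 / 64) / 32) * (‖y‖ / r) := by field_simp; ring
        have e2 : 1 / (30 * r) * ‖y‖ = (1 / 30) * (‖y‖ / r) := by field_simp
        rw [e1, e2]
        exact mul_le_mul_of_nonneg_right (by norm_num) (by positivity)

end Crest.Agent.R234.Swb_159
end
end

-- ▼ part R234/Swb6_159
section

/-!
# Row 234, F6-BLOCK (helper159), part 6: `EE` and `II` of one surface in two frames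

The charts are `ch π ρ x r w X0` and `ch rπ rρ x r' w' X0'` of `Gi_456`; final theorems `block_EE`,
`block_II`.
-/

set_option autoImplicit false
set_option linter.unusedSectionVars false

open MeasureTheory Set Metric Filter Topology
open Crest.GeometryTopology.Submanifold
open scoped ENNReal NNReal ContDiff RealInnerProductSpace

noncomputable section

namespace Crest.Agent.R234.Swb_159

open Crest.Agent.R234.Vf_884 (L G)
open Crest.Agent.R234.Cy_870 (Ker)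
open Crest.Agent.R234.Ell1_3 Crest.Agent.R234.Main_456 Crest.Agent.R234.Grot_842
open Crest.Agent.R234.GL_394 (Ch Ok On)
open Crest.Agent.R234.Gi_456 (Gr tube IsFoot foot yy Bt Lo Loi ch)

variable {m n k : ℕ} {q : Euc m →L[ℝ] Euc n} {H : Euc m →L[ℝ] Euc m} {H' : Euc n →L[ℝ] Euc n}
  {w w' : Euc m → Euc n} {A : Set (Euc m)} {π : Euc k →L[ℝ] Euc m} {ρ : Euc k →L[ℝ] Euc n}
  {x : Euc k} {r r' : ℝ} {X0 X0' : Euc m} {O : Euc m ≃ₗᵢ[ℝ] Euc m} {B : L m}

/-- the hypotheses: one surface, two frames with the same base point -/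
structure Two (π : Euc k →L[ℝ] Euc m) (ρ : Euc k →L[ℝ] Euc n) (x : Euc k) (q : Euc m →L[ℝ] Euc n)
    (H : Euc m →L[ℝ] Euc m) (H' : Euc n →L[ℝ] Euc n) (r r' : ℝ) (w w' : Euc m → Euc n)
    (X0 X0' : Euc m) (A : Set (Euc m)) (R σ : ℝ) : Prop where
  fr : Frame π ρ
  gr : Gr r w
  gr' : Gr r' w'
  same : Same q H H' w w' A
  hq : ‖q‖ ≤ 1 / 8
  R0 : 0 < R
  ball : closedBall X0 R ⊆ A
  s1 : σ ≤ 1 / 4
  hσ : 2 * ‖fderiv ℝ w X0‖ ^ 2 + 4 * ‖fderiv ℝ w' X0'‖ ^ 2 + 5 * ‖q‖ ≤ σ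
  Rr : R ≤ 15 * r

/-- the measure sits near the surface -/
def Near (π : Euc k →L[ℝ] Euc m) (ρ : Euc k →L[ℝ] Euc n) (x : Euc k) (q : Euc m →L[ℝ] Euc n)
    (H : Euc m →L[ℝ] Euc m) (H' : Euc n →L[ℝ] Euc n) (r r' : ℝ) (w w' : Euc m → Euc n)
    (X0 X0' : Euc m) (R : ℝ) (V : Measure (Euc k × L k)) : Prop :=
  ∀ᵐ p ∂V, (p.1 ∈ tube π ρ x r w ∧ ‖(ch π ρ x r w X0).x p.1‖ ≤ R ∧
      ‖(ch π ρ x r w X0).nu p.1‖ ≤ 2 * r') ∨
    (R ≤ ‖(ch π ρ x r w X0).x p.1‖ ∧
      R ≤ ‖(ch (rπ π ρ q H) (rρ π ρ q H') x r' w' X0').x p.1‖)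

namespace Two

variable {R σ : ℝ} (h : Two π ρ x q H H' r r' w w' X0 X0' A R σ)
include h

theorem s0 : 0 ≤ σ := by
  have := h.hσ
  have h1 := norm_nonneg q
  nlinarith [sq_nonneg ‖fderiv ℝ w X0‖, sq_nonneg ‖fderiv ℝ w' X0'‖]

theorem pt_mem {y : Euc m} (hy : y ∈ closedBall (0 : Euc m) R) : Gi_456.pt w X0 y ∈ A := by
  refine h.ball ?_
  rw [mem_closedBall_iff_norm]
  have e : Gi_456.pt w X0 y - X0 = Loi (fderiv ℝ w X0) y := by
    show X0 + _ - X0 = _; abel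
  rw [e]
  refine (ContinuousLinearMap.le_opNorm _ _).trans ?_
  exact (mul_le_of_le_one_left (norm_nonneg _) (Gi_456.Loi_spec _).2.2).trans
    (mem_closedBall_zero_iff.1 hy)

/-- same foot, same distance -/
theorem rel_pt {z : Euc k} (hz : z ∈ tube π ρ x r w) (hR : ‖(ch π ρ x r w X0).x z‖ ≤ R)
    (hν : ‖(ch π ρ x r w X0).nu z‖ ≤ 2 * r')
    (hL : Lin (fderiv ℝ w X0) (fderiv ℝ w' X0') O B) :
    (ch (rπ π ρ q H) (rρ π ρ q H') x r' w' X0').x z =
      O (thn q H w X0 X0' B ((ch π ρ x r w X0).x z)) ∧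
    (ch (rπ π ρ q H) (rρ π ρ q H') x r' w' X0').f z = (ch π ρ x r w X0).f z := by
  set X := foot π ρ x r w z with hX
  have hfoot : IsFoot π ρ x r w z X := h.gr.foot_spec hz
  have hx : (ch π ρ x r w X0).x z = Lo (fderiv ℝ w X0) (X - X0) := rfl
  have hXA : X ∈ A := by
    refine h.ball ?_
    rw [mem_closedBall_iff_norm]
    refine (Gi_456.le_norm_Lo (fderiv ℝ w X0) (X - X0)).trans ?_
    rw [← hx]; exact hR
  have hnu : (ch π ρ x r w X0).nu z = z - pnt π ρ x w X := nu_of_isFoot h.fr hfoot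
  have hfoot' := h.same.isFoot (r' := r') h.fr hXA hfoot (by rw [← hnu]; exact hν)
  have hf2 : foot (rπ π ρ q H) (rρ π ρ q H') x r' w' z = psi q H w X := h.gr'.foot_eq hfoot'
  constructor
  · unfold thn
    rw [hL.O_B]
    have e1 : Gi_456.pt w X0 ((ch π ρ x r w X0).x z) = X := by
      rw [hx]
      show X0 + Loi (fderiv ℝ w X0) (Lo (fderiv ℝ w X0) (X - X0)) = X
      rw [Gi_456.Loi_Lo]; abel
    rw [e1]
    show Lo (fderiv ℝ w' X0') (foot (rπ π ρ q H) (rρ π ρ q H') x r' w' z - X0') = _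
    rw [hf2]
  · have e2 : (ch (rπ π ρ q H) (rρ π ρ q H') x r' w' X0').nu z = z - pnt π ρ x w X := by
      show Bt (rπ π ρ q H) (rρ π ρ q H') w' (foot (rπ π ρ q H) (rρ π ρ q H') x r' w' z)
        (yy (rπ π ρ q H) (rρ π ρ q H') x r' w' z) = _
      unfold Gi_456.yy
      rw [hf2, nu_of_isFoot (frame_rot h.fr h.same.rt) hfoot', h.same.pnt h.fr hXA]
    show ‖(ch (rπ π ρ q H) (rρ π ρ q H') x r' w' X0').nu z‖ ^ 2 / 2 =
      ‖(ch π ρ x r w X0).nu z‖ ^ 2 / 2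
    rw [e2, hnu]

/-- **the abstract hypotheses of `Blk`** -/
theorem blk (hL : Lin (fderiv ℝ w X0) (fderiv ℝ w' X0') O B) {V : Measure (Euc k × L k)}
    (hV : Near π ρ x q H H' r r' w w' X0 X0' R V) :
    Blk (ch π ρ x r w X0) (ch (rπ π ρ q H) (rρ π ρ q H') x r' w' X0') O
      (thn q H w X0 X0' B) (dthn q H w X0 B) R σ V where
  s0 := h.s0
  s1 := h.s1
  R0 := h.R0
  rel := by
    filter_upwards [hV] with p hp
    rcases hp with ⟨h1, h2, h3⟩ | h1
    · obtain ⟨h4, h5⟩ := h.rel_pt h1 h2 h3 hL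
      exact Or.inl ⟨h2, h4, h5⟩
    · exact Or.inr h1
  der := fun v _ => (hasFDerivAt_thn h.gr.differentiable v).hasFDerivWithinAt
  near := fun v _ => norm_dthn_sub hL h.same.rt h.hq h.gr.d1 h.hσ v
  hj := fun v hv => jB_thn h.same hL (h.pt_mem hv)
  cj := (h.gr.contDiff_j X0).continuous.continuousOn

theorem blkG (hL : Lin (fderiv ℝ w X0) (fderiv ℝ w' X0') O B) :
    BlkG (ch π ρ x r w X0) (ch (rπ π ρ q H) (rρ π ρ q H') x r' w' X0') O
      (thn q H w X0 X0' B) (dthn q H w X0 B) R (1 / (30 * r)) where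
  c0 := by have := h.gr.pos; positivity
  gi := fun v hv u => giB_thn h.same hL (h.pt_mem hv) u
  gsub := fun v _ => norm_giB_sub h.gr X0 v
  ghalf := by
    intro v hv
    have hr := h.gr.pos
    refine (norm_giB_sub h.gr X0 v).trans ?_
    have h1 : ‖v‖ ≤ 15 * r := (mem_closedBall_zero_iff.1 hv).trans h.Rr
    calc 1 / (30 * r) * ‖v‖ ≤ 1 / (30 * r) * (15 * r) :=
          mul_le_mul_of_nonneg_left h1 (by positivity)
      _ = 1 / 2 := by field_simp; norm_num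
  mu1 := fun v => Gi_456.muG_mul v
  mu2 := fun v => Gi_456.muG_mul v
  mu10 := Gi_456.muG_zero
  mu20 := Gi_456.muG_zero

theorem aem {c : Ch m k} {K : Set (Euc k)} {D : Set (Euc m)} {V : Measure (Euc k × L k)}
    (hc : Ok c K D) (hV : On V m K) : AEMeasurable (fun p : Euc k × L k => c.x p.1) V := by
  have := hV.fin
  have hS : MeasurableSet (K ×ˢ G m k) :=
    hc.cpt.isClosed.measurableSet.prod (Vf_884.measurableSet_G m k)
  rw [← Measure.restrict_eq_self_of_ae_mem hV.mem]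
  have h1 : ContinuousOn c.x K := fun z hz => (hc.hx z hz).continuousAt.continuousWithinAt
  exact (h1.comp continuousOn_fst (fun p hp => hp.1)).aemeasurable hS

theorem integrable_II {c : Ch m k} {K : Set (Euc k)} {D : Set (Euc m)}
    {V : Measure (Euc k × L k)} (hc : Ok c K D) (hV : On V m K) {g1 g2 : ℝ → ℝ} (hg : Ker g1 g2)
    (l : ℝ) : Integrable (fun p : Euc k × L k => (c.f p.1 * c.mu (c.x p.1)) *
      (-4 * g1 (Real.exp (-2 * l) * ‖c.x p.1‖ ^ 2))) V := by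
  refine hV.integrable hc.cpt ?_
  have h0 : ContinuousOn (fun p : Euc k × L k => p.1) (K ×ˢ G m k) := continuousOn_fst
  have hm : MapsTo (fun p : Euc k × L k => p.1) (K ×ˢ G m k) K := fun p hp => hp.1
  have h1 : ContinuousOn c.x K := fun z hz => (hc.hx z hz).continuousAt.continuousWithinAt
  have h2 : ContinuousOn c.f K := fun z hz => (hc.hf z hz).continuousAt.continuousWithinAt
  have h3 : ContinuousOn (fun z => c.mu (c.x z)) K := hc.cmu.comp h1 hc.mem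
  have h4 : ContinuousOn (fun z => g1 (Real.exp (-2 * l) * ‖c.x z‖ ^ 2)) K :=
    hg.continuous.comp_continuousOn ((h1.norm.pow 2).const_mul _)
  exact ((h2.mul h3).mul (h4.const_mul _)).comp h0 hm

/-- **(E) at a change of frame.** -/
theorem block_EE {K : Set (Euc k)} (hK : IsCompact K) (hK1 : K ⊆ tube π ρ x r w)
    (hK2 : K ⊆ tube (rπ π ρ q H) (rρ π ρ q H') x r' w') {V : Measure (Euc k × L k)}
    (hV : On V m K) (hN : Near π ρ x q H H' r r' w w' X0 X0' R V) {g g1 : ℝ → ℝ}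
    (hg : Ker g g1) {G1 : ℝ} (hG : ∀ t, 0 ≤ t → |g1 t| ≤ G1) (Q : ℝ) {l : ℝ}
    (hb : 2 * ‖psi q H w X0 - X0'‖ ≤ σ * Real.exp l) (hl : (1 + 3 * σ) * Real.exp l ≤ R)
    (hτ0 : ∀ᵐ p ∂V, 0 ≤ (ch π ρ x r w X0).tau p.1 p.2) {e2 : Measure (Euc m)}
    (hfin : e2 (closedBall 0 ((1 + 3 * σ) * Real.exp l)) ≠ ⊤)
    (habs : ∀ f : Euc m → ℝ, Measurable f → (∃ C, ∀ v, |f v| ≤ C) →
      (∀ v ∉ closedBall (0 : Euc m) ((1 + 3 * σ) * Real.exp l), f v = 0) →
      |∫ p, f ((ch π ρ x r w X0).x p.1) * (1 - (ch π ρ x r w X0).tau p.1 p.2 / 2) ∂V -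
        Q * ∫ v, f v * (ch π ρ x r w X0).j v| ≤ ∫ v, |f v| ∂e2) :
    |GL_394.EE (ch (rπ π ρ q H) (rρ π ρ q H') x r' w' X0') V g Q l -
      GL_394.EE (ch π ρ x r w X0) V g Q l| ≤ 12 * G1 * σ * (Real.exp ((2 - m) * l) *
      (e2.real (closedBall 0 ((1 + 3 * σ) * Real.exp l)) +
        (1 / 2) * ∫ p in {p | ‖(ch π ρ x r w X0).x p.1‖ ≤ (1 + 3 * σ) * Real.exp l},
          (ch π ρ x r w X0).tau p.1 p.2 ∂V)) := by
  have := hV.fin
  obtain ⟨O, B, hL⟩ := exists_Lin (h.gr.d1 X0) (h.gr'.d1 X0')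
  have hB := h.blk hL hN
  have ok1 := h.gr.ok h.fr X0 hK hK1
  have ok2 := h.gr'.ok (frame_rot h.fr h.same.rt) X0' hK hK2
  have hb' : ‖thn q H w X0 X0' B 0‖ ≤ σ * Real.exp l := by
    refine (norm_thn_zero hL (h.gr'.d1 X0')).trans (le_trans ?_ hb)
    exact mul_le_mul_of_nonneg_right (by norm_num) (norm_nonneg _)
  exact hB.EE_sub_le hg (h.aem ok1 hV) (h.aem ok2 hV) Q hb' hl hG hτ0
    (hV.integrable hK ok1.ctau) hfin habs

/-- **(I) at a change of frame.** -/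
theorem block_II {K : Set (Euc k)} (hK : IsCompact K) (hK1 : K ⊆ tube π ρ x r w)
    (hK2 : K ⊆ tube (rπ π ρ q H) (rρ π ρ q H') x r' w') {V : Measure (Euc k × L k)}
    (hV : On V m K) (hN : Near π ρ x q H H' r r' w w' X0 X0' R V) {g1 g2 : ℝ → ℝ}
    (hg : Ker g1 g2) {G1 G2 : ℝ} (hG1 : ∀ t, 0 ≤ t → |g1 t| ≤ G1)
    (hG2 : ∀ t, 0 ≤ t → |g2 t| ≤ G2) {l : ℝ}
    (hb : 2 * ‖psi q H w X0 - X0'‖ ≤ σ * Real.exp l) (hl : (1 + 3 * σ) * Real.exp l ≤ R) :
    |GL_394.II (ch (rπ π ρ q H) (rρ π ρ q H') x r' w' X0') V g1 l -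
      GL_394.II (ch π ρ x r w X0) V g1 l| ≤ (64 * G1 + 72 * G2) * σ * (Real.exp (-m * l) *
      ∫ p in {p | ‖(ch π ρ x r w X0).x p.1‖ ≤ (1 + 3 * σ) * Real.exp l},
        (ch π ρ x r w X0).f p.1 ∂V) := by
  have := hV.fin
  have hr := h.gr.pos
  have hs0 := h.s0
  obtain ⟨O, B, hL⟩ := exists_Lin (h.gr.d1 X0) (h.gr'.d1 X0')
  have hB := h.blk hL hN
  have ok1 := h.gr.ok h.fr X0 hK hK1
  have ok2 := h.gr'.ok (frame_rot h.fr h.same.rt) X0' hK hK2
  have hb' : ‖thn q H w X0 X0' B 0‖ ≤ σ * Real.exp l := by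
    refine (norm_thn_zero hL (h.gr'.d1 X0')).trans (le_trans ?_ hb)
    exact mul_le_mul_of_nonneg_right (by norm_num) (norm_nonneg _)
  have hc : 1 / (30 * r) * Real.exp l ≤ 1 := by
    have h1 : Real.exp l ≤ 15 * r := by
      have he := Real.exp_pos l
      have : Real.exp l ≤ (1 + 3 * σ) * Real.exp l := by nlinarith
      exact this.trans (hl.trans h.Rr)
    rw [div_mul_eq_mul_div, one_mul, div_le_one (by positivity)]
    linarith
  have hfc : ContinuousOn (fun p : Euc k × L k => (ch π ρ x r w X0).f p.1) (K ×ˢ G m k) := by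
    have h2 : ContinuousOn (ch π ρ x r w X0).f K := fun z hz =>
      (ok1.hf z hz).continuousAt.continuousWithinAt
    exact h2.comp continuousOn_fst fun p hp => hp.1
  refine hB.II_sub_le (h.blkG hL) hg hG1 hG2 hb' hc hl (h.aem ok1 hV) (h.integrable_II ok1 hV hg l)
    (h.integrable_II ok2 hV hg l) (fun p => ?_) (hV.integrable hK hfc).integrableOn
  show 0 ≤ ‖Bt π ρ w (foot π ρ x r w p.1) (yy π ρ x r w p.1)‖ ^ 2 / 2
  positivity

end Two

end Crest.Agent.R234.Swb_159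
end
end

-- ▼ part R234/Swb7_159

/-!
# Row 234, F6-BLOCK (helper159), part 7: `Same` in ambient scale from the zoomed rotation
-/

set_option autoImplicit false
set_option linter.unusedSectionVars false

open MeasureTheory Set Metric Filter Topology
open Crest.GeometryTopology.Submanifold
open scoped ENNReal NNReal ContDiff RealInnerProductSpace

noncomputable section

namespace Crest.Agent.R234.Swb_159

open Crest.Agent.R234.Ell1_3 Crest.Agent.R234.Main_456 Crest.Agent.R234.Grot_842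

local notation "adj" => ContinuousLinearMap.adjoint

variable {m n : ℕ} {q : Euc m →L[ℝ] Euc n} {H : Euc m →L[ℝ] Euc m} {H' : Euc n →L[ℝ] Euc n}

/-- the function in ambient scale -/
def amb (S : ℝ) (u : Euc m → Euc n) (X : Euc m) : Euc n := S • u (S⁻¹ • X)

theorem differentiable_amb {S : ℝ} {u : Euc m → Euc n} (hu : Differentiable ℝ u) :
    Differentiable ℝ (amb S u) :=
  (hu.comp (differentiable_id.const_smul S⁻¹)).const_smul S

theorem fderiv_amb {S : ℝ} (hS : S ≠ 0) {u : Euc m → Euc n} (hu : Differentiable ℝ u)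
    (X : Euc m) : fderiv ℝ (amb S u) X = fderiv ℝ u (S⁻¹ • X) := by
  have h1 : HasFDerivAt (fun X : Euc m => S⁻¹ • X) (S⁻¹ • ContinuousLinearMap.id ℝ (Euc m)) X :=
    (hasFDerivAt_id X).const_smul S⁻¹
  have h2 : HasFDerivAt (amb S u) (S • (fderiv ℝ u (S⁻¹ • X) ∘L
      (S⁻¹ • ContinuousLinearMap.id ℝ (Euc m)))) X :=
    ((hu _).hasFDerivAt.comp X h1).const_smul S
  rw [h2.fderiv]
  ext1 v
  simp only [_root_.smul_apply, ContinuousLinearMap.comp_apply, ContinuousLinearMap.id_apply,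
    map_smul, smul_smul, mul_inv_cancel₀ hS, one_smul]

/-- the region on which the two descriptions are known to agree -/
def reg (q : Euc m →L[ℝ] Euc n) (H : Euc m →L[ℝ] Euc m) (u : Euc m → Euc n) (X0 : Euc m)
    (t S R R' : ℝ) : Set (Euc m) :=
  {X | t⁻¹ • (S⁻¹ • X - X0) ∈ ball (0 : Euc m) R ∧
    (t * S)⁻¹ • psi q H (amb S u) X ∈ ball (0 : Euc m) R'}

theorem isOpen_reg {u : Euc m → Euc n} (du : Differentiable ℝ u) (X0 : Euc m)
    (t S R R' : ℝ) : IsOpen (reg q H u X0 t S R R') := by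
  have hc1 : Continuous (amb S u) := (differentiable_amb du).continuous
  have h1 : Continuous fun X : Euc m => t⁻¹ • (S⁻¹ • X - X0) :=
    ((continuous_id.const_smul S⁻¹).sub continuous_const).const_smul t⁻¹
  have h2' : Continuous (psi q H (amb S u)) :=
    H.continuous.comp (continuous_id.add ((adj q).continuous.comp hc1))
  have h2 : Continuous fun X : Euc m => (t * S)⁻¹ • psi q H (amb S u) X :=
    h2'.const_smul (t * S)⁻¹
  have e : reg q H u X0 t S R R' =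
      (fun X : Euc m => t⁻¹ • (S⁻¹ • X - X0)) ⁻¹' ball (0 : Euc m) R ∩
        (fun X : Euc m => (t * S)⁻¹ • psi q H (amb S u) X) ⁻¹' ball (0 : Euc m) R' := rfl
  rw [e]
  have h3 := (isOpen_ball (x := (0 : Euc m)) (ε := R)).preimage h1
  have h4 := (isOpen_ball (x := (0 : Euc m)) (ε := R')).preimage h2
  exact h3.inter h4

/-- **`Same` from the forward relation of the zoomed rotation** (`X0` = foot of the base point). -/
theorem same_of_fwd {u u' : Euc m → Euc n} {X0 : Euc m} {c : Euc n} {t R R' S : ℝ} (ht : 0 < t)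
    (hS : 0 < S) (rt : Rt q H H') (du : Differentiable ℝ u) (du' : Differentiable ℝ u')
    (h0 : X0 + adj q (u X0) = 0) (hc : c = t⁻¹ • H' (u X0 - q X0))
    (fwd : ∀ a ∈ ball (0 : Euc m) R, ∀ y ∈ ball (0 : Euc m) R',
      H (t • a + adj q (u (X0 + t • a) - u X0)) = t • y →
      u' y - c = t⁻¹ • H' ((u (X0 + t • a) - u X0) - q (t • a))) :
    Same q H H' (amb S u) (amb (t * S) u') (reg q H u X0 t S R R') where
  rt := rt
  opn := isOpen_reg du X0 t S R R'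
  dw := differentiable_amb du
  dw' := differentiable_amb du'
  rel := by
    rintro X ⟨h1, h2⟩
    have hS0 := hS.ne'
    have ht0 := ht.ne'
    set a := t⁻¹ • (S⁻¹ • X - X0) with ha
    set y := (t * S)⁻¹ • psi q H (amb S u) X with hy
    have ea : t • a = S⁻¹ • X - X0 := by rw [ha, smul_smul, mul_inv_cancel₀ ht0, one_smul]
    have eX : X0 + t • a = S⁻¹ • X := by rw [ea]; abel
    have ePsi : psi q H (amb S u) X = S • H (S⁻¹ • X + adj q (u (S⁻¹ • X))) := by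
      unfold psi amb
      rw [← map_smul, smul_add, smul_smul, mul_inv_cancel₀ hS0, one_smul, map_smul]
    have e1 : H (t • a + adj q (u (X0 + t • a) - u X0)) = t • y := by
      have e2 : t • a + adj q (u (X0 + t • a) - u X0) = S⁻¹ • X + adj q (u (S⁻¹ • X)) := by
        rw [eX, ea, map_sub]
        have : S⁻¹ • X - X0 + (adj q (u (S⁻¹ • X)) - adj q (u X0)) =
          S⁻¹ • X + adj q (u (S⁻¹ • X)) - (X0 + adj q (u X0)) := by abel
        rw [this, h0, sub_zero]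
      rw [e2, hy, ePsi, smul_smul, smul_smul]
      have : t * (t * S)⁻¹ * S = 1 := by field_simp
      rw [this, one_smul]
    have h3 := fwd a h1 y h2 e1
    have h4 : u' y = t⁻¹ • H' (u (S⁻¹ • X) - q (S⁻¹ • X)) := by
      have h5 : u' y = c + t⁻¹ • H' ((u (X0 + t • a) - u X0) - q (t • a)) := by
        rw [← h3]; abel
      rw [h5, hc, ← smul_add, ← map_add, eX, ea]
      congr 2
      rw [map_sub]; abel
    have h6 : amb (t * S) u' (psi q H (amb S u) X) = (t * S) • u' y := rfl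
    rw [h6, h4, smul_smul]
    have h7 : t * S * t⁻¹ = S := by field_simp
    rw [h7]
    unfold amb
    rw [← map_smul, smul_sub]
    congr 2
    rw [← map_smul, smul_smul, mul_inv_cancel₀ hS0, one_smul]

/-- a ball inside the region -/
theorem closedBall_subset_reg {u : Euc m → Euc n} {X0 : Euc m} {t R R' S b : ℝ} (ht : 0 < t)
    (hS : 0 < S) (rt : Rt q H H') (h1 : b + S * ‖X0‖ < t * S * R)
    (h2 : ∀ X, ‖X‖ ≤ b → b + ‖q‖ * ‖amb S u X‖ < t * S * R') :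
    closedBall (0 : Euc m) b ⊆ reg q H u X0 t S R R' := by
  intro X hX
  rw [mem_closedBall_zero_iff] at hX
  constructor
  · rw [mem_ball_zero_iff, norm_smul, norm_inv, Real.norm_of_nonneg ht.le, inv_mul_lt_iff₀ ht]
    have e : S * ‖S⁻¹ • X - X0‖ ≤ b + S * ‖X0‖ := by
      have h3 : ‖S⁻¹ • X - X0‖ ≤ S⁻¹ * ‖X‖ + ‖X0‖ := by
        refine (norm_sub_le _ _).trans ?_
        rw [norm_smul, norm_inv, Real.norm_of_nonneg hS.le]
      calc S * ‖S⁻¹ • X - X0‖ ≤ S * (S⁻¹ * ‖X‖ + ‖X0‖) := mul_le_mul_of_nonneg_left h3 hS.le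
        _ = ‖X‖ + S * ‖X0‖ := by field_simp
        _ ≤ _ := by linarith
    have h4 : S * ‖S⁻¹ • X - X0‖ < S * (t * R) := by
      calc _ ≤ b + S * ‖X0‖ := e
        _ < t * S * R := h1
        _ = _ := by ring
    exact lt_of_mul_lt_mul_left h4 hS.le
  · have hts : 0 < t * S := by positivity
    rw [mem_ball_zero_iff, norm_smul, norm_inv, Real.norm_of_nonneg hts.le,
      inv_mul_lt_iff₀ hts]
    refine lt_of_le_of_lt ?_ (h2 X hX)
    unfold psi
    refine (rt.le _).trans ((norm_add_le _ _).trans (add_le_add hX ?_))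
    refine (ContinuousLinearMap.le_opNorm _ _).trans ?_
    rw [LinearIsometryEquiv.norm_map]

/-- the centre: `psi 0 = H (q† (w 0))` -/
theorem norm_psi_zero (rt : Rt q H H') (w : Euc m → Euc n) :
    ‖psi q H w 0‖ ≤ ‖q‖ * ‖w 0‖ := by
  unfold psi
  rw [zero_add]
  refine (rt.le _).trans ((ContinuousLinearMap.le_opNorm _ _).trans ?_)
  rw [LinearIsometryEquiv.norm_map]

end Crest.Agent.R234.Swb_159
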