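import Crest.Agent.R234.Vf0_884

-- ▼ part R234/Vf1_884
section

/-!
Row 234, base library (helper884), file 1: the general varifold `VD D` of the frozen
`VarifoldData`, its mass measure `weight D`, its first variation, stationarity.
-/

set_option autoImplicit false

open MeasureTheory Crest.GeometryTopology.Submanifold
open scoped ENNReal InnerProductSpace

noncomputable section

namespace Crest.Agent.R234.Vf_884

variable {m k : ℕ}

section Proj

variable {f : Euc m → Euc k} {a : Euc m}

theorem sum_smul_pd (f : Euc m → Euc k) (a : Euc m) (c : Euc m) :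
    ∑ i, c i • pd f a i = fderiv ℝ f a c := by
  unfold pd
  have h : c = ∑ i, c i • stdVec m i := by
    ext j
    simp [stdVec, Pi.single_apply]
  conv_rhs => rw [h, map_sum]
  simp_rw [map_smul]

theorem tangentAt_eq_range (f : Euc m → Euc k) (a : Euc m) :
    tangentAt f a = LinearMap.range (fderiv ℝ f a).toLinearMap := by
  refine le_antisymm ?_ ?_
  · refine Submodule.span_le.2 ?_
    rintro _ ⟨i, rfl⟩
    exact ⟨stdVec m i, rfl⟩
  · rintro _ ⟨c, rfl⟩
    change fderiv ℝ f a c ∈ tangentAt f a
    rw [← sum_smul_pd]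
    exact Submodule.sum_mem _ fun i _ => Submodule.smul_mem _ _ (Submodule.subset_span ⟨i, rfl⟩)

theorem finrank_tangentAt (h : Function.Injective (fderiv ℝ f a)) :
    Module.finrank ℝ (tangentAt f a) = m := by
  rw [tangentAt_eq_range, LinearMap.finrank_range_of_inj h]
  simp

theorem metricMat_mulVec (f : Euc m → Euc k) (a : Euc m) (c : Fin m → ℝ) (i : Fin m) :
    (metricMat f a).mulVec c i = ⟪pd f a i, ∑ j, c j • pd f a j⟫_ℝ := by
  rw [inner_sum, Matrix.mulVec, dotProduct]
  refine Finset.sum_congr rfl fun j _ => ?_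
  rw [inner_smul_right, metricMat, Matrix.of_apply, mul_comm]

theorem det_metricMat_ne_zero (h : Function.Injective (fderiv ℝ f a)) :
    (metricMat f a).det ≠ 0 := by
  intro h0
  obtain ⟨c, hc, hc0⟩ := Matrix.exists_mulVec_eq_zero_iff.2 h0
  set c' : Euc m := WithLp.toLp 2 c with hc'
  have h1 : ⟪∑ j, c j • pd f a j, ∑ j, c j • pd f a j⟫_ℝ = 0 := by
    rw [sum_inner]
    refine Finset.sum_eq_zero fun i _ => ?_
    rw [inner_smul_left, ← metricMat_mulVec, hc0]
    simp
  have h2 : fderiv ℝ f a c' = 0 := by
    rw [← sum_smul_pd]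
    exact inner_self_eq_zero.1 h1
  have h3 : c' = 0 := h (by rw [h2, map_zero])
  apply hc
  funext i
  have := congrArg (fun v : Euc m => v i) h3
  simpa [hc'] using this


/-- the projection onto the tangent space of the chart. -/
def projF (f : Euc m → Euc k) (a : Euc m) : L k := (tangentAt f a).starProjection

/-- explicit formula for the projection. -/
def projG (f : Euc m → Euc k) (a : Euc m) : L k :=
  ∑ i, ∑ j, (metricMat f a)⁻¹ i j • (innerSL ℝ (pd f a i)).smulRight (pd f a j)

theorem projG_apply (f : Euc m → Euc k) (a : Euc m) (v : Euc k) :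
    projG f a v = ∑ i, ∑ j, (metricMat f a)⁻¹ i j • (⟪pd f a i, v⟫_ℝ • pd f a j) := by
  simp [projG]

theorem projF_eq (h : (metricMat f a).det ≠ 0) : projF f a = projG f a := by
  ext1 v
  unfold projF
  refine Submodule.eq_starProjection_of_mem_orthogonal (K := tangentAt f a) ?_ ?_
  · rw [projG_apply]
    exact Submodule.sum_mem _ fun i _ => Submodule.sum_mem _ fun j _ =>
      Submodule.smul_mem _ _ (Submodule.smul_mem _ _ (Submodule.subset_span ⟨j, rfl⟩))
  · rw [Submodule.mem_orthogonal]
    intro u hu
    refine Submodule.span_induction (p := fun u _ => ⟪u, v - projG f a v⟫_ℝ = 0) ?_ ?_ ?_ ?_ hu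
    · rintro _ ⟨l, rfl⟩
      rw [inner_sub_right, projG_apply, inner_sum]
      have h1 : ∀ i, ⟪pd f a l, ∑ j, (metricMat f a)⁻¹ i j • (⟪pd f a i, v⟫_ℝ • pd f a j)⟫_ℝ
          = ⟪pd f a i, v⟫_ℝ * ((metricMat f a)⁻¹ * metricMat f a) i l := by
        intro i
        rw [inner_sum, Matrix.mul_apply, Finset.mul_sum]
        refine Finset.sum_congr rfl fun j _ => ?_
        rw [inner_smul_right, inner_smul_right, metricMat, Matrix.of_apply,
          real_inner_comm (pd f a l) (pd f a j)]
        ring
      simp_rw [h1, Matrix.nonsing_inv_mul _ (isUnit_iff_ne_zero.2 h)]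
      simp [Matrix.one_apply]
    · simp
    · intro x y _ _ hx hy
      rw [inner_add_left, hx, hy, add_zero]
    · intro c x _ hx
      rw [inner_smul_left, hx, mul_zero]

theorem continuous_pd (hf : ContDiff ℝ 1 f) (i : Fin m) : Continuous fun a => pd f a i :=
  (hf.continuous_fderiv one_ne_zero).clm_apply continuous_const

theorem continuous_metricMat (hf : ContDiff ℝ 1 f) : Continuous fun a => metricMat f a :=
  continuous_matrix fun i j => (continuous_pd hf i).inner (continuous_pd hf j)

theorem continuousOn_projF (hf : ContDiff ℝ 1 f) :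
    ContinuousOn (projF f) {a | (metricMat f a).det ≠ 0} := by
  have h1 : ContinuousOn (fun a => (metricMat f a)⁻¹) {a | (metricMat f a).det ≠ 0} := by
    have h2 : ContinuousOn (fun a => ((metricMat f a).det)⁻¹ • (metricMat f a).adjugate)
        {a | (metricMat f a).det ≠ 0} := by
      exact ((continuous_metricMat hf).matrix_det.continuousOn.inv₀ fun a ha => ha).fun_smul
        (continuous_metricMat hf).matrix_adjugate.continuousOn
    refine h2.congr fun a ha => ?_
    simp only
    rw [Matrix.inv_def, Ring.inverse_eq_inv']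
  have h3 : ContinuousOn (projG f) {a | (metricMat f a).det ≠ 0} := by
    unfold projG
    refine continuousOn_finsetSum _ fun i _ => continuousOn_finsetSum _ fun j _ => ?_
    refine ContinuousOn.fun_smul ?_ (Continuous.continuousOn ?_)
    · exact (continuous_apply_apply i j).comp_continuousOn h1
    · have h4 : Continuous fun p : (Euc k →L[ℝ] ℝ) × Euc k => p.1.smulRight p.2 := by
        exact (ContinuousLinearMap.smulRightL ℝ (Euc k) (Euc k)).continuous₂
      exact h4.comp (((innerSL ℝ).continuous.comp (continuous_pd hf i)).prodMk (continuous_pd hf j))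
  exact h3.congr fun a ha => projF_eq ha

theorem projF_mem_G (h : Function.Injective (fderiv ℝ f a)) : projF f a ∈ G m k :=
  starProjection_mem_G _ (finrank_tangentAt h)

theorem continuous_jac (hf : ContDiff ℝ 1 f) : Continuous (jac f) :=
  ((continuous_metricMat hf).matrix_det).sqrt

end Proj

end Crest.Agent.R234.Vf_884
end
end

-- ▼ part R234/Vf2_884

/-!
Row 234, base library (helper884), file 2: the general varifold `VD D` of the frozen
`VarifoldData`, its mass measure `weight D`, its first variation, stationarity.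
-/

set_option autoImplicit false

open MeasureTheory Crest.GeometryTopology.Submanifold
open scoped ENNReal InnerProductSpace

noncomputable section

namespace Crest.Agent.R234.Vf_884

variable {m k : ℕ}

/-- density on the `i`-th parameter domain. -/
def dens (D : VarifoldData m k) (i : ℕ) (a : Euc m) : ℝ≥0∞ :=
  ENNReal.ofReal ((D.mult i a : ℝ) * jac (D.chart i) a)

/-- the weighted Lebesgue measure on the `i`-th parameter domain. -/
def base (D : VarifoldData m k) (i : ℕ) : Measure (Euc m) :=
  (volume.restrict (D.dom i)).withDensity (dens D i)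

/-- point and tangent plane. -/
def lift (D : VarifoldData m k) (i : ℕ) (a : Euc m) : Euc k × L k :=
  (D.chart i a, projF (D.chart i) a)

/-- the general varifold of the data. -/
def VD (D : VarifoldData m k) : Measure (Euc k × L k) :=
  Measure.sum fun i => (base D i).map (lift D i)

variable {U : Set (Euc k)} {D : VarifoldData m k}

theorem measurable_dens (hD : IsIntegralVarifoldIn U D) (i : ℕ) : Measurable (dens D i) := by
  have h1 : Measurable fun a => ((D.mult i a : ℕ) : ℝ) :=
    (measurable_of_countable (fun n : ℕ => (n : ℝ))).comp (hD.measurable_mult i)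
  exact (h1.mul (continuous_jac (hD.contDiff i)).measurable).ennreal_ofReal

theorem dom_subset (hD : IsIntegralVarifoldIn U D) (i : ℕ) :
    D.dom i ⊆ {a | (metricMat (D.chart i) a).det ≠ 0} := fun a ha =>
  det_metricMat_ne_zero (hD.injective_fderiv i a ha)

theorem base_ac (D : VarifoldData m k) (i : ℕ) : base D i ≪ volume.restrict (D.dom i) :=
  withDensity_absolutelyContinuous _ _

theorem aemeasurable_lift (hD : IsIntegralVarifoldIn U D) (i : ℕ) :
    AEMeasurable (lift D i) (base D i) := by
  refine AEMeasurable.mono_ac ?_ (base_ac D i)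
  refine (hD.contDiff i).continuous.measurable.aemeasurable.prodMk ?_
  exact ((continuousOn_projF (hD.contDiff i)).mono (dom_subset hD i)).aemeasurable
    (hD.measurableSet i)

theorem VD_fst (hD : IsIntegralVarifoldIn U D) : (VD D).map Prod.fst = weight D := by
  unfold VD weight
  rw [Measure.map_sum measurable_fst.aemeasurable]
  congr 1
  funext i
  rw [AEMeasurable.map_map_of_aemeasurable measurable_fst.aemeasurable (aemeasurable_lift hD i)]
  rfl

theorem VD_prod_univ (hD : IsIntegralVarifoldIn U D) {K : Set (Euc k)} (hK : MeasurableSet K) :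
    VD D (K ×ˢ Set.univ) = weight D K := by
  rw [← VD_fst hD, Measure.map_apply measurable_fst hK]
  congr 1
  ext p
  simp

theorem base_ae_dom (hD : IsIntegralVarifoldIn U D) (i : ℕ) : ∀ᵐ a ∂(base D i), a ∈ D.dom i :=
  (base_ac D i).ae_le (ae_restrict_mem (hD.measurableSet i))

theorem VD_conc (hD : IsIntegralVarifoldIn U D) : ∀ᵐ p ∂(VD D), p.2 ∈ G m k := by
  refine Measure.ae_sum_iff.2 fun i => ?_
  refine (ae_map_iff (aemeasurable_lift hD i) (measurable_snd (measurableSet_G m k))).2 ?_
  filter_upwards [base_ae_dom hD i] with a ha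
  exact projF_mem_G (hD.injective_fderiv i a ha)


theorem integral_VD (hD : IsIntegralVarifoldIn U D) {F : Euc k × L k → ℝ}
    (hF : Integrable F (VD D)) : ∫ p, F p ∂(VD D) =
      ∑' i, ∫ a in D.dom i, (D.mult i a : ℝ) * jac (D.chart i) a * F (lift D i a) := by
  have hF' : Integrable F (Measure.sum fun i => (base D i).map (lift D i)) := hF
  unfold VD
  rw [integral_sum_measure hF']
  congr 1
  funext i
  have h1 : Integrable F ((base D i).map (lift D i)) :=
    hF'.mono_measure (Measure.le_sum (fun i => (base D i).map (lift D i)) i)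
  rw [integral_map (aemeasurable_lift hD i) h1.aestronglyMeasurable]
  unfold base
  rw [integral_withDensity_eq_integral_toReal_smul (measurable_dens hD i)]
  · refine integral_congr_ae (Filter.Eventually.of_forall fun a => ?_)
    simp only [dens, smul_eq_mul]
    rw [ENNReal.toReal_ofReal]
    exact mul_nonneg (Nat.cast_nonneg _) (Real.sqrt_nonneg _)
  · exact Filter.Eventually.of_forall fun a => ENNReal.ofReal_lt_top

theorem VD_fin (hD : IsIntegralVarifoldIn U D) {K : Set (Euc k)} (hK : IsCompact K)
    (hKU : K ⊆ U) : VD D (K ×ˢ Set.univ) < ⊤ := by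
  rw [VD_prod_univ hD hK.measurableSet]
  exact hD.locallyFinite K hK hKU

/-- integrability of continuous test functions of compact support in the point variable. -/
theorem integrable_of_cont {V : Measure (Euc k × L k)} (hc : ∀ᵐ p ∂V, p.2 ∈ G m k)
    {K : Set (Euc k)} (hK : IsCompact K) (hV : V (K ×ˢ Set.univ) < ⊤)
    {F : Euc k × L k → ℝ} (hF : Continuous F) (h0 : ∀ p, p.1 ∉ K → F p = 0) :
    Integrable F V := by
  obtain ⟨C, hC⟩ : ∃ C, ∀ p ∈ K ×ˢ G m k, ‖F p‖ ≤ C :=
    (hK.prod (isCompact_G m k)).exists_bound_of_continuousOn hF.continuousOn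
  have h1 : IntegrableOn F (K ×ˢ Set.univ) V := by
    refine IntegrableOn.of_bound hV hF.aestronglyMeasurable C ?_
    filter_upwards [ae_restrict_of_ae hc,
      ae_restrict_mem (hK.measurableSet.prod MeasurableSet.univ)] with p hp hp2
    exact hC p ⟨hp2.1, hp⟩
  refine (integrableOn_iff_integrable_of_support_subset ?_).1 h1
  intro p hp
  by_contra hcon
  exact hp (h0 p fun h => hcon ⟨h, trivial⟩)

theorem integrable_fv {V : Measure (Euc k × L k)} (hc : ∀ᵐ p ∂V, p.2 ∈ G m k)
    {X : Euc k → Euc k} (hX : ContDiff ℝ 1 X) (hXc : HasCompactSupport X)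
    (hV : V (tsupport X ×ˢ Set.univ) < ⊤) :
    Integrable (fun p : Euc k × L k => tr ((fderiv ℝ X p.1) ∘L p.2)) V := by
  refine integrable_of_cont hc hXc hV ?_ fun p hp => ?_
  · exact tr.continuous.comp (((hX.continuous_fderiv one_ne_zero).comp continuous_fst).clm_comp
      continuous_snd)
  · have h1 : fderiv ℝ X p.1 = 0 := by
      by_contra h
      exact hp (support_fderiv_subset ℝ h)
    rw [h1, ContinuousLinearMap.zero_comp, map_zero]

theorem firstVariation_eq (hD : IsIntegralVarifoldIn U D) {X : Euc k → Euc k}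
    (hX : ContDiff ℝ 1 X) (hXc : HasCompactSupport X) (hXU : tsupport X ⊆ U) :
    firstVariation D X = ∫ p, tr ((fderiv ℝ X p.1) ∘L p.2) ∂(VD D) := by
  rw [integral_VD hD (integrable_fv (VD_conc hD) hX hXc (VD_fin hD hXc hXU))]
  rfl

/-- the varifold of stationary data is stationary. -/
theorem stat_VD (hD : IsIntegralVarifoldIn U D) (hs : IsStationaryIn U D) :
    Stat m k U (VD D) where
  conc := VD_conc hD
  fin _ hK hKU := VD_fin hD hK hKU
  stat X hX hXc hXU := by
    rw [← firstVariation_eq hD hX hXc hXU]
    exact hs X hX hXc hXU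

end Crest.Agent.R234.Vf_884
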