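import Crest.Prelude.Def_Varifold
import Crest.Agent.R234.Vf2_884
import Mathlib
import Crest.Prelude.Def_Submanifold
import Crest.Agent.R234.Vf3_884

-- ▼ part R234/Pr1_937
section

/-!
Row 234, VF-PROD (helper937), file 1: the splitting `Euc (k+1) = ℝ × Euc k`.
-/

set_option autoImplicit false

open MeasureTheory Crest.GeometryTopology.Submanifold
open scoped ENNReal InnerProductSpace

noncomputable section

namespace Crest.Agent.R234.Pr_937

variable {k : ℕ}

/-- horizontal embedding. -/
def emb (k : ℕ) : Euc k →L[ℝ] Euc (k + 1) :=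
  LinearMap.toContinuousLinearMap
    { toFun := fun x => WithLp.toLp 2 (Fin.cons 0 (fun i => x i) : Fin (k + 1) → ℝ)
      map_add' := fun x y => by
        ext i
        refine Fin.cases ?_ (fun j => ?_) i <;> simp
      map_smul' := fun c x => by
        ext i
        refine Fin.cases ?_ (fun j => ?_) i <;> simp }

/-- vertical unit vector. -/
def e (k : ℕ) : Euc (k + 1) := EuclideanSpace.single 0 1

/-- projection to the base. -/
def pr (k : ℕ) : Euc (k + 1) →L[ℝ] Euc k :=
  LinearMap.toContinuousLinearMap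
    { toFun := fun x => WithLp.toLp 2 (fun i => x i.succ)
      map_add' := fun x y => by ext i; simp
      map_smul' := fun c x => by ext i; simp }

/-- height. -/
def ht (k : ℕ) : Euc (k + 1) →L[ℝ] ℝ :=
  LinearMap.toContinuousLinearMap
    { toFun := fun x => x 0
      map_add' := fun x y => by simp
      map_smul' := fun c x => by simp }

@[simp] theorem emb_zero (x : Euc k) : emb k x 0 = 0 := rfl
@[simp] theorem emb_succ (x : Euc k) (i : Fin k) : emb k x i.succ = x i := rfl
@[simp] theorem e_zero : e k 0 = 1 := by simp [e]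
@[simp] theorem e_succ (i : Fin k) : e k i.succ = 0 := by simp [e]
@[simp] theorem pr_apply (x : Euc (k + 1)) (i : Fin k) : pr k x i = x i.succ := rfl
theorem ht_apply (x : Euc (k + 1)) : ht k x = x 0 := rfl

@[simp] theorem pr_emb (x : Euc k) : pr k (emb k x) = x := by ext i; simp
@[simp] theorem pr_e : pr k (e k) = 0 := by ext i; simp
@[simp] theorem ht_emb (x : Euc k) : ht k (emb k x) = 0 := rfl
@[simp] theorem ht_e : ht k (e k) = 1 := by simp [ht_apply]

theorem split (w : Euc (k + 1)) : ht k w • e k + emb k (pr k w) = w := by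
  ext i
  refine Fin.cases ?_ (fun j => ?_) i <;> simp [ht_apply]

/-- the product map. -/
def J (k : ℕ) (p : ℝ × Euc k) : Euc (k + 1) := p.1 • e k + emb k p.2

@[simp] theorem pr_J (p : ℝ × Euc k) : pr k (J k p) = p.2 := by simp [J]
@[simp] theorem ht_J (p : ℝ × Euc k) : ht k (J k p) = p.1 := by simp [J]
theorem J_split (w : Euc (k + 1)) : J k (ht k w, pr k w) = w := split w

theorem J_eq (p : ℝ × Euc k) :
    J k p = WithLp.toLp 2 (Fin.cons p.1 (fun i => p.2 i) : Fin (k + 1) → ℝ) := by
  ext i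
  refine Fin.cases ?_ (fun j => ?_) i <;> simp [J]

theorem continuous_J : Continuous (J k) := by
  unfold J
  fun_prop

theorem norm_sq_J (p : ℝ × Euc k) : ‖J k p‖ ^ 2 = p.1 ^ 2 + ‖p.2‖ ^ 2 := by
  rw [J_eq, EuclideanSpace.real_norm_sq_eq, EuclideanSpace.real_norm_sq_eq, Fin.sum_univ_succ]
  simp

theorem inner_J (p q : ℝ × Euc k) : ⟪J k p, J k q⟫_ℝ = p.1 * q.1 + ⟪p.2, q.2⟫_ℝ := by
  rw [J_eq, J_eq, PiLp.inner_apply, PiLp.inner_apply, Fin.sum_univ_succ]
  simp [mul_comm]

theorem norm_sq_split (w : Euc (k + 1)) : ‖w‖ ^ 2 = ht k w ^ 2 + ‖pr k w‖ ^ 2 := by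
  conv_lhs => rw [← J_split w]
  rw [norm_sq_J]

theorem norm_pr_le (w : Euc (k + 1)) : ‖pr k w‖ ≤ ‖w‖ := by
  have := norm_sq_split w
  nlinarith [norm_nonneg w, norm_nonneg (pr k w), sq_nonneg (ht k w)]

theorem abs_ht_le (w : Euc (k + 1)) : |ht k w| ≤ ‖w‖ := by
  have := norm_sq_split w
  refine abs_le_of_sq_le_sq ?_ (norm_nonneg _)
  nlinarith [sq_nonneg ‖pr k w‖]

theorem J_sub (p q : ℝ × Euc k) : J k p - J k q = J k (p - q) := by
  simp only [J, Prod.fst_sub, Prod.snd_sub, map_sub, sub_smul]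
  abel

theorem volume_preserving_J : MeasurePreserving (J k) volume volume := by
  have h1 := (volume_preserving_piFinSuccAbove (fun _ : Fin (k + 1) => ℝ) 0).symm
  have h2 : MeasurePreserving (@WithLp.toLp 2 (Fin (k + 1) → ℝ)) volume volume :=
    PiLp.volume_preserving_toLp (Fin (k + 1))
  have h3 : MeasurePreserving (Prod.map (id : ℝ → ℝ) (@WithLp.ofLp 2 (Fin k → ℝ)))
      (volume.prod volume) (volume.prod volume) :=
    (MeasurePreserving.id volume).prod (PiLp.volume_preserving_ofLp (Fin k))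
  have h4 := (h2.comp h1).comp h3
  have h5 : J k = (@WithLp.toLp 2 (Fin (k + 1) → ℝ) ∘
      (MeasurableEquiv.piFinSuccAbove (fun _ : Fin (k + 1) => ℝ) 0).symm) ∘
      Prod.map (id : ℝ → ℝ) (@WithLp.ofLp 2 (Fin k → ℝ)) := by
    funext p
    rw [J_eq]
    simp only [Function.comp]
    congr 1
    funext i
    refine Fin.cases ?_ (fun j => ?_) i
    · simp [MeasurableEquiv.piFinSuccAbove]
    · simp [MeasurableEquiv.piFinSuccAbove]
  rw [h5]
  exact h4

end Crest.Agent.R234.Pr_937
end
end

-- ▼ part R234/Pr2_937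
section

/-!
Row 234, VF-PROD (helper937), file 2: the product of a general stationary varifold with a line.
-/

set_option autoImplicit false

open MeasureTheory Crest.GeometryTopology.Submanifold Crest.Agent.R234.Vf_884
open scoped ENNReal InnerProductSpace

noncomputable section

namespace Crest.Agent.R234.Pr_937

variable {m k : ℕ}

theorem stdVec_zero : stdVec (k + 1) 0 = e k := rfl

theorem stdVec_succ (j : Fin k) : stdVec (k + 1) j.succ = emb k (stdVec k j) := by
  ext i
  refine Fin.cases ?_ (fun l => ?_) i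
  · simp [stdVec]
  · simp [stdVec]


theorem inner_split (v w : Euc (k + 1)) :
    ⟪v, w⟫_ℝ = ht k v * ht k w + ⟪pr k v, pr k w⟫_ℝ := by
  conv_lhs => rw [← J_split v, ← J_split w]
  rw [inner_J]

/-- rectangular trace commutation. -/
theorem tr_rect {k l : ℕ} (A : Euc k →L[ℝ] Euc l) (B : Euc l →L[ℝ] Euc k) :
    tr (A ∘L B) = tr (B ∘L A) := by
  rw [tr_apply, tr_apply]
  exact LinearMap.trace_comp_comm' B.toLinearMap A.toLinearMap

theorem tr_smulRight (c : Euc k →L[ℝ] ℝ) (y : Euc k) : tr (c.smulRight y) = c y := by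
  rw [tr_eq_sum]
  have h : y = ∑ i, ⟪stdVec k i, y⟫_ℝ • stdVec k i := by
    ext j
    simp [stdVec, Pi.single_apply, EuclideanSpace.inner_single_left]
  conv_rhs => rw [h, map_sum]
  refine Finset.sum_congr rfl fun i _ => ?_
  rw [map_smul, smul_eq_mul, ContinuousLinearMap.smulRight_apply, inner_smul_right]
  ring

/-- the plane spanned by the line and a plane. -/
def liftP (P : L k) : L (k + 1) := (ht k).smulRight (e k) + emb k ∘L P ∘L pr k

theorem liftP_apply (P : L k) (w : Euc (k + 1)) :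
    liftP P w = ht k w • e k + emb k (P (pr k w)) := by
  simp [liftP]

theorem liftP_J (P : L k) (w : Euc (k + 1)) : liftP P w = J k (ht k w, P (pr k w)) :=
  liftP_apply P w

theorem continuous_liftP : Continuous (liftP (k := k)) := by
  unfold liftP
  fun_prop

theorem tr_comp_liftP (A : L (k + 1)) (P : L k) :
    tr (A ∘L liftP P) = ht k (A (e k)) + tr ((pr k ∘L A ∘L emb k) ∘L P) := by
  have h1 : A ∘L liftP P = (ht k).smulRight (A (e k)) + (A ∘L emb k ∘L P) ∘L pr k := by
    ext1 w
    simp [liftP]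
  rw [h1, map_add, tr_smulRight, tr_rect]
  rfl

theorem liftP_mem {P : L k} (h : P ∈ G m k) : liftP P ∈ G (m + 1) (k + 1) := by
  refine ⟨?_, ?_, ?_⟩
  · ext1 w
    rw [ContinuousLinearMap.comp_apply, liftP_J, liftP_J]
    simp [G_idem_apply h]
  · rw [ContinuousLinearMap.isSelfAdjoint_iff_isSymmetric]
    intro v w
    change ⟪liftP P v, w⟫_ℝ = ⟪v, liftP P w⟫_ℝ
    rw [inner_split, inner_split, liftP_J, liftP_J]
    simp [G_symm h]
  · have h1 := tr_comp_liftP (ContinuousLinearMap.id ℝ (Euc (k + 1))) P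
    rw [ContinuousLinearMap.id_comp] at h1
    rw [h1]
    have h2 : (pr k ∘L ContinuousLinearMap.id ℝ (Euc (k + 1)) ∘L emb k) ∘L P = P := by
      ext1 w
      simp
    rw [h2, h.2.2]
    simp
    ring

/-- the product of a general varifold with the line. -/
def lmap (q : ℝ × (Euc k × L k)) : Euc (k + 1) × L (k + 1) := (J k (q.1, q.2.1), liftP q.2.2)

theorem continuous_lmap : Continuous (lmap (k := k)) := by
  unfold lmap
  exact (continuous_J.comp (by fun_prop)).prodMk (continuous_liftP.comp (by fun_prop))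

def line (V : Measure (Euc k × L k)) : Measure (Euc (k + 1) × L (k + 1)) :=
  ((volume : Measure ℝ).prod V).map lmap

variable {U : Set (Euc k)} {V : Measure (Euc k × L k)}

theorem line_conc [SFinite V] (hV : Stat m k U V) : ∀ᵐ p ∂(line V), p.2 ∈ G (m + 1) (k + 1) := by
  unfold line
  rw [ae_map_iff continuous_lmap.measurable.aemeasurable
    (measurable_snd (measurableSet_G (m + 1) (k + 1)))]
  have h1 : ∀ᵐ q ∂((volume : Measure ℝ).prod V), q.2.2 ∈ G m k := by
    have h2 := (Measure.quasiMeasurePreserving_snd (μ := (volume : Measure ℝ)) (ν := V)).ae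
      hV.conc
    exact h2
  filter_upwards [h1] with q hq
  exact liftP_mem hq

theorem line_prod_le [SFinite V] (K : Set (Euc (k + 1))) {R : ℝ} (hK : ∀ w ∈ K, |ht k w| ≤ R)
    (hKm : MeasurableSet K) :
    line V (K ×ˢ Set.univ) ≤ ENNReal.ofReal (2 * R) * V ((pr k '' K) ×ˢ Set.univ) := by
  unfold line
  rw [Measure.map_apply continuous_lmap.measurable (hKm.prod MeasurableSet.univ)]
  have h1 : lmap ⁻¹' (K ×ˢ Set.univ) ⊆ (Set.Icc (-R) R) ×ˢ ((pr k '' K) ×ˢ (Set.univ : Set (L k))) := by
    rintro ⟨t, x, P⟩ ⟨h, -⟩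
    have h : J k (t, x) ∈ K := h
    refine ⟨?_, ⟨J k (t, x), h, by simp⟩, trivial⟩
    have := hK _ h
    rw [ht_J] at this
    exact abs_le.1 this
  refine (measure_mono h1).trans ?_
  rw [Measure.prod_prod, Real.volume_Icc]
  gcongr
  linarith

theorem line_fin [SFinite V] (hV : Stat m k U V) {K : Set (Euc (k + 1))} (hK : IsCompact K)
    (hKU : K ⊆ {w | pr k w ∈ U}) : line V (K ×ˢ Set.univ) < ⊤ := by
  obtain ⟨R, hR⟩ := hK.isBounded.exists_norm_le
  refine (line_prod_le K (R := R) (fun w hw => (abs_ht_le w).trans (hR w hw))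
    hK.measurableSet).trans_lt ?_
  refine ENNReal.mul_lt_top ENNReal.ofReal_lt_top ?_
  refine hV.fin _ (hK.image (pr k).continuous) ?_
  rintro _ ⟨w, hw, rfl⟩
  exact hKU hw

end Crest.Agent.R234.Pr_937
end
end

-- ▼ part R234/Pr3_937
section

/-!
Row 234, VF-PROD (helper937), file 3: the product of a stationary varifold with a line is
stationary.
-/

set_option autoImplicit false

open MeasureTheory Crest.GeometryTopology.Submanifold Crest.Agent.R234.Vf_884
open scoped ENNReal InnerProductSpace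

noncomputable section

namespace Crest.Agent.R234.Pr_937

variable {m k : ℕ}

/-- horizontal slice of a field. -/
def slice (X : Euc (k + 1) → Euc (k + 1)) (t : ℝ) (x : Euc k) : Euc k := pr k (X (J k (t, x)))

theorem hasFDerivAt_slice {X : Euc (k + 1) → Euc (k + 1)} (hX : ContDiff ℝ 1 X) (t : ℝ)
    (x : Euc k) :
    HasFDerivAt (slice X t) (pr k ∘L fderiv ℝ X (J k (t, x)) ∘L emb k) x := by
  have h1 : HasFDerivAt (fun x : Euc k => J k (t, x)) (emb k) x := by
    unfold J
    simpa using (emb k).hasFDerivAt.const_add (t • e k)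
  have h2 : HasFDerivAt X (fderiv ℝ X (J k (t, x))) (J k (t, x)) :=
    (hX.differentiable one_ne_zero _).hasFDerivAt
  exact (pr k).hasFDerivAt.comp x (h2.comp x h1)

theorem contDiff_slice {X : Euc (k + 1) → Euc (k + 1)} (hX : ContDiff ℝ 1 X) (t : ℝ) :
    ContDiff ℝ 1 (slice X t) := by
  have h1 : ContDiff ℝ 1 fun x : Euc k => J k (t, x) := by
    have h2 : ContDiff ℝ 1 fun x : Euc k => t • e k + emb k x :=
      contDiff_const.add (emb k).contDiff
    exact h2
  exact (pr k).contDiff.comp (hX.comp h1)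

theorem support_slice {X : Euc (k + 1) → Euc (k + 1)} (hXc : HasCompactSupport X) (t : ℝ) :
    tsupport (slice X t) ⊆ pr k '' tsupport X := by
  have h0 : IsCompact (pr k '' tsupport X) := IsCompact.image hXc (pr k).continuous
  refine closure_minimal ?_ h0.isClosed
  intro x hx
  refine ⟨J k (t, x), subset_tsupport _ fun h => hx ?_, by simp⟩
  unfold slice
  rw [h, map_zero]

variable {U : Set (Euc k)} {V : Measure (Euc k × L k)}

theorem hasDerivAt_vert {X : Euc (k + 1) → Euc (k + 1)} (hX : ContDiff ℝ 1 X) (x : Euc k)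
    (t : ℝ) :
    HasDerivAt (fun t : ℝ => ht k (X (J k (t, x)))) (ht k (fderiv ℝ X (J k (t, x)) (e k))) t := by
  have h1 : HasDerivAt (fun t : ℝ => J k (t, x)) (e k) t := by
    unfold J
    simpa using ((hasDerivAt_id t).smul_const (e k)).add_const (emb k x)
  have h2 : HasFDerivAt X (fderiv ℝ X (J k (t, x))) (J k (t, x)) :=
    (hX.differentiable one_ne_zero _).hasFDerivAt
  exact (ht k).hasFDerivAt.comp_hasDerivAt t (h2.comp_hasDerivAt t h1)

theorem line_stat [SFinite V] (hV : Stat m k U V) :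
    Stat (m + 1) (k + 1) {w | pr k w ∈ U} (line V) where
  conc := line_conc hV
  fin _ hK hKU := line_fin hV hK hKU
  stat X hX hXc hXU := by
    have hint := integrable_fv (line_conc hV) hX hXc (line_fin hV hXc hXU)
    have hint' : Integrable (fun q : ℝ × (Euc k × L k) =>
        tr (fderiv ℝ X (J k (q.1, q.2.1)) ∘L liftP q.2.2)) ((volume : Measure ℝ).prod V) := by
      unfold line at hint
      rw [integrable_map_measure hint.aestronglyMeasurable
        continuous_lmap.measurable.aemeasurable] at hint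
      exact hint
    obtain ⟨R, hR⟩ := hXc.isBounded.exists_norm_le
    -- the compact set where everything lives
    set K : Set (Euc k) := pr k '' tsupport X with hKdef
    have hK : IsCompact K := hXc.image (pr k).continuous
    have hKU : K ⊆ U := by
      rintro _ ⟨w, hw, rfl⟩
      exact hXU hw
    have hVK : V (K ×ˢ Set.univ) < ⊤ := hV.fin K hK hKU
    have hzero : ∀ t : ℝ, ∀ x : Euc k, ¬ (t ∈ Set.Icc (-R) R ∧ x ∈ K) →
        fderiv ℝ X (J k (t, x)) = 0 := by
      intro t x hn
      by_contra hne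
      have h1 : J k (t, x) ∈ tsupport X := support_fderiv_subset ℝ hne
      refine hn ⟨?_, ⟨_, h1, by simp⟩⟩
      have h2 := (abs_ht_le (J k (t, x))).trans (hR _ h1)
      rw [ht_J] at h2
      exact abs_le.1 h2
    have hcd : Continuous fun q : ℝ × (Euc k × L k) => fderiv ℝ X (J k (q.1, q.2.1)) :=
      (hX.continuous_fderiv one_ne_zero).comp (continuous_J.comp (by fun_prop))
    -- the second part is integrable
    have hF2 : Integrable (fun q : ℝ × (Euc k × L k) =>
        ht k (fderiv ℝ X (J k (q.1, q.2.1)) (e k))) ((volume : Measure ℝ).prod V) := by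
      have hc2 : Continuous fun q : ℝ × (Euc k × L k) =>
          ht k (fderiv ℝ X (J k (q.1, q.2.1)) (e k)) :=
        (ht k).continuous.comp (hcd.clm_apply continuous_const)
      obtain ⟨C, hC⟩ : ∃ C, ∀ w ∈ tsupport X, ‖fderiv ℝ X w‖ ≤ C :=
        hXc.exists_bound_of_continuousOn (hX.continuous_fderiv one_ne_zero).continuousOn
      set S : Set (ℝ × (Euc k × L k)) := Set.Icc (-R) R ×ˢ (K ×ˢ Set.univ) with hS
      have hSm : MeasurableSet S :=
        measurableSet_Icc.prod (hK.measurableSet.prod MeasurableSet.univ)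
      have hSf : ((volume : Measure ℝ).prod V) S < ⊤ := by
        rw [hS, Measure.prod_prod, Real.volume_Icc]
        exact ENNReal.mul_lt_top ENNReal.ofReal_lt_top hVK
      have h1 : IntegrableOn (fun q : ℝ × (Euc k × L k) =>
          ht k (fderiv ℝ X (J k (q.1, q.2.1)) (e k))) S ((volume : Measure ℝ).prod V) := by
        refine IntegrableOn.of_bound hSf hc2.aestronglyMeasurable (max C 0 * ‖e k‖) ?_
        refine Filter.Eventually.of_forall fun q => ?_
        have h3 : ‖fderiv ℝ X (J k (q.1, q.2.1))‖ ≤ max C 0 := by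
          by_cases hq : J k (q.1, q.2.1) ∈ tsupport X
          · exact (hC _ hq).trans (le_max_left _ _)
          · have : fderiv ℝ X (J k (q.1, q.2.1)) = 0 := by
              by_contra hne
              exact hq (support_fderiv_subset ℝ hne)
            rw [this, norm_zero]
            exact le_max_right _ _
        rw [Real.norm_eq_abs]
        refine (abs_ht_le _).trans ?_
        exact (ContinuousLinearMap.le_opNorm _ _).trans (by gcongr)
      refine (integrableOn_iff_integrable_of_support_subset ?_).1 h1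
      intro q hq
      by_contra hcon
      apply hq
      have : fderiv ℝ X (J k (q.1, q.2.1)) = 0 := by
        refine hzero _ _ fun h => hcon ?_
        exact ⟨h.1, h.2, trivial⟩
      simp [this]
    have hF1 : Integrable (fun q : ℝ × (Euc k × L k) =>
        tr ((pr k ∘L fderiv ℝ X (J k (q.1, q.2.1)) ∘L emb k) ∘L q.2.2))
        ((volume : Measure ℝ).prod V) := by
      refine (hint'.sub hF2).congr (Filter.Eventually.of_forall fun q => ?_)
      simp only [Pi.sub_apply]
      rw [tr_comp_liftP]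
      ring
    unfold line
    rw [integral_map continuous_lmap.measurable.aemeasurable]
    swap
    · have := hint.aestronglyMeasurable
      exact this
    have h0 : ∀ q : ℝ × (Euc k × L k), tr (fderiv ℝ X (lmap q).1 ∘L (lmap q).2) =
        ht k (fderiv ℝ X (J k (q.1, q.2.1)) (e k)) +
          tr ((pr k ∘L fderiv ℝ X (J k (q.1, q.2.1)) ∘L emb k) ∘L q.2.2) := by
      intro q
      exact tr_comp_liftP _ _
    simp_rw [h0]
    rw [integral_add hF2 hF1]
    have hA : ∫ q : ℝ × (Euc k × L k), ht k (fderiv ℝ X (J k (q.1, q.2.1)) (e k))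
        ∂((volume : Measure ℝ).prod V) = 0 := by
      rw [integral_prod_symm _ hF2]
      refine integral_eq_zero_of_ae (Filter.Eventually.of_forall fun p => ?_)
      simp only [Pi.zero_apply]
      have hcomp : ∀ t : ℝ, t ∉ Set.Icc (-R) R → X (J k (t, p.1)) = 0 := by
        intro t ht'
        by_contra hne
        apply ht'
        have h1 : J k (t, p.1) ∈ tsupport X := subset_tsupport _ hne
        have h2 := (abs_ht_le (J k (t, p.1))).trans (hR _ h1)
        rw [ht_J] at h2
        exact abs_le.1 h2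
      refine integral_eq_zero_of_hasDerivAt_of_integrable (hasDerivAt_vert hX p.1) ?_ ?_
      · refine Continuous.integrable_of_hasCompactSupport ?_ ?_
        · exact (ht k).continuous.comp (((hX.continuous_fderiv one_ne_zero).comp
            (continuous_J.comp (by fun_prop))).clm_apply continuous_const)
        · refine HasCompactSupport.intro (isCompact_Icc (a := -R) (b := R)) fun t ht' => ?_
          rw [hzero t p.1 fun h => ht' h.1]
          simp
      · refine Continuous.integrable_of_hasCompactSupport ?_ ?_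
        · exact (ht k).continuous.comp (hX.continuous.comp (continuous_J.comp (by fun_prop)))
        · refine HasCompactSupport.intro (isCompact_Icc (a := -R) (b := R)) fun t ht' => ?_
          rw [hcomp t ht']
          simp
    have hB : ∫ q : ℝ × (Euc k × L k),
        tr ((pr k ∘L fderiv ℝ X (J k (q.1, q.2.1)) ∘L emb k) ∘L q.2.2)
        ∂((volume : Measure ℝ).prod V) = 0 := by
      rw [integral_prod _ hF1]
      refine integral_eq_zero_of_ae (Filter.Eventually.of_forall fun t => ?_)
      simp only [Pi.zero_apply]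
      have hsup := support_slice hXc t
      have h1 := hV.stat (slice X t) (contDiff_slice hX t)
        (hK.of_isClosed_subset (isClosed_tsupport _) hsup) (hsup.trans hKU)
      rw [← h1]
      refine integral_congr_ae (Filter.Eventually.of_forall fun p => ?_)
      simp only
      rw [(hasFDerivAt_slice hX t p.1).fderiv]
    rw [hA, hB, add_zero]

end Crest.Agent.R234.Pr_937
end
end

-- ▼ part R234/Pr4_937
section

/-!
Row 234, VF-PROD (helper937), file 4: the product of the frozen varifold data with a line.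
-/

set_option autoImplicit false

open MeasureTheory Crest.GeometryTopology.Submanifold Crest.Agent.R234.Vf_884
open scoped ENNReal InnerProductSpace

noncomputable section

namespace Crest.Agent.R234.Pr_937

variable {m k : ℕ}

/-- product of a chart with the line. -/
def pchart (f : Euc m → Euc k) (z : Euc (m + 1)) : Euc (k + 1) := J k (ht m z, f (pr m z))

/-- product of the data with the line. -/
def prodData (D : VarifoldData m k) : VarifoldData (m + 1) (k + 1) where
  chart i := pchart (D.chart i)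
  dom i := {z | pr m z ∈ D.dom i}
  mult i z := D.mult i (pr m z)

section chart

variable {f : Euc m → Euc k}

theorem contDiff_pchart {n : WithTop ℕ∞} (hf : ContDiff ℝ n f) : ContDiff ℝ n (pchart f) := by
  have h1 : ContDiff ℝ n fun z : Euc (m + 1) => ht m z • e k + emb k (f (pr m z)) :=
    ((ht m).contDiff.smul contDiff_const).add ((emb k).contDiff.comp (hf.comp (pr m).contDiff))
  exact h1

theorem hasFDerivAt_pchart {z : Euc (m + 1)} (hf : DifferentiableAt ℝ f (pr m z)) :
    HasFDerivAt (pchart f)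
      ((ht m).smulRight (e k) + emb k ∘L fderiv ℝ f (pr m z) ∘L pr m) z := by
  have h1 : HasFDerivAt (fun z : Euc (m + 1) => ht m z • e k) ((ht m).smulRight (e k)) z :=
    (ht m).hasFDerivAt.smul_const (e k)
  have h2 : HasFDerivAt (fun z : Euc (m + 1) => emb k (f (pr m z)))
      (emb k ∘L fderiv ℝ f (pr m z) ∘L pr m) z :=
    (emb k).hasFDerivAt.comp z (hf.hasFDerivAt.comp z (pr m).hasFDerivAt)
  exact h1.add h2

theorem fderiv_pchart_apply {z : Euc (m + 1)} (hf : DifferentiableAt ℝ f (pr m z))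
    (v : Euc (m + 1)) :
    fderiv ℝ (pchart f) z v = J k (ht m v, fderiv ℝ f (pr m z) (pr m v)) := by
  rw [(hasFDerivAt_pchart hf).fderiv]
  simp [J]

theorem injective_fderiv_pchart {z : Euc (m + 1)} (hf : DifferentiableAt ℝ f (pr m z))
    (hi : Function.Injective (fderiv ℝ f (pr m z))) :
    Function.Injective (fderiv ℝ (pchart f) z) := by
  intro v w h
  rw [fderiv_pchart_apply hf, fderiv_pchart_apply hf] at h
  have h1 : ht m v = ht m w := by simpa using congrArg (ht k) h
  have h2 : pr m v = pr m w := hi (by simpa using congrArg (pr k) h)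
  rw [← J_split v, ← J_split w, h1, h2]

theorem pd_zero {z : Euc (m + 1)} (hf : DifferentiableAt ℝ f (pr m z)) :
    pd (pchart f) z 0 = J k (1, 0) := by
  unfold pd
  rw [stdVec_zero, fderiv_pchart_apply hf]
  simp

theorem pd_succ {z : Euc (m + 1)} (hf : DifferentiableAt ℝ f (pr m z)) (j : Fin m) :
    pd (pchart f) z j.succ = J k (0, pd f (pr m z) j) := by
  unfold pd
  rw [stdVec_succ, fderiv_pchart_apply hf]
  simp

theorem det_metricMat_pchart {z : Euc (m + 1)} (hf : DifferentiableAt ℝ f (pr m z)) :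
    (metricMat (pchart f) z).det = (metricMat f (pr m z)).det := by
  rw [Matrix.det_succ_row_zero, Fin.sum_univ_succ]
  have h0 : ∀ j : Fin m, metricMat (pchart f) z 0 j.succ = 0 := by
    intro j
    simp only [metricMat, Matrix.of_apply]
    rw [pd_zero hf, pd_succ hf, inner_J]
    simp
  have h1 : metricMat (pchart f) z 0 0 = 1 := by
    simp only [metricMat, Matrix.of_apply]
    rw [pd_zero hf, inner_J]
    simp
  have h2 : (metricMat (pchart f) z).submatrix Fin.succ Fin.succ
      = metricMat f (pr m z) := by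
    ext i j
    simp only [metricMat, Matrix.of_apply, Matrix.submatrix_apply]
    rw [pd_succ hf, pd_succ hf, inner_J]
    simp
  simp [h0, h1, h2]

theorem jac_pchart {z : Euc (m + 1)} (hf : DifferentiableAt ℝ f (pr m z)) :
    jac (pchart f) z = jac f (pr m z) := by
  unfold jac
  rw [det_metricMat_pchart hf]

theorem tangentAt_pchart {z : Euc (m + 1)} (hf : DifferentiableAt ℝ f (pr m z))
    (w : Euc (k + 1)) :
    w ∈ tangentAt (pchart f) z ↔ pr k w ∈ tangentAt f (pr m z) := by
  rw [tangentAt_eq_range, tangentAt_eq_range]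
  constructor
  · rintro ⟨v, hv⟩
    refine ⟨pr m v, ?_⟩
    have hv' : fderiv ℝ (pchart f) z v = w := hv
    rw [fderiv_pchart_apply hf] at hv'
    rw [← hv']
    simp
  · rintro ⟨v, hv⟩
    refine ⟨J m (ht k w, v), ?_⟩
    change fderiv ℝ (pchart f) z (J m (ht k w, v)) = w
    rw [fderiv_pchart_apply hf]
    have hv' : fderiv ℝ f (pr m z) v = pr k w := hv
    simp only [ht_J, pr_J, hv', J_split]

theorem projF_pchart {z : Euc (m + 1)} (hf : DifferentiableAt ℝ f (pr m z)) :
    projF (pchart f) z = liftP (projF f (pr m z)) := by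
  ext1 v
  unfold projF
  refine Submodule.eq_starProjection_of_mem_orthogonal (K := tangentAt (pchart f) z) ?_ ?_
  · rw [tangentAt_pchart hf, liftP_J, pr_J]
    exact Submodule.starProjection_apply_mem _ _
  · rw [Submodule.mem_orthogonal]
    intro u hu
    rw [tangentAt_pchart hf] at hu
    rw [inner_split, liftP_J, map_sub, map_sub, ht_J, pr_J, sub_self, mul_zero, zero_add]
    exact Submodule.inner_right_of_mem_orthogonal hu
      (Submodule.sub_starProjection_mem_orthogonal _)

end chart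

variable {U : Set (Euc k)} {D : VarifoldData m k}

theorem diff_chart (hD : IsIntegralVarifoldIn U D) (i : ℕ) (a : Euc m) :
    DifferentiableAt ℝ (D.chart i) a := (hD.contDiff i).differentiable one_ne_zero a

instance sfinite_base (D : VarifoldData m k) (i : ℕ) : SFinite (base D i) := by
  unfold base
  infer_instance

instance sfinite_VD (D : VarifoldData m k) : SFinite (VD D) := by
  unfold VD
  infer_instance

theorem measurableEmbedding_J : MeasurableEmbedding (J k) := by
  refine (Topology.IsClosedEmbedding.measurableEmbedding ?_)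
  refine Topology.IsClosedEmbedding.of_continuous_injective_isClosedMap continuous_J ?_ ?_
  · intro p q h
    have h1 := congrArg (ht k) h
    have h2 := congrArg (pr k) h
    rw [ht_J, ht_J] at h1
    rw [pr_J, pr_J] at h2
    exact Prod.ext h1 h2
  · intro S hS
    have : J k '' S = (fun w => (ht k w, pr k w)) ⁻¹' S := by
      ext w
      constructor
      · rintro ⟨p, hp, rfl⟩
        simpa using hp
      · intro hw
        exact ⟨_, hw, J_split w⟩
    rw [this]
    exact hS.preimage ((ht k).continuous.prodMk (pr k).continuous)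

theorem base_prodData (hD : IsIntegralVarifoldIn U D) (i : ℕ) :
    base (prodData D) i = ((volume : Measure ℝ).prod (base D i)).map (J m) := by
  have hd : ∀ z, dens (prodData D) i z = dens D i (pr m z) := by
    intro z
    change ENNReal.ofReal (((D.mult i (pr m z) : ℕ) : ℝ) * jac (pchart (D.chart i)) z) = _
    rw [jac_pchart (diff_chart hD i _)]
    rfl
  have hdom : (prodData D).dom i = {z | pr m z ∈ D.dom i} := rfl
  have hdm : MeasurableSet ((prodData D).dom i) := (pr m).continuous.measurable (hD.measurableSet i)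
  have hJm : Measurable (J m) := continuous_J.measurable
  refine Measure.ext_of_lintegral _ fun φ hφ => ?_
  rw [lintegral_map hφ hJm]
  unfold base
  rw [lintegral_withDensity_eq_lintegral_mul _ ?_ hφ]
  swap
  · have : dens (prodData D) i = fun z => dens D i (pr m z) := funext hd
    rw [this]
    exact (measurable_dens hD i).comp (pr m).continuous.measurable
  rw [prod_withDensity_right (measurable_dens hD i)]
  rw [lintegral_withDensity_eq_lintegral_mul (f := fun z : ℝ × Euc m => dens D i z.2) _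
    ((measurable_dens hD i).comp measurable_snd)
    (g := fun a => φ (J m a)) (hφ.comp hJm)]
  have h1 : (volume : Measure ℝ).prod (volume.restrict (D.dom i))
      = ((volume : Measure ℝ).prod (volume : Measure (Euc m))).restrict
        (Set.univ ×ˢ D.dom i) := by
    rw [← Measure.prod_restrict, Measure.restrict_univ]
  rw [h1, ← lintegral_indicator hdm, ← lintegral_indicator (MeasurableSet.univ.prod
    (hD.measurableSet i))]
  have h2 := (volume_preserving_J (k := m)).lintegral_comp_emb measurableEmbedding_J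
    (((prodData D).dom i).indicator ((dens (prodData D) i) * φ))
  rw [← h2]
  refine lintegral_congr fun q => ?_
  by_cases hq : q.2 ∈ D.dom i
  · rw [Set.indicator_of_mem, Set.indicator_of_mem]
    · simp [hd]
    · exact ⟨trivial, hq⟩
    · rw [hdom]
      simpa using hq
  · rw [Set.indicator_of_notMem, Set.indicator_of_notMem]
    · exact fun h => hq h.2
    · rw [hdom]
      simpa using hq

end Crest.Agent.R234.Pr_937
end
end

-- ▼ part R234/Pr5_937
section

/-!
Row 234, VF-PROD (helper937), file 5: the product data is a stationary integral varifold.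
-/

set_option autoImplicit false

open MeasureTheory Crest.GeometryTopology.Submanifold Crest.Agent.R234.Vf_884
open scoped ENNReal InnerProductSpace

noncomputable section

namespace Crest.Agent.R234.Pr_937

variable {m k : ℕ} {U : Set (Euc k)} {D : VarifoldData m k}

theorem measurable_J : Measurable (J k) := continuous_J.measurable

instance sfinite_weight (D : VarifoldData m k) : SFinite (weight D) := by
  unfold weight
  infer_instance

theorem weight_eq_sum (D : VarifoldData m k) :
    weight D = Measure.sum fun i => (base D i).map (D.chart i) := rfl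

theorem pchart_J (f : Euc m → Euc k) (q : ℝ × Euc m) : pchart f (J m q) = J k (q.1, f q.2) := by
  simp [pchart]

theorem lift_prodData (hD : IsIntegralVarifoldIn U D) (i : ℕ) (q : ℝ × Euc m) :
    lift (prodData D) i (J m q) = lmap (q.1, lift D i q.2) := by
  refine Prod.ext ?_ ?_
  · exact pchart_J _ _
  · change projF (pchart (D.chart i)) (J m q) = liftP (projF (D.chart i) q.2)
    rw [projF_pchart (diff_chart hD i _), pr_J]

theorem weight_prodData (hD : IsIntegralVarifoldIn U D) :
    weight (prodData D) = ((volume : Measure ℝ).prod (weight D)).map (J k) := by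
  rw [weight_eq_sum D, Measure.prod_sum_right, Measure.map_sum measurable_J.aemeasurable,
    weight_eq_sum]
  congr 1
  funext i
  have h1 : Measurable (pchart (D.chart i)) := (contDiff_pchart (hD.contDiff i)).continuous.measurable
  have h2 : Measurable (D.chart i) := (hD.contDiff i).continuous.measurable
  have h3 : (volume : Measure ℝ).prod ((base D i).map (D.chart i))
      = ((volume : Measure ℝ).prod (base D i)).map (Prod.map id (D.chart i)) := by
    conv_lhs => rw [← Measure.map_id (μ := (volume : Measure ℝ))]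
    rw [Measure.map_prod_map _ _ measurable_id h2]
  rw [base_prodData hD]
  change ((Measure.map (J m) _).map (pchart (D.chart i))) = _
  rw [h3, Measure.map_map h1 measurable_J, Measure.map_map measurable_J (measurable_id.prodMap h2)]
  congr 1
  funext q
  exact pchart_J _ _

theorem VD_prodData (hD : IsIntegralVarifoldIn U D) : VD (prodData D) = line (VD D) := by
  unfold line
  unfold VD
  rw [Measure.prod_sum_right, Measure.map_sum continuous_lmap.measurable.aemeasurable]
  congr 1
  funext i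
  rw [base_prodData hD]
  have hl := aemeasurable_lift hD i
  have hq : AEMeasurable (fun q : ℝ × Euc m => (q.1, lift D i q.2))
      ((volume : Measure ℝ).prod (base D i)) :=
    measurable_fst.aemeasurable.prodMk
      (hl.comp_quasiMeasurePreserving Measure.quasiMeasurePreserving_snd)
  have hq2 : lift (prodData D) i ∘ J m = lmap ∘ fun q : ℝ × Euc m => (q.1, lift D i q.2) := by
    funext q
    exact lift_prodData hD i q
  have h3 : (volume : Measure ℝ).prod ((base D i).map (lift D i))
      = ((volume : Measure ℝ).prod (base D i)).map (fun q : ℝ × Euc m => (q.1, lift D i q.2)) := by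
    have h4 : (base D i).map (lift D i) = (base D i).map (hl.mk _) :=
      Measure.map_congr hl.ae_eq_mk
    have h5 : (fun q : ℝ × Euc m => (q.1, lift D i q.2))
        =ᵐ[(volume : Measure ℝ).prod (base D i)] Prod.map id (hl.mk _) := by
      have h6 := (Measure.quasiMeasurePreserving_snd (μ := (volume : Measure ℝ))
        (ν := base D i)).ae hl.ae_eq_mk
      filter_upwards [h6] with q hq
      exact Prod.ext rfl hq
    rw [Measure.map_congr h5, h4]
    conv_lhs => rw [← Measure.map_id (μ := (volume : Measure ℝ))]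
    rw [Measure.map_prod_map _ _ measurable_id hl.measurable_mk]
  rw [h3, AEMeasurable.map_map_of_aemeasurable continuous_lmap.measurable.aemeasurable hq, ← hq2,
    AEMeasurable.map_map_of_aemeasurable _ measurable_J.aemeasurable]
  rw [measurableEmbedding_J.aemeasurable_map_iff, hq2]
  exact continuous_lmap.measurable.comp_aemeasurable hq

theorem isIntegral_prodData (hD : IsIntegralVarifoldIn U D) :
    IsIntegralVarifoldIn {w | pr k w ∈ U} (prodData D) where
  measurableSet i := (pr m).continuous.measurable (hD.measurableSet i)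
  contDiff i := contDiff_pchart (hD.contDiff i)
  injOn i z hz z' hz' h := by
    have h : J k (ht m z, D.chart i (pr m z)) = J k (ht m z', D.chart i (pr m z')) := h
    have h1 : ht m z = ht m z' := by simpa using congrArg (ht k) h
    have h2 : pr m z = pr m z' := hD.injOn i hz hz' (by simpa using congrArg (pr k) h)
    rw [← J_split z, ← J_split z', h1, h2]
  injective_fderiv i z hz :=
    injective_fderiv_pchart (diff_chart hD i _) (hD.injective_fderiv i _ hz)
  disjoint i j hij := by
    rw [Set.disjoint_left]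
    rintro w ⟨z, hz, rfl⟩ ⟨z', hz', h⟩
    have h : J k (ht m z', D.chart j (pr m z')) = J k (ht m z, D.chart i (pr m z)) := h
    have h2 : D.chart j (pr m z') = D.chart i (pr m z) := by simpa using congrArg (pr k) h
    exact Set.disjoint_left.1 (hD.disjoint i j hij) ⟨_, hz, rfl⟩ ⟨_, hz', h2⟩
  subset i := by
    rintro w ⟨z, hz, rfl⟩
    change pr k (J k (ht m z, D.chart i (pr m z))) ∈ U
    rw [pr_J]
    exact hD.subset i ⟨_, hz, rfl⟩
  measurable_mult i := (hD.measurable_mult i).comp (pr m).continuous.measurable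
  mult_pos i z hz := hD.mult_pos i _ hz
  locallyFinite K hK hKU := by
    obtain ⟨R, hR⟩ := hK.isBounded.exists_norm_le
    rw [weight_prodData hD, Measure.map_apply measurable_J hK.measurableSet]
    have h1 : J k ⁻¹' K ⊆ (Set.Icc (-R) R) ×ˢ (pr k '' K) := by
      rintro ⟨t, x⟩ h
      have h : J k (t, x) ∈ K := h
      refine ⟨?_, ⟨J k (t, x), h, by simp⟩⟩
      have := (abs_ht_le _).trans (hR _ h)
      rw [ht_J] at this
      exact abs_le.1 this
    refine (measure_mono h1).trans_lt ?_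
    rw [Measure.prod_prod, Real.volume_Icc]
    refine ENNReal.mul_lt_top ENNReal.ofReal_lt_top ?_
    refine hD.locallyFinite _ (hK.image (pr k).continuous) ?_
    rintro _ ⟨w, hw, rfl⟩
    exact hKU hw

theorem isStationary_prodData (hD : IsIntegralVarifoldIn U D) (hs : IsStationaryIn U D) :
    IsStationaryIn {w | pr k w ∈ U} (prodData D) := by
  intro X hX hXc hXU
  rw [firstVariation_eq (isIntegral_prodData hD) hX hXc hXU, VD_prodData hD]
  exact (line_stat (stat_VD hD hs)).stat X hX hXc hXU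

/-- the support of the product. -/
theorem support_prodData (hD : IsIntegralVarifoldIn U D) (w : Euc (k + 1)) :
    w ∈ support (prodData D) ↔ pr k w ∈ support D := by
  unfold support
  simp only [Set.mem_ofPred_eq]
  have hw : ∀ S : Set (Euc (k + 1)), MeasurableSet S →
      weight (prodData D) S = ((volume : Measure ℝ).prod (weight D)) (J k ⁻¹' S) := fun S hS => by
    rw [weight_prodData hD, Measure.map_apply measurable_J hS]
  constructor
  · intro h ρ hρ
    have h1 := h ρ hρ
    rw [hw _ measurableSet_ball] at h1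
    by_contra h2
    have h2 : weight D (Metric.ball (pr k w) ρ) = 0 := by simpa using h2
    have h3 : J k ⁻¹' (Metric.ball w ρ) ⊆ Set.univ ×ˢ Metric.ball (pr k w) ρ := by
      rintro ⟨t, x⟩ hx
      refine ⟨trivial, ?_⟩
      have hx : dist (J k (t, x)) w < ρ := hx
      change dist x (pr k w) < ρ
      rw [dist_eq_norm] at hx ⊢
      refine lt_of_le_of_lt ?_ hx
      have := norm_pr_le (J k (t, x) - w)
      rw [map_sub, pr_J] at this
      exact this
    have h4 := measure_mono (μ := (volume : Measure ℝ).prod (weight D)) h3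
    rw [Measure.prod_prod, h2, mul_zero] at h4
    exact absurd h1 (not_lt.2 h4)
  · intro h ρ hρ
    rw [hw _ measurableSet_ball]
    have h3 : Metric.ball (ht k w) (ρ / 2) ×ˢ Metric.ball (pr k w) (ρ / 2)
        ⊆ J k ⁻¹' (Metric.ball w ρ) := by
      rintro ⟨t, x⟩ ⟨ht', hx⟩
      have ht' : dist t (ht k w) < ρ / 2 := ht'
      have hx : dist x (pr k w) < ρ / 2 := hx
      change dist (J k (t, x)) w < ρ
      rw [dist_eq_norm] at hx ⊢
      rw [Real.dist_eq] at ht'
      have h5 := norm_sq_split (J k (t, x) - w)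
      rw [map_sub, map_sub, pr_J, ht_J] at h5
      have h6 : (t - ht k w) ^ 2 < (ρ / 2) ^ 2 := by
        rw [← sq_abs (t - ht k w)]
        gcongr
      have h7 : ‖x - pr k w‖ ^ 2 < (ρ / 2) ^ 2 := by gcongr
      refine lt_of_pow_lt_pow_left₀ 2 hρ.le ?_
      simp only at h5
      rw [h5]
      nlinarith
    refine lt_of_lt_of_le ?_ (measure_mono h3)
    rw [Measure.prod_prod]
    refine ENNReal.mul_pos ?_ (h (ρ / 2) (by positivity)).ne'
    exact (Metric.measure_ball_pos volume _ (by positivity)).ne'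

end Crest.Agent.R234.Pr_937
end
end

-- ▼ part R234/Pr6_937
section

/-!
Row 234, VF-PROD (helper937), file 6: if `S × ℝ` is a submanifold, so is `S`.
-/

set_option autoImplicit false

open MeasureTheory Crest.GeometryTopology.Submanifold Filter Topology
open scoped ENNReal InnerProductSpace

noncomputable section

namespace Crest.Agent.R234.Pr_937

variable {m k : ℕ}

theorem norm_e : ‖e k‖ = 1 := by simp [e]

/-- transversality of the parametrisation to the horizontal hyperplane. -/
theorem vert_ne_zero {M : Set (Euc (k + 1))} {q : Euc (k + 1)} {f : Euc m → Euc (k + 1)}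
    {V : Set (Euc m)} (hf : IsLocalParam m (k + 1) M q f V)
    (hM : ∀ᶠ s : ℝ in 𝓝[>] 0, q + s • e k ∈ M) : ∃ v, ht k (fderiv ℝ f 0 v) ≠ 0 := by
  by_contra hcon
  push Not at hcon
  set A := fderiv ℝ f 0 with hA
  obtain ⟨K, hK0, hK⟩ := LinearMap.exists_antilipschitzWith A.toLinearMap
    (LinearMap.ker_eq_bot.2 (hf.injective_fderiv 0 hf.zero_mem))
  have hKn : ∀ v, ‖v‖ ≤ K * ‖A v‖ := fun v => by
    have := hK.le_mul_norm_sub (x := v) (y := 0)
    simpa using this
  have hKpos : (0 : ℝ) < K := by exact_mod_cast hK0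
  have hd : HasFDerivAt f A 0 :=
    ((hf.contDiffOn.contDiffAt (hf.isOpen.mem_nhds hf.zero_mem)).differentiableAt
      (by simp)).hasFDerivAt
  have hlo := hd.isLittleO.def (c := 1 / (4 * K)) (by positivity)
  obtain ⟨δ, hδ, hball⟩ := Metric.mem_nhds_iff.1 (inter_mem hlo (hf.isOpen.mem_nhds hf.zero_mem))
  obtain ⟨U2, hU2o, hU2⟩ := hf.image_open (Metric.ball 0 δ) (fun z hz => (hball hz).2)
    Metric.isOpen_ball
  have hqU : q ∈ U2 := by
    have h1 : q ∈ f '' Metric.ball 0 δ := ⟨0, Metric.mem_ball_self hδ, hf.map_zero⟩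
    rw [hU2] at h1
    exact h1.2
  have hcont : Tendsto (fun s : ℝ => q + s • e k) (𝓝[>] 0) (𝓝 q) := by
    have h1 : Continuous fun s : ℝ => q + s • e k := by fun_prop
    have h2 := h1.tendsto 0
    simp only [zero_smul, add_zero] at h2
    exact h2.mono_left nhdsWithin_le_nhds
  have hev : ∀ᶠ s : ℝ in 𝓝[>] 0, q + s • e k ∈ U2 := hcont (hU2o.mem_nhds hqU)
  obtain ⟨s, ⟨hs1, hs2⟩, hs0⟩ := ((hM.and hev).and self_mem_nhdsWithin).exists
  have hs0 : 0 < s := hs0
  have h1 : q + s • e k ∈ f '' Metric.ball 0 δ := by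
    rw [hU2]
    exact ⟨hs1, hs2⟩
  obtain ⟨z, hz, hzq⟩ := h1
  have h2 : ‖f z - f 0 - A (z - 0)‖ ≤ 1 / (4 * K) * ‖z - 0‖ := (hball hz).1
  rw [sub_zero, hzq, hf.map_zero, add_sub_cancel_left] at h2
  have h3 : |ht k (s • e k - A z)| ≤ ‖s • e k - A z‖ := abs_ht_le _
  rw [map_sub, hcon z, map_smul, ht_e, smul_eq_mul, mul_one, sub_zero, abs_of_pos hs0] at h3
  have h4 : ‖A z‖ ≤ ‖s • e k‖ + ‖s • e k - A z‖ := by
    have := norm_sub_le (s • e k) (s • e k - A z)
    rw [sub_sub_cancel] at this
    exact this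
  rw [norm_smul, norm_e, mul_one, Real.norm_eq_abs, abs_of_pos hs0] at h4
  have h5 := hKn z
  have h6 : 1 / (4 * K) * ‖z‖ ≤ (1 / 4) * ‖A z‖ := by
    calc 1 / (4 * K) * ‖z‖ ≤ 1 / (4 * K) * (K * ‖A z‖) := by gcongr
      _ = (1 / 4) * ‖A z‖ := by field_simp
  nlinarith [norm_nonneg (A z)]

/-- a linear chart of the kernel of a non-zero functional. -/
theorem exists_Q (T : Euc (m + 1) →L[ℝ] ℝ) (hT : ∃ v, T v ≠ 0) :
    ∃ Q : Euc (m + 1) →L[ℝ] Euc m, ∀ v, T v = 0 → Q v = 0 → v = 0 := by
  have h1 : Module.finrank ℝ (LinearMap.ker T.toLinearMap) = m := by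
    have h2 := LinearMap.finrank_range_add_finrank_ker T.toLinearMap
    have h3 : LinearMap.range T.toLinearMap = ⊤ := by
      refine LinearMap.range_eq_top.2 ?_
      refine LinearMap.surjective_of_ne_zero ?_
      obtain ⟨v, hv⟩ := hT
      intro h
      exact hv (by rw [← ContinuousLinearMap.coe_coe, h]; rfl)
    rw [h3, finrank_top, Module.finrank_self, finrank_euclideanSpace_fin] at h2
    omega
  have h2 : Module.finrank ℝ (LinearMap.ker T.toLinearMap) = Module.finrank ℝ (Euc m) := by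
    rw [h1, finrank_euclideanSpace_fin]
  let ψ : LinearMap.ker T.toLinearMap ≃L[ℝ] Euc m := ContinuousLinearEquiv.ofFinrankEq h2
  refine ⟨ψ.toContinuousLinearMap ∘L (LinearMap.ker T.toLinearMap).orthogonalProjectionOnto, ?_⟩
  intro v hv hQ
  have hQ : ψ ((LinearMap.ker T.toLinearMap).orthogonalProjectionOnto v) = 0 := hQ
  have h3 : (LinearMap.ker T.toLinearMap).orthogonalProjectionOnto v = 0 := by
    rwa [ContinuousLinearEquiv.map_eq_zero_iff] at hQ
  have h4 : v ∈ LinearMap.ker T.toLinearMap := hv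
  have h5 := Submodule.orthogonalProjectionOnto_mem_subspace_eq_self
    (K := LinearMap.ker T.toLinearMap) ⟨v, h4⟩
  have h6 : (⟨v, h4⟩ : LinearMap.ker T.toLinearMap) = 0 := by rw [← h5]; exact h3
  exact congrArg Subtype.val h6

theorem exists_equiv (B : Euc m →L[ℝ] Euc m) (hB : Function.Injective B) :
    B ∈ Set.range ((↑) : (Euc m ≃L[ℝ] Euc m) → Euc m →L[ℝ] Euc m) := by
  have h1 : LinearMap.ker B.toLinearMap = ⊥ := LinearMap.ker_eq_bot.2 hB
  have h2 : LinearMap.range B.toLinearMap = ⊤ := LinearMap.ker_eq_bot_iff_range_eq_top.1 h1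
  exact ⟨ContinuousLinearEquiv.ofBijective B h1 h2, by ext1 v; rfl⟩

/-- horizontal slice of a local parametrisation. -/
theorem slice_param {S : Set (Euc k)} {W' : Set (Euc (k + 1))} (hW' : IsOpen W') {t0 : ℝ}
    {y : Euc k} (hyS : y ∈ S) (hyW : J k (t0, y) ∈ W') {f : Euc (m + 1) → Euc (k + 1)}
    {V : Set (Euc (m + 1))}
    (hf : IsLocalParam (m + 1) (k + 1) ({w | pr k w ∈ S} ∩ W') (J k (t0, y)) f V) :
    ∃ (g : Euc m → Euc k) (V' : Set (Euc m)),
      IsLocalParam m k (S ∩ {x | J k (t0, x) ∈ W'}) y g V' := by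
  -- transversality
  have hT : ∃ v, (ht k ∘L fderiv ℝ f 0) v ≠ 0 := by
    refine vert_ne_zero hf ?_
    have hcont : Tendsto (fun s : ℝ => J k (t0, y) + s • e k) (𝓝[>] 0) (𝓝 (J k (t0, y))) := by
      have h1 : Continuous fun s : ℝ => J k (t0, y) + s • e k := by fun_prop
      have h2 := h1.tendsto 0
      simp only [zero_smul, add_zero] at h2
      exact h2.mono_left nhdsWithin_le_nhds
    filter_upwards [hcont (hW'.mem_nhds hyW)] with s hs
    refine ⟨?_, hs⟩
    simpa using hyS
  obtain ⟨Q, hQ⟩ := exists_Q _ hT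
  set Φ : Euc (m + 1) → Euc (m + 1) := fun z => J m (ht k (f z) - t0, Q z) with hΦdef
  have hΦs : ContDiffOn ℝ (⊤ : ℕ∞) Φ V := by
    have h1 : ContDiffOn ℝ (⊤ : ℕ∞) (fun z => (ht k (f z) - t0) • e m + emb m (Q z)) V :=
      ((((ht k).contDiff.comp_contDiffOn hf.contDiffOn).sub contDiffOn_const).smul
        contDiffOn_const).add ((emb m).contDiff.comp_contDiffOn Q.contDiff.contDiffOn)
    exact h1
  have hfd : ∀ z ∈ V, HasFDerivAt f (fderiv ℝ f z) z := fun z hz =>
    ((hf.contDiffOn.contDiffAt (hf.isOpen.mem_nhds hz)).differentiableAt (by simp)).hasFDerivAt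
  have hΦd : ∀ z ∈ V, HasFDerivAt Φ (fderiv ℝ Φ z) z := fun z hz =>
    ((hΦs.contDiffAt (hf.isOpen.mem_nhds hz)).differentiableAt (by simp)).hasFDerivAt
  have hΦ0 : ∀ v, fderiv ℝ Φ 0 v = J m (ht k (fderiv ℝ f 0 v), Q v) := by
    intro v
    have h1 : HasFDerivAt Φ ((ht k ∘L fderiv ℝ f 0).smulRight (e m) + emb m ∘L Q) 0 := by
      have h2 : HasFDerivAt (fun z => ht k (f z) - t0) (ht k ∘L fderiv ℝ f 0) 0 :=
        ((ht k).hasFDerivAt.comp 0 (hfd 0 hf.zero_mem)).sub_const t0
      exact (h2.smul_const (e m)).add ((emb m).hasFDerivAt.comp 0 Q.hasFDerivAt)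
    rw [h1.fderiv]
    simp [J]
  have hB0 : fderiv ℝ Φ 0 ∈ Set.range
      ((↑) : (Euc (m + 1) ≃L[ℝ] Euc (m + 1)) → Euc (m + 1) →L[ℝ] Euc (m + 1)) := by
    refine exists_equiv _ ?_
    rw [injective_iff_map_eq_zero]
    intro v hv
    rw [hΦ0] at hv
    refine hQ v ?_ ?_
    · simpa using congrArg (ht m) hv
    · simpa using congrArg (pr m) hv
  set N0 : Set (Euc (m + 1)) := V ∩ fderiv ℝ Φ ⁻¹' Set.range
      ((↑) : (Euc (m + 1) ≃L[ℝ] Euc (m + 1)) → Euc (m + 1) →L[ℝ] Euc (m + 1)) with hN0
  have hN0o : IsOpen N0 :=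
    (hΦs.continuousOn_fderiv_of_isOpen hf.isOpen (by simp)).isOpen_inter_preimage hf.isOpen
      ContinuousLinearEquiv.isOpen
  obtain ⟨B, hB⟩ := hB0
  have hΦ0at : ContDiffAt ℝ (⊤ : ℕ∞) Φ 0 := hΦs.contDiffAt (hf.isOpen.mem_nhds hf.zero_mem)
  have hBd : HasFDerivAt Φ (B : Euc (m + 1) →L[ℝ] Euc (m + 1)) 0 := by
    have : (B : Euc (m + 1) →L[ℝ] Euc (m + 1)) = fderiv ℝ Φ 0 := hB
    rw [this]
    exact hΦd 0 hf.zero_mem
  set P := (hΦ0at.toOpenPartialHomeomorph Φ hBd (by simp)).restrOpen N0 hN0o with hP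
  have hPc : ∀ z, P z = Φ z := fun z => rfl
  have hPs : ∀ z, z ∈ P.source → z ∈ N0 := fun z hz => hz.2
  have h0s : (0 : Euc (m + 1)) ∈ P.source :=
    ⟨hΦ0at.mem_toOpenPartialHomeomorph_source hBd (by simp), hf.zero_mem, B, hB⟩
  have hΦ00 : Φ 0 = 0 := by
    simp only [hΦdef]
    rw [hf.map_zero, ht_J, sub_self, map_zero]
    simp [J]
  -- the slice
  set ι : Euc m → Euc (m + 1) := fun a => J m (0, a) with hι
  have hιc : Continuous ι := continuous_J.comp (by fun_prop)
  have hιd : ContDiff ℝ (⊤ : ℕ∞) ι := by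
    have h1 : ContDiff ℝ (⊤ : ℕ∞) fun a : Euc m => (0 : ℝ) • e m + emb m a :=
      contDiff_const.add (emb m).contDiff
    exact h1
  set g : Euc m → Euc (m + 1) := fun a => P.symm (ι a) with hg
  set V' : Set (Euc m) := ι ⁻¹' P.target with hV'
  have hV'o : IsOpen V' := P.open_target.preimage hιc
  have hι0 : ι 0 = 0 := by simp [hι, J]
  have hgs : ∀ a ∈ V', g a ∈ P.source := fun a ha => P.map_target ha
  have hgV : ∀ a ∈ V', g a ∈ V := fun a ha => (hPs _ (hgs a ha)).1
  have hPg : ∀ a ∈ V', Φ (g a) = J m (0, a) := fun a ha => P.right_inv ha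
  have hgt : ∀ a ∈ V', ht k (f (g a)) = t0 := fun a ha => by
    have := congrArg (ht m) (hPg a ha)
    simp only [hΦdef, ht_J] at this
    linarith
  have hgQ : ∀ a ∈ V', Q (g a) = a := fun a ha => by
    have := congrArg (pr m) (hPg a ha)
    simpa only [hΦdef, pr_J] using this
  have h0V' : (0 : Euc m) ∈ V' := by
    change ι 0 ∈ P.target
    rw [hι0, ← hΦ00]
    exact P.map_source h0s
  have hg0 : g 0 = 0 := by
    have h1 := P.left_inv h0s
    rw [hPc, hΦ00] at h1
    change P.symm (ι 0) = 0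
    rw [hι0]
    exact h1
  have hgJ : ∀ a ∈ V', J k (t0, pr k (f (g a))) = f (g a) := fun a ha => by
    rw [← hgt a ha]
    exact J_split _
  have hgd : ∀ a ∈ V', ContDiffAt ℝ (⊤ : ℕ∞) g a := by
    intro a ha
    have hz := hPs _ (hgs a ha)
    obtain ⟨B', hB'⟩ := hz.2
    have h1 : ContDiffAt ℝ (⊤ : ℕ∞) P.symm (ι a) := by
      refine P.contDiffAt_symm (f₀' := B') ha ?_ ?_
      · have : (B' : Euc (m + 1) →L[ℝ] Euc (m + 1)) = fderiv ℝ Φ (g a) := hB'
        rw [this]
        exact hΦd _ hz.1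
      · exact hΦs.contDiffAt (hf.isOpen.mem_nhds hz.1)
    exact h1.comp a hιd.contDiffAt
  refine ⟨fun a => pr k (f (g a)), V', hV'o, h0V', ?_, ?_, ?_, ?_, ?_⟩
  · rw [hg0, hf.map_zero, pr_J]
  · intro a ha
    refine ContDiffAt.contDiffWithinAt ?_
    exact (pr k).contDiff.contDiffAt.comp a
      ((hf.contDiffOn.contDiffAt (hf.isOpen.mem_nhds (hgV a ha))).comp a (hgd a ha))
  · intro a ha b hb hab
    have hab : pr k (f (g a)) = pr k (f (g b)) := hab
    have h1 : f (g a) = f (g b) := by
      rw [← hgJ a ha, ← hgJ b hb, hab]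
    have h2 := hf.injOn (hgV a ha) (hgV b hb) h1
    rw [← hgQ a ha, ← hgQ b hb, h2]
  · intro a ha
    have hgda : HasFDerivAt g (fderiv ℝ g a) a :=
      ((hgd a ha).differentiableAt (by simp)).hasFDerivAt
    have hfg : HasFDerivAt (fun b => f (g b)) (fderiv ℝ f (g a) ∘L fderiv ℝ g a) a :=
      (hfd _ (hgV a ha)).comp a hgda
    have h1 : HasFDerivAt (fun b => pr k (f (g b)))
        (pr k ∘L (fderiv ℝ f (g a) ∘L fderiv ℝ g a)) a := (pr k).hasFDerivAt.comp a hfg
    have h2 : HasFDerivAt (fun b => ht k (f (g b)))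
        (ht k ∘L (fderiv ℝ f (g a) ∘L fderiv ℝ g a)) a := (ht k).hasFDerivAt.comp a hfg
    have h3 : HasFDerivAt (fun b => ht k (f (g b))) (0 : Euc m →L[ℝ] ℝ) a := by
      refine (hasFDerivAt_const t0 a).congr_of_eventuallyEq ?_
      filter_upwards [hV'o.mem_nhds ha] with b hb using hgt b hb
    have h4 : HasFDerivAt (fun b => Q (g b)) (Q ∘L fderiv ℝ g a) a := Q.hasFDerivAt.comp a hgda
    have h5 : HasFDerivAt (fun b => Q (g b)) (ContinuousLinearMap.id ℝ (Euc m)) a := by
      refine (hasFDerivAt_id a).congr_of_eventuallyEq ?_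
      filter_upwards [hV'o.mem_nhds ha] with b hb using hgQ b hb
    rw [h1.fderiv, injective_iff_map_eq_zero]
    intro v hv
    have h6 : fderiv ℝ f (g a) (fderiv ℝ g a v) = 0 := by
      rw [← J_split (fderiv ℝ f (g a) (fderiv ℝ g a v))]
      have h7 : ht k (fderiv ℝ f (g a) (fderiv ℝ g a v)) = 0 :=
        congrArg (fun A : Euc m →L[ℝ] ℝ => A v) (h2.unique h3)
      have h8 : pr k (fderiv ℝ f (g a) (fderiv ℝ g a v)) = 0 := hv
      rw [h7, h8]
      simp [J]
    have h7 : fderiv ℝ g a v = 0 :=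
      hf.injective_fderiv _ (hgV a ha) (by rw [h6, map_zero])
    have h8 : Q (fderiv ℝ g a v) = v := congrArg (fun A : Euc m →L[ℝ] Euc m => A v) (h4.unique h5)
    rw [← h8, h7, map_zero]
  · intro W1 hW1 hW1o
    obtain ⟨U2, hU2o, hU2⟩ := hf.image_open (P.source ∩ Q ⁻¹' W1)
      (fun z hz => (hPs _ hz.1).1) (P.open_source.inter (hW1o.preimage Q.continuous))
    refine ⟨{x | J k (t0, x) ∈ U2}, hU2o.preimage (continuous_J.comp (by fun_prop)), ?_⟩
    ext x
    constructor
    · rintro ⟨a, ha, rfl⟩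
      have haV := hW1 ha
      have h1 : f (g a) ∈ f '' (P.source ∩ Q ⁻¹' W1) :=
        ⟨g a, ⟨hgs a haV, by change Q (g a) ∈ W1; rwa [hgQ a haV]⟩, rfl⟩
      rw [hU2] at h1
      refine ⟨⟨h1.1.1, ?_⟩, ?_⟩
      · change J k (t0, pr k (f (g a))) ∈ W'
        rw [hgJ a haV]
        exact h1.1.2
      · change J k (t0, pr k (f (g a))) ∈ U2
        rw [hgJ a haV]
        exact h1.2
    · rintro ⟨⟨hxS, hxW⟩, hxU⟩
      have h1 : J k (t0, x) ∈ f '' (P.source ∩ Q ⁻¹' W1) := by
        rw [hU2]
        refine ⟨⟨?_, hxW⟩, hxU⟩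
        change pr k (J k (t0, x)) ∈ S
        rwa [pr_J]
      obtain ⟨z, ⟨hzs, hzW⟩, hz⟩ := h1
      refine ⟨Q z, hzW, ?_⟩
      have h2 : ι (Q z) = P z := by
        rw [hPc]
        simp only [hι, hΦdef]
        rw [hz, ht_J, sub_self]
      have h3 : g (Q z) = z := by
        change P.symm (ι (Q z)) = z
        rw [h2]
        exact P.left_inv hzs
      simp only
      rw [h3, hz, pr_J]

/-- if `S × ℝ` is a submanifold near a point, so is `S`. -/
theorem slice_submanifold {S : Set (Euc k)} {W' : Set (Euc (k + 1))} (hW' : IsOpen W') (t0 : ℝ)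
    (h : IsSubmanifold (m + 1) (k + 1) ({w | pr k w ∈ S} ∩ W')) :
    IsSubmanifold m k (S ∩ {x | J k (t0, x) ∈ W'}) := by
  rintro y ⟨hyS, hyW⟩
  obtain ⟨f, V, hf⟩ := h (J k (t0, y)) ⟨by simpa using hyS, hyW⟩
  exact slice_param hW' hyS hyW hf

end Crest.Agent.R234.Pr_937
end
end

-- ▼ part R234/Pr7_937
section

/-!
Row 234, VF-PROD (helper937), file 7: Hausdorff dimension of a product with a line.
-/

set_option autoImplicit false

open MeasureTheory Crest.GeometryTopology.Submanifold Metric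
open scoped ENNReal InnerProductSpace NNReal

noncomputable section

namespace Crest.Agent.R234.Pr_937

variable {k : ℕ}

theorem edist_J (x : ℝ) (y y' : Euc k) : edist (J k (x, y)) (J k (x, y')) = edist y y' := by
  rw [edist_dist, edist_dist, dist_eq_norm, dist_eq_norm, J_sub]
  congr 1
  have h := norm_sq_J ((x, y) - (x, y') : ℝ × Euc k)
  simp only [Prod.fst_sub, Prod.snd_sub, sub_self] at h
  have h2 : ‖J k ((x, y) - (x, y'))‖ ^ 2 = ‖y - y'‖ ^ 2 := by
    rw [h]
    simp
  exact (pow_left_inj₀ (norm_nonneg _) (norm_nonneg _) two_ne_zero).1 h2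

theorem edist_ht_le (w w' : Euc (k + 1)) : edist (ht k w) (ht k w') ≤ edist w w' := by
  rw [edist_dist, edist_dist, dist_eq_norm, dist_eq_norm, ← map_sub]
  exact ENNReal.ofReal_le_ofReal (abs_ht_le _)

/-- Fubini for null sets of Hausdorff measures. -/
theorem hausdorff_slice {A : Set (Euc k)} {s : ℝ} (hs : 0 ≤ s)
    (h : μH[s + 1] {w : Euc (k + 1) | pr k w ∈ A ∧ ht k w ∈ Set.Icc (0:ℝ) 1} = 0) :
    μH[s] A = 0 := by
  rw [Measure.hausdorffMeasure_apply] at h ⊢
  refine le_antisymm (iSup₂_le fun r hr => ?_) bot_le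
  refine ENNReal.le_of_forall_pos_le_add fun ε hε _ => ?_
  rw [zero_add]
  have hr' : (0 : ℝ≥0∞) < min r 1 := lt_min hr one_pos
  have h1 := le_iSup₂ (f := fun (r : ℝ≥0∞) (_ : 0 < r) =>
    ⨅ (t : ℕ → Set (Euc (k + 1))) (_ : {w : Euc (k + 1) | pr k w ∈ A ∧ ht k w ∈ Set.Icc (0:ℝ) 1}
      ⊆ ⋃ n, t n) (_ : ∀ n, ediam (t n) ≤ r),
      ∑' n, ⨆ _ : (t n).Nonempty, ediam (t n) ^ (s + 1)) (min r 1) hr'
  rw [h] at h1
  have hε2 : (0 : ℝ≥0∞) < ε / 2 := ENNReal.half_pos (by exact_mod_cast hε.ne')
  have h2 := h1.trans_lt hε2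
  simp only [iInf_lt_iff] at h2
  obtain ⟨t, hcov, hdiam, hsum⟩ := h2
  classical
  set I : ℕ → Set ℝ := fun n => if h : (t n).Nonempty then
    Metric.closedEBall (ht k h.some) (ediam (t n)) else ∅ with hI
  have hIm : ∀ n, MeasurableSet (I n) := by
    intro n
    simp only [hI]
    split_ifs
    · exact Metric.isClosed_closedEBall.measurableSet
    · exact MeasurableSet.empty
  set G : ℝ → ℝ≥0∞ := fun x => ∑' n, (I n).indicator (fun _ => ediam (t n) ^ s) x with hG
  have hGm : Measurable G := Measurable.tsum fun n => measurable_const.indicator (hIm n)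
  have hGi : ∫⁻ x in Set.Icc (0 : ℝ) 1, G x ≤ ε := by
    calc ∫⁻ x in Set.Icc (0 : ℝ) 1, G x ≤ ∫⁻ x, G x := setLIntegral_le_lintegral _ _
      _ = ∑' n, ∫⁻ x, (I n).indicator (fun _ => ediam (t n) ^ s) x :=
          lintegral_tsum fun n => (measurable_const.indicator (hIm n)).aemeasurable
      _ ≤ ∑' n, 2 * ⨆ _ : (t n).Nonempty, ediam (t n) ^ (s + 1) := by
          refine ENNReal.tsum_le_tsum fun n => ?_
          rw [lintegral_indicator_const (hIm n)]
          by_cases hn : (t n).Nonempty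
          · have h3 : I n = Metric.closedEBall (ht k hn.some) (ediam (t n)) := by
              simp only [hI]
              rw [dif_pos hn]
            rw [h3, iSup_pos hn, ENNReal.rpow_add_of_nonneg _ _ hs zero_le_one,
              ENNReal.rpow_one, Real.volume_closedEBall]
            refine le_of_eq ?_
            ring
          · have h3 : I n = ∅ := by
              simp only [hI]
              rw [dif_neg hn]
            rw [h3, measure_empty, mul_zero]
            exact bot_le
      _ = 2 * ∑' n, ⨆ _ : (t n).Nonempty, ediam (t n) ^ (s + 1) := ENNReal.tsum_mul_left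
      _ ≤ 2 * (ε / 2) := by gcongr
      _ = ε := ENNReal.mul_div_cancel (by norm_num) (by norm_num)
  have hprob : IsProbabilityMeasure ((volume : Measure ℝ).restrict (Set.Icc 0 1)) := ⟨by simp⟩
  obtain ⟨x, hx, hGx⟩ := exists_notMem_null_le_lintegral
    (μ := (volume : Measure ℝ).restrict (Set.Icc 0 1)) (f := G) (N := (Set.Icc 0 1)ᶜ)
    hGm.aemeasurable (by simp)
  have hx : x ∈ Set.Icc (0 : ℝ) 1 := by simpa using hx
  have hle : ∀ n, ediam {y : Euc k | J k (x, y) ∈ t n} ≤ ediam (t n) := fun n => by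
    refine ediam_le fun y hy y' hy' => ?_
    rw [← edist_J x y y']
    exact edist_le_ediam_of_mem hy hy'
  refine (iInf_le _ fun n => {y : Euc k | J k (x, y) ∈ t n}).trans ?_
  refine (iInf_le _ ?_).trans ((iInf_le _ ?_).trans ?_)
  · intro y hy
    have h3 : J k (x, y) ∈ ⋃ n, t n := hcov ⟨by rwa [pr_J], by rwa [ht_J]⟩
    obtain ⟨n, hn⟩ := Set.mem_iUnion.1 h3
    exact Set.mem_iUnion.2 ⟨n, hn⟩
  · intro n
    exact (hle n).trans ((hdiam n).trans (min_le_left _ _))
  · refine le_trans ?_ (hGx.trans hGi)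
    refine ENNReal.tsum_le_tsum fun n => ?_
    refine iSup_le fun hne => ?_
    obtain ⟨y, hy⟩ := hne
    have hy : J k (x, y) ∈ t n := hy
    have hn : (t n).Nonempty := ⟨_, hy⟩
    have hxI : x ∈ I n := by
      simp only [hI]
      rw [dif_pos hn]
      change edist x (ht k hn.some) ≤ ediam (t n)
      have h3 := edist_ht_le (J k (x, y)) hn.some
      rw [ht_J] at h3
      exact h3.trans (edist_le_ediam_of_mem hy hn.some_mem)
    rw [Set.indicator_of_mem hxI]
    exact ENNReal.rpow_le_rpow (hle n) hs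

/-- dimension of a product with a line. -/
theorem dimH_of_prod {A : Set (Euc k)} {m : ℕ} (hm : 1 ≤ m)
    (h : dimH {w : Euc (k + 1) | pr k w ∈ A} ≤ m) : dimH A ≤ (m : ℝ≥0∞) - 1 := by
  have h0 : (m : ℝ≥0∞) - 1 = ((m - 1 : ℕ) : ℝ≥0∞) := by
    rw [ENNReal.natCast_sub, Nat.cast_one]
  rw [h0]
  refine ENNReal.le_of_forall_pos_le_add fun ε hε _ => ?_
  have h1 : dimH {w : Euc (k + 1) | pr k w ∈ A ∧ ht k w ∈ Set.Icc (0:ℝ) 1}
      < ((((m - 1 : ℕ) : ℝ≥0) + ε + 1 : ℝ≥0) : ℝ≥0∞) := by
    refine lt_of_le_of_lt ((dimH_mono fun w hw => hw.1).trans h) ?_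
    have h2 : (m : ℝ≥0) < ((m - 1 : ℕ) : ℝ≥0) + ε + 1 := by
      have h3 : (m : ℝ≥0) = ((m - 1 : ℕ) : ℝ≥0) + 1 := by
        have : m = m - 1 + 1 := by omega
        conv_lhs => rw [this]
        push_cast
        rfl
      rw [h3, add_right_comm]
      exact lt_add_of_pos_right _ hε
    exact_mod_cast h2
  have h2 := hausdorffMeasure_of_dimH_lt h1
  have h3 : μH[((((m - 1 : ℕ) : ℝ≥0) + ε : ℝ≥0) : ℝ)] A = 0 := by
    refine hausdorff_slice (NNReal.coe_nonneg _) ?_
    rw [← h2]
    norm_cast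
  have h4 := dimH_le_of_hausdorffMeasure_ne_top (d := ((m - 1 : ℕ) : ℝ≥0) + ε) (s := A)
    (by rw [h3]; exact ENNReal.zero_ne_top)
  exact_mod_cast h4

end Crest.Agent.R234.Pr_937
end
end

-- ▼ part R234/Pr8_937
section

/-!
Row 234, VF-PROD (helper937), file 8: the dimension bound in dimension `m + 1` gives the
dimension bound in dimension `m` (product with a line, literal frozen definitions).
-/

set_option autoImplicit false

open MeasureTheory Crest.GeometryTopology.Submanifold
open scoped ENNReal InnerProductSpace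

noncomputable section

namespace Crest.Agent.R234.Pr_937

variable {m k : ℕ}

/-- the statement of S0362 in dimension `m`, ambient dimension `k`. -/
def St (m k : ℕ) : Prop :=
  ∀ U : Set (Euc k), IsOpen U → ∀ D : VarifoldData m k, IsIntegralVarifoldIn U D →
    IsStationaryIn U D → dimH (singularSet m k U D) ≤ (m : ENNReal) - 1

/-- singular points of the product. -/
theorem singularSet_prodData {U : Set (Euc k)} {D : VarifoldData m k}
    (hD : IsIntegralVarifoldIn U D) {w : Euc (k + 1)} (hw : pr k w ∈ singularSet m k U D) :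
    w ∈ singularSet (m + 1) (k + 1) {w | pr k w ∈ U} (prodData D) := by
  obtain ⟨h1, h2, h3⟩ := hw
  refine ⟨h1, (support_prodData hD w).2 h2, ?_⟩
  rintro ⟨W', hW'o, hwW, hsub⟩
  refine h3 ⟨{x | J k (ht k w, x) ∈ W'}, hW'o.preimage (continuous_J.comp (by fun_prop)), ?_, ?_⟩
  · change J k (ht k w, pr k w) ∈ W'
    rwa [J_split]
  · have h4 : support (prodData D) = {w | pr k w ∈ support D} := by
      ext v
      exact support_prodData hD v
    rw [h4] at hsub
    exact slice_submanifold hW'o (ht k w) hsub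

theorem step (hm : 1 ≤ m) (h : St (m + 1) (k + 1)) : St m k := by
  intro U hU D hD hs
  refine dimH_of_prod hm ?_
  refine (dimH_mono fun w hw => singularSet_prodData hD hw).trans ?_
  refine (h {w | pr k w ∈ U} (hU.preimage (pr k).continuous) (prodData D)
    (isIntegral_prodData hD) (isStationary_prodData hD hs)).trans_eq ?_
  rw [Nat.cast_add, Nat.cast_one]
  exact ENNReal.add_sub_cancel_right ENNReal.one_ne_top



end Crest.Agent.R234.Pr_937
end
end

-- ▼ part R234/Co1_696
section

/-!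
Row 234, VF-CONE, part 1: slicing of Hausdorff measures over a cone.

If `A` lies in a sphere about `0` and the truncated cone `{s x : 1 ≤ s ≤ 2, x ∈ A}` is null for the
`(m+1)`-dimensional Hausdorff measure, then `A` is null for the `m`-dimensional one.
-/

set_option autoImplicit false

open MeasureTheory Set Metric
open scoped ENNReal NNReal Pointwise

namespace Crest.Agent.R234.Co1_696

variable {E : Type*} [NormedAddCommGroup E] [NormedSpace ℝ E] [MeasurableSpace E] [BorelSpace E]

theorem slice_null {m : ℝ} (hm : 0 ≤ m) {R : ℝ} (hR : 0 < R) {A : Set E} (hA : A ⊆ sphere 0 R)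
    {C : Set E} (hC : ∀ s ∈ Icc (1 : ℝ) 2, ∀ x ∈ A, s • x ∈ C) (h0 : μH[m + 1] C = 0) :
    μH[m] A = 0 := by
  rw [Measure.hausdorffMeasure_apply] at h0 ⊢
  refine le_antisymm ?_ zero_le
  refine iSup₂_le fun r hr => ?_
  -- it is enough to bound by any positive number
  refine ENNReal.le_of_forall_pos_le_add fun ε hε _ => ?_
  rw [zero_add]
  have hRR : ENNReal.ofReal R ≠ 0 := by simpa using hR
  have hRt : ENNReal.ofReal R ≠ ⊤ := ENNReal.ofReal_ne_top
  have hε' : (0 : ℝ≥0∞) < (ε : ℝ≥0∞) * ENNReal.ofReal R :=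
    ENNReal.mul_pos (by exact_mod_cast hε.ne') hRR
  have h1 : (⨅ (t : ℕ → Set E) (_ : C ⊆ ⋃ n, t n) (_ : ∀ n, ediam (t n) ≤ r),
      ∑' n, ⨆ _ : (t n).Nonempty, ediam (t n) ^ (m + 1)) < (ε : ℝ≥0∞) * ENNReal.ofReal R := by
    refine lt_of_le_of_lt ?_ hε'
    rw [← h0]
    exact le_iSup₂ (f := fun (r : ℝ≥0∞) (_ : 0 < r) =>
      ⨅ (t : ℕ → Set E) (_ : C ⊆ ⋃ n, t n) (_ : ∀ n, ediam (t n) ≤ r),
      ∑' n, ⨆ _ : (t n).Nonempty, ediam (t n) ^ (m + 1)) r hr
  simp only [iInf_lt_iff] at h1
  obtain ⟨t, hcov, hdiam, hsum⟩ := h1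
  -- radii of slices met by `t n`
  set J : ℕ → Set ℝ := fun n => (fun x : E => R⁻¹ * ‖x‖) '' t n with hJ
  have hJvol : ∀ n, volume (J n) ≤ ENNReal.ofReal R⁻¹ * ediam (t n) := by
    intro n
    refine (Real.volume_le_diam _).trans ?_
    have hlip : LipschitzWith (Real.toNNReal R⁻¹) (fun x : E => R⁻¹ * ‖x‖) := by
      refine LipschitzWith.of_dist_le_mul fun x y => ?_
      rw [Real.coe_toNNReal _ (inv_nonneg.2 hR.le), Real.dist_eq, ← mul_sub, abs_mul,
        abs_of_nonneg (inv_nonneg.2 hR.le), dist_eq_norm]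
      exact mul_le_mul_of_nonneg_left (abs_norm_sub_norm_le x y) (inv_nonneg.2 hR.le)
    exact hlip.ediam_image_le (t n)
  set c : ℕ → ℝ≥0∞ := fun n => ⨆ _ : (t n).Nonempty, ediam (t n) ^ m with hc
  set g : ℕ → ℝ → ℝ≥0∞ := fun n => (toMeasurable volume (J n)).indicator (fun _ => c n) with hg
  have hgm : ∀ n, Measurable (g n) := fun n =>
    measurable_const.indicator (measurableSet_toMeasurable _ _)
  have hgi : ∀ n, ∫⁻ s in Icc (1 : ℝ) 2, g n s ≤
      ENNReal.ofReal R⁻¹ * ⨆ _ : (t n).Nonempty, ediam (t n) ^ (m + 1) := by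
    intro n
    calc ∫⁻ s in Icc (1 : ℝ) 2, g n s ≤ ∫⁻ s, g n s := setLIntegral_le_lintegral _ _
      _ = c n * volume (J n) := by
          rw [hg]; simp only
          rw [lintegral_indicator_const (measurableSet_toMeasurable _ _), measure_toMeasurable]
      _ ≤ _ := by
          rcases (t n).eq_empty_or_nonempty with he | hne
          · have : J n = ∅ := by rw [hJ]; simp [he]
            rw [this]; simp
          · have hcn : c n = ediam (t n) ^ m := by rw [hc]; simp [hne]
            have : (⨆ _ : (t n).Nonempty, ediam (t n) ^ (m + 1)) = ediam (t n) ^ (m + 1) := by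
              simp [hne]
            rw [this, hcn, ENNReal.rpow_add_of_nonneg m 1 hm zero_le_one, ENNReal.rpow_one]
            calc ediam (t n) ^ m * volume (J n)
                ≤ ediam (t n) ^ m * (ENNReal.ofReal R⁻¹ * ediam (t n)) := by
                  gcongr; exact hJvol n
              _ = _ := by ring
  have hprob : IsProbabilityMeasure (volume.restrict (Icc (1 : ℝ) 2)) := by
    constructor
    rw [Measure.restrict_apply_univ, Real.volume_Icc]; norm_num
  have hN : volume.restrict (Icc (1 : ℝ) 2) (Icc (1 : ℝ) 2)ᶜ = 0 := by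
    rw [Measure.restrict_apply measurableSet_Icc.compl]; simp
  obtain ⟨s, hs, hsle⟩ := exists_notMem_null_le_lintegral
    (μ := volume.restrict (Icc (1 : ℝ) 2)) (f := fun s => ∑' n, g n s)
    (Measurable.tsum hgm).aemeasurable hN
  rw [Set.notMem_compl_iff] at hs
  have hs0 : 0 < s := lt_of_lt_of_le one_pos hs.1
  have htot : ∑' n, g n s ≤ ε := by
    refine hsle.trans ?_
    rw [lintegral_tsum (fun n => (hgm n).aemeasurable)]
    calc ∑' n, ∫⁻ s in Icc (1 : ℝ) 2, g n s
        ≤ ∑' n, ENNReal.ofReal R⁻¹ * ⨆ _ : (t n).Nonempty, ediam (t n) ^ (m + 1) :=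
          ENNReal.tsum_le_tsum hgi
      _ = ENNReal.ofReal R⁻¹ * ∑' n, ⨆ _ : (t n).Nonempty, ediam (t n) ^ (m + 1) :=
          ENNReal.tsum_mul_left
      _ ≤ ENNReal.ofReal R⁻¹ * ((ε : ℝ≥0∞) * ENNReal.ofReal R) := by gcongr
      _ = ε := by
          rw [ENNReal.ofReal_inv_of_pos hR, mul_comm (ε : ℝ≥0∞), ← mul_assoc,
            ENNReal.inv_mul_cancel hRR hRt, one_mul]
  -- the covering of `A`
  classical
  set t' : ℕ → Set E := fun n => if s ∈ J n then s⁻¹ • t n else ∅ with ht'
  have hd' : ∀ n, ediam (t' n) ≤ ediam (t n) := by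
    intro n
    rw [ht']; simp only
    split_ifs with h
    · have hlip : LipschitzWith 1 (fun x : E => s⁻¹ • x) := by
        refine LipschitzWith.of_dist_le_mul fun x y => ?_
        rw [dist_eq_norm, ← smul_sub, norm_smul, Real.norm_of_nonneg (inv_nonneg.2 hs0.le),
          dist_eq_norm, NNReal.coe_one]
        exact mul_le_mul_of_nonneg_right (inv_le_one_of_one_le₀ hs.1) (norm_nonneg _)
      have := hlip.ediam_image_le (t n)
      rw [ENNReal.coe_one, one_mul] at this
      exact this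
    · simp
  have hcov' : A ⊆ ⋃ n, t' n := by
    intro x hx
    obtain ⟨n, hn⟩ := mem_iUnion.1 (hcov (hC s hs x hx))
    refine mem_iUnion.2 ⟨n, ?_⟩
    have hsJ : s ∈ J n := by
      refine ⟨s • x, hn, ?_⟩
      have hxR : ‖x‖ = R := by simpa using hA hx
      simp only [norm_smul, Real.norm_of_nonneg hs0.le, hxR]
      field_simp
    rw [ht']; simp only
    rw [if_pos hsJ]
    exact ⟨s • x, hn, by simp only; rw [smul_smul, inv_mul_cancel₀ hs0.ne', one_smul]⟩
  refine (iInf₂_le_of_le t' hcov' (iInf_le_of_le (fun n => (hd' n).trans (hdiam n)) le_rfl)).trans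
    (le_trans (ENNReal.tsum_le_tsum fun n => ?_) htot)
  refine iSup_le fun hne => ?_
  have hsJ : s ∈ J n := by
    by_contra hcon
    rw [ht'] at hne; simp only at hne
    rw [if_neg hcon] at hne
    exact Set.not_nonempty_empty hne
  have hne' : (t n).Nonempty := by
    obtain ⟨y, hy, -⟩ := hsJ
    exact ⟨y, hy⟩
  have hgs : g n s = ediam (t n) ^ m := by
    rw [hg]; simp only
    rw [indicator_of_mem (subset_toMeasurable _ _ hsJ), hc]
    simp [hne']
  rw [hgs]
  exact ENNReal.rpow_le_rpow (hd' n) hm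

end Crest.Agent.R234.Co1_696
end

-- ▼ part R234/Co2_696
section

/-!
Row 234, VF-CONE, part 2: the slice of a smooth cone by a sphere is a smooth submanifold.
-/

set_option autoImplicit false

open Set Metric Filter Topology
open scoped ENNReal NNReal RealInnerProductSpace

open Crest.GeometryTopology.Submanifold

namespace Crest.Agent.R234.Co2_696

/-- Radial direction is tangent: if `φ` parametrises a set containing `t • p` for `t` near `1`,
then some tangent vector is not orthogonal to `p = φ 0`. -/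
theorem exists_tangent {a K : ℕ} {φ : Euc a → Euc K} {V : Set (Euc a)} {S : Set (Euc K)}
    {p : Euc K} (hp : p ≠ 0) (hφ : IsLocalParam a K S p φ V)
    (hS : ∀ᶠ t : ℝ in 𝓝 1, t • p ∈ S) : ∃ v, ⟪p, fderiv ℝ φ 0 v⟫ ≠ 0 := by
  by_contra hcon
  push Not at hcon
  set L := fderiv ℝ φ 0 with hL
  have hd : HasFDerivAt φ L 0 := by
    have h1 : ContDiffAt ℝ (⊤ : ℕ∞) φ 0 := hφ.contDiffOn.contDiffAt (hφ.isOpen.mem_nhds hφ.zero_mem)
    exact (h1.differentiableAt (by simp)).hasFDerivAt
  obtain ⟨C, hC0, hC⟩ := L.toLinearMap.injective_iff_antilipschitz.1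
    (hφ.injective_fderiv 0 hφ.zero_mem)
  have hC0' : (0 : ℝ) < C := by exact_mod_cast hC0
  have hbound : ∀ v, ‖v‖ ≤ C * ‖L v‖ := fun v => by
    have := hC.le_mul_dist v 0
    simpa using this
  -- small error near `0`
  set ε : ℝ := (4 * C)⁻¹ with hε
  have hε0 : 0 < ε := by positivity
  have hev : ∀ᶠ h in 𝓝 (0 : Euc a), ‖φ h - φ 0 - L (h - 0)‖ ≤ ε * ‖h - 0‖ :=
    hd.isLittleO.def hε0
  obtain ⟨N, hN, hNo, h0N⟩ := _root_.eventually_nhds_iff.1 (hev.and (hφ.isOpen.mem_nhds hφ.zero_mem))
  obtain ⟨U, hU, hUeq⟩ := hφ.image_open N (fun h hh => (hN h hh).2) hNo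
  have hpU : p ∈ U := by
    have : φ 0 ∈ φ '' N := ⟨0, h0N, rfl⟩
    rw [hUeq, hφ.map_zero] at this
    exact this.2
  have hcont : Tendsto (fun t : ℝ => t • p) (𝓝 1) (𝓝 p) := by
    have : Continuous fun t : ℝ => t • p := by fun_prop
    simpa using this.tendsto 1
  have hev2 : ∀ᶠ t : ℝ in 𝓝 1, t • p ∈ S ∧ t • p ∈ U := hS.and (hcont (hU.mem_nhds hpU))
  obtain ⟨δ, hδ, hball⟩ := Metric.eventually_nhds_iff.1 hev2
  set t : ℝ := 1 + δ / 2 with ht
  have htb := @hball t (by rw [Real.dist_eq, ht, add_sub_cancel_left, abs_of_pos (by positivity)]; linarith)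
  have hmem : t • p ∈ φ '' N := by rw [hUeq]; exact htb
  obtain ⟨h, hhN, hh⟩ := hmem
  have herr := (hN h hhN).1
  rw [sub_zero, hh, hφ.map_zero] at herr
  set e : Euc K := t • p - p - L h with he
  have htp : t • p - p = (t - 1) • p := by rw [sub_smul, one_smul]
  have ht1 : 0 < t - 1 := by rw [ht]; linarith
  have hpn : 0 < ‖p‖ := norm_pos_iff.2 hp
  have hinner : (t - 1) * ‖p‖ ^ 2 = ⟪p, e⟫ := by
    rw [he, htp, inner_sub_right, hcon h, sub_zero, inner_smul_right, real_inner_self_eq_norm_sq]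
  have h1 : (t - 1) * ‖p‖ ^ 2 ≤ ‖p‖ * (ε * ‖h‖) := by
    rw [hinner]
    exact (real_inner_le_norm _ _).trans (mul_le_mul_of_nonneg_left herr (norm_nonneg _))
  have h2 : ‖L h‖ ≤ (t - 1) * ‖p‖ + ε * ‖h‖ := by
    have : L h = (t - 1) • p - e := by rw [he, htp]; abel
    rw [this]
    refine (norm_sub_le _ _).trans ?_
    rw [norm_smul, Real.norm_of_nonneg ht1.le]
    exact add_le_add le_rfl herr
  have h3 : ‖h‖ ≤ C * ((t - 1) * ‖p‖) + 1 / 4 * ‖h‖ := by
    refine (hbound h).trans ?_
    calc (C : ℝ) * ‖L h‖ ≤ C * ((t - 1) * ‖p‖ + ε * ‖h‖) := by gcongr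
      _ = _ := by rw [hε]; field_simp
  have h4 : ε * ‖h‖ ≤ 1 / 3 * ((t - 1) * ‖p‖) := by
    have : ‖h‖ ≤ 4 / 3 * (C * ((t - 1) * ‖p‖)) := by linarith
    calc ε * ‖h‖ ≤ ε * (4 / 3 * (C * ((t - 1) * ‖p‖))) := by gcongr
      _ = _ := by rw [hε]; field_simp
  have h5 : (t - 1) * ‖p‖ ^ 2 ≤ 1 / 3 * ((t - 1) * ‖p‖ ^ 2) := by
    refine h1.trans ?_
    calc ‖p‖ * (ε * ‖h‖) ≤ ‖p‖ * (1 / 3 * ((t - 1) * ‖p‖)) := by gcongr
      _ = _ := by ring
  have h6 : 0 < (t - 1) * ‖p‖ ^ 2 := by positivity
  linarith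

/-- a linear map injective on the kernel of a nonzero functional. -/
theorem exists_proj {m : ℕ} (l : Euc (m + 1) →L[ℝ] ℝ) (hl : ∃ v, l v ≠ 0) :
    ∃ π : Euc (m + 1) →L[ℝ] Euc m, ∀ v, l v = 0 → π v = 0 → v = 0 := by
  have hsurj : Function.Surjective l := by
    obtain ⟨v, hv⟩ := hl
    intro c
    refine ⟨(c / l v) • v, ?_⟩
    rw [map_smul, smul_eq_mul, div_mul_cancel₀ _ hv]
  have hfr : Module.finrank ℝ (LinearMap.ker l.toLinearMap) = Module.finrank ℝ (Euc m) := by
    have h1 := LinearMap.finrank_range_add_finrank_ker l.toLinearMap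
    have h2 : LinearMap.range l.toLinearMap = ⊤ := LinearMap.range_eq_top.2 hsurj
    rw [h2, finrank_top] at h1
    simp only [Module.finrank_self, finrank_euclideanSpace, Fintype.card_fin] at h1 ⊢
    omega
  set e : LinearMap.ker l.toLinearMap ≃ₗ[ℝ] Euc m := LinearEquiv.ofFinrankEq _ _ hfr
  refine ⟨(LinearMap.toContinuousLinearMap e.toLinearMap).comp
    (LinearMap.ker l.toLinearMap).orthogonalProjectionOnto, fun v hv h => ?_⟩
  have hmem : v ∈ LinearMap.ker l.toLinearMap := hv
  have h1 : (LinearMap.ker l.toLinearMap).orthogonalProjectionOnto v = ⟨v, hmem⟩ :=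
    Submodule.orthogonalProjectionOnto_mem_subspace_eq_self (⟨v, hmem⟩ : LinearMap.ker l.toLinearMap)
  have h2 : e ((LinearMap.ker l.toLinearMap).orthogonalProjectionOnto v) = 0 := h
  rw [h1] at h2
  have h3 := (LinearEquiv.map_eq_zero_iff e).1 h2
  exact congrArg Subtype.val h3


theorem exists_equiv {m : ℕ} (A : Euc (m + 1) →L[ℝ] ℝ × Euc m) (hA : Function.Injective A) :
    ∃ e : Euc (m + 1) ≃L[ℝ] ℝ × Euc m, (e : Euc (m + 1) →L[ℝ] ℝ × Euc m) = A := by
  have hfr : Module.finrank ℝ (Euc (m + 1)) = Module.finrank ℝ (ℝ × Euc m) := by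
    simp [Module.finrank_prod, add_comm]
  refine ⟨(LinearMap.linearEquivOfInjective A.toLinearMap hA hfr).toContinuousLinearEquiv, ?_⟩
  ext v <;> rfl

theorem slice_param {m K : ℕ} {R s : ℝ} (hR : 0 < R) (hs : 0 < s) {S S' : Set (Euc K)}
    (hS : S ⊆ sphere 0 R)
    (hcone : ∀ x ∈ sphere (0 : Euc K) R, ∀ t : ℝ, 0 < t → (t • x ∈ S' ↔ x ∈ S))
    {W' : Set (Euc K)} (hW' : IsOpen W') {y : Euc K} (hy : y ∈ S) (hyW : s • y ∈ W')
    {φ : Euc (m + 1) → Euc K} {V : Set (Euc (m + 1))}
    (hφ : IsLocalParam (m + 1) K (S' ∩ W') (s • y) φ V) :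
    ∃ (ψ : Euc m → Euc K) (V₂ : Set (Euc m)), IsLocalParam m K (S ∩ {x | s • x ∈ W'}) y ψ V₂ := by
  have hyR : ‖y‖ = R := by simpa using hS hy
  set p := s • y with hp
  have hpn : ‖p‖ = s * R := by rw [hp, norm_smul, Real.norm_of_nonneg hs.le, hyR]
  have hp0 : p ≠ 0 := norm_pos_iff.1 (by rw [hpn]; positivity)
  have hev : ∀ᶠ t : ℝ in 𝓝 1, t • p ∈ S' ∩ W' := by
    have hcont : Tendsto (fun t : ℝ => t • p) (𝓝 1) (𝓝 p) := by
      have : Continuous fun t : ℝ => t • p := by fun_prop
      simpa using this.tendsto 1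
    filter_upwards [hcont (hW'.mem_nhds hyW), lt_mem_nhds (zero_lt_one' ℝ)] with t h1 h2
    refine ⟨?_, h1⟩
    rw [hp, smul_smul]
    exact (hcone y (hS hy) _ (mul_pos h2 hs)).2 hy
  obtain ⟨v₀, hv₀⟩ := exists_tangent hp0 hφ hev
  have hcda : ∀ h ∈ V, ContDiffAt ℝ (⊤ : ℕ∞) φ h := fun h hh =>
    hφ.contDiffOn.contDiffAt (hφ.isOpen.mem_nhds hh)
  have hda : ∀ h ∈ V, HasFDerivAt φ (fderiv ℝ φ h) h := fun h hh =>
    ((hcda h hh).differentiableAt (by simp)).hasFDerivAt
  obtain ⟨π, hπ⟩ := exists_proj ((innerSL ℝ p).comp (fderiv ℝ φ 0)) ⟨v₀, by simpa using hv₀⟩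
  set Ψ : Euc (m + 1) → ℝ × Euc m := fun h => (‖φ h‖ ^ 2 - ‖p‖ ^ 2, π h) with hΨ
  have hΨc : ContDiffOn ℝ (⊤ : ℕ∞) Ψ V :=
    ((hφ.contDiffOn.norm_sq ℝ).sub contDiffOn_const).prodMk π.contDiff.contDiffOn
  have hΨca : ∀ h ∈ V, ContDiffAt ℝ (⊤ : ℕ∞) Ψ h := fun h hh =>
    hΨc.contDiffAt (hφ.isOpen.mem_nhds hh)
  have hΨd : ∀ h ∈ V, HasFDerivAt Ψ (fderiv ℝ Ψ h) h := fun h hh =>
    ((hΨca h hh).differentiableAt (by simp)).hasFDerivAt
  -- the derivative at `0`
  have hd0 : HasFDerivAt Ψ ((2 • (innerSL ℝ (φ 0)).comp (fderiv ℝ φ 0)).prod π) 0 := by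
    have h1 : HasFDerivAt (fun h => ‖φ h‖ ^ 2 - ‖p‖ ^ 2)
        (2 • (innerSL ℝ (φ 0)).comp (fderiv ℝ φ 0)) 0 :=
      ((hda 0 hφ.zero_mem).norm_sq).sub_const _
    exact h1.prodMk π.hasFDerivAt
  have hinj0 : Function.Injective (fderiv ℝ Ψ 0) := by
    rw [hd0.fderiv, injective_iff_map_eq_zero]
    intro v hv
    rw [ContinuousLinearMap.prod_apply, Prod.mk_eq_zero] at hv
    refine hπ v ?_ hv.2
    have h1 := hv.1
    rw [hφ.map_zero] at h1
    simpa using h1
  obtain ⟨e₀, he₀⟩ := exists_equiv _ hinj0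
  set G := (hΨca 0 hφ.zero_mem).toOpenPartialHomeomorph Ψ (f' := e₀)
    (by rw [he₀]; exact hΨd 0 hφ.zero_mem) (by simp) with hG
  have hGc : (G : Euc (m + 1) → ℝ × Euc m) = Ψ := rfl
  have h0G : (0 : Euc (m + 1)) ∈ G.source :=
    ContDiffAt.mem_toOpenPartialHomeomorph_source _ _ _
  -- the good open set
  set V' : Set (Euc (m + 1)) := V ∩ (fderiv ℝ Ψ) ⁻¹'
    (range ((↑) : (Euc (m + 1) ≃L[ℝ] ℝ × Euc m) → (Euc (m + 1) →L[ℝ] ℝ × Euc m))) with hV'
  have hV'o : IsOpen V' := by
    refine ContinuousOn.isOpen_inter_preimage ?_ hφ.isOpen ContinuousLinearEquiv.isOpen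
    exact hΨc.continuousOn_fderiv_of_isOpen hφ.isOpen (by simp)
  have h0V' : (0 : Euc (m + 1)) ∈ V' := ⟨hφ.zero_mem, ⟨e₀, he₀⟩⟩
  have hΨ0 : Ψ 0 = (0, 0) := by rw [hΨ]; simp [hφ.map_zero]
  set T : Set (ℝ × Euc m) := G.target ∩ G.symm ⁻¹' V' with hT
  have hTo : IsOpen T := G.isOpen_inter_preimage_symm hV'o
  set V₂ : Set (Euc m) := (fun b => ((0 : ℝ), b)) ⁻¹' T with hV₂
  set γ : Euc m → Euc (m + 1) := fun b => G.symm (0, b) with hγ
  have hγmem : ∀ b ∈ V₂, γ b ∈ V' ∧ γ b ∈ G.source ∧ Ψ (γ b) = (0, b) := by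
    intro b hb
    refine ⟨hb.2, G.map_target hb.1, ?_⟩
    have := G.right_inv hb.1
    rwa [hGc] at this
  have h0T : ((0 : ℝ), (0 : Euc m)) ∈ T := by
    have h1 : G 0 ∈ G.target := G.map_source h0G
    rw [hGc, hΨ0] at h1
    refine ⟨h1, ?_⟩
    have h2 := G.left_inv h0G
    rw [hGc, hΨ0] at h2
    show G.symm (0, 0) ∈ V'
    rw [h2]
    exact h0V'
  have hγ0 : γ 0 = 0 := by
    have h2 := G.left_inv h0G
    rw [hGc, hΨ0] at h2
    exact h2
  have hsymm : ∀ b ∈ V₂, ∃ e : Euc (m + 1) ≃L[ℝ] ℝ × Euc m,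
      HasFDerivAt G.symm (e.symm : ℝ × Euc m →L[ℝ] Euc (m + 1)) (0, b) ∧
      ContDiffAt ℝ (⊤ : ℕ∞) G.symm (0, b) := by
    intro b hb
    obtain ⟨e, he⟩ := hb.2.2
    have h1 : HasFDerivAt G (e : Euc (m + 1) →L[ℝ] ℝ × Euc m) (G.symm (0, b)) := by
      rw [he]; exact hΨd _ hb.2.1
    exact ⟨e, G.hasFDerivAt_symm hb.1 h1, G.contDiffAt_symm hb.1 h1 (hΨca _ hb.2.1)⟩
  have hγd : ∀ b ∈ V₂, ContDiffAt ℝ (⊤ : ℕ∞) γ b := by
    intro b hb
    obtain ⟨e, -, h⟩ := hsymm b hb
    exact h.comp b (contDiffAt_const.prodMk contDiffAt_id)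
  have hγd' : ∀ b ∈ V₂, ∃ L : Euc m →L[ℝ] Euc (m + 1), Function.Injective L ∧
      HasFDerivAt γ L b := by
    intro b hb
    obtain ⟨e, h, -⟩ := hsymm b hb
    refine ⟨(e.symm : ℝ × Euc m →L[ℝ] Euc (m + 1)).comp (ContinuousLinearMap.inr ℝ ℝ (Euc m)),
      ?_, ?_⟩
    · exact e.symm.injective.comp (fun x y hxy => (Prod.ext_iff.1 hxy).2)
    · refine h.comp b ?_
      exact (hasFDerivAt_const _ _).prodMk (hasFDerivAt_id _)
  have hγinj : InjOn γ V₂ := by
    intro b hb c hc hbc
    have h1 := (hγmem b hb).2.2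
    have h2 := (hγmem c hc).2.2
    rw [hbc, h2] at h1
    exact (Prod.ext_iff.1 h1).2.symm
  refine ⟨fun b => s⁻¹ • φ (γ b), V₂, ⟨?_, h0T, ?_, ?_, ?_, ?_, ?_⟩⟩
  · exact hTo.preimage (by fun_prop)
  · show s⁻¹ • φ (γ 0) = y
    rw [hγ0, hφ.map_zero, hp, smul_smul, inv_mul_cancel₀ hs.ne', one_smul]
  · intro b hb
    exact (((hcda _ (hγmem b hb).1.1).comp b (hγd b hb)).const_smul s⁻¹).contDiffWithinAt
  · intro b hb c hc hbc
    have h1 : φ (γ b) = φ (γ c) := smul_right_injective _ (inv_ne_zero hs.ne') hbc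
    exact hγinj hb hc (hφ.injOn (hγmem b hb).1.1 (hγmem c hc).1.1 h1)
  · intro b hb
    obtain ⟨L, hL, hLd⟩ := hγd' b hb
    have h1 : HasFDerivAt (fun b => s⁻¹ • φ (γ b)) (s⁻¹ • (fderiv ℝ φ (γ b)).comp L) b :=
      ((hda _ (hγmem b hb).1.1).comp b hLd).const_smul s⁻¹
    rw [h1.fderiv]
    intro v w hvw
    have h2 : fderiv ℝ φ (γ b) (L v) = fderiv ℝ φ (γ b) (L w) :=
      smul_right_injective _ (inv_ne_zero hs.ne') hvw
    exact hL (hφ.injective_fderiv _ (hγmem b hb).1.1 h2)
  · intro W₁ hW₁ hW₁o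
    set O : Set (Euc (m + 1)) := (G.source ∩ V') ∩ π ⁻¹' W₁ with hO
    have hOo : IsOpen O := (G.open_source.inter hV'o).inter (hW₁o.preimage π.continuous)
    obtain ⟨U₁, hU₁, hU₁e⟩ := hφ.image_open O (fun h hh => hh.1.2.1) hOo
    refine ⟨(fun x => s • x) ⁻¹' U₁, hU₁.preimage (by fun_prop), ?_⟩
    ext z
    constructor
    · rintro ⟨b, hb, rfl⟩
      obtain ⟨h1, h2, h3⟩ := hγmem b (hW₁ hb)
      have h3a : ‖φ (γ b)‖ ^ 2 - ‖p‖ ^ 2 = 0 := congrArg Prod.fst h3
      have h3b : π (γ b) = b := congrArg Prod.snd h3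
      have hmem : γ b ∈ O := ⟨⟨h2, h1⟩, by rw [mem_preimage, h3b]; exact hb⟩
      have hφm : φ (γ b) ∈ (S' ∩ W') ∩ U₁ := by rw [← hU₁e]; exact ⟨_, hmem, rfl⟩
      have hss : s • s⁻¹ • φ (γ b) = φ (γ b) := by
        rw [smul_smul, mul_inv_cancel₀ hs.ne', one_smul]
      have hnorm : ‖φ (γ b)‖ = s * R := by
        rw [← hpn]
        exact (pow_left_inj₀ (norm_nonneg _) (norm_nonneg _) two_ne_zero).1 (by linarith)
      have hsph : s⁻¹ • φ (γ b) ∈ sphere (0 : Euc K) R := by
        rw [mem_sphere_zero_iff_norm, norm_smul, Real.norm_of_nonneg (inv_nonneg.2 hs.le), hnorm,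
          ← mul_assoc, inv_mul_cancel₀ hs.ne', one_mul]
      refine ⟨⟨?_, ?_⟩, ?_⟩
      · rw [← hcone _ hsph s hs, hss]; exact hφm.1.1
      · show s • s⁻¹ • φ (γ b) ∈ W'
        rw [hss]; exact hφm.1.2
      · show s • s⁻¹ • φ (γ b) ∈ U₁
        rw [hss]; exact hφm.2
    · rintro ⟨⟨hzS, hzW⟩, hzU⟩
      have hzR : ‖z‖ = R := by simpa using hS hzS
      have hmem : s • z ∈ (S' ∩ W') ∩ U₁ :=
        ⟨⟨(hcone z (hS hzS) s hs).2 hzS, hzW⟩, hzU⟩
      rw [← hU₁e] at hmem
      obtain ⟨h, hhO, hhz⟩ := hmem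
      refine ⟨π h, hhO.2, ?_⟩
      have h1 : Ψ h = (0, π h) := by
        rw [hΨ]
        simp only [hhz, Prod.mk.injEq, and_true]
        rw [norm_smul, Real.norm_of_nonneg hs.le, hzR, hpn, sub_self]
      have h2 : γ (π h) = h := by
        have := G.left_inv hhO.1.1
        rw [hGc, h1] at this
        exact this
      show s⁻¹ • φ (γ (π h)) = z
      rw [h2, hhz, smul_smul, inv_mul_cancel₀ hs.ne', one_smul]

/-- A smooth cone has smooth spherical slices. -/
theorem slice_submanifold {m K : ℕ} {R s : ℝ} (hR : 0 < R) (hs : 0 < s) {S S' : Set (Euc K)}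
    (hS : S ⊆ sphere 0 R)
    (hcone : ∀ x ∈ sphere (0 : Euc K) R, ∀ t : ℝ, 0 < t → (t • x ∈ S' ↔ x ∈ S))
    {W' : Set (Euc K)} (hW' : IsOpen W') (hsub : IsSubmanifold (m + 1) K (S' ∩ W')) :
    IsSubmanifold m K (S ∩ {x | s • x ∈ W'}) := by
  intro y hy
  obtain ⟨φ, V, hφ⟩ := hsub (s • y) ⟨(hcone y (hS hy.1) s hs).2 hy.1, hy.2⟩
  exact slice_param hR hs hS hcone hW' hy.1 hy.2 hφ

end Crest.Agent.R234.Co2_696
end

-- ▼ part R234/Co3_696
section

/-!
Row 234, VF-CONE, part 3: calculus of the cone chart `(t, a) ↦ t f(a)`.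
-/

set_option autoImplicit false

open Set MeasureTheory
open scoped ENNReal NNReal RealInnerProductSpace

open Crest.GeometryTopology.Submanifold
open Crest.Agent.R234.Vf_884

noncomputable section

namespace Crest.Agent.R234.Co3_696

variable {m k : ℕ}

/-- the last `m` coordinates. -/
def tl (m : ℕ) : Euc (m + 1) →L[ℝ] Euc m :=
  LinearMap.toContinuousLinearMap
    { toFun := fun p => WithLp.toLp 2 (fun i : Fin m => p i.succ)
      map_add' := fun p q => by ext i; rfl
      map_smul' := fun c p => by ext i; rfl }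

@[simp] theorem tl_apply (p : Euc (m + 1)) (i : Fin m) : tl m p i = p i.succ := rfl

/-- the first coordinate. -/
def hd (m : ℕ) : Euc (m + 1) →L[ℝ] ℝ := EuclideanSpace.proj 0

@[simp] theorem hd_apply (p : Euc (m + 1)) : hd m p = p 0 := rfl

theorem eq_zero_of {p : Euc (m + 1)} (h0 : hd m p = 0) (h : tl m p = 0) : p = 0 := by
  ext i
  refine Fin.cases ?_ (fun j => ?_) i
  · exact h0
  · have := congrArg (fun q : Euc m => q j) h
    exact this

theorem eq_of {p q : Euc (m + 1)} (h0 : hd m p = hd m q) (h : tl m p = tl m q) : p = q := by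
  rw [← sub_eq_zero]
  exact eq_zero_of (by rw [map_sub, h0, sub_self]) (by rw [map_sub, h, sub_self])

/-- the cone chart. -/
def cmap (f : Euc m → Euc k) (p : Euc (m + 1)) : Euc k := hd m p • f (tl m p)

variable {f : Euc m → Euc k}

theorem contDiff_cmap (hf : ContDiff ℝ 1 f) : ContDiff ℝ 1 (cmap f) :=
  (hd m).contDiff.smul (hf.comp (tl m).contDiff)

theorem hasFDerivAt_cmap (hf : ContDiff ℝ 1 f) (p : Euc (m + 1)) :
    HasFDerivAt (cmap f)
      (hd m p • (fderiv ℝ f (tl m p)).comp (tl m) + (hd m).smulRight (f (tl m p))) p := by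
  have h1 : HasFDerivAt (fun p => f (tl m p)) ((fderiv ℝ f (tl m p)).comp (tl m)) p :=
    HasFDerivAt.comp p (hf.differentiable one_ne_zero _).hasFDerivAt (tl m).hasFDerivAt
  exact (hd m).hasFDerivAt.smul h1

theorem fderiv_cmap_apply (hf : ContDiff ℝ 1 f) (p v : Euc (m + 1)) :
    fderiv ℝ (cmap f) p v = hd m p • fderiv ℝ f (tl m p) (tl m v) + hd m v • f (tl m p) := by
  rw [(hasFDerivAt_cmap hf p).fderiv]
  rfl

theorem hd_stdVec_zero : hd m (stdVec (m + 1) 0) = 1 := by simp [stdVec]

theorem tl_stdVec_zero : tl m (stdVec (m + 1) 0) = 0 := by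
  ext j; simp [stdVec]

theorem hd_stdVec_succ (j : Fin m) : hd m (stdVec (m + 1) j.succ) = 0 := by
  simp [stdVec]

theorem tl_stdVec_succ (j : Fin m) : tl m (stdVec (m + 1) j.succ) = stdVec m j := by
  ext i; simp [stdVec, Pi.single_apply]

theorem pd_cmap_zero (hf : ContDiff ℝ 1 f) (p : Euc (m + 1)) : pd (cmap f) p 0 = f (tl m p) := by
  rw [pd, fderiv_cmap_apply hf, hd_stdVec_zero, tl_stdVec_zero, map_zero, smul_zero, zero_add,
    one_smul]

theorem pd_cmap_succ (hf : ContDiff ℝ 1 f) (p : Euc (m + 1)) (j : Fin m) :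
    pd (cmap f) p j.succ = hd m p • pd f (tl m p) j := by
  rw [pd, fderiv_cmap_apply hf, hd_stdVec_succ, tl_stdVec_succ, zero_smul, add_zero]
  rfl

/-- the chart value is orthogonal to the tangent space. -/
def Orth (f : Euc m → Euc k) (a : Euc m) : Prop := ∀ j, ⟪f a, pd f a j⟫ = 0

theorem Orth.fderiv {a : Euc m} (h : Orth f a) (v : Euc m) : ⟪f a, fderiv ℝ f a v⟫ = 0 := by
  rw [← sum_smul_pd, inner_sum]
  refine Finset.sum_eq_zero fun j _ => ?_
  rw [inner_smul_right, h j, mul_zero]

theorem isClosed_orth (hf : ContDiff ℝ 1 f) : IsClosed {a | Orth f a} := by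
  have : {a | Orth f a} = ⋂ j, {a | ⟪f a, pd f a j⟫ = 0} := by ext a; simp [Orth]
  rw [this]
  exact isClosed_iInter fun j => isClosed_eq (hf.continuous.inner (continuous_pd hf j))
    continuous_const

theorem det_metricMat_cmap (hf : ContDiff ℝ 1 f) {p : Euc (m + 1)} (ho : Orth f (tl m p)) :
    (metricMat (cmap f) p).det
      = ‖f (tl m p)‖ ^ 2 * ((hd m p ^ 2) ^ m * (metricMat f (tl m p)).det) := by
  rw [Matrix.det_succ_row_zero, Fin.sum_univ_succ, Finset.sum_eq_zero (s := Finset.univ)]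
  · have h1 : metricMat (cmap f) p 0 0 = ‖f (tl m p)‖ ^ 2 := by
      rw [metricMat, Matrix.of_apply, pd_cmap_zero hf, real_inner_self_eq_norm_sq]
    have h2 : (metricMat (cmap f) p).submatrix Fin.succ (Fin.succAbove 0)
        = (hd m p ^ 2) • metricMat f (tl m p) := by
      ext i j
      rw [Matrix.submatrix_apply, Matrix.smul_apply, metricMat, Matrix.of_apply, metricMat,
        Matrix.of_apply, Fin.succAbove_zero, pd_cmap_succ hf, pd_cmap_succ hf, inner_smul_left,
        inner_smul_right, smul_eq_mul]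
      simp; ring
    rw [h1, h2, Matrix.det_smul]
    simp
  · intro j _
    have : metricMat (cmap f) p 0 j.succ = 0 := by
      rw [metricMat, Matrix.of_apply, pd_cmap_zero hf, pd_cmap_succ hf, inner_smul_right, ho j,
        mul_zero]
    rw [this]; ring

theorem jac_cmap (hf : ContDiff ℝ 1 f) {p : Euc (m + 1)} (ho : Orth f (tl m p))
    (h0 : 0 ≤ hd m p) : jac (cmap f) p = ‖f (tl m p)‖ * hd m p ^ m * jac f (tl m p) := by
  rw [jac, det_metricMat_cmap hf ho, jac, Real.sqrt_mul (sq_nonneg _),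
    Real.sqrt_sq (norm_nonneg _), Real.sqrt_mul (by positivity), ← pow_mul, mul_comm 2 m, pow_mul,
    Real.sqrt_sq (pow_nonneg h0 _), mul_assoc]

theorem projF_cmap (hf : ContDiff ℝ 1 f) {p : Euc (m + 1)} (ho : Orth f (tl m p))
    (h0 : 0 < hd m p) (hf0 : f (tl m p) ≠ 0) :
    projF (cmap f) p = projF f (tl m p)
      + (‖f (tl m p)‖ ^ 2)⁻¹ • (innerSL ℝ (f (tl m p))).smulRight (f (tl m p)) := by
  set x := f (tl m p) with hx
  have hxn : ‖x‖ ^ 2 ≠ 0 := pow_ne_zero _ (norm_ne_zero_iff.2 hf0)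
  have hle : tangentAt f (tl m p) ≤ tangentAt (cmap f) p := by
    refine Submodule.span_le.2 ?_
    rintro _ ⟨j, rfl⟩
    have h1 : pd f (tl m p) j = (hd m p)⁻¹ • pd (cmap f) p j.succ := by
      rw [pd_cmap_succ hf, smul_smul, inv_mul_cancel₀ h0.ne', one_smul]
    rw [h1]
    exact Submodule.smul_mem _ _ (Submodule.subset_span ⟨_, rfl⟩)
  have hxm : x ∈ tangentAt (cmap f) p := Submodule.subset_span ⟨0, pd_cmap_zero hf p⟩
  have hort : ∀ w ∈ tangentAt f (tl m p), ⟪x, w⟫ = 0 := by
    intro w hw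
    rw [tangentAt_eq_range] at hw
    obtain ⟨v, rfl⟩ := hw
    exact ho.fderiv v
  ext1 v
  unfold projF
  refine Submodule.eq_starProjection_of_mem_of_inner_eq_zero (K := tangentAt (cmap f) p) ?_ ?_
  · refine Submodule.add_mem _ (hle (Submodule.starProjection_apply_mem _ v)) ?_
    exact Submodule.smul_mem _ _ (Submodule.smul_mem _ _ hxm)
  · -- orthogonality to the spanning vectors
    have hspan : ∀ j, ⟪v - ((tangentAt f (tl m p)).starProjection +
        (‖x‖ ^ 2)⁻¹ • (innerSL ℝ x).smulRight x) v, pd (cmap f) p j⟫ = 0 := by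
      have hv : ((tangentAt f (tl m p)).starProjection +
        (‖x‖ ^ 2)⁻¹ • (innerSL ℝ x).smulRight x) v = (tangentAt f (tl m p)).starProjection v
          + ((‖x‖ ^ 2)⁻¹ * ⟪x, v⟫) • x := by
        simp [smul_smul]
      intro j
      rw [hv]
      refine Fin.cases ?_ (fun j => ?_) j
      · rw [pd_cmap_zero hf, ← hx, inner_sub_left, inner_add_left, inner_smul_left,
          real_inner_self_eq_norm_sq, real_inner_comm x ((tangentAt f (tl m p)).starProjection v),
          hort _ (Submodule.starProjection_apply_mem _ v), real_inner_comm v x]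
        simp only [conj_trivial]
        field_simp
        ring
      · rw [pd_cmap_succ hf, inner_smul_right, ← sub_sub, inner_sub_left, inner_smul_left]
        have h1 : ⟪v - (tangentAt f (tl m p)).starProjection v, pd f (tl m p) j⟫ = 0 :=
          Submodule.starProjection_inner_eq_zero v _ (Submodule.subset_span ⟨j, rfl⟩)
        rw [h1, hx, ho j]
        simp
    intro w hw
    induction hw using Submodule.span_induction with
    | mem w hw => obtain ⟨j, rfl⟩ := hw; exact hspan j
    | zero => exact inner_zero_right _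
    | add a b _ _ ha hb => rw [inner_add_right, ha, hb, add_zero]
    | smul c a _ ha => rw [inner_smul_right, ha, mul_zero]

/-- `|f| = R` on a measurable set forces orthogonality almost everywhere on it. -/
theorem ae_orth (hf : ContDiff ℝ 1 f) {s : Set (Euc m)} (hs : MeasurableSet s) {R : ℝ}
    (hR : ∀ a ∈ s, ‖f a‖ = R) : ∀ᵐ a ∂(volume.restrict s), Orth f a := by
  rcases Nat.eq_zero_or_pos m with rfl | hm
  · exact Filter.Eventually.of_forall fun a j => j.elim0
  set w : Euc m := stdVec m ⟨0, hm⟩ with hw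
  have hw0 : w ≠ 0 := by
    intro h
    have := congrArg (fun q : Euc m => q ⟨0, hm⟩) h
    simp [hw, stdVec] at this
  set F : Euc m → Euc m := fun a => ‖f a‖ ^ 2 • w with hF
  set F' : Euc m → (Euc m →L[ℝ] Euc m) := fun a =>
    (2 • (innerSL ℝ (f a)).comp (fderiv ℝ f a)).smulRight w with hF'
  have hd : ∀ a, HasFDerivAt F (F' a) a := fun a =>
    ((hf.differentiable one_ne_zero a).hasFDerivAt.norm_sq).smul_const w
  have happ : ApproximatesLinearOn F (0 : Euc m →L[ℝ] Euc m) s 0 := by
    intro x hx y hy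
    simp only [hF, hR x hx, hR y hy]
    simp
  have h1 := happ.norm_fderiv_sub_le volume hs F' fun x _ => (hd x).hasFDerivWithinAt
  filter_upwards [h1] with a ha j
  have h2 : F' a = 0 := by
    have : ‖F' a - 0‖₊ = 0 := le_antisymm ha zero_le
    simpa using this
  have h3 := congrArg (fun A : Euc m →L[ℝ] Euc m => A (stdVec m j)) h2
  simp only [hF', ContinuousLinearMap.smulRight_apply, ContinuousLinearMap.zero_apply,
    smul_eq_zero, hw0, or_false] at h3
  have h4 : (2 • (innerSL ℝ (f a)).comp (fderiv ℝ f a)) (stdVec m j)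
      = 2 * ⟪f a, pd f a j⟫ := by
    simp [pd, two_smul, two_mul]
  rw [h4] at h3
  linarith

end Crest.Agent.R234.Co3_696
end
end

-- ▼ part R234/Co4_696
section

/-!
Row 234, VF-CONE, part 4: cone data over spherical data, its measures.
-/

set_option autoImplicit false

open Set MeasureTheory
open scoped ENNReal NNReal RealInnerProductSpace

open Crest.GeometryTopology.Submanifold
open Crest.Agent.R234.Vf_884 Crest.Agent.R234.Co3_696

noncomputable section

namespace Crest.Agent.R234.Co4_696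

variable {m k : ℕ}

/-! ### general measure theory -/

section Gen

variable {α β γ : Type*} [MeasurableSpace α] [MeasurableSpace β] [MeasurableSpace γ]

theorem map_withDensity_comp (μ : Measure α) {s : α → β} (hs : Measurable s) {g : β → ℝ≥0∞}
    (hg : Measurable g) : (μ.withDensity (fun a => g (s a))).map s = (μ.map s).withDensity g := by
  refine Measure.ext_of_lintegral _ fun φ hφ => ?_
  have h1 : ∫⁻ a, φ (s a) ∂(μ.withDensity fun a => g (s a))
      = ∫⁻ a, ((fun a => g (s a)) * (fun a => φ (s a))) a ∂μ :=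
    lintegral_withDensity_eq_lintegral_mul _ (hg.comp hs) (hφ.comp hs)
  rw [lintegral_map hφ hs, h1,
    lintegral_withDensity_eq_lintegral_mul _ hg hφ, lintegral_map (hg.mul hφ) hs]
  rfl

theorem map_prod_map_ae (μ : Measure α) (ν : Measure β) [SFinite μ] [SFinite ν] {g : β → γ}
    (hg : AEMeasurable g ν) : (μ.prod ν).map (Prod.map id g) = μ.prod (ν.map g) := by
  have h1 : Prod.map id g =ᵐ[μ.prod ν] Prod.map (id : α → α) (hg.mk g) := by
    have := Measure.quasiMeasurePreserving_snd (μ := μ) (ν := ν) |>.ae hg.ae_eq_mk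
    filter_upwards [this] with z hz
    exact Prod.ext rfl hz
  rw [Measure.map_congr h1, Measure.map_congr hg.ae_eq_mk,
    ← Measure.map_prod_map _ _ measurable_id hg.measurable_mk, Measure.map_id]

end Gen

/-! ### splitting coordinates -/

/-- splitting off the first coordinate. -/
def spl (m : ℕ) : Euc (m + 1) ≃ᵐ ℝ × Euc m :=
  (MeasurableEquiv.toLp 2 (Fin (m + 1) → ℝ)).symm.trans
    ((MeasurableEquiv.piFinSuccAbove (fun _ => ℝ) 0).trans
      ((MeasurableEquiv.refl ℝ).prodCongr (MeasurableEquiv.toLp 2 (Fin m → ℝ))))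

theorem spl_apply (p : Euc (m + 1)) : spl m p = (hd m p, tl m p) := by
  refine Prod.ext rfl ?_
  ext i
  rfl

theorem mp_spl : MeasurePreserving (spl m) volume (volume.prod volume) := by
  have h1 := EuclideanSpace.volume_preserving_symm_measurableEquiv_toLp (Fin (m + 1))
  have h2 := volume_preserving_piFinSuccAbove (fun _ : Fin (m + 1) => ℝ) 0
  have h3 : MeasurePreserving
      ((MeasurableEquiv.refl ℝ).prodCongr (MeasurableEquiv.toLp 2 (Fin m → ℝ)))
      (volume.prod volume) (volume.prod volume) :=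
    (MeasurePreserving.id (volume : Measure ℝ)).prod (PiLp.volume_preserving_toLp (Fin m))
  exact (h3.comp h2).comp h1

/-! ### cone data -/

/-- the cone over the data. -/
def cone (D : VarifoldData m k) : VarifoldData (m + 1) k where
  chart i := cmap (D.chart i)
  dom i := {p | 0 < hd m p ∧ tl m p ∈ D.dom i}
  mult i p := D.mult i (tl m p)

/-- integral data in a sphere, with the orthogonality holding everywhere. -/
structure Sph (R : ℝ) (D : VarifoldData m k) : Prop where
  pos : 0 < R
  int : IsIntegralVarifoldIn univ D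
  norm : ∀ i, ∀ a ∈ D.dom i, ‖D.chart i a‖ = R
  orth : ∀ i, ∀ a ∈ D.dom i, Orth (D.chart i) a

/-- the radial measure. -/
def tau (m : ℕ) (R : ℝ) : Measure ℝ :=
  (volume.restrict (Ioi 0)).withDensity fun t => ENNReal.ofReal (R * t ^ m)

theorem measurable_rad (m : ℕ) (R : ℝ) : Measurable fun t : ℝ => ENNReal.ofReal (R * t ^ m) := by
  fun_prop

variable {R : ℝ} {D : VarifoldData m k}

instance : SFinite (tau m R) := by unfold tau; infer_instance

theorem dom_cone (i : ℕ) : (cone D).dom i = spl m ⁻¹' (Ioi 0 ×ˢ D.dom i) := by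
  ext p
  rw [mem_preimage, spl_apply]
  rfl

theorem measurableSet_dom_cone (h : IsIntegralVarifoldIn univ D) (i : ℕ) :
    MeasurableSet ((cone D).dom i) := by
  rw [dom_cone]
  exact (spl m).measurable (measurableSet_Ioi.prod (h.measurableSet i))


theorem dens_cone (h : Sph R D) {i : ℕ} {p : Euc (m + 1)} (hp : p ∈ (cone D).dom i) :
    dens (cone D) i p = ENNReal.ofReal (R * (hd m p) ^ m) * dens D i (tl m p) := by
  obtain ⟨h0, h1⟩ := hp
  unfold dens
  have h2 : jac ((cone D).chart i) p = _ := jac_cmap (h.int.contDiff i) (h.orth i _ h1) h0.le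
  rw [h2, h.norm i _ h1, ← ENNReal.ofReal_mul (mul_nonneg h.pos.le (pow_nonneg h0.le _))]
  congr 1
  show (D.mult i (tl m p) : ℝ) * _ = _
  ring

theorem map_base_cone (h : Sph R D) (i : ℕ) :
    (base (cone D) i).map (spl m) = (tau m R).prod (base D i) := by
  set g : ℝ × Euc m → ℝ≥0∞ := fun z => ENNReal.ofReal (R * z.1 ^ m) * dens D i z.2 with hg
  have hgm : Measurable g :=
    ((measurable_rad m R).comp measurable_fst).mul ((measurable_dens h.int i).comp measurable_snd)
  have h1 : base (cone D) i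
      = (volume.restrict (spl m ⁻¹' (Ioi 0 ×ˢ D.dom i))).withDensity (fun p => g (spl m p)) := by
    unfold base
    rw [← dom_cone]
    refine withDensity_congr_ae ?_
    filter_upwards [ae_restrict_mem (measurableSet_dom_cone h.int i)] with p hp
    rw [dens_cone h hp, spl_apply]
  rw [h1, map_withDensity_comp _ (spl m).measurable hgm,
    ← Measure.restrict_map (spl m).measurable (measurableSet_Ioi.prod (h.int.measurableSet i)),
    mp_spl.map_eq, ← Measure.prod_restrict]
  unfold tau base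
  rw [prod_withDensity (measurable_rad m R) (measurable_dens h.int i)]

instance (i : ℕ) : SFinite (base D i) := by unfold base; infer_instance

/-- the weight of the cone. -/
theorem weight_cone (h : Sph R D) :
    weight (cone D) = ((tau m R).prod (weight D)).map (fun z => z.1 • z.2) := by
  have hsm : Measurable fun z : ℝ × Euc k => z.1 • z.2 := by fun_prop
  have e1 : weight (cone D) = Measure.sum fun i => (base (cone D) i).map (cmap (D.chart i)) := rfl
  have e2 : weight D = Measure.sum fun i => (base D i).map (D.chart i) := rfl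
  have e3 : ∀ i, SFinite ((base D i).map (D.chart i)) := fun i => inferInstance
  rw [e1, e2, Measure.prod_sum_right, Measure.map_sum hsm.aemeasurable]
  congr 1
  funext i
  have hfm : Measurable (D.chart i) := (h.int.contDiff i).continuous.measurable
  have h2 : cmap (D.chart i)
      = (fun z : ℝ × Euc k => z.1 • z.2) ∘ (Prod.map id (D.chart i)) ∘ (spl m) := by
    funext p
    simp only [Function.comp_apply, spl_apply, Prod.map, id]
    rfl
  rw [h2, ← Measure.map_map hsm (by fun_prop),
    ← Measure.map_map (by fun_prop) (spl m).measurable, map_base_cone h,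
    map_prod_map_ae _ _ hfm.aemeasurable]

/-- the lifted cone map. -/
def Th (R : ℝ) (z : ℝ × (Euc k × L k)) : Euc k × L k :=
  (z.1 • z.2.1, z.2.2 + (R ^ 2)⁻¹ • (innerSL ℝ z.2.1).smulRight z.2.1)

theorem continuous_rk : Continuous fun x : Euc k => (innerSL ℝ x).smulRight x := by
  have : (fun x : Euc k => (innerSL ℝ x).smulRight x)
      = fun x : Euc k => ContinuousLinearMap.smulRightL ℝ (Euc k) (Euc k) (innerSL ℝ x) x := by
    funext x; rfl
  rw [this]
  fun_prop

theorem continuous_Th (R : ℝ) : Continuous (Th R : ℝ × (Euc k × L k) → Euc k × L k) := by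
  unfold Th
  refine Continuous.prodMk (by fun_prop) ?_
  have := continuous_rk (k := k).comp (continuous_fst.comp
    (continuous_snd (X := ℝ) (Y := Euc k × L k)))
  exact (continuous_snd.comp continuous_snd).add (this.const_smul ((R ^ 2)⁻¹))

theorem lift_cone (h : Sph R D) {i : ℕ} {p : Euc (m + 1)} (hp : p ∈ (cone D).dom i) :
    lift (cone D) i p = Th R (hd m p, lift D i (tl m p)) := by
  obtain ⟨h0, h1⟩ := hp
  have hne : D.chart i (tl m p) ≠ 0 := by
    rw [← norm_ne_zero_iff, h.norm i _ h1]; exact h.pos.ne'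
  refine Prod.ext rfl ?_
  show projF (cmap (D.chart i)) p = _
  rw [projF_cmap (h.int.contDiff i) (h.orth i _ h1) h0 hne, h.norm i _ h1]
  rfl

theorem VD_cone (h : Sph R D) :
    VD (cone D) = ((tau m R).prod (VD D)).map (Th R) := by
  have hTh := (continuous_Th (k := k) R).measurable
  have e1 : VD (cone D) = Measure.sum fun i => (base (cone D) i).map (lift (cone D) i) := rfl
  have e2 : VD D = Measure.sum fun i => (base D i).map (lift D i) := rfl
  rw [e1, e2, Measure.prod_sum_right, Measure.map_sum hTh.aemeasurable]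
  congr 1
  funext i
  have hl := aemeasurable_lift h.int i
  have h2 : lift (cone D) i =ᵐ[base (cone D) i]
      (Th R) ∘ (Prod.map id (lift D i)) ∘ (spl m) := by
    have h3 : ∀ᵐ p ∂(base (cone D) i), p ∈ (cone D).dom i :=
      (base_ac (cone D) i).ae_le (ae_restrict_mem (measurableSet_dom_cone h.int i))
    filter_upwards [h3] with p hp
    rw [lift_cone h hp]
    simp only [Function.comp_apply, spl_apply, Prod.map, id]
  have hm1 : AEMeasurable (Prod.map id (lift D i)) ((tau m R).prod (base D i)) := by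
    refine (measurable_fst.aemeasurable).prodMk ?_
    exact hl.comp_quasiMeasurePreserving Measure.quasiMeasurePreserving_snd
  have hm2 : AEMeasurable (Prod.map id (lift D i)) ((base (cone D) i).map (spl m)) := by
    rw [map_base_cone h]; exact hm1
  rw [Measure.map_congr h2, ← AEMeasurable.map_map_of_aemeasurable hTh.aemeasurable
      (hm2.comp_aemeasurable (spl m).measurable.aemeasurable),
    ← AEMeasurable.map_map_of_aemeasurable hm2 (spl m).measurable.aemeasurable,
    map_base_cone h, map_prod_map_ae _ _ hl]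

end Crest.Agent.R234.Co4_696
end
end

-- ▼ part R234/Co5_696
section

/-!
Row 234, VF-CONE, part 5: the cone data are integral away from the origin; reduction to data with
the orthogonality everywhere.
-/

set_option autoImplicit false

open Set MeasureTheory Metric
open scoped ENNReal NNReal RealInnerProductSpace

open Crest.GeometryTopology.Submanifold
open Crest.Agent.R234.Vf_884 Crest.Agent.R234.Co3_696 Crest.Agent.R234.Co4_696

noncomputable section

namespace Crest.Agent.R234.Co5_696

variable {m k : ℕ} {R : ℝ} {D : VarifoldData m k}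

/-! ### concentration -/

theorem VD_sph (h : Sph R D) : ∀ᵐ z ∂(VD D), ‖z.1‖ = R ∧ z.2 z.1 = 0 ∧ z.2 ∈ G m k := by
  have h1 : ∀ᵐ z ∂(VD D), ‖z.1‖ = R ∧ z.2 z.1 = 0 := by
    have hcl : IsClosed {z : Euc k × L k | ‖z.1‖ = R ∧ z.2 z.1 = 0} :=
      (isClosed_eq (by fun_prop) continuous_const).inter (isClosed_eq (by fun_prop) continuous_const)
    refine Measure.ae_sum_iff.2 fun i => ?_
    refine (ae_map_iff (aemeasurable_lift h.int i) hcl.measurableSet).2 ?_
    filter_upwards [base_ae_dom h.int i] with a ha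
    refine ⟨h.norm i a ha, ?_⟩
    show (tangentAt (D.chart i) a).starProjection (D.chart i a) = 0
    refine Submodule.eq_starProjection_of_mem_of_inner_eq_zero (Submodule.zero_mem _) ?_
    intro w hw
    rw [tangentAt_eq_range] at hw
    obtain ⟨v, rfl⟩ := hw
    rw [sub_zero]
    exact (h.orth i a ha).fderiv v
  filter_upwards [h1, VD_conc h.int] with z hz hz'
  exact ⟨hz.1, hz.2, hz'⟩

theorem weight_sph (h : Sph R D) : ∀ᵐ x ∂(weight D), ‖x‖ = R := by
  rw [← VD_fst h.int, ae_map_iff measurable_fst.aemeasurable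
    (isClosed_eq continuous_norm continuous_const).measurableSet]
  filter_upwards [VD_sph h] with z hz
  exact hz.1

theorem weight_univ (h : Sph R D) : weight D univ < ⊤ := by
  have h1 : weight D univ ≤ weight D (sphere 0 R) := by
    refine measure_mono_ae ?_
    filter_upwards [weight_sph h] with x hx _
    exact mem_sphere_zero_iff_norm.2 hx
  exact h1.trans_lt (h.int.locallyFinite _ (isCompact_sphere 0 R) (subset_univ _))

theorem VD_univ (h : Sph R D) : VD D univ < ⊤ := by
  rw [← univ_prod_univ, VD_prod_univ h.int MeasurableSet.univ]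
  exact weight_univ h

theorem isFinite_VD (h : Sph R D) : IsFiniteMeasure (VD D) := ⟨VD_univ h⟩

theorem tau_pos : ∀ᵐ t ∂(tau m R), 0 < t :=
  (withDensity_absolutelyContinuous _ _).ae_le (ae_restrict_mem measurableSet_Ioi)

theorem tau_Iic (hR : 0 < R) (b : ℝ) : tau m R (Iic b) < ⊤ := by
  unfold tau
  rw [withDensity_apply _ measurableSet_Iic, Measure.restrict_restrict measurableSet_Iic]
  calc ∫⁻ t in Iic b ∩ Ioi 0, ENNReal.ofReal (R * t ^ m)
      ≤ ∫⁻ _ in Iic b ∩ Ioi 0, ENNReal.ofReal (R * |b| ^ m) := by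
        refine setLIntegral_mono' (measurableSet_Iic.inter measurableSet_Ioi) fun t ht => ?_
        refine ENNReal.ofReal_le_ofReal (mul_le_mul_of_nonneg_left ?_ hR.le)
        exact pow_le_pow_left₀ (le_of_lt ht.2) (ht.1.trans (le_abs_self b)) m
    _ = ENNReal.ofReal (R * |b| ^ m) * volume (Iic b ∩ Ioi 0) := setLIntegral_const _ _
    _ < ⊤ := by
        refine ENNReal.mul_lt_top ENNReal.ofReal_lt_top ?_
        refine lt_of_le_of_lt (measure_mono (t := Icc 0 b) fun t ht => ⟨le_of_lt ht.2, ht.1⟩) ?_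
        rw [Real.volume_Icc]; exact ENNReal.ofReal_lt_top

/-! ### the cone data are integral -/

theorem cone_norm (h : Sph R D) {i : ℕ} {p : Euc (m + 1)} (hp : p ∈ (cone D).dom i) :
    ‖(cone D).chart i p‖ = hd m p * R := by
  show ‖hd m p • D.chart i (tl m p)‖ = _
  rw [norm_smul, Real.norm_of_nonneg hp.1.le, h.norm i _ hp.2]

theorem cone_eq (h : Sph R D) {i j : ℕ} {p q : Euc (m + 1)} (hp : p ∈ (cone D).dom i)
    (hq : q ∈ (cone D).dom j) (he : (cone D).chart i p = (cone D).chart j q) :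
    hd m p = hd m q ∧ D.chart i (tl m p) = D.chart j (tl m q) := by
  have h1 : hd m p = hd m q := by
    have := congrArg norm he
    rw [cone_norm h hp, cone_norm h hq] at this
    exact mul_right_cancel₀ h.pos.ne' this
  refine ⟨h1, ?_⟩
  have h2 : hd m p • D.chart i (tl m p) = hd m q • D.chart j (tl m q) := he
  rw [← h1] at h2
  exact smul_right_injective _ hp.1.ne' h2

theorem int_cone (h : Sph R D) : IsIntegralVarifoldIn {(0 : Euc k)}ᶜ (cone D) where
  measurableSet := measurableSet_dom_cone h.int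
  contDiff i := contDiff_cmap (h.int.contDiff i)
  injOn i p hp q hq he := by
    obtain ⟨h1, h2⟩ := cone_eq h hp hq he
    exact eq_of h1 (h.int.injOn i hp.2 hq.2 h2)
  injective_fderiv i p hp := by
    show Function.Injective (fderiv ℝ (cmap (D.chart i)) p)
    rw [injective_iff_map_eq_zero]
    intro v hv
    rw [fderiv_cmap_apply (h.int.contDiff i)] at hv
    have h1 : hd m v = 0 := by
      have h2 := congrArg (fun w => ⟪D.chart i (tl m p), w⟫) hv
      simp only [inner_add_right, inner_smul_right, inner_zero_right] at h2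
      rw [(h.orth i _ hp.2).fderiv, real_inner_self_eq_norm_sq, h.norm i _ hp.2] at h2
      have h3 : hd m v * R ^ 2 = 0 := by linarith
      exact (mul_eq_zero.1 h3).resolve_right (pow_ne_zero _ h.pos.ne')
    rw [h1, zero_smul, add_zero] at hv
    have h4 : fderiv ℝ (D.chart i) (tl m p) (tl m v) = 0 :=
      (smul_eq_zero.1 hv).resolve_left hp.1.ne'
    have h5 : tl m v = 0 := by
      have := h.int.injective_fderiv i _ hp.2
      exact (injective_iff_map_eq_zero _).1 this _ h4
    exact eq_zero_of h1 h5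
  disjoint i j hij := by
    rw [Set.disjoint_left]
    rintro _ ⟨p, hp, rfl⟩ ⟨q, hq, he⟩
    obtain ⟨-, h2⟩ := cone_eq h hq hp he
    exact Set.disjoint_left.1 (h.int.disjoint i j hij) ⟨_, hp.2, rfl⟩ ⟨_, hq.2, h2⟩
  subset i := by
    rintro _ ⟨p, hp, rfl⟩
    rw [mem_compl_singleton_iff, ← norm_ne_zero_iff, cone_norm h hp]
    exact (mul_pos hp.1 h.pos).ne'
  measurable_mult i := (h.int.measurable_mult i).comp (tl m).continuous.measurable
  mult_pos i p hp := h.int.mult_pos i _ hp.2
  locallyFinite K hK _ := by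
    have hsm : Measurable fun z : ℝ × Euc k => z.1 • z.2 := by fun_prop
    rw [weight_cone h, Measure.map_apply hsm hK.measurableSet]
    obtain ⟨ρ, hρ⟩ := hK.isBounded.subset_closedBall 0
    have hfin : SFinite (weight D) := by
      have : IsFiniteMeasure (weight D) := ⟨weight_univ h⟩
      infer_instance
    have h1 : ∀ᵐ z ∂((tau m R).prod (weight D)), 0 < z.1 ∧ ‖z.2‖ = R := by
      have e1 := Measure.quasiMeasurePreserving_fst (μ := tau m R) (ν := weight D) |>.ae tau_pos
      have e2 := Measure.quasiMeasurePreserving_snd (μ := tau m R) (ν := weight D) |>.ae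
        (weight_sph h)
      filter_upwards [e1, e2] with z h1 h2
      exact ⟨h1, h2⟩
    calc ((tau m R).prod (weight D)) ((fun z : ℝ × Euc k => z.1 • z.2) ⁻¹' K)
        ≤ ((tau m R).prod (weight D)) (Iic (ρ / R) ×ˢ univ) := by
          refine measure_mono_ae ?_
          filter_upwards [h1] with z hz hzK
          refine ⟨?_, mem_univ _⟩
          have h2 := hρ hzK
          rw [mem_closedBall_zero_iff, norm_smul, hz.2, Real.norm_of_nonneg hz.1.le] at h2
          exact (le_div_iff₀ h.pos).2 h2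
      _ = tau m R (Iic (ρ / R)) * weight D univ := Measure.prod_prod _ _
      _ < ⊤ := ENNReal.mul_lt_top (tau_Iic h.pos _) (weight_univ h)

/-! ### reduction -/

/-- restriction to the points where the orthogonality holds. -/
def red (D : VarifoldData m k) : VarifoldData m k where
  chart := D.chart
  dom i := D.dom i ∩ {a | Orth (D.chart i) a}
  mult := D.mult

theorem restrict_red (hD : IsIntegralVarifoldIn univ D)
    (hn : ∀ i, ∀ a ∈ D.dom i, ‖D.chart i a‖ = R) (i : ℕ) :
    volume.restrict ((red D).dom i) = volume.restrict (D.dom i) := by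
  refine Measure.restrict_congr_set ?_
  have h1 := (ae_restrict_iff' (hD.measurableSet i)).1
    (ae_orth (hD.contDiff i) (hD.measurableSet i) (hn i))
  filter_upwards [h1] with a ha
  refine propext ⟨fun h => h.1, fun h => ⟨h, ha h⟩⟩

theorem weight_red (hD : IsIntegralVarifoldIn univ D)
    (hn : ∀ i, ∀ a ∈ D.dom i, ‖D.chart i a‖ = R) : weight (red D) = weight D := by
  unfold weight
  congr 1
  funext i
  rw [restrict_red hD hn]
  rfl

theorem fv_red (hD : IsIntegralVarifoldIn univ D)
    (hn : ∀ i, ∀ a ∈ D.dom i, ‖D.chart i a‖ = R) (X : Euc k → Euc k) :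
    firstVariation (red D) X = firstVariation D X := by
  unfold firstVariation
  congr 1
  funext i
  rw [restrict_red hD hn]
  rfl

theorem sph_red (hR : 0 < R) (hD : IsIntegralVarifoldIn univ D)
    (hn : ∀ i, ∀ a ∈ D.dom i, ‖D.chart i a‖ = R) : Sph R (red D) where
  pos := hR
  norm i a ha := hn i a ha.1
  orth i a ha := ha.2
  int :=
    { measurableSet := fun i => (hD.measurableSet i).inter
        (isClosed_orth (hD.contDiff i)).measurableSet
      contDiff := hD.contDiff
      injOn := fun i => (hD.injOn i).mono inter_subset_left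
      injective_fderiv := fun i a ha => hD.injective_fderiv i a ha.1
      disjoint := fun i j hij => (hD.disjoint i j hij).mono (image_mono inter_subset_left)
        (image_mono inter_subset_left)
      subset := fun i => subset_univ _
      measurable_mult := hD.measurable_mult
      mult_pos := fun i a ha => hD.mult_pos i a ha.1
      locallyFinite := fun K hK hKU => by
        rw [weight_red hD hn]; exact hD.locallyFinite K hK hKU }

end Crest.Agent.R234.Co5_696
end
end

-- ▼ part R234/Co6_696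
section

/-!
Row 234, VF-CONE, part 6: the cone over a spherical stationary integral varifold is stationary away
from the origin.
-/

set_option autoImplicit false

open Set MeasureTheory Metric Filter Topology
open scoped ENNReal NNReal RealInnerProductSpace

open Crest.GeometryTopology.Submanifold
open Crest.Agent.R234.Vf_884 Crest.Agent.R234.Co3_696 Crest.Agent.R234.Co4_696
  Crest.Agent.R234.Co5_696

noncomputable section

namespace Crest.Agent.R234.Co6_696

variable {m k : ℕ} {R : ℝ} {D : VarifoldData m k} {X : Euc k → Euc k}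

/-- the radial integrand. -/
def H2 (m : ℕ) (R : ℝ) (X : Euc k → Euc k) (z : ℝ × (Euc k × L k)) : ℝ :=
  (R ^ 2)⁻¹ * (m * z.1⁻¹ * ⟪X (z.1 • z.2.1), z.2.1⟫ +
    ⟪fderiv ℝ X (z.1 • z.2.1) z.2.1, z.2.1⟫)

theorem hasDerivAt_comp (hX : ContDiff ℝ 1 X) (x : Euc k) (t : ℝ) :
    HasDerivAt (fun t : ℝ => X (t • x)) (fderiv ℝ X (t • x) x) t := by
  have h1 : HasDerivAt (fun t : ℝ => t • x) ((1 : ℝ) • x) t := (hasDerivAt_id t).smul_const x
  rw [one_smul] at h1
  exact (hX.differentiable one_ne_zero (t • x)).hasFDerivAt.comp_hasDerivAt t h1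

/-- the radial integral vanishes. -/
theorem radial_zero (hX : ContDiff ℝ 1 X) (hXc : HasCompactSupport X) (hX0 : X 0 = 0) (hR : 0 < R)
    {w : Euc k × L k} (hw : ‖w.1‖ = R) : ∫ t, H2 m R X (t, w) ∂(tau m R) = 0 := by
  set x := w.1 with hx
  have hx0 : x ≠ 0 := norm_ne_zero_iff.1 (by rw [hw]; exact hR.ne')
  have hcs : HasCompactSupport (fun t : ℝ => X (t • x)) :=
    hXc.comp_isClosedEmbedding (isClosedEmbedding_smul_left hx0)
  have hcs2 : HasCompactSupport (fun t : ℝ => fderiv ℝ X (t • x)) :=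
    (hXc.fderiv ℝ).comp_isClosedEmbedding (isClosedEmbedding_smul_left hx0)
  set u : ℝ → ℝ := fun t => t ^ m * ⟪X (t • x), x⟫ with hu
  set u' : ℝ → ℝ := fun t => m * t ^ (m - 1) * ⟪X (t • x), x⟫
    + t ^ m * ⟪fderiv ℝ X (t • x) x, x⟫ with hu'
  have hd : ∀ t, HasDerivAt u (u' t) t := by
    intro t
    have h1 := (hasDerivAt_comp hX x t).inner ℝ (hasDerivAt_const t x)
    rw [inner_zero_right, zero_add] at h1
    exact (hasDerivAt_pow m t).mul h1
  have hu'c : Continuous u' := by
    have h1 : Continuous fun t : ℝ => X (t • x) := hX.continuous.comp (by fun_prop)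
    have h2 : Continuous fun t : ℝ => fderiv ℝ X (t • x) :=
      (hX.continuous_fderiv one_ne_zero).comp (by fun_prop)
    have h3 : Continuous fun t : ℝ => fderiv ℝ X (t • x) x := h2.clm_apply continuous_const
    exact ((continuous_const.mul (continuous_pow _)).mul (h1.inner continuous_const)).add
      ((continuous_pow _).mul (h3.inner continuous_const))
  have hu's : HasCompactSupport u' := by
    refine HasCompactSupport.add ?_ ?_
    · refine HasCompactSupport.mono hcs fun t ht => ?_
      contrapose! ht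
      rw [Function.notMem_support] at ht ⊢
      simp only [ht, inner_zero_left, mul_zero]
    · refine HasCompactSupport.mono hcs2 fun t ht => ?_
      contrapose! ht
      rw [Function.notMem_support] at ht ⊢
      simp [ht]
  have hint : IntegrableOn u' (Ioi 0) := (hu'c.integrable_of_hasCompactSupport hu's).integrableOn
  have htend : Tendsto u atTop (𝓝 0) := by
    have h1 : HasCompactSupport u := by
      refine HasCompactSupport.mono hcs fun t ht => ?_
      contrapose! ht
      rw [Function.notMem_support] at ht ⊢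
      simp only [hu, ht, inner_zero_left, mul_zero]
    have h2 := h1.is_zero_at_infty
    exact h2.mono_left atTop_le_cocompact
  have hFTC := integral_Ioi_of_hasDerivAt_of_tendsto' (a := (0 : ℝ)) (fun t _ => hd t) hint htend
  have hu0 : u 0 = 0 := by
    simp only [hu, zero_smul, hX0, inner_zero_left, mul_zero]
  rw [hu0, sub_zero] at hFTC
  unfold tau
  rw [integral_withDensity_eq_integral_toReal_smul (measurable_rad m R)
    (Eventually.of_forall fun t => ENNReal.ofReal_lt_top)]
  have h3 : ∫ t in Ioi (0 : ℝ), (ENNReal.ofReal (R * t ^ m)).toReal • H2 m R X (t, w)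
      = ∫ t in Ioi (0 : ℝ), R⁻¹ * u' t := by
    refine setIntegral_congr_fun measurableSet_Ioi fun t ht => ?_
    have ht0 : (0 : ℝ) < t := ht
    rw [ENNReal.toReal_ofReal (mul_nonneg hR.le (pow_nonneg ht0.le _)), smul_eq_mul, H2, hu']
    simp only
    rw [← hx]
    have h4 : (m : ℝ) * t ^ (m - 1) = m * (t ^ m * t⁻¹) := by
      rcases Nat.eq_zero_or_pos m with h | h
      · simp [h]
      · congr 1
        rw [eq_mul_inv_iff_mul_eq₀ ht0.ne', ← pow_succ, Nat.sub_add_cancel h]
    rw [h4]
    field_simp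
  rw [h3, integral_const_mul, hFTC, mul_zero]

/-- the tangential part of the dilated field. -/
def Zt (R t : ℝ) (X : Euc k → Euc k) (x : Euc k) : Euc k :=
  X (t • x) - ((R ^ 2)⁻¹ * ⟪X (t • x), x⟫) • x

theorem hasFDerivAt_Zt (hX : ContDiff ℝ 1 X) (R t : ℝ) (x : Euc k) :
    HasFDerivAt (Zt R t X)
      (t • fderiv ℝ X (t • x)
        - (((R ^ 2)⁻¹ * ⟪X (t • x), x⟫) • ContinuousLinearMap.id ℝ (Euc k) +
          ((R ^ 2)⁻¹ • (innerSL ℝ (X (t • x)) + t • (innerSL ℝ x).comp (fderiv ℝ X (t • x)))).smulRight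
            x)) x := by
  have h0 : HasFDerivAt (fun x : Euc k => t • x) (t • ContinuousLinearMap.id ℝ (Euc k)) x :=
    (hasFDerivAt_id x).const_smul t
  have h1 : HasFDerivAt (fun x : Euc k => X (t • x)) (t • fderiv ℝ X (t • x)) x := by
    have := (hX.differentiable one_ne_zero (t • x)).hasFDerivAt.comp x h0
    refine this.congr_fderiv ?_
    ext v : 1; simp
  have h2 : HasFDerivAt (fun x : Euc k => (R ^ 2)⁻¹ * ⟪X (t • x), x⟫)
      ((R ^ 2)⁻¹ • (innerSL ℝ (X (t • x)) + t • (innerSL ℝ x).comp (fderiv ℝ X (t • x)))) x := by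
    have h3 := (h1.inner ℝ (hasFDerivAt_id x)).const_mul ((R ^ 2)⁻¹)
    refine h3.congr_fderiv ?_
    ext v
    simp [fderivInnerCLM_apply, inner_smul_left, real_inner_comm]
    ring
  exact h1.sub (h2.smul (hasFDerivAt_id x))

theorem tr_Zt (hX : ContDiff ℝ 1 X) (hR : 0 < R) {t : ℝ} (ht : 0 < t) {w : Euc k × L k}
    (h1 : ‖w.1‖ = R) (h2 : w.2 w.1 = 0) (h3 : w.2 ∈ G m k) :
    tr ((fderiv ℝ X (Th R (t, w)).1) ∘L (Th R (t, w)).2)
      = t⁻¹ * tr ((fderiv ℝ (Zt R t X) w.1) ∘L w.2) + H2 m R X (t, w) := by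
  obtain ⟨x, P⟩ := w
  simp only at h1 h2 h3
  rw [(hasFDerivAt_Zt hX R t x).fderiv]
  simp only [Th, H2]
  rw [ContinuousLinearMap.comp_add, map_add, ContinuousLinearMap.sub_comp, map_sub,
    ContinuousLinearMap.add_comp, map_add, tr_smulRight_comp, h2, map_zero, add_zero]
  have e1 : (t • fderiv ℝ X (t • x)) ∘L P = t • ((fderiv ℝ X (t • x)) ∘L P) := by
    ext v : 1; simp
  have e2 : (((R ^ 2)⁻¹ * ⟪X (t • x), x⟫) • ContinuousLinearMap.id ℝ (Euc k)) ∘L P
      = ((R ^ 2)⁻¹ * ⟪X (t • x), x⟫) • P := by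
    ext v : 1; simp
  have e3 : (fderiv ℝ X (t • x)) ∘L ((R ^ 2)⁻¹ • (innerSL ℝ x).smulRight x)
      = (R ^ 2)⁻¹ • ((innerSL ℝ x).smulRight (fderiv ℝ X (t • x) x)) ∘L
        ContinuousLinearMap.id ℝ (Euc k) := by
    ext v : 1; simp
  rw [e1, e2, e3, map_smul, map_smul, map_smul, tr_smulRight_comp, h3.2.2]
  simp only [smul_eq_mul, ContinuousLinearMap.id_apply, innerSL_apply_apply]
  rw [real_inner_comm x (fderiv ℝ X (t • x) x)]
  field_simp
  ring

theorem fv_slice (h : Sph R D) (hstat : ∀ X : Euc k → Euc k, ContDiff ℝ 1 X →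
    HasCompactSupport X → (∀ x ∈ sphere (0 : Euc k) R, ⟪X x, x⟫ = 0) → firstVariation D X = 0)
    (hX : ContDiff ℝ 1 X) (hXc : HasCompactSupport X) {t : ℝ} (ht : 0 < t) :
    ContDiff ℝ 1 (Zt R t X) ∧ HasCompactSupport (Zt R t X) ∧
      ∫ p, tr ((fderiv ℝ (Zt R t X) p.1) ∘L p.2) ∂(VD D) = 0 := by
  have hXt : ContDiff ℝ 1 fun x : Euc k => X (t • x) := hX.comp (contDiff_const_smul t)
  have hZ : ContDiff ℝ 1 (Zt R t X) :=
    hXt.sub ((contDiff_const.mul (hXt.inner ℝ contDiff_id)).smul contDiff_id)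
  have hXtc : HasCompactSupport fun x : Euc k => X (t • x) :=
    hXc.comp_homeomorph (Homeomorph.smulOfNeZero t ht.ne')
  have hZc : HasCompactSupport (Zt R t X) := by
    refine HasCompactSupport.mono hXtc fun x hx => ?_
    contrapose! hx
    rw [Function.notMem_support] at hx ⊢
    simp only [Zt, hx, inner_zero_left, mul_zero, zero_smul, sub_zero]
  refine ⟨hZ, hZc, ?_⟩
  rw [← firstVariation_eq h.int hZ hZc (subset_univ _)]
  refine hstat _ hZ hZc fun x hx => ?_
  have hx' : ‖x‖ = R := mem_sphere_zero_iff_norm.1 hx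
  rw [Zt, inner_sub_left, inner_smul_left, real_inner_self_eq_norm_sq, hx']
  have := h.pos.ne'
  simp only [conj_trivial]
  field_simp
  ring

/-- integrability of the radial integrand. -/
theorem integrable_H2 (h : Sph R D) (hX : ContDiff ℝ 1 X) (hXc : HasCompactSupport X)
    (hXU : tsupport X ⊆ {(0 : Euc k)}ᶜ) :
    Integrable (H2 m R X) ((tau m R).prod (VD D)) := by
  have := isFinite_VD h
  have hR := h.pos
  -- support bounds
  obtain ⟨M, hM⟩ := hXc.isBounded.subset_closedBall 0
  obtain ⟨ε, hε, hεb⟩ : ∃ ε > 0, ∀ x, ‖x‖ < ε → x ∉ tsupport X := by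
    have h1 : (tsupport X)ᶜ ∈ 𝓝 (0 : Euc k) :=
      (isClosed_tsupport X).isOpen_compl.mem_nhds fun h0 => hXU h0 rfl
    obtain ⟨ε, hε, hb⟩ := Metric.mem_nhds_iff.1 h1
    exact ⟨ε, hε, fun x hx => hb (mem_ball_zero_iff.2 hx)⟩
  set S : Set (ℝ × (Euc k × L k)) :=
    Icc (ε / R) (M / R) ×ˢ (sphere (0 : Euc k) R ×ˢ G m k) with hS
  have hSc : IsCompact S := isCompact_Icc.prod ((isCompact_sphere 0 R).prod (isCompact_G m k))
  have hcont : ContinuousOn (H2 m R X) S := by
    have h1 : Continuous fun z : ℝ × (Euc k × L k) => X (z.1 • z.2.1) :=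
      hX.continuous.comp (by fun_prop)
    have h2 : Continuous fun z : ℝ × (Euc k × L k) => fderiv ℝ X (z.1 • z.2.1) z.2.1 :=
      ((hX.continuous_fderiv one_ne_zero).comp (by fun_prop)).clm_apply (by fun_prop)
    have h3 : ContinuousOn (fun z : ℝ × (Euc k × L k) => z.1⁻¹) S :=
      continuousOn_fst.inv₀ fun z hz => ne_of_gt (lt_of_lt_of_le (div_pos hε hR) hz.1.1)
    have h4 : Continuous fun z : ℝ × (Euc k × L k) => z.2.1 := by fun_prop
    exact continuousOn_const.mul (((continuousOn_const.mul h3).mul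
      (h1.inner h4).continuousOn).add (h2.inner h4).continuousOn)
  obtain ⟨C, hC⟩ := hSc.exists_bound_of_continuousOn hcont
  have hfin : ((tau m R).prod (VD D)) S < ⊤ := by
    calc ((tau m R).prod (VD D)) S ≤ ((tau m R).prod (VD D)) (Iic (M / R) ×ˢ univ) :=
          measure_mono fun z hz => ⟨hz.1.2, mem_univ _⟩
      _ = tau m R (Iic (M / R)) * VD D univ := Measure.prod_prod _ _
      _ < ⊤ := ENNReal.mul_lt_top (tau_Iic hR _) (VD_univ h)
  have hint : IntegrableOn (H2 m R X) S ((tau m R).prod (VD D)) := by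
    refine IntegrableOn.of_bound hfin (hcont.aestronglyMeasurable hSc.measurableSet) C ?_
    filter_upwards [ae_restrict_mem hSc.measurableSet] with z hz
    exact hC z hz
  refine hint.integrable_of_ae_notMem_eq_zero ?_
  have e1 := Measure.quasiMeasurePreserving_fst (μ := tau m R) (ν := VD D) |>.ae tau_pos
  have e2 := Measure.quasiMeasurePreserving_snd (μ := tau m R) (ν := VD D) |>.ae (VD_sph h)
  filter_upwards [e1, e2] with z hz1 hz2 hzS
  have hnorm : ‖z.1 • z.2.1‖ = z.1 * R := by
    rw [norm_smul, hz2.1, Real.norm_of_nonneg hz1.le]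
  have hnot : z.1 • z.2.1 ∉ tsupport X := by
    intro hmem
    refine hzS ⟨⟨?_, ?_⟩, mem_sphere_zero_iff_norm.2 hz2.1, hz2.2.2⟩
    · by_contra hcon
      push Not at hcon
      refine hεb _ ?_ hmem
      rw [hnorm]
      exact (lt_div_iff₀ hR).1 hcon
    · have := hM hmem
      rw [mem_closedBall_zero_iff, hnorm] at this
      exact (le_div_iff₀ hR).2 this
  have hX0 : X (z.1 • z.2.1) = 0 := image_eq_zero_of_notMem_tsupport hnot
  have hX1 : fderiv ℝ X (z.1 • z.2.1) = 0 := by
    by_contra hcon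
    exact hnot (support_fderiv_subset ℝ hcon)
  simp [H2, hX0, hX1]

/-- the cone over a spherical stationary varifold is stationary away from `0`. -/
theorem stat_cone (h : Sph R D) (hstat : ∀ X : Euc k → Euc k, ContDiff ℝ 1 X →
    HasCompactSupport X → (∀ x ∈ sphere (0 : Euc k) R, ⟪X x, x⟫ = 0) → firstVariation D X = 0) :
    IsStationaryIn {(0 : Euc k)}ᶜ (cone D) := by
  intro X hX hXc hXU
  have hfinV := isFinite_VD h
  have hD' := int_cone h
  have hFi := integrable_fv (VD_conc hD') hX hXc (VD_fin hD' hXc hXU)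
  have hFc : Continuous fun p : Euc k × L k => tr ((fderiv ℝ X p.1) ∘L p.2) :=
    tr.continuous.comp (((hX.continuous_fderiv one_ne_zero).comp continuous_fst).clm_comp
      continuous_snd)
  have hTh := (continuous_Th (k := k) R)
  rw [firstVariation_eq hD' hX hXc hXU]
  rw [VD_cone h] at hFi ⊢
  rw [integral_map hTh.aemeasurable hFc.aestronglyMeasurable]
  rw [integrable_map_measure hFc.aestronglyMeasurable hTh.aemeasurable] at hFi
  change Integrable (fun z => tr ((fderiv ℝ X (Th R z).1) ∘L (Th R z).2)) _ at hFi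
  have hX0 : X 0 = 0 := image_eq_zero_of_notMem_tsupport fun h0 => hXU h0 rfl
  have hH2 := integrable_H2 h hX hXc hXU
  rw [integral_prod _ hFi]
  have hA : ∀ᵐ t ∂(tau m R), ∫ w, tr ((fderiv ℝ X (Th R (t, w)).1) ∘L (Th R (t, w)).2) ∂(VD D)
      = ∫ w, H2 m R X (t, w) ∂(VD D) := by
    filter_upwards [tau_pos, hH2.prod_right_ae] with t ht hti
    obtain ⟨hZ, hZc, hZ0⟩ := fv_slice h hstat hX hXc ht
    have hZi := integrable_fv (VD_conc h.int) hZ hZc (VD_fin h.int hZc (subset_univ _))
    have h1 : ∫ w, tr ((fderiv ℝ X (Th R (t, w)).1) ∘L (Th R (t, w)).2) ∂(VD D)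
        = ∫ w, (t⁻¹ * tr ((fderiv ℝ (Zt R t X) w.1) ∘L w.2) + H2 m R X (t, w)) ∂(VD D) := by
      refine integral_congr_ae ?_
      filter_upwards [VD_sph h] with w hw
      exact tr_Zt hX h.pos ht hw.1 hw.2.1 hw.2.2
    rw [h1, integral_add (hZi.const_mul _) hti, integral_const_mul, hZ0, mul_zero, zero_add]
  have hB : ∫ t, ∫ w, tr ((fderiv ℝ X (Th R (t, w)).1) ∘L (Th R (t, w)).2) ∂(VD D) ∂(tau m R)
      = ∫ t, ∫ w, H2 m R X (t, w) ∂(VD D) ∂(tau m R) := integral_congr_ae hA
  rw [hB, integral_integral_swap (f := fun t w => H2 m R X (t, w)) hH2]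
  have hC : ∀ᵐ w ∂(VD D), ∫ t, H2 m R X (t, w) ∂(tau m R) = 0 := by
    filter_upwards [VD_sph h] with w hw
    exact radial_zero hX hXc hX0 h.pos hw.1
  rw [integral_congr_ae hC, integral_zero]

end Crest.Agent.R234.Co6_696
end
end

-- ▼ part R234/Co7_696

/-!
Row 234, VF-CONE, part 7: support and singular set of the cone; S0363 from S0362.
-/

set_option autoImplicit false

open Set MeasureTheory Metric Filter Topology
open scoped ENNReal NNReal RealInnerProductSpace

open Crest.GeometryTopology.Submanifold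
open Crest.Agent.R234.Vf_884 Crest.Agent.R234.Co3_696 Crest.Agent.R234.Co4_696
  Crest.Agent.R234.Co5_696 Crest.Agent.R234.Co6_696

noncomputable section

namespace Crest.Agent.R234.Co7_696

variable {m k : ℕ} {R : ℝ} {D : VarifoldData m k}

theorem support_sph (h : Sph R D) : support D ⊆ sphere (0 : Euc k) R := by
  intro x hx
  rw [mem_sphere_zero_iff_norm]
  by_contra hne
  have hpos : 0 < |‖x‖ - R| := abs_pos.2 (sub_ne_zero.2 hne)
  have h1 := hx _ hpos
  refine h1.ne' ?_
  have h2 : ∀ᵐ y ∂(weight D), y ∉ ball x |‖x‖ - R| := by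
    filter_upwards [weight_sph h] with y hy hyb
    rw [mem_ball_iff_norm'] at hyb
    have h3 := abs_norm_sub_norm_le x y
    rw [hy] at h3
    linarith
  exact measure_eq_zero_iff_ae_notMem.2 h2

theorem tau_open_pos (hR : 0 < R) {U : Set ℝ} (hU : IsOpen U) {t : ℝ} (ht : 0 < t) (htU : t ∈ U) :
    0 < tau m R U := by
  unfold tau
  rw [withDensity_apply _ hU.measurableSet, Measure.restrict_restrict hU.measurableSet,
    setLIntegral_pos_iff (measurable_rad m R)]
  have hV : IsOpen (U ∩ Ioi (0 : ℝ)) := hU.inter isOpen_Ioi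
  refine lt_of_lt_of_le (hV.measure_pos volume ⟨t, htU, ht⟩) (measure_mono fun s hs => ⟨?_, hs⟩)
  rw [Function.mem_support]
  simp only [ne_eq, ENNReal.ofReal_eq_zero, not_le]
  exact mul_pos hR (pow_pos hs.2 _)

theorem support_cone (h : Sph R D) {x : Euc k} (hx : x ∈ sphere (0 : Euc k) R) {t : ℝ}
    (ht : 0 < t) : t • x ∈ support (cone D) ↔ x ∈ support D := by
  have hsm : Continuous fun z : ℝ × Euc k => z.1 • z.2 := by fun_prop
  have hfin : IsFiniteMeasure (weight D) := ⟨weight_univ h⟩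
  constructor
  · intro hsup
    by_contra hcon
    have hcon' : ∃ ρ : ℝ, 0 < ρ ∧ weight D (ball x ρ) = 0 := by
      unfold support at hcon
      simp only [mem_setOf_eq, not_forall, not_lt] at hcon
      obtain ⟨ρ, hρ, h0⟩ := hcon
      exact ⟨ρ, hρ, le_antisymm h0 zero_le⟩
    obtain ⟨ρ, hρ, h0⟩ := hcon'
    set ρ' : ℝ := t * ρ / 2 with hρ'
    have hρ'0 : 0 < ρ' := by positivity
    refine (hsup ρ' hρ'0).ne' ?_
    rw [weight_cone h, Measure.map_apply hsm.measurable measurableSet_ball]
    refine measure_eq_zero_iff_ae_notMem.2 ?_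
    have e1 := Measure.quasiMeasurePreserving_fst (μ := tau m R) (ν := weight D) |>.ae tau_pos
    have e2 := Measure.quasiMeasurePreserving_snd (μ := tau m R) (ν := weight D) |>.ae
      ((weight_sph h).and (measure_eq_zero_iff_ae_notMem.1 h0))
    filter_upwards [e1, e2] with z hz1 hz2 hz3
    obtain ⟨hzR, hzb⟩ := hz2
    rw [mem_preimage, mem_ball_iff_norm] at hz3
    rw [mem_ball_iff_norm, not_lt] at hzb
    have hxR : ‖x‖ = R := mem_sphere_zero_iff_norm.1 hx
    have h3 : |z.1 - t| * R < ρ' := by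
      have h4 := abs_norm_sub_norm_le (z.1 • z.2) (t • x)
      rw [norm_smul, norm_smul, Real.norm_of_nonneg hz1.le, Real.norm_of_nonneg ht.le, hzR, hxR,
        ← sub_mul, abs_mul, abs_of_pos h.pos] at h4
      linarith
    have h5 : t * ‖z.2 - x‖ ≤ ‖z.1 • z.2 - t • x‖ + |z.1 - t| * R := by
      have h6 : t • (z.2 - x) = (z.1 • z.2 - t • x) - (z.1 - t) • z.2 := by
        rw [smul_sub, sub_smul]; abel
      calc t * ‖z.2 - x‖ = ‖t • (z.2 - x)‖ := by rw [norm_smul, Real.norm_of_nonneg ht.le]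
        _ = ‖(z.1 • z.2 - t • x) - (z.1 - t) • z.2‖ := by rw [h6]
        _ ≤ _ := by
          refine (norm_sub_le _ _).trans ?_
          rw [norm_smul, hzR, Real.norm_eq_abs]
    have h7 : t * ρ ≤ t * ‖z.2 - x‖ := mul_le_mul_of_nonneg_left hzb ht.le
    linarith
  · intro hsup ρ hρ
    rw [weight_cone h, Measure.map_apply hsm.measurable measurableSet_ball]
    have hopen : IsOpen ((fun z : ℝ × Euc k => z.1 • z.2) ⁻¹' ball (t • x) ρ) :=
      isOpen_ball.preimage hsm
    obtain ⟨U, V, hU, hV, htU, hxV, hUV⟩ := isOpen_prod_iff.1 hopen t x (mem_ball_self hρ)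
    obtain ⟨δ, hδ, hδV⟩ := Metric.isOpen_iff.1 hV x hxV
    have h1 : 0 < weight D V := lt_of_lt_of_le (hsup δ hδ) (measure_mono hδV)
    have h2 : 0 < tau m R U := tau_open_pos h.pos hU ht htU
    calc 0 < tau m R U * weight D V := ENNReal.mul_pos h2.ne' h1.ne'
      _ = ((tau m R).prod (weight D)) (U ×ˢ V) := (Measure.prod_prod _ _).symm
      _ ≤ _ := measure_mono hUV

theorem singular_cone (h : Sph R D) {x : Euc k} (hx : x ∈ singularSet m k univ D) {t : ℝ}
    (ht : 0 < t) : t • x ∈ singularSet (m + 1) k {(0 : Euc k)}ᶜ (cone D) := by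
  obtain ⟨-, hxs, hns⟩ := hx
  have hxsph := support_sph h hxs
  refine ⟨?_, (support_cone h hxsph ht).2 hxs, ?_⟩
  · rw [mem_compl_singleton_iff, ← norm_ne_zero_iff, norm_smul, Real.norm_of_nonneg ht.le,
      mem_sphere_zero_iff_norm.1 hxsph]
    exact (mul_pos ht h.pos).ne'
  · rintro ⟨W, hW, hxW, hsub⟩
    refine hns ⟨{y | t • y ∈ W}, hW.preimage (by fun_prop), hxW, ?_⟩
    exact Co2_696.slice_submanifold h.pos ht (support_sph h)
      (fun y hy s hs => support_cone h hy hs) hW hsub

theorem support_red (hD : IsIntegralVarifoldIn univ D)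
    (hn : ∀ i, ∀ a ∈ D.dom i, ‖D.chart i a‖ = R) : support (red D) = support D := by
  unfold support
  rw [weight_red hD hn]

theorem singularSet_red (hD : IsIntegralVarifoldIn univ D)
    (hn : ∀ i, ∀ a ∈ D.dom i, ‖D.chart i a‖ = R) :
    singularSet m k univ (red D) = singularSet m k univ D := by
  unfold singularSet
  rw [support_red hD hn]

/-- S0363 with a free ambient dimension. -/
theorem sphere_of {m k : ℕ}
    (h : ∀ (U : Set (Euc k)), IsOpen U → ∀ D : VarifoldData (m + 1) k,
      IsIntegralVarifoldIn U D → IsStationaryIn U D →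
      dimH (singularSet (m + 1) k U D) ≤ ((m + 1 : ℕ) : ENNReal) - 1)
    {R : ℝ} (hR : 0 < R) (D : VarifoldData m k) (hD : IsIntegralVarifoldIn univ D)
    (hsph : ∀ i, D.chart i '' D.dom i ⊆ sphere (0 : Euc k) R)
    (hstat : ∀ X : Euc k → Euc k, ContDiff ℝ 1 X → HasCompactSupport X →
      (∀ x ∈ sphere (0 : Euc k) R, ⟪X x, x⟫ = 0) → firstVariation D X = 0) :
    μH[(m : ℝ)] (singularSet m k univ D) = 0 := by
  have hn : ∀ i, ∀ a ∈ D.dom i, ‖D.chart i a‖ = R := fun i a ha =>
    mem_sphere_zero_iff_norm.1 (hsph i ⟨a, ha, rfl⟩)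
  have hs := sph_red hR hD hn
  rw [← singularSet_red hD hn]
  have hst : IsStationaryIn {(0 : Euc k)}ᶜ (cone (red D)) :=
    stat_cone hs fun X hX hXc hXt => by rw [fv_red hD hn]; exact hstat X hX hXc hXt
  have hdim := h {(0 : Euc k)}ᶜ isOpen_compl_singleton (cone (red D)) (int_cone hs) hst
  have hnull : μH[(m : ℝ) + 1] (singularSet (m + 1) k {(0 : Euc k)}ᶜ (cone (red D))) = 0 := by
    have h1 : dimH (singularSet (m + 1) k {(0 : Euc k)}ᶜ (cone (red D)))
        < (((m : ℝ≥0) + 1 : ℝ≥0) : ℝ≥0∞) := by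
      refine lt_of_le_of_lt hdim ?_
      rw [Nat.cast_add, Nat.cast_one, ENNReal.add_sub_cancel_right ENNReal.one_ne_top]
      push_cast
      exact ENNReal.lt_add_right (by simp) one_ne_zero
    have h2 := hausdorffMeasure_of_dimH_lt h1
    simpa using h2
  refine Co1_696.slice_null (Nat.cast_nonneg m) hR
    (fun x hx => support_sph hs hx.2.1) (fun s hs1 x hx => ?_) hnull
  exact singular_cone hs hx (lt_of_lt_of_le one_pos hs1.1)

/-- **S0363 from S0362.** -/
theorem s0363_of
    (h : ∀ (m n : ℕ) (_ : 1 ≤ m) (_ : 1 ≤ n) (U : Set (EuclideanSpace ℝ (Fin (m + n))))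
      (_ : IsOpen U) (D : VarifoldData m (m + n)) (_ : IsIntegralVarifoldIn U D)
      (_ : IsStationaryIn U D), dimH (singularSet m (m + n) U D) ≤ (m : ENNReal) - 1)
    (m n : ℕ) (_hm : 1 ≤ m) (hn : 1 ≤ n) (R : ℝ) (hR : 0 < R)
    (D : VarifoldData m (m + n + 1)) (hD : IsIntegralVarifoldIn Set.univ D)
    (hsph : ∀ i, D.chart i '' D.dom i ⊆ Metric.sphere (0 : EuclideanSpace ℝ (Fin (m + n + 1))) R)
    (hstat : ∀ X : EuclideanSpace ℝ (Fin (m + n + 1)) → EuclideanSpace ℝ (Fin (m + n + 1)),
      ContDiff ℝ 1 X → HasCompactSupport X →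
      (∀ x ∈ Metric.sphere (0 : EuclideanSpace ℝ (Fin (m + n + 1))) R, inner ℝ (X x) x = 0) →
      firstVariation D X = 0) :
    μH[(m : ℝ)] (singularSet m (m + n + 1) Set.univ D) = 0 := by
  refine sphere_of ?_ hR D hD hsph hstat
  have key : ∀ k : ℕ, (m + 1) + n = k → ∀ (U : Set (Euc k)), IsOpen U →
      ∀ D : VarifoldData (m + 1) k, IsIntegralVarifoldIn U D → IsStationaryIn U D →
      dimH (singularSet (m + 1) k U D) ≤ ((m + 1 : ℕ) : ENNReal) - 1 := by
    rintro k rfl U hU D hD hst
    exact h (m + 1) n (by omega) hn U hU D hD hst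
  exact key (m + n + 1) (by omega)

end Crest.Agent.R234.Co7_696
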