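import Crest.Agent.R234.Asl3_214
import Crest.Agent.R234.Th12_164

-- ▼ part R234/Crs1_173
section

/-!
# Row 234, N0-COARSE, part 1 (helper173): the Caccioppoli inequality in the class `CylAS`

`∫ η(π z)² tl ≤ 16 h₀² ∫ (|Dη|² + η²)` for `δ ≤ 1/16`, `h₀ ≤ 1`, from the vertical field `η(π z)² κ†κ z`.
-/

set_option autoImplicit false

open MeasureTheory Set Function Filter Topology Metric
open Crest.GeometryTopology.Submanifold
open Crest.Agent.R234.Vf_884 Crest.Agent.R234.Ar_870 Crest.Agent.R234.Cy_870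
open Crest.Agent.R234.AS_456 (AS errA err hp vp)
open Crest.Agent.R234.Asl_214
open scoped ENNReal NNReal InnerProductSpace

noncomputable section

namespace Crest.Agent.R234.Crs_173

variable {m n k : ℕ} {π : Euc k →L[ℝ] Euc m} {κ : Euc k →L[ℝ] Euc n} {δ : ℝ}
  {x₀ x : Euc m} {R h₀ : ℝ} {W : Measure (Euc k × L k)}

/-- `|π P κ† w| ≤ √tl |w|` -/
theorem norm_mixed_le (hs : Split π κ) {P : L k} (hP : P ∈ G m k) (w : Euc n) :
    ‖π (P (ContinuousLinearMap.adjoint κ w))‖ ≤ √(tl π P) * ‖w‖ := by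
  have hPr := isPr_of_G hP
  have ht := tl_nonneg hs.hh hPr
  set u := π (P (ContinuousLinearMap.adjoint κ w)) with hu
  have h1 : ‖u‖ ^ 2 = ⟪w, Svh π κ P u⟫_ℝ := by
    rw [← inner_swap hPr, ← real_inner_self_eq_norm_sq]
  have h2 : ‖Svh π κ P u‖ ≤ ‖u‖ * √(tl π P) := by
    have h3 := (norm_Svh_sq_le hs hPr u).trans (qf_le_tl hs hP u)
    have h4 : ‖Svh π κ P u‖ ^ 2 ≤ (‖u‖ * √(tl π P)) ^ 2 := by
      rw [mul_pow, Real.sq_sqrt ht]; exact h3
    exact (sq_le_sq₀ (norm_nonneg _) (by positivity)).1 h4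
  have h3 : ‖u‖ * ‖u‖ ≤ (√(tl π P) * ‖w‖) * ‖u‖ := by
    calc ‖u‖ * ‖u‖ = ‖u‖ ^ 2 := (sq _).symm
      _ ≤ ‖w‖ * ‖Svh π κ P u‖ := by rw [h1]; exact real_inner_le_norm _ _
      _ ≤ ‖w‖ * (‖u‖ * √(tl π P)) := by gcongr
      _ = _ := by ring
  rcases eq_or_lt_of_le (norm_nonneg u) with h0 | h0
  · rw [← h0]; positivity
  · exact le_of_mul_le_mul_right h3 h0

theorem real_cacc {a b t y h d q : ℝ} (ha : 0 ≤ a) (hb : 0 ≤ b) (_ht : 0 ≤ t) (hy : 0 ≤ y)
    (hyh : y ≤ h) (hh1 : h ≤ 1) (hd : 0 ≤ d) (hd1 : d ≤ 1 / 16) (hq : 0 ≤ q) (hq1 : q ≤ 1 / 4) :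
    (d * (t + y) * ((2 * a * b) * y + a ^ 2 * y) + d * (t ^ 2 + y * t) * (a ^ 2 * 1) +
        q * t ^ 2 * (a ^ 2 * y)) + 2 * a * b * (t * y) ≤
      11 / 16 * (a ^ 2 * t ^ 2) + 5 * h ^ 2 * (b ^ 2 + a ^ 2) := by
  have hh0 : 0 ≤ h := hy.trans hyh
  have hy1 : y ≤ 1 := hyh.trans hh1
  have hy2 : y ^ 2 ≤ h ^ 2 := pow_le_pow_left₀ hy hyh 2
  have e1 : 2 * a * b * (t * y) ≤ 1 / 4 * (a ^ 2 * t ^ 2) + 4 * (b ^ 2 * h ^ 2) := by
    have h1 : 2 * a * b * (t * y) ≤ 1 / 4 * (a ^ 2 * t ^ 2) + 4 * (b ^ 2 * y ^ 2) := by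
      nlinarith [sq_nonneg (a * t / 2 - 2 * (b * y))]
    have h2 : b ^ 2 * y ^ 2 ≤ b ^ 2 * h ^ 2 := by gcongr
    linarith
  have e2 : d * (t * (2 * a * b * y)) ≤ 1 / 16 * (a ^ 2 * t ^ 2 + b ^ 2 * h ^ 2) := by
    have h1 : t * (2 * a * b * y) ≤ a ^ 2 * t ^ 2 + b ^ 2 * h ^ 2 := by
      have h2 : b ^ 2 * y ^ 2 ≤ b ^ 2 * h ^ 2 := by gcongr
      nlinarith [sq_nonneg (a * t - b * y)]
    calc d * (t * (2 * a * b * y)) ≤ d * (a ^ 2 * t ^ 2 + b ^ 2 * h ^ 2) := by gcongr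
      _ ≤ _ := by gcongr
  have e3 : d * (t * (a ^ 2 * y)) ≤ 1 / 32 * (a ^ 2 * t ^ 2 + a ^ 2 * h ^ 2) := by
    have h1 : t * (a ^ 2 * y) ≤ 1 / 2 * (a ^ 2 * t ^ 2 + a ^ 2 * h ^ 2) := by
      have h2 : a ^ 2 * y ^ 2 ≤ a ^ 2 * h ^ 2 := by gcongr
      nlinarith [sq_nonneg (a * (t - y))]
    calc d * (t * (a ^ 2 * y)) ≤ d * (1 / 2 * (a ^ 2 * t ^ 2 + a ^ 2 * h ^ 2)) := by gcongr
      _ ≤ 1 / 16 * (1 / 2 * (a ^ 2 * t ^ 2 + a ^ 2 * h ^ 2)) := by gcongr
      _ = _ := by ring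
  have e4 : d * (y * (2 * a * b * y + a ^ 2 * y)) ≤ 1 / 16 * (h ^ 2 * (2 * a ^ 2 + b ^ 2)) := by
    have h1 : y * (2 * a * b * y + a ^ 2 * y) ≤ h ^ 2 * (2 * a ^ 2 + b ^ 2) := by
      calc y * (2 * a * b * y + a ^ 2 * y) = y ^ 2 * (2 * a * b + a ^ 2) := by ring
        _ ≤ h ^ 2 * (2 * a * b + a ^ 2) := by gcongr
        _ ≤ h ^ 2 * (2 * a ^ 2 + b ^ 2) :=
            mul_le_mul_of_nonneg_left (by nlinarith [sq_nonneg (a - b)]) (by positivity)
    calc d * (y * (2 * a * b * y + a ^ 2 * y)) ≤ d * (h ^ 2 * (2 * a ^ 2 + b ^ 2)) := by gcongr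
      _ ≤ _ := by gcongr
  have e5 : d * (t ^ 2 * a ^ 2) ≤ 1 / 16 * (a ^ 2 * t ^ 2) := by
    calc d * (t ^ 2 * a ^ 2) ≤ 1 / 16 * (t ^ 2 * a ^ 2) := by gcongr
      _ = _ := by ring
  have e6 : d * (y * t * a ^ 2) ≤ 1 / 32 * (a ^ 2 * t ^ 2 + a ^ 2 * h ^ 2) := by
    calc d * (y * t * a ^ 2) = d * (t * (a ^ 2 * y)) := by ring
      _ ≤ _ := e3
  have e7 : q * (t ^ 2 * (a ^ 2 * y)) ≤ 1 / 4 * (a ^ 2 * t ^ 2) := by
    calc q * (t ^ 2 * (a ^ 2 * y)) ≤ q * (t ^ 2 * (a ^ 2 * 1)) := by gcongr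
      _ ≤ 1 / 4 * (t ^ 2 * (a ^ 2 * 1)) := by gcongr
      _ = _ := by ring
  have hb2 : 0 ≤ b ^ 2 * h ^ 2 := by positivity
  have ha2 : 0 ≤ a ^ 2 * h ^ 2 := by positivity
  nlinarith [e1, e2, e3, e4, e5, e6, e7]

/-- **Caccioppoli inequality in `CylAS`**, general cut-off -/
theorem cacc_eta (h : CylAS W π κ x₀ R h₀ δ) (h0 : 0 ≤ δ) (hδ : δ ≤ 1 / 16)
    (hh1 : h₀ ≤ 1) {η : Euc m → ℝ} (hη : ContDiff ℝ 1 η)
    (hz : ∀ v, R ≤ ‖v - x₀‖ → η v = 0) :
    ∫ p, η (π p.1) ^ 2 * tl π p.2 ∂W ≤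
      16 * h₀ ^ 2 * ∫ p, (‖fderiv ℝ η (π p.1)‖ ^ 2 + η (π p.1) ^ 2) ∂W := by
  have hηd : Continuous (fderiv ℝ η) := hη.continuous_fderiv one_ne_zero
  have hηc := hη.continuous
  set f : Euc m → ℝ := fun v => η v ^ 2 with hf
  set df : Euc m → Euc m →L[ℝ] ℝ := fun v => (2 * η v) • fderiv ℝ η v with hdf
  have hfd : ∀ y, HasFDerivAt f (df y) y := by
    intro y
    have h1 := ((hη.differentiable one_ne_zero) y).hasFDerivAt.pow 2
    refine h1.congr_fderiv ?_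
    ext v
    simp [hdf]
  have hdfc : Continuous df := (continuous_const.mul hηc).smul hηd
  set ψ : Euc n → Euc n := fun v => v with hψ
  have hψd : ∀ v, HasFDerivAt ψ (ContinuousLinearMap.id ℝ (Euc n)) v := fun v => hasFDerivAt_id v
  have key := h.fv_ver h0 hfd hdfc hψd continuous_const (fun v hv => by
    simp only [hf]; rw [hz v hv]; norm_num)
  -- the trace
  have htr : ∀ᵐ p ∂W, tr ((fderiv ℝ (fun p => f (π p) • ContinuousLinearMap.adjoint κ (ψ (κ p))) p.1)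
      ∘L p.2) = η (π p.1) ^ 2 * tl π p.2 +
        df (π p.1) (π (p.2 (ContinuousLinearMap.adjoint κ (κ p.1)))) := by
    filter_upwards [h.conc] with p hp
    rw [tr_field κ π p.1 p.2 (hfd _).differentiableAt (hψd _).differentiableAt, (hfd _).fderiv,
      (hψd _).fderiv, ContinuousLinearMap.id_comp, tr_Svv h.sp hp]
  have c1 := CylAS.continuous_tl (k := k) π
  have c2 : Continuous fun p : Euc k × L k => ‖κ p.1‖ := (κ.continuous.comp continuous_fst).norm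
  have c3 : Continuous fun p : Euc k × L k => η (π p.1) :=
    hηc.comp (π.continuous.comp continuous_fst)
  have c4 : Continuous fun p : Euc k × L k => df (π p.1) :=
    hdfc.comp (π.continuous.comp continuous_fst)
  have c5 : Continuous fun p : Euc k × L k => ‖fderiv ℝ η (π p.1)‖ :=
    (hηd.comp (π.continuous.comp continuous_fst)).norm
  have c6 : Continuous fun p : Euc k × L k =>
      df (π p.1) (π (p.2 (ContinuousLinearMap.adjoint κ (κ p.1)))) :=
    c4.clm_apply (π.continuous.comp (continuous_snd.clm_apply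
      ((ContinuousLinearMap.adjoint κ).continuous.comp (κ.continuous.comp continuous_fst))))
  have i1 : Integrable (fun p : Euc k × L k => η (π p.1) ^ 2 * tl π p.2) W :=
    h.integrable_continuous ((c3.pow 2).mul c1)
  have i2 := h.integrable_continuous c6
  have i3 : Integrable (fun p : Euc k × L k => ‖fderiv ℝ η (π p.1)‖ ^ 2 + η (π p.1) ^ 2) W :=
    h.integrable_continuous ((c5.pow 2).add (c3.pow 2))
  have eFV : FV W (fun p => f (π p) • ContinuousLinearMap.adjoint κ (ψ (κ p))) =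
      (∫ p, η (π p.1) ^ 2 * tl π p.2 ∂W) +
        ∫ p, df (π p.1) (π (p.2 (ContinuousLinearMap.adjoint κ (κ p.1)))) ∂W := by
    unfold FV
    rw [integral_congr_ae htr]
    exact integral_add i1 i2
  rw [eFV] at key
  set E : Euc k × L k → ℝ := fun p => (δ * (√(tl π p.2) + ‖κ p.1‖) *
          (‖df (π p.1)‖ * ‖ψ (κ p.1)‖ + |f (π p.1)| * ‖ψ (κ p.1)‖) +
        δ * (tl π p.2 + ‖κ p.1‖ * √(tl π p.2)) * (|f (π p.1)| * ‖ContinuousLinearMap.id ℝ (Euc n)‖) +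
        √δ * tl π p.2 * (|f (π p.1)| * ‖ψ (κ p.1)‖)) with hE
  have cE : Continuous E := by
    have d1 : Continuous fun p : Euc k × L k => ‖df (π p.1)‖ := c4.norm
    have d2 : Continuous fun p : Euc k × L k => |f (π p.1)| := (c3.pow 2).abs
    have d3 : Continuous fun p : Euc k × L k => ‖ψ (κ p.1)‖ := c2
    exact (((continuous_const.mul (c1.sqrt.add c2)).mul ((d1.mul d3).add (d2.mul d3))).add
      ((continuous_const.mul (c1.add (c2.mul c1.sqrt))).mul (d2.mul continuous_const))).add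
      ((continuous_const.mul c1).mul (d2.mul d3))
  have i4 := h.integrable_continuous cE
  have i5 : Integrable (fun p : Euc k × L k =>
      |df (π p.1) (π (p.2 (ContinuousLinearMap.adjoint κ (κ p.1))))|) W := i2.abs
  have h2 : ∫ p, (E p + |df (π p.1) (π (p.2 (ContinuousLinearMap.adjoint κ (κ p.1))))|) ∂W ≤
      ∫ p, (11 / 16 * (η (π p.1) ^ 2 * tl π p.2) +
        5 * h₀ ^ 2 * (‖fderiv ℝ η (π p.1)‖ ^ 2 + η (π p.1) ^ 2)) ∂W := by
    refine integral_mono_ae (i4.add i5) ((i1.const_mul _).add (i3.const_mul _)) ?_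
    filter_upwards [h.conc, h.hgt] with p hp hy
    have ht := tl_nonneg h.sp.hh (isPr_of_G hp)
    set t := √(tl π p.2) with htd
    have ht2 : tl π p.2 = t ^ 2 := (Real.sq_sqrt ht).symm
    have ha : |f (π p.1)| = |η (π p.1)| ^ 2 := by
      simp only [hf]; rw [sq_abs, abs_of_nonneg (sq_nonneg _)]
    have hb : ‖df (π p.1)‖ = 2 * |η (π p.1)| * ‖fderiv ℝ η (π p.1)‖ := by
      simp only [hdf]
      rw [norm_smul, Real.norm_eq_abs, abs_mul, abs_of_nonneg (by norm_num : (0 : ℝ) ≤ 2)]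
    have hmix : |df (π p.1) (π (p.2 (ContinuousLinearMap.adjoint κ (κ p.1))))| ≤
        2 * |η (π p.1)| * ‖fderiv ℝ η (π p.1)‖ * (t * ‖κ p.1‖) := by
      rw [← Real.norm_eq_abs, ← hb]
      refine (ContinuousLinearMap.le_opNorm _ _).trans ?_
      gcongr
      exact norm_mixed_le h.sp hp _
    have hsq : √δ ≤ 1 / 4 := by
      rw [Real.sqrt_le_left (by norm_num)]
      linarith
    have hid : ‖ContinuousLinearMap.id ℝ (Euc n)‖ ≤ 1 := ContinuousLinearMap.norm_id_le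
    have hr := real_cacc (a := |η (π p.1)|) (b := ‖fderiv ℝ η (π p.1)‖) (t := t) (y := ‖κ p.1‖)
      (h := h₀) (d := δ) (q := √δ) (abs_nonneg _) (norm_nonneg _) (Real.sqrt_nonneg _)
      (norm_nonneg _) hy hh1 h0 hδ (Real.sqrt_nonneg _) hsq
    have hEp : E p ≤ δ * (t + ‖κ p.1‖) * ((2 * |η (π p.1)| * ‖fderiv ℝ η (π p.1)‖) * ‖κ p.1‖ +
        |η (π p.1)| ^ 2 * ‖κ p.1‖) + δ * (t ^ 2 + ‖κ p.1‖ * t) * (|η (π p.1)| ^ 2 * 1) +
        √δ * t ^ 2 * (|η (π p.1)| ^ 2 * ‖κ p.1‖) := by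
      have hEp' : E p = δ * (t + ‖κ p.1‖) * ((2 * |η (π p.1)| * ‖fderiv ℝ η (π p.1)‖) * ‖κ p.1‖ +
        |η (π p.1)| ^ 2 * ‖κ p.1‖) + δ * (t ^ 2 + ‖κ p.1‖ * t) *
          (|η (π p.1)| ^ 2 * ‖ContinuousLinearMap.id ℝ (Euc n)‖) +
        √δ * t ^ 2 * (|η (π p.1)| ^ 2 * ‖κ p.1‖) := by
        change (δ * (√(tl π p.2) + ‖κ p.1‖) *
          (‖df (π p.1)‖ * ‖κ p.1‖ + |f (π p.1)| * ‖κ p.1‖) +
          δ * (tl π p.2 + ‖κ p.1‖ * √(tl π p.2)) *
            (|f (π p.1)| * ‖ContinuousLinearMap.id ℝ (Euc n)‖) +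
          √δ * tl π p.2 * (|f (π p.1)| * ‖κ p.1‖)) = _
        rw [ha, hb, ← htd, ht2]
      rw [hEp']
      gcongr
    change E p + _ ≤ 11 / 16 * (η (π p.1) ^ 2 * tl π p.2) +
        5 * h₀ ^ 2 * (‖fderiv ℝ η (π p.1)‖ ^ 2 + η (π p.1) ^ 2)
    rw [ht2, ← sq_abs (η (π p.1))]
    linarith
  have h3 : ∫ p, (E p + |df (π p.1) (π (p.2 (ContinuousLinearMap.adjoint κ (κ p.1))))|) ∂W =
      (∫ p, E p ∂W) + ∫ p, |df (π p.1) (π (p.2 (ContinuousLinearMap.adjoint κ (κ p.1))))| ∂W :=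
    integral_add i4 i5
  have h4 : ∫ p, (11 / 16 * (η (π p.1) ^ 2 * tl π p.2) +
        5 * h₀ ^ 2 * (‖fderiv ℝ η (π p.1)‖ ^ 2 + η (π p.1) ^ 2)) ∂W =
      11 / 16 * (∫ p, η (π p.1) ^ 2 * tl π p.2 ∂W) +
        5 * h₀ ^ 2 * ∫ p, (‖fderiv ℝ η (π p.1)‖ ^ 2 + η (π p.1) ^ 2) ∂W := by
    rw [integral_add (i1.const_mul _) (i3.const_mul _), integral_const_mul, integral_const_mul]
  have h5 : |∫ p, df (π p.1) (π (p.2 (ContinuousLinearMap.adjoint κ (κ p.1)))) ∂W| ≤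
      ∫ p, |df (π p.1) (π (p.2 (ContinuousLinearMap.adjoint κ (κ p.1))))| ∂W :=
    abs_integral_le_integral_abs
  rw [h3, h4] at h2
  have h6 : 0 ≤ ∫ p, (‖fderiv ℝ η (π p.1)‖ ^ 2 + η (π p.1) ^ 2) ∂W :=
    integral_nonneg fun p => by positivity
  have h7 := (abs_le.1 key).2
  have h8 := (abs_le.1 h5).1
  have h9 : (0 : ℝ) ≤ h₀ ^ 2 * ∫ p, (‖fderiv ℝ η (π p.1)‖ ^ 2 + η (π p.1) ^ 2) ∂W := by positivity
  nlinarith

end Crest.Agent.R234.Crs_173
end
end

-- ▼ part R234/Crs2_173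
section

/-!
# Row 234, N0-COARSE, part 2 (helper173): Caccioppoli on balls, masses of cylinders and annuli

`cacc`   : `∫_{|π z - x| < r} tl ≤ C (h₀/r)² W{|π z - x| < 2r}` in the class `CylAS`.
`mass_cyl` : masses of cylinders of radius `≥ h₀` from the upper mass bound in ambient balls.
`measure_mul_le_of_ball` : `μ(S) |B_d| ≤ sup_y μ(B_d(y)) |S + B_d|`.
-/

set_option autoImplicit false

open MeasureTheory Set Function Filter Topology Metric
open Crest.GeometryTopology.Submanifold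
open Crest.Agent.R234.Vf_884 Crest.Agent.R234.Ar_870 Crest.Agent.R234.Cy_870
open Crest.Agent.R234.AS_456 (AS errA err hp vp)
open Crest.Agent.R234.Asl_214 Crest.Agent.R234.Th_164
open scoped ENNReal NNReal InnerProductSpace

noncomputable section

namespace Crest.Agent.R234.Crs_173

variable {m n k : ℕ} {π : Euc k →L[ℝ] Euc m} {κ : Euc k →L[ℝ] Euc n} {δ : ℝ}
  {x₀ x : Euc m} {R h₀ : ℝ} {W : Measure (Euc k × L k)}

/-- cut-off functions with gradient at most `K / r` -/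
theorem exists_cut (m : ℕ) : ∃ K : ℝ, 1 ≤ K ∧ ∀ (x : Euc m) (r : ℝ), 0 < r →
    ∃ η : Euc m → ℝ, ContDiff ℝ 1 η ∧ (∀ v, 0 ≤ η v) ∧ (∀ v, η v ≤ 1) ∧
      (∀ v, ‖v - x‖ < r → η v = 1) ∧ (∀ v, 2 * r ≤ ‖v - x‖ → η v = 0) ∧
      (∀ v, 2 * r ≤ ‖v - x‖ → fderiv ℝ η v = 0) ∧ ∀ v, ‖fderiv ℝ η v‖ ≤ K / r := by
  set b : ContDiffBump (0 : Euc m) := ⟨1, 3 / 2, one_pos, by norm_num⟩ with hb
  have hbs : ContDiff ℝ 1 b := b.contDiff
  have hbc : HasCompactSupport b := b.hasCompactSupport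
  obtain ⟨K, hK⟩ := (hbc.fderiv ℝ).exists_bound_of_continuous
    (hbs.continuous_fderiv one_ne_zero)
  refine ⟨max K 1, le_max_right _ _, fun x r hr => ?_⟩
  have hnorm : ∀ v, ‖r⁻¹ • (v - x)‖ = ‖v - x‖ / r := fun v => by
    rw [norm_smul, norm_inv, Real.norm_eq_abs, abs_of_pos hr, inv_mul_eq_div]
  have hd : ∀ v, HasFDerivAt (fun v => b (r⁻¹ • (v - x)))
      ((fderiv ℝ b (r⁻¹ • (v - x))) ∘L (r⁻¹ • ContinuousLinearMap.id ℝ (Euc m))) v := by
    intro v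
    have h1 : HasFDerivAt (fun v : Euc m => r⁻¹ • (v - x))
        (r⁻¹ • ContinuousLinearMap.id ℝ (Euc m)) v :=
      ((hasFDerivAt_id (𝕜 := ℝ) v).sub_const x).const_smul r⁻¹
    exact ((hbs.differentiable one_ne_zero) _).hasFDerivAt.comp v h1
  refine ⟨fun v => b (r⁻¹ • (v - x)), ?_, fun v => b.nonneg, fun v => b.le_one, ?_, ?_, ?_, ?_⟩
  · exact hbs.comp ((contDiff_id.sub contDiff_const).const_smul _)
  · intro v hv
    refine b.one_of_mem_closedBall ?_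
    rw [mem_closedBall_zero_iff, hnorm]
    change ‖v - x‖ / r ≤ 1
    rw [div_le_one hr]
    exact hv.le
  · intro v hv
    refine b.zero_of_le_dist ?_
    rw [dist_zero_right, hnorm]
    change 3 / 2 ≤ ‖v - x‖ / r
    rw [le_div_iff₀ hr]
    linarith
  · intro v hv
    rw [(hd v).fderiv]
    have h1 : fderiv ℝ b (r⁻¹ • (v - x)) = 0 := by
      by_contra hcon
      have h2 := support_fderiv_subset ℝ hcon
      rw [b.tsupport_eq, mem_closedBall_zero_iff, hnorm] at h2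
      have h3 : ‖v - x‖ / r ≤ 3 / 2 := h2
      rw [div_le_iff₀ hr] at h3
      linarith
    rw [h1, ContinuousLinearMap.zero_comp]
  · intro v
    rw [(hd v).fderiv]
    refine (ContinuousLinearMap.opNorm_comp_le _ _).trans ?_
    have h1 : ‖r⁻¹ • ContinuousLinearMap.id ℝ (Euc m)‖ ≤ r⁻¹ := by
      rw [norm_smul, norm_inv, Real.norm_eq_abs, abs_of_pos hr]
      calc r⁻¹ * ‖ContinuousLinearMap.id ℝ (Euc m)‖ ≤ r⁻¹ * 1 := by
            gcongr
            exact ContinuousLinearMap.norm_id_le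
        _ = r⁻¹ := mul_one _
    calc ‖fderiv ℝ b (r⁻¹ • (v - x))‖ * ‖r⁻¹ • ContinuousLinearMap.id ℝ (Euc m)‖
        ≤ max K 1 * r⁻¹ := by
          gcongr
          exact (hK _).trans (le_max_left _ _)
      _ = _ := (div_eq_mul_inv _ _).symm

/-- **Caccioppoli inequality in `CylAS`** (309's (a)) -/
theorem cacc (m : ℕ) : ∃ Ca : ℝ, 1 ≤ Ca ∧ ∀ {n k : ℕ} {π : Euc k →L[ℝ] Euc m}
    {κ : Euc k →L[ℝ] Euc n} {W : Measure (Euc k × L k)} {x₀ : Euc m} {R h₀ δ : ℝ},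
    CylAS W π κ x₀ R h₀ δ → 0 ≤ δ → δ ≤ 1 / 16 → h₀ ≤ 1 → ∀ (x : Euc m) (r : ℝ), 0 < r → r ≤ 1 →
      ‖x - x₀‖ + 2 * r ≤ R → TB W π x r ≤ Ca * (h₀ / r) ^ 2 * MB W π x (2 * r) := by
  obtain ⟨K, hK1, hcut⟩ := exists_cut m
  refine ⟨16 * (K ^ 2 + 1), by nlinarith, ?_⟩
  intro n k π κ W x₀ R h₀ δ h h0 hδ hh1 x r hr hr1 hxR
  have : IsFiniteMeasure W := ⟨h.fin⟩
  obtain ⟨η, hη, hη0, hη1, hηr, hη2, hηd, hηK⟩ := hcut x r hr
  have hfar : ∀ v, R ≤ ‖v - x₀‖ → 2 * r ≤ ‖v - x‖ := by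
    intro v hv
    have h1 : ‖v - x₀‖ ≤ ‖v - x‖ + ‖x - x₀‖ := by
      calc ‖v - x₀‖ = ‖(v - x) + (x - x₀)‖ := by congr 1; abel
        _ ≤ _ := norm_add_le _ _
    linarith
  have key := cacc_eta h h0 hδ hh1 hη (fun v hv => hη2 v (hfar v hv))
  have hηc := hη.continuous
  have hfd := hη.continuous_fderiv one_ne_zero
  have c1 := CylAS.continuous_tl (k := k) π
  have c3 : Continuous fun p : Euc k × L k => η (π p.1) :=
    hηc.comp (π.continuous.comp continuous_fst)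
  have c5 : Continuous fun p : Euc k × L k => ‖fderiv ℝ η (π p.1)‖ :=
    (hfd.comp (π.continuous.comp continuous_fst)).norm
  have i1 : Integrable (fun p : Euc k × L k => η (π p.1) ^ 2 * tl π p.2) W :=
    h.integrable_continuous ((c3.pow 2).mul c1)
  have i0 : Integrable (fun p : Euc k × L k => tl π p.2) W := h.integrable_continuous c1
  have i3 : Integrable (fun p : Euc k × L k => ‖fderiv ℝ η (π p.1)‖ ^ 2 + η (π p.1) ^ 2) W :=
    h.integrable_continuous ((c5.pow 2).add (c3.pow 2))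
  have h1 : TB W π x r ≤ ∫ p, η (π p.1) ^ 2 * tl π p.2 ∂W := by
    unfold TB
    rw [← integral_indicator (measurableSet_ovr π x r)]
    refine integral_mono_ae (i0.indicator (measurableSet_ovr π x r)) i1 ?_
    filter_upwards [h.tl_nonneg'] with p hp
    by_cases hpm : p ∈ ovr π x r
    · rw [Set.indicator_of_mem hpm, hηr _ hpm]
      simp
    · rw [Set.indicator_of_notMem hpm]
      positivity
  have h2 : ∫ p, (‖fderiv ℝ η (π p.1)‖ ^ 2 + η (π p.1) ^ 2) ∂W ≤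
      ((K / r) ^ 2 + 1) * MB W π x (2 * r) := by
    have e1 : ((K / r) ^ 2 + 1) * MB W π x (2 * r) =
        ∫ p, (ovr π x (2 * r)).indicator (fun _ => ((K / r) ^ 2 + 1)) p ∂W := by
      rw [integral_indicator (measurableSet_ovr π x _), setIntegral_const, smul_eq_mul, mul_comm]
      rfl
    rw [e1]
    refine integral_mono_ae i3 ((integrable_const _).indicator (measurableSet_ovr π x _)) ?_
    refine Eventually.of_forall fun p => ?_
    change ‖fderiv ℝ η (π p.1)‖ ^ 2 + η (π p.1) ^ 2 ≤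
      (ovr π x (2 * r)).indicator (fun _ => ((K / r) ^ 2 + 1)) p
    by_cases hpm : p ∈ ovr π x (2 * r)
    · rw [Set.indicator_of_mem hpm]
      have h3 := pow_le_pow_left₀ (norm_nonneg _) (hηK (π p.1)) 2
      have h4 := pow_le_pow_left₀ (hη0 (π p.1)) (hη1 (π p.1)) 2
      linarith
    · rw [Set.indicator_of_notMem hpm]
      have h5 : 2 * r ≤ ‖π p.1 - x‖ := not_lt.1 hpm
      rw [hη2 _ h5, hηd _ h5]
      simp
  have hM := MB_nonneg (W := W) (π := π) x (2 * r)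
  have h6 : (K / r) ^ 2 + 1 ≤ (K ^ 2 + 1) * (1 / r) ^ 2 := by
    have h7 : 1 ≤ (1 / r) ^ 2 := by
      have : 1 ≤ 1 / r := by rw [le_div_iff₀ hr]; linarith
      exact one_le_pow₀ this
    have e2 : (K / r) ^ 2 = K ^ 2 * (1 / r) ^ 2 := by ring
    rw [e2]
    linarith
  calc TB W π x r ≤ 16 * h₀ ^ 2 * ∫ p, (‖fderiv ℝ η (π p.1)‖ ^ 2 + η (π p.1) ^ 2) ∂W :=
        h1.trans key
    _ ≤ 16 * h₀ ^ 2 * (((K ^ 2 + 1) * (1 / r) ^ 2) * MB W π x (2 * r)) := by
        gcongr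
        exact h2.trans (by gcongr)
    _ = _ := by ring

/-- masses of cylinders of radius at least the height -/
theorem mass_cyl {C₀ : ℝ} (h : CylAS W π κ x₀ R h₀ δ)
    (hub : ∀ (z : Euc k) (r : ℝ), 0 < r → r ≤ 1 → W.real (closedBall z r ×ˢ univ) ≤ C₀ * r ^ m)
    (y : Euc m) {r : ℝ} (hr : 0 < r) (hr1 : 2 * r ≤ 1) (hhr : h₀ ≤ r) :
    MB W π y r ≤ C₀ * (2 * r) ^ m := by
  have : IsFiniteMeasure W := ⟨h.fin⟩
  have h1 := hub (ContinuousLinearMap.adjoint π y) (2 * r) (by positivity) hr1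
  refine le_trans ?_ h1
  unfold MB Measure.real
  refine ENNReal.toReal_mono (measure_ne_top W _) ?_
  refine measure_mono_ae ?_
  filter_upwards [h.hgt] with p hp hpm
  refine ⟨?_, mem_univ _⟩
  rw [mem_closedBall, dist_eq_norm]
  have h2 : ContinuousLinearMap.adjoint π (π p.1) + ContinuousLinearMap.adjoint κ (κ p.1) = p.1 :=
    congrArg (fun T : L k => T p.1) h.sp.sum
  have h3 : p.1 - ContinuousLinearMap.adjoint π y =
      ContinuousLinearMap.adjoint π (π p.1 - y) + ContinuousLinearMap.adjoint κ (κ p.1) := by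
    nth_rewrite 1 [← h2]
    rw [map_sub]
    abel
  rw [h3]
  have h4 : ‖π p.1 - y‖ < r := hpm
  calc _ ≤ ‖ContinuousLinearMap.adjoint π (π p.1 - y)‖ +
        ‖ContinuousLinearMap.adjoint κ (κ p.1)‖ := norm_add_le _ _
    _ ≤ ‖π p.1 - y‖ + ‖κ p.1‖ :=
        add_le_add (norm_adj_pi_apply h.sp _) (norm_adj_kap_apply h.sp _)
    _ ≤ r + r := add_le_add h4.le (hp.trans hhr)
    _ = 2 * r := by ring

/-- `μ(S) |B_d| ≤ sup_y μ(B_d(y)) |S + B_d|` -/
theorem measure_mul_le_of_ball {d : ℕ} (μ : Measure (Eu d)) [SFinite μ] {S : Set (Eu d)}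
    {r : ℝ} {B : ℝ≥0∞} (hB : ∀ y, μ (ball y r) ≤ B) :
    μ S * volume (ball (0 : Eu d) r) ≤ B * volume (thickening r S) := by
  set F : Eu d → Eu d → ℝ≥0∞ := fun x y => (ball y r).indicator 1 x with hF
  have hFm : Measurable (uncurry F) := by
    have h1 : uncurry F = ({z : Eu d × Eu d | dist z.1 z.2 < r}).indicator 1 := by
      funext z
      simp only [hF, uncurry, Set.indicator, mem_ball, mem_ofPred_eq, Pi.one_apply]
    rw [h1]
    exact measurable_one.indicator (isOpen_lt continuous_dist continuous_const).measurableSet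
  have e1 : ∀ x, ∫⁻ y, F x y = volume (ball (0 : Eu d) r) := by
    intro x
    have h1 : ∀ y, F x y = (ball x r).indicator 1 y := by
      intro y
      simp only [hF, Set.indicator, mem_ball, Pi.one_apply, dist_comm x y]
    simp_rw [h1]
    rw [lintegral_indicator_one measurableSet_ball]
    exact Measure.addHaar_ball_center volume x r
  calc μ S * volume (ball (0 : Eu d) r) = ∫⁻ x in S, ∫⁻ y, F x y ∂volume ∂μ := by
        simp_rw [e1]
        rw [setLIntegral_const, mul_comm]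
    _ = ∫⁻ y, ∫⁻ x in S, F x y ∂μ ∂volume := lintegral_lintegral_swap hFm.aemeasurable
    _ ≤ ∫⁻ y, (thickening r S).indicator (fun _ => B) y ∂volume := by
        refine lintegral_mono fun y => ?_
        change ∫⁻ x in S, (ball y r).indicator 1 x ∂μ ≤ _
        rw [lintegral_indicator_one measurableSet_ball, Measure.restrict_apply measurableSet_ball]
        by_cases hy : y ∈ thickening r S
        · rw [Set.indicator_of_mem hy]
          exact (measure_mono inter_subset_left).trans (hB y)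
        · rw [Set.indicator_of_notMem hy]
          have h2 : ball y r ∩ S = ∅ := by
            ext z
            simp only [mem_inter_iff, mem_empty_iff_false, iff_false, not_and]
            intro h3 h4
            exact hy (mem_thickening_iff.2 ⟨z, h4, by rw [dist_comm]; exact h3⟩)
          rw [h2, measure_empty]
    _ = B * volume (thickening r S) := by
        rw [lintegral_indicator isOpen_thickening.measurableSet, setLIntegral_const]

end Crest.Agent.R234.Crs_173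
end
end

-- ▼ part R234/Crs3_173

/-!
# Row 234, N0-COARSE, part 3 (helper173): the input structure, the mass near the lateral boundary
-/

set_option autoImplicit false

open MeasureTheory Set Function Filter Topology Metric
open Crest.GeometryTopology.Submanifold
open Crest.Agent.R234.Vf_884 Crest.Agent.R234.Ar_870 Crest.Agent.R234.Cy_870
open Crest.Agent.R234.AS_456 (AS errA err hp vp)
open Crest.Agent.R234.Asl_214 Crest.Agent.R234.Th_164
open scoped ENNReal NNReal ContDiff InnerProductSpace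

noncomputable section

namespace Crest.Agent.R234.Crs_173

variable {m n k : ℕ} {π : Euc k →L[ℝ] Euc m} {κ : Euc k →L[ℝ] Euc n} {δ : ℝ}
  {x₀ x : Euc m} {R h₀ : ℝ} {W : Measure (Euc k × L k)} {N : Euc m → ℝ≥0∞}

/-- input of N0-COARSE (309 #7283) -/
structure In (W : Measure (Euc k × L k)) (π : Euc k →L[ℝ] Euc m) (κ : Euc k →L[ℝ] Euc n)
    (N : Euc m → ℝ≥0∞) (Q : ℕ) (C₀ h₀ δ : ℝ) : Prop where
  cyl : CylAS W π κ 0 4 h₀ δ
  area : Area W π (ball 0 4) N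
  mass : |W.real univ - Q * (om m * 4 ^ m)| ≤ 1 / 4 * (om m * 4 ^ m)
  ub : ∀ (z : Euc k) (r : ℝ), 0 < r → r ≤ 1 → W.real (closedBall z r ×ˢ univ) ≤ C₀ * r ^ m
  δ0 : 0 ≤ δ
  hh : 0 ≤ h₀

/-- 164's `Setup` for `CylAS` -/
theorem setup_of_cylAS (h : CylAS W π κ x₀ R h₀ δ) (h0 : 0 ≤ δ) (h1 : δ ≤ 1)
    (hN : Area W π (ball x₀ R) N) :
    Setup π W (ball x₀ R) N δ (h₀ ^ 2) (fun z => ‖vp π z‖ ^ 2) where
  fin := ⟨h.fin⟩
  co := h.sp.hh
  conc := h.conc
  isOpen := isOpen_ball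
  area := hN
  δ_nonneg := h0
  δ_le := h1
  h_nonneg := by positivity
  q_meas := ((vp π).continuous.norm.pow 2).measurable
  q_nonneg z := by positivity
  q_le := by
    filter_upwards [h.hgt] with p hp
    rw [norm_vp_eq h.sp]
    exact pow_le_pow_left₀ (norm_nonneg _) hp 2
  fv ξ hξ _ hξR := by
    have hfd : Continuous (fderiv ℝ ξ) := hξ.continuous_fderiv (by simp)
    have h2 := h.fv_hor h0 (f := fun _ : Euc n => (1 : ℝ)) (df := fun _ => 0)
      (fun y => hasFDerivAt_const _ _) continuous_const (ξ := ξ) (dξ := fderiv ℝ ξ)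
      (fun v => ((hξ.differentiable (by simp)) v).hasFDerivAt) hfd (by
        intro v hv
        refine image_eq_zero_of_notMem_tsupport fun hm => ?_
        have h4 := hξR hm
        rw [mem_ball, dist_eq_norm] at h4
        linarith)
    have e1 : (fun p : Euc k => (1 : ℝ) • ContinuousLinearMap.adjoint π (ξ (π p))) =
        fun p => ContinuousLinearMap.adjoint π (ξ (π p)) := by
      funext p; rw [one_smul]
    rw [e1] at h2
    refine h2.trans (le_of_eq ?_)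
    refine integral_congr_ae (Eventually.of_forall fun p => ?_)
    change δ * (tl π p.2 + ‖κ p.1‖ ^ 2) * (|(1 : ℝ)| * (‖fderiv ℝ ξ (π p.1)‖ + ‖ξ (π p.1)‖)) +
        δ * (√(tl π p.2) + ‖κ p.1‖) * (‖(0 : Euc n →L[ℝ] ℝ)‖ * ‖ξ (π p.1)‖) =
      δ * (tl π p.2 + ‖vp π p.1‖ ^ 2) * (‖fderiv ℝ ξ (π p.1)‖ + ‖ξ (π p.1)‖)
    rw [norm_vp_eq h.sp, abs_one, norm_zero]
    ring

/-- 164's `Hyp` for `CylAS` -/
theorem hyp_of_setup {W : Measure (Euc k × L k)} {R : Set (Euc m)} {N : Euc m → ℝ≥0∞}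
    {δ h σ : ℝ} {q : Euc k → ℝ} (hS : Setup π W R N δ h q) (hσ : 0 ≤ σ) :
    Hyp (m + 2) (σ + δ * h) (δ * (m + h)) R (fun x => (N x).toReal) (muM W π)
      (wM W π (we π δ q)) (wM W π (ws π σ)) (wM W π (wg π δ q)) := by
  have := hS.fin
  exact hyp_of hS.co hS.conc hS.isOpen hS.area hS.δ_nonneg hS.δ_le hσ hS.h_nonneg hS.q_meas
    hS.q_nonneg hS.q_le hS.fv

theorem ovr_eq (π : Euc k →L[ℝ] Euc m) (x : Euc m) (s : ℝ) :
    (ovr π x s : Set (Euc k × L k)) = (fun p => π p.1) ⁻¹' ball x s := by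
  ext p
  simp only [ovr, mem_ofPred_eq, mem_preimage, mem_ball, dist_eq_norm]

theorem muM_ball (x : Euc m) (s : ℝ) : muM W π (ball x s) = W (ovr π x s) := by
  rw [muM_apply W measurableSet_ball, ovr_eq]

/-- the mass near the lateral boundary -/
theorem annulus {C₀ : ℝ} (hC : 0 ≤ C₀) (h : CylAS W π κ 0 4 h₀ δ)
    (hub : ∀ (z : Euc k) (r : ℝ), 0 < r → r ≤ 1 → W.real (closedBall z r ×ˢ univ) ≤ C₀ * r ^ m)
    {d : ℝ} (hd : 0 < d) (hd1 : d ≤ 1 / 4) (hhd : h₀ ≤ d) :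
    W.real {p | 4 - d ≤ ‖π p.1‖} ≤ C₀ * 2 ^ m * ((4 + d) ^ m - (4 - 2 * d) ^ m) := by
  have : IsFiniteMeasure W := ⟨h.fin⟩
  have : IsFiniteMeasure (muM W π) := by unfold muM; infer_instance
  have hom := om_pos m
  set S : Set (Euc m) := closedBall 0 4 \ ball 0 (4 - d) with hS
  have hSm : MeasurableSet S := measurableSet_closedBall.diff measurableSet_ball
  have h1 : W {p | 4 - d ≤ ‖π p.1‖} ≤ muM W π S := by
    rw [muM_apply W hSm]
    refine measure_mono_ae ?_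
    filter_upwards [h.base] with p hp hpm
    have hpm' : 4 - d ≤ ‖π p.1‖ := hpm
    rw [sub_zero] at hp
    refine ⟨?_, ?_⟩
    · rw [mem_closedBall_zero_iff]; exact hp
    · rw [mem_ball_zero_iff, not_lt]; exact hpm'
  have h2 := measure_mul_le_of_ball (muM W π) (S := S) (r := d)
    (B := ENNReal.ofReal (C₀ * (2 * d) ^ m)) (by
      intro y
      rw [muM_ball, ← ENNReal.ofReal_toReal (measure_ne_top W _)]
      exact ENNReal.ofReal_le_ofReal (mass_cyl h hub y hd (by linarith) hhd))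
  have h3 : thickening d S ⊆ ball 0 (4 + d) \ closedBall 0 (4 - 2 * d) := by
    intro y hy
    obtain ⟨z, ⟨hz1, hz2⟩, hz3⟩ := mem_thickening_iff.1 hy
    rw [mem_closedBall_zero_iff] at hz1
    rw [mem_ball_zero_iff, not_lt] at hz2
    rw [dist_eq_norm] at hz3
    have e1 := norm_sub_norm_le y z
    have e2 := norm_sub_norm_le z y
    rw [norm_sub_rev] at e2
    refine ⟨?_, ?_⟩
    · rw [mem_ball_zero_iff]; linarith
    · rw [mem_closedBall_zero_iff, not_le]; linarith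
  have h4 : volume.real (ball (0 : Euc m) (4 + d) \ closedBall 0 (4 - 2 * d)) =
      om m * ((4 + d) ^ m - (4 - 2 * d) ^ m) := by
    have hsub : closedBall (0 : Euc m) (4 - 2 * d) ⊆ ball 0 (4 + d) :=
      closedBall_subset_ball (by linarith)
    rw [measureReal_sdiff hsub measurableSet_closedBall measure_ball_lt_top.ne]
    have e1 := vol_ball (0 : Euc m) (by linarith : 0 < 4 + d)
    have e2 := vol_closedBall (0 : Euc m) (by linarith : 0 ≤ 4 - 2 * d)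
    rw [e1, e2]
    ring
  have h5 : volume (thickening d S) ≤ ENNReal.ofReal (om m * ((4 + d) ^ m - (4 - 2 * d) ^ m)) := by
    rw [← h4]
    have hne : volume (ball (0 : Euc m) (4 + d) \ closedBall 0 (4 - 2 * d)) ≠ ⊤ :=
      ne_top_of_le_ne_top measure_ball_lt_top.ne (measure_mono sdiff_subset)
    rw [measureReal_def, ENNReal.ofReal_toReal hne]
    exact measure_mono h3
  have hpos : 0 ≤ (4 + d) ^ m - (4 - 2 * d) ^ m :=
    sub_nonneg.2 (pow_le_pow_left₀ (by linarith) (by linarith) m)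
  have h6 : volume (ball (0 : Euc m) d) = ENNReal.ofReal (om m * d ^ m) := by
    have e1 := vol_ball (0 : Euc m) hd
    rw [← e1, measureReal_def, ENNReal.ofReal_toReal measure_ball_lt_top.ne]
  have h7 : (muM W π).real S * (om m * d ^ m) ≤
      C₀ * (2 * d) ^ m * (om m * ((4 + d) ^ m - (4 - 2 * d) ^ m)) := by
    have h8 := h2.trans (mul_le_mul' le_rfl h5)
    rw [h6, ← ENNReal.ofReal_mul (by positivity)] at h8
    have h9 := ENNReal.toReal_le_of_le_ofReal (by positivity) h8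
    rw [ENNReal.toReal_mul, ENNReal.toReal_ofReal (by positivity)] at h9
    exact h9
  have h8 : (muM W π).real S ≤ C₀ * 2 ^ m * ((4 + d) ^ m - (4 - 2 * d) ^ m) := by
    have hp : 0 < om m * d ^ m := by positivity
    refine le_of_mul_le_mul_right ?_ hp
    calc (muM W π).real S * (om m * d ^ m) ≤
        C₀ * (2 * d) ^ m * (om m * ((4 + d) ^ m - (4 - 2 * d) ^ m)) := h7
      _ = _ := by rw [mul_pow]; ring
  refine le_trans ?_ h8
  rw [measureReal_def, measureReal_def]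
  exact ENNReal.toReal_mono (measure_ne_top _ _) h1

/-- the mass near the lateral boundary is as small as we like -/
theorem exists_annulus (m : ℕ) (C₀ : ℝ) {ε : ℝ} (hε : 0 < ε) :
    ∃ d₀ : ℝ, 0 < d₀ ∧ d₀ ≤ 1 / 4 ∧ ∀ d, 0 < d → d ≤ d₀ →
      C₀ * 2 ^ m * ((4 + d) ^ m - (4 - 2 * d) ^ m) ≤ ε ∧
      (1 - ε) * 4 ^ m ≤ (4 - d) ^ m := by
  have hc : Continuous fun d : ℝ => C₀ * 2 ^ m * ((4 + d) ^ m - (4 - 2 * d) ^ m) := by fun_prop
  have hc2 : Continuous fun d : ℝ => (4 - d) ^ m := by fun_prop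
  have h1 : ∀ᶠ d in 𝓝 (0 : ℝ), C₀ * 2 ^ m * ((4 + d) ^ m - (4 - 2 * d) ^ m) < ε := by
    refine hc.continuousAt.eventually_lt continuousAt_const ?_
    simpa using hε
  have h2 : ∀ᶠ d in 𝓝 (0 : ℝ), (1 - ε) * 4 ^ m < (4 - d) ^ m := by
    refine continuousAt_const.eventually_lt hc2.continuousAt ?_
    rw [sub_zero]
    have : (0 : ℝ) < 4 ^ m := by positivity
    nlinarith
  obtain ⟨r, hr, hb⟩ := Metric.eventually_nhds_iff.1 (h1.and h2)
  refine ⟨min (r / 2) (1 / 4), lt_min (by positivity) (by norm_num), min_le_right _ _, ?_⟩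
  intro d hd0 hd1
  have hd2 : d ≤ r / 2 := hd1.trans (min_le_left _ _)
  obtain ⟨h3, h4⟩ := hb (y := d) (by rw [dist_zero_right, Real.norm_eq_abs, abs_of_pos hd0]; linarith)
  exact ⟨h3.le, h4.le⟩

end Crest.Agent.R234.Crs_173
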