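import Crest.Agent.R234.Cy2_870

-- ▼ part R234/Cy3_870
section

/-!
# Row 234, VF-CYL, part 3 (helper870)

The exact weighted frame (W1)-(W3) of helper504 (#5326), with the first variation functional kept as a
term: nothing here uses stationarity. `l = log s`, weight `g (e^{-2l} |π p - x|²)`.
-/

set_option autoImplicit false

open MeasureTheory Set Function Filter Topology
open Crest.GeometryTopology.Submanifold
open Crest.Agent.R234.Vf_884 Crest.Agent.R234.Ar_870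
open scoped ENNReal NNReal InnerProductSpace

noncomputable section

namespace Crest.Agent.R234.Cy_870

variable {m n k : ℕ}

/-- the measure `V` near the ball of radius `e^L` about `x` -/
structure Fr (V : Measure (Euc k × L k)) (π : Euc k →L[ℝ] Euc m) (κ : Euc k →L[ℝ] Euc n)
    (x : Euc m) (L₀ : ℝ) : Prop where
  sp : Split π κ
  conc : ∀ᵐ p ∂V, p.2 ∈ G m k
  fin : V {p | ‖π p.1 - x‖ ^ 2 < Real.exp (2 * L₀)} < ⊤

/-- profiles `g` with `g' = g1`, `g'' = g2`, `g = 0` on `[1, ∞)`, nonincreasing -/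
structure Prof (g g1 g2 : ℝ → ℝ) : Prop where
  k0 : Ker g g1
  k1 : Ker g1 g2
  anti : ∀ t, 0 ≤ t → g1 t ≤ 0


/-- mass excess `s^{2-m} (∫ χ dμ - Q ∫ χ dx)` -/
def EE (V : Measure (Euc k × L k)) (π : Euc k →L[ℝ] Euc m) (x : Euc m) (g : ℝ → ℝ) (Q l : ℝ) : ℝ :=
  Real.exp ((2 - m) * l) *
    (∫ p, 1 * g (Real.exp (-2 * l) * ‖π p.1 - x‖ ^ 2) ∂V -
      Q * ∫ v : Euc m, 1 * g (Real.exp (-2 * l) * ‖v - x‖ ^ 2))

/-- tilt energy `s^{2-m} ∫ χ tl dV` -/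
def ee (V : Measure (Euc k × L k)) (π : Euc k →L[ℝ] Euc m) (x : Euc m) (g : ℝ → ℝ) (l : ℝ) : ℝ :=
  Real.exp ((2 - m) * l) *
    ∫ p, tl π p.2 * g (Real.exp (-2 * l) * ‖π p.1 - x‖ ^ 2) ∂V

/-- anomaly `E - e / 2` -/
def bb (V : Measure (Euc k × L k)) (π : Euc k →L[ℝ] Euc m) (x : Euc m) (g : ℝ → ℝ) (Q l : ℝ) : ℝ :=
  EE V π x g Q l - ee V π x g l / 2

/-- radial energy `s^{2-m} ∫ (w/r) ⟨(1 - S_hh)(x' - x), x' - x⟩ dV` -/
def RR (V : Measure (Euc k × L k)) (π : Euc k →L[ℝ] Euc m) (x : Euc m) (g1 : ℝ → ℝ) (l : ℝ) : ℝ :=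
  Real.exp (-m * l) *
    ∫ p, qf π p.2 (π p.1 - x) * (-2 * g1 (Real.exp (-2 * l) * ‖π p.1 - x‖ ^ 2)) ∂V

/-- well height `s^{2-m} ∫ 2 F (w/r) dV` -/
def IF (V : Measure (Euc k × L k)) (π : Euc k →L[ℝ] Euc m) (κ : Euc k →L[ℝ] Euc n) (x : Euc m)
    (F : Euc n → ℝ) (g1 : ℝ → ℝ) (l : ℝ) : ℝ :=
  Real.exp (-m * l) *
    ∫ p, F (κ p.1) * (-4 * g1 (Real.exp (-2 * l) * ‖π p.1 - x‖ ^ 2)) ∂V

/-- well energy `s^{2-m} ∫ χ D²F : S_vv dV`, `H = D²F` -/
def eF (V : Measure (Euc k × L k)) (π : Euc k →L[ℝ] Euc m) (κ : Euc k →L[ℝ] Euc n) (x : Euc m)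
    (H : Euc n → L n) (g : ℝ → ℝ) (l : ℝ) : ℝ :=
  Real.exp ((2 - m) * l) *
    ∫ p, tr (H (κ p.1) ∘L Shh κ p.2) * g (Real.exp (-2 * l) * ‖π p.1 - x‖ ^ 2) ∂V

/-- the field `χ (x' - x)` -/
def X1 (π : Euc k →L[ℝ] Euc m) (x : Euc m) (g : ℝ → ℝ) (l : ℝ) (p : Euc k) : Euc k :=
  (1 : ℝ) • ContinuousLinearMap.adjoint π
    (g (Real.exp (-2 * l) * ‖π p - x‖ ^ 2) • (π p - x))

variable {π : Euc k →L[ℝ] Euc m} {κ : Euc k →L[ℝ] Euc n} {x : Euc m} {L₀ : ℝ}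
  {V : Measure (Euc k × L k)} {g g1 g2 : ℝ → ℝ}

theorem measurable_rho (π : Euc k →L[ℝ] Euc m) (x : Euc m) :
    Measurable fun p : Euc k × L k => ‖π p.1 - x‖ ^ 2 :=
  (((π.continuous.comp continuous_fst).sub continuous_const).norm.pow 2).measurable

theorem aestronglyMeasurable_tl (π : Euc k →L[ℝ] Euc m) (V : Measure (Euc k × L k)) :
    AEStronglyMeasurable (fun p : Euc k × L k => tl π p.2) V :=
  ((measurable_tl π).comp continuous_snd).aestronglyMeasurable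

theorem continuous_qf (π : Euc k →L[ℝ] Euc m) (x : Euc m) :
    Continuous fun p : Euc k × L k => qf π p.2 (π p.1 - x) := by
  unfold qf
  have h1 : Continuous fun p : Euc k × L k => π p.1 - x :=
    (π.continuous.comp continuous_fst).sub continuous_const
  exact (h1.norm.pow 2).sub (h1.inner
    (((continuous_Shh π).comp continuous_snd).clm_apply h1))

namespace Fr

theorem tl_bound (h : Fr V π κ x L₀) :
    ∀ᵐ p ∂V, ‖π p.1 - x‖ ^ 2 < Real.exp (2 * L₀) → |tl π p.2| ≤ m := by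
  filter_upwards [h.conc] with p hp _
  rw [abs_of_nonneg (tl_nonneg h.sp.hh (isPr_of_G hp))]
  exact tl_le h.sp.hh (isPr_of_G hp)

theorem qf_bound (h : Fr V π κ x L₀) :
    ∀ᵐ p ∂V, ‖π p.1 - x‖ ^ 2 < Real.exp (2 * L₀) →
      |qf π p.2 (π p.1 - x)| ≤ Real.exp (2 * L₀) := by
  filter_upwards [h.conc] with p hp hlt
  rw [abs_of_nonneg (qf_nonneg h.sp.hh (isPr_of_G hp) _)]
  exact (qf_le (isPr_of_G hp) _).trans hlt.le

theorem integrable_c (h : Fr V π κ x L₀) {c : Euc k × L k → ℝ} (hc : AEStronglyMeasurable c V)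
    {C : ℝ} (hcC : ∀ᵐ p ∂V, ‖π p.1 - x‖ ^ 2 < Real.exp (2 * L₀) → |c p| ≤ C) {f f' : ℝ → ℝ}
    (hf : Ker f f') {l : ℝ} (hl : l ≤ L₀) :
    Integrable (fun p => c p * f (Real.exp (-2 * l) * ‖π p.1 - x‖ ^ 2)) V := by
  obtain ⟨K, -, hK, -, -⟩ := hf.exists_bound
  exact integrable_ker (measurable_rho π x) (fun p => by positivity) hc h.fin hcC
    hf.continuous hK hf.zero hl

theorem deriv_c (h : Fr V π κ x L₀) {c : Euc k × L k → ℝ} (hc : AEStronglyMeasurable c V)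
    {C : ℝ} (hcC : ∀ᵐ p ∂V, ‖π p.1 - x‖ ^ 2 < Real.exp (2 * L₀) → |c p| ≤ C) {f f' : ℝ → ℝ}
    (hf : Ker f f') {l : ℝ} (hl : l < L₀) :
    HasDerivAt (fun l => ∫ p, c p * f (Real.exp (-2 * l) * ‖π p.1 - x‖ ^ 2) ∂V)
      (∫ p, c p * (-2 * (Real.exp (-2 * l) * ‖π p.1 - x‖ ^ 2 *
        f' (Real.exp (-2 * l) * ‖π p.1 - x‖ ^ 2))) ∂V) l :=
  hasDerivAt_ker (measurable_rho π x) (fun p => by positivity) hc h.fin hcC hf hl

end Fr

theorem ae_one_bound {Ω : Type*} [MeasurableSpace Ω] {V : Measure Ω} {S : Ω → Prop} :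
    ∀ᵐ p ∂V, S p → |(1:ℝ)| ≤ 1 := Eventually.of_forall fun _ _ => by simp

/-- kernels `t f'(t)` -/
theorem integrable_tk (h : Fr V π κ x L₀) {c : Euc k × L k → ℝ} (hc : AEStronglyMeasurable c V)
    {C : ℝ} (hcC : ∀ᵐ p ∂V, ‖π p.1 - x‖ ^ 2 < Real.exp (2 * L₀) → |c p| ≤ C) {f f' : ℝ → ℝ}
    (hf : Ker f f') {l : ℝ} (hl : l ≤ L₀) :
    Integrable (fun p => c p * (Real.exp (-2 * l) * ‖π p.1 - x‖ ^ 2 *
      f' (Real.exp (-2 * l) * ‖π p.1 - x‖ ^ 2))) V := by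
  obtain ⟨K, -, -, -, hK⟩ := hf.exists_bound
  exact integrable_ker (k := fun t => t * f' t) (measurable_rho π x) (fun p => by positivity) hc
    h.fin hcC (continuous_id.mul hf.cont) hK (fun t ht => by rw [hf.zero' t ht, mul_zero]) hl

theorem integrable_k' (h : Fr V π κ x L₀) {c : Euc k × L k → ℝ} (hc : AEStronglyMeasurable c V)
    {C : ℝ} (hcC : ∀ᵐ p ∂V, ‖π p.1 - x‖ ^ 2 < Real.exp (2 * L₀) → |c p| ≤ C) {f f' : ℝ → ℝ}
    (hf : Ker f f') {l : ℝ} (hl : l ≤ L₀) :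
    Integrable (fun p => c p * f' (Real.exp (-2 * l) * ‖π p.1 - x‖ ^ 2)) V := by
  obtain ⟨K, -, -, hK, -⟩ := hf.exists_bound
  exact integrable_ker (measurable_rho π x) (fun p => by positivity) hc
    h.fin hcC hf.cont hK hf.zero' hl

/-! ### Lebesgue measure -/

theorem leb_scale (f : ℝ → ℝ) (x : Euc m) (l : ℝ) :
    ∫ v : Euc m, f (Real.exp (-2 * l) * ‖v - x‖ ^ 2) =
      Real.exp (m * l) * ∫ v : Euc m, f (‖v‖ ^ 2) := by
  rw [integral_sub_right_eq_self (μ := (volume : Measure (Euc m)))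
    (fun v : Euc m => f (Real.exp (-2 * l) * ‖v‖ ^ 2)) x]
  have h1 : ∀ v : Euc m, f (Real.exp (-2 * l) * ‖v‖ ^ 2) =
      (fun w : Euc m => f (‖w‖ ^ 2)) (Real.exp (-l) • v) := by
    intro v
    simp only
    rw [norm_smul, Real.norm_eq_abs, abs_of_pos (Real.exp_pos _), mul_pow, ← Real.exp_nat_mul]
    congr 3
    push_cast
    ring
  have h2 := Measure.integral_comp_smul (volume : Measure (Euc m)) (fun w : Euc m => f (‖w‖ ^ 2))
    (Real.exp (-l))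
  rw [integral_congr_ae (Eventually.of_forall h1), h2]
  rw [finrank_euclideanSpace, Fintype.card_fin, smul_eq_mul]
  congr 1
  rw [← Real.exp_nat_mul, ← Real.exp_neg, abs_of_pos (Real.exp_pos _)]
  congr 1
  ring

theorem hasDerivAt_leb (f : ℝ → ℝ) (x : Euc m) (l : ℝ) :
    HasDerivAt (fun l => ∫ v : Euc m, f (Real.exp (-2 * l) * ‖v - x‖ ^ 2))
      (m * ∫ v : Euc m, f (Real.exp (-2 * l) * ‖v - x‖ ^ 2)) l := by
  simp_rw [leb_scale f x]
  have h1 : HasDerivAt (fun l : ℝ => Real.exp (m * l)) (Real.exp (m * l) * m) l := by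
    have h2 : HasDerivAt (fun l : ℝ => (m:ℝ) * l) m l := by
      simpa using (hasDerivAt_id l).const_mul (m:ℝ)
    exact h2.exp
  have h3 := h1.mul_const (∫ v : Euc m, f (‖v‖ ^ 2))
  have h4 : (m:ℝ) * (Real.exp (m * l) * ∫ v : Euc m, f (‖v‖ ^ 2)) =
      Real.exp (m * l) * m * ∫ v : Euc m, f (‖v‖ ^ 2) := by ring
  rw [h4]
  exact h3

/-! ### the derivative of radial fields -/

theorem hasDerivAt_scaled {f f' : ℝ → ℝ} (hf : ∀ t, HasDerivAt f (f' t) t) (l t : ℝ) :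
    HasDerivAt (fun t => f (Real.exp (-2 * l) * t))
      (Real.exp (-2 * l) * f' (Real.exp (-2 * l) * t)) t := by
  have h1 : HasDerivAt (fun t : ℝ => Real.exp (-2 * l) * t) (Real.exp (-2 * l)) t := by
    simpa using (hasDerivAt_id t).const_mul (Real.exp (-2 * l))
  have h2 := (hf (Real.exp (-2 * l) * t)).comp t h1
  have h3 : Real.exp (-2 * l) * f' (Real.exp (-2 * l) * t) =
      f' (Real.exp (-2 * l) * t) * Real.exp (-2 * l) := by ring
  rw [h3]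
  exact h2

theorem contDiff_scaled {f f' : ℝ → ℝ} (hf : ∀ t, HasDerivAt f (f' t) t) (hc : Continuous f')
    (l : ℝ) : ContDiff ℝ 1 fun t => f (Real.exp (-2 * l) * t) := by
  rw [contDiff_one_iff_deriv]
  refine ⟨fun t => (hasDerivAt_scaled hf l t).differentiableAt, ?_⟩
  have h1 : deriv (fun t => f (Real.exp (-2 * l) * t)) =
      fun t => Real.exp (-2 * l) * f' (Real.exp (-2 * l) * t) :=
    funext fun t => (hasDerivAt_scaled hf l t).deriv
  rw [h1]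
  exact continuous_const.mul (hc.comp (continuous_const.mul continuous_id))

theorem contDiff_rad {f f' : ℝ → ℝ} (hf : ∀ t, HasDerivAt f (f' t) t) (hc : Continuous f')
    (l : ℝ) (x : Euc m) :
    ContDiff ℝ 1 fun v : Euc m => f (Real.exp (-2 * l) * ‖v - x‖ ^ 2) • (v - x) :=
  contDiff_radial (contDiff_scaled hf hc l) x

theorem tr_rad {f f' : ℝ → ℝ} (hf : ∀ t, HasDerivAt f (f' t) t) (hc : Continuous f')
    (l : ℝ) (x v : Euc m) (S : L m) :
    tr (fderiv ℝ (fun v : Euc m => f (Real.exp (-2 * l) * ‖v - x‖ ^ 2) • (v - x)) v ∘L S) =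
      f (Real.exp (-2 * l) * ‖v - x‖ ^ 2) * tr S +
        2 * Real.exp (-2 * l) * f' (Real.exp (-2 * l) * ‖v - x‖ ^ 2) * ⟪v - x, S (v - x)⟫_ℝ := by
  have h := hasFDerivAt_radial (contDiff_scaled hf hc l) x v
  rw [h.fderiv, ContinuousLinearMap.add_comp, map_add, tr_smulRight_comp,
    (hasDerivAt_scaled hf l _).deriv]
  have h1 : (f (Real.exp (-2 * l) * ‖v - x‖ ^ 2) • ContinuousLinearMap.id ℝ (Euc m)) ∘L S =
      f (Real.exp (-2 * l) * ‖v - x‖ ^ 2) • S := by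
    ext u; simp
  rw [h1, map_smul, smul_eq_mul, smul_apply, innerSL_apply_apply, smul_eq_mul]
  ring

theorem int4 {Ω : Type*} [MeasurableSpace Ω] {V : Measure Ω} {A B C D : Ω → ℝ}
    (hA : Integrable A V) (hB : Integrable B V) (hC : Integrable C V) (hD : Integrable D V)
    (a b c d : ℝ) :
    ∫ p, (a * A p + b * B p + c * C p + d * D p) ∂V =
      a * ∫ p, A p ∂V + b * ∫ p, B p ∂V + c * ∫ p, C p ∂V + d * ∫ p, D p ∂V := by
  have h1 : Integrable (fun p => a * A p + b * B p) V := (hA.const_mul a).add (hB.const_mul b)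
  have h2 : Integrable (fun p => a * A p + b * B p + c * C p) V := h1.add (hC.const_mul c)
  rw [integral_add h2 (hD.const_mul d), integral_add h1 (hC.const_mul c),
    integral_add (hA.const_mul a) (hB.const_mul b), integral_const_mul, integral_const_mul,
    integral_const_mul, integral_const_mul]

/-! ### (W1) -/

theorem FV_X1 (h : Fr V π κ x L₀) (hg : Ker g g1) {l : ℝ} (hl : l ≤ L₀) :
    FV V (X1 π x g l) =
      m * (∫ p, 1 * g (Real.exp (-2 * l) * ‖π p.1 - x‖ ^ 2) ∂V)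
        - (∫ p, tl π p.2 * g (Real.exp (-2 * l) * ‖π p.1 - x‖ ^ 2) ∂V)
        + 2 * (∫ p, 1 * (Real.exp (-2 * l) * ‖π p.1 - x‖ ^ 2 *
            g1 (Real.exp (-2 * l) * ‖π p.1 - x‖ ^ 2)) ∂V)
        + Real.exp (-2 * l) * (∫ p, qf π p.2 (π p.1 - x) *
            (-2 * g1 (Real.exp (-2 * l) * ‖π p.1 - x‖ ^ 2)) ∂V) := by
  have hc1 : AEStronglyMeasurable (fun _ : Euc k × L k => (1:ℝ)) V :=
    aestronglyMeasurable_const
  have i0 := h.integrable_c (C := 1) hc1 ae_one_bound hg hl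
  have i1 := h.integrable_c (aestronglyMeasurable_tl π V) h.tl_bound hg hl
  have i2 := integrable_tk h (C := 1) hc1 ae_one_bound hg hl
  have i3' := integrable_k' h (continuous_qf π x).aestronglyMeasurable h.qf_bound hg hl
  have i3 : Integrable (fun p : Euc k × L k => qf π p.2 (π p.1 - x) *
      (-2 * g1 (Real.exp (-2 * l) * ‖π p.1 - x‖ ^ 2))) V := by
    refine (i3'.const_mul (-2)).congr (Eventually.of_forall fun p => ?_)
    simp only
    ring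
  have h0 := int4 i0 i1 i2 i3 (m:ℝ) (-1) 2 (Real.exp (-2 * l))
  rw [neg_one_mul, ← sub_eq_add_neg] at h0
  rw [← h0]
  unfold FV
  refine integral_congr_ae ?_
  filter_upwards [h.conc] with p hp
  have h1 := tr_field (n := n) π κ (F := fun _ => (1:ℝ))
    (ξ := fun v : Euc m => g (Real.exp (-2 * l) * ‖v - x‖ ^ 2) • (v - x)) p.1 p.2
    (differentiableAt_const _)
    ((contDiff_rad hg.der hg.cont l x).differentiable one_ne_zero _)
  have h2 : tr (fderiv ℝ (X1 π x g l) p.1 ∘L p.2) = _ := h1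
  rw [h2, tr_rad hg.der hg.cont]
  simp only [fderiv_fun_const, Pi.zero_apply, ContinuousLinearMap.zero_apply, add_zero, one_mul]
  rw [tl_eq]
  unfold qf
  ring

/-- **(W1)**: `dE/dl = 2 b + R - s^{2-m} δV(χ (x' - x))` -/
theorem hasDerivAt_EE (h : Fr V π κ x L₀) (hg : Prof g g1 g2) (Q : ℝ) {l : ℝ} (hl : l < L₀) :
    HasDerivAt (EE V π x g Q)
      (2 * bb V π x g Q l + RR V π x g1 l - Real.exp ((2 - m) * l) * FV V (X1 π x g l)) l := by
  have h1 := h.deriv_c (c := fun _ => 1) (C := 1) aestronglyMeasurable_const ae_one_bound hg.k0 hl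
  have h2 : HasDerivAt (fun l => ∫ v : Euc m, 1 * g (Real.exp (-2 * l) * ‖v - x‖ ^ 2))
      (m * ∫ v : Euc m, 1 * g (Real.exp (-2 * l) * ‖v - x‖ ^ 2)) l := by
    simpa only [one_mul] using hasDerivAt_leb g x l
  have h3 : HasDerivAt (fun l : ℝ => Real.exp ((2 - m) * l))
      (Real.exp ((2 - m) * l) * (2 - m)) l := by
    have h4 : HasDerivAt (fun l : ℝ => (2 - m : ℝ) * l) (2 - m) l := by
      simpa using (hasDerivAt_id l).const_mul (2 - m : ℝ)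
    exact h4.exp
  have h5 := h3.mul (h1.sub (h2.const_mul Q))
  refine h5.congr_deriv ?_
  rw [FV_X1 h hg.k0 hl.le]
  unfold bb EE ee RR
  have h6 : Real.exp (-m * l) = Real.exp ((2 - m) * l) * Real.exp (-2 * l) := by
    rw [← Real.exp_add]; congr 1; ring
  rw [h6]
  have h7 : ∫ p, 1 * (-2 * (Real.exp (-2 * l) * ‖π p.1 - x‖ ^ 2 *
      g1 (Real.exp (-2 * l) * ‖π p.1 - x‖ ^ 2))) ∂V =
      -2 * ∫ p, 1 * (Real.exp (-2 * l) * ‖π p.1 - x‖ ^ 2 *
      g1 (Real.exp (-2 * l) * ‖π p.1 - x‖ ^ 2)) ∂V := by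
    rw [← integral_const_mul]
    refine integral_congr_ae (Eventually.of_forall fun p => ?_)
    simp only
    ring
  rw [h7]
  simp only [Pi.sub_apply]
  ring

end Crest.Agent.R234.Cy_870
end
end

-- ▼ part R234/Cy4_870

/-!
# Row 234, VF-CYL, part 4 (helper870)

(W2), (W3) of helper504 (#5326) for a well function `F`, first variation functional kept as a term.
-/

set_option autoImplicit false

open MeasureTheory Set Function Filter Topology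
open Crest.GeometryTopology.Submanifold
open Crest.Agent.R234.Vf_884 Crest.Agent.R234.Ar_870
open scoped ENNReal NNReal InnerProductSpace

noncomputable section

namespace Crest.Agent.R234.Cy_870

variable {m n k : ℕ}

/-- well functions: `F ≥ 0`, gradient `dF`, Hessian `H`, `|dF|² ≤ 2 F` -/
structure Well (F : Euc n → ℝ) (dF : Euc n → Euc n) (H : Euc n → L n) : Prop where
  hasF : ∀ y, HasFDerivAt F (innerSL ℝ (dF y)) y
  hasdF : ∀ y, HasFDerivAt dF (H y) y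
  contH : Continuous H
  nonneg : ∀ y, 0 ≤ F y
  grad : ∀ y, ‖dF y‖ ^ 2 ≤ 2 * F y

namespace Well

variable {F : Euc n → ℝ} {dF : Euc n → Euc n} {H : Euc n → L n}

theorem contF (h : Well F dF H) : Continuous F :=
  continuous_iff_continuousAt.2 fun y => (h.hasF y).continuousAt

theorem contdF (h : Well F dF H) : Continuous dF :=
  continuous_iff_continuousAt.2 fun y => (h.hasdF y).continuousAt

end Well


/-- heights bounded near the ball -/
def Hgt (V : Measure (Euc k × L k)) (π : Euc k →L[ℝ] Euc m) (κ : Euc k →L[ℝ] Euc n)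
    (x : Euc m) (L₀ h₀ : ℝ) : Prop :=
  ∀ᵐ p ∂V, ‖π p.1 - x‖ ^ 2 < Real.exp (2 * L₀) → ‖κ p.1‖ ≤ h₀

variable {π : Euc k →L[ℝ] Euc m} {κ : Euc k →L[ℝ] Euc n} {x : Euc m} {L₀ h₀ : ℝ}
  {V : Measure (Euc k × L k)} {g g1 g2 : ℝ → ℝ}
  {F : Euc n → ℝ} {dF : Euc n → Euc n} {H : Euc n → L n}

/-- continuous functions of `(κ p, P, π p)` are bounded near the ball -/
theorem exists_bd (h : Fr V π κ x L₀) (hh : Hgt V π κ x L₀ h₀)
    {c : Euc n × L k × Euc m → ℝ} (hc : Continuous c) :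
    ∃ C : ℝ, ∀ᵐ p ∂V, ‖π p.1 - x‖ ^ 2 < Real.exp (2 * L₀) →
      |c (κ p.1, p.2, π p.1)| ≤ C := by
  obtain ⟨C, hC⟩ := ((isCompact_closedBall (0 : Euc n) h₀).prod ((isCompact_G m k).prod
    (isCompact_closedBall x (Real.exp L₀)))).exists_bound_of_continuousOn hc.continuousOn
  refine ⟨C, ?_⟩
  filter_upwards [h.conc, hh] with p hp hp2 hlt
  refine hC (κ p.1, p.2, π p.1) ⟨?_, hp, ?_⟩
  · rw [mem_closedBall_zero_iff]; exact hp2 hlt
  · rw [Metric.mem_closedBall, dist_eq_norm]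
    have h1 : ‖π p.1 - x‖ ^ 2 ≤ Real.exp L₀ ^ 2 := by
      rw [← Real.exp_nat_mul]; exact_mod_cast hlt.le
    exact (sq_le_sq₀ (norm_nonneg _) (Real.exp_pos _).le).1 h1

/-- the coefficient `⟨dF, S_vh v⟩` -/
def cM (π : Euc k →L[ℝ] Euc m) (κ : Euc k →L[ℝ] Euc n) (x : Euc m) (dF : Euc n → Euc n)
    (p : Euc k × L k) : ℝ := ⟪dF (κ p.1), Svh π κ p.2 (π p.1 - x)⟫_ℝ

/-- the field `χ(x') dF(y)` -/
def X2 (π : Euc k →L[ℝ] Euc m) (κ : Euc k →L[ℝ] Euc n) (x : Euc m) (dF : Euc n → Euc n)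
    (g : ℝ → ℝ) (l : ℝ) (p : Euc k) : Euc k :=
  g (Real.exp (-2 * l) * ‖π p - x‖ ^ 2) • ContinuousLinearMap.adjoint κ (dF (κ p))

/-- the field `F(y) g'(..) (x' - x)`; `F ∇χ = 2 e^{-2l} X3` -/
def X3 (π : Euc k →L[ℝ] Euc m) (κ : Euc k →L[ℝ] Euc n) (x : Euc m) (F : Euc n → ℝ)
    (g1 : ℝ → ℝ) (l : ℝ) (p : Euc k) : Euc k :=
  F (κ p) • ContinuousLinearMap.adjoint π
    (g1 (Real.exp (-2 * l) * ‖π p - x‖ ^ 2) • (π p - x))

theorem continuous_Svh (π : Euc k →L[ℝ] Euc m) (κ : Euc k →L[ℝ] Euc n) :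
    Continuous (Svh π κ : L k → Euc m →L[ℝ] Euc n) :=
  continuous_const.clm_comp (continuous_id.clm_comp continuous_const)

theorem hasFDerivAt_rad {f f' : ℝ → ℝ} (hf : ∀ t, HasDerivAt f (f' t) t) (l : ℝ) (x v : Euc m) :
    HasFDerivAt (fun v : Euc m => f (Real.exp (-2 * l) * ‖v - x‖ ^ 2))
      (innerSL ℝ ((2 * Real.exp (-2 * l) * f' (Real.exp (-2 * l) * ‖v - x‖ ^ 2)) • (v - x))) v := by
  have h1 : HasFDerivAt (fun v : Euc m => v - x) (ContinuousLinearMap.id ℝ (Euc m)) v :=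
    (hasFDerivAt_id v).sub_const x
  have h2 : HasFDerivAt (fun v : Euc m => ‖v - x‖ ^ 2) (2 • innerSL ℝ (v - x)) v := by
    have := h1.norm_sq
    simpa using this
  have h3 := (hasDerivAt_scaled hf l (‖v - x‖ ^ 2)).comp_hasFDerivAt v h2
  have h4 : innerSL ℝ ((2 * Real.exp (-2 * l) * f' (Real.exp (-2 * l) * ‖v - x‖ ^ 2)) • (v - x))
      = (Real.exp (-2 * l) * f' (Real.exp (-2 * l) * ‖v - x‖ ^ 2)) • (2 • innerSL ℝ (v - x)) := by
    rw [map_smul, ← Nat.cast_smul_eq_nsmul ℝ, smul_smul]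
    congr 1
    push_cast
    ring
  rw [h4]
  exact h3

theorem inner_swap {P : L k} (hP : IsPr P) (u : Euc m) (w : Euc n) :
    ⟪u, π (P (ContinuousLinearMap.adjoint κ w))⟫_ℝ = ⟪w, Svh π κ P u⟫_ℝ := by
  unfold Svh
  change _ = ⟪w, κ (P (ContinuousLinearMap.adjoint π u))⟫_ℝ
  rw [← ContinuousLinearMap.adjoint_inner_left, ← ContinuousLinearMap.adjoint_inner_left κ,
    real_inner_comm]
  nth_rewrite 1 [← hP.2]
  rw [ContinuousLinearMap.adjoint_inner_left]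

theorem aesm_F (hF : Well F dF H) (κ : Euc k →L[ℝ] Euc n) (V : Measure (Euc k × L k)) :
    AEStronglyMeasurable (fun p : Euc k × L k => F (κ p.1)) V :=
  (hF.contF.comp (κ.continuous.comp continuous_fst)).aestronglyMeasurable

theorem continuous_cM (hF : Well F dF H) (π : Euc k →L[ℝ] Euc m) (κ : Euc k →L[ℝ] Euc n)
    (x : Euc m) : Continuous (cM π κ x dF) := by
  unfold cM
  refine (hF.contdF.comp (κ.continuous.comp continuous_fst)).inner ?_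
  exact ((continuous_Svh π κ).comp continuous_snd).clm_apply
    ((π.continuous.comp continuous_fst).sub continuous_const)

theorem cM_bd (h : Fr V π κ x L₀) (hh : Hgt V π κ x L₀ h₀) (hF : Well F dF H) :
    ∃ C : ℝ, ∀ᵐ p ∂V, ‖π p.1 - x‖ ^ 2 < Real.exp (2 * L₀) → |cM π κ x dF p| ≤ C :=
  exists_bd h hh (c := fun q => ⟪dF q.1, Svh π κ q.2.1 (q.2.2 - x)⟫_ℝ)
    ((hF.contdF.comp continuous_fst).inner
      (((continuous_Svh π κ).comp (continuous_fst.comp continuous_snd)).clm_apply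
        ((continuous_snd.comp continuous_snd).sub continuous_const)))

theorem F_bd (h : Fr V π κ x L₀) (hh : Hgt V π κ x L₀ h₀) (hF : Well F dF H) :
    ∃ C : ℝ, ∀ᵐ p ∂V, ‖π p.1 - x‖ ^ 2 < Real.exp (2 * L₀) → |F (κ p.1)| ≤ C :=
  exists_bd h hh (c := fun q => F q.1) (hF.contF.comp continuous_fst)

theorem trH_cont (hF : Well F dF H) (κ : Euc k →L[ℝ] Euc n) :
    Continuous fun p : Euc k × L k => tr (H (κ p.1) ∘L Shh κ p.2) :=
  tr.continuous.comp ((hF.contH.comp (κ.continuous.comp continuous_fst)).clm_comp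
    ((continuous_Shh κ).comp continuous_snd))

theorem trH_bd (h : Fr V π κ x L₀) (hh : Hgt V π κ x L₀ h₀) (hF : Well F dF H) :
    ∃ C : ℝ, ∀ᵐ p ∂V, ‖π p.1 - x‖ ^ 2 < Real.exp (2 * L₀) →
      |tr (H (κ p.1) ∘L Shh κ p.2)| ≤ C :=
  exists_bd h hh (c := fun q => tr (H q.1 ∘L Shh κ q.2.1))
    (tr.continuous.comp ((hF.contH.comp continuous_fst).clm_comp
      ((continuous_Shh κ).comp (continuous_fst.comp continuous_snd))))

/-- `∫ g' ⟨dF, S_vh v⟩ dV` -/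
def MM (V : Measure (Euc k × L k)) (π : Euc k →L[ℝ] Euc m) (κ : Euc k →L[ℝ] Euc n) (x : Euc m)
    (dF : Euc n → Euc n) (g1 : ℝ → ℝ) (l : ℝ) : ℝ :=
  ∫ p, cM π κ x dF p * g1 (Real.exp (-2 * l) * ‖π p.1 - x‖ ^ 2) ∂V

theorem FV_X2 (h : Fr V π κ x L₀) (hh : Hgt V π κ x L₀ h₀) (hF : Well F dF H) (hg : Ker g g1)
    {l : ℝ} (hl : l ≤ L₀) :
    FV V (X2 π κ x dF g l) =
      (∫ p, tr (H (κ p.1) ∘L Shh κ p.2) * g (Real.exp (-2 * l) * ‖π p.1 - x‖ ^ 2) ∂V)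
        + 2 * Real.exp (-2 * l) * MM V π κ x dF g1 l := by
  obtain ⟨C1, hC1⟩ := trH_bd h hh hF
  obtain ⟨C2, hC2⟩ := cM_bd h hh hF
  have i1 := h.integrable_c (trH_cont hF κ).aestronglyMeasurable hC1 hg hl
  have i2 := integrable_k' h (continuous_cM hF π κ x).aestronglyMeasurable hC2 hg hl
  unfold MM
  rw [← integral_const_mul, ← integral_add i1 (i2.const_mul _)]
  unfold FV
  refine integral_congr_ae ?_
  filter_upwards [h.conc] with p hp
  have h1 := tr_field (m := n) (n := m) κ π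
    (F := fun v : Euc m => g (Real.exp (-2 * l) * ‖v - x‖ ^ 2)) (ξ := dF) p.1 p.2
    (hasFDerivAt_rad hg.der l x (π p.1)).differentiableAt (hF.hasdF _).differentiableAt
  have h2 : tr (fderiv ℝ (X2 π κ x dF g l) p.1 ∘L p.2) = _ := h1
  rw [h2, (hasFDerivAt_rad hg.der l x (π p.1)).fderiv, (hF.hasdF _).fderiv, innerSL_apply_apply,
    inner_smul_left, inner_swap (isPr_of_G hp)]
  unfold cM
  simp only [RCLike.conj_to_real]
  ring

theorem FV_X3 (h : Fr V π κ x L₀) (hh : Hgt V π κ x L₀ h₀) (hF : Well F dF H) (hg : Ker g1 g2)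
    {l : ℝ} (hl : l ≤ L₀) :
    FV V (X3 π κ x F g1 l) =
      (m * (∫ p, F (κ p.1) * g1 (Real.exp (-2 * l) * ‖π p.1 - x‖ ^ 2) ∂V)
        + 2 * (∫ p, F (κ p.1) * (Real.exp (-2 * l) * ‖π p.1 - x‖ ^ 2 *
            g2 (Real.exp (-2 * l) * ‖π p.1 - x‖ ^ 2)) ∂V)
        - (∫ p, (F (κ p.1) * tl π p.2) * g1 (Real.exp (-2 * l) * ‖π p.1 - x‖ ^ 2) ∂V)
        - 2 * Real.exp (-2 * l) * (∫ p, (F (κ p.1) * qf π p.2 (π p.1 - x)) *
            g2 (Real.exp (-2 * l) * ‖π p.1 - x‖ ^ 2) ∂V))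
        + MM V π κ x dF g1 l := by
  obtain ⟨C1, hC1⟩ := F_bd h hh hF
  obtain ⟨C2, hC2⟩ := cM_bd h hh hF
  have hFt : AEStronglyMeasurable (fun p : Euc k × L k => F (κ p.1) * tl π p.2) V :=
    (aesm_F hF κ V).mul (aestronglyMeasurable_tl π V)
  have hFq : AEStronglyMeasurable (fun p : Euc k × L k => F (κ p.1) * qf π p.2 (π p.1 - x)) V :=
    (aesm_F hF κ V).mul (continuous_qf π x).aestronglyMeasurable
  have hbt : ∀ᵐ p ∂V, ‖π p.1 - x‖ ^ 2 < Real.exp (2 * L₀) →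
      |F (κ p.1) * tl π p.2| ≤ C1 * m := by
    filter_upwards [hC1, h.tl_bound] with p h1 h2 hlt
    rw [abs_mul]
    exact mul_le_mul (h1 hlt) (h2 hlt) (abs_nonneg _) ((abs_nonneg _).trans (h1 hlt))
  have hbq : ∀ᵐ p ∂V, ‖π p.1 - x‖ ^ 2 < Real.exp (2 * L₀) →
      |F (κ p.1) * qf π p.2 (π p.1 - x)| ≤ C1 * Real.exp (2 * L₀) := by
    filter_upwards [hC1, h.qf_bound] with p h1 h2 hlt
    rw [abs_mul]
    exact mul_le_mul (h1 hlt) (h2 hlt) (abs_nonneg _) ((abs_nonneg _).trans (h1 hlt))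
  have i1 := h.integrable_c (aesm_F hF κ V) hC1 hg hl
  have i2 := integrable_tk h (aesm_F hF κ V) hC1 hg hl
  have i3 := h.integrable_c hFt hbt hg hl
  have i4 := integrable_k' h hFq hbq hg hl
  have i5 := h.integrable_c (continuous_cM hF π κ x).aestronglyMeasurable hC2 hg hl
  have h0 := int4 i1 i2 i3 i4 (m:ℝ) 2 (-1) (-(2 * Real.exp (-2 * l)))
  have e1 : (m * (∫ p, F (κ p.1) * g1 (Real.exp (-2 * l) * ‖π p.1 - x‖ ^ 2) ∂V)
        + 2 * (∫ p, F (κ p.1) * (Real.exp (-2 * l) * ‖π p.1 - x‖ ^ 2 *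
            g2 (Real.exp (-2 * l) * ‖π p.1 - x‖ ^ 2)) ∂V)
        - (∫ p, (F (κ p.1) * tl π p.2) * g1 (Real.exp (-2 * l) * ‖π p.1 - x‖ ^ 2) ∂V)
        - 2 * Real.exp (-2 * l) * (∫ p, (F (κ p.1) * qf π p.2 (π p.1 - x)) *
            g2 (Real.exp (-2 * l) * ‖π p.1 - x‖ ^ 2) ∂V)) =
      (m * (∫ p, F (κ p.1) * g1 (Real.exp (-2 * l) * ‖π p.1 - x‖ ^ 2) ∂V)
        + 2 * (∫ p, F (κ p.1) * (Real.exp (-2 * l) * ‖π p.1 - x‖ ^ 2 *
            g2 (Real.exp (-2 * l) * ‖π p.1 - x‖ ^ 2)) ∂V)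
        + -1 * (∫ p, (F (κ p.1) * tl π p.2) * g1 (Real.exp (-2 * l) * ‖π p.1 - x‖ ^ 2) ∂V)
        + -(2 * Real.exp (-2 * l)) * (∫ p, (F (κ p.1) * qf π p.2 (π p.1 - x)) *
            g2 (Real.exp (-2 * l) * ‖π p.1 - x‖ ^ 2) ∂V)) := by ring
  rw [e1, ← h0]
  unfold MM
  have i6 : Integrable (fun p : Euc k × L k =>
      (m:ℝ) * (F (κ p.1) * g1 (Real.exp (-2 * l) * ‖π p.1 - x‖ ^ 2)) +
      2 * (F (κ p.1) * (Real.exp (-2 * l) * ‖π p.1 - x‖ ^ 2 *
        g2 (Real.exp (-2 * l) * ‖π p.1 - x‖ ^ 2))) +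
      -1 * (F (κ p.1) * tl π p.2 * g1 (Real.exp (-2 * l) * ‖π p.1 - x‖ ^ 2)) +
      -(2 * Real.exp (-2 * l)) * (F (κ p.1) * qf π p.2 (π p.1 - x) *
        g2 (Real.exp (-2 * l) * ‖π p.1 - x‖ ^ 2))) V :=
    (((i1.const_mul _).add (i2.const_mul _)).add (i3.const_mul _)).add (i4.const_mul _)
  rw [← integral_add i6 i5]
  unfold FV
  refine integral_congr_ae ?_
  filter_upwards [h.conc] with p hp
  have h1 := tr_field π κ (F := F)
    (ξ := fun v : Euc m => g1 (Real.exp (-2 * l) * ‖v - x‖ ^ 2) • (v - x)) p.1 p.2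
    (hF.hasF _).differentiableAt
    ((contDiff_rad hg.der hg.cont l x).differentiable one_ne_zero _)
  have h2 : tr (fderiv ℝ (X3 π κ x F g1 l) p.1 ∘L p.2) = _ := h1
  rw [h2, tr_rad hg.der hg.cont, (hF.hasF _).fderiv, innerSL_apply_apply]
  have h3 : ⟪dF (κ p.1), κ (p.2 (ContinuousLinearMap.adjoint π
      (g1 (Real.exp (-2 * l) * ‖π p.1 - x‖ ^ 2) • (π p.1 - x))))⟫_ℝ =
      cM π κ x dF p * g1 (Real.exp (-2 * l) * ‖π p.1 - x‖ ^ 2) := by
    rw [map_smul, map_smul, map_smul, inner_smul_right, mul_comm]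
    rfl
  rw [h3, tl_eq]
  unfold qf
  ring

/-- the error term of (W3): `2 s^{2-m} ∫ F (1 - S_hh) : D²χ dV` -/
def err3 (V : Measure (Euc k × L k)) (π : Euc k →L[ℝ] Euc m) (κ : Euc k →L[ℝ] Euc n) (x : Euc m)
    (F : Euc n → ℝ) (g1 g2 : ℝ → ℝ) (l : ℝ) : ℝ :=
  4 * Real.exp (-m * l) *
    ((∫ p, (F (κ p.1) * tl π p.2) * g1 (Real.exp (-2 * l) * ‖π p.1 - x‖ ^ 2) ∂V)
      + 2 * Real.exp (-2 * l) * (∫ p, (F (κ p.1) * qf π p.2 (π p.1 - x)) *
            g2 (Real.exp (-2 * l) * ‖π p.1 - x‖ ^ 2) ∂V))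

/-- the vertical identity `e_F = s^{2-m} (δV(χ dF) - 2 s^{-2} ∫ g' ⟨dF, S_vh v⟩ dV)` -/
theorem eF_eq (h : Fr V π κ x L₀) (hh : Hgt V π κ x L₀ h₀) (hF : Well F dF H) (hg : Ker g g1)
    {l : ℝ} (hl : l ≤ L₀) :
    eF V π κ x H g l - Real.exp ((2 - m) * l) * FV V (X2 π κ x dF g l) =
      -(2 * Real.exp (-m * l) * MM V π κ x dF g1 l) := by
  rw [FV_X2 h hh hF hg hl]
  unfold eF
  have h6 : Real.exp (-m * l) = Real.exp ((2 - m) * l) * Real.exp (-2 * l) := by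
    rw [← Real.exp_add]; congr 1; ring
  rw [h6]
  ring

theorem int_c4 (V : Measure (Euc k × L k)) (c : Euc k × L k → ℝ) (f : Euc k × L k → ℝ) (a : ℝ) :
    ∫ p, c p * (a * f p) ∂V = a * ∫ p, c p * f p ∂V := by
  rw [← integral_const_mul]
  refine integral_congr_ae (Eventually.of_forall fun p => ?_)
  simp only
  ring

/-- **(W3)**: `dI_F/dl = 2 e_F + 2 s^{2-m} ∫ F (1 - S_hh) : D²χ + 2 s^{2-m} (δV(F ∇χ) - δV(χ dF))` -/
theorem hasDerivAt_IF (h : Fr V π κ x L₀) (hh : Hgt V π κ x L₀ h₀) (hF : Well F dF H)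
    (hg : Prof g g1 g2) {l : ℝ} (hl : l < L₀) :
    HasDerivAt (IF V π κ x F g1)
      (2 * eF V π κ x H g l + err3 V π κ x F g1 g2 l +
        (4 * Real.exp (-m * l) * FV V (X3 π κ x F g1 l) -
          2 * (Real.exp ((2 - m) * l) * FV V (X2 π κ x dF g l)))) l := by
  obtain ⟨C1, hC1⟩ := F_bd h hh hF
  have h1 := h.deriv_c (aesm_F hF κ V) hC1 hg.k1 hl
  have h3 : HasDerivAt (fun l : ℝ => Real.exp (-m * l)) (Real.exp (-m * l) * (-m)) l := by
    have h4 : HasDerivAt (fun l : ℝ => (-m : ℝ) * l) (-m) l := by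
      simpa using (hasDerivAt_id l).const_mul (-m : ℝ)
    exact h4.exp
  have h5 := h3.mul (h1.const_mul (-4))
  have hfun : IF V π κ x F g1 = (fun l : ℝ => Real.exp (-m * l)) * (fun l =>
      -4 * ∫ p, F (κ p.1) * g1 (Real.exp (-2 * l) * ‖π p.1 - x‖ ^ 2) ∂V) := by
    funext l
    unfold IF
    simp only [Pi.mul_apply]
    rw [int_c4 V (fun p => F (κ p.1)) (fun p => g1 (Real.exp (-2 * l) * ‖π p.1 - x‖ ^ 2)) (-4)]
  rw [hfun]
  refine h5.congr_deriv ?_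
  have e2 := eF_eq h hh hF hg.k0 hl.le
  have e3 := FV_X3 h hh hF hg.k1 hl.le
  have h7 : ∫ p, F (κ p.1) * (-2 * (Real.exp (-2 * l) * ‖π p.1 - x‖ ^ 2 *
      g2 (Real.exp (-2 * l) * ‖π p.1 - x‖ ^ 2))) ∂V =
      -2 * ∫ p, F (κ p.1) * (Real.exp (-2 * l) * ‖π p.1 - x‖ ^ 2 *
      g2 (Real.exp (-2 * l) * ‖π p.1 - x‖ ^ 2)) ∂V := by
    rw [← integral_const_mul]
    refine integral_congr_ae (Eventually.of_forall fun p => ?_)
    simp only
    ring
  rw [h7]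
  have e4 : eF V π κ x H g l = Real.exp ((2 - m) * l) * FV V (X2 π κ x dF g l)
      - 2 * Real.exp (-m * l) * MM V π κ x dF g1 l := by linarith
  rw [e4, e3]
  unfold err3
  ring

/-- **(W2)**: `(e_F - s^{2-m} δV(χ dF))² ≤ I_F R` -/
theorem eF_sq_le (h : Fr V π κ x L₀) (hh : Hgt V π κ x L₀ h₀) (hF : Well F dF H)
    (hg : Prof g g1 g2) {l : ℝ} (hl : l ≤ L₀) :
    (eF V π κ x H g l - Real.exp ((2 - m) * l) * FV V (X2 π κ x dF g l)) ^ 2 ≤
      IF V π κ x F g1 l * RR V π x g1 l := by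
  rw [eF_eq h hh hF hg.k0 hl]
  obtain ⟨C1, hC1⟩ := F_bd h hh hF
  obtain ⟨C2, hC2⟩ := cM_bd h hh hF
  have i1 := h.integrable_c (aesm_F hF κ V) hC1 hg.k1 hl
  have i2 := h.integrable_c (continuous_qf π x).aestronglyMeasurable h.qf_bound hg.k1 hl
  have i3 := h.integrable_c (continuous_cM hF π κ x).aestronglyMeasurable hC2 hg.k1 hl
  set A := ∫ p, F (κ p.1) * g1 (Real.exp (-2 * l) * ‖π p.1 - x‖ ^ 2) ∂V with hA
  set B := ∫ p, qf π p.2 (π p.1 - x) * g1 (Real.exp (-2 * l) * ‖π p.1 - x‖ ^ 2) ∂V with hB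
  set M := MM V π κ x dF g1 l with hM
  have key : ∀ t : ℝ, 0 ≤ (-2 * A) * (t * t) + 2 * M * t + (-B) := by
    intro t
    have h1 : (-2 * A) * (t * t) + 2 * M * t + (-B) =
        ∫ p, ((-2 * (t * t)) * (F (κ p.1) * g1 (Real.exp (-2 * l) * ‖π p.1 - x‖ ^ 2)) +
          (2 * t) * (cM π κ x dF p * g1 (Real.exp (-2 * l) * ‖π p.1 - x‖ ^ 2)) +
          (-1) * (qf π p.2 (π p.1 - x) * g1 (Real.exp (-2 * l) * ‖π p.1 - x‖ ^ 2)) +
          0 * (qf π p.2 (π p.1 - x) * g1 (Real.exp (-2 * l) * ‖π p.1 - x‖ ^ 2))) ∂V := by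
      rw [int4 i1 i3 i2 i2]
      rw [← hA, ← hB]
      unfold MM at hM
      rw [← hM]
      ring
    rw [h1]
    refine integral_nonneg_of_ae ?_
    filter_upwards [h.conc] with p hp
    have hneg : 0 ≤ -g1 (Real.exp (-2 * l) * ‖π p.1 - x‖ ^ 2) := by
      have := hg.anti (Real.exp (-2 * l) * ‖π p.1 - x‖ ^ 2) (by positivity)
      linarith
    have h2 : (0:ℝ) ≤ (t * t) * (2 * F (κ p.1)) - 2 * t * cM π κ x dF p +
        qf π p.2 (π p.1 - x) := by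
      have h3 := hF.grad (κ p.1)
      have h4 := norm_Svh_sq_le h.sp (isPr_of_G hp) (π p.1 - x)
      have h5 : ‖t • dF (κ p.1) - Svh π κ p.2 (π p.1 - x)‖ ^ 2 =
          (t * t) * ‖dF (κ p.1)‖ ^ 2 - 2 * t * cM π κ x dF p +
            ‖Svh π κ p.2 (π p.1 - x)‖ ^ 2 := by
        rw [norm_sub_sq_real, inner_smul_left, norm_smul, mul_pow, Real.norm_eq_abs, sq_abs]
        unfold cM
        simp only [RCLike.conj_to_real]
        ring
      have h6 : 0 ≤ ‖t • dF (κ p.1) - Svh π κ p.2 (π p.1 - x)‖ ^ 2 := by positivity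
      nlinarith [mul_self_nonneg t]
    have h7 := mul_nonneg hneg h2
    simp only [Pi.zero_apply]
    nlinarith
  have hd := discrim_le_zero key
  unfold discrim at hd
  have eI : IF V π κ x F g1 l = Real.exp (-m * l) * (-4 * A) := by
    unfold IF
    rw [int_c4 V (fun p => F (κ p.1)) (fun p => g1 (Real.exp (-2 * l) * ‖π p.1 - x‖ ^ 2)) (-4)]
  have eR : RR V π x g1 l = Real.exp (-m * l) * (-2 * B) := by
    unfold RR
    rw [int_c4 V (fun p => qf π p.2 (π p.1 - x))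
      (fun p => g1 (Real.exp (-2 * l) * ‖π p.1 - x‖ ^ 2)) (-2)]
  rw [eI, eR]
  have hE : 0 ≤ Real.exp (-m * l) ^ 2 := by positivity
  nlinarith

end Crest.Agent.R234.Cy_870
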