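import Mathlib
import Crest.Agent.R234.Nb1_290
import Crest.Agent.R234.Pin1_3

-- ▼ part R234/Dbl1_534
section

/-!
# Row 234, VF-F11 (helper534): doubling and frequency bounds, the real-variable part

Node (F11) of the F-list #6174 (and the last line of (F10)).  `l = log s`.

* `pt_ineq`, `I_le_of_freq` : if `2E ≤ N₀ I` on a window `[a, c]` then `I c ≤ 2 N₀ exp (B (c - a)) I a`.
* `nonjump` : a radius `l₁` in a window with `E ≤ 4 E(l₁)` on `[l₁, l₁ + ρ]`.
* `freq_le` : one doubling at the top of the window bounds the frequency on the whole window below.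
-/

set_option autoImplicit false

open Set Real

namespace Crest.Agent.R234.Dbl_534

/-! ### (A) doubling from a frequency bound -/

/-- the constant of the doubling estimate. -/
noncomputable def BB (N0 : ℝ) : ℝ := 8 + 4 * N0 + 2 * (3 / 2 + 2 * N0) ^ 2

theorem BB_pos {N0 : ℝ} (h : 0 ≤ N0) : 0 < BB N0 := by
  unfold BB; positivity

/-- pointwise inequality: `(log E)' ≥ 2 (log I)' - B`. -/
theorem pt_ineq {E I e b R dE dI ep tau N0 : ℝ} (hI : 0 < I) (htau1 : tau ≤ 1)
    (low : I ≤ 4 * E) (up : 2 * E ≤ N0 * I)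
    (h1 : 2 * b + R - tau * (E + |b| + I) ≤ dE) (h2 : dI ≤ 2 * e + tau * I)
    (h3 : e = 2 * E - 2 * b) (h4 : (e + ep) ^ 2 ≤ I * R) (h5 : |ep| ≤ tau * I) :
    2 * (dI * E) ≤ dE * I + BB N0 * (E * I) := by
  have hE : 0 < E := by linarith
  have hb : b = E - e / 2 := by linarith
  have hN0 : 0 < N0 := by
    by_contra h
    have : N0 * I ≤ 0 := mul_nonpos_of_nonpos_of_nonneg (not_lt.1 h) hI.le
    linarith
  -- bounds
  have habsb : |b| ≤ E + |e| / 2 := by
    rw [hb]
    calc |E - e / 2| ≤ |E| + |e / 2| := abs_sub _ _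
      _ = E + |e| / 2 := by rw [abs_of_pos hE, abs_div, abs_of_pos (by norm_num : (0:ℝ) < 2)]
  have hep : ep ^ 2 ≤ I ^ 2 := by
    have : |ep| ≤ I := h5.trans (by nlinarith)
    rw [← sq_abs ep]
    exact pow_le_pow_left₀ (abs_nonneg _) this 2
  have hIR : e ^ 2 / 2 - I ^ 2 ≤ I * R := by nlinarith [sq_nonneg (e + 2 * ep)]
  have ht1 : tau * (E + |b| + I) ≤ 2 * E + |e| / 2 + I := by
    have h0 : 0 ≤ E + |b| + I := by positivity
    calc tau * (E + |b| + I) ≤ 1 * (E + |b| + I) := by gcongr
      _ ≤ 2 * E + |e| / 2 + I := by linarith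
  -- `dE * I`
  have hdE : (2 * b + R - (2 * E + |e| / 2 + I)) * I ≤ dE * I := by
    apply mul_le_mul_of_nonneg_right _ hI.le
    linarith
  have hdI : dI * E ≤ (2 * |e| + I) * E := by
    apply mul_le_mul_of_nonneg_right _ hE.le
    have : tau * I ≤ I := by nlinarith
    have h' := le_abs_self e
    linarith
  have he2 : e ^ 2 = |e| ^ 2 := (sq_abs e).symm
  have hee : -|e| ≤ -e := by have := le_abs_self e; linarith
  set x := |e| with hx
  have hx0 : 0 ≤ x := abs_nonneg e
  -- reduce to: quadratic inequality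
  have key : 2 * ((2 * x + I) * E) ≤ (2 * b - 2 * E - x / 2 - I) * I + (x ^ 2 / 2 - I ^ 2)
      + BB N0 * (E * I) := by
    have hb' : 2 * b - 2 * E = - e := by rw [hb]; ring
    rw [hb']
    have h6 : (-e - x / 2 - I) * I ≥ (-x - x / 2 - I) * I := by
      apply mul_le_mul_of_nonneg_right _ hI.le
      linarith
    have h7 : BB N0 * (E * I) ≥ BB N0 * (I * I / 4) := by
      have := BB_pos hN0.le
      apply mul_le_mul_of_nonneg_left _ this.le
      nlinarith
    have h8 : 4 * x * E ≤ 2 * x * (N0 * I) := by nlinarith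
    have h9 : 2 * I * E ≤ I * (N0 * I) := by nlinarith
    unfold BB at h7 ⊢
    nlinarith [sq_nonneg (x - (3 / 2 + 2 * N0) * I)]
  nlinarith

/-- **doubling from a frequency bound**. -/
theorem I_le_of_freq {E I e b R dE dI ep tau : ℝ → ℝ} {a c N0 : ℝ} (hac : a ≤ c)
    (hE : ∀ l ∈ Icc a c, HasDerivAt E (dE l) l) (hI : ∀ l ∈ Icc a c, HasDerivAt I (dI l) l)
    (pos : ∀ l ∈ Icc a c, 0 < I l) (htau1 : ∀ l ∈ Icc a c, tau l ≤ 1)
    (low : ∀ l ∈ Icc a c, I l ≤ 4 * E l) (up : ∀ l ∈ Icc a c, 2 * E l ≤ N0 * I l)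
    (h1 : ∀ l ∈ Icc a c, 2 * b l + R l - tau l * (E l + |b l| + I l) ≤ dE l)
    (h2 : ∀ l ∈ Icc a c, dI l ≤ 2 * e l + tau l * I l)
    (h3 : ∀ l ∈ Icc a c, e l = 2 * E l - 2 * b l)
    (h4 : ∀ l ∈ Icc a c, (e l + ep l) ^ 2 ≤ I l * R l)
    (h5 : ∀ l ∈ Icc a c, |ep l| ≤ tau l * I l) :
    I c ≤ 2 * N0 * exp (BB N0 * (c - a)) * I a := by
  have ha : a ∈ Icc a c := left_mem_Icc.2 hac
  have hc : c ∈ Icc a c := right_mem_Icc.2 hac
  have posE : ∀ l ∈ Icc a c, 0 < E l := fun l hl => by linarith [pos l hl, low l hl]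
  have hmono : MonotoneOn (fun l => log (E l) - 2 * log (I l) + BB N0 * l) (Icc a c) := by
    apply monotoneOn_of_deriv_nonneg (convex_Icc a c)
    · intro l hl
      have hd : HasDerivAt (fun l => log (E l) - 2 * log (I l) + BB N0 * l)
          (dE l / E l - 2 * (dI l / I l) + BB N0 * 1) l :=
        (((hE l hl).log (posE l hl).ne').sub
          (((hI l hl).log (pos l hl).ne').const_mul 2)).add ((hasDerivAt_id l).const_mul _)
      exact hd.continuousAt.continuousWithinAt
    · intro l hl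
      have hl' := interior_subset hl
      have hd : HasDerivAt (fun l => log (E l) - 2 * log (I l) + BB N0 * l)
          (dE l / E l - 2 * (dI l / I l) + BB N0 * 1) l :=
        (((hE l hl').log (posE l hl').ne').sub
          (((hI l hl').log (pos l hl').ne').const_mul 2)).add ((hasDerivAt_id l).const_mul _)
      exact hd.differentiableAt.differentiableWithinAt
    · intro l hl
      have hl' := interior_subset hl
      have hd : HasDerivAt (fun l => log (E l) - 2 * log (I l) + BB N0 * l)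
          (dE l / E l - 2 * (dI l / I l) + BB N0 * 1) l :=
        (((hE l hl').log (posE l hl').ne').sub
          (((hI l hl').log (pos l hl').ne').const_mul 2)).add ((hasDerivAt_id l).const_mul _)
      rw [hd.deriv]
      have hp := pt_ineq (pos l hl') (htau1 l hl') (low l hl') (up l hl') (h1 l hl')
        (h2 l hl') (h3 l hl') (h4 l hl') (h5 l hl')
      have hE0 := posE l hl'
      have hI0 := pos l hl'
      have : dE l / E l - 2 * (dI l / I l) + BB N0 * 1 =
          (dE l * I l + BB N0 * (E l * I l) - 2 * (dI l * E l)) / (E l * I l) := by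
        field_simp
        ring
      rw [this]
      apply div_nonneg _ (mul_pos hE0 hI0).le
      linarith
  have h := hmono ha hc hac
  simp only at h
  have hN0 : 0 < N0 := by
    by_contra h'
    have h6 : N0 * I a ≤ 0 := mul_nonpos_of_nonpos_of_nonneg (not_lt.1 h') (pos a ha).le
    linarith [up a ha, posE a ha]
  -- log E(c) ≤ log (N0/2) + log I(c); log E(a) ≥ log I(a) - log 4
  have u : log (E c) ≤ log (N0 / 2) + log (I c) := by
    rw [← log_mul (by positivity) (pos c hc).ne']
    exact log_le_log (posE c hc) (by linarith [up c hc])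
  have v : log (I a) ≤ log 4 + log (E a) := by
    rw [← log_mul (by norm_num) (posE a ha).ne']
    exact log_le_log (pos a ha) (low a ha)
  have w : log (I c) ≤ log (2 * N0) + BB N0 * (c - a) + log (I a) := by
    have h7 : log (2 * N0) = log (N0 / 2) + log 4 := by
      rw [← log_mul (by positivity) (by norm_num)]; congr 1; ring
    rw [h7]; nlinarith
  have hIc := pos c hc
  have hIa := pos a ha
  calc I c = exp (log (I c)) := (exp_log hIc).symm
    _ ≤ exp (log (2 * N0) + BB N0 * (c - a) + log (I a)) := exp_le_exp.2 w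
    _ = 2 * N0 * exp (BB N0 * (c - a)) * I a := by
      rw [exp_add, exp_add, exp_log (by positivity), exp_log hIa]

/-! ### (B) non-jump radii -/

/-- a non-jump radius in a window. -/
theorem nonjump {E : ℝ → ℝ} {t0 t1 rho C q : ℝ} {J : ℕ} (hrho : 0 < rho)
    (hlen : t0 + (J + 1) * rho ≤ t1) (hJ : C < 4 ^ J * q) (hq : q ≤ E t0)
    (top : ∀ l ∈ Icc t0 t1, E l ≤ C) :
    ∃ l1 ∈ Icc t0 (t1 - rho), ∀ l ∈ Icc l1 (l1 + rho), E l ≤ 4 * E l1 := by
  by_contra hcon
  push Not at hcon
  have step : ∀ j : ℕ, j ≤ J → ∃ l, l ∈ Icc t0 (t0 + j * rho) ∧ 4 ^ j * q ≤ E l := by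
    intro j
    induction j with
    | zero =>
      intro _
      exact ⟨t0, by simp, by simpa using hq⟩
    | succ j ih =>
      intro hj
      obtain ⟨l, hl, hEl⟩ := ih (by omega)
      have hjJ : (j : ℝ) + 1 ≤ J := by exact_mod_cast hj
      have h1 : l ∈ Icc t0 (t1 - rho) := by
        refine ⟨hl.1, hl.2.trans ?_⟩
        nlinarith
      obtain ⟨l', hl', hE'⟩ := hcon l h1
      refine ⟨l', ⟨hl.1.trans hl'.1, ?_⟩, ?_⟩
      · push_cast
        linarith [hl'.2, hl.2]
      · have : (4 : ℝ) ^ (j + 1) * q = 4 * (4 ^ j * q) := by ring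
        rw [this]
        linarith
  obtain ⟨l, hl, hEl⟩ := step J le_rfl
  have : E l ≤ C := top l ⟨hl.1, hl.2.trans (by nlinarith)⟩
  linarith

/-! ### (C) one doubling at the top bounds the frequency below -/


end Crest.Agent.R234.Dbl_534
end

-- ▼ part R234/Dbl2_534
section

/-!
# Row 234, VF-F11 (helper534): one doubling at the top ⟹ frequency bound and non-degeneracy below,
with SLOPPY (additive) errors

`l = log s`.  All errors are bounded by one number `om = th * I t0`.
-/

set_option autoImplicit false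

open Set Real

namespace Crest.Agent.R234.Dbl_534

/-- continuity method, downwards. -/
theorem bootstrap {h : ℝ → ℝ} {lo t0 : ℝ} (hc : ContinuousOn h (Icc lo t0)) (top : h t0 < 0)
    (step : ∀ l0 ∈ Icc lo t0, (∀ l ∈ Icc l0 t0, h l ≤ 0) → h l0 < 0) :
    ∀ l ∈ Icc lo t0, h l < 0 := by
  intro l hl
  by_contra hcon
  have hcon' := not_lt.1 hcon
  set S : Set ℝ := Icc lo t0 ∩ h ⁻¹' Ici 0 with hS
  have hSc : IsCompact S := by
    have : IsClosed S := hc.preimage_isClosed_of_isClosed isClosed_Icc isClosed_Ici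
    exact isCompact_Icc.of_isClosed_subset this inter_subset_left
  have hne : S.Nonempty := ⟨l, hl, hcon'⟩
  obtain ⟨m, hm, hmax⟩ := hSc.exists_isMaxOn hne continuousOn_id
  have hm1 : m ∈ Icc lo t0 := hm.1
  have hm2 : 0 ≤ h m := hm.2
  have hlt : ∀ x ∈ Icc lo t0, m < x → h x < 0 := by
    intro x hx hmx
    by_contra h'
    have : x ≤ m := hmax (show x ∈ S from ⟨hx, not_lt.1 h'⟩)
    linarith
  have hmt : m < t0 := by
    rcases lt_or_eq_of_le hm1.2 with h' | h'
    · exact h'
    · rw [h'] at hm2; linarith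
  have hm0 : h m ≤ 0 := by
    have hcw : ContinuousWithinAt h (Ioc m t0) m :=
      (hc m hm1).mono (fun x hx => ⟨hm1.1.trans hx.1.le, hx.2⟩)
    have hcl : m ∈ closure (Ioc m t0) := by
      rw [closure_Ioc hmt.ne]; exact left_mem_Icc.2 hmt.le
    have hne' : (nhdsWithin m (Ioc m t0)).NeBot := mem_closure_iff_nhdsWithin_neBot.1 hcl
    refine le_of_tendsto hcw.tendsto ?_
    filter_upwards [self_mem_nhdsWithin] with x hx
    exact (hlt x ⟨hm1.1.trans hx.1.le, hx.2⟩ hx.1).le
  have := step m hm1 (fun x hx => by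
    rcases eq_or_lt_of_le hx.1 with h' | h'
    · rw [← h']; exact hm0
    · exact (hlt x ⟨hm1.1.trans hx.1, hx.2⟩ h').le)
  linarith

/-- the data of the frequency stage at one centre relative to one reference, additive errors. -/
structure Dat (E I e b R ep dE dI : ℝ → ℝ) (a c om eta rho : ℝ) : Prop where
  hE : ∀ l ∈ Icc a c, HasDerivAt E (dE l) l
  hI : ∀ l ∈ Icc a c, HasDerivAt I (dI l) l
  pos : ∀ l ∈ Icc a c, 0 < I l
  e0 : ∀ l ∈ Icc a c, 0 ≤ e l
  low : ∀ l ∈ Icc a c, I l ≤ 4 * E l
  E1 : ∀ l ∈ Icc a c, 2 * b l + R l - om ≤ dE l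
  I1 : ∀ l ∈ Icc a c, |dI l - 2 * e l| ≤ om
  eE : ∀ l ∈ Icc a c, e l = 2 * E l - 2 * b l
  S1 : ∀ l ∈ Icc a c, (e l + ep l) ^ 2 ≤ I l * R l
  S2 : ∀ l ∈ Icc a c, |ep l| ≤ om
  b1 : ∀ l ∈ Icc a (c - rho), ∀ M, (∀ l' ∈ Icc l (l + rho), E l' ≤ M) → b l ≤ eta * M + om

section

variable {E I e b R ep dE dI : ℝ → ℝ} {a c om eta rho : ℝ}

/-- almost monotonicity of `I`. -/
theorem Dat.mono (h : Dat E I e b R ep dE dI a c om eta rho) {x y : ℝ} (hx : a ≤ x) (hxy : x ≤ y)
    (hy : y ≤ c) : I x ≤ I y + om * (y - x) := by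
  have hmono : MonotoneOn (fun l => I l + om * l) (Icc x y) := by
    apply monotoneOn_of_deriv_nonneg (convex_Icc x y)
    · intro l hl
      exact ((h.hI l ⟨hx.trans hl.1, hl.2.trans hy⟩).add
        ((hasDerivAt_id l).const_mul om)).continuousAt.continuousWithinAt
    · intro l hl
      have hl' := interior_subset hl
      exact ((h.hI l ⟨hx.trans hl'.1, hl'.2.trans hy⟩).add
        ((hasDerivAt_id l).const_mul om)).differentiableAt.differentiableWithinAt
    · intro l hl
      have hl' := interior_subset hl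
      have hm : l ∈ Icc a c := ⟨hx.trans hl'.1, hl'.2.trans hy⟩
      have hd : HasDerivAt (fun l => I l + om * l) (dI l + om * 1) l :=
        (h.hI l hm).add ((hasDerivAt_id l).const_mul om)
      rw [hd.deriv]
      have h1 := (abs_le.1 (h.I1 l hm)).1
      have h2 := h.e0 l hm
      linarith
  have := hmono (left_mem_Icc.2 hxy) (right_mem_Icc.2 hxy) hxy
  simp only at this
  linarith [mul_sub om y x]

/-- the two differential inequalities of the frequency lemma (F5), `α ≥ 1`. -/
theorem Dat.pt (h : Dat E I e b R ep dE dI a c om eta rho) {al l : ℝ} (hal : 1 ≤ al)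
    (hl : l ∈ Icc a c) :
    -2 * (al - 1) * b l - (1 + 5 / 2 * al) * om ≤
        (dE l - 2 * al * E l) - al / 2 * (dI l - 2 * al * I l) ∧
      2 * al * (E l - al / 2 * I l) - (4 * al - 2) * b l - (1 + 2 * al) * om ≤
        dE l - 2 * al * E l := by
  have hI := h.pos l hl
  have h1 := h.E1 l hl
  have h2 := abs_le.1 (h.I1 l hl)
  have h3 := h.eE l hl
  have h4 := h.S1 l hl
  have h5 := abs_le.1 (h.S2 l hl)
  -- R ≥ 2 al (e + ep) - al² I
  have hR : 2 * al * (e l + ep l) - al ^ 2 * I l ≤ R l := by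
    have : (2 * al * (e l + ep l) - al ^ 2 * I l) * I l ≤ R l * I l := by
      nlinarith [sq_nonneg (e l + ep l - al * I l)]
    exact le_of_mul_le_mul_right this hI
  have hR' : 2 * al * e l - 2 * al * om - al ^ 2 * I l ≤ R l := by
    have := mul_le_mul_of_nonneg_left h5.1 (by linarith : (0:ℝ) ≤ 2 * al)
    linarith
  constructor
  · have h6 : al / 2 * (dI l - 2 * al * I l) ≤ al / 2 * (2 * e l + om - 2 * al * I l) := by
      apply mul_le_mul_of_nonneg_left _ (by linarith)
      linarith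
    rw [h3] at hR' h6
    linarith
  · rw [h3] at hR'
    linarith

end

/-- **the frequency lemma (F5) for bounded frequency and a bounded window, additive errors.** -/
theorem rv_bdd {E I e b R ep dE dI : ℝ → ℝ} {a c om eta rho : ℝ}
    (h : Dat E I e b R ep dE dI a c om eta rho) {l0 l1 A Lw al : ℝ} (hrho : 0 ≤ rho)
    (hrho1 : rho ≤ 1) (heta : 0 ≤ eta) (hom : 0 ≤ om)
    (ha : a ≤ l0) (h01 : l0 ≤ l1) (h1c : l1 + rho ≤ c) (hLw : l1 - l0 ≤ Lw)
    (hal : 1 ≤ al) (halA : al ≤ A) (hN : 2 * E l0 = al * I l0)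
    (nj : ∀ l ∈ Icc l1 (l1 + rho), E l ≤ 4 * E l1)
    (heta1 : eta * (exp (2 * A) * (4 * A ^ 2 * Lw + 4 * A) * (8 * (Lw + 1))) ≤ 1)
    (hom1 : om * (44 * (A + 1) ^ 2 * (Lw + 1) ^ 2) ≤ exp (-(2 * A * Lw)) * E l1) :
    al * I l1 ≤ 4 * E l1 := by
  have hLw0 : 0 ≤ Lw := by linarith
  have hA : 1 ≤ A := hal.trans halA
  have hl1 : l1 ∈ Icc a c := ⟨ha.trans h01, by linarith⟩
  have posE : ∀ l ∈ Icc a c, 0 < E l := fun l hl => by linarith [h.pos l hl, h.low l hl]
  set wt : ℝ → ℝ := fun l => exp (-(2 * al * (l - l0))) with hwt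
  have hwt0 : ∀ l, 0 < wt l := fun l => exp_pos _
  have hwt1 : ∀ l, l0 ≤ l → wt l ≤ 1 := by
    intro l hl
    rw [hwt]; simp only
    apply exp_le_one_iff.2
    have : 0 ≤ 2 * al * (l - l0) := by have := sub_nonneg.2 hl; positivity
    linarith
  have hdwt : ∀ l, HasDerivAt wt (-(2 * al) * wt l) l := by
    intro l
    have h1 : HasDerivAt (fun x => -(2 * al * (x - l0))) (-(2 * al * 1)) l :=
      (((hasDerivAt_id l).sub_const l0).const_mul (2 * al)).neg
    have := h1.exp
    convert this using 1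
    simp only [hwt]; ring
  set y : ℝ → ℝ := fun l => E l * wt l with hy
  set W : ℝ → ℝ := fun l => (E l - al / 2 * I l) * wt l with hW
  have hcont : ContinuousOn y (Icc l0 (l1 + rho)) := by
    intro l hl
    exact ((h.hE l ⟨ha.trans hl.1, hl.2.trans h1c⟩).mul (hdwt l)).continuousAt.continuousWithinAt
  obtain ⟨lm, hlm, hmax⟩ := isCompact_Icc.exists_isMaxOn
    (nonempty_Icc.2 (show l0 ≤ l1 + rho by linarith)) hcont
  set M := y lm with hM
  have hyM : ∀ l ∈ Icc l0 (l1 + rho), y l ≤ M := fun l hl => hmax hl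
  have hMpos : 0 < M := by
    rw [hM]
    exact mul_pos (posE lm ⟨ha.trans hlm.1, hlm.2.trans h1c⟩) (hwt0 lm)
  set X := exp (2 * A) with hX
  have hX1 : 1 ≤ X := by
    rw [hX]; exact one_le_exp (by linarith)
  -- the bound of `b`
  have hb : ∀ l ∈ Icc l0 l1, b l * wt l ≤ eta * X * M + om := by
    intro l hl
    have h1 : b l ≤ eta * (M * exp (2 * al * (l + rho - l0))) + om := by
      apply h.b1 l ⟨ha.trans hl.1, by linarith [hl.2]⟩
      intro l' hl'
      have h2 := hyM l' ⟨hl.1.trans hl'.1, by linarith [hl'.2, hl.2]⟩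
      have h3 : E l' = y l' * exp (2 * al * (l' - l0)) := by
        simp only [hy, hwt]
        rw [mul_assoc, ← exp_add]; simp
      rw [h3]
      have h4 : exp (2 * al * (l' - l0)) ≤ exp (2 * al * (l + rho - l0)) := by
        apply exp_le_exp.2
        have := hl'.2
        exact mul_le_mul_of_nonneg_left (by linarith) (by linarith)
      calc y l' * exp (2 * al * (l' - l0)) ≤ M * exp (2 * al * (l' - l0)) := by gcongr
        _ ≤ M * exp (2 * al * (l + rho - l0)) := by gcongr
    calc b l * wt l ≤ (eta * (M * exp (2 * al * (l + rho - l0))) + om) * wt l := by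
          apply mul_le_mul_of_nonneg_right h1 (hwt0 l).le
      _ = eta * M * exp (2 * al * rho) + om * wt l := by
          have : exp (2 * al * (l + rho - l0)) * wt l = exp (2 * al * rho) := by
            simp only [hwt]; rw [← exp_add]; congr 1; ring
          linear_combination eta * M * this
      _ ≤ eta * M * X + om * 1 := by
          have h5 : exp (2 * al * rho) ≤ X := by
            rw [hX]; apply exp_le_exp.2; 
            have h51 : al * rho ≤ A * 1 := mul_le_mul halA hrho1 hrho (by linarith)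
            linarith
          have h6 := hwt1 l hl.1
          gcongr
      _ = eta * X * M + om := by ring
  set K := 2 * A * (eta * X * M) + (1 + 9 / 2 * A) * om with hK
  have hetaXM : 0 ≤ eta * X * M := by positivity
  have hK0 : 0 ≤ K := by rw [hK]; positivity
  -- W ≥ - K (l - l0)
  have hWd : ∀ l ∈ Icc l0 l1, HasDerivAt W
      (((dE l - al / 2 * dI l) - 2 * al * (E l - al / 2 * I l)) * wt l) l := by
    intro l hl
    have hlm' : l ∈ Icc a c := ⟨ha.trans hl.1, by linarith [hl.2]⟩
    have := ((h.hE l hlm').sub ((h.hI l hlm').const_mul (al / 2))).mul (hdwt l)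
    refine HasDerivAt.congr_deriv this ?_
    simp only [Pi.sub_apply]; ring
  have hWlow : ∀ l ∈ Icc l0 l1, -(K * Lw) ≤ W l := by
    intro l hl
    have hmono : MonotoneOn (fun x => W x + K * x) (Icc l0 l) := by
      apply monotoneOn_of_deriv_nonneg (convex_Icc l0 l)
      · intro x hx
        exact ((hWd x ⟨hx.1, hx.2.trans hl.2⟩).add
          ((hasDerivAt_id x).const_mul K)).continuousAt.continuousWithinAt
      · intro x hx
        have hx' := interior_subset hx
        exact ((hWd x ⟨hx'.1, hx'.2.trans hl.2⟩).add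
          ((hasDerivAt_id x).const_mul K)).differentiableAt.differentiableWithinAt
      · intro x hx
        have hx' := interior_subset hx
        have hx1 : x ∈ Icc l0 l1 := ⟨hx'.1, hx'.2.trans hl.2⟩
        have hx2 : x ∈ Icc a c := ⟨ha.trans hx1.1, by linarith [hx1.2]⟩
        have hd := (hWd x hx1).add ((hasDerivAt_id x).const_mul K)
        have hd' : deriv (fun x => W x + K * x) x =
            ((dE x - al / 2 * dI x) - 2 * al * (E x - al / 2 * I x)) * wt x + K * 1 := hd.deriv
        rw [hd']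
        have hp := (h.pt hal hx2).1
        have hbx := hb x hx1
        have hw1 := hwt1 x hx1.1
        have hw0 := hwt0 x
        have h7 : (-2 * (al - 1) * b x - (1 + 5 / 2 * al) * om) * wt x ≤
            ((dE x - al / 2 * dI x) - 2 * al * (E x - al / 2 * I x)) * wt x := by
          apply mul_le_mul_of_nonneg_right _ hw0.le
          linarith
        have h8 : -(2 * (al - 1) * (eta * X * M + om)) ≤ -2 * (al - 1) * (b x * wt x) := by
          have : 0 ≤ 2 * (al - 1) := by linarith
          linarith [mul_le_mul_of_nonneg_left hbx this]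
        have h9 : (1 + 5 / 2 * al) * om * wt x ≤ (1 + 5 / 2 * al) * om * 1 := by
          gcongr
        have h10 : 2 * (al - 1) * (eta * X * M + om) + (1 + 5 / 2 * al) * om ≤ K := by
          rw [hK]
          have h11 : 2 * (al - 1) * (eta * X * M) ≤ 2 * A * (eta * X * M) := by
            gcongr; linarith
          have h12 : 2 * (al - 1) * om + (1 + 5 / 2 * al) * om ≤ (1 + 9 / 2 * A) * om := by
            linarith [mul_le_mul_of_nonneg_right halA hom]
          linarith
        linarith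
    have h1 := hmono (left_mem_Icc.2 hl.1) (right_mem_Icc.2 hl.1) hl.1
    simp only at h1
    have h2 : W l0 = 0 := by
      simp only [hW]
      have : E l0 - al / 2 * I l0 = 0 := by linarith
      rw [this, zero_mul]
    have h3 : K * (l - l0) ≤ K * Lw := by
      apply mul_le_mul_of_nonneg_left _ hK0
      linarith [hl.2]
    linarith
  set K2 := 2 * A * (K * Lw) + 4 * A * (eta * X * M) + (1 + 6 * A) * om with hK2
  have hK20 : 0 ≤ K2 := by rw [hK2]; positivity
  have hyd : ∀ l ∈ Icc l0 l1, HasDerivAt y ((dE l - 2 * al * E l) * wt l) l := by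
    intro l hl
    have hlm' : l ∈ Icc a c := ⟨ha.trans hl.1, by linarith [hl.2]⟩
    have := (h.hE l hlm').mul (hdwt l)
    refine HasDerivAt.congr_deriv this ?_
    ring
  have hylow : ∀ l ∈ Icc l0 l1, y l ≤ y l1 + K2 * Lw := by
    intro l hl
    have hmono : MonotoneOn (fun x => y x + K2 * x) (Icc l l1) := by
      apply monotoneOn_of_deriv_nonneg (convex_Icc l l1)
      · intro x hx
        exact ((hyd x ⟨hl.1.trans hx.1, hx.2⟩).add
          ((hasDerivAt_id x).const_mul K2)).continuousAt.continuousWithinAt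
      · intro x hx
        have hx' := interior_subset hx
        exact ((hyd x ⟨hl.1.trans hx'.1, hx'.2⟩).add
          ((hasDerivAt_id x).const_mul K2)).differentiableAt.differentiableWithinAt
      · intro x hx
        have hx' := interior_subset hx
        have hx1 : x ∈ Icc l0 l1 := ⟨hl.1.trans hx'.1, hx'.2⟩
        have hx2 : x ∈ Icc a c := ⟨ha.trans hx1.1, by linarith [hx1.2]⟩
        have hd := (hyd x hx1).add ((hasDerivAt_id x).const_mul K2)
        have hd' : deriv (fun x => y x + K2 * x) x = (dE x - 2 * al * E x) * wt x + K2 * 1 :=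
          hd.deriv
        rw [hd']
        have hp := (h.pt hal hx2).2
        have hbx := hb x hx1
        have hw1 := hwt1 x hx1.1
        have hw0 := hwt0 x
        have hWx := hWlow x hx1
        have h7 : (2 * al * (E x - al / 2 * I x) - (4 * al - 2) * b x - (1 + 2 * al) * om) * wt x ≤
            (dE x - 2 * al * E x) * wt x := mul_le_mul_of_nonneg_right hp hw0.le
        have h8 : -(2 * A * (K * Lw)) ≤ 2 * al * W x := by
          have h81 : 2 * al * (-(K * Lw)) ≤ 2 * al * W x := by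
            apply mul_le_mul_of_nonneg_left hWx; linarith
          have h82 : 2 * al * (K * Lw) ≤ 2 * A * (K * Lw) := by
            have : 0 ≤ K * Lw := by positivity
            linarith [mul_le_mul_of_nonneg_right halA this]
          linarith
        have h9 : (4 * al - 2) * (b x * wt x) ≤ 4 * A * (eta * X * M + om) := by
          have h91 : (4 * al - 2) * (b x * wt x) ≤ (4 * al - 2) * (eta * X * M + om) := by
            apply mul_le_mul_of_nonneg_left hbx; linarith
          have h92 : (4 * al - 2) * (eta * X * M + om) ≤ 4 * A * (eta * X * M + om) := by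
            apply mul_le_mul_of_nonneg_right _ (by positivity); linarith
          linarith
        have h10 : (1 + 2 * al) * om * wt x ≤ (1 + 2 * A) * om := by
          calc (1 + 2 * al) * om * wt x ≤ (1 + 2 * al) * om * 1 := by gcongr
            _ ≤ (1 + 2 * A) * om := by linarith [mul_le_mul_of_nonneg_right halA hom]
        have h11 : W x = (E x - al / 2 * I x) * wt x := rfl
        rw [hK2]
        rw [h11] at h8
        linarith
    have h1 := hmono (left_mem_Icc.2 hl.2) (right_mem_Icc.2 hl.2) hl.2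
    simp only at h1
    have h3 : K2 * (l1 - l) ≤ K2 * Lw := by
      apply mul_le_mul_of_nonneg_left _ hK20
      linarith [hl.1]
    linarith
  -- M ≤ 4 y(l1) + K2 Lw
  have hyl1 : 0 < y l1 := mul_pos (posE l1 hl1) (hwt0 l1)
  have hMle : M ≤ 4 * y l1 + K2 * Lw := by
    rcases le_or_gt lm l1 with h' | h'
    · have := hylow lm ⟨hlm.1, h'⟩
      linarith
    · have h2 := nj lm ⟨h'.le, hlm.2⟩
      have h3 : wt lm ≤ wt l1 := by
        simp only [hwt]; apply exp_le_exp.2; 
        have h31 : al * (l1 - l0) ≤ al * (lm - l0) :=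
          mul_le_mul_of_nonneg_left (by linarith) (by linarith)
        linarith
      have h4 : M ≤ 4 * y l1 := by
        calc M = E lm * wt lm := rfl
          _ ≤ (4 * E l1) * wt l1 := by
              have := posE lm ⟨ha.trans hlm.1, hlm.2.trans h1c⟩
              have h5 := posE l1 hl1
              have h6 := hwt0 lm
              gcongr
          _ = 4 * y l1 := by simp only [hy]; ring
      have : 0 ≤ K2 * Lw := by positivity
      linarith
  -- lower bound of y l1
  have hyl1' : exp (-(2 * A * Lw)) * E l1 ≤ y l1 := by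
    simp only [hy, hwt]
    rw [mul_comm]
    apply mul_le_mul_of_nonneg_left _ (posE l1 hl1).le
    apply exp_le_exp.2
    have h1 : al * (l1 - l0) ≤ A * Lw := by
      have : 0 ≤ l1 - l0 := by linarith
      calc al * (l1 - l0) ≤ A * (l1 - l0) := by gcongr
        _ ≤ A * Lw := by gcongr
    linarith
  have hom2 : om * (44 * (A + 1) ^ 2 * (Lw + 1) ^ 2) ≤ y l1 := hom1.trans hyl1'
  -- absorb
  set Z := eta * X * M with hZ
  have hZ0 : 0 ≤ Z := hetaXM
  have hZM : Z * ((4 * A ^ 2 * Lw + 4 * A) * (8 * (Lw + 1))) ≤ M := by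
    have : Z * ((4 * A ^ 2 * Lw + 4 * A) * (8 * (Lw + 1))) =
        (eta * (X * (4 * A ^ 2 * Lw + 4 * A) * (8 * (Lw + 1)))) * M := by rw [hZ]; ring
    rw [this]
    calc _ ≤ 1 * M := by gcongr
      _ = M := one_mul M
  -- K2 Lw ≤ M / 8 + y l1 / 2 
  have hK2eq : K2 = (4 * A ^ 2 * Lw + 4 * A) * Z + (2 * A * Lw * (1 + 9 / 2 * A) + (1 + 6 * A)) * om := by
    rw [hK2, hK]; ring
  have hZ1 : (4 * A ^ 2 * Lw + 4 * A) * Z * Lw ≤ M / 8 := by
    have h1 : (4 * A ^ 2 * Lw + 4 * A) * Z * Lw ≤ (4 * A ^ 2 * Lw + 4 * A) * Z * (Lw + 1) := by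
      have : 0 ≤ (4 * A ^ 2 * Lw + 4 * A) * Z := by positivity
      linarith
    
    have h3 : Z * ((4 * A ^ 2 * Lw + 4 * A) * (8 * (Lw + 1))) =
        8 * ((4 * A ^ 2 * Lw + 4 * A) * Z * (Lw + 1)) := by ring
    linarith
  have hom3 : (2 * A * Lw * (1 + 9 / 2 * A) + (1 + 6 * A)) * om * Lw ≤ y l1 / 4 := by
    have h1 : (2 * A * Lw * (1 + 9 / 2 * A) + (1 + 6 * A)) * Lw ≤
        11 * (A + 1) ^ 2 * (Lw + 1) ^ 2 := by
      have hA0 : 0 ≤ A := by linarith
      have h11 : 2 * A * Lw * (1 + 9 / 2 * A) ≤ 9 * (A + 1) ^ 2 * (Lw + 1) := by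
        have : 2 * A * (1 + 9 / 2 * A) ≤ 9 * (A + 1) ^ 2 := by
          have h0 : 9 * (A + 1) ^ 2 - 2 * A * (1 + 9 / 2 * A) = 16 * A + 9 := by ring
          linarith
        calc 2 * A * Lw * (1 + 9 / 2 * A) = (2 * A * (1 + 9 / 2 * A)) * Lw := by ring
          _ ≤ (9 * (A + 1) ^ 2) * (Lw + 1) := by gcongr; linarith
          _ = _ := by ring
      have h12 : 1 + 6 * A ≤ (A + 1) ^ 2 * (Lw + 1) + 4 * A := by
        have : (A + 1) ^ 2 * 1 ≤ (A + 1) ^ 2 * (Lw + 1) := by gcongr; linarith
        have h0 : (A + 1) ^ 2 * 1 = 1 + 2 * A + A ^ 2 := by ring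
        have h00 := sq_nonneg A
        linarith
      have h13 : 4 * A ≤ (A + 1) ^ 2 * (Lw + 1) := by
        have : (A + 1) ^ 2 * 1 ≤ (A + 1) ^ 2 * (Lw + 1) := by gcongr; linarith
        have h0 : (A + 1) ^ 2 * 1 - 4 * A = (A - 1) ^ 2 := by ring
        have h00 := sq_nonneg (A - 1)
        linarith
      calc (2 * A * Lw * (1 + 9 / 2 * A) + (1 + 6 * A)) * Lw ≤
            (11 * (A + 1) ^ 2 * (Lw + 1)) * (Lw + 1) := by
              gcongr
              · linarith
              · linarith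
        _ = 11 * (A + 1) ^ 2 * (Lw + 1) ^ 2 := by ring
    calc (2 * A * Lw * (1 + 9 / 2 * A) + (1 + 6 * A)) * om * Lw =
          om * ((2 * A * Lw * (1 + 9 / 2 * A) + (1 + 6 * A)) * Lw) := by ring
      _ ≤ om * (11 * (A + 1) ^ 2 * (Lw + 1) ^ 2) := by gcongr
      _ ≤ y l1 / 4 := by linarith
  have hM7 : M ≤ 5 * y l1 := by
    have : K2 * Lw ≤ M / 8 + y l1 / 4 := by
      rw [hK2eq]
      linarith
    linarith
  -- K Lw ≤ y l1
  have hKLw : K * Lw ≤ y l1 := by
    have h1 : 2 * A * Z * Lw ≤ (4 * A ^ 2 * Lw + 4 * A) * Z * Lw := by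
      have h2 : 2 * A ≤ 4 * A ^ 2 * Lw + 4 * A := by
        have : 0 ≤ 4 * A ^ 2 * Lw := by positivity
        linarith
      gcongr
    have h3 : (1 + 9 / 2 * A) * om * Lw ≤ y l1 / 4 := by
      have h4 : (1 + 9 / 2 * A) * Lw ≤ 11 * (A + 1) ^ 2 * (Lw + 1) ^ 2 := by
        have h41 : (1 + 9 / 2 * A) ≤ 11 * (A + 1) ^ 2 := by
          have h0 : 11 * (A + 1) ^ 2 = 11 * A ^ 2 + 22 * A + 11 := by ring
          have h00 := sq_nonneg A
          linarith
        have h42 : Lw ≤ (Lw + 1) ^ 2 := by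
          have h0 : (Lw + 1) ^ 2 = Lw ^ 2 + 2 * Lw + 1 := by ring
          have h00 := sq_nonneg Lw
          linarith
        calc (1 + 9 / 2 * A) * Lw ≤ (11 * (A + 1) ^ 2) * (Lw + 1) ^ 2 := by gcongr
          _ = _ := by ring
      calc (1 + 9 / 2 * A) * om * Lw = om * ((1 + 9 / 2 * A) * Lw) := by ring
        _ ≤ om * (11 * (A + 1) ^ 2 * (Lw + 1) ^ 2) := by gcongr
        _ ≤ y l1 / 4 := by linarith
    have h5 : K * Lw = 2 * A * Z * Lw + (1 + 9 / 2 * A) * om * Lw := by rw [hK]; ring
    rw [h5]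
    linarith
  have hfin := hWlow l1 (right_mem_Icc.2 h01)
  -- (E - al/2 I) wt ≥ - y = - E wt
  have h20 : -(E l1 * wt l1) ≤ (E l1 - al / 2 * I l1) * wt l1 := by
    have : y l1 = E l1 * wt l1 := rfl
    have h21 : W l1 = (E l1 - al / 2 * I l1) * wt l1 := rfl
    rw [← this, ← h21]; linarith
  have h22 : (al * I l1) * wt l1 ≤ (4 * E l1) * wt l1 := by 
    have h23 : (E l1 - al / 2 * I l1) * wt l1 = E l1 * wt l1 - al * I l1 * wt l1 / 2 := by ring
    linarith
  exact le_of_mul_le_mul_right h22 (hwt0 l1)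


/-- the thresholds of `freq_below`. -/
structure Thr (C1 Lw hw th0 eta0 rho0 c0 : ℝ) : Prop where
  th : 0 < th0
  eta : 0 < eta0
  rho : 0 < rho0
  c : 0 < c0
  main : ∀ (E I e b R ep dE dI : ℝ → ℝ) (lo t0 t1 om eta rho : ℝ), lo ≤ t0 → t1 - lo ≤ Lw →
    t0 + hw ≤ t1 → 0 ≤ om → om ≤ th0 * I t0 → 0 ≤ eta → eta ≤ eta0 → 0 < rho → rho ≤ rho0 →
    Dat E I e b R ep dE dI lo t1 om eta rho → (∀ l ∈ Icc t0 t1, E l ≤ C1 * I t0) →
    ∀ l ∈ Icc lo t0, 2 * E l ≤ 8 * C1 * I l ∧ c0 * I t0 ≤ I l

/-- **(F11), real-variable theorem**: one doubling at the top (in the form `E ≤ C₁ I(t₀)` on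
`[t₀, t₁]`) bounds the frequency and the decay of `I` on the whole window below. -/
theorem freq_below {C1 Lw hw : ℝ} (hC1 : 1 ≤ C1) (hLw : 0 ≤ Lw) (hhw : 0 < hw) :
    ∃ th0 eta0 rho0 c0 : ℝ, Thr C1 Lw hw th0 eta0 rho0 c0 := by
  obtain ⟨J, hJ⟩ := pow_unbounded_of_one_lt (4 * C1) (by norm_num : (1 : ℝ) < 4)
  set A : ℝ := 8 * C1 + 1 with hA
  have hA9 : 9 ≤ A := by rw [hA]; linarith
  have hA0 : 0 < A := by linarith
  set D : ℝ := 2 * A * exp (BB A * Lw) with hD
  have hBB := BB_pos hA0.le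
  have hexp1 : 1 ≤ exp (BB A * Lw) := one_le_exp (by positivity)
  have hD1 : 2 ≤ D := by rw [hD]; nlinarith
  have hD0 : 0 < D := by linarith
  set c0 : ℝ := 1 / (2 * D) with hc0
  have hc00 : 0 < c0 := by rw [hc0]; positivity
  have hc01 : c0 < 1 := by
    rw [hc0, div_lt_one (by positivity)]; linarith
  set G : ℝ := 44 * (A + 1) ^ 2 * (Lw + 1) ^ 2 with hG
  have hG0 : 0 < G := by rw [hG]; positivity
  set th1 : ℝ := exp (-(2 * A * Lw)) / (8 * G) with hth1
  have hth10 : 0 < th1 := by rw [hth1]; positivity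
  set H : ℝ := exp (2 * A) * (4 * A ^ 2 * Lw + 4 * A) * (8 * (Lw + 1)) with hH
  have hH0 : 0 < H := by rw [hH]; positivity
  refine ⟨min c0 (min (1 / (2 * (Lw + 1))) th1), 1 / H, min 1 (hw / (J + 1)), c0, ?_, ?_, ?_, hc00,
    ?_⟩
  · have : 0 < 1 / (2 * (Lw + 1)) := by positivity
    exact lt_min hc00 (lt_min this hth10)
  · positivity
  · exact lt_min one_pos (by positivity)
  intro E I e b R ep dE dI lo t0 t1 om eta rho hlo ht1 htw hom homth heta heta' hrho hrho' h top
  have hrho1 : rho ≤ 1 := hrho'.trans (min_le_left _ _)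
  have hrhoJ : rho * (J + 1) ≤ hw := by
    have := hrho'.trans (min_le_right _ _)
    rwa [le_div_iff₀ (by positivity)] at this
  have ht0 : t0 ∈ Icc lo t1 := ⟨hlo, by linarith⟩
  have hIt0 := h.pos t0 ht0
  have homc : om ≤ c0 * I t0 := homth.trans (by gcongr; exact min_le_left _ _)
  have homL : om * (2 * (Lw + 1)) ≤ I t0 := by
    have h1 : om ≤ 1 / (2 * (Lw + 1)) * I t0 :=
      homth.trans (by gcongr; exact (min_le_right _ _).trans (min_le_left _ _))
    calc om * (2 * (Lw + 1)) ≤ (1 / (2 * (Lw + 1)) * I t0) * (2 * (Lw + 1)) := by gcongr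
      _ = I t0 := by field_simp
  have homT : om * (8 * G) ≤ exp (-(2 * A * Lw)) * I t0 := by
    have h1 : om ≤ th1 * I t0 :=
      homth.trans (by gcongr; exact (min_le_right _ _).trans (min_le_right _ _))
    calc om * (8 * G) ≤ (th1 * I t0) * (8 * G) := by gcongr
      _ = exp (-(2 * A * Lw)) * I t0 := by rw [hth1]; field_simp
  have hetaH : eta * H ≤ 1 := by
    calc eta * H ≤ (1 / H) * H := by gcongr
      _ = 1 := by field_simp
  -- `I t0 ≤ 2 I l` on the top window
  have hmono : ∀ l ∈ Icc t0 t1, I t0 ≤ 2 * I l := by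
    intro l hl
    have h1 := h.mono hlo hl.1 hl.2
    have h2 : om * (l - t0) ≤ om * (Lw + 1) := by
      apply mul_le_mul_of_nonneg_left _ hom
      linarith [hl.2]
    linarith
  obtain ⟨l1, hl1, hnj⟩ := nonjump (E := E) (t0 := t0) (t1 := t1) (rho := rho) (C := C1 * I t0)
    (q := I t0 / 4) (J := J) hrho (by linarith) (by nlinarith) (by linarith [h.low t0 ht0]) top
  have hl1' : l1 ∈ Icc t0 t1 := ⟨hl1.1, by linarith [hl1.2]⟩
  have hl1'' : l1 ∈ Icc lo t1 := ⟨hlo.trans hl1.1, hl1'.2⟩
  have hIl1 := h.pos l1 hl1''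
  have key : ∀ l0 ∈ Icc lo t0, (∀ l ∈ Icc l0 t0, max (2 * E l - A * I l) (c0 * I t0 - I l) ≤ 0) →
      2 * E l0 ≤ 8 * C1 * I l0 ∧ 2 * c0 * I t0 ≤ I l0 := by
    intro l0 hl0 hbad
    have hl0' : l0 ∈ Icc lo t1 := ⟨hl0.1, hl0.2.trans ht0.2⟩
    have hIl0 := h.pos l0 hl0'
    have hup : ∀ l ∈ Icc l0 t0, 2 * E l ≤ A * I l := fun l hl => by
      have := (max_le_iff.1 (hbad l hl)).1; linarith
    have hcI : ∀ l ∈ Icc l0 t0, c0 * I t0 ≤ I l := fun l hl => by
      have := (max_le_iff.1 (hbad l hl)).2; linarith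
    have hsub : ∀ l ∈ Icc l0 t0, l ∈ Icc lo t1 := fun l hl => ⟨hl0.1.trans hl.1, hl.2.trans ht0.2⟩
    constructor
    · by_contra hcon
      have hcon' := not_le.1 hcon
      set al := 2 * E l0 / I l0 with hal
      have hN : 2 * E l0 = al * I l0 := by rw [hal]; field_simp
      have hal8 : 8 * C1 < al := by
        rw [hal, lt_div_iff₀ hIl0]; exact hcon'
      have halA : al ≤ A := by
        rw [hal, div_le_iff₀ hIl0]
        exact hup l0 (left_mem_Icc.2 hl0.2)
      have hE1 : I t0 / 8 ≤ E l1 := by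
        have h1 := hmono l1 hl1'
        have h2 := h.low l1 hl1''
        linarith
      have hr := rv_bdd h (l0 := l0) (l1 := l1) (A := A) (Lw := Lw) (al := al) hrho.le hrho1 heta
        hom hl0.1 (hl0.2.trans hl1.1) (by linarith [hl1.2]) (by linarith [hl0.1, hl1'.2])
        (by linarith) halA hN hnj hetaH (by
          have h3 : exp (-(2 * A * Lw)) * (I t0 / 8) ≤ exp (-(2 * A * Lw)) * E l1 := by gcongr
          rw [← hG]
          linarith)
      have h1 := top l1 hl1'
      have h2 := hmono l1 hl1'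
      have h3 : al * I l1 ≤ 8 * C1 * I l1 := by
        have h4 : C1 * I t0 ≤ C1 * (2 * I l1) := by gcongr
        linarith
      have h5 := le_of_mul_le_mul_right h3 hIl1
      linarith
    · have hd := I_le_of_freq (E := E) (I := I) (e := e) (b := b) (R := R) (dE := dE) (dI := dI)
        (ep := ep) (tau := fun _ => 1) (a := l0) (c := t0) (N0 := A) hl0.2
        (fun l hl => h.hE l (hsub l hl)) (fun l hl => h.hI l (hsub l hl))
        (fun l hl => h.pos l (hsub l hl)) (fun _ _ => le_rfl) (fun l hl => h.low l (hsub l hl)) hup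
        (fun l hl => by
          have h1 := h.E1 l (hsub l hl)
          have h2 := hcI l hl
          have h3 := h.low l (hsub l hl)
          have h4 := h.pos l (hsub l hl)
          have h5 := abs_nonneg (b l)
          linarith)
        (fun l hl => by
          have h1 := (abs_le.1 (h.I1 l (hsub l hl))).2
          have h2 := hcI l hl
          linarith)
        (fun l hl => h.eE l (hsub l hl)) (fun l hl => h.S1 l (hsub l hl))
        (fun l hl => by
          have h1 := h.S2 l (hsub l hl)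
          have h2 := hcI l hl
          linarith)
      have h6 : 2 * A * exp (BB A * (t0 - l0)) * I l0 ≤ D * I l0 := by
        apply mul_le_mul_of_nonneg_right _ hIl0.le
        rw [hD]
        apply mul_le_mul_of_nonneg_left _ (by positivity)
        apply exp_le_exp.2
        apply mul_le_mul_of_nonneg_left _ hBB.le
        linarith [hl0.1]
      have h7 : I t0 ≤ D * I l0 := hd.trans h6
      have h8 : 2 * c0 * I t0 ≤ 2 * c0 * (D * I l0) := by gcongr
      have h9 : 2 * c0 * (D * I l0) = I l0 := by rw [hc0]; field_simp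
      linarith
  have hE : ContinuousOn E (Icc lo t0) := fun l hl =>
    (h.hE l ⟨hl.1, hl.2.trans ht0.2⟩).continuousAt.continuousWithinAt
  have hI : ContinuousOn I (Icc lo t0) := fun l hl =>
    (h.hI l ⟨hl.1, hl.2.trans ht0.2⟩).continuousAt.continuousWithinAt
  have hcont : ContinuousOn (fun l => max (2 * E l - A * I l) (c0 * I t0 - I l)) (Icc lo t0) :=
    ((continuousOn_const.mul hE).sub (continuousOn_const.mul hI)).sup (continuousOn_const.sub hI)
  have hboot := bootstrap hcont (by
      apply max_lt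
      · have := top t0 ⟨le_rfl, ht0.2⟩
        have h1 : A * I t0 = 8 * (C1 * I t0) + I t0 := by rw [hA]; ring
        have h2 : 0 < C1 * I t0 := by positivity
        linarith
      · nlinarith)
    (fun l0 hl0 hb => by
      obtain ⟨h1, h2⟩ := key l0 hl0 hb
      have hIl0 := h.pos l0 ⟨hl0.1, hl0.2.trans ht0.2⟩
      apply max_lt
      · have h3 : A * I l0 = 8 * C1 * I l0 + I l0 := by rw [hA]; ring
        linarith
      · have h4 : 0 < c0 * I t0 := by positivity
        linarith)
  intro l hl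
  obtain ⟨h1, h2⟩ := key l hl (fun l' hl' => (hboot l' ⟨hl.1.trans hl'.1, hl'.2⟩).le)
  refine ⟨h1, ?_⟩
  have h4 : 0 < c0 * I t0 := by positivity
  linarith

end Crest.Agent.R234.Dbl_534
end

-- ▼ part R234/Dbl3_534

/-!
# Row 234, VF-F11 (helper534): from 290's `StepData` (sloppy errors, one fixed reference, window of
any bounded length) to 3's `FD` (relative errors) at a `Q`-point
-/

set_option autoImplicit false

open Set Real

namespace Crest.Agent.R234.Dbl_534

open Crest.Agent.R234.Nb_290 (StepData)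
open Crest.Agent.R234.Pin1_3 (FD NN)

/-- `e ≤ √(I R) + d` as a perturbed Cauchy–Schwarz inequality. -/
theorem exists_pert {e I R d : ℝ} (he : 0 ≤ e) (hI : 0 ≤ I) (hR : 0 ≤ R) (hd : 0 ≤ d)
    (h : e ≤ sqrt (I * R) + d) : ∃ ep, |ep| ≤ d ∧ (e + ep) ^ 2 ≤ I * R := by
  rcases le_total e d with h1 | h1
  · refine ⟨-e, by rw [abs_neg, abs_of_nonneg he]; exact h1, ?_⟩
    have : 0 ≤ I * R := mul_nonneg hI hR
    simpa using this
  · refine ⟨-d, by rw [abs_neg, abs_of_nonneg hd], ?_⟩
    have h2 : e + -d ≤ sqrt (I * R) := by linarith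
    calc (e + -d) ^ 2 ≤ (sqrt (I * R)) ^ 2 := pow_le_pow_left₀ (by linarith) h2 2
      _ = I * R := sq_sqrt (mul_nonneg hI hR)

/-- `StepData` + low frequency + crude bounds ⟹ `Dat`. -/
theorem dat_of_step {lo t0 t1 del w rho Ce : ℝ} {I E e b R : ℝ → ℝ}
    (h : StepData lo t1 del w I E e b R) (hdel : 0 ≤ del) (hw : 0 ≤ w)
    (hlow : ∀ l ∈ Icc lo t1, I l ≤ 4 * E l) (hCe : ∀ l ∈ Icc lo t1, e l + I l ≤ Ce * I t0) 
    (hrho : 0 ≤ rho) :
    ∃ ep dE dI : ℝ → ℝ, Dat E I e b R ep dE dI lo t1 (del * (Ce * I t0) + w) 0 rho := by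
  classical
  have hI' : ∀ l, ∃ d, l ∈ Icc lo t1 → HasDerivAt I d l ∧ |d - 2 * e l| ≤ del * I l + w := by
    intro l
    by_cases hl : l ∈ Icc lo t1
    · obtain ⟨d, hd⟩ := h.dI l hl
      exact ⟨d, fun _ => hd⟩
    · exact ⟨0, fun h' => absurd h' hl⟩
  have hE' : ∀ l, ∃ d, l ∈ Icc lo t1 → HasDerivAt E d l ∧
      2 * b l + R l - (del * (e l + I l) + w) ≤ d := by
    intro l
    by_cases hl : l ∈ Icc lo t1
    · obtain ⟨d, hd⟩ := h.dE l hl
      exact ⟨d, fun _ => hd⟩
    · exact ⟨0, fun h' => absurd h' hl⟩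
  have hep' : ∀ l, ∃ d, l ∈ Icc lo t1 → |d| ≤ del * I l + w ∧ (e l + d) ^ 2 ≤ I l * R l := by
    intro l
    by_cases hl : l ∈ Icc lo t1
    · have hIl := (h.hI l hl).le
      obtain ⟨d, hd⟩ := exists_pert (h.he l hl) hIl (h.hR l hl)
        (by positivity : 0 ≤ del * I l + w) (h.hCS l hl)
      exact ⟨d, fun _ => hd⟩
    · exact ⟨0, fun h' => absurd h' hl⟩
  choose dI hdI using hI'
  choose dE hdE using hE'
  choose ep hep using hep'
  have hIle : ∀ l ∈ Icc lo t1, del * I l + w ≤ del * (Ce * I t0) + w := by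
    intro l hl
    have h1 := hCe l hl
    have h2 := h.he l hl
    have h3 : del * I l ≤ del * (Ce * I t0) := mul_le_mul_of_nonneg_left (by linarith) hdel
    linarith
  refine ⟨ep, dE, dI, ?_⟩
  exact
    { hE := fun l hl => (hdE l hl).1
      hI := fun l hl => (hdI l hl).1
      pos := h.hI
      e0 := h.he
      low := hlow
      E1 := fun l hl => by
        have h1 := (hdE l hl).2
        have h2 : del * (e l + I l) ≤ del * (Ce * I t0) :=
          mul_le_mul_of_nonneg_left (hCe l hl) hdel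
        linarith
      I1 := fun l hl => (hdI l hl).2.trans (hIle l hl)
      eE := fun l hl => by linarith [h.hE l hl]
      S1 := fun l hl => (hep l hl).2
      S2 := fun l hl => (hep l hl).1.trans (hIle l hl)
      b1 := fun l hl M hM => by
        have hl' : l ∈ Icc lo t1 := ⟨hl.1, hl.2.trans (by linarith)⟩
        have h1 := h.hb l hl'
        have h2 := hIle l hl'
        linarith }

/-- **(F11)**: thresholds such that data with sloppy errors on `[lo, t₁]` give relative data
(`FD`) on `[lo, t₀]`, bounded frequency and non-degenerate height. -/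
structure Thr2 (C1 Ce Lw hw et k0 c0 : ℝ) : Prop where
  k : 0 < k0
  c : 0 < c0
  main : ∀ (I E e b R : ℝ → ℝ) (lo t0 t1 del w : ℝ), lo ≤ t0 → t1 - lo ≤ Lw →
    t0 + hw ≤ t1 → 0 ≤ del → del ≤ k0 → 0 ≤ w → w ≤ k0 * I t0 →
    StepData lo t1 del w I E e b R →
    (∀ l ∈ Icc lo t1, (1 - et) * I l ≤ 2 * E l) →
    (∀ l ∈ Icc lo t1, e l + I l ≤ Ce * I t0) →
    (∀ l ∈ Icc t0 t1, E l ≤ C1 * I t0) →
    ∃ R' : ℝ → ℝ, (∀ l ∈ Icc lo t0, R l ≤ R' l) ∧ FD E I e b R' et lo t0 ∧
      (∀ l ∈ Icc lo t0, NN E I l ≤ 8 * C1) ∧ ∀ l ∈ Icc lo t0, c0 * I t0 ≤ I l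

theorem fd_of_step {C1 Ce Lw hw et : ℝ} (hC1 : 1 ≤ C1) (hCe : 1 ≤ Ce) (hLw : 0 ≤ Lw) (hhw : 0 < hw)
    (het : 0 < et) (het1 : et ≤ 1 / 2) : ∃ k0 c0 : ℝ, Thr2 C1 Ce Lw hw et k0 c0 := by
  obtain ⟨th0, eta0, rho0, c0, hT⟩ := freq_below hC1 hLw hhw
  have hth := hT.th
  have hc0 := hT.c
  have hCe0 : 0 < Ce := by linarith
  set k0 : ℝ := min (th0 / (2 * Ce)) (min (et / 8) (min (et * c0 / 8) 1)) with hk0
  have hk00 : 0 < k0 := by
    rw [hk0]
    refine lt_min (by positivity) (lt_min (by positivity) (lt_min (by positivity) one_pos))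
  have hk1 : k0 * (2 * Ce) ≤ th0 := by
    have : k0 ≤ th0 / (2 * Ce) := min_le_left _ _
    rwa [le_div_iff₀ (by positivity)] at this
  have hk2 : k0 ≤ et / 8 := (min_le_right _ _).trans (min_le_left _ _)
  have hk3 : k0 ≤ et * c0 / 8 :=
    (min_le_right _ _).trans ((min_le_right _ _).trans (min_le_left _ _))
  refine ⟨k0, c0, hk00, hc0, ?_⟩
  intro I E e b R lo t0 t1 del w hlo ht1 htw hdel hdelk hw hwk h hlow hCe' htop
  have ht0 : t0 ∈ Icc lo t1 := ⟨hlo, by linarith⟩
  have hIt0 := h.hI t0 ht0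
  have hlow4 : ∀ l ∈ Icc lo t1, I l ≤ 4 * E l := by
    intro l hl
    have h1 := hlow l hl
    have h2 := h.hI l hl
    nlinarith
  obtain ⟨ep, dE, dI, hD⟩ := dat_of_step (t0 := t0) (rho := rho0) h hdel hw hlow4 hCe' hT.rho.le
  have hres := hT.main E I e b R ep dE dI lo t0 t1 _ 0 rho0 hlo ht1 htw (by positivity)
    (by
      have h1 : del * (Ce * I t0) ≤ k0 * (Ce * I t0) := by gcongr
      have h2 : w ≤ k0 * Ce * I t0 := by
        have : k0 * I t0 ≤ k0 * Ce * I t0 := by
          have h3 : k0 * 1 ≤ k0 * Ce := by gcongr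
          calc k0 * I t0 = (k0 * 1) * I t0 := by ring
            _ ≤ (k0 * Ce) * I t0 := by gcongr
        linarith
      calc del * (Ce * I t0) + w ≤ (k0 * (2 * Ce)) * I t0 := by linarith
        _ ≤ th0 * I t0 := by gcongr)
    le_rfl hT.eta.le hT.rho le_rfl hD htop
  have hsub : ∀ l ∈ Icc lo t0, l ∈ Icc lo t1 := fun l hl => ⟨hl.1, hl.2.trans ht0.2⟩
  -- relative errors
  have hwI : ∀ l ∈ Icc lo t0, w ≤ et / 8 * I l := by
    intro l hl
    have h1 := (hres l hl).2
    calc w ≤ k0 * I t0 := hwk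
      _ ≤ (et * c0 / 8) * I t0 := by gcongr
      _ = et / 8 * (c0 * I t0) := by ring
      _ ≤ et / 8 * I l := by gcongr
  have hdI : ∀ l ∈ Icc lo t0, del * I l ≤ et / 8 * I l := by
    intro l hl
    have := h.hI l (hsub l hl)
    gcongr
    exact hdelk.trans hk2
  refine ⟨fun l => dE l - 2 * b l + (del * (e l + I l) + w), ?_, ?_, ?_, fun l hl => (hres l hl).2⟩
  · intro l hl
    obtain ⟨d, hd1, hd2⟩ := h.dE l (hsub l hl)
    have := (hD.hE l (hsub l hl)).unique hd1
    show R l ≤ dE l - 2 * b l + (del * (e l + I l) + w)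
    rw [this]; linarith
  · have hRR : ∀ l ∈ Icc lo t0, R l ≤ dE l - 2 * b l + (del * (e l + I l) + w) := by
      intro l hl
      obtain ⟨d, hd1, hd2⟩ := h.dE l (hsub l hl)
      have := (hD.hE l (hsub l hl)).unique hd1
      rw [this]; linarith
    have hIl : ∀ l ∈ Icc lo t0, 0 < I l := fun l hl => h.hI l (hsub l hl)
    have hEl : ∀ l ∈ Icc lo t0, 0 < E l := fun l hl => by
      linarith [hIl l hl, hlow4 l (hsub l hl)]
    have hdel8 : del ≤ et / 8 := hdelk.trans hk2
    exact
      { pos := hIl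
        dE := fun l hl => by
          refine ⟨-(del * (e l + I l) + w), ?_, ?_⟩
          · have h0 := h.he l (hsub l hl)
            have h1 := hIl l hl
            have h2 := hEl l hl
            have h3 : e l ≤ 2 * (E l + |b l|) := by
              have := h.hE l (hsub l hl)
              have := neg_abs_le (b l)
              linarith
            rw [abs_neg, abs_of_nonneg (by positivity)]
            have h4 : del * e l ≤ et / 8 * (2 * (E l + |b l|)) := by
              apply mul_le_mul hdel8 h3 h0 (by positivity)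
            have h5 := hwI l hl
            have h6 := hdI l hl
            have h7 : 0 ≤ et * (E l + |b l|) := by positivity
            nlinarith
          · have := hD.hE l (hsub l hl)
            convert this using 1
            ring
        dI := fun l hl => by
          obtain ⟨d, hd1, hd2⟩ := h.dI l (hsub l hl)
          refine ⟨d - 2 * e l, ?_, ?_⟩
          · have h1 := hIl l hl
            have h2 := hEl l hl
            have h5 := hwI l hl
            have h6 := hdI l hl
            have h7 : 0 ≤ et * (E l + |b l|) := by positivity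
            have h8 : 0 ≤ et * I l := by positivity
            nlinarith
          · convert hd1 using 1
            ring
        eE := fun l hl => by linarith [h.hE l (hsub l hl)]
        cs := fun l hl => by
          have h1 := hIl l hl
          have h2 := hEl l hl
          obtain ⟨d, hd1, hd2⟩ := exists_pert (h.he l (hsub l hl)) h1.le (h.hR l (hsub l hl))
            (by positivity : 0 ≤ del * I l + w) (h.hCS l (hsub l hl))
          refine ⟨d, ?_, ?_⟩
          · have h5 := hwI l hl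
            have h6 := hdI l hl
            have h7 : 0 ≤ et * (E l + |b l|) := by positivity
            have h8 : 0 ≤ et * I l := by positivity
            nlinarith
          · exact hd2.trans (mul_le_mul_of_nonneg_left (hRR l hl) h1.le)
        low := fun l hl => hlow l (hsub l hl)
        bu := fun l hl => by
          have h1 := h.hb l (hsub l hl)
          have h5 := hwI l hl
          have h6 := hdI l hl
          have h7 := hlow4 l (hsub l hl)
          have h8 : et * I l ≤ et * (4 * E l) := by gcongr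
          linarith }
  · intro l hl
    unfold NN
    rw [div_le_iff₀ (h.hI l (hsub l hl))]
    exact (hres l hl).1

end Crest.Agent.R234.Dbl_534
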