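import Crest.Agent.R234.Ell1_3
import Crest.Prelude.Def_Varifold

-- ▼ part R234/Ell2_3
section

/-!
R234 (helper3), VF-ELL part 2: pointwise facts about the frozen varifold data.

* `ae_fderiv_zero`: a map that vanishes on a measurable set `A` and is differentiable within `A`
  has zero derivative at almost every point of `A`;
* `tangentAt_eq_range`: `tangentAt f a = range (fderiv f a)`;
* `starProjection_graph`: orthogonal projection onto the graph plane `{ξ + q ξ}`;
* `jac_pos`.
-/

open MeasureTheory Metric Set Filter Topology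
open scoped ContDiff NNReal ENNReal
open Crest.GeometryTopology.Submanifold

namespace Crest.Agent.R234.Ell2_3

noncomputable section

set_option linter.unusedSectionVars false

open Crest.Agent.R234.Ell1_3

/-! ### vanishing on a set of positive measure -/

lemma ae_fderiv_zero {E₁ E₂ : Type*} [NormedAddCommGroup E₁] [NormedSpace ℝ E₁]
    [FiniteDimensional ℝ E₁] [MeasurableSpace E₁] [BorelSpace E₁]
    [NormedAddCommGroup E₂] [NormedSpace ℝ E₂] [FiniteDimensional ℝ E₂]
    (μ : Measure E₁) [μ.IsAddHaarMeasure]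
    {h : E₁ → E₂} {h' : E₁ → E₁ →L[ℝ] E₂} {A : Set E₁} (hA : MeasurableSet A)
    (hd : ∀ a ∈ A, HasFDerivWithinAt h (h' a) A a) (h0 : ∀ a ∈ A, h a = 0) :
    ∀ᵐ a ∂(μ.restrict A), h' a = 0 := by
  rcases subsingleton_or_nontrivial E₁ with hs | hn
  · refine Filter.Eventually.of_forall fun a => ?_
    ext x
    rw [Subsingleton.elim x 0]; simp
  obtain ⟨v, hv⟩ := exists_ne (0 : E₁)
  set b := Module.finBasis ℝ E₂ with hb
  let φ : Fin (Module.finrank ℝ E₂) → (E₂ →L[ℝ] ℝ) := fun j =>
    LinearMap.toContinuousLinearMap (b.coord j)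
  have key : ∀ j, ∀ᵐ a ∂(μ.restrict A), ‖((φ j).smulRight v) ∘L (h' a) - 0‖₊ ≤ (0 : ℝ≥0) := by
    intro j
    have happ : ApproximatesLinearOn (fun a => ((φ j).smulRight v) (h a))
        (0 : E₁ →L[ℝ] E₁) A 0 := by
      intro x hx y hy
      simp [h0 x hx, h0 y hy]
    exact happ.norm_fderiv_sub_le μ hA (fun a => ((φ j).smulRight v) ∘L (h' a))
      (fun x hx => (((φ j).smulRight v).hasFDerivAt.comp_hasFDerivWithinAt x (hd x hx)))
  have key2 : ∀ᵐ a ∂(μ.restrict A), ∀ j, ‖((φ j).smulRight v) ∘L (h' a) - 0‖₊ ≤ (0 : ℝ≥0) :=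
    ae_all_iff.2 key
  filter_upwards [key2] with a ha
  ext x
  have h1 : ∀ j, b.coord j (h' a x) = 0 := by
    intro j
    have h2 := ha j
    rw [sub_zero, nonpos_iff_eq_zero, nnnorm_eq_zero] at h2
    have h3 := congrArg (fun L : E₁ →L[ℝ] E₁ => L x) h2
    simp only [ContinuousLinearMap.comp_apply, ContinuousLinearMap.smulRight_apply,
      zero_apply, smul_eq_zero] at h3
    rcases h3 with h3 | h3
    · exact h3
    · exact absurd h3 hv
  have h4 : h' a x = 0 := by
    apply b.ext_elem
    intro j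
    simpa using h1 j
  simpa using h4

/-! ### tangent planes of the charts -/

variable {m k : ℕ}

lemma tangentAt_eq_range (f : Euc m → Euc k) (a : Euc m) :
    tangentAt f a = LinearMap.range (fderiv ℝ f a : Euc m →ₗ[ℝ] Euc k) := by
  unfold tangentAt
  apply le_antisymm
  · rw [Submodule.span_le]
    rintro _ ⟨i, rfl⟩
    exact ⟨stdVec m i, rfl⟩
  · rintro _ ⟨x, rfl⟩
    have hx : x = ∑ i, x i • stdVec m i := by
      ext j
      simp [stdVec, Pi.single_apply]
    rw [hx, map_sum]
    refine Submodule.sum_mem _ fun i _ => ?_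
    rw [map_smul]
    exact Submodule.smul_mem _ _ (Submodule.subset_span ⟨i, rfl⟩)

lemma finrank_tangentAt {f : Euc m → Euc k} {a : Euc m}
    (h : Function.Injective (fderiv ℝ f a)) : Module.finrank ℝ (tangentAt f a) = m := by
  rw [tangentAt_eq_range, LinearMap.finrank_range_of_inj h]
  simp

lemma jac_pos {f : Euc m → Euc k} {a : Euc m}
    (h : Function.Injective (fderiv ℝ f a)) : 0 < jac f a := by
  unfold jac
  apply Real.sqrt_pos.2
  have h1 : metricMat f a = Matrix.gram ℝ (pd f a) := by
    ext i j; simp [metricMat, Matrix.gram]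
  rw [h1]
  apply Matrix.PosDef.det_pos
  apply Matrix.posDef_gram_of_linearIndependent
  have h2 : LinearIndependent ℝ (fun i : Fin m => stdVec m i) := by
    have h3 := (EuclideanSpace.basisFun (Fin m) ℝ).orthonormal.linearIndependent
    have e : (fun i : Fin m => stdVec m i) = ⇑(EuclideanSpace.basisFun (Fin m) ℝ) := by
      funext i; simp [stdVec]
    rw [e]; exact h3
  exact h2.map' (fderiv ℝ f a : Euc m →ₗ[ℝ] Euc k) (LinearMap.ker_eq_bot.2 h)

/-! ### the graph plane -/

variable {E : Type} [NormedAddCommGroup E] [InnerProductSpace ℝ E] [FiniteDimensional ℝ E]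
  (T : Submodule ℝ E)

/-- the plane `{ξ + q ξ : ξ ∈ T}` -/
def gplane (q : T →L[ℝ] Tᗮ) : Submodule ℝ E :=
  LinearMap.range ((T.subtypeL + Tᗮ.subtypeL ∘L q : T →L[ℝ] E) : T →ₗ[ℝ] E)

lemma mem_gplane (q : T →L[ℝ] Tᗮ) (ξ : T) : (ξ : E) + (q ξ : E) ∈ gplane T q := ⟨ξ, rfl⟩

lemma inner_split (a b : T) (c d : Tᗮ) :
    (inner ℝ ((a : E) + (c : E)) ((b : E) + (d : E)) : ℝ) = inner ℝ a b + inner ℝ c d := by
  have h1 : (inner ℝ (a : E) (d : E) : ℝ) = 0 :=
    (Submodule.mem_orthogonal T (d : E)).1 d.2 a a.2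
  have h2 : (inner ℝ (c : E) (b : E) : ℝ) = 0 :=
    (Submodule.mem_orthogonal' T (c : E)).1 c.2 b b.2
  rw [inner_add_left, inner_add_right, inner_add_right, h1, h2]
  simp

lemma finrank_gplane (q : T →L[ℝ] Tᗮ) :
    Module.finrank ℝ (gplane T q) = Module.finrank ℝ T := by
  unfold gplane
  apply LinearMap.finrank_range_of_inj
  intro x y hxy
  have h1 : ((x : E) + (q x : E)) = (y : E) + (q y : E) := hxy
  have h2 : (((x - y : T) : E) + ((q x - q y : Tᗮ) : E)) = 0 := by
    push_cast
    rw [← sub_eq_zero] at h1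
    rw [← h1]; abel
  have h3 := inner_split T (x - y) (x - y) (q x - q y) (q x - q y)
  rw [h2, inner_zero_left] at h3
  have h4 : (0 : ℝ) ≤ inner ℝ (x - y) (x - y) := real_inner_self_nonneg
  have h5 : (0 : ℝ) ≤ inner ℝ (q x - q y) (q x - q y) := real_inner_self_nonneg
  have h6 : (inner ℝ (x - y) (x - y) : ℝ) = 0 := by linarith
  exact sub_eq_zero.1 (inner_self_eq_zero.1 h6)

/-- projection of a vertical vector onto the graph plane -/
lemma starProjection_graph (q : T →L[ℝ] Tᗮ) (v : Tᗮ) :
    (gplane T q).starProjection (v : E) =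
      ((ginv q (ContinuousLinearMap.adjoint q v) : T) : E) +
        ((q (ginv q (ContinuousLinearMap.adjoint q v)) : Tᗮ) : E) := by
  set z : T := ginv q (ContinuousLinearMap.adjoint q v) with hz
  apply Submodule.eq_starProjection_of_mem_of_inner_eq_zero
  · exact mem_gplane T q z
  · rintro _ ⟨ξ, rfl⟩
    have h0 : ((v : E) - ((z : E) + (q z : E))) = ((-z : T) : E) + ((v - q z : Tᗮ) : E) := by
      push_cast; abel
    have h1 : (((T.subtypeL + Tᗮ.subtypeL ∘L q : T →L[ℝ] E) : T →ₗ[ℝ] E) ξ) =
        (ξ : E) + (q ξ : E) := rfl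
    rw [h1, h0, inner_split]
    have h2 : gop q z = ContinuousLinearMap.adjoint q v := by
      have := congrArg (fun L : T →L[ℝ] T => L (ContinuousLinearMap.adjoint q v)) (gop_ginv q)
      simpa [hz] using this
    have h3 : (inner ℝ (gop q z) ξ : ℝ) = inner ℝ z ξ + inner ℝ (q z) (q ξ) := by
      rw [real_inner_comm, gop_inner, real_inner_comm, real_inner_comm (q z)]
    rw [h2, ContinuousLinearMap.adjoint_inner_left] at h3
    rw [inner_neg_left, inner_sub_left]
    linarith

/-- the divergence along the graph plane of the field `p ↦ ζ v` -/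
lemma trace_graph (q : T →L[ℝ] Tᗮ) (c : T) (v : Tᗮ) :
    LinearMap.trace ℝ E ((((innerSL ℝ (c : E)).smulRight (v : E)).comp
      (gplane T q).starProjection).toLinearMap) = inner ℝ (q (ginv q c)) v := by
  have h1 : ((((innerSL ℝ (c : E)).smulRight (v : E)).comp
      (gplane T q).starProjection).toLinearMap : E →ₗ[ℝ] E) =
      LinearMap.smulRight ((innerSL ℝ (c : E) ∘L (gplane T q).starProjection) : E →ₗ[ℝ] ℝ)
        (v : E) := by
    ext x; simp
  rw [h1, LinearMap.trace_smulRight]
  simp only [ContinuousLinearMap.coe_coe, ContinuousLinearMap.comp_apply, innerSL_apply_apply]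
  rw [starProjection_graph]
  set z : T := ginv q (ContinuousLinearMap.adjoint q v) with hz
  have h2 : (inner ℝ (c : E) ((z : E) + (q z : E)) : ℝ) = inner ℝ c z := by
    have := inner_split T c z 0 (q z)
    simpa using this
  rw [h2]
  -- self-adjointness of `ginv q`
  have hsa : ∀ x y : T, (inner ℝ (ginv q x) y : ℝ) = inner ℝ x (ginv q y) := by
    intro x y
    have hx : gop q (ginv q x) = x := by
      have := congrArg (fun L : T →L[ℝ] T => L x) (gop_ginv q)
      simpa using this
    have hy : gop q (ginv q y) = y := by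
      have := congrArg (fun L : T →L[ℝ] T => L y) (gop_ginv q)
      simpa using this
    have e1 := gop_inner q (ginv q x) (ginv q y)
    have e2 := gop_inner q (ginv q y) (ginv q x)
    rw [hy] at e1
    rw [hx] at e2
    rw [e1, real_inner_comm (ginv q y) x, e2, real_inner_comm (ginv q x) (ginv q y),
      real_inner_comm (q (ginv q x)) (q (ginv q y))]
  rw [hz, ← hsa, ContinuousLinearMap.adjoint_inner_right]

end

end Crest.Agent.R234.Ell2_3
end

-- ▼ part R234/Ell3_3

/-!
R234 (helper3), VF-ELL part 3: if near a point the weight of a stationary integral varifold is `Q`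
times the area of a `C¹` graph over an `m`-plane, then the graph function solves the weak minimal
surface system.
-/

open MeasureTheory Metric Set Filter Topology
open scoped ContDiff NNReal ENNReal
open Crest.GeometryTopology.Submanifold

namespace Crest.Agent.R234.Ell3_3

noncomputable section

set_option linter.unusedSectionVars false

open Crest.Agent.R234.Ell1_3 Crest.Agent.R234.Ell2_3

variable {m k : ℕ}

/-- horizontal coordinate -/
def px (T : Submodule ℝ (Euc k)) (x0 p : Euc k) : T := T.orthogonalProjectionOnto (p - x0)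

/-- vertical coordinate -/
def py (T : Submodule ℝ (Euc k)) (x0 p : Euc k) : Tᗮ := Tᗮ.orthogonalProjectionOnto (p - x0)

/-- graph map -/
def gmap (T : Submodule ℝ (Euc k)) (x0 : Euc k) (u : T → Tᗮ) (x : T) : Euc k :=
  x0 + ((x : Euc k) + (u x : Euc k))

/-- the cylinder of radius `r`, height `s` about `x0` -/
def cyl (T : Submodule ℝ (Euc k)) (x0 : Euc k) (r s : ℝ) : Set (Euc k) :=
  {p | px T x0 p ∈ ball (0 : T) r ∧ py T x0 p ∈ ball (0 : Tᗮ) s}

/-- the area measure of the graph over the ball of radius `r` -/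
def gmeas (T : Submodule ℝ (Euc k)) (x0 : Euc k) (u : T → Tᗮ) (g : T → T →L[ℝ] Tᗮ) (r : ℝ) :
    Measure (Euc k) :=
  ((volume.restrict (ball (0 : T) r)).withDensity (fun x => ENNReal.ofReal (dns (g x)))).map
    (gmap T x0 u)

lemma px_contDiff (T : Submodule ℝ (Euc k)) (x0 : Euc k) : ContDiff ℝ ∞ (px T x0) :=
  T.orthogonalProjectionOnto.contDiff.comp (contDiff_id.sub contDiff_const)

lemma py_contDiff (T : Submodule ℝ (Euc k)) (x0 : Euc k) : ContDiff ℝ ∞ (py T x0) :=
  Tᗮ.orthogonalProjectionOnto.contDiff.comp (contDiff_id.sub contDiff_const)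

lemma px_continuous (T : Submodule ℝ (Euc k)) (x0 : Euc k) : Continuous (px T x0) :=
  (px_contDiff T x0).continuous

lemma py_continuous (T : Submodule ℝ (Euc k)) (x0 : Euc k) : Continuous (py T x0) :=
  (py_contDiff T x0).continuous

lemma cyl_isOpen (T : Submodule ℝ (Euc k)) (x0 : Euc k) (r s : ℝ) : IsOpen (cyl T x0 r s) :=
  (isOpen_ball.preimage (px_continuous T x0)).inter (isOpen_ball.preimage (py_continuous T x0))

lemma split (T : Submodule ℝ (Euc k)) (x0 p : Euc k) :
    p = x0 + ((px T x0 p : Euc k) + (py T x0 p : Euc k)) := by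
  have h := Submodule.starProjection_add_starProjection_orthogonal (K := T) (p - x0)
  have h1 : ((px T x0 p : T) : Euc k) = T.starProjection (p - x0) := rfl
  have h2 : ((py T x0 p : Tᗮ) : Euc k) = Tᗮ.starProjection (p - x0) := rfl
  rw [h1, h2, h]; abel

@[simp] lemma px_gmap (T : Submodule ℝ (Euc k)) (x0 : Euc k) (x : T) (y : Tᗮ) :
    px T x0 (x0 + ((x : Euc k) + (y : Euc k))) = x := by
  unfold px
  rw [add_sub_cancel_left, map_add, Submodule.orthogonalProjectionOnto_mem_subspace_eq_self,
    Submodule.orthogonalProjectionOnto_apply_of_mem_orthogonal y.2, add_zero]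

@[simp] lemma py_gmap (T : Submodule ℝ (Euc k)) (x0 : Euc k) (x : T) (y : Tᗮ) :
    py T x0 (x0 + ((x : Euc k) + (y : Euc k))) = y := by
  unfold py
  rw [add_sub_cancel_left, map_add, Submodule.orthogonalProjectionOnto_mem_subspace_eq_self,
    Submodule.orthogonalProjectionOnto_apply_of_mem_orthogonal, zero_add]
  rw [Submodule.orthogonal_orthogonal]
  exact x.2

/-- the graph inside the cylinder -/
def grf (T : Submodule ℝ (Euc k)) (x0 : Euc k) (u : T → Tᗮ) (r s : ℝ) : Set (Euc k) :=
  {p | p ∈ cyl T x0 r s ∧ py T x0 p = u (px T x0 p)}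

variable (T : Submodule ℝ (Euc k)) (x0 : Euc k) (r s : ℝ) (u : T → Tᗮ) (g : T → T →L[ℝ] Tᗮ)

lemma cyl_diff_grf_isOpen (hu : ContinuousOn u (ball 0 r)) :
    IsOpen (cyl T x0 r s \ grf T x0 u r s) := by
  have h1 : cyl T x0 r s \ grf T x0 u r s =
      cyl T x0 r s ∩ (fun p => (py T x0 p) - u (px T x0 p)) ⁻¹' {0}ᶜ := by
    ext p
    simp only [grf, Set.mem_sdiff, Set.mem_ofPred_eq, not_and, mem_inter_iff, mem_preimage,
      mem_compl_iff, mem_singleton_iff, sub_eq_zero]
    constructor
    · rintro ⟨ha, hb⟩; exact ⟨ha, hb ha⟩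
    · rintro ⟨ha, hb⟩; exact ⟨ha, fun _ => hb⟩
  rw [h1]
  have h2 : ContinuousOn (fun p => (py T x0 p) - u (px T x0 p)) (cyl T x0 r s) := by
    refine (py_continuous T x0).continuousOn.sub ?_
    exact hu.comp (px_continuous T x0).continuousOn (fun p hp => hp.1)
  exact h2.isOpen_inter_preimage (cyl_isOpen T x0 r s) isOpen_compl_singleton

lemma gmap_continuousOn (hu : ContinuousOn u (ball 0 r)) :
    ContinuousOn (gmap T x0 u) (ball 0 r) := by
  unfold gmap
  refine continuousOn_const.add ?_
  exact continuous_subtype_val.continuousOn.add (continuous_subtype_val.comp_continuousOn hu)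

lemma gmap_aemeasurable (hu : ContinuousOn u (ball 0 r)) :
    AEMeasurable (gmap T x0 u) ((volume.restrict (ball (0 : T) r)).withDensity
      (fun x => ENNReal.ofReal (dns (g x)))) := by
  have h1 : AEMeasurable (gmap T x0 u) (volume.restrict (ball (0 : T) r)) :=
    (gmap_continuousOn T x0 r u hu).aemeasurable measurableSet_ball
  exact h1.mono_ac (withDensity_absolutelyContinuous _ _)

lemma gmeas_diff (hu : ContinuousOn u (ball 0 r)) :
    gmeas T x0 u g r (cyl T x0 r s \ grf T x0 u r s) = 0 := by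
  unfold gmeas
  rw [Measure.map_apply_of_aemeasurable (gmap_aemeasurable T x0 r u g hu)
    (cyl_diff_grf_isOpen T x0 r s u hu).measurableSet]
  have h1 : gmap T x0 u ⁻¹' (cyl T x0 r s \ grf T x0 u r s) = ∅ := by
    ext x
    simp only [mem_preimage, Set.mem_sdiff, grf, Set.mem_ofPred_eq, gmap, px_gmap, py_gmap, and_true,
      mem_empty_iff_false, iff_false]
    tauto
  rw [h1, measure_empty]

/-- the weight of a piece -/
def wi (D : VarifoldData m k) (i : ℕ) : Measure (Euc k) :=
  ((volume.restrict (D.dom i)).withDensity fun a =>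
        ENNReal.ofReal ((D.mult i a : ℝ) * jac (D.chart i) a)).map (D.chart i)

lemma weight_eq (D : VarifoldData m k) : weight D = Measure.sum (wi D) := rfl

lemma wi_le (D : VarifoldData m k) (i : ℕ) : wi D i ≤ weight D := Measure.le_sum _ i

lemma jac_continuous {f : Euc m → Euc k} (hf : ContDiff ℝ 1 f) : Continuous (jac f) := by
  unfold jac
  refine Real.continuous_sqrt.comp ?_
  refine Continuous.matrix_det ?_
  refine continuous_matrix fun i j => ?_
  simp only [metricMat, Matrix.of_apply, pd]
  have h := hf.continuous_fderiv (by norm_num)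
  exact ((h.clm_apply continuous_const).inner (h.clm_apply continuous_const))

lemma dens_measurable {U : Set (Euc k)} {D : VarifoldData m k} (hD : IsIntegralVarifoldIn U D)
    (i : ℕ) : Measurable (fun a => ENNReal.ofReal ((D.mult i a : ℝ) * jac (D.chart i) a)) := by
  have h1 : Measurable (fun a => (D.mult i a : ℝ)) :=
    measurable_from_nat.comp (hD.measurable_mult i)
  exact (h1.mul (jac_continuous (hD.contDiff i)).measurable).ennreal_ofReal

/-- a set null for the weight has null preimage in the parameter domains -/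
lemma preimage_null {U : Set (Euc k)} {D : VarifoldData m k} (hD : IsIntegralVarifoldIn U D)
    {S : Set (Euc k)} (hS : MeasurableSet S) (h0 : weight D S = 0) (i : ℕ) :
    ∀ᵐ a ∂(volume.restrict (D.dom i)), D.chart i a ∉ S := by
  have hc : Measurable (D.chart i) := (hD.contDiff i).continuous.measurable
  have h1 : wi D i S = 0 := le_antisymm ((wi_le D i S).trans h0.le) zero_le
  unfold wi at h1
  rw [Measure.map_apply hc hS, withDensity_apply _ (hc hS)] at h1
  rw [lintegral_eq_zero_iff (dens_measurable hD i)] at h1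
  rw [Filter.EventuallyEq, ae_restrict_iff' (hc hS), ae_restrict_iff' (hD.measurableSet i)] at h1
  rw [ae_restrict_iff' (hD.measurableSet i)]
  filter_upwards [h1] with a ha hda hS'
  have h2 := ha hda hS'
  simp only [Pi.zero_apply, ENNReal.ofReal_eq_zero] at h2
  have h3 : (1 : ℝ) ≤ D.mult i a := by exact_mod_cast hD.mult_pos i a hda
  have h4 := jac_pos (hD.injective_fderiv i a hda)
  nlinarith

/-- integrals against the weight of a piece -/
lemma wi_integral {U : Set (Euc k)} {D : VarifoldData m k} (hD : IsIntegralVarifoldIn U D)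
    {Ψ : Euc k → ℝ} (hm : Measurable Ψ) (i : ℕ) :
    ∫ p, Ψ p ∂(wi D i) =
      ∫ a in D.dom i, ((D.mult i a : ℝ) * jac (D.chart i) a) * Ψ (D.chart i a) := by
  unfold wi
  have hc : Measurable (D.chart i) := (hD.contDiff i).continuous.measurable
  rw [integral_map hc.aemeasurable hm.aestronglyMeasurable,
    integral_withDensity_eq_integral_toReal_smul (dens_measurable hD i)
      (Filter.Eventually.of_forall fun a => ENNReal.ofReal_lt_top)]
  refine setIntegral_congr_fun (hD.measurableSet i) fun a ha => ?_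
  have h4 := (jac_pos (hD.injective_fderiv i a ha)).le
  simp only [smul_eq_mul]
  rw [ENNReal.toReal_ofReal (by positivity)]

/-- integrals against the weight -/
lemma hasSum_weight {U : Set (Euc k)} {D : VarifoldData m k} (hD : IsIntegralVarifoldIn U D)
    {Ψ : Euc k → ℝ} (hm : Measurable Ψ) (hΨ : Integrable Ψ (weight D)) :
    HasSum (fun i => ∫ a in D.dom i, ((D.mult i a : ℝ) * jac (D.chart i) a) * Ψ (D.chart i a))
      (∫ p, Ψ p ∂(weight D)) := by
  rw [weight_eq] at hΨ ⊢
  have h := hasSum_integral_measure hΨ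
  have e : (fun i => ∫ a in D.dom i, ((D.mult i a : ℝ) * jac (D.chart i) a) * Ψ (D.chart i a)) =
      fun i => ∫ p, Ψ p ∂(wi D i) := by
    funext i
    exact (wi_integral hD hm i).symm
  rw [e]; exact h

/-- tangent planes of the pieces along the graph -/
lemma tangent_eq {U : Set (Euc k)} {D : VarifoldData m k} (hD : IsIntegralVarifoldIn U D)
    (hT : Module.finrank ℝ T = m)
    (hder : ∀ z ∈ ball (0 : T) r, HasFDerivAt u (g z) z) (i : ℕ) :
    ∀ᵐ a ∂(volume.restrict (D.dom i)), D.chart i a ∈ grf T x0 u r s →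
      tangentAt (D.chart i) a = gplane T (g (px T x0 (D.chart i a))) := by
  have hu : ContinuousOn u (ball 0 r) := fun z hz => (hder z hz).continuousAt.continuousWithinAt
  have hgm : MeasurableSet (grf T x0 u r s) := by
    have h1 : grf T x0 u r s = cyl T x0 r s \ (cyl T x0 r s \ grf T x0 u r s) := by
      ext p; simp only [Set.mem_sdiff, grf, Set.mem_ofPred_eq]; tauto
    rw [h1]
    exact (cyl_isOpen T x0 r s).measurableSet.diff (cyl_diff_grf_isOpen T x0 r s u hu).measurableSet
  have hc : Measurable (D.chart i) := (hD.contDiff i).continuous.measurable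
  set A : Set (Euc m) := D.dom i ∩ D.chart i ⁻¹' (grf T x0 u r s) with hA
  have hAm : MeasurableSet A := (hD.measurableSet i).inter (hc hgm)
  set f := D.chart i with hf
  have hfd : ∀ a, HasFDerivAt f (fderiv ℝ f a) a := fun a =>
    ((hD.contDiff i).differentiable (by norm_num) a).hasFDerivAt
  have hx : ∀ a, HasFDerivAt (fun a => px T x0 (f a)) (T.orthogonalProjectionOnto ∘L fderiv ℝ f a) a :=
    fun a => T.orthogonalProjectionOnto.hasFDerivAt.comp a ((hfd a).sub_const x0)
  have hy : ∀ a, HasFDerivAt (fun a => py T x0 (f a)) (Tᗮ.orthogonalProjectionOnto ∘L fderiv ℝ f a) a :=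
    fun a => Tᗮ.orthogonalProjectionOnto.hasFDerivAt.comp a ((hfd a).sub_const x0)
  have key := ae_fderiv_zero (volume : Measure (Euc m))
    (h := fun a => py T x0 (f a) - u (px T x0 (f a)))
    (h' := fun a => (Tᗮ.orthogonalProjectionOnto ∘L fderiv ℝ f a) -
      (g (px T x0 (f a))) ∘L (T.orthogonalProjectionOnto ∘L fderiv ℝ f a)) hAm
    (fun a ha => ((hy a).sub ((hder _ ha.2.1.1).comp a (hx a))).hasFDerivWithinAt)
    (fun a ha => sub_eq_zero.2 ha.2.2)
  rw [ae_restrict_iff' hAm] at key
  rw [ae_restrict_iff' (hD.measurableSet i)]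
  filter_upwards [key] with a ha hda hga
  have h1 := ha ⟨hda, hga⟩
  apply Submodule.eq_of_le_of_finrank_eq
  · rw [tangentAt_eq_range]
    rintro _ ⟨ξ, rfl⟩
    have h2 := congrArg (fun L : Euc m →L[ℝ] Tᗮ => L ξ) h1
    simp only [sub_apply, ContinuousLinearMap.comp_apply, zero_apply, sub_eq_zero] at h2
    have h3 := Submodule.starProjection_add_starProjection_orthogonal (K := T) (fderiv ℝ f a ξ)
    have h4 : (fderiv ℝ f a : Euc m →ₗ[ℝ] Euc k) ξ =
        ((T.orthogonalProjectionOnto (fderiv ℝ f a ξ) : T) : Euc k) +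
          ((Tᗮ.orthogonalProjectionOnto (fderiv ℝ f a ξ) : Tᗮ) : Euc k) := h3.symm
    rw [h4, h2]
    exact mem_gplane T _ _
  · rw [finrank_tangentAt (hD.injective_fderiv i a hda), finrank_gplane, hT]

end

end Crest.Agent.R234.Ell3_3
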