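import Crest.Agent.R234.Nb1_290

-- ▼ part R234/Nb2_290
section

/-!
# R234: the chain of steps for the frequency bound (F-c)

`Inv` is the invariant carried along the steps: `N` frequency, `K ≥ 8 N` inverse step size,
`L = log 1/J` (`J` scale invariant separation), `S` the accumulated metric errors.
-/

set_option linter.unusedVariables false

open Set Filter
open scoped Topology

namespace Crest.Agent.R234.Nb_290

/-- the invariant -/
structure Inv (A Ls C₀ S N K L : ℝ) : Prop where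
  hL : Ls ≤ L
  hK : 32 ≤ K
  hNK : 8 * N ≤ K
  hKL : K ≤ 2 * L ^ 2
  hb : Real.log (8 * max N 4) + 4 * A / L ≤ 2 * Real.log L + S
  hc : Real.log (max N 4) + 4 * A / L ≤ Real.log C₀ + 4 * A / Ls + S

/-- the top state -/
theorem Inv.start {A Ls C₀ N L : ℝ} (hA : 0 ≤ A) (hLs : 4 ≤ Ls) (hL : Ls ≤ L) (hN : N ≤ C₀)
    (hC : 4 ≤ C₀) (hb : Real.log (8 * max N 4) + 4 * A / L ≤ 2 * Real.log L) :
    Inv A Ls C₀ 0 N (max 32 (8 * N)) L where
  hL := hL
  hK := le_max_left _ _
  hNK := le_max_right _ _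
  hKL := by
    have hL0 : 0 < L := by linarith
    have h1 : Real.log (8 * max N 4) ≤ Real.log (L ^ 2) := by
      rw [Real.log_pow]
      have : 0 ≤ 4 * A / L := by positivity
      push_cast
      linarith
    have h2 : 8 * max N 4 ≤ L ^ 2 := by
      rwa [Real.log_le_log_iff (by positivity) (by positivity)] at h1
    refine max_le ?_ ?_
    · have := le_max_right N 4
      nlinarith
    · have := le_max_left N 4
      nlinarith
  hb := by rw [add_zero]; exact hb
  hc := by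
    have h1 : Real.log (max N 4) ≤ Real.log C₀ :=
      Real.log_le_log (by positivity) (max_le hN hC)
    have h2 : 4 * A / L ≤ 4 * A / Ls :=
      div_le_div_of_nonneg_left (by positivity) (by linarith) hL
    linarith

/-- one transition; `S' - S` is what the metric errors cost (`S'` is reset by the user to anything
nonnegative whenever the inequality allows it; usually `S = β₀ - B` with a budget `B ∈ [0, β₀]`). -/
theorem Inv.next {A Ls C₀ S S' N K L N' L' : ℝ} (h : Inv A Ls C₀ S N K L) (hA : 0 ≤ A)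
    (hLs : 4 ≤ Ls) (hA2 : Real.log 32 + 4 * A / Ls ≤ 2 * Real.log Ls) (hC : 4 ≤ C₀)
    (hS' : 0 ≤ S') (hS'2 : S' ≤ Real.log 2)
    (hN : max N' 1 ≤ max N 1 * Real.exp (A / (K * L ^ 2) + (S' - S)))
    (hup : 2 ≤ N' → L + 1 / K ≤ L') (hdn : L - 6 / K - 1 / 16 ≤ L') (hL' : Ls ≤ L') :
    Inv A Ls C₀ S' N' (max (K / 2) (max 32 (8 * N'))) L' := by
  obtain ⟨d, hd⟩ : ∃ d, d = S' - S := ⟨_, rfl⟩
  rw [← hd] at hN
  obtain rfl : S' = S + d := by linarith
  have hK := h.hK
  have hK0 : 0 < K := by linarith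
  have hL0 : 0 < L := by linarith [h.hL]
  have hL0' : 0 < L' := by linarith
  have hL1 : 4 ≤ L := by linarith [h.hL]
  have hmono : 4 * A / L' ≤ 4 * A / Ls :=
    div_le_div_of_nonneg_left (by positivity) (by linarith) hL'
  have hlogmono : Real.log Ls ≤ Real.log L' := Real.log_le_log (by linarith) hL'
  -- the growth estimate when `N' ≥ 4`
  have hbig : 4 ≤ N' → Real.log (max N' 4) + 4 * A / L' ≤ Real.log (max N 4) + 4 * A / L + d ∧
      L ≤ L' := by
    intro h4
    have h1 := hup (by linarith)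
    have h1K : 0 < 1 / K := by positivity
    have hLL : L ≤ L' := by linarith
    refine ⟨?_, hLL⟩
    have h2 : max N' 4 ≤ max N 4 * Real.exp (A / (K * L ^ 2) + d) := by
      rw [max_eq_left h4]
      have h3 : N' ≤ max N' 1 := le_max_left _ _
      refine h3.trans (hN.trans ?_)
      refine mul_le_mul_of_nonneg_right ?_ (Real.exp_pos _).le
      exact max_le_max le_rfl (by norm_num)
    have h3 : Real.log (max N' 4) ≤ Real.log (max N 4) + (A / (K * L ^ 2) + d) := by
      have h4' : Real.log (max N' 4) ≤ Real.log (max N 4 * Real.exp (A / (K * L ^ 2) + d)) :=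
        Real.log_le_log (by positivity) h2
      rwa [Real.log_mul (by positivity) (Real.exp_pos _).ne', Real.log_exp] at h4'
    -- `4A/L - 4A/L' ≥ A/(K L²)`
    have h5 : A / (K * L ^ 2) ≤ 4 * A / L - 4 * A / L' := by
      have h6 : 4 * A / L - 4 * A / L' = 4 * A * (L' - L) / (L * L') := by
        field_simp
      have h7 : 4 * A / L' ≤ 4 * A / (L + 1 / K) :=
        div_le_div_of_nonneg_left (by positivity) (by positivity) h1
      have h8 : 4 * A / L - 4 * A / (L + 1 / K) = 4 * A * (1 / K) / (L * (L + 1 / K)) := by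
        field_simp
        ring
      have h9 : A / (K * L ^ 2) ≤ 4 * A * (1 / K) / (L * (L + 1 / K)) := by
        rw [div_le_div_iff₀ (by positivity) (by positivity)]
        have h10 : L + 1 / K ≤ 4 * L := by
          have : 1 / K ≤ 1 := by rw [div_le_one hK0]; linarith
          linarith
        have h11 : A * (L * (L + 1 / K)) ≤ A * (L * (4 * L)) := by gcongr
        have h12 : 4 * A * (1 / K) * (K * L ^ 2) = A * (L * (4 * L)) := by
          field_simp
        linarith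
      linarith
    linarith
  have hb' : Real.log (8 * max N' 4) + 4 * A / L' ≤ 2 * Real.log L' + (S + d) := by
    rcases lt_or_ge N' 4 with h4 | h4
    · rw [max_eq_right h4.le]
      norm_num
      linarith
    · obtain ⟨h1, h2⟩ := hbig h4
      have h3 := h.hb
      have h5 : Real.log L ≤ Real.log L' := Real.log_le_log hL0 h2
      have h6 : Real.log (8 * max N' 4) = Real.log 8 + Real.log (max N' 4) :=
        Real.log_mul (by norm_num) (by positivity)
      have h7 : Real.log (8 * max N 4) = Real.log 8 + Real.log (max N 4) :=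
        Real.log_mul (by norm_num) (by positivity)
      rw [h6]
      rw [h7] at h3
      linarith
  refine ⟨hL', ?_, ?_, ?_, hb', ?_⟩
  · exact le_max_of_le_right (le_max_left _ _)
  · exact le_max_of_le_right (le_max_right _ _)
  · refine max_le ?_ (max_le ?_ ?_)
    · have h1 := h.hKL
      have h2 : L ≤ L' + 1 / 4 := by
        have h3 : 6 / K ≤ 6 / 32 := by
          rw [div_le_div_iff₀ hK0 (by norm_num)]; linarith
        linarith
      nlinarith
    · nlinarith
    · rcases lt_or_ge N' 4 with h4 | h4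
      · nlinarith
      · have h5 : 0 ≤ 4 * A / L' := by positivity
        rw [max_eq_left h4] at hb'
        have h6 : Real.log (8 * N') ≤ Real.log (2 * L' ^ 2) := by
          have h7 : Real.log (2 * L' ^ 2) = Real.log 2 + 2 * Real.log L' := by
            rw [Real.log_mul (by norm_num) (by positivity), Real.log_pow]
            push_cast
            ring
          rw [h7]
          linarith
        rwa [Real.log_le_log_iff (by positivity) (by positivity)] at h6
  · rcases lt_or_ge N' 4 with h4 | h4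
    · rw [max_eq_right h4.le]
      have : Real.log 4 ≤ Real.log C₀ := Real.log_le_log (by norm_num) hC
      linarith
    · have h1 := (hbig h4).1
      have h3 := h.hc
      linarith

/-- the bound -/
theorem Inv.bound {A Ls C₀ S N K L : ℝ} (h : Inv A Ls C₀ S N K L) (hA : 0 ≤ A)
    (hLs : 4 ≤ Ls) (hC : 4 ≤ C₀) (hsm : 4 * A / Ls + S ≤ Real.log 2) : N ≤ 2 * C₀ := by
  have h1 := h.hc
  have hL0 : 0 < L := by linarith [h.hL]
  have h2 : 0 ≤ 4 * A / L := by positivity
  have h3 : Real.log (max N 4) ≤ Real.log (2 * C₀) := by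
    rw [Real.log_mul (by norm_num) (by positivity)]
    linarith
  rw [Real.log_le_log_iff (by positivity) (by positivity)] at h3
  exact (le_max_left _ _).trans h3

variable {a b₀ δ w : ℝ} {I E e b R : ℝ → ℝ}

/-- **the transition of states**: one step with the old reference surface followed by the change of
the reference surface (`I'`, `E'`). -/
theorem StepData.transition (h : StepData a b₀ δ w I E e b R) (hδ : 0 ≤ δ) (hw : 0 ≤ w)
    {y K K' ρ : ℝ} (hK : 32 ≤ K) (hy1 : y ≤ 1 / 100) (hab : b₀ - a = 2 / K)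
    (hy : δ + w * Real.exp 10 / I b₀ ≤ y) (hN0 : 8 * Fr E I b₀ ≤ K)
    {I' E' : ℝ → ℝ} (hρ : 0 ≤ ρ) (hρK : ρ ≤ 1 / K) (hI'a : 0 < I' a)
    (hjN : max (Fr E' I' a) 1 ≤ max (Fr E I a) 1 * Real.exp ρ)
    (hjI : |Real.log (I' a) - Real.log (I a)| ≤ ρ) (hK' : K / 2 ≤ K')
    (hI'c : 0 < I' (a + 1 / K'))
    (hjG : Real.log (I' (a + 1 / K')) ≤ Real.log (I (a + 1 / K')) + ρ) :
    max (Fr E' I' a) 1 ≤ max (Fr E I b₀) 1 * Real.exp (44 * y / K + ρ) ∧
      (2 ≤ Fr E' I' a →
        (2 * b₀ - Real.log (I b₀)) + 1 / K ≤ 2 * a - Real.log (I' a)) ∧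
      ((2 * b₀ - Real.log (I b₀)) - 6 / K - 1 / 16 ≤ 2 * a - Real.log (I' a)) ∧
      Real.log (I' (a + 1 / K')) ≤ Real.log (I' a) + 10 := by
  have hK0 : 0 < K := by linarith
  have hab0 : a ≤ b₀ := by
    have : 0 < 2 / K := by positivity
    linarith
  obtain ⟨s1, s2, s3, s4⟩ := h.step hδ hw hK hy1 hab0 hab.le hy hN0
  have hy0 : 0 ≤ y := by
    have hIb := h.hI b₀ (right_mem_Icc.mpr hab0)
    have : 0 ≤ w * Real.exp 10 / I b₀ := by positivity
    linarith
  have hjI' := abs_le.mp hjI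
  have hρ1 : ρ ≤ 1 / 32 := hρK.trans (by rw [div_le_div_iff₀ hK0 (by norm_num)]; linarith)
  refine ⟨?_, ?_, ?_, ?_⟩
  · refine hjN.trans ?_
    have h1 := s1 a b₀ le_rfl hab0 le_rfl
    calc max (Fr E I a) 1 * Real.exp ρ
        ≤ max (Fr E I b₀) 1 * Real.exp (22 * y * (b₀ - a)) * Real.exp ρ :=
          mul_le_mul_of_nonneg_right h1 (Real.exp_pos _).le
      _ = max (Fr E I b₀) 1 * Real.exp (44 * y / K + ρ) := by
          rw [mul_assoc, ← Real.exp_add, hab]
          congr 2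
          ring
  · intro h2
    have h3 : 19 / 10 ≤ Fr E I a := by
      have h4 : (2 : ℝ) ≤ max (Fr E I a) 1 * Real.exp ρ :=
        (h2.trans (le_max_left _ _)).trans hjN
      have h5 : Real.exp ρ ≤ 104 / 100 := by
        have h6 : (1 : ℝ) - 1 / 32 ≤ Real.exp (-(1 / 32)) := by
          have := Real.add_one_le_exp (-(1 / 32 : ℝ))
          linarith
        have h7 : Real.exp ρ ≤ Real.exp (1 / 32) := Real.exp_le_exp.mpr hρ1
        rw [Real.exp_neg] at h6
        rw [le_inv_comm₀ (by norm_num) (Real.exp_pos _)] at h6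
        refine h7.trans (h6.trans (by norm_num))
      have h8 : (2 : ℝ) ≤ max (Fr E I a) 1 * (104 / 100) :=
        h4.trans (mul_le_mul_of_nonneg_left h5 (le_trans zero_le_one (le_max_right _ _)))
      rcases le_total (Fr E I a) 1 with h9 | h9
      · rw [max_eq_right h9] at h8
        norm_num at h8
      · rw [max_eq_left h9] at h8
        linarith
    have h4 := s3 h3
    have h5 : 2 / K = 1 / K + 1 / K := by ring
    linarith
  · have h5 : 6 / K = 3 * (2 / K) := by ring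
    rw [h5, ← hab]
    linarith
  · have hK'0 : 0 < K' := by linarith
    have h1 : a + 1 / K' ≤ b₀ := by
      have : 1 / K' ≤ 2 / K := by
        rw [div_le_div_iff₀ hK'0 hK0]; linarith
      linarith
    have h1' : a ≤ a + 1 / K' := by
      have : 0 < 1 / K' := by positivity
      linarith
    -- `I (a + 1/K') ≤ e^{small} I b₀`
    have hall : ∀ t ∈ Icc a b₀, I b₀ ≤ Real.exp 10 * I t ∧ Fr E I t ≤ K / 4 := by
      intro t ht
      have h9 := s2 t ht
      have hIt := h.hI t ht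
      have hexp : Real.exp 9 ≤ Real.exp 10 := Real.exp_le_exp.mpr (by norm_num)
      refine ⟨h9.trans (mul_le_mul_of_nonneg_right hexp hIt.le), ?_⟩
      have h10 := s1 t b₀ ht.1 ht.2 le_rfl
      have h11 : Real.exp (22 * y * (b₀ - t)) ≤ 103 / 100 := by
        refine exp_small ?_
        have h12 : b₀ - t ≤ 2 / 32 := by
          have : 2 / K ≤ 2 / 32 := by rw [div_le_div_iff₀ hK0 (by norm_num)]; linarith
          linarith [ht.1]
        have h13 : 22 * y * (b₀ - t) ≤ 22 * y * (2 / 32) :=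
          mul_le_mul_of_nonneg_left h12 (by positivity)
        nlinarith
      have h14 : max (Fr E I b₀) 1 ≤ K / 8 := max_le (by linarith) (by linarith)
      have h15 : max (Fr E I t) 1 ≤ K / 8 * (103 / 100) :=
        h10.trans (mul_le_mul h14 h11 (Real.exp_pos _).le (by positivity))
      have h16 := le_max_left (Fr E I t) 1
      linarith
    obtain ⟨-, -, -, q4⟩ := h.est hδ hw hK (by linarith) hab.le hy hN0
      (left_mem_Icc.mpr hab0) hall
    have h2 := q4 (a + 1 / K') b₀ h1' h1 le_rfl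
    have h3 := s2 a (left_mem_Icc.mpr hab0)
    have hIa := h.hI a (left_mem_Icc.mpr hab0)
    have hIb := h.hI b₀ (right_mem_Icc.mpr hab0)
    have h4 : Real.log (I b₀) ≤ 9 + Real.log (I a) := by
      have h5 : Real.log (I b₀) ≤ Real.log (Real.exp 9 * I a) := Real.log_le_log hIb h3
      rwa [Real.log_mul (Real.exp_pos _).ne' hIa.ne', Real.log_exp] at h5
    have h6 : y * (b₀ - (a + 1 / K')) ≤ 1 / 100 * 1 := by
      refine mul_le_mul hy1 ?_ (by linarith) (by norm_num)
      have : 2 / K ≤ 1 := by rw [div_le_one hK0]; linarith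
      linarith
    linarith

end Crest.Agent.R234.Nb_290
end

-- ▼ part R234/Nb3_290
section

/-!
# R234: abstract chain of reference surfaces (F7 of the F-list)

`𝓜` = type of reference data (frame + minimal graph); `I M`, `E M`, .. quantities relative to `M` as
functions of `l = log s`.
-/

set_option linter.unusedVariables false

open Set Filter
open scoped Topology

namespace Crest.Agent.R234.Nb_290

/-- quantities relative to reference data -/
structure Fam (𝓜 : Type*) where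
  I : 𝓜 → ℝ → ℝ
  E : 𝓜 → ℝ → ℝ
  e : 𝓜 → ℝ → ℝ
  b : 𝓜 → ℝ → ℝ
  R : 𝓜 → ℝ → ℝ
  /-- budget for the metric errors -/
  B : 𝓜 → ℝ → ℝ
  /-- admissible reference at scale `l` -/
  Good : 𝓜 → ℝ → Prop

/-- frequency relative to `M` -/
noncomputable def Fam.N {𝓜 : Type*} (F : Fam 𝓜) (M : 𝓜) (l : ℝ) : ℝ := Fr (F.E M) (F.I M) l

/-- `L = log 1/J`, `J = e^{-2l} I` -/
noncomputable def Fam.L {𝓜 : Type*} (F : Fam 𝓜) (M : 𝓜) (l : ℝ) : ℝ := 2 * l - Real.log (F.I M l)

/-- a state of the chain: reference `M`, scale `l`, inverse step size `K` -/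
structure Fam.State {𝓜 : Type*} (F : Fam 𝓜) (A Ls C₀ β₀ : ℝ) (M : 𝓜) (l K : ℝ) : Prop where
  good : F.Good M l
  Ipos : 0 < F.I M l
  B0 : 0 ≤ F.B M l
  Bβ : F.B M l ≤ β₀
  inv : Inv A Ls C₀ (β₀ - F.B M l) (F.N M l) K (F.L M l)
  growth : Real.log (F.I M (l + 1 / K)) ≤ Real.log (F.I M l) + 10

/-- the step hypothesis at a state: ODE data on `[l - 2/K, l]` and a new reference at `l - 2/K` -/
def Fam.StepHyp {𝓜 : Type*} (F : Fam 𝓜) (A Ls β₀ : ℝ) (M : 𝓜) (l K : ℝ) : Prop :=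
  ∃ δ w y ρ : ℝ, 0 ≤ δ ∧ 0 ≤ w ∧ 0 ≤ ρ ∧ ρ ≤ 1 / K ∧ y ≤ 1 / 100 ∧
    StepData (l - 2 / K) l δ w (F.I M) (F.E M) (F.e M) (F.b M) (F.R M) ∧
    δ + w * Real.exp 10 / F.I M l ≤ y ∧
    ∃ M' : 𝓜, F.Good M' (l - 2 / K) ∧ 0 ≤ F.B M' (l - 2 / K) ∧ F.B M' (l - 2 / K) ≤ β₀ ∧
      Ls ≤ F.L M' (l - 2 / K) ∧
      (∀ t ∈ Icc (l - 2 / K) l, 0 < F.I M' t ∧
        |Real.log (F.I M' t) - Real.log (F.I M t)| ≤ ρ) ∧
      max (F.N M' (l - 2 / K)) 1 ≤ max (F.N M (l - 2 / K)) 1 * Real.exp ρ ∧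
      44 * y / K + ρ ≤ A / (K * (F.L M l) ^ 2) + (F.B M l - F.B M' (l - 2 / K))

/-- one step of the chain -/
theorem Fam.State.next {𝓜 : Type*} {F : Fam 𝓜} {A Ls C₀ β₀ : ℝ} {M : 𝓜} {l K : ℝ}
    (h : F.State A Ls C₀ β₀ M l K) (hA : 0 ≤ A) (hLs : 4 ≤ Ls)
    (hA2 : Real.log 32 + 4 * A / Ls ≤ 2 * Real.log Ls) (hC : 4 ≤ C₀) (hβ : β₀ ≤ Real.log 2)
    (hs : F.StepHyp A Ls β₀ M l K) :
    ∃ M' K', F.State A Ls C₀ β₀ M' (l - 2 / K) K' ∧ K / 2 ≤ K' ∧
      K' ≤ max K (max 32 (8 * F.N M' (l - 2 / K))) ∧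
      Real.log (F.I M l) ≤ Real.log (F.I M' (l - 2 / K)) + 10 := by
  obtain ⟨δ, w, y, ρ, hδ, hw, hρ, hρK, hy1, hSD, hy, M', hG', hB', hBβ', hLs', hj, hjN, herr⟩ := hs
  have hK := h.inv.hK
  have hK0 : 0 < K := by linarith
  have h2K : 0 < 2 / K := by positivity
  set a := l - 2 / K with ha
  set K' := max (K / 2) (max 32 (8 * F.N M' a)) with hK'
  have hKK' : K / 2 ≤ K' := le_max_left _ _
  have hK'0 : 0 < K' := by linarith
  have haI : a ∈ Icc a l := left_mem_Icc.mpr (by linarith)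
  have hcI : a + 1 / K' ∈ Icc a l := by
    refine ⟨?_, ?_⟩
    · have : 0 < 1 / K' := by positivity
      linarith
    · have : 1 / K' ≤ 2 / K := by
        rw [div_le_div_iff₀ hK'0 hK0]; linarith
      linarith
  have hjc := hj _ hcI
  have hja := hj _ haI
  have hjc' := (abs_le.mp hjc.2).2
  obtain ⟨t1, t2, t3, t4⟩ := hSD.transition (K' := K') (I' := F.I M') (E' := F.E M') hδ hw hK hy1
    (by rw [ha]; ring) hy h.inv.hNK hρ hρK hja.1 hjN hja.2 hKK' hjc.1 (by linarith)
  have hlogI : Real.log (F.I M l) ≤ Real.log (F.I M' a) + 10 := by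
    obtain ⟨-, s2, -, -⟩ := hSD.step hδ hw hK hy1 (by linarith) (by rw [ha]; linarith) hy h.inv.hNK
    have h3 := s2 a haI
    have hIa := hSD.hI a haI
    have h5 : Real.log (F.I M l) ≤ Real.log (Real.exp 9 * F.I M a) := Real.log_le_log h.Ipos h3
    rw [Real.log_mul (Real.exp_pos _).ne' hIa.ne', Real.log_exp] at h5
    have h6 := (abs_le.mp hja.2).1
    have h7 : ρ ≤ 1 := hρK.trans (by rw [div_le_one hK0]; linarith)
    linarith
  refine ⟨M', K', ⟨hG', hja.1, hB', hBβ', ?_, t4⟩, hKK', ?_, hlogI⟩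
  · refine h.inv.next hA hLs hA2 hC (by linarith) (by linarith) ?_ t2 ?_ hLs'
    · refine t1.trans ?_
      refine mul_le_mul_of_nonneg_left (Real.exp_le_exp.mpr ?_)
        (le_trans zero_le_one (le_max_right _ _))
      unfold Fam.L at herr ⊢
      linarith
    · exact t3
  · refine max_le ?_ (le_max_right _ _)
    exact le_max_of_le_left (by linarith)


/-- the top state of the chain -/
theorem Fam.State.start {𝓜 : Type*} (F : Fam 𝓜) {A Ls C₀ β₀ : ℝ} {M : 𝓜} {l : ℝ} (hA : 0 ≤ A)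
    (hLs : 4 ≤ Ls) (hC : 4 ≤ C₀) (hG : F.Good M l) (hI : 0 < F.I M l) (hB0 : 0 ≤ F.B M l)
    (hBβ : F.B M l ≤ β₀) (hL : Ls ≤ F.L M l) (hN : F.N M l ≤ C₀)
    (hb : Real.log (8 * max (F.N M l) 4) + 4 * A / F.L M l ≤ 2 * Real.log (F.L M l))
    (hgr : Real.log (F.I M (l + 1 / max 32 (8 * F.N M l))) ≤ Real.log (F.I M l) + 10) :
    F.State A Ls C₀ β₀ M l (max 32 (8 * F.N M l)) := by
  have h0 := Inv.start hA hLs hL hN hC hb
  refine ⟨hG, hI, hB0, hBβ, ⟨h0.hL, h0.hK, h0.hNK, h0.hKL, ?_, ?_⟩, hgr⟩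
  · have := h0.hb
    linarith
  · have := h0.hc
    linarith

end Crest.Agent.R234.Nb_290
end

-- ▼ part R234/Nb4_290
section

/-!
# R234: frequency bound on a window of fixed length (one reference surface)
-/

set_option linter.unusedVariables false

open Set Filter
open scoped Topology

namespace Crest.Agent.R234.Nb_290

variable {a b₀ δ w : ℝ} {I E e b R : ℝ → ℝ}

theorem StepData.mono (h : StepData a b₀ δ w I E e b R) {a' b' : ℝ} (ha : a ≤ a') (hb : b' ≤ b₀) :
    StepData a' b' δ w I E e b R where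
  hI := fun l hl => h.hI l ⟨ha.trans hl.1, hl.2.trans hb⟩
  he := fun l hl => h.he l ⟨ha.trans hl.1, hl.2.trans hb⟩
  hR := fun l hl => h.hR l ⟨ha.trans hl.1, hl.2.trans hb⟩
  hE := fun l hl => h.hE l ⟨ha.trans hl.1, hl.2.trans hb⟩
  dI := fun l hl => h.dI l ⟨ha.trans hl.1, hl.2.trans hb⟩
  dE := fun l hl => h.dE l ⟨ha.trans hl.1, hl.2.trans hb⟩
  hCS := fun l hl => h.hCS l ⟨ha.trans hl.1, hl.2.trans hb⟩
  hb := fun l hl => h.hb l ⟨ha.trans hl.1, hl.2.trans hb⟩
  hlow := fun l hl => h.hlow l ⟨ha.trans hl.1, hl.2.trans hb⟩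

/-- weaker errors -/
theorem StepData.weaken (h : StepData a b₀ δ w I E e b R) {δ' w' : ℝ} (hδ : δ ≤ δ') (hw : w ≤ w') :
    StepData a b₀ δ' w' I E e b R where
  hI := h.hI
  he := h.he
  hR := h.hR
  hE := h.hE
  dI := fun l hl => by
    obtain ⟨I', h1, h2⟩ := h.dI l hl
    refine ⟨I', h1, h2.trans ?_⟩
    have := mul_le_mul_of_nonneg_right hδ (h.hI l hl).le
    linarith
  dE := fun l hl => by
    obtain ⟨E', h1, h2⟩ := h.dE l hl
    refine ⟨E', h1, le_trans ?_ h2⟩
    have h3 := h.hI l hl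
    have h4 := h.he l hl
    have := mul_le_mul_of_nonneg_right hδ (by linarith : 0 ≤ e l + I l)
    linarith
  hCS := fun l hl => by
    have := mul_le_mul_of_nonneg_right hδ (h.hI l hl).le
    have h2 := h.hCS l hl
    linarith
  hb := fun l hl => by
    have := mul_le_mul_of_nonneg_right hδ (h.hI l hl).le
    have h2 := h.hb l hl
    linarith
  hlow := h.hlow

/-- **window of arbitrary length**, one reference surface -/
theorem StepData.window (h : StepData a b₀ δ w I E e b R) (hδ : 0 ≤ δ) (hw : 0 ≤ w) {y K : ℝ}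
    (hK : 32 ≤ K) (hy1 : y ≤ 1 / 100) (hab : a ≤ b₀)
    (hy : δ + w * Real.exp (19 + 5 * K * (b₀ - a)) / I b₀ ≤ y)
    (hN0 : 16 * Fr E I b₀ ≤ K) (hyA : y * (b₀ - a) ≤ 1 / 100) {l : ℝ} (hl : l ∈ Icc a b₀) :
    max (Fr E I l) 1 ≤ max (Fr E I b₀) 1 * Real.exp (22 * y * (b₀ - l)) ∧
      I b₀ ≤ Real.exp (10 + 5 * K * (b₀ - l)) * I l ∧
      Real.log (I l) ≤ Real.log (I b₀) + y * (b₀ - l) := by
  have hK0 : 0 < K := by linarith
  have hIb := h.hI b₀ (right_mem_Icc.mpr hab)
  have hy0 : 0 ≤ y := by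
    have : 0 ≤ w * Real.exp (19 + 5 * K * (b₀ - a)) / I b₀ := by positivity
    linarith
  -- induction on the number of steps of length `2/K`
  have key : ∀ n : ℕ, ∀ t ∈ Icc a b₀, b₀ - t ≤ n * (2 / K) →
      max (Fr E I t) 1 ≤ max (Fr E I b₀) 1 * Real.exp (22 * y * (b₀ - t)) ∧
        Real.log (I b₀) ≤ Real.log (I t) + 9 + 9 / 2 * K * (b₀ - t) ∧
        Real.log (I t) ≤ Real.log (I b₀) + y * (b₀ - t) ∧
        (b₀ - t = n * (2 / K) → Real.log (I b₀) ≤ Real.log (I t) + 9 / 2 * K * (b₀ - t)) := by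
    intro n
    induction n with
    | zero =>
      intro t ht hn
      have h1 : t = b₀ := by
        simp only [Nat.cast_zero, zero_mul] at hn
        linarith [ht.2]
      subst h1
      simp
    | succ n ih =>
      intro t ht hn
      by_cases hcase : b₀ - t ≤ n * (2 / K)
      · obtain ⟨q1, q2, q3, q4⟩ := ih t ht hcase
        refine ⟨q1, q2, q3, fun heq => ?_⟩
        exfalso
        rw [heq] at hcase
        push_cast at hcase
        have : 0 < 2 / K := by positivity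
        nlinarith
      · push Not at hcase
        -- top point of the last step
        set s := b₀ - n * (2 / K) with hs
        have hts : t ≤ s := by rw [hs]; linarith
        have hsb : s ≤ b₀ := by
          have : 0 ≤ (n : ℝ) * (2 / K) := by positivity
          rw [hs]; linarith
        have hsI : s ∈ Icc a b₀ := ⟨ht.1.trans hts, hsb⟩
        have hbs : b₀ - s = n * (2 / K) := by rw [hs]; ring
        obtain ⟨q1, q2, q3, q4⟩ := ih s hsI hbs.le
        have q4' := q4 hbs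
        have hst : s - t ≤ 2 / K := by
          push_cast at hn
          rw [hs]
          linarith
        have hIs := h.hI s hsI
        have hIt := h.hI t ht
        -- step on `[t, s]`
        have hSD : StepData t s δ w I E e b R := h.mono ht.1 hsb
        have hys : δ + w * Real.exp 10 / I s ≤ y := by
          have h1 : w * Real.exp 10 / I s ≤ w * Real.exp (19 + 5 * K * (b₀ - a)) / I b₀ := by
            rw [div_le_div_iff₀ hIs hIb]
            have h2 : I b₀ ≤ Real.exp (9 + 5 * K * (b₀ - a)) * I s := by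
              calc I b₀ = Real.exp (Real.log (I b₀)) := (Real.exp_log hIb).symm
                _ ≤ Real.exp (9 + 5 * K * (b₀ - a) + Real.log (I s)) := by
                  refine Real.exp_le_exp.mpr ?_
                  have h3 : 9 / 2 * K * (b₀ - s) ≤ 5 * K * (b₀ - a) := by
                    have h4 : b₀ - s ≤ b₀ - a := by linarith [hsI.1]
                    have h5 : 0 ≤ b₀ - s := by linarith
                    nlinarith
                  linarith
                _ = Real.exp (9 + 5 * K * (b₀ - a)) * I s := by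
                  rw [Real.exp_add, Real.exp_log hIs]
            calc w * Real.exp 10 * I b₀
                ≤ w * Real.exp 10 * (Real.exp (9 + 5 * K * (b₀ - a)) * I s) :=
                  mul_le_mul_of_nonneg_left h2 (by positivity)
              _ = w * (Real.exp 10 * Real.exp (9 + 5 * K * (b₀ - a))) * I s := by ring
              _ = w * Real.exp (19 + 5 * K * (b₀ - a)) * I s := by
                  rw [← Real.exp_add]; ring_nf
          linarith
        have hexps : Real.exp (22 * y * (b₀ - s)) ≤ 5 / 4 := by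
          have h1 : 22 * y * (b₀ - s) ≤ 22 / 100 := by
            have h4 : y * (b₀ - s) ≤ y * (b₀ - a) :=
              mul_le_mul_of_nonneg_left (by linarith [hsI.1]) hy0
            nlinarith
          have h3 : (1 : ℝ) - 22 / 100 ≤ Real.exp (-(22 / 100)) := by
            have := Real.add_one_le_exp (-(22 / 100 : ℝ))
            linarith
          have h5 : Real.exp (22 * y * (b₀ - s)) ≤ Real.exp (22 / 100) := Real.exp_le_exp.mpr h1
          rw [Real.exp_neg, le_inv_comm₀ (by norm_num) (Real.exp_pos _)] at h3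
          -- 1/0.78 = 1.282 > 1.25, use the square root trick
          have h6 : Real.exp (11 / 100) ≤ 100 / 89 := by
            have h7 : (1 : ℝ) - 11 / 100 ≤ Real.exp (-(11 / 100)) := by
              have := Real.add_one_le_exp (-(11 / 100 : ℝ))
              linarith
            rw [Real.exp_neg, le_inv_comm₀ (by norm_num) (Real.exp_pos _)] at h7
            refine h7.trans (by norm_num)
          have h8 : Real.exp (22 / 100) = Real.exp (11 / 100) * Real.exp (11 / 100) := by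
            rw [← Real.exp_add]; norm_num
          rw [h8] at h5
          have h12 : Real.exp (22 / 100) ≤ 5 / 4 := by
            have h13 : Real.exp (1 / 50) ≤ 103 / 100 := exp_small le_rfl
            have h14 : Real.exp (22 / 100) = Real.exp (1 / 50) ^ 11 := by
              rw [← Real.exp_nat_mul]; norm_num
            have h15 : Real.exp (1 / 50) ≤ 50 / 49 := by
              have h16 : (1 : ℝ) - 1 / 50 ≤ Real.exp (-(1 / 50)) := by
                have := Real.add_one_le_exp (-(1 / 50 : ℝ))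
                linarith
              rw [Real.exp_neg, le_inv_comm₀ (by norm_num) (Real.exp_pos _)] at h16
              refine h16.trans (by norm_num)
            rw [h14]
            calc Real.exp (1 / 50) ^ 11 ≤ (50 / 49) ^ 11 :=
                  pow_le_pow_left₀ (Real.exp_pos _).le h15 11
              _ ≤ 5 / 4 := by norm_num
          rw [h8] at h12
          exact h5.trans h12
        have hNs : 8 * Fr E I s ≤ K := by
          have h1 : max (Fr E I b₀) 1 ≤ K / 16 := by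
            refine max_le (by linarith) ?_
            linarith
          have h2 : max (Fr E I s) 1 ≤ K / 16 * (5 / 4) :=
            q1.trans (mul_le_mul h1 hexps (Real.exp_pos _).le (by positivity))
          have h3 := le_max_left (Fr E I s) 1
          linarith
        obtain ⟨s1, s2, s3, s4⟩ := hSD.step hδ hw hK hy1 hts hst hys hNs
        have p1 := s1 t s le_rfl hts le_rfl
        have p2 := s2 t (left_mem_Icc.mpr hts)
        have p2' : Real.log (I s) ≤ 9 + Real.log (I t) := by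
          have h5 : Real.log (I s) ≤ Real.log (Real.exp 9 * I t) := Real.log_le_log hIs p2
          rwa [Real.log_mul (Real.exp_pos _).ne' hIt.ne', Real.log_exp] at h5
        -- lower bound for the growth of `I`
        have p3 : Real.log (I t) ≤ Real.log (I s) + y * (s - t) := by
          have hall : ∀ u ∈ Icc t s, I s ≤ Real.exp 10 * I u ∧ Fr E I u ≤ K / 4 := by
            intro u hu
            have h9 := s2 u hu
            have hIu := hSD.hI u hu
            have hexp : Real.exp 9 ≤ Real.exp 10 := Real.exp_le_exp.mpr (by norm_num)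
            refine ⟨h9.trans (mul_le_mul_of_nonneg_right hexp hIu.le), ?_⟩
            have h10 := s1 u s hu.1 hu.2 le_rfl
            have h11 : Real.exp (22 * y * (s - u)) ≤ 103 / 100 := by
              refine exp_small ?_
              have h12 : s - u ≤ 2 / 32 := by
                have : 2 / K ≤ 2 / 32 := by rw [div_le_div_iff₀ hK0 (by norm_num)]; linarith
                linarith [hu.1]
              have h13 : 22 * y * (s - u) ≤ 22 * y * (2 / 32) :=
                mul_le_mul_of_nonneg_left h12 (by positivity)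
              nlinarith
            have h14 : max (Fr E I s) 1 ≤ K / 8 := max_le (by linarith) (by linarith)
            have h15 : max (Fr E I u) 1 ≤ K / 8 * (103 / 100) :=
              h10.trans (mul_le_mul h14 h11 (Real.exp_pos _).le (by positivity))
            have h16 := le_max_left (Fr E I u) 1
            linarith
          obtain ⟨-, -, -, r4⟩ := hSD.est hδ hw hK (by linarith) hst hys hNs
            (left_mem_Icc.mpr hts) hall
          have := r4 t s le_rfl hts le_rfl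
          linarith
        refine ⟨?_, ?_, ?_, ?_⟩
        · calc max (Fr E I t) 1 ≤ max (Fr E I s) 1 * Real.exp (22 * y * (s - t)) := p1
            _ ≤ max (Fr E I b₀) 1 * Real.exp (22 * y * (b₀ - s)) * Real.exp (22 * y * (s - t)) :=
              mul_le_mul_of_nonneg_right q1 (Real.exp_pos _).le
            _ = max (Fr E I b₀) 1 * Real.exp (22 * y * (b₀ - t)) := by
              rw [mul_assoc, ← Real.exp_add]; ring_nf
        · have h5 : 0 ≤ 9 / 2 * K * (s - t) := by
            have : 0 ≤ s - t := by linarith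
            positivity
          have h6 : 9 / 2 * K * (b₀ - s) + 9 / 2 * K * (s - t) = 9 / 2 * K * (b₀ - t) := by ring
          linarith
        · have h6 : y * (b₀ - s) + y * (s - t) = y * (b₀ - t) := by ring
          linarith
        · intro heq
          have h7 : s - t = 2 / K := by
            push_cast at heq
            rw [hs]
            linarith
          have h8 : 9 / 2 * K * (s - t) = 9 := by
            rw [h7]; field_simp
          have h6 : 9 / 2 * K * (b₀ - s) + 9 / 2 * K * (s - t) = 9 / 2 * K * (b₀ - t) := by ring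
          linarith
  obtain ⟨n, hn⟩ := exists_nat_ge ((b₀ - l) / (2 / K))
  have h2K : 0 < 2 / K := by positivity
  rw [div_le_iff₀ h2K] at hn
  obtain ⟨q1, q2, q3, -⟩ := key n l hl hn
  refine ⟨q1, ?_, q3⟩
  have hIl := h.hI l hl
  calc I b₀ = Real.exp (Real.log (I b₀)) := (Real.exp_log hIb).symm
    _ ≤ Real.exp (10 + 5 * K * (b₀ - l) + Real.log (I l)) := by
      refine Real.exp_le_exp.mpr ?_
      have h3 : 9 / 2 * K * (b₀ - l) ≤ 5 * K * (b₀ - l) := by
        have h5 : 0 ≤ b₀ - l := by linarith [hl.2]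
        nlinarith
      linarith
    _ = Real.exp (10 + 5 * K * (b₀ - l)) * I l := by
      rw [Real.exp_add, Real.exp_log hIl]

end Crest.Agent.R234.Nb_290
end

-- ▼ part R234/Nb5_290

/-!
# R234: one step of the frequency bound without any lower bound of the frequency

`StepW`: as `StepData`, but `hlow` (`-I ≤ 2E`) is replaced by `-(C₀ (e + I) + w) ≤ E`
(total variation bound of the anomaly, weighted by the kernel: the constant `C₀` does not depend on
`K`).
-/

set_option linter.unusedVariables false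

open Set Filter
open scoped Topology

namespace Crest.Agent.R234.Nb_290

/-- pointwise algebra without lower bound of `N` -/
theorem algW {ν β r ε ι y N : ℝ} (hN : N = ν + β) (hν : 0 ≤ ν) (hβ : β ≤ 2 * y)
    (hr0 : 0 ≤ r) (hr : ν ≤ Real.sqrt r + y) (hε : β + r - y * (ν + 1) ≤ ε)
    (hι : |ι - 2 * ν| ≤ y) (hy : 0 ≤ y) (hy1 : y ≤ 1) :
    (2 * β * (1 - ν) - 6 * y * ν - 2 * y - |N| * y ≤ 2 * ε - N * ι) ∧
      (1 ≤ N → -(22 * y * N) ≤ 2 * ε - N * ι) := by
  have hr1 : ν ^ 2 - 2 * ν * y ≤ r := by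
    rcases le_total y ν with h | h
    · have h1 : ν - y ≤ Real.sqrt r := by linarith
      have h2 : (ν - y) ^ 2 ≤ r := by
        calc (ν - y) ^ 2 ≤ (Real.sqrt r) ^ 2 := by
              apply pow_le_pow_left₀ (by linarith) h1
          _ = r := Real.sq_sqrt hr0
      nlinarith
    · nlinarith
  have hNι : N * ι ≤ N * (2 * ν) + |N| * y := by
    have h1 : N * ι - N * (2 * ν) = N * (ι - 2 * ν) := by ring
    have h2 : N * (ι - 2 * ν) ≤ |N * (ι - 2 * ν)| := le_abs_self _
    rw [abs_mul] at h2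
    have h3 : |N| * |ι - 2 * ν| ≤ |N| * y := mul_le_mul_of_nonneg_left hι (abs_nonneg _)
    linarith
  have key : 2 * β * (1 - ν) - 6 * y * ν - 2 * y - |N| * y ≤ 2 * ε - N * ι := by
    subst hN
    nlinarith
  refine ⟨key, fun h => ?_⟩
  have hNa : |N| = N := abs_of_nonneg (by linarith)
  rw [hNa] at key
  rcases le_total 0 β with hb | hb
  · have hνN : ν ≤ N := by linarith
    have h1 : -(4 * y * ν) ≤ 2 * β * (1 - ν) := by nlinarith
    have h2 : y * ν ≤ y * N := mul_le_mul_of_nonneg_left hνN hy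
    have h3 : y * 1 ≤ y * N := mul_le_mul_of_nonneg_left h hy
    nlinarith
  · set p := -β with hp
    have hp0 : 0 ≤ p := by linarith
    have hβp : β = -p := by linarith
    have hνp : ν = N + p := by linarith
    have k2 : 2 * β * (1 - ν) = 2 * p * (N + p - 1) := by rw [hβp, hνp]; ring
    rw [k2, hνp] at key
    have h1 : 2 * p * p ≤ 2 * p * (N + p - 1) :=
      mul_le_mul_of_nonneg_left (by linarith) (by linarith)
    have h2 : y * y ≤ y * N := mul_le_mul_of_nonneg_left (by linarith) hy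
    have h3 : y * 1 ≤ y * N := mul_le_mul_of_nonneg_left h hy
    nlinarith [sq_nonneg (p - 3 / 2 * y)]

/-- growth algebra: `N' = 2 ε - N ι`, `N ≥ - M K`, `N ≤ K / 4` -/
theorem alg_growthW {ν β y N N' K M : ℝ} (hN : N = ν + β) (hν : 0 ≤ ν) (hβ : β ≤ 2 * y)
    (hN' : 2 * β * (1 - ν) - 6 * y * ν - 2 * y - |N| * y ≤ N') (hy : 0 ≤ y) (hy1 : y ≤ 1)
    (hK : 32 ≤ K) (hM : 1 ≤ M) (hNM : -(M * K) ≤ N) (hNK : N ≤ K / 4) :
    ν ≤ K / 2 + 5 / K * (N' + (3 * M + 6) * K) := by
  have hK0 : 0 < K := by linarith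
  have hMK : K ≤ M * K := by nlinarith
  have hNabs : |N| ≤ M * K := abs_le.2 ⟨hNM, by linarith⟩
  have hfin : 0 ≤ N' + (3 * M + 6) * K → ν ≤ K / 2 → ν ≤ K / 2 + 5 / K * (N' + (3 * M + 6) * K) := by
    intro h1 h2
    have h3 : 0 ≤ 5 / K * (N' + (3 * M + 6) * K) := mul_nonneg (by positivity) h1
    linarith
  have hyN : |N| * y ≤ M * K := by
    calc |N| * y ≤ |N| * 1 := mul_le_mul_of_nonneg_left hy1 (abs_nonneg _)
      _ ≤ M * K := by linarith
  rcases le_total 0 β with hb | hb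
  · have hνN : ν ≤ N := by linarith
    refine hfin ?_ (by linarith)
    have h1 : -(4 * y * ν) ≤ 2 * β * (1 - ν) := by nlinarith
    have h2 : y * ν ≤ K / 4 := by nlinarith
    nlinarith
  · rcases lt_or_ge ν (K / 2) with hlt | hge
    · refine hfin ?_ hlt.le
      have h1 : 2 * β ≤ 2 * β * (1 - ν) := by nlinarith
      have h2 : -β ≤ K / 2 + M * K := by linarith
      have h3 : y * ν ≤ K / 2 := by nlinarith
      nlinarith
    · set p := -β with hp
      have hp0 : 0 ≤ p := by linarith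
      have hβp : β = -p := by linarith
      have hνp : ν = N + p := by linarith
      have hpν : ν / 2 ≤ p := by linarith
      have hN2 : |N| ≤ ν + p := by
        rw [abs_le]; constructor <;> linarith
      have k2 : 2 * β * (1 - ν) = 2 * p * (ν - 1) := by rw [hβp]; ring
      rw [k2] at hN'
      have h16 : 16 ≤ ν := by linarith
      have h1 : |N| * y ≤ ν + p := by
        calc |N| * y ≤ |N| * 1 := mul_le_mul_of_nonneg_left hy1 (abs_nonneg _)
          _ ≤ ν + p := by linarith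
      have h2 : 6 * y * ν ≤ 6 * ν := by nlinarith
      have h3 : ν / 2 * (2 * ν - 3) ≤ p * (2 * ν - 3) :=
        mul_le_mul_of_nonneg_right hpν (by linarith)
      have h4 : 2 / 5 * ν ^ 2 ≤ N' := by nlinarith
      have h5 : K / 5 * ν ≤ N' := by nlinarith
      have h6 : ν ≤ 5 / K * N' := by
        rw [div_mul_eq_mul_div, le_div_iff₀ hK0]
        linarith
      have h7 : 0 ≤ 5 / K * ((3 * M + 6) * K) := by positivity
      have h8 : 5 / K * (N' + (3 * M + 6) * K) = 5 / K * N' + 5 / K * ((3 * M + 6) * K) := by ring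
      linarith

/-- data of one step: `a` bottom, `b₀` top; total variation bound instead of `hlow` -/
structure StepW (C₀ a b₀ δ w : ℝ) (I E e b R : ℝ → ℝ) : Prop where
  hI : ∀ l ∈ Icc a b₀, 0 ≤ I l
  he : ∀ l ∈ Icc a b₀, 0 ≤ e l
  hR : ∀ l ∈ Icc a b₀, 0 ≤ R l
  hE : ∀ l ∈ Icc a b₀, E l = e l / 2 + b l
  dI : ∀ l ∈ Icc a b₀, ∃ I', HasDerivAt I I' l ∧ |I' - 2 * e l| ≤ δ * I l + w
  dE : ∀ l ∈ Icc a b₀, ∃ E', HasDerivAt E E' l ∧ 2 * b l + R l - (δ * (e l + I l) + w) ≤ E'
  hCS : ∀ l ∈ Icc a b₀, e l ≤ Real.sqrt (I l * R l) + (δ * I l + w)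
  hb : ∀ l ∈ Icc a b₀, b l ≤ δ * I l + w
  hab : ∀ l ∈ Icc a b₀, -(C₀ * (e l + I l) + w) ≤ E l

variable {C₀ a b₀ δ w : ℝ} {I E e b R : ℝ → ℝ}


theorem StepW.mono (h : StepW C₀ a b₀ δ w I E e b R) {a' b' : ℝ} (ha : a ≤ a') (hb' : b' ≤ b₀) :
    StepW C₀ a' b' δ w I E e b R := by
  have hs : ∀ l ∈ Icc a' b', l ∈ Icc a b₀ := fun l hl => ⟨ha.trans hl.1, hl.2.trans hb'⟩
  exact ⟨fun l hl => h.hI l (hs l hl), fun l hl => h.he l (hs l hl), fun l hl => h.hR l (hs l hl),
    fun l hl => h.hE l (hs l hl), fun l hl => h.dI l (hs l hl), fun l hl => h.dE l (hs l hl),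
    fun l hl => h.hCS l (hs l hl), fun l hl => h.hb l (hs l hl), fun l hl => h.hab l (hs l hl)⟩

theorem StepW.weaken (h : StepW C₀ a b₀ δ w I E e b R) {C₁ δ' w' : ℝ} (hC : C₀ ≤ C₁) (hδ : δ ≤ δ')
    (hw : w ≤ w') : StepW C₁ a b₀ δ' w' I E e b R where
  hI := h.hI
  he := h.he
  hR := h.hR
  hE := h.hE
  dI l hl := by
    obtain ⟨I', h1, h2⟩ := h.dI l hl
    have h3 := mul_le_mul_of_nonneg_right hδ (h.hI l hl)
    exact ⟨I', h1, by linarith⟩
  dE l hl := by
    obtain ⟨E', h1, h2⟩ := h.dE l hl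
    have h3 := mul_le_mul_of_nonneg_right hδ (add_nonneg (h.he l hl) (h.hI l hl))
    exact ⟨E', h1, by linarith⟩
  hCS l hl := by
    have h2 := h.hCS l hl
    have h3 := mul_le_mul_of_nonneg_right hδ (h.hI l hl)
    linarith
  hb l hl := by
    have h2 := h.hb l hl
    have h3 := mul_le_mul_of_nonneg_right hδ (h.hI l hl)
    linarith
  hab l hl := by
    have h2 := h.hab l hl
    have h3 := mul_le_mul_of_nonneg_right hC (add_nonneg (h.he l hl) (h.hI l hl))
    linarith

theorem StepW.continuousOn_I (h : StepW C₀ a b₀ δ w I E e b R) : ContinuousOn I (Icc a b₀) := by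
  intro t ht
  obtain ⟨I', hI', -⟩ := h.dI t ht
  exact hI'.continuousAt.continuousWithinAt

theorem StepW.continuousOn_E (h : StepW C₀ a b₀ δ w I E e b R) : ContinuousOn E (Icc a b₀) := by
  intro t ht
  obtain ⟨E', hE', -⟩ := h.dE t ht
  exact hE'.continuousAt.continuousWithinAt

/-- all pointwise consequences at one scale -/
theorem StepW.pointwise (h : StepW C₀ a b₀ δ w I E e b R) (hδ : 0 ≤ δ) (hw : 0 ≤ w) {y : ℝ}
    (hy1 : y ≤ 1) {l : ℝ} (hl : l ∈ Icc a b₀) (hI : 0 < I l) (hy : δ + w / I l ≤ y) :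
    ∃ N' ι : ℝ, HasDerivAt (Fr E I) N' l ∧ HasDerivAt (fun t => Real.log (I t)) ι l ∧
      (∀ K M : ℝ, 32 ≤ K → 1 ≤ M → -(M * K) ≤ Fr E I l → Fr E I l ≤ K / 4 →
        ι ≤ K + 10 / K * N' + (30 * M + 61)) ∧
      (1 ≤ Fr E I l → -(22 * y * Fr E I l) ≤ N') ∧ 2 * Fr E I l - 5 * y ≤ ι ∧ -y ≤ ι := by
  have hI0 : I l ≠ 0 := hI.ne'
  obtain ⟨I', hI', hI'b⟩ := h.dI l hl
  obtain ⟨E', hE', hE'b⟩ := h.dE l hl
  have hwI : 0 ≤ w / I l := div_nonneg hw hI.le
  have hy0 : 0 ≤ y := by linarith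
  have hyI : δ * I l + w ≤ y * I l := by
    have : (δ + w / I l) * I l ≤ y * I l := mul_le_mul_of_nonneg_right hy hI.le
    have h2 : (δ + w / I l) * I l = δ * I l + w := by field_simp
    linarith
  set ν := e l / I l with hν
  set β := 2 * b l / I l with hβ
  set N := Fr E I l with hN
  have hNeq : N = ν + β := by
    rw [hN, hν, hβ]
    unfold Fr
    rw [h.hE l hl]
    field_simp
  have e1 : 0 ≤ ν := div_nonneg (h.he l hl) hI.le
  have e3 : β ≤ 2 * y := by
    rw [hβ, div_le_iff₀ hI]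
    have := h.hb l hl
    linarith
  have e4 : 0 ≤ R l / I l := div_nonneg (h.hR l hl) hI.le
  have e5 : ν ≤ Real.sqrt (R l / I l) + y := by
    rw [hν, div_le_iff₀ hI]
    have h1 := h.hCS l hl
    have h2 : Real.sqrt (I l * R l) = Real.sqrt (R l / I l) * I l := by
      have h3 : I l * R l = (R l / I l) * (I l) ^ 2 := by field_simp
      rw [h3, Real.sqrt_mul e4, Real.sqrt_sq hI.le]
    rw [h2] at h1
    linarith
  have e6 : β + R l / I l - y * (ν + 1) ≤ E' / I l := by
    rw [le_div_iff₀ hI]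
    have h1 : (β + R l / I l - y * (ν + 1)) * I l = 2 * b l + R l - y * (e l + I l) := by
      rw [hβ, hν]; field_simp
    rw [h1]
    have h2 : δ * (e l + I l) + w ≤ y * (e l + I l) := by
      have h3 : δ ≤ y := by linarith
      have h4 : δ * e l ≤ y * e l := mul_le_mul_of_nonneg_right h3 (h.he l hl)
      linarith
    linarith
  have e7 : |I' / I l - 2 * ν| ≤ y := by
    have h1 : I' / I l - 2 * ν = (I' - 2 * e l) / I l := by rw [hν]; field_simp
    rw [h1, abs_div, abs_of_pos hI, div_le_iff₀ hI]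
    linarith
  have A := algW hNeq e1 e3 e4 e5 e6 e7 hy0 hy1
  have B := alg_growth hNeq e1 e3 e7
  refine ⟨2 * (E' / I l) - N * (I' / I l), I' / I l, ?_, hI'.log hI0, ?_, A.2, B.2.1, B.2.2⟩
  · have h1 : HasDerivAt (fun t => 2 * E t / I t) ((2 * E' * I l - 2 * E l * I') / (I l) ^ 2) l :=
      (hE'.const_mul 2).div hI' hI0
    have h2 : (2 * E' * I l - 2 * E l * I') / (I l) ^ 2 = 2 * (E' / I l) - N * (I' / I l) := by
      rw [hN]; unfold Fr
      field_simp
    rw [← h2]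
    exact h1
  · intro K M hK hM h1 h2
    have h3 := alg_growthW hNeq e1 e3 A.1 hy0 hy1 hK hM h1 h2
    have h4 := abs_le.mp e7
    have hK0 : (K:ℝ) ≠ 0 := by linarith
    have h5 : 5 / K * (2 * (E' / I l) - N * (I' / I l) + (3 * M + 6) * K) =
        5 / K * (2 * (E' / I l) - N * (I' / I l)) + (15 * M + 30) := by
      field_simp; ring
    rw [h5] at h3
    have h6 : 10 / K * (2 * (E' / I l) - N * (I' / I l)) =
        2 * (5 / K * (2 * (E' / I l) - N * (I' / I l))) := by ring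
    rw [h6]
    linarith [h4.2]

/-- algebra for the lower bound of `E'` -/
theorem alg_E {δ w I e R S E' E b : ℝ} (hδ : 0 ≤ δ) (hδ1 : δ ≤ 1 / 100) (hw : 0 ≤ w) (hI : 0 ≤ I)
    (he : 0 ≤ e) (hR : 0 ≤ R) (hS0 : 0 ≤ S) (hS2 : S ^ 2 = I * R) (hE : E = e / 2 + b)
    (hCS : e ≤ S + (δ * I + w)) (hE' : 2 * b + R - (δ * (e + I) + w) ≤ E') :
    2 * E - 3 / 10 * I - 3 * w ≤ E' := by
  have hS3 : (1 + δ) * S ≤ R + (1 + δ) ^ 2 / 4 * I := by
    have h7 : ((1 + δ) * S) ^ 2 ≤ (R + (1 + δ) ^ 2 / 4 * I) ^ 2 := by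
      have h8 : (R + (1 + δ) ^ 2 / 4 * I) ^ 2 - ((1 + δ) * S) ^ 2 =
          (R - (1 + δ) ^ 2 / 4 * I) ^ 2 := by
        rw [mul_pow, hS2]; ring
      linarith [sq_nonneg (R - (1 + δ) ^ 2 / 4 * I)]
    exact le_of_sq_le_sq h7 (by positivity)
  have h9 : (1 + δ) * e ≤ (1 + δ) * (S + (δ * I + w)) :=
    mul_le_mul_of_nonneg_left hCS (by linarith)
  have h11 : δ * I ≤ 1 / 100 * I := mul_le_mul_of_nonneg_right hδ1 hI
  have h12 : (1 + δ) ^ 2 / 4 * I ≤ 26 / 100 * I := by
    refine mul_le_mul_of_nonneg_right ?_ hI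
    nlinarith
  have h13 : (1 + δ) * (δ * I + w) ≤ 101 / 100 * (δ * I + w) :=
    mul_le_mul_of_nonneg_right (by linarith) (by positivity)
  have h14 : (1 + δ) * (S + (δ * I + w)) = (1 + δ) * S + (1 + δ) * (δ * I + w) := by ring
  have h15 : δ * (e + I) = δ * e + δ * I := by ring
  have h16 : (1 + δ) * e = e + δ * e := by ring
  linarith

/-- ODE 1 -/
theorem ode_up {I I' : ℝ → ℝ} {s t y I₁ : ℝ} (hst : s ≤ t) (hts : t - s ≤ 1 / 32)
    (hy0 : 0 ≤ y) (hy1 : y ≤ 1 / 100) (hI₁ : 0 ≤ I₁) (hIt : I t = I₁)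
    (hI' : ∀ u ∈ Icc s t, HasDerivAt I (I' u) u)
    (hb : ∀ u ∈ Icc s t, -(y * (I u + I₁)) ≤ I' u) : I s ≤ 2 * I₁ := by
  have hm : MonotoneOn (fun u => (I u + I₁) * Real.exp (y * u)) (Icc s t) := by
    refine mono_of_deriv (f' := fun u => I' u * Real.exp (y * u) +
      (I u + I₁) * (Real.exp (y * u) * y)) ?_ ?_
    · intro u hu
      have h2 : HasDerivAt (fun u => Real.exp (y * u)) (Real.exp (y * u) * y) u := by
        have := ((hasDerivAt_id u).const_mul y).exp
        simpa using this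
      exact ((hI' u hu).add_const I₁).mul h2
    · intro u hu
      have h3 := hb u (Ioo_subset_Icc_self hu)
      have h6 : I' u * Real.exp (y * u) + (I u + I₁) * (Real.exp (y * u) * y) =
          (I' u + y * (I u + I₁)) * Real.exp (y * u) := by ring
      rw [h6]
      exact mul_nonneg (by linarith) (Real.exp_pos _).le
  have h8 := hm (left_mem_Icc.mpr hst) (right_mem_Icc.mpr hst) hst
  simp only at h8
  rw [hIt] at h8
  have h9 : Real.exp (y * t) ≤ 103 / 100 * Real.exp (y * s) := by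
    have h10 : y * t = y * (t - s) + y * s := by ring
    rw [h10, Real.exp_add]
    refine mul_le_mul_of_nonneg_right (exp_small ?_) (Real.exp_pos _).le
    have h12 : 0 ≤ t - s := by linarith
    calc y * (t - s) ≤ 1 / 100 * (1 / 32) := mul_le_mul hy1 hts h12 (by norm_num)
      _ ≤ 1 / 50 := by norm_num
  have h13 : (I s + I₁) * Real.exp (y * s) ≤ (I₁ + I₁) * (103 / 100) * Real.exp (y * s) := by
    calc (I s + I₁) * Real.exp (y * s) ≤ (I₁ + I₁) * Real.exp (y * t) := h8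
      _ ≤ (I₁ + I₁) * (103 / 100 * Real.exp (y * s)) :=
        mul_le_mul_of_nonneg_left h9 (by linarith)
      _ = _ := by ring
  have h14 := le_of_mul_le_mul_right h13 (Real.exp_pos _)
  linarith

/-- ODE 2 -/
theorem ode_E {E E' : ℝ → ℝ} {s t I₁ : ℝ} (hst : s ≤ t) (hts : t - s ≤ 1 / 32)
    (hI₁ : 0 ≤ I₁) (hEt : E t ≤ -(64 * I₁)) (hE' : ∀ u ∈ Icc s t, HasDerivAt E (E' u) u)
    (hb : ∀ u ∈ Icc s t, 2 * E u - I₁ ≤ E' u) : E s ≤ 7 / 8 * E t := by
  have hm : MonotoneOn (fun u => (E u - 1 / 2 * I₁) * Real.exp (-2 * u)) (Icc s t) := by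
    refine mono_of_deriv (f' := fun u => E' u * Real.exp (-2 * u) +
      (E u - 1 / 2 * I₁) * (Real.exp (-2 * u) * (-2))) ?_ ?_
    · intro u hu
      have h2 : HasDerivAt (fun u => Real.exp (-2 * u)) (Real.exp (-2 * u) * (-2)) u := by
        have := ((hasDerivAt_id u).const_mul (-2 : ℝ)).exp
        simpa using this
      exact ((hE' u hu).sub_const (1 / 2 * I₁)).mul h2
    · intro u hu
      have h3 := hb u (Ioo_subset_Icc_self hu)
      have h6 : E' u * Real.exp (-2 * u) + (E u - 1 / 2 * I₁) * (Real.exp (-2 * u) * (-2)) =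
          (E' u - 2 * E u + I₁) * Real.exp (-2 * u) := by ring
      rw [h6]
      exact mul_nonneg (by linarith) (Real.exp_pos _).le
  have h8 := hm (left_mem_Icc.mpr hst) (right_mem_Icc.mpr hst) hst
  simp only at h8
  have h9 : 15 / 16 * Real.exp (-2 * s) ≤ Real.exp (-2 * t) := by
    have h10 : -2 * t = -2 * (t - s) + -2 * s := by ring
    rw [h10, Real.exp_add]
    refine mul_le_mul_of_nonneg_right ?_ (Real.exp_pos _).le
    have h12 := Real.add_one_le_exp (-2 * (t - s))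
    linarith
  have h13 : (E s - 1 / 2 * I₁) * Real.exp (-2 * s) ≤
      (E t - 1 / 2 * I₁) * (15 / 16) * Real.exp (-2 * s) := by
    calc (E s - 1 / 2 * I₁) * Real.exp (-2 * s) ≤ (E t - 1 / 2 * I₁) * Real.exp (-2 * t) := h8
      _ ≤ (E t - 1 / 2 * I₁) * (15 / 16 * Real.exp (-2 * s)) :=
        mul_le_mul_of_nonpos_left h9 (by linarith)
      _ = _ := by ring
  have h14 := le_of_mul_le_mul_right h13 (Real.exp_pos _)
  linarith

/-- **lower bound of the frequency** `N > - 4 C₀ K` at `l₁`, from data on `[l₁ - 1/K, l₁]` -/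
theorem StepW.low (h : StepW C₀ a b₀ δ w I E e b R) (hC : 1 ≤ C₀) (hδ : 0 ≤ δ) (hw : 0 ≤ w)
    {y K : ℝ} (hK : 32 ≤ K) (hy1 : y ≤ 1 / 100) {l₁ : ℝ} (hl₁ : l₁ ≤ b₀) (hal : a ≤ l₁ - 1 / K)
    (hI₁ : 0 < I l₁) (hy : δ + w / I l₁ ≤ y) : -(4 * C₀ * K) < Fr E I l₁ := by
  by_contra hcon
  push Not at hcon
  have hK0 : 0 < K := by linarith
  have hh0 : 0 < 1 / K := by positivity
  have hh1 : 1 / K ≤ 1 / 32 := one_div_le_one_div_of_le (by norm_num) hK
  have hal' : a ≤ l₁ := by linarith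
  have hml : l₁ ∈ Icc a b₀ := ⟨hal', hl₁⟩
  obtain ⟨I₁, hI₁def⟩ : ∃ I₁, I₁ = I l₁ := ⟨_, rfl⟩
  rw [← hI₁def] at hI₁ hy
  have hsub : ∀ t ∈ Icc (l₁ - 1 / K) l₁, t ∈ Icc a b₀ := fun t ht =>
    ⟨hal.trans ht.1, ht.2.trans hl₁⟩
  have hwI : 0 ≤ w / I₁ := by positivity
  have hy0 : 0 ≤ y := by linarith
  have hδy : δ ≤ y := by linarith
  have hδ1 : δ ≤ 1 / 100 := hδy.trans hy1
  have hwy : w ≤ y * I₁ := by
    have h1 : w / I₁ ≤ y := by linarith
    rwa [div_le_iff₀ hI₁] at h1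
  have hw1 : w ≤ 1 / 100 * I₁ := hwy.trans (mul_le_mul_of_nonneg_right hy1 hI₁.le)
  have hY : E l₁ ≤ -(2 * (C₀ * K) * I₁) := by
    unfold Fr at hcon
    rw [← hI₁def, div_le_iff₀ hI₁] at hcon
    linarith
  have hCK : 32 ≤ C₀ * K := by
    calc (32:ℝ) ≤ K := hK
      _ = 1 * K := (one_mul K).symm
      _ ≤ C₀ * K := mul_le_mul_of_nonneg_right hC hK0.le
  have hE64 : E l₁ ≤ -(64 * I₁) := by
    have : 32 * I₁ ≤ C₀ * K * I₁ := mul_le_mul_of_nonneg_right hCK hI₁.le
    linarith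
  -- derivative choices
  have hdI : ∀ t ∈ Icc (l₁ - 1 / K) l₁, ∃ I', HasDerivAt I I' t ∧ |I' - 2 * e t| ≤ δ * I t + w :=
    fun t ht => h.dI t (hsub t ht)
  have hdE : ∀ t ∈ Icc (l₁ - 1 / K) l₁, ∃ E', HasDerivAt E E' t ∧
      2 * b t + R t - (δ * (e t + I t) + w) ≤ E' := fun t ht => h.dE t (hsub t ht)
  choose! I' hI' hI'b using hdI
  choose! E' hE' hE'b using hdE
  -- upper bound of `I`
  have hup : ∀ t ∈ Icc (l₁ - 1 / K) l₁, I t ≤ 2 * I₁ := by
    intro t ht
    refine ode_up (I' := I') ht.2 (by linarith [ht.1]) hy0 hy1 hI₁.le hI₁def.symm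
      (fun u hu => hI' u ⟨ht.1.trans hu.1, hu.2⟩) ?_
    intro u hu
    have hu' : u ∈ Icc (l₁ - 1 / K) l₁ := ⟨ht.1.trans hu.1, hu.2⟩
    have h3 := (abs_le.mp (hI'b u hu')).1
    have h4 := h.he u (hsub u hu')
    have h5 := h.hI u (hsub u hu')
    have h7 : δ * I u ≤ y * I u := mul_le_mul_of_nonneg_right hδy h5
    have h8 : y * (I u + I₁) = y * I u + y * I₁ := by ring
    linarith
  -- upper bound of `E`
  have hEup : ∀ t ∈ Icc (l₁ - 1 / K) l₁, E t ≤ 7 / 8 * E l₁ := by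
    intro t ht
    refine ode_E (E' := E') ht.2 (by linarith [ht.1]) hI₁.le hE64
      (fun u hu => hE' u ⟨ht.1.trans hu.1, hu.2⟩) ?_
    intro u hu
    have hu' : u ∈ Icc (l₁ - 1 / K) l₁ := ⟨ht.1.trans hu.1, hu.2⟩
    have hI := h.hI u (hsub u hu')
    have hR := h.hR u (hsub u hu')
    have h1 := alg_E hδ hδ1 hw hI (h.he u (hsub u hu')) hR (Real.sqrt_nonneg _)
      (Real.sq_sqrt (mul_nonneg hI hR)) (h.hE u (hsub u hu')) (h.hCS u (hsub u hu'))
      (hE'b u hu')
    have h2 := hup u hu'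
    linarith
  -- lower bound of `I'`
  have hIlow : ∀ t ∈ Icc (l₁ - 1 / K) l₁, 3 * K * I₁ ≤ I' t := by
    intro t ht
    have h3 := (abs_le.mp (hI'b t ht)).1
    have h4 := h.hab t (hsub t ht)
    have h5 := hEup t ht
    have h6 := hup t ht
    have hI := h.hI t (hsub t ht)
    have he := h.he t (hsub t ht)
    have h7 : 7 / 4 * (C₀ * K) * I₁ ≤ C₀ * (e t + I t) + w := by linarith
    have h8 : w ≤ C₀ * (1 / 100 * I₁) := by
      calc w ≤ 1 * (1 / 100 * I₁) := by linarith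
        _ ≤ C₀ * (1 / 100 * I₁) := mul_le_mul_of_nonneg_right hC (by positivity)
    have h9 : C₀ * (7 / 4 * K * I₁) ≤ C₀ * (e t + I t + 1 / 100 * I₁) := by
      have h10 : C₀ * (e t + I t + 1 / 100 * I₁) = C₀ * (e t + I t) + C₀ * (1 / 100 * I₁) := by ring
      have h11 : C₀ * (7 / 4 * K * I₁) = 7 / 4 * (C₀ * K) * I₁ := by ring
      rw [h10, h11]
      linarith
    have h12 : 7 / 4 * K * I₁ ≤ e t + I t + 1 / 100 * I₁ :=
      le_of_mul_le_mul_left h9 (by linarith)
    have h13 : δ * I t ≤ 1 / 100 * I t := mul_le_mul_of_nonneg_right hδ1 hI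
    have h15 : 32 * I₁ ≤ K * I₁ := mul_le_mul_of_nonneg_right hK hI₁.le
    linarith
  have hmJ : l₁ - 1 / K ∈ Icc (l₁ - 1 / K) l₁ := left_mem_Icc.mpr (by linarith)
  have hl₁J : l₁ ∈ Icc (l₁ - 1 / K) l₁ := right_mem_Icc.mpr (by linarith)
  have hm : MonotoneOn (fun u => I u - 3 * K * I₁ * u) (Icc (l₁ - 1 / K) l₁) := by
    refine mono_of_deriv (f' := fun u => I' u - 3 * K * I₁) ?_ ?_
    · intro u hu
      have h4 := (hI' u hu).fun_sub ((hasDerivAt_id' u).const_mul (3 * K * I₁))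
      exact h4.congr_deriv (by ring)
    · intro u hu
      have := hIlow u (Ioo_subset_Icc_self hu)
      linarith
  have h8 := hm hmJ hl₁J hmJ.2
  simp only at h8
  have h9 := h.hI _ (hsub _ hmJ)
  have h10 : 3 * K * I₁ * (1 / K) = 3 * I₁ := by field_simp
  have h11 : 3 * K * I₁ * (l₁ - 1 / K) = 3 * K * I₁ * l₁ - 3 * I₁ := by
    rw [mul_sub, h10]
  rw [h11, ← hI₁def] at h8
  linarith

/-- estimates on `[m, b₀]` under the weak a-priori bounds -/
theorem StepW.est {a₀ : ℝ} (h : StepW C₀ a₀ b₀ δ w I E e b R) (hC : 1 ≤ C₀) (hδ : 0 ≤ δ)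
    (hw : 0 ≤ w) {y K G : ℝ}
    (hK : 32 ≤ K) (hy1 : y ≤ 1 / 100) {m : ℝ} (ha₀ : a₀ ≤ m - 1 / K) (hm : m ≤ b₀)
    (hG : (K + (120 * C₀ + 61)) * (b₀ - m) + 5 / 4 + 40 * C₀ ≤ G)
    (hy : δ + w * Real.exp (G + 1) / I b₀ ≤ y)
    (hN0 : 8 * Fr E I b₀ ≤ K) (hIb : 0 < I b₀)
    (hap : ∀ t ∈ Icc m b₀, I b₀ ≤ Real.exp (G + 1) * I t ∧ 2 * E t ≤ K / 4 * I t) :
    (∀ l l', m ≤ l → l ≤ l' → l' ≤ b₀ →
        max (Fr E I l) 1 ≤ max (Fr E I l') 1 * Real.exp (22 * y * (l' - l))) ∧
      (∀ l ∈ Icc m b₀, I b₀ ≤ Real.exp G * I l) ∧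
      (∀ l l' θ, m ≤ l → l ≤ l' → l' ≤ b₀ → (∀ t ∈ Icc l l', θ ≤ Fr E I t) →
        (2 * θ - 5 * y) * (l' - l) ≤ Real.log (I l') - Real.log (I l)) ∧
      (∀ l l', m ≤ l → l ≤ l' → l' ≤ b₀ →
        -y * (l' - l) ≤ Real.log (I l') - Real.log (I l)) ∧
      (∀ l ∈ Icc m b₀, -(4 * C₀ * K) < Fr E I l) := by
  have hK0 : 0 < K := by linarith
  have hh0 : 0 < 1 / K := by positivity
  have hsub : ∀ t ∈ Icc m b₀, t ∈ Icc a₀ b₀ := fun t ht => ⟨by linarith [ht.1], ht.2⟩
  have hy0 : 0 ≤ y := by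
    have : 0 ≤ w * Real.exp (G + 1) / I b₀ := by positivity
    linarith
  have hpos : ∀ t ∈ Icc m b₀, 0 < I t := by
    intro t ht
    have h1 := (hap t ht).1
    by_contra hcon
    have h2 : Real.exp (G + 1) * I t ≤ 0 :=
      mul_nonpos_of_nonneg_of_nonpos (Real.exp_pos _).le (not_lt.1 hcon)
    linarith
  have hFr : ∀ t ∈ Icc m b₀, Fr E I t ≤ K / 4 := by
    intro t ht
    unfold Fr
    rw [div_le_iff₀ (hpos t ht)]
    exact (hap t ht).2
  -- uniform relative error
  have hyt : ∀ t ∈ Icc m b₀, δ + w / I t ≤ y := by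
    intro t ht
    have hIt := hpos t ht
    have h1 := (hap t ht).1
    have h2 : w / I t ≤ w * Real.exp (G + 1) / I b₀ := by
      rw [div_le_div_iff₀ hIt hIb]
      calc w * I b₀ ≤ w * (Real.exp (G + 1) * I t) := mul_le_mul_of_nonneg_left h1 hw
        _ = w * Real.exp (G + 1) * I t := by ring
    linarith
  have hlow : ∀ t ∈ Icc m b₀, -(4 * C₀ * K) < Fr E I t := fun t ht =>
    h.low hC hδ hw hK hy1 ht.2 (by linarith [ht.1]) (hpos t ht) (hyt t ht)
  have hpt : ∀ t ∈ Icc m b₀, ∃ N' ι : ℝ, HasDerivAt (Fr E I) N' t ∧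
      HasDerivAt (fun t => Real.log (I t)) ι t ∧
      (∀ K M : ℝ, 32 ≤ K → 1 ≤ M → -(M * K) ≤ Fr E I t → Fr E I t ≤ K / 4 →
        ι ≤ K + 10 / K * N' + (30 * M + 61)) ∧
      (1 ≤ Fr E I t → -(22 * y * Fr E I t) ≤ N') ∧ 2 * Fr E I t - 5 * y ≤ ι ∧ -y ≤ ι :=
    fun t ht => h.pointwise hδ hw (by linarith) (hsub t ht) (hpos t ht) (hyt t ht)
  choose! N' ι hN hι hp hN1 hι1 hι2 using hpt
  refine ⟨?_, ?_, ?_, ?_, hlow⟩
  · intro l l' h1 h2 h3
    exact max_one_mono (by positivity) hN hN1 h1 h2 h3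
  · intro l hl
    have hmono : MonotoneOn (fun t => (K + (120 * C₀ + 61)) * t + 10 / K * Fr E I t -
        Real.log (I t)) (Icc m b₀) := by
      refine mono_of_deriv (f' := fun t => (K + (120 * C₀ + 61)) + 10 / K * N' t - ι t) ?_ ?_
      · intro t ht
        have h1 := (((hasDerivAt_id' t).const_mul (K + (120 * C₀ + 61))).fun_add
          ((hN t ht).const_mul (10 / K))).fun_sub (hι t ht)
        exact h1.congr_deriv (by ring)
      · intro t ht
        have ht' := Ioo_subset_Icc_self ht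
        have h1 := hp t ht' K (4 * C₀) hK (by linarith) (hlow t ht').le (hFr t ht')
        linarith
    have h1 := hmono hl (right_mem_Icc.mpr hm) hl.2
    simp only at h1
    have hIl := hpos l hl
    have h4 : 10 / K * Fr E I b₀ ≤ 5 / 4 := by
      rw [div_mul_eq_mul_div, div_le_iff₀ hK0]; linarith
    have h5 : -(40 * C₀) ≤ 10 / K * Fr E I l := by
      rw [div_mul_eq_mul_div, le_div_iff₀ hK0]
      have := hlow l hl
      linarith
    have h2 : (K + (120 * C₀ + 61)) * (b₀ - l) ≤ (K + (120 * C₀ + 61)) * (b₀ - m) :=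
      mul_le_mul_of_nonneg_left (by linarith [hl.1]) (by linarith)
    have h6 : Real.log (I b₀) ≤ G + Real.log (I l) := by
      have h7 : (K + (120 * C₀ + 61)) * (b₀ - l) = (K + (120 * C₀ + 61)) * b₀ -
        (K + (120 * C₀ + 61)) * l := by ring
      linarith
    calc I b₀ = Real.exp (Real.log (I b₀)) := (Real.exp_log hIb).symm
      _ ≤ Real.exp (G + Real.log (I l)) := Real.exp_le_exp.mpr h6
      _ = Real.exp G * I l := by rw [Real.exp_add, Real.exp_log hIl]
  · intro l l' θ h1 h2 h3 hθ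
    have hmono : MonotoneOn (fun t => Real.log (I t) - (2 * θ - 5 * y) * t) (Icc l l') := by
      refine mono_of_deriv (f' := fun t => ι t - (2 * θ - 5 * y)) ?_ ?_
      · intro t ht
        have h4 := (hι t ⟨h1.trans ht.1, ht.2.trans h3⟩).fun_sub
          ((hasDerivAt_id' t).const_mul (2 * θ - 5 * y))
        exact h4.congr_deriv (by ring)
      · intro t ht
        have h5 := hι1 t ⟨h1.trans ht.1.le, ht.2.le.trans h3⟩
        have h6 := hθ t (Ioo_subset_Icc_self ht)
        linarith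
    have h7 := hmono (left_mem_Icc.mpr h2) (right_mem_Icc.mpr h2) h2
    simp only at h7
    linarith
  · intro l l' h1 h2 h3
    have hmono : MonotoneOn (fun t => Real.log (I t) - (-y) * t) (Icc l l') := by
      refine mono_of_deriv (f' := fun t => ι t - (-y)) ?_ ?_
      · intro t ht
        have h4 := (hι t ⟨h1.trans ht.1, ht.2.trans h3⟩).fun_sub
          ((hasDerivAt_id' t).const_mul (-y))
        exact h4.congr_deriv (by ring)
      · intro t ht
        have h5 := hι2 t ⟨h1.trans ht.1.le, ht.2.le.trans h3⟩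
        linarith
    have h7 := hmono (left_mem_Icc.mpr h2) (right_mem_Icc.mpr h2) h2
    simp only at h7
    linarith

/-- **window of any length**, no lower bound of the frequency: data on `[a - 1/K, b₀]` -/
theorem StepW.window6 {a₀ : ℝ} (h : StepW C₀ a₀ b₀ δ w I E e b R) (hC : 1 ≤ C₀) (hδ : 0 ≤ δ)
    (hw : 0 ≤ w) {y K G : ℝ} (hK : 32 ≤ K) (hy1 : y ≤ 1 / 100) (ha₀ : a₀ ≤ a - 1 / K)
    (hab0 : a ≤ b₀) (hyl : y * (b₀ - a) ≤ 1 / 1100)
    (hG : (K + (120 * C₀ + 61)) * (b₀ - a) + 5 / 4 + 40 * C₀ ≤ G)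
    (hy : δ + w * Real.exp (G + 1) / I b₀ ≤ y) (hN0 : 8 * Fr E I b₀ ≤ K) (hIb : 0 < I b₀) :
    (∀ l l', a ≤ l → l ≤ l' → l' ≤ b₀ →
        max (Fr E I l) 1 ≤ max (Fr E I l') 1 * Real.exp (22 * y * (l' - l))) ∧
      (∀ l ∈ Icc a b₀, I b₀ ≤ Real.exp G * I l) ∧
      (19 / 10 ≤ Fr E I a → b₀ - a ≤ (2 * a - Real.log (I a)) - (2 * b₀ - Real.log (I b₀))) ∧
      (-(3 * (b₀ - a)) ≤ (2 * a - Real.log (I a)) - (2 * b₀ - Real.log (I b₀))) ∧
      (∀ l ∈ Icc a b₀, -(4 * C₀ * K) < Fr E I l) ∧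
      (∀ l l', a ≤ l → l ≤ l' → l' ≤ b₀ → I l ≤ Real.exp (y * (l' - l)) * I l') := by
  have hK0 : 0 < K := by linarith
  have hh0 : 0 < 1 / K := by positivity
  have h' : StepW C₀ a b₀ δ w I E e b R := h.mono (by linarith) le_rfl
  have hb₀ : b₀ ∈ Icc a b₀ := right_mem_Icc.mpr hab0
  have hG0 : 0 ≤ G := by
    have : 0 ≤ (K + (120 * C₀ + 61)) * (b₀ - a) := mul_nonneg (by linarith) (by linarith)
    linarith
  have hy0 : 0 ≤ y := by
    have : 0 ≤ w * Real.exp (G + 1) / I b₀ := by positivity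
    linarith
  have hexpG : Real.exp G < Real.exp (G + 1) := Real.exp_lt_exp.mpr (by linarith)
  have hsmall : ∀ u, u ≤ b₀ - a → Real.exp (22 * y * u) ≤ 103 / 100 := by
    intro u hu
    refine exp_small ?_
    have h1 : 22 * y * u ≤ 22 * y * (b₀ - a) := mul_le_mul_of_nonneg_left hu (by positivity)
    linarith
  -- a priori bounds hold everywhere
  have hall : ∀ t ∈ Icc a b₀, I b₀ ≤ Real.exp (G + 1) * I t ∧ 2 * E t ≤ K / 4 * I t := by
    by_contra hcon
    set F := {t | t ∈ Icc a b₀ ∧ (Real.exp (G + 1) * I t ≤ I b₀ ∨ 0 ≤ 2 * E t - K / 4 * I t)}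
      with hF
    have hcE : ContinuousOn (fun t => 2 * E t - K / 4 * I t) (Icc a b₀) :=
      (h'.continuousOn_E.const_mul 2).sub (h'.continuousOn_I.const_mul (K / 4))
    have hFne : F.Nonempty := by
      push Not at hcon
      obtain ⟨t, ht, ht2⟩ := hcon
      refine ⟨t, ht, ?_⟩
      by_contra h3
      push Not at h3
      exact absurd (ht2 h3.1.le) (not_lt.mpr (by linarith [h3.2]))
    have hFb : BddAbove F := ⟨b₀, fun t ht => ht.1.2⟩
    have hFc : IsClosed F := by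
      have h1 : IsClosed {t | t ∈ Icc a b₀ ∧ Real.exp (G + 1) * I t ∈ Iic (I b₀)} :=
        (h'.continuousOn_I.const_mul (Real.exp (G + 1))).preimage_isClosed_of_isClosed isClosed_Icc
          isClosed_Iic
      have h2 : IsClosed {t | t ∈ Icc a b₀ ∧ 2 * E t - K / 4 * I t ∈ Ici (0:ℝ)} :=
        hcE.preimage_isClosed_of_isClosed isClosed_Icc isClosed_Ici
      have h3 : F = {t | t ∈ Icc a b₀ ∧ Real.exp (G + 1) * I t ∈ Iic (I b₀)} ∪
          {t | t ∈ Icc a b₀ ∧ 2 * E t - K / 4 * I t ∈ Ici (0:ℝ)} := by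
        ext t
        simp only [hF, mem_ofPred_eq, mem_union, mem_Iic, mem_Ici]
        tauto
      rw [h3]
      exact h1.union h2
    have hm : sSup F ∈ F := hFc.csSup_mem hFne hFb
    set m := sSup F with hmdef
    have hNb : 2 * E b₀ ≤ K / 8 * I b₀ := by
      have h1 : Fr E I b₀ ≤ K / 8 := by linarith
      unfold Fr at h1
      rwa [div_le_iff₀ hIb] at h1
    have hKI : 0 < K * I b₀ := mul_pos hK0 hIb
    have hmb : m < b₀ := by
      refine lt_of_le_of_ne hm.1.2 ?_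
      intro heq
      rcases hm.2 with h3 | h3
      · rw [heq] at h3
        have : (1 : ℝ) < Real.exp (G + 1) := Real.one_lt_exp_iff.mpr (by linarith)
        nlinarith
      · rw [heq] at h3
        linarith
    have hgood : ∀ t ∈ Ioc m b₀, I b₀ ≤ Real.exp (G + 1) * I t ∧ 2 * E t - K / 4 * I t ≤ 0 := by
      intro t ht
      have htF : t ∉ F := fun hcon2 => absurd (le_csSup hFb hcon2) (not_le.mpr ht.1)
      have htI : t ∈ Icc a b₀ := ⟨hm.1.1.trans ht.1.le, ht.2⟩
      simp only [hF, mem_ofPred_eq, not_and, not_or, not_le] at htF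
      exact ⟨(htF htI).1.le, (htF htI).2.le⟩
    have hgood2 : ∀ t ∈ Icc m b₀, I b₀ ≤ Real.exp (G + 1) * I t ∧ 2 * E t ≤ K / 4 * I t := by
      have hc1 : ContinuousOn I (Icc m b₀) :=
        h'.continuousOn_I.mono (Icc_subset_Icc_left hm.1.1)
      have hc2 := hcE.mono (Icc_subset_Icc_left (b := b₀) hm.1.1)
      have h1 : IsClosed {t | t ∈ Icc m b₀ ∧ Real.exp (G + 1) * I t ∈ Ici (I b₀)} :=
        (hc1.const_mul (Real.exp (G + 1))).preimage_isClosed_of_isClosed isClosed_Icc isClosed_Ici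
      have h2 : IsClosed {t | t ∈ Icc m b₀ ∧ 2 * E t - K / 4 * I t ∈ Iic (0:ℝ)} :=
        hc2.preimage_isClosed_of_isClosed isClosed_Icc isClosed_Iic
      have h3 : Icc m b₀ ⊆ {t | t ∈ Icc m b₀ ∧ Real.exp (G + 1) * I t ∈ Ici (I b₀)} ∩
          {t | t ∈ Icc m b₀ ∧ 2 * E t - K / 4 * I t ∈ Iic (0:ℝ)} := by
        have h4 : Ioc m b₀ ⊆ {t | t ∈ Icc m b₀ ∧ Real.exp (G + 1) * I t ∈ Ici (I b₀)} ∩
            {t | t ∈ Icc m b₀ ∧ 2 * E t - K / 4 * I t ∈ Iic (0:ℝ)} := fun t ht =>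
          ⟨⟨Ioc_subset_Icc_self ht, (hgood t ht).1⟩, ⟨Ioc_subset_Icc_self ht, (hgood t ht).2⟩⟩
        have h5 := (h1.inter h2).closure_subset_iff.mpr h4
        rwa [closure_Ioc hmb.ne] at h5
      intro t ht
      have h6 := (h3 ht).2.2
      rw [mem_Iic] at h6
      exact ⟨(h3 ht).1.2, by linarith⟩
    have hGm : (K + (120 * C₀ + 61)) * (b₀ - m) + 5 / 4 + 40 * C₀ ≤ G := by
      have : (K + (120 * C₀ + 61)) * (b₀ - m) ≤ (K + (120 * C₀ + 61)) * (b₀ - a) :=
        mul_le_mul_of_nonneg_left (by linarith [hm.1.1]) (by linarith)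
      linarith
    obtain ⟨q1, q2, -, -, -⟩ := h.est hC hδ hw hK hy1 (by linarith [hm.1.1]) hm.1.2 hGm hy hN0 hIb
      hgood2
    have hIm : 0 < I m := by
      have h4 := q2 m (left_mem_Icc.mpr hmb.le)
      by_contra hcon2
      have h5 : Real.exp G * I m ≤ 0 :=
        mul_nonpos_of_nonneg_of_nonpos (Real.exp_pos _).le (not_lt.1 hcon2)
      linarith
    rcases hm.2 with h3 | h3
    · have h4 := q2 m (left_mem_Icc.mpr hmb.le)
      nlinarith
    · have h4 := q1 m b₀ le_rfl hmb.le le_rfl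
      have h5 := hsmall (b₀ - m) (by linarith [hm.1.1])
      have h6 : max (Fr E I b₀) 1 ≤ K / 8 := max_le (by linarith) (by linarith)
      have h7 : max (Fr E I m) 1 ≤ K / 8 * (103 / 100) :=
        h4.trans (mul_le_mul h6 h5 (Real.exp_pos _).le (by positivity))
      have h8 := le_max_left (Fr E I m) 1
      have h9 : Fr E I m ≤ K / 8 * (103 / 100) := h8.trans h7
      unfold Fr at h9
      rw [div_le_iff₀ hIm] at h9
      have h10 : 0 < K * I m := mul_pos hK0 hIm
      linarith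
  obtain ⟨q1, q2, q3, q4, q5⟩ := h.est hC hδ hw hK hy1 ha₀ hab0 hG hy hN0 hIb hall
  have hpos : ∀ t ∈ Icc a b₀, 0 < I t := by
    intro t ht
    have h1 := q2 t ht
    by_contra hcon
    have h2 : Real.exp G * I t ≤ 0 :=
      mul_nonpos_of_nonneg_of_nonpos (Real.exp_pos _).le (not_lt.1 hcon)
    linarith
  have q6 : ∀ l l', a ≤ l → l ≤ l' → l' ≤ b₀ → I l ≤ Real.exp (y * (l' - l)) * I l' := by
    intro l l' h1 h2 h3
    have h4 := q4 l l' h1 h2 h3
    have hl := hpos l ⟨h1, h2.trans h3⟩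
    have hl' := hpos l' ⟨h1.trans h2, h3⟩
    calc I l = Real.exp (Real.log (I l)) := (Real.exp_log hl).symm
      _ ≤ Real.exp (y * (l' - l) + Real.log (I l')) := Real.exp_le_exp.mpr (by linarith)
      _ = Real.exp (y * (l' - l)) * I l' := by rw [Real.exp_add, Real.exp_log hl']
  refine ⟨q1, q2, ?_, ?_, q5, q6⟩
  · intro h2
    have h3 : ∀ t ∈ Icc a b₀, 9 / 5 ≤ Fr E I t := by
      intro t ht
      have h4 := q1 a t le_rfl ht.1 ht.2
      have h5 := hsmall (t - a) (by linarith [ht.2])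
      have h6 : (19 / 10 : ℝ) ≤ max (Fr E I t) 1 * (103 / 100) := by
        calc (19 / 10 : ℝ) ≤ max (Fr E I a) 1 := h2.trans (le_max_left _ _)
          _ ≤ max (Fr E I t) 1 * Real.exp (22 * y * (t - a)) := h4
          _ ≤ max (Fr E I t) 1 * (103 / 100) :=
            mul_le_mul_of_nonneg_left h5 (le_trans zero_le_one (le_max_right _ _))
      rcases le_total (Fr E I t) 1 with h7 | h7
      · rw [max_eq_right h7] at h6
        norm_num at h6
      · rw [max_eq_left h7] at h6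
        linarith
    have h4 := q3 a b₀ (9 / 5) le_rfl hab0 le_rfl h3
    nlinarith
  · have h4 := q4 a b₀ le_rfl hab0 le_rfl
    nlinarith

/-- **window of any length** -/
theorem StepW.window {a₀ : ℝ} (h : StepW C₀ a₀ b₀ δ w I E e b R) (hC : 1 ≤ C₀) (hδ : 0 ≤ δ)
    (hw : 0 ≤ w) {y K G : ℝ} (hK : 32 ≤ K) (hy1 : y ≤ 1 / 100) (ha₀ : a₀ ≤ a - 1 / K)
    (hab0 : a ≤ b₀) (hyl : y * (b₀ - a) ≤ 1 / 1100)
    (hG : (K + (120 * C₀ + 61)) * (b₀ - a) + 5 / 4 + 40 * C₀ ≤ G)
    (hy : δ + w * Real.exp (G + 1) / I b₀ ≤ y) (hN0 : 8 * Fr E I b₀ ≤ K) (hIb : 0 < I b₀) :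
    (∀ l l', a ≤ l → l ≤ l' → l' ≤ b₀ →
        max (Fr E I l) 1 ≤ max (Fr E I l') 1 * Real.exp (22 * y * (l' - l))) ∧
      (∀ l ∈ Icc a b₀, I b₀ ≤ Real.exp G * I l) ∧
      (19 / 10 ≤ Fr E I a → b₀ - a ≤ (2 * a - Real.log (I a)) - (2 * b₀ - Real.log (I b₀))) ∧
      (-(3 * (b₀ - a)) ≤ (2 * a - Real.log (I a)) - (2 * b₀ - Real.log (I b₀))) ∧
      (∀ l ∈ Icc a b₀, -(4 * C₀ * K) < Fr E I l) := by
  obtain ⟨h1, h2, h3, h4, h5, -⟩ := h.window6 hC hδ hw hK hy1 ha₀ hab0 hyl hG hy hN0 hIb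
  exact ⟨h1, h2, h3, h4, h5⟩

/-- doubling exponent of one step -/
def GC (C₀ : ℝ) : ℝ := 48 * C₀ + 8

/-- **one step** (fixed reference surface), no lower bound of the frequency:
data on `[a - 1/K, b₀]`, `b₀ - a ≤ 2/K` -/
theorem StepW.step6 {a₀ : ℝ} (h : StepW C₀ a₀ b₀ δ w I E e b R) (hC : 1 ≤ C₀) (hδ : 0 ≤ δ)
    (hw : 0 ≤ w) {y K : ℝ} (hK : 32 ≤ K) (hy1 : y ≤ 1 / 100) (ha₀ : a₀ ≤ a - 1 / K)
    (hab0 : a ≤ b₀) (hab : b₀ - a ≤ 2 / K)
    (hy : δ + w * Real.exp (GC C₀ + 1) / I b₀ ≤ y) (hN0 : 8 * Fr E I b₀ ≤ K) (hIb : 0 < I b₀) :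
    (∀ l l', a ≤ l → l ≤ l' → l' ≤ b₀ →
        max (Fr E I l) 1 ≤ max (Fr E I l') 1 * Real.exp (22 * y * (l' - l))) ∧
      (∀ l ∈ Icc a b₀, I b₀ ≤ Real.exp (GC C₀) * I l) ∧
      (19 / 10 ≤ Fr E I a → b₀ - a ≤ (2 * a - Real.log (I a)) - (2 * b₀ - Real.log (I b₀))) ∧
      (-(3 * (b₀ - a)) ≤ (2 * a - Real.log (I a)) - (2 * b₀ - Real.log (I b₀))) ∧
      (∀ l ∈ Icc a b₀, -(4 * C₀ * K) < Fr E I l) ∧
      (∀ l l', a ≤ l → l ≤ l' → l' ≤ b₀ → I l ≤ Real.exp (y * (l' - l)) * I l') := by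
  have hK0 : 0 < K := by linarith
  have hh0 : 0 < 1 / K := by positivity
  have hy0 : 0 ≤ y := by
    have : 0 ≤ w * Real.exp (GC C₀ + 1) / I b₀ := by positivity
    linarith
  have h2K : 2 / K ≤ 1 / 16 := by
    rw [div_le_div_iff₀ hK0 (by norm_num)]; linarith
  refine h.window6 hC hδ hw hK hy1 ha₀ hab0 ?_ ?_ hy hN0 hIb
  · have h1 : y * (b₀ - a) ≤ 1 / 100 * (1 / 16) :=
      mul_le_mul hy1 (hab.trans h2K) (by linarith) (by norm_num)
    linarith
  · unfold GC
    have h1 : (K + (120 * C₀ + 61)) * (b₀ - a) ≤ (K + (120 * C₀ + 61)) * (2 / K) :=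
      mul_le_mul_of_nonneg_left hab (by linarith)
    have h2 : (K + (120 * C₀ + 61)) * (2 / K) = 2 + (120 * C₀ + 61) * (2 / K) := by
      field_simp
    have h3 : (120 * C₀ + 61) * (2 / K) ≤ (120 * C₀ + 61) * (1 / 16) :=
      mul_le_mul_of_nonneg_left h2K (by linarith)
    linarith

/-- **one step** -/
theorem StepW.step {a₀ : ℝ} (h : StepW C₀ a₀ b₀ δ w I E e b R) (hC : 1 ≤ C₀) (hδ : 0 ≤ δ)
    (hw : 0 ≤ w) {y K : ℝ} (hK : 32 ≤ K) (hy1 : y ≤ 1 / 100) (ha₀ : a₀ ≤ a - 1 / K)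
    (hab0 : a ≤ b₀) (hab : b₀ - a ≤ 2 / K)
    (hy : δ + w * Real.exp (GC C₀ + 1) / I b₀ ≤ y) (hN0 : 8 * Fr E I b₀ ≤ K) (hIb : 0 < I b₀) :
    (∀ l l', a ≤ l → l ≤ l' → l' ≤ b₀ →
        max (Fr E I l) 1 ≤ max (Fr E I l') 1 * Real.exp (22 * y * (l' - l))) ∧
      (∀ l ∈ Icc a b₀, I b₀ ≤ Real.exp (GC C₀) * I l) ∧
      (19 / 10 ≤ Fr E I a → b₀ - a ≤ (2 * a - Real.log (I a)) - (2 * b₀ - Real.log (I b₀))) ∧
      (-(3 * (b₀ - a)) ≤ (2 * a - Real.log (I a)) - (2 * b₀ - Real.log (I b₀))) ∧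
      (∀ l ∈ Icc a b₀, -(4 * C₀ * K) < Fr E I l) := by
  obtain ⟨h1, h2, h3, h4, h5, -⟩ := h.step6 hC hδ hw hK hy1 ha₀ hab0 hab hy hN0 hIb
  exact ⟨h1, h2, h3, h4, h5⟩

end Crest.Agent.R234.Nb_290
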