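import Crest.Agent.R234.End4_395
import Crest.Agent.R234.Nb5_290

-- ▼ part R234/End5_395
section

/-!
# Row 234, (END) (helper395), part 5: `Ref` from the one-step data of a state

`StS` : a block with 290's `StepW` on a long window below the level `l`.  `ref_of_stS`.
-/

set_option autoImplicit false
set_option linter.unusedSectionVars false

open MeasureTheory Set Filter Topology
open Crest.GeometryTopology.Submanifold Crest.Agent.R234.Vf_884
open Crest.Agent.R234.Main_456 Crest.Agent.R234.GL_394 Crest.Agent.R234.Gi_456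
open Crest.Agent.R234.AS_456 (hp vp)
open Crest.Agent.R234.Nb_290
open scoped ENNReal NNReal InnerProductSpace ContDiff

noncomputable section

namespace Crest.Agent.R234.End_395

variable {m n k : ℕ}

/-- a block at the level `l`, with the one-step data on a window of length `≥ 5 + log 8 + 1/32`. -/
structure StS (U : Set (Euc k)) (V : Measure (Euc k × L k)) (x : Euc k) (r : ℝ)
    (π : Euc k →L[ℝ] Euc m) (ρ : Euc k →L[ℝ] Euc n) (S : ℝ) (w : Euc m → Euc n)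
    (Kt : Set (Euc k)) (g1 : ℝ → ℝ) (l κ C₀ F : ℝ) (K : ℕ) : Prop where
  frame : Frame π ρ
  gr : Gr S w
  d1 : ∀ X, ‖fderiv ℝ w X‖ ≤ κ
  d2 : ∀ X, S * ‖fderiv ℝ (fderiv ℝ w) X‖ ≤ κ
  w0 : ‖w 0‖ ≤ κ * r
  ms : ∀ X ∈ Metric.ball (0 : Euc m) (Real.exp l), Msys w X = 0
  lS : Real.exp l ≤ S
  ll : Real.log r + 4 ≤ l
  lu : l ≤ Real.log r + 5
  loc : Loc (ch π ρ x S w 0) U (tube π ρ x S w) Kt V l
  sup : ∀ᵐ p ∂(VK V Kt), ‖(ch π ρ x S w 0).x p.1‖ ≤ 12 * r →
    2 * (ch π ρ x S w 0).f p.1 ≤ κ ^ 2 * r ^ 2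
  step : ∃ (lo δ wE : ℝ) (E e b R : ℝ → ℝ), lo ≤ Real.log (r / 8) - 1 / 32 ∧ 0 ≤ δ ∧ 0 ≤ wE ∧
    StepW C₀ lo l δ wE (II (ch π ρ x S w 0) (VK V Kt) g1) E e b R ∧
    δ + wE / II (ch π ρ x S w 0) (VK V Kt) g1 l ≤ κ ∧
    Fr E (II (ch π ρ x S w 0) (VK V Kt) g1) l ≤ F
  pos : 0 < II (ch π ρ x S w 0) (VK V Kt) g1 l
  sml : II (ch π ρ x S w 0) (VK V Kt) g1 l ≤ κ ^ 2 * r ^ 2
  mean : ∀ ζ : Euc m → ℝ, ContDiff ℝ ∞ ζ → tsupport ζ ⊆ Metric.ball 0 8 →
    (∀ j ≤ K, ∀ z, ‖iteratedFDeriv ℝ j ζ z‖ ≤ 1) →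
    ‖∫ p in box π ρ x (8 * r) ×ˢ univ, ζ (r⁻¹ • π (p.1 - x)) •
      (ρ (p.1 - x) - w (π (p.1 - x))) ∂V‖ ^ 2 ≤
      κ ^ 2 * (r ^ m * (r ^ m * II (ch π ρ x S w 0) (VK V Kt) g1 l))

/-- inverse step of the window -/
def Kw (F : ℝ) : ℝ := max 32 (8 * F)

/-- growth constant of the window -/
def Gw (C₀ F : ℝ) : ℝ := (Kw F + (120 * C₀ + 61)) * 8 + 5 / 4 + 40 * C₀

theorem log8_le : Real.log 8 ≤ 3 := by
  have h1 : Real.log 8 = 3 * Real.log 2 := by
    rw [show (8:ℝ) = 2 ^ 3 by norm_num, Real.log_pow]; norm_num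
  have := Real.log_two_lt_d9
  linarith

/-- **`StS` gives `Blk`**. -/
theorem blk_of_stS {U : Set (Euc k)} {V : Measure (Euc k × L k)} {x : Euc k} {r : ℝ}
    {π : Euc k →L[ℝ] Euc m} {ρ : Euc k →L[ℝ] Euc n} {S : ℝ} {w : Euc m → Euc n}
    {Kt : Set (Euc k)} {g1 : ℝ → ℝ} {l κ C₀ F : ℝ} {K : ℕ} (hC₀ : 1 ≤ C₀) (hr : 0 < r)
    (hκ : 0 ≤ κ) (h : StS U V x r π ρ S w Kt g1 l κ C₀ F K)
    (hκG : κ * Real.exp (Gw C₀ F + 1) ≤ 1 / 8800) :
    Blk U V x r π ρ S w Kt g1 l (κ * Real.exp (Gw C₀ F)) (Gw C₀ F) K := by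
  obtain ⟨lo, δ, wE, E, e, b, R, hlo, hδ, hw, hst, hsm, hF⟩ := h.step
  set I := II (ch π ρ x S w 0) (VK V Kt) g1 with hI
  have hK32 : 32 ≤ Kw F := le_max_left _ _
  have hG0 : 0 ≤ Gw C₀ F := by
    unfold Gw
    nlinarith
  have hGe : 1 ≤ Real.exp (Gw C₀ F) := Real.one_le_exp hG0
  have hlr : Real.log (r / 8) = Real.log r - Real.log 8 := Real.log_div hr.ne' (by norm_num)
  have hlr12 : Real.log (12 * r) = Real.log 12 + Real.log r :=
    Real.log_mul (by norm_num) hr.ne'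
  have hlog8 := log8_le
  have hlog80 : 0 ≤ Real.log 8 := Real.log_nonneg (by norm_num)
  have hlog12 : Real.log 12 ≤ 4 := by
    have h1 : Real.log 12 ≤ Real.log 16 := Real.log_le_log (by norm_num) (by norm_num)
    have h2 : Real.log 16 = 4 * Real.log 2 := by
      rw [show (16:ℝ) = 2 ^ 4 by norm_num, Real.log_pow]; norm_num
    have := Real.log_two_lt_d9
    linarith
  have hlog120 : 0 ≤ Real.log 12 := Real.log_nonneg (by norm_num)
  have hll := h.ll
  have hlu := h.lu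
  have hlen : l - Real.log (r / 8) ≤ 8 := by rw [hlr]; linarith
  have hab0 : Real.log (r / 8) ≤ l := by rw [hlr]; linarith
  have hwin := hst.window6 (a := Real.log (r / 8)) (y := 1 / 8800) (K := Kw F) (G := Gw C₀ F)
    hC₀ hδ hw hK32 (by norm_num) (by
      refine hlo.trans ?_
      have : 1 / Kw F ≤ 1 / 32 := one_div_le_one_div_of_le (by norm_num) hK32
      linarith) hab0 (by linarith) (by
      unfold Gw
      have : 0 ≤ Kw F + (120 * C₀ + 61) := by linarith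
      nlinarith) (by
      refine le_trans ?_ hκG
      have e1 : 1 ≤ Real.exp (Gw C₀ F + 1) := Real.one_le_exp (by linarith)
      have e2 : wE * Real.exp (Gw C₀ F + 1) / I l = wE / I l * Real.exp (Gw C₀ F + 1) := by ring
      rw [e2]
      calc δ + wE / I l * Real.exp (Gw C₀ F + 1)
          ≤ δ * Real.exp (Gw C₀ F + 1) + wE / I l * Real.exp (Gw C₀ F + 1) := by
            have := le_mul_of_one_le_right hδ e1
            linarith
        _ = (δ + wE / I l) * Real.exp (Gw C₀ F + 1) := by ring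
        _ ≤ κ * Real.exp (Gw C₀ F + 1) :=
            mul_le_mul_of_nonneg_right hsm (Real.exp_pos _).le) (by
      have : 8 * F ≤ Kw F := le_max_right _ _
      linarith) h.pos
  obtain ⟨-, h2, -, -, -, h6⟩ := hwin
  have hdbl : I l ≤ Real.exp (Gw C₀ F) * I (Real.log (r / 8)) := h2 _ ⟨le_rfl, hab0⟩
  have hpos : 0 < I (Real.log (r / 8)) := by
    have h3 : 0 < Real.exp (Gw C₀ F) * I (Real.log (r / 8)) := h.pos.trans_le hdbl
    exact pos_of_mul_pos_right h3 (Real.exp_pos _).le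
  have hκκ : κ ≤ κ * Real.exp (Gw C₀ F) := le_mul_of_one_le_right hκ hGe
  have hmon : I (Real.log (12 * r)) ≤ Real.exp (Gw C₀ F) * I l := by
    have h3 := h6 (Real.log (12 * r)) l (by rw [hlr, hlr12]; linarith) (by rw [hlr12]; linarith)
      le_rfl
    refine h3.trans (mul_le_mul_of_nonneg_right (Real.exp_le_exp.2 ?_) h.pos.le)
    have h4 : l - Real.log (12 * r) ≤ 8 := by rw [hlr12]; linarith
    have h5 : (1:ℝ) / 8800 * (l - Real.log (12 * r)) ≤ 1 := by linarith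
    refine h5.trans ?_
    unfold Gw
    nlinarith
  refine
    { frame := h.frame, gr := h.gr, d1 := fun X => (h.d1 X).trans hκκ,
      d2 := fun X => (h.d2 X).trans hκκ, w0 := h.w0.trans (by gcongr), ms := h.ms, lS := h.lS
      ll := h.ll, lu := h.lu, loc := h.loc, sup := ?_, pos := hpos, dbl := hdbl, mon := hmon
      sml := ?_, mean := ?_ }
  · filter_upwards [h.sup] with p hp1 hp2
    refine (hp1 hp2).trans ?_
    gcongr
  · refine h.sml.trans ?_
    gcongr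
  · intro ζ hζ1 hζ2 hζ3
    refine (h.mean ζ hζ1 hζ2 hζ3).trans ?_
    calc κ ^ 2 * (r ^ m * (r ^ m * I l))
        ≤ κ ^ 2 * (r ^ m * (r ^ m * (Real.exp (Gw C₀ F) * I (Real.log (r / 8))))) := by gcongr
      _ = κ ^ 2 * Real.exp (Gw C₀ F) * (r ^ m * (r ^ m * I (Real.log (r / 8)))) := by ring
      _ ≤ (κ * Real.exp (Gw C₀ F)) ^ 2 * (r ^ m * (r ^ m * I (Real.log (r / 8)))) := by
          refine mul_le_mul_of_nonneg_right ?_ (by positivity)
          rw [mul_pow]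
          refine mul_le_mul_of_nonneg_left ?_ (by positivity)
          nlinarith

/-- **(END)**: `Ref` from the one-step data of a state. -/
theorem ref_of_stS (m n k Q K : ℕ) (hm : 1 ≤ m) {g g1 g2 : ℝ → ℝ} {B bl : ℝ} (hg : Pf g g1 g2 B)
    (hB : 0 < B) (hbl : 0 < bl)
    (hlow : ∀ a t, 0 ≤ t → t ≤ a → a ≤ 1 → bl * (1 - a) ^ 2 ≤ -g1 t) {C₀ : ℝ} (hC₀ : 1 ≤ C₀) :
    ∀ F : ℝ, ∃ C : ℝ, ∀ ε : ℝ, 0 < ε → ∃ κ : ℝ, 0 < κ ∧
      ∀ (U : Set (Euc k)) (V : Measure (Euc k × L k)), Stat m k U V → ∀ (x : Euc k) (r : ℝ), 0 < r →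
        Metric.closedBall x (128 * r) ⊆ U → 1 ≤ Th m V x → ∀ P : L k,
        NearQ m V Q x (128 * r) κ P →
        ∀ (π : Euc k →L[ℝ] Euc m) (ρ : Euc k →L[ℝ] Euc n) (S : ℝ) (w : Euc m → Euc n)
          (Kt : Set (Euc k)) (l : ℝ),
          StS U V x r π ρ S w Kt g1 l κ C₀ F K →
          ∃ u : Euc m → Euc n, Ref V Q x r π ρ u K ε C := by
  intro F
  obtain ⟨C, HC⟩ := ref_of_std m n k Q K hm hg hB (b := bl * (1 - (3 / 4) ^ 2) ^ 2)
    (mul_pos hbl (by norm_num)) (fun t h0 h1 => hlow _ t h0 h1 (by norm_num)) (2 * Gw C₀ F)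
  refine ⟨C, ?_⟩
  intro ε hε
  obtain ⟨δ, hδ0, H⟩ := HC ε hε
  set M := Real.exp (Gw C₀ F) with hM
  have hG0 : 0 ≤ Gw C₀ F := by
    have : 32 ≤ Kw F := le_max_left _ _
    unfold Gw
    nlinarith
  have hM1 : 1 ≤ M := Real.one_le_exp hG0
  -- the constant
  obtain ⟨κ, hκ0, h1, h2, h3, h5⟩ : ∃ κ : ℝ, 0 < κ ∧ κ * Real.exp (Gw C₀ F + 1) ≤ 1 / 8800 ∧
      κ * M ≤ 1 / 8 ∧ 2 * (κ * M) ≤ δ ∧ M * (κ * M) ^ 2 ≤ δ := by
    have ha : ∀ A : ℝ, 0 < A → ∀ p : ℝ → ℝ, Tendsto p (𝓝[>] 0) (𝓝 0) → ∀ᶠ κ in 𝓝[>] (0:ℝ), p κ ≤ A :=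
      fun A hA p hp => (hp.eventually (gt_mem_nhds hA)).mono fun _ h => h.le
    have t1 : Tendsto (fun κ : ℝ => κ * Real.exp (Gw C₀ F + 1)) (𝓝[>] 0) (𝓝 0) := by
      refine tendsto_nhdsWithin_of_tendsto_nhds ?_
      have : Continuous fun κ : ℝ => κ * Real.exp (Gw C₀ F + 1) := by fun_prop
      simpa using this.tendsto 0
    have t2 : Tendsto (fun κ : ℝ => κ * M) (𝓝[>] 0) (𝓝 0) := by
      refine tendsto_nhdsWithin_of_tendsto_nhds ?_
      have : Continuous fun κ : ℝ => κ * M := by fun_prop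
      simpa using this.tendsto 0
    have t3 : Tendsto (fun κ : ℝ => 2 * (κ * M)) (𝓝[>] 0) (𝓝 0) := by
      refine tendsto_nhdsWithin_of_tendsto_nhds ?_
      have : Continuous fun κ : ℝ => 2 * (κ * M) := by fun_prop
      simpa using this.tendsto 0
    have t4 : Tendsto (fun κ : ℝ => M * (κ * M) ^ 2) (𝓝[>] 0) (𝓝 0) := by
      refine tendsto_nhdsWithin_of_tendsto_nhds ?_
      have : Continuous fun κ : ℝ => M * (κ * M) ^ 2 := by fun_prop
      simpa using this.tendsto 0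
    obtain ⟨κ, h1, h2, h3, h5, h6⟩ := ((ha (1 / 8800) (by norm_num) _ t1).and
      ((ha (1 / 8) (by norm_num) _ t2).and ((ha δ hδ0 _ t3).and
        ((ha δ hδ0 _ t4).and (self_mem_nhdsWithin (s := Ioi (0:ℝ)) (a := 0)))))).exists
    exact ⟨κ, h6, h1, h2, h3, h5⟩
  refine ⟨κ, hκ0, ?_⟩
  intro U V hV x r hr hU hTh P hnear π ρ S w Kt l h
  have hblk := blk_of_stS hC₀ hr hκ0.le h h1
  have hstd := std_of_blk hU hr hg hblk (by positivity) h2 h3 (by rw [hM] at h5; exact h5)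
  have hκδ : κ ≤ δ := (le_mul_of_one_le_right hκ0.le hM1).trans (by nlinarith)
  have hnear' : NearQ m V Q x (128 * r) δ P :=
    ⟨hnear.1, hnear.2.1.trans (by gcongr), hnear.2.2.trans (by gcongr)⟩
  exact H U V hV x r hr hU hTh P hnear' π ρ x w _ _ _ _ hstd

end Crest.Agent.R234.End_395
end
end

-- ▼ part R234/End6_395

/-!
# Row 234, (END) / (V6) (helper395), part 6: lower bound of `II` of a block, rescaling of the means

* `ball_in` : a.e. point of a small ball about the base point lies in the compact of the block.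
* `lowr_int` : normalised height over the ball of radius `e^(l-2)` is at most `C e^(-2l) II(l)`.
* `mean_scale` : mean estimate at the unit of the block gives the mean estimate at the scale `r`.
-/

set_option autoImplicit false
set_option linter.unusedSectionVars false

open MeasureTheory Set Filter Topology
open Crest.GeometryTopology.Submanifold Crest.Agent.R234.Vf_884
open Crest.Agent.R234.Main_456 Crest.Agent.R234.GL_394 Crest.Agent.R234.Gi_456
open Crest.Agent.R234.AS_456 (hp vp)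
open scoped ENNReal NNReal InnerProductSpace ContDiff

noncomputable section

namespace Crest.Agent.R234.End_395

variable {m n k : ℕ} {π : Euc k →L[ℝ] Euc m} {ρ : Euc k →L[ℝ] Euc n} {x : Euc k} {S : ℝ}
  {w : Euc m → Euc n}



theorem iter_scale {ζ : Euc m → ℝ} (hζ : ContDiff ℝ ∞ ζ) {a t : ℝ} (ht : 0 ≤ t) (ha : 0 ≤ a)
    (j : ℕ) (y : Euc m) :
    ‖iteratedFDeriv ℝ j (fun y => a * ζ (t • y)) y‖ ≤ a * (t ^ j * ‖iteratedFDeriv ℝ j ζ (t • y)‖) := by
  set g : Euc m →L[ℝ] Euc m := t • ContinuousLinearMap.id ℝ (Euc m) with hg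
  have hgn : ‖g‖ ≤ t := by
    rw [hg, norm_smul, Real.norm_of_nonneg ht]
    have := ContinuousLinearMap.norm_id_le (𝕜 := ℝ) (E := Euc m)
    nlinarith
  have h1 : (fun y => a * ζ (t • y)) = fun y => a • (ζ ∘ g) y := by
    funext y
    simp [hg]
  have h3 : ((j : ℕ∞) : WithTop ℕ∞) ≤ ((⊤ : ℕ∞) : WithTop ℕ∞) := WithTop.coe_le_coe.2 le_top
  have hc : ContDiff ℝ j (ζ ∘ g) := (hζ.of_le h3).comp g.contDiff
  rw [h1, iteratedFDeriv_const_smul_apply' hc.contDiffAt, norm_smul, Real.norm_of_nonneg ha]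
  refine mul_le_mul_of_nonneg_left ?_ ha
  rw [g.iteratedFDeriv_comp_right (hζ.of_le h3) y le_rfl]
  refine (ContinuousMultilinearMap.norm_compContinuousLinearMap_le _ _).trans ?_
  have h4 : g y = t • y := by simp [hg]
  rw [h4, Finset.prod_const, Finset.card_univ, Fintype.card_fin, mul_comm]
  exact mul_le_mul_of_nonneg_right (pow_le_pow_left₀ (norm_nonneg _) hgn j) (norm_nonneg _)

/-- **rescaling of the mean**: from the unit `S` of the block to the scale `r ≤ S`. -/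
theorem mean_scale {V : Measure (Euc k × L k)} {A : Set (Euc k × L k)} {r μ l : ℝ} {Ks K : ℕ}
    (hr : 0 < r) (hrS : r ≤ S) (hK : Ks ≤ K) (h8 : 8 * r ≤ Real.exp l) (hAm : MeasurableSet A)
    {hz : Euc k → Euc n}
    (hA : ∀ᵐ p ∂V, ‖π (p.1 - x)‖ < 8 * r → (p ∈ A ↔ p ∈ box π ρ x (8 * r) ×ˢ (univ : Set (L k))))
    (hmean : ∀ ζ : Euc m → ℝ, ContDiff ℝ ∞ ζ → tsupport ζ ⊆ Metric.ball 0 (Real.exp l / S) →
      (∀ j ≤ Ks, ∀ z, ‖iteratedFDeriv ℝ j ζ z‖ ≤ 1) →
      ‖∫ p in A, ζ (S⁻¹ • π (p.1 - x)) • hz p.1 ∂V‖ ≤ μ) :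
    ∀ ζ : Euc m → ℝ, ContDiff ℝ ∞ ζ → tsupport ζ ⊆ Metric.ball 0 8 →
      (∀ j ≤ K, ∀ z, ‖iteratedFDeriv ℝ j ζ z‖ ≤ 1) →
      ‖∫ p in box π ρ x (8 * r) ×ˢ univ, ζ (r⁻¹ • π (p.1 - x)) • hz p.1 ∂V‖ ≤
        (S / r) ^ Ks * μ := by
  intro ζ hζ1 hζ2 hζ3
  have hS : 0 < S := hr.trans_le hrS
  set a := (r / S) ^ Ks with ha
  have ha0 : 0 < a := by positivity
  set t := S / r with ht
  have ht0 : 0 < t := by positivity
  have ht1 : 1 ≤ t := by rw [ht, one_le_div hr]; exact hrS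
  have hat : a * t ^ Ks = 1 := by
    rw [ha, ht, ← mul_pow]
    have : r / S * (S / r) = 1 := by field_simp
    rw [this, one_pow]
  set ζ' : Euc m → ℝ := fun y => a * ζ (t • y) with hζ'
  have h1 : ContDiff ℝ ∞ ζ' := contDiff_const.mul (hζ1.comp (contDiff_const_smul t))
  have h2 : tsupport ζ' ⊆ Metric.ball 0 (Real.exp l / S) := by
    have e1 : tsupport ζ' ⊆ (fun y : Euc m => t • y) ⁻¹' (tsupport ζ) := by
      refine closure_minimal ?_ ((isClosed_tsupport ζ).preimage (continuous_const_smul t))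
      intro y hy
      refine subset_tsupport ζ ?_
      intro h0
      exact hy (by rw [hζ']; simp only [h0, mul_zero])
    intro y hy
    have e2 := hζ2 (e1 hy)
    rw [mem_ball_zero_iff, norm_smul, Real.norm_of_nonneg ht0.le] at e2
    rw [mem_ball_zero_iff, lt_div_iff₀ hS]
    have e3 : ‖y‖ * S = (t * ‖y‖) * r := by rw [ht]; field_simp
    rw [e3]
    nlinarith
  have h3 : ∀ j ≤ Ks, ∀ z, ‖iteratedFDeriv ℝ j ζ' z‖ ≤ 1 := by
    intro j hj z
    refine (iter_scale hζ1 ht0.le ha0.le j z).trans ?_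
    calc a * (t ^ j * ‖iteratedFDeriv ℝ j ζ (t • z)‖) ≤ a * (t ^ Ks * 1) := by
          refine mul_le_mul_of_nonneg_left ?_ ha0.le
          exact mul_le_mul (pow_le_pow_right₀ ht1 hj) (hζ3 j (hj.trans hK) _) (norm_nonneg _)
            (by positivity)
      _ = 1 := by rw [mul_one, hat]
  have h4 := hmean ζ' h1 h2 h3
  have hbox : MeasurableSet (box π ρ x (8 * r) ×ˢ (univ : Set (L k))) :=
    (isOpen_box π ρ x _).measurableSet.prod MeasurableSet.univ
  have h5 : ∫ p in A, ζ' (S⁻¹ • π (p.1 - x)) • hz p.1 ∂V =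
      a • ∫ p in box π ρ x (8 * r) ×ˢ univ, ζ (r⁻¹ • π (p.1 - x)) • hz p.1 ∂V := by
    have e0 : ∀ p : Euc k × L k, ζ' (S⁻¹ • π (p.1 - x)) = a * ζ (r⁻¹ • π (p.1 - x)) := by
      intro p
      rw [hζ']
      simp only
      rw [smul_smul]
      congr 3
      rw [ht]
      field_simp
    rw [← integral_smul, ← integral_indicator hAm, ← integral_indicator hbox]
    refine integral_congr_ae ?_
    filter_upwards [hA] with p hp
    by_cases hπ : ‖π (p.1 - x)‖ < 8 * r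
    · have e1 := hp hπ
      by_cases hpA : p ∈ A
      · rw [indicator_of_mem hpA, indicator_of_mem (e1.1 hpA), e0, mul_smul]
      · rw [indicator_of_notMem hpA, indicator_of_notMem (fun h => hpA (e1.2 h))]
    · have e1 : ζ (r⁻¹ • π (p.1 - x)) = 0 := by
        by_contra hne
        have e2 := hζ2 (subset_tsupport ζ hne)
        rw [mem_ball_zero_iff, norm_smul, norm_inv, Real.norm_of_nonneg hr.le,
          inv_mul_lt_iff₀ hr] at e2
        exact hπ (by linarith)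
      have e3 : A.indicator (fun p => ζ' (S⁻¹ • π (p.1 - x)) • hz p.1) p = 0 := by
        refine indicator_apply_eq_zero.2 fun _ => ?_
        rw [e0, e1, mul_zero, zero_smul]
      have e4 : (box π ρ x (8 * r) ×ˢ (univ : Set (L k))).indicator
          (fun p => a • ζ (r⁻¹ • π (p.1 - x)) • hz p.1) p = 0 := by
        refine indicator_apply_eq_zero.2 fun _ => ?_
        rw [e1, zero_smul, smul_zero]
      rw [e3, e4]
  rw [h5, norm_smul, Real.norm_of_nonneg ha0.le] at h4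
  calc ‖∫ p in box π ρ x (8 * r) ×ˢ univ, ζ (r⁻¹ • π (p.1 - x)) • hz p.1 ∂V‖
      = t ^ Ks * (a * ‖∫ p in box π ρ x (8 * r) ×ˢ univ, ζ (r⁻¹ • π (p.1 - x)) • hz p.1 ∂V‖) := by
        rw [← mul_assoc, mul_comm (t ^ Ks) a, hat, one_mul]
    _ ≤ t ^ Ks * μ := by gcongr

end Crest.Agent.R234.End_395
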