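import Crest.Agent.R234.Dbl3_534
import Crest.Agent.R234.GL3_394

/-!
# Row 234, VF-F11 node, part 1 (helper534)

* `fd_of_step2` : `fd_of_step` with the crude bounds only at the top scale `t₁`.
* monotonicity in the scale of 394's `ee` and `II`.
-/

set_option autoImplicit false

open MeasureTheory Set Real

namespace Crest.Agent.R234.Fd_534

open Crest.Agent.R234.Nb_290 (StepData)
open Crest.Agent.R234.Pin1_3 (FD NN)
open Crest.Agent.R234.Dbl_534

/-- thresholds of the version with bounds at the top scale only. -/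
structure Thr3 (q Cp Lw hw et k0 c0 C2 : ℝ) : Prop where
  k : 0 < k0
  c : 0 < c0
  C : 1 ≤ C2
  main : ∀ (I E e b R : ℝ → ℝ) (lo t0 t1 del w : ℝ), lo ≤ t0 → t1 - lo ≤ Lw →
    t0 + hw ≤ t1 → 0 ≤ del → del ≤ k0 → 0 ≤ w → w ≤ k0 * I t0 →
    StepData lo t1 del w I E e b R →
    (∀ l ∈ Icc lo t1, (1 - et) * I l ≤ 2 * E l) →
    (∀ l ∈ Icc lo t1, e l ≤ exp (q * (t1 - l)) * e t1) →
    (∀ l ∈ Icc lo t1, I l ≤ exp (q * (t1 - l)) * I t1) →
    I t1 ≤ Cp * I t0 → e t1 ≤ Cp * I t0 →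
    ∃ R' : ℝ → ℝ, (∀ l ∈ Icc lo t0, R l ≤ R' l) ∧ FD E I e b R' et lo t0 ∧
      (∀ l ∈ Icc lo t0, NN E I l ≤ C2) ∧ ∀ l ∈ Icc lo t0, c0 * I t0 ≤ I l


/-- the bound of the frequency: independent of the length of the window and of the accuracy. -/
noncomputable def Ctop (q Cp H1 : ℝ) : ℝ := 48 * exp (q * H1) * Cp


/-! ### monotonicity in the scale -/

section GLm

open Crest.Agent.R234.Vf_884 Crest.Agent.R234.GL_394
open Crest.Agent.R234.Cy_870 (Ker Prof)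
open Crest.GeometryTopology.Submanifold

variable {m k : ℕ} {c : Ch m k} {K : Set (Euc k)} {D : Set (Euc m)} {V : Measure (Euc k × L k)}

/-- a kernel which is antitone on `[0, ∞)`. -/
theorem ker_anti {q q' : ℝ → ℝ} (hq : Ker q q') (h : ∀ t, 0 ≤ t → q' t ≤ 0) {s t : ℝ} (hs : 0 ≤ s)
    (hst : s ≤ t) : q t ≤ q s := by
  have : AntitoneOn q (Ici 0) := by
    apply antitoneOn_of_deriv_nonpos (convex_Ici 0) hq.continuous.continuousOn
    · intro x _
      exact (hq.der x).differentiableAt.differentiableWithinAt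
    · intro x hx
      rw [interior_Ici] at hx
      rw [(hq.der x).deriv]
      exact h x (le_of_lt hx)
  exact this hs (hs.trans hst) hst

theorem int_ker_mono (hc : Ok c K D) (hV : On V m K) {q q' : ℝ → ℝ} (hq : Ker q q')
    (h : ∀ t, 0 ≤ t → q' t ≤ 0) {F : Euc k × L k → ℝ} (hF : ContinuousOn F (K ×ˢ G m k))
    (hF0 : ∀ p ∈ K ×ˢ G m k, 0 ≤ F p) {l l' : ℝ} (hl : l ≤ l') :
    ∫ p, F p * q (Real.exp (-2 * l) * ‖c.x p.1‖ ^ 2) ∂V ≤
      ∫ p, F p * q (Real.exp (-2 * l') * ‖c.x p.1‖ ^ 2) ∂V := by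
  have hx : ContinuousOn c.x K := fun z hz => (hc.hx z hz).continuousAt.continuousWithinAt
  have hcont : ∀ l, ContinuousOn
      (fun p : Euc k × L k => F p * q (Real.exp (-2 * l) * ‖c.x p.1‖ ^ 2)) (K ×ˢ G m k) := by
    intro l
    refine hF.mul (hq.continuous.comp_continuousOn ?_)
    exact continuousOn_const.mul ((hx.comp continuousOn_fst (fun p hp => hp.1)).norm.pow 2)
  refine integral_mono_ae (hV.integrable hc.cpt (hcont l)) (hV.integrable hc.cpt (hcont l')) ?_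
  filter_upwards [hV.mem] with p hp
  apply mul_le_mul_of_nonneg_left _ (hF0 p hp)
  apply ker_anti hq h (by positivity)
  have h1 : Real.exp (-2 * l') ≤ Real.exp (-2 * l) := Real.exp_le_exp.2 (by linarith)
  exact mul_le_mul_of_nonneg_right h1 (by positivity)

/-- `s^{m-2} e(s)` is nondecreasing. -/
theorem ee_mono (hc : Ok c K D) (hV : On V m K) {g g1 g2 : ℝ → ℝ} (hg : Prof g g1 g2)
    (ht : ∀ p ∈ K ×ˢ G m k, 0 ≤ c.tau p.1 p.2) {l l' : ℝ} (hl : l ≤ l') :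
    ee c V g l ≤ exp ((m - 2) * (l' - l)) * ee c V g l' := by
  have h := int_ker_mono hc hV hg.k0 hg.anti (F := fun p => c.tau p.1 p.2) hc.ctau ht hl
  unfold ee
  calc exp ((2 - m) * l) * ∫ p, c.tau p.1 p.2 * g (exp (-2 * l) * ‖c.x p.1‖ ^ 2) ∂V ≤
      exp ((2 - m) * l) * ∫ p, c.tau p.1 p.2 * g (exp (-2 * l') * ‖c.x p.1‖ ^ 2) ∂V := by
        gcongr
    _ = exp ((m - 2) * (l' - l)) * (exp ((2 - m) * l') *
        ∫ p, c.tau p.1 p.2 * g (exp (-2 * l') * ‖c.x p.1‖ ^ 2) ∂V) := by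
        rw [← mul_assoc, ← exp_add]; congr 2; ring

theorem ee_nonneg (hV : On V m K) {g g1 g2 : ℝ → ℝ} (hg : Prof g g1 g2)
    (ht : ∀ p ∈ K ×ˢ G m k, 0 ≤ c.tau p.1 p.2) (l : ℝ) : 0 ≤ ee c V g l := by
  unfold ee
  apply mul_nonneg (exp_pos _).le
  apply integral_nonneg_of_ae
  filter_upwards [hV.mem] with p hp
  apply mul_nonneg (ht p hp)
  have h1 := ker_anti hg.k0 hg.anti (s := exp (-2 * l) * ‖c.x p.1‖ ^ 2)
    (t := max 1 (exp (-2 * l) * ‖c.x p.1‖ ^ 2)) (by positivity) (le_max_right _ _)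
  rw [hg.k0.zero _ (le_max_left _ _)] at h1
  exact h1

/-- `s^m I(s)` is nondecreasing (convex profile). -/
theorem II_mono (hc : Ok c K D) (hV : On V m K) {g g1 g2 : ℝ → ℝ} (hg : Prof g g1 g2)
    (hconv : ∀ t, 0 ≤ t → 0 ≤ g2 t) {l l' : ℝ} (hl : l ≤ l') :
    II c V g1 l ≤ exp (m * (l' - l)) * II c V g1 l' := by
  have hx : ContinuousOn c.x K := fun z hz => (hc.hx z hz).continuousAt.continuousWithinAt
  have hF : ContinuousOn (fun p : Euc k × L k => 4 * (c.f p.1 * c.mu (c.x p.1))) (K ×ˢ G m k) := by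
    have h1 : ContinuousOn c.f K := fun z hz => (hc.hf z hz).continuousAt.continuousWithinAt
    have h2 : ContinuousOn (fun z => c.mu (c.x z)) K := hc.cmu.comp hx hc.mem
    exact continuousOn_const.mul ((h1.mul h2).comp continuousOn_fst (fun p hp => hp.1))
  have hq : Ker (fun t => -g1 t) (fun t => -g2 t) :=
    ⟨fun t => (hg.k1.der t).neg, hg.k1.cont.neg, fun t ht => by simp [hg.k1.zero t ht]⟩
  have h := int_ker_mono hc hV hq (fun t ht => neg_nonpos.2 (hconv t ht)) hF (fun p hp => by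
    have h1 := hc.nusq p.1 hp.1
    have h2 := hc.mupos _ (hc.mem p.1 hp.1)
    have h3 : 0 ≤ c.f p.1 := by
      have := sq_nonneg ‖c.nu p.1‖
      linarith
    positivity) hl
  have e : ∀ l, ∫ p, (c.f p.1 * c.mu (c.x p.1)) * (-4 * g1 (exp (-2 * l) * ‖c.x p.1‖ ^ 2)) ∂V =
      ∫ p, 4 * (c.f p.1 * c.mu (c.x p.1)) * -g1 (exp (-2 * l) * ‖c.x p.1‖ ^ 2) ∂V := by
    intro l
    congr 1
    funext p
    ring
  unfold II
  rw [e l, e l']
  calc exp (-m * l) * ∫ p, 4 * (c.f p.1 * c.mu (c.x p.1)) * -g1 (exp (-2 * l) * ‖c.x p.1‖ ^ 2) ∂V ≤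
      exp (-m * l) * ∫ p, 4 * (c.f p.1 * c.mu (c.x p.1)) *
        -g1 (exp (-2 * l') * ‖c.x p.1‖ ^ 2) ∂V := by
        gcongr
    _ = exp (m * (l' - l)) * (exp (-m * l') *
        ∫ p, 4 * (c.f p.1 * c.mu (c.x p.1)) * -g1 (exp (-2 * l') * ‖c.x p.1‖ ^ 2) ∂V) := by
        rw [← mul_assoc, ← exp_add]; congr 2; ring

end GLm

end Crest.Agent.R234.Fd_534
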