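import Crest.Agent.R234.Vf3_884

-- ▼ part R234/Vf4_884
section

/-!
Row 234, base library (helper884), file 4: weighted radial identities, discontinuous profiles,
the exact monotonicity identity.
-/

set_option autoImplicit false

open MeasureTheory Crest.GeometryTopology.Submanifold Filter Topology
open scoped ENNReal InnerProductSpace

noncomputable section

namespace Crest.Agent.R234.Vf_884

variable {m k : ℕ}

theorem tr_radialh {g : ℝ → ℝ} (hg : ContDiff ℝ 1 g) {h : Euc k → ℝ} (hh : ContDiff ℝ 1 h)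
    (z x : Euc k) {P : L k} (hP : P ∈ G m k) :
    tr ((fderiv ℝ (fun x : Euc k => h x • (g (‖x - z‖ ^ 2) • (x - z))) x) ∘L P)
      = h x * (m * g (‖x - z‖ ^ 2) + 2 * deriv g (‖x - z‖ ^ 2) * ‖P (x - z)‖ ^ 2)
        + g (‖x - z‖ ^ 2) * fderiv ℝ h x (P (x - z)) := by
  have h1 := hasFDerivAt_radial hg z x
  have h2 : HasFDerivAt h (fderiv ℝ h x) x := (hh.differentiable one_ne_zero x).hasFDerivAt
  have h3 : HasFDerivAt (fun x : Euc k => h x • (g (‖x - z‖ ^ 2) • (x - z))) _ x := h2.smul h1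
  rw [h3.fderiv, ContinuousLinearMap.add_comp, map_add, tr_smulRight_comp]
  have h4 := tr_radial hg z x hP
  rw [h1.fderiv] at h4
  rw [ContinuousLinearMap.smul_comp, map_smul, h4, map_smul, map_smul, smul_eq_mul, smul_eq_mul]

variable {U : Set (Euc k)} {V : Measure (Euc k × L k)}

theorem radialh_C1 (hV : Stat m k U V) {g : ℝ → ℝ} (hg : ContDiff ℝ 1 g)
    {h : Euc k → ℝ} (hh : ContDiff ℝ 1 h) {z : Euc k} {ρ : ℝ}
    (hρ : 0 ≤ ρ) (hU : Metric.closedBall z ρ ⊆ U) (hg0 : ∀ t, ρ ^ 2 ≤ t → g t = 0) :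
    ∫ p, (h p.1 * (m * g (‖p.1 - z‖ ^ 2) + 2 * deriv g (‖p.1 - z‖ ^ 2) * ‖p.2 (p.1 - z)‖ ^ 2)
      + g (‖p.1 - z‖ ^ 2) * fderiv ℝ h p.1 (p.2 (p.1 - z))) ∂V = 0 := by
  have hts := tsupport_radial (k := k) (z := z) hρ hg0
  have hts2 : tsupport (fun x : Euc k => h x • (g (‖x - z‖ ^ 2) • (x - z)))
      ⊆ Metric.closedBall z ρ := by
    refine (closure_mono ?_).trans hts
    intro x hx
    exact fun hcon => hx (by simp only at hcon ⊢; rw [hcon, smul_zero])
  have h := hV.stat _ (hh.smul (contDiff_radial hg z))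
    (HasCompactSupport.of_support_subset_isCompact (isCompact_closedBall z ρ)
      (subset_closure.trans hts2)) (hts2.trans hU)
  rw [← h]
  refine integral_congr_ae ?_
  filter_upwards [hV.conc] with p hp
  exact (tr_radialh hg hh z p.1 hp).symm

/-- the weighted radial identity, continuous profile. -/
theorem radialh_C0 (hV : Stat m k U V) {ψ : ℝ → ℝ} (hψ : Continuous ψ)
    {h : Euc k → ℝ} (hh : ContDiff ℝ 1 h) {z : Euc k} {ρ : ℝ}
    (hρ : 0 ≤ ρ) (hU : Metric.closedBall z ρ ⊆ U) (hψ0 : ∀ t, ρ ^ 2 ≤ t → ψ t = 0) :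
    ∫ p, (h p.1 * ((m / 2 : ℝ) * (∫ u in (‖p.1 - z‖ ^ 2)..(ρ ^ 2), ψ u)
      - ψ (‖p.1 - z‖ ^ 2) * ‖p.2 (p.1 - z)‖ ^ 2)
      + (1 / 2 : ℝ) * (∫ u in (‖p.1 - z‖ ^ 2)..(ρ ^ 2), ψ u) *
        fderiv ℝ h p.1 (p.2 (p.1 - z))) ∂V = 0 := by
  set g : ℝ → ℝ := fun t => (1 / 2 : ℝ) * ∫ u in t..(ρ ^ 2), ψ u with hgdef
  have hd : ∀ t, HasDerivAt g ((1 / 2 : ℝ) * (-ψ t)) t := by
    intro t
    refine HasDerivAt.const_mul _ ?_
    exact intervalIntegral.integral_hasDerivAt_left (hψ.intervalIntegrable _ _)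
      hψ.aestronglyMeasurable.stronglyMeasurableAtFilter hψ.continuousAt
  have hderiv : deriv g = fun t => (1 / 2 : ℝ) * (-ψ t) := funext fun t => (hd t).deriv
  have hg : ContDiff ℝ 1 g := by
    rw [contDiff_one_iff_deriv]
    refine ⟨fun t => (hd t).differentiableAt, ?_⟩
    rw [hderiv]
    fun_prop
  have hg0 : ∀ t, ρ ^ 2 ≤ t → g t = 0 := by
    intro t ht
    simp only [hgdef]
    rw [intervalIntegral.integral_symm, intervalIntegral.integral_congr (g := fun _ => (0:ℝ))]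
    · simp
    · intro u hu
      rw [Set.uIcc_of_le ht] at hu
      exact hψ0 u hu.1
  have h := radialh_C1 hV hg hh hρ hU hg0
  rw [← h]
  refine integral_congr_ae (Filter.Eventually.of_forall fun p => ?_)
  simp only
  rw [hderiv, hgdef]
  ring

/-- cutoffs increasing to the indicator of `(a, b)`. -/
def chi (a b : ℝ) (j : ℕ) (u : ℝ) : ℝ := min 1 (j * max 0 (min (u - a) (b - u)))

theorem chi_nonneg (a b : ℝ) (j : ℕ) (u : ℝ) : 0 ≤ chi a b j u :=
  le_min zero_le_one (mul_nonneg (Nat.cast_nonneg _) (le_max_left _ _))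

theorem chi_le_one (a b : ℝ) (j : ℕ) (u : ℝ) : chi a b j u ≤ 1 := min_le_left _ _

theorem continuous_chi (a b : ℝ) (j : ℕ) : Continuous (chi a b j) := by
  unfold chi
  fun_prop

theorem chi_eq_zero {a b u : ℝ} (j : ℕ) (h : u ∉ Set.Ioo a b) : chi a b j u = 0 := by
  unfold chi
  have : min (u - a) (b - u) ≤ 0 := by
    by_contra hcon
    rw [not_le, lt_min_iff] at hcon
    exact h ⟨by linarith [hcon.1], by linarith [hcon.2]⟩
  rw [max_eq_left this, mul_zero, min_eq_right zero_le_one]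

theorem tendsto_chi {a b u : ℝ} (h : u ∈ Set.Ioo a b) :
    ∀ᶠ j in atTop, chi a b j u = 1 := by
  have hpos : 0 < min (u - a) (b - u) := lt_min (by linarith [h.1]) (by linarith [h.2])
  obtain ⟨N, hN⟩ := exists_nat_ge (1 / min (u - a) (b - u))
  filter_upwards [eventually_ge_atTop N] with j hj
  unfold chi
  rw [max_eq_right hpos.le]
  refine min_eq_left ?_
  have h1 : 1 / min (u - a) (b - u) ≤ j := hN.trans (by exact_mod_cast hj)
  rwa [div_le_iff₀ hpos] at h1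

theorem tendsto_chi_mul (c : ℝ → ℝ) (a b u : ℝ) :
    Tendsto (fun j : ℕ => c u * chi a b j u) atTop (𝓝 ((Set.Ioo a b).indicator c u)) := by
  by_cases h : u ∈ Set.Ioo a b
  · rw [Set.indicator_of_mem h]
    refine tendsto_const_nhds.congr' ?_
    filter_upwards [tendsto_chi h] with j hj
    rw [hj, mul_one]
  · rw [Set.indicator_of_notMem h]
    refine tendsto_const_nhds.congr fun j => ?_
    rw [chi_eq_zero j h, mul_zero]

theorem integrable_of_bound_ball {V : Measure (Euc k × L k)} {z : Euc k} {ρ : ℝ}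
    (hV : V (Metric.closedBall z ρ ×ˢ Set.univ) < ⊤) {B : Euc k → ℝ} (hB : Continuous B) :
    Integrable (fun p : Euc k × L k =>
      (Metric.closedBall z ρ ×ˢ (Set.univ : Set (L k))).indicator (fun p => B p.1) p) V := by
  have hm : MeasurableSet (Metric.closedBall z ρ ×ˢ (Set.univ : Set (L k))) :=
    measurableSet_closedBall.prod MeasurableSet.univ
  rw [integrable_indicator_iff hm]
  obtain ⟨C, hC⟩ := (isCompact_closedBall z ρ).exists_bound_of_continuousOn hB.continuousOn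
  refine IntegrableOn.of_bound hV (hB.comp continuous_fst).aestronglyMeasurable C ?_
  filter_upwards [ae_restrict_mem hm] with p hp
  exact hC p.1 hp.1

/-- the weighted radial identity, profile `1_(a, ρ²) c`. -/
theorem radialh_ind (hV : Stat m k U V) {c : ℝ → ℝ} (hc : Continuous c)
    {h : Euc k → ℝ} (hh : ContDiff ℝ 1 h) {z : Euc k} {a ρ : ℝ}
    (hρ : 0 ≤ ρ) (hU : Metric.closedBall z ρ ⊆ U) :
    ∫ p, (h p.1 * ((m / 2 : ℝ) *
        (∫ u in (‖p.1 - z‖ ^ 2)..(ρ ^ 2), (Set.Ioo a (ρ ^ 2)).indicator c u)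
      - (Set.Ioo a (ρ ^ 2)).indicator c (‖p.1 - z‖ ^ 2) * ‖p.2 (p.1 - z)‖ ^ 2)
      + (1 / 2 : ℝ) * (∫ u in (‖p.1 - z‖ ^ 2)..(ρ ^ 2), (Set.Ioo a (ρ ^ 2)).indicator c u) *
        fderiv ℝ h p.1 (p.2 (p.1 - z))) ∂V = 0 := by
  obtain ⟨M, hM⟩ : ∃ M, ∀ u ∈ Set.Icc (0:ℝ) (ρ ^ 2), ‖c u‖ ≤ M :=
    isCompact_Icc.exists_bound_of_continuousOn hc.continuousOn
  have hM0 : 0 ≤ M := (norm_nonneg _).trans (hM 0 ⟨le_rfl, sq_nonneg ρ⟩)
  set ψ : ℕ → ℝ → ℝ := fun j u => c u * chi a (ρ ^ 2) j u with hψ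
  have hψc : ∀ j, Continuous (ψ j) := fun j => hc.mul (continuous_chi _ _ j)
  have hψ0 : ∀ j t, ρ ^ 2 ≤ t → ψ j t = 0 := fun j t ht => by
    simp only [hψ]
    rw [chi_eq_zero j (fun hcon => absurd hcon.2 (not_lt.2 ht)), mul_zero]
  have hψb : ∀ j, ∀ u ∈ Set.Icc (0:ℝ) (ρ ^ 2), ‖ψ j u‖ ≤ M := fun j u hu => by
    simp only [hψ]
    rw [norm_mul, Real.norm_of_nonneg (chi_nonneg _ _ _ _)]
    calc ‖c u‖ * chi a (ρ ^ 2) j u ≤ ‖c u‖ * 1 :=
          mul_le_mul_of_nonneg_left (chi_le_one _ _ _ _) (norm_nonneg _)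
      _ ≤ M := by rw [mul_one]; exact hM u hu
  -- the inner integrals
  have hI0 : ∀ j t, ρ ^ 2 ≤ t → ∫ u in t..(ρ ^ 2), ψ j u = 0 := fun j t ht => by
    rw [intervalIntegral.integral_symm, intervalIntegral.integral_congr (g := fun _ => (0:ℝ))]
    · simp
    · intro u hu
      rw [Set.uIcc_of_le ht] at hu
      exact hψ0 j u hu.1
  have hIb : ∀ j, ∀ t ∈ Set.Icc (0:ℝ) (ρ ^ 2), ‖∫ u in t..(ρ ^ 2), ψ j u‖ ≤ M * ρ ^ 2 := by
    intro j t ht
    refine (intervalIntegral.norm_integral_le_of_norm_le_const (C := M) fun u hu => ?_).trans ?_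
    · rw [Set.uIoc_of_le ht.2] at hu
      exact hψb j u ⟨ht.1.trans hu.1.le, hu.2⟩
    · rw [abs_of_nonneg (by linarith [ht.2])]
      exact mul_le_mul_of_nonneg_left (by linarith [ht.1]) hM0
  have hIlim : ∀ t, 0 ≤ t → Tendsto (fun j => ∫ u in t..(ρ ^ 2), ψ j u) atTop
      (𝓝 (∫ u in t..(ρ ^ 2), (Set.Ioo a (ρ ^ 2)).indicator c u)) := by
    intro t ht
    refine intervalIntegral.tendsto_integral_filter_of_dominated_convergence (fun _ => ‖c 0‖ + M +
      0) ?_ ?_ ?_ ?_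
    · exact Eventually.of_forall fun j => (hψc j).aestronglyMeasurable
    · refine Eventually.of_forall fun j => Eventually.of_forall fun u hu => ?_
      by_cases hu2 : ρ ^ 2 ≤ u
      · rw [hψ0 j u hu2, norm_zero]
        positivity
      · rw [not_le] at hu2
        have h0 : 0 ≤ u := by
          rcases le_total t (ρ ^ 2) with h1 | h1
          · rw [Set.uIoc_of_le h1] at hu
            linarith [hu.1]
          · rw [Set.uIoc_of_ge h1] at hu
            linarith [hu.1]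
        have := hψb j u ⟨h0, hu2.le⟩
        have h3 : 0 ≤ ‖c 0‖ := norm_nonneg _
        linarith
    · exact intervalIntegrable_const
    · exact Eventually.of_forall fun u _ => tendsto_chi_mul c a (ρ ^ 2) u
  -- dominated convergence
  set B : Euc k → ℝ := fun x => ‖h x‖ * ((m / 2 : ℝ) * (M * ρ ^ 2) + M * ‖x - z‖ ^ 2) +
    (1 / 2 : ℝ) * (M * ρ ^ 2) * (‖fderiv ℝ h x‖ * ‖x - z‖) with hB
  have hBc : Continuous B := by
    have h1 : Continuous (fderiv ℝ h) := hh.continuous_fderiv one_ne_zero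
    have h2 : Continuous h := hh.continuous
    simp only [hB]
    fun_prop
  have key := tendsto_integral_of_dominated_convergence (μ := V)
    (F := fun (j : ℕ) (p : Euc k × L k) => h p.1 * ((m / 2 : ℝ) *
        (∫ u in (‖p.1 - z‖ ^ 2)..(ρ ^ 2), ψ j u) - ψ j (‖p.1 - z‖ ^ 2) * ‖p.2 (p.1 - z)‖ ^ 2)
      + (1 / 2 : ℝ) * (∫ u in (‖p.1 - z‖ ^ 2)..(ρ ^ 2), ψ j u) *
        fderiv ℝ h p.1 (p.2 (p.1 - z)))
    (f := fun (p : Euc k × L k) => h p.1 * ((m / 2 : ℝ) *
        (∫ u in (‖p.1 - z‖ ^ 2)..(ρ ^ 2), (Set.Ioo a (ρ ^ 2)).indicator c u)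
      - (Set.Ioo a (ρ ^ 2)).indicator c (‖p.1 - z‖ ^ 2) * ‖p.2 (p.1 - z)‖ ^ 2)
      + (1 / 2 : ℝ) * (∫ u in (‖p.1 - z‖ ^ 2)..(ρ ^ 2), (Set.Ioo a (ρ ^ 2)).indicator c u) *
        fderiv ℝ h p.1 (p.2 (p.1 - z)))
    (fun p => (Metric.closedBall z ρ ×ˢ (Set.univ : Set (L k))).indicator (fun p => B p.1) p)
    ?_ (integrable_of_bound_ball (hV.fin _ (isCompact_closedBall z ρ) hU) hBc) ?_ ?_
  · have hz : ∀ j, ∫ p, (h p.1 * ((m / 2 : ℝ) *
        (∫ u in (‖p.1 - z‖ ^ 2)..(ρ ^ 2), ψ j u) - ψ j (‖p.1 - z‖ ^ 2) * ‖p.2 (p.1 - z)‖ ^ 2)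
      + (1 / 2 : ℝ) * (∫ u in (‖p.1 - z‖ ^ 2)..(ρ ^ 2), ψ j u) *
        fderiv ℝ h p.1 (p.2 (p.1 - z))) ∂V = 0 := fun j =>
      radialh_C0 hV (hψc j) hh hρ hU (hψ0 j)
    simp only [hz] at key
    exact tendsto_nhds_unique key tendsto_const_nhds
  · intro j
    refine Continuous.aestronglyMeasurable ?_
    have h1 : Continuous (fderiv ℝ h) := hh.continuous_fderiv one_ne_zero
    have h2 : Continuous h := hh.continuous
    have h3 : Continuous fun t => ∫ u in t..(ρ ^ 2), ψ j u := by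
      have : (fun t => ∫ u in t..(ρ ^ 2), ψ j u) = fun t => -∫ u in (ρ ^ 2)..t, ψ j u :=
        funext fun t => intervalIntegral.integral_symm _ _
      rw [this]
      exact (intervalIntegral.continuous_primitive
        (fun a b => (hψc j).intervalIntegrable a b) _).neg
    have h4 : Continuous fun p : Euc k × L k => ∫ u in (‖p.1 - z‖ ^ 2)..(ρ ^ 2), ψ j u :=
      h3.comp (by fun_prop)
    have h5 : Continuous fun p : Euc k × L k => fderiv ℝ h p.1 (p.2 (p.1 - z)) :=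
      (h1.comp continuous_fst).clm_apply
        (continuous_snd.clm_apply (continuous_fst.sub continuous_const))
    have h6 : Continuous fun p : Euc k × L k => ψ j (‖p.1 - z‖ ^ 2) :=
      (hψc j).comp (by fun_prop)
    have h7 : Continuous fun p : Euc k × L k => ‖p.2 (p.1 - z)‖ ^ 2 :=
      (continuous_snd.clm_apply (continuous_fst.sub continuous_const)).norm.pow 2
    exact (((h2.comp continuous_fst).mul ((continuous_const.mul h4).sub (h6.mul h7))).add
      ((continuous_const.mul h4).mul h5))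
  · intro j
    filter_upwards [hV.conc] with p hp
    by_cases hx : p.1 ∈ Metric.closedBall z ρ
    · rw [Set.indicator_of_mem (show p ∈ Metric.closedBall z ρ ×ˢ (Set.univ : Set (L k)) from
        ⟨hx, trivial⟩)]
      have hx1 : ‖p.1 - z‖ ≤ ρ := by rwa [mem_closedBall_iff_norm] at hx
      have hx2 : ‖p.1 - z‖ ^ 2 ∈ Set.Icc (0:ℝ) (ρ ^ 2) := ⟨sq_nonneg _, by gcongr⟩
      have e1 := hIb j _ hx2
      have e2 := hψb j _ hx2
      have e3 : ‖p.2 (p.1 - z)‖ ≤ ‖p.1 - z‖ := G_norm_apply_le hp _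
      have e4 : ‖fderiv ℝ h p.1 (p.2 (p.1 - z))‖ ≤ ‖fderiv ℝ h p.1‖ * ‖p.1 - z‖ :=
        (ContinuousLinearMap.le_opNorm _ _).trans (by gcongr)
      simp only [hB]
      refine (norm_add_le _ _).trans (add_le_add ?_ ?_)
      · rw [norm_mul]
        refine mul_le_mul_of_nonneg_left ?_ (norm_nonneg _)
        refine (norm_sub_le _ _).trans (add_le_add ?_ ?_)
        · rw [norm_mul, Real.norm_of_nonneg (by positivity : (0:ℝ) ≤ m / 2)]
          gcongr
        · rw [norm_mul, norm_pow, norm_norm]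
          gcongr
      · rw [norm_mul, norm_mul, Real.norm_of_nonneg (by norm_num : (0:ℝ) ≤ 1 / 2)]
        gcongr
    · rw [Set.indicator_of_notMem (fun hcon => hx hcon.1)]
      have hx1 : ρ ^ 2 ≤ ‖p.1 - z‖ ^ 2 := by
        rw [mem_closedBall_iff_norm, not_le] at hx
        gcongr
      rw [hI0 j _ hx1, hψ0 j _ hx1]
      simp
  · refine Eventually.of_forall fun p => ?_
    have e1 := hIlim (‖p.1 - z‖ ^ 2) (sq_nonneg _)
    have e2 := tendsto_chi_mul c a (ρ ^ 2) (‖p.1 - z‖ ^ 2)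
    exact (((e1.const_mul _).sub (e2.mul_const _)).const_mul _).add
      ((e1.const_mul _).mul_const _)

end Crest.Agent.R234.Vf_884
end
end

-- ▼ part R234/Vf5_884

/-!
Row 234, base library (helper884), file 5: the mass measure, the exact monotonicity identity.
-/

set_option autoImplicit false

open MeasureTheory Crest.GeometryTopology.Submanifold Filter Topology
open scoped ENNReal InnerProductSpace

noncomputable section

namespace Crest.Agent.R234.Vf_884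

variable {m k : ℕ}

/-- the mass measure of a varifold. -/
def mass (V : Measure (Euc k × L k)) : Measure (Euc k) := V.map Prod.fst

theorem mass_apply (V : Measure (Euc k × L k)) {S : Set (Euc k)} (hS : MeasurableSet S) :
    mass V S = V (Prod.fst ⁻¹' S) := Measure.map_apply measurable_fst hS

theorem mass_VD {U : Set (Euc k)} {D : VarifoldData m k} (hD : IsIntegralVarifoldIn U D) :
    mass (VD D) = weight D := VD_fst hD

theorem prod_univ_eq (S : Set (Euc k)) :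
    S ×ˢ (Set.univ : Set (L k)) = (Prod.fst : Euc k × L k → Euc k) ⁻¹' S := by
  ext p; simp

/-- the profile. -/
def cc (m : ℕ) (a u : ℝ) : ℝ := ((√(max u a)) ^ (m + 2))⁻¹

theorem continuous_cc (m : ℕ) {a : ℝ} (ha : 0 < a) : Continuous (cc m a) := by
  unfold cc
  refine Continuous.inv₀ (by fun_prop) fun u => ?_
  have : 0 < √(max u a) := Real.sqrt_pos.2 (lt_max_of_lt_right ha)
  positivity

theorem hasDerivAt_H (m : ℕ) {t : ℝ} (ht : 0 < t) :
    HasDerivAt (fun t : ℝ => -((√t) ^ m)⁻¹) ((m / 2 : ℝ) * ((√t) ^ (m + 2))⁻¹) t := by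
  have hs : 0 < √t := Real.sqrt_pos.2 ht
  have h1 := (Real.hasDerivAt_sqrt ht.ne').pow m
  have h2 := (h1.inv (pow_pos hs m).ne').neg
  refine h2.congr_deriv ?_
  rcases m with _ | n
  · simp
  · simp only [Nat.add_sub_cancel]
    push_cast
    field_simp
    simp only [Pi.pow_apply]
    ring

theorem inner_eq (m : ℕ) {a b t : ℝ} (ha : 0 < a) (hab : a < b) :
    (m / 2 : ℝ) * ∫ u in t..b, (Set.Ioo a b).indicator (cc m a) u =
      if t < b then ((√(max t a)) ^ m)⁻¹ - ((√b) ^ m)⁻¹ else 0 := by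
  split_ifs with htb
  · have hs : max t a < b := max_lt htb hab
    have h1 : ∫ u in t..b, (Set.Ioo a b).indicator (cc m a) u = ∫ u in (max t a)..b, cc m a u := by
      rw [intervalIntegral.integral_of_le htb.le, intervalIntegral.integral_of_le hs.le,
        setIntegral_indicator measurableSet_Ioo, integral_Ioc_eq_integral_Ioo]
      congr 2
      ext u
      simp only [Set.mem_inter_iff, Set.mem_Ioc, Set.mem_Ioo, max_lt_iff]
      constructor
      · rintro ⟨⟨h1, _⟩, h2, h3⟩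
        exact ⟨⟨h1, h2⟩, h3⟩
      · rintro ⟨⟨h1, h2⟩, h3⟩
        exact ⟨⟨h1, h3.le⟩, h2, h3⟩
    rw [h1, ← intervalIntegral.integral_const_mul]
    have h2 : ∀ u ∈ Set.uIcc (max t a) b,
        HasDerivAt (fun t : ℝ => -((√t) ^ m)⁻¹) ((m / 2 : ℝ) * cc m a u) u := by
      intro u hu
      rw [Set.uIcc_of_le hs.le] at hu
      have hau : a ≤ u := (le_max_right _ _).trans hu.1
      unfold cc
      rw [max_eq_left hau]
      exact hasDerivAt_H m (ha.trans_le hau)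
    rw [intervalIntegral.integral_eq_sub_of_hasDerivAt h2
      (((continuous_cc m ha).const_mul _).intervalIntegrable _ _)]
    ring
  · rw [not_lt] at htb
    rw [intervalIntegral.integral_symm, intervalIntegral.integral_congr (g := fun _ => (0:ℝ))]
    · simp
    · intro u hu
      rw [Set.uIcc_of_le htb] at hu
      simp only
      rw [Set.indicator_of_notMem]
      exact fun h => absurd h.2 (not_lt.2 hu.1)

variable {U : Set (Euc k)} {V : Measure (Euc k × L k)}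

/-- the integrand of the monotonicity identity. -/
def perpQ (m : ℕ) (z : Euc k) (p : Euc k × L k) : ℝ :=
  ‖(p.1 - z) - p.2 (p.1 - z)‖ ^ 2 / ‖p.1 - z‖ ^ (m + 2)

theorem perpQ_nonneg (m : ℕ) (z : Euc k) (p : Euc k × L k) : 0 ≤ perpQ m z p := by
  unfold perpQ; positivity

theorem measurable_perpQ (m : ℕ) (z : Euc k) : Measurable (perpQ (k := k) m z) := by
  unfold perpQ
  have h1 : Continuous fun p : Euc k × L k => ‖(p.1 - z) - p.2 (p.1 - z)‖ ^ 2 :=
    (((continuous_fst.sub continuous_const)).sub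
      (continuous_snd.clm_apply (continuous_fst.sub continuous_const))).norm.pow 2
  have h2 : Continuous fun p : Euc k × L k => ‖p.1 - z‖ ^ (m + 2) := by fun_prop
  exact h1.measurable.div h2.measurable

theorem perpQ_le (m : ℕ) {z : Euc k} {p : Euc k × L k} (hp : p.2 ∈ G m k) {σ : ℝ} (hσ : 0 < σ)
    (h : σ ≤ ‖p.1 - z‖) : perpQ m z p ≤ (σ ^ m)⁻¹ := by
  unfold perpQ
  have h1 := G_norm_sq_add hp (p.1 - z)
  have h2 : ‖(p.1 - z) - p.2 (p.1 - z)‖ ^ 2 ≤ ‖p.1 - z‖ ^ 2 := by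
    nlinarith [sq_nonneg ‖p.2 (p.1 - z)‖]
  have h3 : 0 < ‖p.1 - z‖ := hσ.trans_le h
  rw [div_le_iff₀ (by positivity), pow_add]
  have h4 : σ ^ m ≤ ‖p.1 - z‖ ^ m := by gcongr
  have h5 : 1 ≤ (σ ^ m)⁻¹ * ‖p.1 - z‖ ^ m := by
    rw [inv_mul_eq_div, one_le_div (by positivity)]
    exact h4
  calc _ ≤ ‖p.1 - z‖ ^ 2 := h2
    _ ≤ ((σ ^ m)⁻¹ * ‖p.1 - z‖ ^ m) * ‖p.1 - z‖ ^ 2 :=
        le_mul_of_one_le_left (sq_nonneg _) h5
    _ = _ := by ring

/-- the algebra of the three zones. -/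
theorem zones (m : ℕ) {z : Euc k} {p : Euc k × L k} (hp : p.2 ∈ G m k) {σ ρ : ℝ} (hσ : 0 < σ)
    (hσρ : σ < ρ) :
    (m / 2 : ℝ) * (∫ u in (‖p.1 - z‖ ^ 2)..(ρ ^ 2),
        (Set.Ioo (σ ^ 2) (ρ ^ 2)).indicator (cc m (σ ^ 2)) u)
      - (Set.Ioo (σ ^ 2) (ρ ^ 2)).indicator (cc m (σ ^ 2)) (‖p.1 - z‖ ^ 2) *
        ‖p.2 (p.1 - z)‖ ^ 2 =
    (Prod.fst ⁻¹' (Metric.ball z ρ \ Metric.closedBall z σ)).indicator (perpQ m z) p
      + (σ ^ m)⁻¹ * (Prod.fst ⁻¹' (Metric.closedBall z σ)).indicator (fun _ => (1:ℝ)) p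
      - (ρ ^ m)⁻¹ * (Prod.fst ⁻¹' (Metric.ball z ρ)).indicator (fun _ => (1:ℝ)) p := by
  have hρ : 0 < ρ := hσ.trans hσρ
  have hab : σ ^ 2 < ρ ^ 2 := by gcongr
  rw [inner_eq m (by positivity) hab]
  have hsσ : √(σ ^ 2) = σ := Real.sqrt_sq hσ.le
  have hsρ : √(ρ ^ 2) = ρ := Real.sqrt_sq hρ.le
  have hsr : √(‖p.1 - z‖ ^ 2) = ‖p.1 - z‖ := Real.sqrt_sq (norm_nonneg _)
  rcases le_or_gt ρ ‖p.1 - z‖ with h1 | h1
  · have h2 : ¬ ‖p.1 - z‖ ^ 2 < ρ ^ 2 := by
      rw [not_lt]; gcongr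
    rw [if_neg h2, Set.indicator_of_notMem (fun h => h2 h.2)]
    have h3 : p.1 ∉ Metric.ball z ρ := by
      rw [mem_ball_iff_norm]; exact not_lt.2 h1
    have h4 : p.1 ∉ Metric.closedBall z σ := by
      rw [mem_closedBall_iff_norm]; exact not_le.2 (hσρ.trans_le h1)
    rw [Set.indicator_of_notMem (fun h => h3 h.1),
      Set.indicator_of_notMem (show p ∉ Prod.fst ⁻¹' Metric.closedBall z σ from h4),
      Set.indicator_of_notMem (show p ∉ Prod.fst ⁻¹' Metric.ball z ρ from h3)]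
    simp
  · have h2 : ‖p.1 - z‖ ^ 2 < ρ ^ 2 := by gcongr
    have h3 : p.1 ∈ Metric.ball z ρ := by rwa [mem_ball_iff_norm]
    rw [if_pos h2, hsρ, Set.indicator_of_mem (s := Prod.fst ⁻¹' Metric.ball z ρ)
      (show p ∈ Prod.fst ⁻¹' Metric.ball z ρ from h3)]
    rcases le_or_gt ‖p.1 - z‖ σ with h4 | h4
    · have h5 : p.1 ∈ Metric.closedBall z σ := by rwa [mem_closedBall_iff_norm]
      have h6 : ‖p.1 - z‖ ^ 2 ≤ σ ^ 2 := by gcongr
      rw [max_eq_right h6, hsσ, Set.indicator_of_notMem (fun h => absurd h.1 (not_lt.2 h6)),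
        Set.indicator_of_notMem (fun h => h.2 h5),
        Set.indicator_of_mem (show p ∈ Prod.fst ⁻¹' Metric.closedBall z σ from h5)]
      ring
    · have h5 : p.1 ∉ Metric.closedBall z σ := by
        rw [mem_closedBall_iff_norm]; exact not_le.2 h4
      have h6 : σ ^ 2 < ‖p.1 - z‖ ^ 2 := by gcongr
      rw [max_eq_left h6.le, hsr, Set.indicator_of_mem
          (show ‖p.1 - z‖ ^ 2 ∈ Set.Ioo (σ ^ 2) (ρ ^ 2) from ⟨h6, h2⟩),
        Set.indicator_of_mem (show p ∈ Prod.fst ⁻¹' (Metric.ball z ρ \ Metric.closedBall z σ) from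
          ⟨h3, h5⟩),
        Set.indicator_of_notMem (show p ∉ Prod.fst ⁻¹' Metric.closedBall z σ from h5)]
      unfold cc perpQ
      rw [max_eq_left h6.le, hsr]
      have h7 : 0 < ‖p.1 - z‖ := hσ.trans h4
      have h8 := G_norm_sq_add hp (p.1 - z)
      have h9 : ‖p.1 - z - p.2 (p.1 - z)‖ ^ 2 = ‖p.1 - z‖ ^ 2 - ‖p.2 (p.1 - z)‖ ^ 2 := by
        linarith
      rw [h9, pow_add]
      field_simp
      ring

theorem integrable_ball_ind (hV : Stat m k U V) {z : Euc k} {ρ : ℝ}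
    (hU : Metric.closedBall z ρ ⊆ U) {F : Euc k × L k → ℝ} (hF : Measurable F)
    {S : Set (Euc k)} (hS : MeasurableSet S) (hSρ : S ⊆ Metric.closedBall z ρ) {C : ℝ}
    (hC : ∀ p : Euc k × L k, p.1 ∈ S → p.2 ∈ G m k → |F p| ≤ C) :
    Integrable ((Prod.fst ⁻¹' S).indicator F) V := by
  have hm : MeasurableSet ((Prod.fst : Euc k × L k → Euc k) ⁻¹' S) := measurable_fst hS
  rw [integrable_indicator_iff hm]
  have hfin : V ((Prod.fst : Euc k × L k → Euc k) ⁻¹' S) < ⊤ := by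
    refine (measure_mono ?_).trans_lt (hV.fin _ (isCompact_closedBall z ρ) hU)
    intro p hp
    exact ⟨hSρ hp, trivial⟩
  refine IntegrableOn.of_bound hfin hF.aestronglyMeasurable C ?_
  filter_upwards [ae_restrict_mem hm, ae_restrict_of_ae hV.conc] with p hp hp2
  exact hC p hp hp2

/-- **the weighted monotonicity identity**. -/
theorem mono_identity_weighted (hV : Stat m k U V) (hm : 1 ≤ m) {h : Euc k → ℝ}
    (hh : ContDiff ℝ 1 h) {z : Euc k} {σ ρ : ℝ} (hσ : 0 < σ) (hσρ : σ < ρ)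
    (hU : Metric.closedBall z ρ ⊆ U) :
    (ρ ^ m)⁻¹ * (∫ p in Prod.fst ⁻¹' (Metric.ball z ρ), h p.1 ∂V)
      - (σ ^ m)⁻¹ * (∫ p in Prod.fst ⁻¹' (Metric.closedBall z σ), h p.1 ∂V) =
    (∫ p in Prod.fst ⁻¹' (Metric.ball z ρ \ Metric.closedBall z σ), h p.1 * perpQ m z p ∂V)
      + (m : ℝ)⁻¹ * ∫ p in Prod.fst ⁻¹' (Metric.ball z ρ),
        (((max ‖p.1 - z‖ σ) ^ m)⁻¹ - (ρ ^ m)⁻¹) * fderiv ℝ h p.1 (p.2 (p.1 - z)) ∂V := by
  have hρ : 0 < ρ := hσ.trans hσρ
  have hm0 : (m : ℝ) ≠ 0 := by positivity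
  obtain ⟨C, hC⟩ := (isCompact_closedBall z ρ).exists_bound_of_continuousOn
    hh.continuous.continuousOn
  obtain ⟨C', hC'⟩ := (isCompact_closedBall z ρ).exists_bound_of_continuousOn
    (hh.continuous_fderiv one_ne_zero).continuousOn
  have key := radialh_ind hV (continuous_cc m (by positivity : 0 < σ ^ 2)) hh (a := σ ^ 2)
    hρ.le hU
  set A : Euc k × L k → ℝ := (Prod.fst ⁻¹' (Metric.ball z ρ \ Metric.closedBall z σ)).indicator
    (fun p => h p.1 * perpQ m z p) with hA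
  set B : Euc k × L k → ℝ := (Prod.fst ⁻¹' (Metric.closedBall z σ)).indicator
    (fun p => h p.1) with hB
  set D : Euc k × L k → ℝ := (Prod.fst ⁻¹' (Metric.ball z ρ)).indicator
    (fun p => h p.1) with hD
  set E : Euc k × L k → ℝ := (Prod.fst ⁻¹' (Metric.ball z ρ)).indicator
    (fun p => (((max ‖p.1 - z‖ σ) ^ m)⁻¹ - (ρ ^ m)⁻¹) * fderiv ℝ h p.1 (p.2 (p.1 - z))) with hE
  have hmh : Measurable fun p : Euc k × L k => h p.1 := hh.continuous.measurable.comp measurable_fst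
  have hmE : Continuous fun p : Euc k × L k =>
      (((max ‖p.1 - z‖ σ) ^ m)⁻¹ - (ρ ^ m)⁻¹) * fderiv ℝ h p.1 (p.2 (p.1 - z)) := by
    refine Continuous.mul ?_ ?_
    · refine Continuous.sub (Continuous.inv₀ (by fun_prop) fun p => ?_) continuous_const
      have : 0 < max ‖p.1 - z‖ σ := lt_max_of_lt_right hσ
      positivity
    · exact ((hh.continuous_fderiv one_ne_zero).comp continuous_fst).clm_apply
        (continuous_snd.clm_apply (continuous_fst.sub continuous_const))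
  have iA : Integrable A V := by
    refine integrable_ball_ind hV hU (hmh.mul (measurable_perpQ m z))
      (measurableSet_ball.diff measurableSet_closedBall)
      (Set.sdiff_subset.trans Metric.ball_subset_closedBall) (C := C * (σ ^ m)⁻¹) ?_
    intro p hp hp2
    have h1 : ‖h p.1‖ ≤ C := hC _ (Metric.ball_subset_closedBall hp.1)
    have h2 : perpQ m z p ≤ (σ ^ m)⁻¹ := perpQ_le m hp2 hσ (by
      have := hp.2
      rw [mem_closedBall_iff_norm, not_le] at this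
      exact this.le)
    change |h p.1 * perpQ m z p| ≤ _
    rw [abs_mul, abs_of_nonneg (perpQ_nonneg m z p)]
    exact mul_le_mul h1 h2 (perpQ_nonneg m z p) ((norm_nonneg _).trans h1)
  have iB : Integrable B V := integrable_ball_ind hV hU hmh measurableSet_closedBall
    (Metric.closedBall_subset_closedBall hσρ.le) (C := C) fun p hp _ =>
      hC _ (Metric.closedBall_subset_closedBall hσρ.le hp)
  have iD : Integrable D V := integrable_ball_ind hV hU hmh measurableSet_ball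
    Metric.ball_subset_closedBall (C := C) fun p hp _ =>
      hC _ (Metric.ball_subset_closedBall hp)
  have iE : Integrable E V := by
    refine integrable_ball_ind hV hU hmE.measurable measurableSet_ball
      Metric.ball_subset_closedBall (C := (σ ^ m)⁻¹ * (C' * ρ)) ?_
    intro p hp hp2
    have h1 : ‖fderiv ℝ h p.1‖ ≤ C' := hC' _ (Metric.ball_subset_closedBall hp)
    rw [mem_ball_iff_norm] at hp
    have h0 : 0 < max ‖p.1 - z‖ σ := lt_max_of_lt_right hσ
    have h3 : max ‖p.1 - z‖ σ ≤ ρ := max_le hp.le hσρ.le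
    have h4 : (ρ ^ m)⁻¹ ≤ ((max ‖p.1 - z‖ σ) ^ m)⁻¹ := by gcongr
    have h5 : ((max ‖p.1 - z‖ σ) ^ m)⁻¹ ≤ (σ ^ m)⁻¹ := by
      gcongr
      exact le_max_right _ _
    have h6 : |((max ‖p.1 - z‖ σ) ^ m)⁻¹ - (ρ ^ m)⁻¹| ≤ (σ ^ m)⁻¹ := by
      rw [abs_of_nonneg (by linarith)]
      have : 0 ≤ (ρ ^ m)⁻¹ := by positivity
      linarith
    have h7 : |fderiv ℝ h p.1 (p.2 (p.1 - z))| ≤ C' * ρ := by
      refine (ContinuousLinearMap.le_opNorm (fderiv ℝ h p.1) _).trans ?_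
      have := G_norm_apply_le hp2 (p.1 - z)
      exact mul_le_mul h1 (this.trans hp.le) (norm_nonneg _) ((norm_nonneg _).trans h1)
    rw [abs_mul]
    exact mul_le_mul h6 h7 (abs_nonneg _) (by positivity)
  have hid : (fun p : Euc k × L k => h p.1 * ((m / 2 : ℝ) *
        (∫ u in (‖p.1 - z‖ ^ 2)..(ρ ^ 2),
          (Set.Ioo (σ ^ 2) (ρ ^ 2)).indicator (cc m (σ ^ 2)) u)
      - (Set.Ioo (σ ^ 2) (ρ ^ 2)).indicator (cc m (σ ^ 2)) (‖p.1 - z‖ ^ 2) *
        ‖p.2 (p.1 - z)‖ ^ 2)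
      + (1 / 2 : ℝ) * (∫ u in (‖p.1 - z‖ ^ 2)..(ρ ^ 2),
          (Set.Ioo (σ ^ 2) (ρ ^ 2)).indicator (cc m (σ ^ 2)) u) *
        fderiv ℝ h p.1 (p.2 (p.1 - z)))
      =ᵐ[V] fun p => ((A p + (σ ^ m)⁻¹ * B p) - (ρ ^ m)⁻¹ * D p) + (m : ℝ)⁻¹ * E p := by
    filter_upwards [hV.conc] with p hp
    rw [zones m hp hσ hσρ]
    have hi := inner_eq m (t := ‖p.1 - z‖ ^ 2) (by positivity : 0 < σ ^ 2)
      (by gcongr : σ ^ 2 < ρ ^ 2)
    have hi2 : (1 / 2 : ℝ) * (∫ u in (‖p.1 - z‖ ^ 2)..(ρ ^ 2),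
          (Set.Ioo (σ ^ 2) (ρ ^ 2)).indicator (cc m (σ ^ 2)) u) = (m : ℝ)⁻¹ *
          (if ‖p.1 - z‖ ^ 2 < ρ ^ 2 then ((√(max (‖p.1 - z‖ ^ 2) (σ ^ 2))) ^ m)⁻¹
            - ((√(ρ ^ 2)) ^ m)⁻¹ else 0) := by
      rw [← hi]
      field_simp
    rw [hi2]
    have e1 : h p.1 * (Prod.fst ⁻¹' (Metric.ball z ρ \ Metric.closedBall z σ)).indicator
        (perpQ m z) p = A p := by
      simp only [hA, Set.indicator]
      split_ifs <;> simp
    have e2 : h p.1 * ((σ ^ m)⁻¹ *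
        (Prod.fst ⁻¹' (Metric.closedBall z σ)).indicator (fun _ => (1:ℝ)) p)
        = (σ ^ m)⁻¹ * B p := by
      simp only [hB, Set.indicator]
      split_ifs <;> ring
    have e3 : h p.1 * ((ρ ^ m)⁻¹ *
        (Prod.fst ⁻¹' (Metric.ball z ρ)).indicator (fun _ => (1:ℝ)) p)
        = (ρ ^ m)⁻¹ * D p := by
      simp only [hD, Set.indicator]
      split_ifs <;> ring
    have e4 : (m : ℝ)⁻¹ *
          (if ‖p.1 - z‖ ^ 2 < ρ ^ 2 then ((√(max (‖p.1 - z‖ ^ 2) (σ ^ 2))) ^ m)⁻¹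
            - ((√(ρ ^ 2)) ^ m)⁻¹ else 0) * fderiv ℝ h p.1 (p.2 (p.1 - z))
        = (m : ℝ)⁻¹ * E p := by
      rw [mul_assoc]
      congr 1
      simp only [hE, Set.indicator]
      have hiff : ‖p.1 - z‖ ^ 2 < ρ ^ 2 ↔ p ∈ Prod.fst ⁻¹' (Metric.ball z ρ) := by
        rw [Set.mem_preimage, mem_ball_iff_norm]
        exact pow_lt_pow_iff_left₀ (norm_nonneg _) hρ.le two_ne_zero
      have hmx : √(max (‖p.1 - z‖ ^ 2) (σ ^ 2)) = max ‖p.1 - z‖ σ := by
        rcases le_total ‖p.1 - z‖ σ with h | h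
        · rw [max_eq_right h, max_eq_right (by gcongr), Real.sqrt_sq hσ.le]
        · rw [max_eq_left h, max_eq_left (by gcongr), Real.sqrt_sq (norm_nonneg _)]
      rw [hmx, Real.sqrt_sq hρ.le]
      by_cases hc : ‖p.1 - z‖ ^ 2 < ρ ^ 2
      · rw [if_pos hc, if_pos (hiff.1 hc)]
      · rw [if_neg hc, if_neg (fun h => hc (hiff.2 h)), zero_mul]
    rw [mul_sub, mul_add, e1, e2, e3, e4]
  have j1 : Integrable (fun p => (σ ^ m)⁻¹ * B p) V := iB.const_mul _
  have j2 : Integrable (fun p => (ρ ^ m)⁻¹ * D p) V := iD.const_mul _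
  have j3 : Integrable (fun p => (m : ℝ)⁻¹ * E p) V := iE.const_mul _
  have j4 : Integrable (fun p => A p + (σ ^ m)⁻¹ * B p) V := iA.add j1
  have j5 : Integrable (fun p => A p + (σ ^ m)⁻¹ * B p - (ρ ^ m)⁻¹ * D p) V := j4.sub j2
  rw [integral_congr_ae hid, integral_add j5 j3, integral_sub j4 j2,
    integral_add iA j1, integral_const_mul, integral_const_mul, integral_const_mul] at key
  rw [← integral_indicator (measurable_fst measurableSet_ball),
    ← integral_indicator (measurable_fst measurableSet_closedBall),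
    ← integral_indicator (measurable_fst (measurableSet_ball.diff measurableSet_closedBall)),
    ← integral_indicator (measurable_fst measurableSet_ball)]
  linarith

end Crest.Agent.R234.Vf_884
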