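import Crest.Agent.R234.Top7_395
import Crest.Agent.R234.Supm4_685
import Crest.Agent.R234.Cy5_870
import Crest.Agent.R234.Al9_182
import Crest.Agent.R234.Ar2_870
import Crest.Agent.R234.In6_947
import Crest.Agent.R234.Top5_395

-- ▼ part R234/Top8_395
section

/-!
Row 234 (helper395), file 8 of VF-TOP: the FLAT PACKAGE (node F8-FLATV).

* `sup_height` : `FlatAt` at `R` bounds the heights of the points of density `≥ 1` in the half ball.
* `int_tilt_le` : planar Caccioppoli, `∫_{B_{R/2}} tilt P ≤ 256 R^m pex P R`.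
* `near_of_flat` : `NearQ` at `R / 2`.
* `cylStat_zoom` : the zoomed varifold in the unit cylinder of the frame.
* `plane_close` : two planes near which `V` is at the same scale are close.
-/

set_option autoImplicit false
set_option linter.unusedSectionVars false

open MeasureTheory Crest.GeometryTopology.Submanifold Filter Topology Set
open scoped ENNReal InnerProductSpace

noncomputable section

namespace Crest.Agent.R234.Top_395

open Crest.Agent.R234.Vf_884 Crest.Agent.R234.Main_456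
open Crest.Agent.R234.Strat3_842 (tilt height)
open Crest.Agent.R234.AS_456 (hp vp)

variable {m n k : ℕ} {U : Set (Euc k)} {V : Measure (Euc k × L k)}
  {π : Euc k →L[ℝ] Euc m} {ρ : Euc k →L[ℝ] Euc n} {x z : Euc k} {R ω : ℝ} {P : L k}

theorem norm_vert (h : Frame π ρ) (v : Euc k) :
    ‖(ContinuousLinearMap.id ℝ (Euc k) - hp π) v‖ = ‖ρ v‖ := by
  have h1 : (ContinuousLinearMap.id ℝ (Euc k) - hp π) v = ContinuousLinearMap.adjoint ρ (ρ v) := by
    have := fr_sum h v
    rw [sub_apply, ContinuousLinearMap.id_apply, hp, ContinuousLinearMap.comp_apply]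
    nth_rewrite 1 [← this]
    abel
  have h2 : ‖ContinuousLinearMap.adjoint ρ (ρ v)‖ ^ 2 = ‖ρ v‖ ^ 2 := by
    rw [← real_inner_self_eq_norm_sq, ContinuousLinearMap.adjoint_inner_left, fr_rr h,
      real_inner_self_eq_norm_sq]
  rw [h1]
  exact (sq_eq_sq₀ (norm_nonneg _) (norm_nonneg _)).1 h2

theorem hp_mem (h : Frame π ρ) : hp π ∈ G m k := by
  have h1 := gpr_mem h (0 : Euc m →L[ℝ] Euc n)
  have h2 : gpr π ρ 0 = hp π := by
    ext1 v
    have h3 := lin_gpr h (0 : Euc m →L[ℝ] Euc n) v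
    have h4 := norm_sub_gpr_le h (0 : Euc m →L[ℝ] Euc n) (hp π v)
    have h5 : ρ (hp π v) = 0 := fr_rp h _
    simp only [ContinuousLinearMap.zero_comp, sub_zero, h5, norm_zero] at h4
    have h6 : hp π v - gpr π ρ 0 (hp π v) = 0 := by
      rw [← norm_eq_zero]
      nlinarith [norm_nonneg (hp π v - gpr π ρ 0 (hp π v))]
    have h7 := norm_sub_gpr_le h (0 : Euc m →L[ℝ] Euc n) (hp π v)
    -- `gpr v` is horizontal, hence fixed by `hp`
    simp only [ContinuousLinearMap.zero_comp, sub_zero] at h3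
    have h8 : hp π (gpr π ρ 0 v) = gpr π ρ 0 v := by
      have := fr_sum h (gpr π ρ 0 v)
      rw [h3, map_zero, add_zero] at this
      exact this
    have h9 : hp π (gpr π ρ 0 v - v) = 0 := by
      refine ext_inner_left ℝ fun w => ?_
      rw [inner_zero_right, hp, ContinuousLinearMap.comp_apply,
        ContinuousLinearMap.adjoint_inner_right, ← ContinuousLinearMap.adjoint_inner_left]
      have e1 : gpr π ρ 0 (hp π w) = hp π w := by
        have h4' := norm_sub_gpr_le h (0 : Euc m →L[ℝ] Euc n) (hp π w)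
        have h5' : ρ (hp π w) = 0 := fr_rp h _
        simp only [ContinuousLinearMap.zero_comp, sub_zero, h5', norm_zero] at h4'
        have h6' : hp π w - gpr π ρ 0 (hp π w) = 0 := by
          rw [← norm_eq_zero]
          nlinarith [norm_nonneg (hp π w - gpr π ρ 0 (hp π w))]
        exact (sub_eq_zero.1 h6').symm
      have e2 : ⟪hp π w, gpr π ρ 0 v⟫_ℝ = ⟪hp π w, v⟫_ℝ := by
        rw [← G_symm h1, e1]
      change ⟪hp π w, gpr π ρ 0 v - v⟫_ℝ = 0
      rw [inner_sub_right, e2, sub_self]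
    rw [map_sub, h8, sub_eq_zero] at h9
    exact h9
  rw [← h2]
  exact h1

/-- `pex` in frame coordinates. -/
theorem pex_frame (h : Frame π ρ) : pex m V (hp π) x R = (R ^ (m + 2))⁻¹ *
    ∫ p in Prod.fst ⁻¹' (Metric.ball x R), ‖ρ (p.1 - x)‖ ^ 2 ∂V := by
  unfold pex ex
  simp only [norm_vert h]

theorem sup_height (hV : Stat m k U V) (hm : 1 ≤ m) (hf : Frame π ρ) (hR : 0 < R)
    (hU : Metric.closedBall x R ⊆ U) (h : pex m V (hp π) x R ≤ ω)
    (hz : z ∈ Metric.ball x (R / 2)) (hTh : 1 ≤ Th m V z) :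
    ome m * ‖ρ (z - x)‖ ^ 2 ≤ 2 ^ (m + 1) * ω * R ^ 2 := by
  have hR2 : 0 < R / 2 := by positivity
  have hsub : Metric.closedBall z (R / 2) ⊆ Metric.closedBall x R := by
    refine Metric.closedBall_subset_closedBall' ?_
    have := Metric.mem_ball.1 hz
    linarith
  have hsub' : Metric.ball z (R / 2) ⊆ Metric.ball x R := by
    refine Metric.ball_subset_ball' ?_
    have := Metric.mem_ball.1 hz
    linarith
  have h1 := Supm_685.height_hgt (u := (0 : Euc m → Euc n)) (κ := 0) (r := 1) (x := x) (A := 1) hV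
    hm hf one_pos contDiff_const hR2 (hsub.trans hU) (fun w _ => ⟨by
      have : iteratedFDeriv ℝ 2 (0 : Euc m → Euc n) = 0 := iteratedFDeriv_fun_zero
      rw [this]; simp, by
      unfold Msys
      have e1 : fderiv ℝ (0 : Euc m → Euc n) = 0 := by
        ext1 y; simp
      rw [e1]
      have e2 : fderiv ℝ (0 : Euc m → Euc m →L[ℝ] Euc n) = 0 := by
        ext1 y; simp
      rw [e2]
      simp⟩) (by simp) zero_le_one (by rwa [ENNReal.ofReal_one])
  simp only [hgt, Pi.zero_apply, smul_zero, sub_zero, one_mul] at h1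
  rw [pex_frame hf, inv_mul_le_iff₀ (by positivity)] at h
  have h2 : ∫ p in Prod.fst ⁻¹' Metric.ball z (R / 2), ‖ρ (p.1 - x)‖ ^ 2 ∂V ≤
      ∫ p in Prod.fst ⁻¹' Metric.ball x R, ‖ρ (p.1 - x)‖ ^ 2 ∂V := by
    refine setIntegral_mono_set ?_ (Filter.Eventually.of_forall fun _ => by positivity)
      (LE.le.eventuallyLE (preimage_mono hsub'))
    have := Strat3_842.integrableOn_of_bdd hV.conc (x := x) (r := R)
      (f := fun p : Euc k × L k => ‖ρ (p.1 - x)‖ ^ 2) (by
        rw [prod_eq]; exact fin_ball hV hU Metric.ball_subset_closedBall) (by fun_prop)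
    rwa [prod_eq] at this
  have hpos : 0 < (R / 2) ^ m := by positivity
  have hω : 0 ≤ ω * R ^ (m + 2) := by
    refine le_trans ?_ (h.trans_eq (mul_comm _ _))
    exact integral_nonneg fun _ => by positivity
  calc ome m * ‖ρ (z - x)‖ ^ 2 ≤ _ := h1
    _ ≤ 33 / 32 * (((R / 2) ^ m)⁻¹ * (R ^ (m + 2) * ω)) := by gcongr; exact h2.trans h
    _ = 33 / 32 * 2 ^ m * (ω * R ^ 2) := by
      rw [pow_add R m 2, div_pow]
      field_simp
    _ ≤ _ := by
      have h3 : 0 ≤ ω * R ^ 2 := by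
        have : ω * R ^ (m + 2) = (ω * R ^ 2) * R ^ m := by ring
        rw [this] at hω
        exact nonneg_of_mul_nonneg_left hω (by positivity)
      have h4 : (0:ℝ) ≤ 2 ^ m := by positivity
      rw [pow_succ (2:ℝ) m]
      nlinarith [mul_nonneg h4 h3]

/-- the radial cut-off. -/
def rc (x : Euc k) (R : ℝ) (z : Euc k) : ℝ := Al1_640.ph (‖z - x‖ ^ 2 / R ^ 2)

theorem rc_contDiff : ContDiff ℝ 1 (rc x R) := by
  unfold rc
  exact Al1_640.contDiff_ph.comp ((((contDiff_id.sub contDiff_const).norm_sq ℝ)).div_const _)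

theorem rc_zero (hR : 0 < R) {z : Euc k} (hz : R ≤ ‖z - x‖) : rc x R z = 0 := by
  unfold rc
  refine Al1_640.ph_zero ?_
  rw [one_le_div (by positivity)]
  gcongr

theorem rc_tsupport (hR : 0 < R) : tsupport (rc x R) ⊆ Metric.closedBall x R := by
  refine closure_minimal ?_ Metric.isClosed_closedBall
  intro z hz
  rw [Function.mem_support] at hz
  by_contra hcon
  refine hz (rc_zero hR ?_)
  rw [Metric.mem_closedBall, dist_eq_norm, not_le] at hcon
  exact hcon.le

theorem rc_fderiv (hR : 0 < R) (z : Euc k) : ‖fderiv ℝ (rc x R) z‖ ≤ 4 / R := by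
  have h1 : HasFDerivAt (fun z : Euc k => ‖z - x‖ ^ 2 / R ^ 2)
      ((R ^ 2)⁻¹ • (2 • (innerSL ℝ (z - x)))) z := by
    have h2 : HasFDerivAt (fun z : Euc k => ‖z - x‖ ^ 2) (2 • (innerSL ℝ (z - x))) z := by
      have := ((hasFDerivAt_id (𝕜 := ℝ) z).sub_const x).norm_sq
      simpa using this
    have h3 := h2.const_mul (R ^ 2)⁻¹
    simpa only [div_eq_inv_mul] using h3
  have h4 := (Al1_640.hasDerivAt_ph (‖z - x‖ ^ 2 / R ^ 2)).comp_hasFDerivAt z h1
  have h5 : fderiv ℝ (rc x R) z = Al1_640.ph' (‖z - x‖ ^ 2 / R ^ 2) •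
      ((R ^ 2)⁻¹ • (2 • (innerSL ℝ (z - x)))) := h4.fderiv
  rw [h5]
  rcases le_or_gt R ‖z - x‖ with h | h
  · rw [Al1_640.ph'_zero (by rw [one_le_div (by positivity)]; gcongr), zero_smul, norm_zero]
    positivity
  · rw [norm_smul, norm_smul, norm_inv, Real.norm_of_nonneg (by positivity : (0:ℝ) ≤ R ^ 2)]
    have h6 : ‖(2 : ℕ) • (innerSL ℝ (z - x))‖ ≤ 2 * R := by
      have h8 : ‖innerSL ℝ (z - x)‖ = ‖z - x‖ := innerSL_apply_norm ℝ _
      have h9 := norm_nsmul_le (n := 2) (a := innerSL ℝ (z - x))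
      rw [h8] at h9
      refine h9.trans ?_
      push_cast
      linarith
    have h7 : ‖Al1_640.ph' (‖z - x‖ ^ 2 / R ^ 2)‖ ≤ 2 := by
      rw [Real.norm_eq_abs]
      exact Al1_640.abs_ph'_le (by positivity)
    calc _ ≤ 2 * ((R ^ 2)⁻¹ * (2 * R)) := by gcongr
      _ = 4 / R := by field_simp; ring

theorem rc_low (hR : 0 < R) {z : Euc k} (hz : z ∈ Metric.ball x (R / 2)) : 9 / 16 ≤ rc x R z := by
  rw [Metric.mem_ball, dist_eq_norm] at hz
  have h1 : ‖z - x‖ ^ 2 / R ^ 2 ≤ 1 / 4 := by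
    rw [div_le_iff₀ (by positivity)]
    have := norm_nonneg (z - x)
    nlinarith
  refine le_trans ?_ (Al1_640.ph_anti h1)
  unfold Al1_640.ph
  rw [max_eq_left (by norm_num)]
  norm_num

/-- planar Caccioppoli. -/
theorem int_tilt_le (hV : Stat m k U V) (hR : 0 < R) (hU : Metric.closedBall x R ⊆ U)
    (hP : P ∈ G m k) :
    ∫ p in Metric.ball x (R / 2) ×ˢ univ, tilt P p ∂V ≤ 256 * R ^ m * pex m V P x R := by
  set q : L k := ContinuousLinearMap.id ℝ (Euc k) - P with hq
  have hqpr : Cacc_113.IsPr q := (Al7_182.isPr_of_G hP).compl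
  have hcs : HasCompactSupport (rc x R) := by
    refine HasCompactSupport.of_support_subset_isCompact (isCompact_closedBall x R) ?_
    exact (subset_tsupport _).trans (rc_tsupport hR)
  have h1 := (Al7_182.st_of_stat hV).caccioppoli (rc_contDiff (x := x) (R := R)) hcs
    ((rc_tsupport hR).trans hU) hqpr x
  have hfin : V (Metric.ball x R ×ˢ univ) < ⊤ := by
    rw [prod_eq]; exact fin_ball hV hU Metric.ball_subset_closedBall
  have hfin2 : V (Metric.ball x (R / 2) ×ˢ univ) < ⊤ :=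
    (measure_mono (Set.prod_mono (Metric.ball_subset_ball (by linarith)) Subset.rfl)).trans_lt hfin
  have htn : ∀ᵐ p ∂V, 0 ≤ tilt P p := by
    filter_upwards [hV.conc] with p hp
    exact Strat3_842.tr_perp_nonneg hp hP
  have hint : Integrable (fun p : Euc k × L k => rc x R p.1 ^ 2 * Cacc_113.tr (q ∘L p.2)) V := by
    refine (Al7_182.st_of_stat hV).integrable ?_ hcs.isCompact ((rc_tsupport hR).trans hU) ?_
    · exact (((rc_contDiff (x := x) (R := R)).continuous.comp continuous_fst).pow 2).mul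
        (Cacc_113.continuous_tr.comp (continuous_const.clm_comp continuous_snd))
    · intro p hp
      rw [image_eq_zero_of_notMem_tsupport hp]; simp
  have h2 : ∫ p in Metric.ball x (R / 2) ×ˢ univ, (81 / 256) * tilt P p ∂V ≤
      ∫ p, rc x R p.1 ^ 2 * Cacc_113.tr (q ∘L p.2) ∂V := by
    calc _ ≤ ∫ p in Metric.ball x (R / 2) ×ˢ univ, rc x R p.1 ^ 2 * Cacc_113.tr (q ∘L p.2) ∂V := by
          refine setIntegral_mono_ae_restrict ?_ hint.integrableOn ?_
          · exact Strat3_842.integrableOn_of_bdd hV.conc hfin2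
              (continuous_const.mul (Strat3_842.continuous_tilt P))
          · filter_upwards [ae_restrict_mem (measurableSet_ball.prod MeasurableSet.univ),
              ae_restrict_of_ae htn] with p hp hp2
            have h3 := rc_low hR hp.1
            have h4 : (81 / 256 : ℝ) ≤ rc x R p.1 ^ 2 := by nlinarith
            exact mul_le_mul_of_nonneg_right h4 hp2
      _ ≤ _ := by
          refine setIntegral_le_integral hint ?_
          filter_upwards [htn] with p hp
          exact mul_nonneg (sq_nonneg _) hp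
  have h3 : ∫ p, ‖fderiv ℝ (rc x R) p.1‖ ^ 2 * ‖q (p.1 - x)‖ ^ 2 ∂V ≤
      16 / R ^ 2 * ∫ p in Metric.ball x R ×ˢ univ, ‖q (p.1 - x)‖ ^ 2 ∂V := by
    rw [← integral_const_mul]
    have e1 : ∫ p, ‖fderiv ℝ (rc x R) p.1‖ ^ 2 * ‖q (p.1 - x)‖ ^ 2 ∂V =
        ∫ p in Metric.ball x R ×ˢ univ, ‖fderiv ℝ (rc x R) p.1‖ ^ 2 * ‖q (p.1 - x)‖ ^ 2 ∂V := by
      symm
      refine setIntegral_eq_integral_of_forall_compl_eq_zero ?_
      intro p hp
      have h4 : R ≤ ‖p.1 - x‖ := by
        by_contra hcon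
        push Not at hcon
        exact hp ⟨by rwa [Metric.mem_ball, dist_eq_norm], mem_univ _⟩
      have h5 : fderiv ℝ (rc x R) p.1 = 0 := by
        have hmin : IsLocalMin (rc x R) p.1 := by
          refine Filter.Eventually.of_forall fun w => ?_
          rw [rc_zero hR h4]
          exact Al1_640.ph_nonneg _
        exact hmin.fderiv_eq_zero
      rw [h5]; simp
    rw [e1]
    refine setIntegral_mono_on ?_ ?_ (measurableSet_ball.prod MeasurableSet.univ) ?_
    · refine Strat3_842.integrableOn_of_bdd hV.conc hfin ?_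
      exact ((((rc_contDiff (x := x) (R := R)).continuous_fderiv one_ne_zero).comp
        continuous_fst).norm.pow 2).mul (by fun_prop)
    · exact Strat3_842.integrableOn_of_bdd hV.conc hfin (by fun_prop)
    · intro p _
      have h6 := rc_fderiv (x := x) hR p.1
      have h7 : ‖fderiv ℝ (rc x R) p.1‖ ^ 2 ≤ 16 / R ^ 2 := by
        calc _ ≤ (4 / R) ^ 2 := by gcongr
          _ = _ := by rw [div_pow]; norm_num
      gcongr
  have h4 : ∫ p in Metric.ball x R ×ˢ univ, ‖q (p.1 - x)‖ ^ 2 ∂V = R ^ (m + 2) * pex m V P x R := by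
    unfold pex ex
    rw [prod_eq, ← mul_assoc, mul_inv_cancel₀ (by positivity), one_mul]
  rw [integral_const_mul] at h2
  have hpex : 0 ≤ pex m V P x R := by
    unfold pex ex
    have : 0 ≤ ∫ p in Prod.fst ⁻¹' Metric.ball x R,
      ‖(ContinuousLinearMap.id ℝ (Euc k) - P) (p.1 - x)‖ ^ 2 ∂V :=
      integral_nonneg fun _ => by positivity
    positivity
  rw [h4] at h3
  have h5 : 16 / R ^ 2 * (R ^ (m + 2) * pex m V P x R) = 16 * (R ^ m * pex m V P x R) := by
    rw [pow_add]; field_simp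
  rw [h5] at h3
  have h6 : 0 ≤ R ^ m * pex m V P x R := by positivity
  linarith

theorem pex_mono (hV : Stat m k U V) {R' : ℝ} (hR' : 0 < R') (hRR : R' ≤ R)
    (hU : Metric.closedBall x R ⊆ U) :
    R' ^ (m + 2) * pex m V P x R' ≤ R ^ (m + 2) * pex m V P x R := by
  have hR : 0 < R := hR'.trans_le hRR
  unfold pex ex
  rw [← mul_assoc, mul_inv_cancel₀ (by positivity), one_mul, ← mul_assoc,
    mul_inv_cancel₀ (by positivity), one_mul]
  refine setIntegral_mono_set ?_ (Filter.Eventually.of_forall fun _ => by positivity)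
    (LE.le.eventuallyLE (preimage_mono (Metric.ball_subset_ball hRR)))
  have := Strat3_842.integrableOn_of_bdd hV.conc (x := x) (r := R)
    (f := fun p : Euc k × L k => ‖(ContinuousLinearMap.id ℝ (Euc k) - P) (p.1 - x)‖ ^ 2) (by
      rw [prod_eq]; exact fin_ball hV hU Metric.ball_subset_closedBall) (by fun_prop)
  rwa [prod_eq] at this

/-- `FlatAt` + small ratio gives `NearQ` in the half ball, same plane. -/
theorem near_of_flat (hV : Stat m k U V) (hm : 1 ≤ m) (hR : 0 < R)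
    (hU : Metric.closedBall x R ⊆ U) (hP : P ∈ G m k) {Q : ℕ} (h : pex m V P x R ≤ ω) {ε : ℝ}
    (hε : 65 * 2 ^ (m + 2) * ω ≤ ε)
    (hrat : rat m V x R ≤ (Q : ℝ≥0∞) + ENNReal.ofReal ε) :
    NearQ m V Q x (R / 2) ε P := by
  refine ⟨hP, ?_, (rat_mono hV hm (by positivity) (by linarith)
    (Metric.ball_subset_closedBall.trans hU)).trans hrat⟩
  have hfin2 : V (Metric.ball x (R / 2) ×ˢ univ) < ⊤ := by
    rw [prod_eq]
    exact fin_ball hV hU ((Metric.ball_subset_ball (by linarith)).trans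
      Metric.ball_subset_closedBall)
  have i1 : IntegrableOn (fun p => (R / 2) ^ 2 * tilt P p) (Metric.ball x (R / 2) ×ˢ univ) V :=
    Strat3_842.integrableOn_of_bdd hV.conc hfin2
      (continuous_const.mul (Strat3_842.continuous_tilt P))
  have i2 : IntegrableOn (fun p => height P x p) (Metric.ball x (R / 2) ×ˢ univ) V :=
    Strat3_842.integrableOn_of_bdd hV.conc hfin2 (Strat3_842.continuous_height P x)
  rw [integral_add i1 i2, integral_const_mul]
  have h1 := int_tilt_le hV hR hU hP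
  have h2 := pex_mono (P := P) (x := x) hV (by positivity : 0 < R / 2) (by linarith) hU
  rw [pex_eq (r := R / 2), ← mul_assoc, mul_inv_cancel₀ (by positivity), one_mul] at h2
  have h3 : 256 * R ^ m * pex m V P x R ≤ 256 * R ^ m * ω := by gcongr
  have h4 : R ^ (m + 2) * pex m V P x R ≤ R ^ (m + 2) * ω := by gcongr
  calc (R / 2) ^ 2 * ∫ p in Metric.ball x (R / 2) ×ˢ univ, tilt P p ∂V +
        ∫ p in Metric.ball x (R / 2) ×ˢ univ, height P x p ∂V
      ≤ (R / 2) ^ 2 * (256 * R ^ m * ω) + R ^ (m + 2) * ω := by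
        refine add_le_add (mul_le_mul_of_nonneg_left (h1.trans h3) (by positivity)) (h2.trans h4)
    _ = (65 * 2 ^ (m + 2) * ω) * (R / 2) ^ (m + 2) := by
        rw [div_pow R 2 (m + 2)]
        field_simp
        ring
    _ ≤ _ := by gcongr

theorem split_of_frame (h : Frame π ρ) : Cy_870.Split π ρ := ⟨h.coπ, h.coρ, h.full⟩

theorem norm_le_of_cyl (h : Frame π ρ) {A : ℝ} (hA : A ≤ 2) {y : Euc k}
    (hy : y ∈ Cy_870.cyl π ρ 0 A 1) : ‖y‖ < 3 := by
  have h1 := fr_norm_sq h y
  have h2 : ‖π y‖ ≤ A := by simpa using hy.1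
  have h3 : ‖ρ y‖ ≤ 1 := hy.2
  have h4 := norm_nonneg (π y)
  have h5 := norm_nonneg (ρ y)
  nlinarith [norm_nonneg y]

/-- the zoomed varifold in the unit cylinder is a stationary cylinder varifold. -/
theorem cylStat_zoom (hV : Stat m k U V) (hf : Frame π ρ) {t : ℝ} (ht : 0 < t)
    (hU : Metric.closedBall x (3 * t) ⊆ U) {A ε : ℝ} (hA : A ≤ 2) (hε : ε < 1)
    (hsup : ∀ᵐ p ∂V, p.1 ∈ Metric.ball x (4 * t) → ‖ρ (p.1 - x)‖ ≤ ε * t) :
    Cy_870.CylStat ((Vc_164.resc m x t V).restrict (Cy_870.cyl π ρ 0 A 1 ×ˢ univ)) π ρ 0 A ε := by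
  refine Cy_870.cylStat_of_stat (Vc_164.resc_stat x ht hV) (split_of_frame hf) hε one_pos ?_ ?_
  · intro y hy
    refine hU ?_
    rw [Metric.mem_closedBall, dist_eq_norm, add_sub_cancel_left, norm_smul,
      Real.norm_of_nonneg ht.le]
    have := norm_le_of_cyl hf hA hy
    nlinarith
  · have h1 : ∀ᵐ p ∂V, (Vc_164.hom x t p).1 ∈ Cy_870.cyl π ρ 0 A 1 →
        ‖ρ (Vc_164.hom x t p).1‖ ≤ ε := by
      filter_upwards [hsup] with p hp hcyl
      have h2 : (Vc_164.hom x t p).1 = t⁻¹ • (p.1 - x) := rfl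
      have h3 := norm_le_of_cyl hf hA hcyl
      rw [h2, norm_smul, norm_inv, Real.norm_of_nonneg ht.le, inv_mul_lt_iff₀ ht] at h3
      have h4 := hp (by rw [Metric.mem_ball, dist_eq_norm]; linarith)
      rw [h2, map_smul, norm_smul, norm_inv, Real.norm_of_nonneg ht.le, inv_mul_le_iff₀ ht]
      linarith
    refine Measure.ae_smul_measure ?_ _
    rw [ae_map_iff (Vc_164.measurable_hom x t).aemeasurable]
    · exact h1
    · have hcl : IsClosed (Cy_870.cyl π ρ (0 : Euc m) A 1) := Cy_870.isClosed_cyl π ρ 0 A 1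
      have e1 : {p : Euc k × L k | p.1 ∈ Cy_870.cyl π ρ 0 A 1 → ‖ρ p.1‖ ≤ ε} =
          (Prod.fst ⁻¹' (Cy_870.cyl π ρ 0 A 1)ᶜ) ∪ {p | ‖ρ p.1‖ ≤ ε} := by
        ext p
        simp only [mem_ofPred_eq, mem_union, mem_preimage, mem_compl_iff]
        tauto
      rw [e1]
      refine (hcl.measurableSet.compl.preimage measurable_fst).union ?_
      exact (isClosed_le (by fun_prop) continuous_const).measurableSet

/-- mass bounds of the zoomed varifold. -/
theorem zoom_mass_le (hf : Frame π ρ) {t : ℝ} (ht : 0 < t) {A : ℝ} (hA : A ≤ 2) {Λ : ℝ≥0∞}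
    (hrat : rat m V x (3 * t) ≤ Λ) :
    ((Vc_164.resc m x t V).restrict (Cy_870.cyl π ρ 0 A 1 ×ˢ univ)) univ ≤
      Λ * ENNReal.ofReal (ome m * 3 ^ m) := by
  rw [Measure.restrict_apply_univ]
  have h1 : (Vc_164.resc m x t V) (Cy_870.cyl π ρ 0 A 1 ×ˢ univ) ≤
      (Vc_164.resc m x t V) (Metric.ball 0 3 ×ˢ univ) := by
    refine measure_mono (Set.prod_mono ?_ Subset.rfl)
    intro y hy
    rw [mem_ball_zero_iff]
    exact norm_le_of_cyl hf hA hy
  refine h1.trans ?_
  rw [Vc_164.resc_ball m x 0 ht, smul_zero, add_zero, mul_comm t 3, prod_eq]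
  unfold rat at hrat
  rw [ENNReal.div_le_iff_le_mul (Or.inl (by
    rw [ne_eq, ENNReal.ofReal_eq_zero, not_le]; exact den_pos m (by positivity)))
    (Or.inl ENNReal.ofReal_ne_top), mass_apply V measurableSet_ball] at hrat
  calc ENNReal.ofReal ((t ^ m)⁻¹) * V (Prod.fst ⁻¹' Metric.ball x (3 * t))
      ≤ ENNReal.ofReal ((t ^ m)⁻¹) * (Λ * ENNReal.ofReal (ome m * (3 * t) ^ m)) := by gcongr
    _ = Λ * (ENNReal.ofReal ((t ^ m)⁻¹) * ENNReal.ofReal (ome m * (3 * t) ^ m)) := by ring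
    _ = _ := by
      rw [← ENNReal.ofReal_mul (by positivity)]
      congr 2
      rw [mul_pow]
      field_simp

theorem le_zoom_mass (hV : Stat m k U V) (hm : 1 ≤ m) (hf : Frame π ρ) {t : ℝ} (ht : 0 < t)
    (hU : Metric.closedBall x (3 * t) ⊆ U) {A σ : ℝ} (hσ : 0 < σ) (hσ1 : σ ≤ 1) (hσA : σ ≤ A)
    {c : ℝ≥0∞} (hTh : c ≤ Th m V x) :
    c * ENNReal.ofReal (ome m * σ ^ m) ≤
      ((Vc_164.resc m x t V).restrict (Cy_870.cyl π ρ 0 A 1 ×ˢ univ))
        ((fun p => π p.1) ⁻¹' Metric.ball 0 σ) := by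
  have hmeas : MeasurableSet ((fun p : Euc k × L k => π p.1) ⁻¹' Metric.ball (0 : Euc m) σ) :=
    measurableSet_ball.preimage (by fun_prop)
  rw [Measure.restrict_apply hmeas]
  have h1 : Metric.ball (0 : Euc k) σ ×ˢ univ ⊆
      ((fun p : Euc k × L k => π p.1) ⁻¹' Metric.ball (0 : Euc m) σ) ∩
        Cy_870.cyl π ρ 0 A 1 ×ˢ univ := by
    rintro p ⟨hp, -⟩
    rw [mem_ball_zero_iff] at hp
    have h2 := fr_norm_p hf p.1
    have h3 := fr_norm_r hf p.1
    refine ⟨?_, ⟨?_, ?_⟩, mem_univ _⟩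
    · rw [mem_preimage, mem_ball_zero_iff]; linarith
    · rw [sub_zero]; linarith
    · linarith
  refine le_trans ?_ (measure_mono h1)
  rw [Vc_164.resc_ball m x 0 ht, smul_zero, add_zero, prod_eq]
  have hsub : Metric.ball x (t * σ) ⊆ U := by
    refine (Metric.ball_subset_ball ?_).trans (Metric.ball_subset_closedBall.trans hU)
    nlinarith
  have h2 := mul_le_mass hV hm (show 0 < t * σ by positivity) hsub hTh
  rw [mass_apply V measurableSet_ball] at h2
  calc c * ENNReal.ofReal (ome m * σ ^ m) = ENNReal.ofReal ((t ^ m)⁻¹) *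
        (c * ENNReal.ofReal (ome m * (t * σ) ^ m)) := by
        have e1 : ENNReal.ofReal ((t ^ m)⁻¹) * (c * ENNReal.ofReal (ome m * (t * σ) ^ m)) =
          c * (ENNReal.ofReal ((t ^ m)⁻¹) * ENNReal.ofReal (ome m * (t * σ) ^ m)) := by ring
        rw [e1, ← ENNReal.ofReal_mul (by positivity)]
        congr 2
        rw [mul_pow]
        field_simp
    _ ≤ _ := by gcongr

/-- two planes near which `V` is (tilt) at the same scale. -/
theorem plane_close (hV : Stat m k U V) (hm : 1 ≤ m) {P' : L k} (hP : P ∈ G m k)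
    (hP' : P' ∈ G m k) (hR : 0 < R) (hU : Metric.closedBall x R ⊆ U) (hTh : 1 ≤ Th m V x)
    {a b : ℝ} (h1 : ∫ p in Metric.ball x R ×ˢ univ, tilt P p ∂V ≤ a * R ^ m)
    (h2 : ∫ p in Metric.ball x R ×ˢ univ, tilt P' p ∂V ≤ b * R ^ m) :
    ome m * ‖P - P'‖ ^ 2 ≤ 4 * (a + b) := by
  have hfin : V (Metric.ball x R ×ˢ univ) < ⊤ := by
    rw [prod_eq]; exact fin_ball hV hU Metric.ball_subset_closedBall
  have hpt : ∀ p : Euc k × L k, p.2 ∈ G m k → ‖P - P'‖ ^ 2 ≤ 4 * (tilt P p + tilt P' p) := by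
    intro p hp
    have e1 : ∀ {T : L k}, T ∈ G m k → ‖p.2 - T‖ ^ 2 ≤ 2 * tilt T p := by
      intro T hT
      have htr : Cacc_113.tr p.2 = Cacc_113.tr T := by
        have a1 := hp.2.2
        have a2 := hT.2.2
        rw [tr_apply] at a1 a2
        exact a1.trans a2.symm
      exact (Al7_182.isPr_of_G hp).norm_sub_sq_le (Al7_182.isPr_of_G hT) htr
    have h3 := e1 hP
    have h4 := e1 hP'
    have h5 : ‖P - P'‖ ≤ ‖p.2 - P‖ + ‖p.2 - P'‖ := by
      have : P - P' = (p.2 - P') - (p.2 - P) := by abel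
      rw [this]
      exact (norm_sub_le _ _).trans (by linarith)
    have h6 := norm_nonneg (P - P')
    nlinarith [sq_nonneg (‖p.2 - P‖ - ‖p.2 - P'‖)]
  have h3 : ∫ p in Metric.ball x R ×ˢ univ, ‖P - P'‖ ^ 2 ∂V ≤
      ∫ p in Metric.ball x R ×ˢ univ, 4 * (tilt P p + tilt P' p) ∂V := by
    refine setIntegral_mono_ae_restrict ?_ ?_ ?_
    · exact Strat3_842.integrableOn_of_bdd hV.conc hfin continuous_const
    · exact Strat3_842.integrableOn_of_bdd hV.conc hfin (continuous_const.mul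
        ((Strat3_842.continuous_tilt P).add (Strat3_842.continuous_tilt P')))
    · filter_upwards [ae_restrict_of_ae hV.conc] with p hp
      exact hpt p hp
  have i1 : IntegrableOn (fun p => tilt P p) (Metric.ball x R ×ˢ univ) V :=
    Strat3_842.integrableOn_of_bdd hV.conc hfin (Strat3_842.continuous_tilt P)
  have i2 : IntegrableOn (fun p => tilt P' p) (Metric.ball x R ×ˢ univ) V :=
    Strat3_842.integrableOn_of_bdd hV.conc hfin (Strat3_842.continuous_tilt P')
  rw [setIntegral_const, integral_const_mul, integral_add i1 i2, smul_eq_mul] at h3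
  have h4 : ome m * R ^ m ≤ V.real (Metric.ball x R ×ˢ univ) := by
    have h5 := mul_le_mass hV hm hR (Metric.ball_subset_closedBall.trans hU) hTh
    rw [one_mul, mass_apply V measurableSet_ball, ← prod_eq] at h5
    have h6 := ENNReal.toReal_mono hfin.ne h5
    rwa [ENNReal.toReal_ofReal (den_pos m hR).le] at h6
  have h5 : ome m * R ^ m * ‖P - P'‖ ^ 2 ≤ 4 * (a + b) * R ^ m := by
    have := mul_le_mul_of_nonneg_right h4 (sq_nonneg ‖P - P'‖)
    linarith
  have h6 : 0 < R ^ m := by positivity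
  have h7 : ome m * R ^ m * ‖P - P'‖ ^ 2 = ome m * ‖P - P'‖ ^ 2 * R ^ m := by ring
  rw [h7] at h5
  exact le_of_mul_le_mul_right h5 h6

end Crest.Agent.R234.Top_395
end
end

-- ▼ part R234/F9c1_947
section

/-!
Row 234, node F9C (helper947), file 1: if the support near a point lies in the zero set of a map `h`
with values in `ℝ^(k-m)`, then `Dh ∘ S = 0` a.e., and `S` is the projection onto `ker Dh`.
-/

set_option autoImplicit false

open MeasureTheory Crest.GeometryTopology.Submanifold Filter Topology Metric Module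
open scoped ENNReal NNReal InnerProductSpace

noncomputable section

namespace Crest.Agent.R234.F9c_947

open Crest.Agent.R234.Vf_884

variable {m k : ℕ} {F : Type*} [NormedAddCommGroup F] [InnerProductSpace ℝ F]
  [FiniteDimensional ℝ F]

/-! ### algebra -/



/-! ### tangency -/

variable {U : Set (Euc k)} {D : VarifoldData m k}

/-- `D(h ∘ f) = 0` a.e. on the zero set. -/
theorem ae_deriv_zero {f : Euc m → Euc k} (hf : ContDiff ℝ 1 f) {s : Set (Euc m)}
    (hs : MeasurableSet s) {h : Euc k → F} {h' : Euc k → Euc k →L[ℝ] F}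
    (hh : ∀ a ∈ s, HasFDerivAt h (h' (f a)) (f a)) (h0 : ∀ a ∈ s, h (f a) = 0) (hm : 1 ≤ m) :
    ∀ᵐ a ∂(volume.restrict s), ∀ w, h' (f a) (fderiv ℝ f a w) = 0 := by
  let b := stdOrthonormalBasis ℝ F
  let v₀ : Euc m := EuclideanSpace.single ⟨0, hm⟩ 1
  have hv₀ : v₀ ≠ 0 := by
    intro h1
    have h2 : v₀ ⟨0, hm⟩ = 0 := by rw [h1]; rfl
    simp [v₀] at h2
  have key : ∀ j, ∀ᵐ a ∂(volume.restrict s), ∀ w, ⟪b j, h' (f a) (fderiv ℝ f a w)⟫_ℝ = 0 := by
    intro j
    let Λ : F →L[ℝ] Euc m := (innerSL ℝ (b j)).smulRight v₀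
    have hder : ∀ a ∈ s, HasFDerivWithinAt (fun a => Λ (h (f a)))
        (Λ ∘L (h' (f a) ∘L fderiv ℝ f a)) s a := by
      intro a ha
      have h1 : HasFDerivAt f (fderiv ℝ f a) a := (hf.differentiable one_ne_zero a).hasFDerivAt
      exact (Λ.hasFDerivAt.comp a ((hh a ha).comp a h1)).hasFDerivWithinAt
    have happ : ApproximatesLinearOn (fun a => Λ (h (f a))) (0 : Euc m →L[ℝ] Euc m) s 0 := by
      intro a ha c hc
      simp [h0 a ha, h0 c hc]
    have h2 := ApproximatesLinearOn.norm_fderiv_sub_le volume happ hs _ hder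
    filter_upwards [h2] with a ha w
    have h3 : Λ ∘L (h' (f a) ∘L fderiv ℝ f a) = 0 := by
      rw [sub_zero] at ha
      exact nnnorm_eq_zero.1 (le_antisymm ha (zero_le))
    have h4 := congrArg (fun A : Euc m →L[ℝ] Euc m => A w) h3
    simp only [ContinuousLinearMap.comp_apply, zero_apply] at h4
    have h5 : (⟪b j, h' (f a) (fderiv ℝ f a w)⟫_ℝ) • v₀ = 0 := h4
    exact (smul_eq_zero.1 h5).resolve_right hv₀
  rw [← ae_all_iff] at key
  filter_upwards [key] with a ha w
  exact InnerProductSpace.ext_inner_left_basis b.toBasis (fun j => by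
    rw [OrthonormalBasis.coe_toBasis, ha j w, inner_zero_right])

/-- **tangency**: if the support in a ball lies in `{h = 0}` then `Dh ∘ S = 0` almost everywhere. -/
theorem ae_tangent (hD : IsIntegralVarifoldIn U D) (hm : 1 ≤ m) {x : Euc k} {r : ℝ} {h : Euc k → F}
    {h' : Euc k → Euc k →L[ℝ] F} (hh : ∀ q ∈ ball x r, HasFDerivAt h (h' q) q)
    (hc : ContinuousOn h' (ball x r)) (h0 : ∀ q ∈ support D, q ∈ ball x r → h q = 0) :
    ∀ᵐ p ∂(VD D), p.1 ∈ ball x r → ∀ v, h' p.1 (p.2 v) = 0 := by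
  have hmeas : MeasurableSet {p : Euc k × L k | p.1 ∈ ball x r → ∀ v, h' p.1 (p.2 v) = 0} := by
    have hO : IsOpen (ball x r ×ˢ (Set.univ : Set (L k))) := isOpen_ball.prod isOpen_univ
    have hΦ : ContinuousOn (fun p : Euc k × L k => h' p.1 ∘L p.2) (ball x r ×ˢ Set.univ) :=
      (hc.comp continuousOn_fst fun p hp => hp.1).clm_comp continuousOn_snd
    have h1 : IsOpen (ball x r ×ˢ (Set.univ : Set (L k)) ∩
        (fun p : Euc k × L k => h' p.1 ∘L p.2) ⁻¹' {(0 : Euc k →L[ℝ] F)}ᶜ) :=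
      hΦ.isOpen_inter_preimage hO isOpen_compl_singleton
    have h2 : {p : Euc k × L k | p.1 ∈ ball x r → ∀ v, h' p.1 (p.2 v) = 0} =
        (ball x r ×ˢ (Set.univ : Set (L k)) ∩
        (fun p : Euc k × L k => h' p.1 ∘L p.2) ⁻¹' {(0 : Euc k →L[ℝ] F)}ᶜ)ᶜ := by
      ext p
      simp only [Set.mem_ofPred_eq, Set.mem_compl_iff, Set.mem_inter_iff, Set.mem_prod, Set.mem_univ,
        and_true, Set.mem_preimage, Set.mem_singleton_iff, not_and, not_not]
      refine imp_congr_right fun _ => ⟨fun h => ?_, fun h v => ?_⟩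
      · ext1 v
        exact h v
      · exact congrArg (fun A : Euc k →L[ℝ] F => A v) h
    rw [h2]
    exact h1.measurableSet.compl
  refine Measure.ae_sum_iff.2 fun i => ?_
  refine (ae_map_iff (aemeasurable_lift hD i) hmeas).2 ?_
  have hfc : Continuous (D.chart i) := (hD.contDiff i).continuous
  set s : Set (Euc m) := D.dom i ∩ D.chart i ⁻¹' (ball x r ∩ support D) with hs
  have hsm : MeasurableSet s := (hD.measurableSet i).inter
    (hfc.measurable (measurableSet_ball.inter (Al9_182.isClosed_support D).measurableSet))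
  have h3 := ae_deriv_zero (hD.contDiff i) hsm (h := h) (h' := h')
    (fun a ha => hh _ ha.2.1) (fun a ha => h0 _ ha.2.2 ha.2.1) hm
  rw [ae_restrict_iff' hsm] at h3
  have h4 := Ae1_3.chart_mem_support hD i
  rw [ae_restrict_iff' (hD.measurableSet i)] at h4
  have h7 : ∀ᵐ a ∂(volume.restrict (D.dom i)), (lift D i a).1 ∈ ball x r →
      ∀ v, h' (lift D i a).1 ((lift D i a).2 v) = 0 := by
    rw [ae_restrict_iff' (hD.measurableSet i)]
    filter_upwards [h3, h4] with a ha hb hai hball v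
    have h5 := ha ⟨hai, hball, hb hai⟩
    obtain ⟨w, hw⟩ := (Ar_870.tp_mem (D.chart i) a v)
    have h6 : (lift D i a).2 v = fderiv ℝ (D.chart i) a w := hw.symm
    change h' (D.chart i a) ((lift D i a).2 v) = 0
    rw [h6]
    exact h5 w
  exact (base_ac D i).ae_le h7

end Crest.Agent.R234.F9c_947
end
end

-- ▼ part R234/F9c2_947
section

/-!
Row 234, node F9C (helper947), file 2: **if the support near `x` lies in the zero set of a `C^{1,1}`
submersion with values in `ℝ^(k-m)`, then `x` is a regular point.**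
-/

set_option autoImplicit false

open MeasureTheory Crest.GeometryTopology.Submanifold Filter Topology Metric Module
open scoped ENNReal NNReal InnerProductSpace

noncomputable section

namespace Crest.Agent.R234.F9c_947

open Crest.Agent.R234.Vf_884

variable {m k : ℕ} {F : Type*} [NormedAddCommGroup F] [InnerProductSpace ℝ F]
  [FiniteDimensional ℝ F] {U : Set (Euc k)} {D : VarifoldData m k}

omit [FiniteDimensional ℝ F] in
/-- quadratic Taylor estimate. -/
theorem taylor {x : Euc k} {r C : ℝ} {h : Euc k → F} {h' : Euc k → Euc k →L[ℝ] F}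
    (hh : ∀ q ∈ ball x r, HasFDerivAt h (h' q) q) (hC0 : 0 ≤ C)
    (hC : ∀ p ∈ ball x r, ∀ q ∈ ball x r, ‖h' p - h' q‖ ≤ C * ‖p - q‖) {p q : Euc k}
    (hp : p ∈ ball x r) (hq : q ∈ ball x r) : ‖h p - h q - h' q (p - q)‖ ≤ C * ‖p - q‖ ^ 2 := by
  have hsub : segment ℝ q p ⊆ ball x r := (convex_ball x r).segment_subset hq hp
  have h1 := Convex.norm_image_sub_le_of_norm_hasFDerivWithin_le' (f := h) (f' := h')
    (φ := h' q) (C := C * ‖p - q‖) (s := segment ℝ q p) (x := q) (y := p)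
    (fun z hz => (hh z (hsub hz)).hasFDerivWithinAt) (fun z hz => ?_) (convex_segment q p)
    (left_mem_segment ℝ q p) (right_mem_segment ℝ q p)
  · refine h1.trans (le_of_eq ?_)
    ring
  · refine (hC z (hsub hz) q hq).trans ?_
    gcongr
    have h2 : dist q z ≤ dist q p := by
      have := dist_add_dist_of_mem_segment hz
      have := dist_nonneg (x := z) (y := p)
      linarith
    rw [dist_comm, dist_comm q p, dist_eq_norm, dist_eq_norm] at h2
    exact h2

/-- **quadratic defect** of the tangent planes along the support, near `x`. -/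
structure Quad (U : Set (Euc k)) (D : VarifoldData m k) (x : Euc k) (r c : ℝ) : Prop where
  hr : 0 < r
  ball : ball x r ⊆ U
  c0 : 0 ≤ c
  defect : ∀ᵐ q ∂(VD D), q.1 ∈ Metric.ball x r → ∀ p ∈ support D, p ∈ Metric.ball x r →
    ‖(q.1 - p) - q.2 (q.1 - p)‖ ≤ c * ‖q.1 - p‖ ^ 2

/-- the set-up. -/
structure Zero (U : Set (Euc k)) (D : VarifoldData m k) (x : Euc k) (r : ℝ) (h : Euc k → F)
    (h' : Euc k → Euc k →L[ℝ] F) (K C : ℝ) : Prop where
  hr : 0 < r
  ball : ball x r ⊆ U
  der : ∀ q ∈ Metric.ball x r, HasFDerivAt h (h' q) q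
  K0 : 0 ≤ K
  C0 : 0 ≤ C
  lip : ∀ p ∈ Metric.ball x r, ∀ q ∈ Metric.ball x r, ‖h' p - h' q‖ ≤ K * ‖p - q‖
  zero : ∀ q ∈ support D, q ∈ Metric.ball x r → h q = 0
  coer : ∀ q ∈ Metric.ball x r, ∀ S ∈ G m k, h' q ∘L S = 0 → ∀ v, S v = 0 → ‖v‖ ≤ C * ‖h' q v‖

/-- almost every point of `V` is in the support. -/
theorem ae_mem_support (hD : IsIntegralVarifoldIn U D) :
    ∀ᵐ p ∂(VD D), p.1 ∈ support D := by
  have h1 : mass (VD D) (support D)ᶜ = 0 := by
    rw [mass_VD hD]
    exact Ae1_3.weight_support_compl D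
  rw [mass_apply _ (Al9_182.isClosed_support D).measurableSet.compl] at h1
  rw [ae_iff]
  exact h1

/-- **quadratic defect.** -/
theorem Zero.quad {x : Euc k} {r K C : ℝ} {h : Euc k → F} {h' : Euc k → Euc k →L[ℝ] F}
    (hZ : Zero U D x r h h' K C) (hD : IsIntegralVarifoldIn U D) (hm : 1 ≤ m) :
    Quad U D x r (C * K) := by
  refine ⟨hZ.hr, hZ.ball, mul_nonneg hZ.C0 hZ.K0, ?_⟩
  have hc : ContinuousOn h' (Metric.ball x r) := by
    have : LipschitzOnWith ⟨K, hZ.K0⟩ h' (Metric.ball x r) :=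
      LipschitzOnWith.of_dist_le_mul fun p hp q hq => by
        rw [dist_eq_norm, dist_eq_norm]
        exact hZ.lip p hp q hq
    exact this.continuousOn
  filter_upwards [ae_tangent hD hm hZ.der hc hZ.zero, VD_conc hD, ae_mem_support hD]
    with q hq hqG hqs hqb p hp hpb
  have h0 : h' q.1 ∘L q.2 = 0 := by
    ext1 v
    exact hq hqb v
  have h4 := hZ.coer q.1 hqb q.2 hqG h0 ((q.1 - p) - q.2 (q.1 - p)) (by
    rw [map_sub, G_idem_apply hqG, sub_self])
  have h5 := taylor hZ.der hZ.K0 hZ.lip hpb hqb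
  rw [hZ.zero p hp hpb, hZ.zero q.1 hqs hqb, sub_self, zero_sub, norm_neg] at h5
  have h6 : h' q.1 ((q.1 - p) - q.2 (q.1 - p)) = -h' q.1 (p - q.1) := by
    rw [map_sub, hq hqb, sub_zero, ← map_neg, neg_sub]
  rw [h6, norm_neg] at h4
  calc _ ≤ C * ‖h' q.1 (p - q.1)‖ := h4
    _ ≤ C * (K * ‖p - q.1‖ ^ 2) := mul_le_mul_of_nonneg_left h5 hZ.C0
    _ = _ := by rw [norm_sub_rev p q.1]; ring

/-- open-ball ratio. -/
def No (m : ℕ) (V : Measure (Euc k × L k)) (z : Euc k) (r : ℝ) : ℝ :=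
  (r ^ m)⁻¹ * (mass V).real (Metric.ball z r)

theorem No_eq (V : Measure (Euc k × L k)) (z : Euc k) {r : ℝ} (hr : 0 < r) :
    No m V z r = ome m * (rat m V z r).toReal := by
  have h1 := den_pos m hr
  have h2 := ome_pos m
  rw [No, rat, ENNReal.toReal_div, ENNReal.toReal_ofReal h1.le, measureReal_def]
  field_simp

theorem tendsto_No {V : Measure (Euc k × L k)} (hV : Stat m k U V) (hm : 1 ≤ m) (hU : IsOpen U)
    {z : Euc k} (hz : z ∈ U) :
    Tendsto (No m V z) (𝓝[>] 0) (𝓝 (ome m * (Th m V z).toReal)) := by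
  obtain ⟨R, hR, hRU⟩ := exists_closedBall hU hz
  have h1 := tendsto_rat hV hm hR (ball_subset_closedBall.trans hRU)
  have h2 := ((ENNReal.tendsto_toReal (Th_lt_top hV hm hU hz).ne).comp h1).const_mul (ome m)
  refine h2.congr' ?_
  filter_upwards [self_mem_nhdsWithin] with r hr
  exact (No_eq V z hr).symm

/-- decay of the ratio by one step. -/
theorem Quad.step {x : Euc k} {r c : ℝ} (hZ : Quad U D x r c) (hD : IsIntegralVarifoldIn U D)
    (hst : IsStationaryIn U D) (hm : 1 ≤ m) {p : Euc k} (hp : p ∈ support D)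
    {t M : ℝ} (ht : 0 < t) (hsub : Metric.closedBall p t ⊆ Metric.ball x r)
    (hM : No m (VD D) p t ≤ M) :
    No m (VD D) p t ≤ No m (VD D) p (3 / 4 * t) + c ^ 2 * 2 ^ (m + 2) * M * t ^ 2 := by
  have hV : Stat m k U (VD D) := stat_VD hD hst
  set V := VD D with hVdef
  have hcU : Metric.closedBall p t ⊆ U := hsub.trans hZ.ball
  have hid := mono_identity hV hm (z := p) (σ := t / 2) (ρ := t) (by positivity) (by linarith) hcU
  have hfin : V (Metric.ball p t ×ˢ Set.univ) < ⊤ :=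
    (measure_mono (Set.prod_mono ball_subset_closedBall subset_rfl)).trans_lt
      (hV.fin _ (isCompact_closedBall _ _) hcU)
  have hc0 : 0 ≤ c := hZ.c0
  set K : ℝ := c ^ 2 * t ^ 4 / (t / 2) ^ (m + 2) with hK
  have hK0 : 0 ≤ K := by positivity
  have hAm : MeasurableSet (Prod.fst ⁻¹' (Metric.ball p t \ Metric.closedBall p (t / 2)) :
      Set (Euc k × L k)) := measurable_fst (measurableSet_ball.diff measurableSet_closedBall)
  have hAsub : (Prod.fst ⁻¹' (Metric.ball p t \ Metric.closedBall p (t / 2)) :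
      Set (Euc k × L k)) ⊆ Metric.ball p t ×ˢ Set.univ := by
    rw [prod_univ_eq]
    exact Set.preimage_mono Set.sdiff_subset
  have hbd : ∫ q in Prod.fst ⁻¹' (Metric.ball p t \ Metric.closedBall p (t / 2)), perpQ m p q ∂V
      ≤ K * (mass V).real (Metric.ball p t) := by
    have h1 : ∫ q in Prod.fst ⁻¹' (Metric.ball p t \ Metric.closedBall p (t / 2)), perpQ m p q ∂V
        ≤ ∫ q in Prod.fst ⁻¹' (Metric.ball p t \ Metric.closedBall p (t / 2)), K ∂V := by
      refine integral_mono_of_nonneg (Eventually.of_forall fun q => perpQ_nonneg m p q)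
        (integrableOn_const ((measure_mono hAsub).trans_lt hfin).ne) ?_
      filter_upwards [ae_restrict_mem hAm, ae_restrict_of_ae hZ.defect] with q hq hdef
      have hq1 : q.1 ∈ Metric.ball p t := hq.1
      have hq2 : t / 2 < ‖q.1 - p‖ := by
        have := hq.2
        rw [Metric.mem_closedBall, not_le, dist_eq_norm] at this
        exact this
      have hq3 : ‖q.1 - p‖ < t := by rwa [mem_ball, dist_eq_norm] at hq1
      have h2 := hdef (hsub (ball_subset_closedBall hq1)) p hp (hsub (mem_closedBall_self ht.le))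
      unfold perpQ
      rw [hK]
      have h3 : ‖(q.1 - p) - q.2 (q.1 - p)‖ ^ 2 ≤ c ^ 2 * t ^ 4 := by
        calc ‖(q.1 - p) - q.2 (q.1 - p)‖ ^ 2 ≤ (c * ‖q.1 - p‖ ^ 2) ^ 2 := by gcongr
          _ = c ^ 2 * ‖q.1 - p‖ ^ 4 := by ring
          _ ≤ c ^ 2 * t ^ 4 := by gcongr
      gcongr
    refine h1.trans ?_
    rw [setIntegral_const, smul_eq_mul, mul_comm]
    have hle : V.real (Prod.fst ⁻¹' (Metric.ball p t \ Metric.closedBall p (t / 2))) ≤
        (mass V).real (Metric.ball p t) := by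
      rw [mass_real_apply V measurableSet_ball]
      rw [prod_univ_eq] at hfin
      exact ENNReal.toReal_mono hfin.ne (measure_mono (Set.preimage_mono Set.sdiff_subset))
    exact mul_le_mul_of_nonneg_left hle hK0
  have h5 : (t / 2) ^ m ≠ 0 := by positivity
  have h6 : ((t / 2) ^ m)⁻¹ * (mass V).real (Metric.closedBall p (t / 2)) ≤
      No m V p (3 / 4 * t) := by
    exact mono_real hV hm (by positivity) (by linarith)
      ((Metric.closedBall_subset_closedBall (by linarith)).trans hcU)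
  have h7 : K * (mass V).real (Metric.ball p t) = c ^ 2 * 2 ^ (m + 2) * No m V p t * t ^ 2 := by
    rw [hK, No, div_pow, pow_add t m 2]
    field_simp
  have h8 : c ^ 2 * 2 ^ (m + 2) * No m V p t * t ^ 2 ≤ c ^ 2 * 2 ^ (m + 2) * M * t ^ 2 := by
    gcongr
  have h9 : No m V p t = (t ^ m)⁻¹ * (mass V).real (Metric.ball p t) := rfl
  linarith

end Crest.Agent.R234.F9c_947
end
end

-- ▼ part R234/F9c3_947
section

/-!
Row 234, node F9C (helper947), file 3: the density along the support under the quadratic defect.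

Quadratic defect ⇒ the ratio at support points near `x` exceeds the density by at most `K t²`,
uniformly ⇒ the density is lower semicontinuous along the support near `x` ⇒ (it is an integer
almost everywhere) `Θ(x) = Q` is an integer and `Θ ≥ Q` on the support near `x` ⇒
`Al9_182.allard`.
-/

set_option autoImplicit false

open MeasureTheory Crest.GeometryTopology.Submanifold Filter Topology Metric Module
open scoped ENNReal NNReal InnerProductSpace

noncomputable section

namespace Crest.Agent.R234.F9c_947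

open Crest.Agent.R234.Vf_884

variable {m k : ℕ} {U : Set (Euc k)} {D : VarifoldData m k}

theorem No_mono {V : Measure (Euc k × L k)} (hV : Stat m k U V) (hm : 1 ≤ m) {z : Euc k}
    {σ ρ : ℝ} (hσ : 0 < σ) (hσρ : σ ≤ ρ) (hU : Metric.closedBall z ρ ⊆ U) :
    No m V z σ ≤ No m V z ρ := by
  rw [No_eq V z hσ, No_eq V z (hσ.trans_le hσρ)]
  have h1 := rat_mono hV hm hσ hσρ (ball_subset_closedBall.trans hU)
  exact mul_le_mul_of_nonneg_left
    (ENNReal.toReal_mono (rat_lt_top hV (hσ.trans_le hσρ) hU).ne h1) (ome_pos m).le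

theorem Th_le_No {V : Measure (Euc k × L k)} (hV : Stat m k U V) (hm : 1 ≤ m) {z : Euc k}
    {ρ : ℝ} (hρ : 0 < ρ) (hU : Metric.closedBall z ρ ⊆ U) :
    ome m * (Th m V z).toReal ≤ No m V z ρ := by
  rw [No_eq V z hρ]
  exact mul_le_mul_of_nonneg_left (ENNReal.toReal_mono (rat_lt_top hV hρ hU).ne
    (Th_le_rat hV hm hρ (ball_subset_closedBall.trans hU))) (ome_pos m).le

theorem No_nonneg (V : Measure (Euc k × L k)) (z : Euc k) {r : ℝ} (hr : 0 < r) :
    0 ≤ No m V z r := by
  unfold No; positivity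

/-- iteration of the step. -/
theorem Quad.iter {x : Euc k} {r c : ℝ} (hZ : Quad U D x r c) (hD : IsIntegralVarifoldIn U D)
    (hst : IsStationaryIn U D) (hm : 1 ≤ m) {p : Euc k} (hp : p ∈ support D)
    {t M : ℝ} (ht : 0 < t) (hsub : Metric.closedBall p t ⊆ Metric.ball x r)
    (hM : No m (VD D) p t ≤ M) (j : ℕ) :
    No m (VD D) p t ≤ No m (VD D) p ((3 / 4) ^ j * t) +
      c ^ 2 * 2 ^ (m + 2) * M * t ^ 2 * (16 / 7 * (1 - (9 / 16) ^ j)) := by
  induction j with
  | zero => simp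
  | succ j ih =>
    have hV : Stat m k U (VD D) := stat_VD hD hst
    have hj0 : (0 : ℝ) < (3 / 4) ^ j := by positivity
    have hj1 : ((3 : ℝ) / 4) ^ j ≤ 1 := pow_le_one₀ (by norm_num) (by norm_num)
    have htj : 0 < (3 / 4) ^ j * t := by positivity
    have htj1 : (3 / 4) ^ j * t ≤ t := by nlinarith
    have hsubj : Metric.closedBall p ((3 / 4) ^ j * t) ⊆ Metric.ball x r :=
      (closedBall_subset_closedBall htj1).trans hsub
    have hMj : No m (VD D) p ((3 / 4) ^ j * t) ≤ M :=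
      (No_mono hV hm htj htj1 (hsub.trans hZ.ball)).trans hM
    have h1 := hZ.step hD hst hm hp htj hsubj hMj
    have e1 : 3 / 4 * ((3 / 4 : ℝ) ^ j * t) = (3 / 4) ^ (j + 1) * t := by ring
    rw [e1] at h1
    have e2 : ((3 / 4 : ℝ) ^ j * t) ^ 2 = (9 / 16) ^ j * t ^ 2 := by
      rw [mul_pow, ← pow_mul, mul_comm j 2, pow_mul]
      norm_num
    rw [e2] at h1
    refine (ih.trans (add_le_add_left h1 _)).trans (le_of_eq ?_)
    ring

/-- the uniform upper bound of the ratio by the density. -/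
theorem Quad.upper {x : Euc k} {r c : ℝ} (hZ : Quad U D x r c) (hD : IsIntegralVarifoldIn U D)
    (hst : IsStationaryIn U D) (hm : 1 ≤ m) (hU : IsOpen U) {p : Euc k} (hp : p ∈ support D)
    {t M : ℝ} (ht : 0 < t) (hsub : Metric.closedBall p t ⊆ Metric.ball x r)
    (hM : No m (VD D) p t ≤ M) :
    No m (VD D) p t ≤ ome m * (Th m (VD D) p).toReal +
      c ^ 2 * 2 ^ (m + 2) * M * t ^ 2 * (16 / 7) := by
  have hV : Stat m k U (VD D) := stat_VD hD hst
  have hpU : p ∈ U := hZ.ball (hsub (mem_closedBall_self ht.le))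
  have hlim := tendsto_No hV hm hU hpU
  have h1 : Tendsto (fun j : ℕ => ((3 : ℝ) / 4) ^ j) atTop (𝓝 0) :=
    tendsto_pow_atTop_nhds_zero_of_lt_one (by norm_num) (by norm_num)
  have h2 : Tendsto (fun j : ℕ => ((3 : ℝ) / 4) ^ j * t) atTop (𝓝[>] 0) := by
    refine tendsto_nhdsWithin_iff.2 ⟨?_, Eventually.of_forall fun j => ?_⟩
    · simpa using h1.mul_const t
    · have : (0 : ℝ) < (3 / 4) ^ j * t := by positivity
      exact this
  have h3 := (hlim.comp h2).add_const
    (c ^ 2 * 2 ^ (m + 2) * M * t ^ 2 * (16 / 7))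
  refine ge_of_tendsto' h3 fun j => ?_
  have hM0 : 0 ≤ M := (No_nonneg _ _ ht).trans hM
  refine (hZ.iter hD hst hm hp ht hsub hM j).trans (add_le_add_right ?_ _)
  have h4 : (0 : ℝ) ≤ (9 / 16) ^ j := by positivity
  have h5 : (16 : ℝ) / 7 * (1 - (9 / 16) ^ j) ≤ 16 / 7 := by nlinarith
  have h6 := hZ.c0
  gcongr

/-- **lower semicontinuity of the density along the support.** -/
theorem Quad.lsc {x : Euc k} {r c : ℝ} (hZ : Quad U D x r c) (hD : IsIntegralVarifoldIn U D)
    (hst : IsStationaryIn U D) (hm : 1 ≤ m) (hU : IsOpen U) {ε : ℝ} (hε : 0 < ε) :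
    ∃ ρ > 0, ∀ p ∈ support D, p ∈ Metric.ball x ρ →
      (Th m (VD D) x).toReal ≤ (Th m (VD D) p).toReal + ε := by
  have hV : Stat m k U (VD D) := stat_VD hD hst
  set V := VD D with hVdef
  have hr := hZ.hr
  have home := ome_pos m
  have hc0 := hZ.c0
  set θ : ℝ := (Th m V x).toReal with hθ
  have hθ0 : 0 ≤ θ := ENNReal.toReal_nonneg
  set t₀ : ℝ := r / 4 with ht₀
  have ht₀0 : 0 < t₀ := by positivity
  have hcx : Metric.closedBall x (2 * t₀) ⊆ U :=
    (closedBall_subset_ball (by rw [ht₀]; linarith)).trans hZ.ball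
  set M : ℝ := (t₀ ^ m)⁻¹ * (mass V).real (Metric.closedBall x (2 * t₀)) with hM
  have hM0 : 0 ≤ M := by positivity
  set K : ℝ := c ^ 2 * 2 ^ (m + 2) * M * (16 / 7) with hK
  have hK0 : 0 ≤ K := by positivity
  -- the scale
  obtain ⟨t, ht, htt, hKt⟩ : ∃ t : ℝ, 0 < t ∧ t ≤ t₀ ∧ K * t ^ 2 ≤ ome m * ε / 2 := by
    refine ⟨min t₀ (min 1 (ome m * ε / (2 * (K + 1)))), by positivity, min_le_left _ _, ?_⟩
    set t : ℝ := min t₀ (min 1 (ome m * ε / (2 * (K + 1))))
    have h1 : t ≤ 1 := (min_le_right _ _).trans (min_le_left _ _)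
    have h2 : t ≤ ome m * ε / (2 * (K + 1)) := (min_le_right _ _).trans (min_le_right _ _)
    have h0 : 0 < t := by positivity
    have h3 : t ^ 2 ≤ ome m * ε / (2 * (K + 1)) := by nlinarith
    calc K * t ^ 2 ≤ (K + 1) * (ome m * ε / (2 * (K + 1))) := by gcongr; linarith
      _ = ome m * ε / 2 := by field_simp
  set ρ : ℝ := min (t / 2) (t * ε / (2 * (m * θ + 1))) with hρ
  have hρ0 : 0 < ρ := by positivity
  refine ⟨ρ, hρ0, fun p hp hpx => ?_⟩
  have hρ1 : ρ ≤ t / 2 := min_le_left _ _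
  have hρ2 : ρ ≤ t * ε / (2 * (m * θ + 1)) := min_le_right _ _
  set d : ℝ := dist p x with hd
  have hd0 : 0 ≤ d := dist_nonneg
  have hdρ : d < ρ := hpx
  have hpt : Metric.closedBall p t ⊆ Metric.ball x r := by
    refine closedBall_subset_ball' ?_
    rw [← hd]; linarith
  have hpt₀ : Metric.closedBall p t₀ ⊆ Metric.ball x r := by
    refine closedBall_subset_ball' ?_
    rw [← hd]; linarith
  have hMp : No m V p t ≤ M := by
    refine (No_mono hV hm ht htt (hpt₀.trans hZ.ball)).trans ?_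
    rw [hM]
    unfold No
    refine mul_le_mul_of_nonneg_left ?_ (by positivity)
    refine ENNReal.toReal_mono (mass_lt_top hV (isCompact_closedBall _ _) hcx).ne
      (measure_mono ?_)
    refine (ball_subset_ball' ?_).trans ball_subset_closedBall
    rw [← hd]; linarith
  have h1 := hZ.upper hD hst hm hU hp ht hpt hMp
  have h2 : c ^ 2 * 2 ^ (m + 2) * M * t ^ 2 * (16 / 7) = K * t ^ 2 := by
    rw [hK]; ring
  rw [h2] at h1
  -- lower bound
  have htd : 0 < t - d := by linarith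
  have hcxt : Metric.closedBall x (t - d) ⊆ U :=
    (closedBall_subset_closedBall (by linarith)).trans hcx
  have h3 := Th_le_No hV hm htd hcxt
  rw [← hθ] at h3
  have h4 : (mass V).real (Metric.ball x (t - d)) ≤ (mass V).real (Metric.ball p t) := by
    refine ENNReal.toReal_mono ?_ (measure_mono ?_)
    · exact ne_top_of_le_ne_top (mass_lt_top hV (isCompact_closedBall p t)
        (hpt.trans hZ.ball)).ne (measure_mono ball_subset_closedBall)
    · refine ball_subset_ball' ?_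
      rw [dist_comm, ← hd]; linarith
  have h5 : (t - d) ^ m * (ome m * θ) ≤ t ^ m * No m V p t := by
    have e1 : (t - d) ^ m * No m V x (t - d) = (mass V).real (Metric.ball x (t - d)) := by
      unfold No; field_simp
    have e2 : t ^ m * No m V p t = (mass V).real (Metric.ball p t) := by
      unfold No; field_simp
    rw [e2]
    refine le_trans ?_ h4
    rw [← e1]
    gcongr
  have h6 : 1 - m * (d / t) ≤ (1 - d / t) ^ m := by
    have h7 : (-2 : ℝ) ≤ -(d / t) := by
      have : d / t ≤ 1 := (div_le_one ht).2 (by linarith)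
      linarith
    have h8 := one_add_mul_le_pow h7 m
    rw [← sub_eq_add_neg] at h8
    linarith
  have h9 : (1 - d / t) ^ m * (ome m * θ) ≤ No m V p t := by
    have e3 : (t - d) ^ m = t ^ m * (1 - d / t) ^ m := by
      rw [← mul_pow]; congr 1; field_simp
    rw [e3, mul_assoc] at h5
    exact le_of_mul_le_mul_left h5 (by positivity)
  have h10 : (1 - m * (d / t)) * (ome m * θ) ≤ ome m * (Th m V p).toReal + ome m * ε / 2 := by
    have : (1 - m * (d / t)) * (ome m * θ) ≤ (1 - d / t) ^ m * (ome m * θ) :=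
      mul_le_mul_of_nonneg_right h6 (by positivity)
    linarith
  have h11 : m * (d / t) * θ ≤ ε / 2 := by
    have h12 : d / t ≤ ε / (2 * (m * θ + 1)) := by
      rw [div_le_iff₀ ht]
      calc d ≤ t * ε / (2 * (m * θ + 1)) := hdρ.le.trans hρ2
        _ = _ := by ring
    have h13 : (0 : ℝ) ≤ m * θ := by positivity
    calc m * (d / t) * θ = (m * θ) * (d / t) := by ring
      _ ≤ (m * θ + 1) * (ε / (2 * (m * θ + 1))) := by
          refine mul_le_mul (by linarith) h12 (by positivity) (by positivity)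
      _ = ε / 2 := by field_simp
  have h14 : ome m * θ ≤ ome m * ((Th m V p).toReal + ε) := by
    have : ome m * (m * (d / t) * θ) ≤ ome m * (ε / 2) :=
      mul_le_mul_of_nonneg_left h11 home.le
    nlinarith
  exact le_of_mul_le_mul_left h14 home

/-- support points of integer density arbitrarily near `x`. -/
theorem exists_int (hD : IsIntegralVarifoldIn U D) (hst : IsStationaryIn U D) (hm : 1 ≤ m)
    (hU : IsOpen U) {x : Euc k} (hx : x ∈ support D) {ρ : ℝ} (hρ : 0 < ρ) :
    ∃ p ∈ support D, p ∈ Metric.ball x ρ ∧ ∃ N : ℕ, 1 ≤ N ∧ Th m (VD D) p = N := by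
  by_contra hcon
  push Not at hcon
  have h1 := Th_weight_ae hD hst hm hU
  have h2 : ∀ᵐ p ∂(weight D), p ∈ support D := by
    rw [ae_iff]
    exact Ae1_3.weight_support_compl D
  have h3 : weight D (Metric.ball x ρ) = 0 := by
    refine measure_mono_null (fun p hp => ?_) (ae_iff.1 (h1.and h2))
    rintro ⟨⟨N, hN, hpN⟩, hps⟩
    exact hcon p hps hp N hN hpN
  exact (hx ρ hρ).ne' h3

theorem stat_anti {V : Measure (Euc k × L k)} {W : Set (Euc k)} (hV : Stat m k U V)
    (h : W ⊆ U) : Stat m k W V :=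
  ⟨hV.conc, fun K hK hKW => hV.fin K hK (hKW.trans h),
    fun X h1 h2 h3 => hV.stat X h1 h2 (h3.trans h)⟩

/-- **the density at `x` is an integer `Q ≥ 1`, and is at least `Q` on the support near `x`.** -/
theorem Quad.density {x : Euc k} {r c : ℝ} (hZ : Quad U D x r c) (hD : IsIntegralVarifoldIn U D)
    (hst : IsStationaryIn U D) (hm : 1 ≤ m) (hU : IsOpen U) (hx : x ∈ support D) :
    ∃ Q : ℕ, 1 ≤ Q ∧ Th m (VD D) x = Q ∧
      ∃ ρ > 0, ∀ p ∈ support D, p ∈ Metric.ball x ρ → (Q : ℝ≥0∞) ≤ Th m (VD D) p := by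
  have hV : Stat m k U (VD D) := stat_VD hD hst
  set V := VD D with hVdef
  have hxU : x ∈ U := hZ.ball (mem_ball_self hZ.hr)
  have hxt := Th_lt_top hV hm hU hxU
  set θ : ℝ := (Th m V x).toReal with hθ
  have hThθ : Th m V x = ENNReal.ofReal θ := (ENNReal.ofReal_toReal hxt.ne).symm
  have key : ∀ ε : ℝ, 0 < ε → ∃ N : ℕ, |θ - N| ≤ ε := by
    intro ε hε
    obtain ⟨ρ, hρ, h1⟩ := hZ.lsc hD hst hm hU hε
    have h2 := usc_Th hV hm hU hxU (Th m V x + ENNReal.ofReal ε)
      (ENNReal.lt_add_right hxt.ne (by simpa using hε))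
    obtain ⟨ρ', hρ', h3⟩ := Metric.eventually_nhds_iff_ball.1 h2
    obtain ⟨p, hps, hp, N, -, hN⟩ := exists_int hD hst hm hU hx (lt_min hρ hρ')
    refine ⟨N, ?_⟩
    have h4 := h1 p hps (ball_subset_ball (min_le_left _ _) hp)
    have h5 := h3 p (ball_subset_ball (min_le_right _ _) hp)
    rw [← hVdef, hN, ENNReal.toReal_natCast, ← hθ] at h4
    rw [← hVdef] at hN
    rw [hN, hThθ, ← ENNReal.ofReal_add ENNReal.toReal_nonneg hε.le,
      ← ENNReal.ofReal_natCast] at h5
    have h6 : (N : ℝ) < θ + ε := by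
      have hpos : 0 < θ + ε := by
        have : 0 ≤ θ := ENNReal.toReal_nonneg
        linarith
      exact (ENNReal.ofReal_lt_ofReal_iff hpos).1 h5
    rw [abs_le]
    constructor <;> linarith
  -- integrality
  obtain ⟨Q, hQ⟩ := key (1 / 4) (by norm_num)
  have hθQ : θ = Q := by
    have h1 : ∀ ε : ℝ, 0 < ε → |θ - Q| ≤ ε := by
      intro ε hε
      obtain ⟨N, hN⟩ := key (min ε (1 / 4)) (by positivity)
      have h2 : |θ - N| ≤ 1 / 4 := hN.trans (min_le_right _ _)
      have h3 : |(Q : ℝ) - N| < 1 := by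
        rw [abs_le] at hQ h2
        rw [abs_lt]
        constructor <;> linarith [hQ.1, hQ.2, h2.1, h2.2]
      have h4 : Q = N := by
        have h5 : |(Q : ℤ) - N| < 1 := by exact_mod_cast h3
        have h6 : (Q : ℤ) - N = 0 := Int.abs_lt_one_iff.1 h5
        omega
      rw [h4]
      exact hN.trans (min_le_left _ _)
    have h2 : |θ - Q| ≤ 0 := le_of_forall_pos_le_add fun ε hε => by
      simpa using h1 ε hε
    have h3 := abs_nonpos_iff.1 h2
    linarith
  have hThQ : Th m V x = Q := by rw [hThθ, hθQ, ENNReal.ofReal_natCast]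
  have hQ1 : 1 ≤ Q := by
    have h1 := one_le_Th hD hst hm hU hxU hx
    rw [← hVdef, hThQ] at h1
    exact_mod_cast h1
  refine ⟨Q, hQ1, hThQ, ?_⟩
  obtain ⟨ρ, hρ, h1⟩ := hZ.lsc hD hst hm hU (ε := 1 / 2) (by norm_num)
  have hW : Metric.ball x (min ρ r) ⊆ U :=
    (ball_subset_ball (min_le_right _ _)).trans hZ.ball
  have hρr : 0 < min ρ r := lt_min hρ hZ.hr
  refine ⟨min ρ r, hρr, fun p hp hpb => ?_⟩
  refine le_Th_of_ae (U := Metric.ball x (min ρ r)) (stat_anti hV hW) hm isOpen_ball ?_ hpb ?_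
  · rw [hVdef, mass_VD hD]
    have h2 : ∀ᵐ p ∂(weight D), p ∈ support D := by
      rw [ae_iff]
      exact Ae1_3.weight_support_compl D
    filter_upwards [Th_weight_ae hD hst hm hU, h2] with q hq hqs hqb
    obtain ⟨N, -, hN⟩ := hq
    have h3 := h1 q hqs (ball_subset_ball (min_le_left _ _) hqb)
    rw [← hVdef] at hN h3
    rw [← hVdef, hN]
    rw [hN, ← hθ, hθQ, ENNReal.toReal_natCast] at h3
    have h4 : (Q : ℝ) < (N : ℝ) + 1 := by linarith
    have h5 : Q < N + 1 := by exact_mod_cast h4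
    have h6 : Q ≤ N := by omega
    exact_mod_cast h6
  · intro s hs
    rw [hVdef, mass_VD hD]
    exact hp s hs

end Crest.Agent.R234.F9c_947
end
end

-- ▼ part R234/F9c4_947
section

/-!
Row 234, node F9C (helper947), file 4.  `D` integral and stationary in the open set `U ⊆ ℝ^k`,
`1 ≤ m`, `x ∈ support D ∩ U`.

* `Quad.regular`: if near `x` the tangent planes satisfy
  `|(q - p) - S(q - p)| ≤ c |q - p|²` for `V`-a.e. `(q,S)` and all `p` in the support, then `x` is
  not a singular point;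
* `Zero.regular`: the same if near `x` the support lies in the zero set of a map `h` with Lipschitz
  derivative, with `‖v‖ ≤ C‖h'(q) v‖` for `v ∈ ker S` whenever `S ∈ G m k`, `h'(q) ∘ S = 0`;
* `regular_of_C11`: the same for a `C^{1,1}` submersion with values in a space of dimension `k - m`.
-/

set_option autoImplicit false

open MeasureTheory Crest.GeometryTopology.Submanifold Filter Topology Metric Module
open scoped ENNReal NNReal InnerProductSpace

noncomputable section

namespace Crest.Agent.R234.F9c_947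

open Crest.Agent.R234.Vf_884

variable {m k : ℕ} {F : Type*} [NormedAddCommGroup F] [InnerProductSpace ℝ F]
  [FiniteDimensional ℝ F] {U : Set (Euc k)} {D : VarifoldData m k}

/-- points of `V` near `x` with a given almost sure property. -/
theorem exists_near (hD : IsIntegralVarifoldIn U D) {x : Euc k} (hx : x ∈ support D)
    {P : Euc k × L k → Prop} (hP : ∀ᵐ q ∂(VD D), P q) {s : ℝ} (hs : 0 < s) :
    ∃ q, P q ∧ q.1 ∈ Metric.ball x s := by
  by_contra hcon
  push Not at hcon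
  have h1 : mass (VD D) (Metric.ball x s) = 0 := by
    rw [mass_apply _ measurableSet_ball]
    refine measure_mono_null (fun q hq => ?_) (ae_iff.1 hP)
    exact fun h => hcon q h hq
  rw [mass_VD hD] at h1
  exact (hx s hs).ne' h1

/-- **quadratic defect ⟹ regular point.** -/
theorem Quad.regular {x : Euc k} {r c : ℝ} (hZ : Quad U D x r c) (hD : IsIntegralVarifoldIn U D)
    (hst : IsStationaryIn U D) (hm : 1 ≤ m) (hU : IsOpen U) (hx : x ∈ support D) :
    x ∉ singularSet m k U D := by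
  obtain ⟨Q, hQ, hThQ, ρ, hρ, hThρ⟩ := hZ.density hD hst hm hU hx
  have hV : Stat m k U (VD D) := stat_VD hD hst
  have hr := hZ.hr
  have hc0 := hZ.c0
  obtain ⟨ε, hε, H⟩ := Al9_182.allard m k hm Q hQ
  have hlim := tendsto_rat hV hm hr hZ.ball
  have hlt : Th m (VD D) x < (Q : ℝ≥0∞) + ENNReal.ofReal ε := by
    rw [hThQ]
    refine ENNReal.lt_add_right (ENNReal.natCast_ne_top Q) ?_
    rw [ne_eq, ENNReal.ofReal_eq_zero, not_le]
    exact hε
  obtain ⟨r1, hr1, hr1'⟩ : ∃ r1 > 0, ∀ s, 0 < s → s < r1 →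
      rat m (VD D) x s ≤ (Q : ℝ≥0∞) + ENNReal.ofReal ε := by
    have h1 := hlim.eventually_lt_const hlt
    obtain ⟨r1, hr1, h2⟩ := mem_nhdsGT_iff_exists_Ioo_subset.1 h1
    exact ⟨r1, hr1, fun s h3 h4 => (h2 ⟨h3, h4⟩).le⟩
  set K : ℝ := 5 * c + 1 with hK
  have hK0 : 0 < K := by positivity
  set s : ℝ := min (min (r1 / 2) r) (min ρ (ε / K)) with hs
  have hs0 : 0 < s := by positivity
  have hs1 : s < r1 := by
    have : s ≤ r1 / 2 := (min_le_left _ _).trans (min_le_left _ _)
    linarith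
  have hsr : s ≤ r := (min_le_left _ _).trans (min_le_right _ _)
  have hsρ : s ≤ ρ := (min_le_right _ _).trans (min_le_left _ _)
  have hsK : s ≤ ε / K := (min_le_right _ _).trans (min_le_right _ _)
  have hxb : x ∈ Metric.ball x r := mem_ball_self hr
  obtain ⟨q, ⟨hq, hqG⟩, hqs⟩ := exists_near hD hx (hZ.defect.and (VD_conc hD)) hs0
  have hqb : q.1 ∈ Metric.ball x r := ball_subset_ball hsr hqs
  obtain ⟨T, hT, hTP⟩ := Al9_182.exists_plane hqG
  have hcompl : ∀ v, Tᗮ.starProjection v = v - q.2 v := by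
    intro v
    rw [Al6_182.starProjection_compl, hTP]
    simp
  refine H U D hU hD hst x hx s hs0 ((ball_subset_ball hsr).trans hZ.ball) T hT ?_
    (fun y hy hyb => hThρ y hy (ball_subset_ball hsρ hyb)) (hr1' s hs0 hs1)
  intro y hy hyb
  have hyr : y ∈ Metric.ball x r := ball_subset_ball hsr hyb
  have h1 := hq hqb y hy hyr
  have h2 := hq hqb x hx hxb
  have h3 : ‖q.1 - x‖ ≤ s := by rw [← dist_eq_norm]; exact (mem_ball.1 hqs).le
  have h4 : ‖y - x‖ ≤ s := by rw [← dist_eq_norm]; exact (mem_ball.1 hyb).le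
  have h5 : ‖q.1 - y‖ ≤ 2 * s := by
    calc ‖q.1 - y‖ = ‖(q.1 - x) - (y - x)‖ := by congr 1; abel
      _ ≤ ‖q.1 - x‖ + ‖y - x‖ := norm_sub_le _ _
      _ ≤ 2 * s := by linarith
  have h6 : Tᗮ.starProjection (y - x) =
      ((q.1 - x) - q.2 (q.1 - x)) - ((q.1 - y) - q.2 (q.1 - y)) := by
    rw [hcompl]
    have : y - x = (q.1 - x) - (q.1 - y) := by abel
    rw [this, map_sub]
    abel
  calc ‖Tᗮ.starProjection (y - x)‖
      ≤ ‖(q.1 - x) - q.2 (q.1 - x)‖ + ‖(q.1 - y) - q.2 (q.1 - y)‖ := by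
        rw [h6]; exact norm_sub_le _ _
    _ ≤ c * ‖q.1 - x‖ ^ 2 + c * ‖q.1 - y‖ ^ 2 := add_le_add h2 h1
    _ ≤ c * s ^ 2 + c * (2 * s) ^ 2 := by gcongr
    _ = (5 * c) * s * s := by ring
    _ ≤ K * s * s := by gcongr; linarith
    _ ≤ K * (ε / K) * s := by gcongr
    _ = ε * s := by field_simp

/-- **zero set of a `C^{1,1}` map, structured form.** -/
theorem Zero.regular {x : Euc k} {r K C : ℝ} {h : Euc k → F} {h' : Euc k → Euc k →L[ℝ] F}
    (hZ : Zero U D x r h h' K C) (hD : IsIntegralVarifoldIn U D)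
    (hst : IsStationaryIn U D) (hm : 1 ≤ m) (hU : IsOpen U) (hx : x ∈ support D) :
    x ∉ singularSet m k U D :=
  (hZ.quad hD hm).regular hD hst hm hU hx


end Crest.Agent.R234.F9c_947
end
end

-- ▼ part R234/F9c5_947
section

/-!
Row 234, node F9C (helper947), file 5: 395's literal statement `Top_395.F9C`.
-/

set_option autoImplicit false

open MeasureTheory Crest.GeometryTopology.Submanifold Filter Topology Metric Module
open scoped ENNReal NNReal InnerProductSpace

noncomputable section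

namespace Crest.Agent.R234.F9c_947

open Crest.Agent.R234.Vf_884

/-- **F9C**, literally as in `Top5_395`. -/
theorem f9c {m n k : ℕ} (hm : 1 ≤ m) : Top_395.F9C m n k := by
  intro U D hU hD hst x hx hxU Q hQ hThQ R hR hRU h h' hder ⟨K, hK⟩ hzero ⟨C, hC⟩
  have hZ : Zero U D x R h h' (max K 0) (max C 0) :=
    { hr := hR
      ball := hRU
      der := hder
      K0 := le_max_right _ _
      C0 := le_max_right _ _
      lip := fun p hp q hq => (hK p hp q hq).trans
        (mul_le_mul_of_nonneg_right (le_max_left _ _) (norm_nonneg _))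
      zero := hzero
      coer := fun q hq S hS hSq v hv => (hC q hq S hS hSq v hv).trans
        (mul_le_mul_of_nonneg_right (le_max_left _ _) (norm_nonneg _)) }
  exact hZ.regular hD hst hm hU hx

end Crest.Agent.R234.F9c_947
end
end

-- ▼ part R234/Top9_395

/-!
Row 234 (helper395), file 9 of VF-TOP: node F9 unconditional (with 947's `f9c`), logarithmic form,
and the combined flat package `FlatPack` / `flatPack_of` / `flatV`.
-/

set_option autoImplicit false
set_option linter.unusedSectionVars false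

open MeasureTheory Crest.GeometryTopology.Submanifold Filter Topology Set
open scoped ENNReal InnerProductSpace

noncomputable section

namespace Crest.Agent.R234.Top_395

open Crest.Agent.R234.Vf_884 Crest.Agent.R234.Main_456
open Crest.Agent.R234.Strat3_842 (tilt height)
open Crest.Agent.R234.AS_456 (hp vp)

variable {m n k : ℕ} {U : Set (Euc k)} {V : Measure (Euc k × L k)}
  {π : Euc k →L[ℝ] Euc m} {ρ : Euc k →L[ℝ] Euc n} {x z : Euc k} {R ω : ℝ} {P : L k}

/-- **node F9**, logarithmic scale, unconditional. -/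
theorem pos_log' {D : VarifoldData m k} (n : ℕ) (hU : IsOpen U)
    (hm : 1 ≤ m) (hD : IsIntegralVarifoldIn U D) (hst : IsStationaryIn U D)
    (hx : x ∈ singularSet m k U D) {Q : ℕ} (hQ : 1 ≤ Q) (hTh : Th m (VD D) x = (Q : ℝ≥0∞))
    {κ A B : ℝ} (hω : 0 < ω) (hκ : 0 ≤ κ) (hA : 0 ≤ A) (hB : 0 ≤ B)
    (l₁ : ℝ) : ∃ c l₀ : ℝ, 0 < c ∧ l₀ ≤ l₁ ∧ Metric.closedBall x (Real.exp l₀) ⊆ U ∧
      ∀ t, t ≤ l₀ → FlatAt m (VD D) x ω (Real.exp t) →
        ∃ S, t ≤ S ∧ S ≤ l₀ ∧ (∀ l ∈ Icc t S, FlatAt m (VD D) x ω (Real.exp l)) ∧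
          ∀ l s : ℝ, S - B ≤ l → l ≤ S → |l - s| ≤ A →
            ∀ (π : Euc k →L[ℝ] Euc m) (ρ : Euc k →L[ℝ] Euc n), Frame π ρ →
            ∀ (u : Euc m → Euc n) (g : Euc m → Euc m →L[ℝ] Euc n) (A' : ℝ),
              Real.exp (l - s) < A' → C11 κ A' u g →
                c ≤ Real.exp (-((m + 2) * l)) *
                  ∫ p in Prod.fst ⁻¹' (Metric.ball x (Real.exp l)),
                    ‖hgt π ρ x (Real.exp s) u p.1‖ ^ 2 ∂(VD D) := by
  obtain ⟨c, r₀, hc, hr₀, hr₀r₁, hr₀U, H⟩ := pos' (n := n) (F9c_947.f9c hm) hU hm hD hst hx hQ hTh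
    (ω := ω) (κ := κ) (b := Real.exp B) (a₀ := Real.exp (-A)) (a₁ := Real.exp A) hω hκ
    (Real.one_le_exp hB) (Real.exp_pos _) (Real.exp_le_exp.2 (by linarith)) (r₁ := Real.exp l₁) (Real.exp_pos _)
  refine ⟨c, Real.log r₀, hc, (Real.log_le_iff_le_exp hr₀).2 hr₀r₁, by rwa [Real.exp_log hr₀], ?_⟩
  intro t ht hflat
  obtain ⟨R, h1, h2, h3, h4⟩ := H (Real.exp t) (Real.exp_pos t)
    ((Real.le_log_iff_exp_le hr₀).1 ht) hflat
  have hR : 0 < R := (Real.exp_pos t).trans_le h1
  refine ⟨Real.log R, (Real.le_log_iff_exp_le hR).2 h1, Real.log_le_log hR h2, ?_, ?_⟩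
  · intro l hl
    exact h3 _ ⟨Real.exp_le_exp.2 hl.1, (Real.le_log_iff_exp_le hR).1 hl.2⟩
  · intro l s hl1 hl2 hls π ρ hf u g A' hA' hu
    have e1 : Real.exp (l - s) * Real.exp s = Real.exp l := by
      rw [← Real.exp_add]; congr 1; ring
    have h5 := h4 (Real.exp s) (Real.exp (l - s)) (Real.exp_pos s)
      (Real.exp_le_exp.2 (by have := abs_le.1 hls; linarith))
      (Real.exp_le_exp.2 (abs_le.1 hls).2) (by
        rw [e1, div_le_iff₀ (Real.exp_pos B), ← Real.exp_add, ← Real.log_le_iff_le_exp hR]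
        linarith) (by rw [e1]; exact (Real.le_log_iff_exp_le hR).1 hl2) π ρ hf u g A' hA' hu
    rw [e1] at h5
    have e2 : Real.exp l ^ (m + 2) = Real.exp ((m + 2) * l) := by
      rw [← Real.exp_nat_mul]
      push_cast
      rfl
    rw [e2] at h5
    rw [Real.exp_neg, ← div_eq_inv_mul, le_div_iff₀ (Real.exp_pos _)]
    exact h5


/-- the zoomed varifold in the cylinder of base radius `A`, height one. -/
def wz (m : ℕ) {k n : ℕ} (V : Measure (Euc k × L k)) (x : Euc k) (t : ℝ)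
    (π : Euc k →L[ℝ] Euc m) (ρ : Euc k →L[ℝ] Euc n) (A : ℝ) : Measure (Euc k × L k) :=
  (Vc_164.resc m x t V).restrict (Cy_870.cyl π ρ 0 A 1 ×ˢ univ)

/-- what flatness at the scale `8 t` gives at the scale `t`. -/
structure FlatPack (D : VarifoldData m k) (x : Euc k) (Q : ℕ) (t ε Λ : ℝ)
    (π : Euc k →L[ℝ] Euc m) (ρ : Euc k →L[ℝ] Euc n) : Prop where
  frame : Frame π ρ
  sup : ∀ z ∈ support D, z ∈ Metric.ball x (4 * t) → ‖ρ (z - x)‖ ≤ ε * t
  supae : ∀ᵐ p ∂(VD D), p.1 ∈ Metric.ball x (4 * t) → ‖ρ (p.1 - x)‖ ≤ ε * t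
  near : NearQ m (VD D) Q x (4 * t) ε (hp π)
  cyl : ∀ A ≤ 2, Cy_870.CylStat (wz m (VD D) x t π ρ A) π ρ 0 A ε
  mass_le : ∀ A ≤ 2, wz m (VD D) x t π ρ A univ ≤ ENNReal.ofReal Λ
  le_mass : ∀ A, 1 / 16 ≤ A → ENNReal.ofReal Λ⁻¹ ≤
    wz m (VD D) x t π ρ A ((fun p => π p.1) ⁻¹' Metric.ball 0 (1 / 16))

theorem flatPack_of {m n k : ℕ} (hm : 1 ≤ m) (Q : ℕ) (hQ : 1 ≤ Q) : ∃ Λ : ℝ, 1 ≤ Λ ∧ ∀ ε : ℝ, 0 < ε → ε < 1 →
    ∃ ω : ℝ, 0 < ω ∧ ω ≤ 1 ∧ ∀ {U : Set (Euc k)} {D : VarifoldData m k}, IsOpen U →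
      IsIntegralVarifoldIn U D → IsStationaryIn U D → ∀ {x : Euc k} {t : ℝ}, 0 < t →
        Metric.closedBall x (8 * t) ⊆ U → Th m (VD D) x = (Q : ℝ≥0∞) →
        rat m (VD D) x (8 * t) ≤ (Q : ℝ≥0∞) + ENNReal.ofReal ω →
        ∀ (π : Euc k →L[ℝ] Euc m) (ρ : Euc k →L[ℝ] Euc n), Frame π ρ →
          pex m (VD D) (hp π) x (8 * t) ≤ ω → FlatPack D x Q t ε Λ π ρ := by
  have ho := ome_pos m
  have hQ1 : (1:ℝ) ≤ Q := by exact_mod_cast hQ
  set Λ : ℝ := max 1 (max ((Q + 1) * (ome m * 3 ^ m)) (ome m * (1 / 16) ^ m)⁻¹) with hΛ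
  have hΛ1 : 1 ≤ Λ := le_max_left _ _
  refine ⟨Λ, hΛ1, ?_⟩
  intro ε hε hε1
  set C : ℝ := 65 * 2 ^ (m + 2) + 2 ^ (m + 1) * 64 / ome m with hC
  have hC1 : 1 ≤ C := by
    have h1 : (1:ℝ) ≤ 2 ^ (m + 2) := one_le_pow₀ (by norm_num)
    have h2 : 0 ≤ 2 ^ (m + 1) * 64 / ome m := by positivity
    nlinarith
  refine ⟨ε ^ 2 / C, by positivity, ?_, ?_⟩
  · rw [div_le_one (by positivity)]
    nlinarith
  intro U D hU hD hst x t ht hUx hTh hrat π ρ hf hpex
  have hV := stat_VD hD hst
  have hC0 : 0 < C := by linarith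
  set ω := ε ^ 2 / C with hω
  have hω0 : 0 < ω := by positivity
  have hCω : C * ω = ε ^ 2 := by rw [hω]; field_simp
  have h8 : 0 < 8 * t := by positivity
  have hsup : ∀ z ∈ support D, z ∈ Metric.ball x (4 * t) → ‖ρ (z - x)‖ ≤ ε * t := by
    intro z hz hzb
    have hzU : z ∈ U := hUx (Metric.ball_subset_closedBall
      (Metric.ball_subset_ball (by linarith) hzb))
    have h1 := sup_height hV hm hf h8 hUx hpex (z := z) (by
      rwa [show 8 * t / 2 = 4 * t by ring]) (one_le_Th hD hst hm hU hzU hz)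
    have h2 : 2 ^ (m + 1) * 64 / ome m * ω ≤ ε ^ 2 := by
      rw [← hCω]
      refine mul_le_mul_of_nonneg_right ?_ hω0.le
      rw [hC]
      have : (0:ℝ) ≤ 65 * 2 ^ (m + 2) := by positivity
      linarith
    have h3 : ‖ρ (z - x)‖ ^ 2 ≤ (ε * t) ^ 2 := by
      rw [← mul_le_mul_iff_right₀ ho]
      refine h1.trans ?_
      have h4 : 2 ^ (m + 1) * 64 * ω ≤ ε ^ 2 * ome m := by
        rw [div_mul_eq_mul_div, div_le_iff₀ ho] at h2
        exact h2
      nlinarith [sq_nonneg t]
    exact le_of_sq_le_sq h3 (by positivity)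
  have hsupae : ∀ᵐ p ∂(VD D), p.1 ∈ Metric.ball x (4 * t) → ‖ρ (p.1 - x)‖ ≤ ε * t := by
    filter_upwards [Al9_182.ae_mem_support hD] with p hp hpb
    exact hsup _ hp hpb
  have hU3 : Metric.closedBall x (3 * t) ⊆ U :=
    (Metric.closedBall_subset_closedBall (by linarith)).trans hUx
  have hωε : ω ≤ ε := by
    rw [hω, div_le_iff₀ hC0]
    nlinarith
  refine ⟨hf, hsup, hsupae, ?_, ?_, ?_, ?_⟩
  · have h1 := near_of_flat (P := hp π) (Q := Q) hV hm h8 hUx (hp_mem hf) hpex (ε := ε) (by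
      have h2 : 65 * 2 ^ (m + 2) * ω ≤ C * ω := by
        refine mul_le_mul_of_nonneg_right ?_ hω0.le
        rw [hC]
        have : 0 ≤ 2 ^ (m + 1) * 64 / ome m := by positivity
        linarith
      rw [hCω] at h2
      nlinarith) (hrat.trans (by gcongr))
    rwa [show 8 * t / 2 = 4 * t by ring] at h1
  · intro A hA
    exact cylStat_zoom hV hf ht hU3 hA hε1 hsupae
  · intro A hA
    have h1 : rat m (VD D) x (3 * t) ≤ (Q : ℝ≥0∞) + 1 := by
      refine (rat_mono hV hm (by positivity) (by linarith)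
        (Metric.ball_subset_closedBall.trans hUx)).trans (hrat.trans ?_)
      gcongr
      rw [ENNReal.ofReal_le_one]
      exact hωε.trans hε1.le
    refine (zoom_mass_le hf ht hA h1).trans ?_
    have e1 : ((Q : ℝ≥0∞) + 1) = ENNReal.ofReal (Q + 1) := by
      rw [ENNReal.ofReal_add (by positivity) zero_le_one, ENNReal.ofReal_natCast,
        ENNReal.ofReal_one]
    rw [e1, ← ENNReal.ofReal_mul (by positivity)]
    exact ENNReal.ofReal_le_ofReal ((le_max_left _ _).trans (le_max_right _ _))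
  · intro A hA
    have h1 : (1 : ℝ≥0∞) ≤ Th m (VD D) x := by
      rw [hTh]; exact_mod_cast hQ
    have h2 := le_zoom_mass hV hm hf ht hU3 (A := A) (σ := 1 / 16) (by norm_num) (by norm_num) hA h1
    refine le_trans ?_ h2
    rw [one_mul]
    refine ENNReal.ofReal_le_ofReal ?_
    rw [inv_le_comm₀ (by linarith) (by positivity)]
    exact (le_max_right _ _).trans (le_max_right _ _)




end Crest.Agent.R234.Top_395
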