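import Mathlib
import Crest.Agent.R234.Vf0_884

-- ▼ part R234/Strat1_842
section

/-!
Row 234, VF-STRAT (helper842): the abstract stratification theorem (Almgren, Federer, White, Simon).
`card_sep`   : a delta-separated finite subset of the unit ball of a normed space of dimension j has at most
               (1 + 2/delta)^j elements.
`dimH_le_of_cover` : a set A such that A ∩ closedBall x ρ (x ∈ A, ρ ≤ ρ₀) is covered by M balls of radius λρ centred
               on A, with M λ^s < 1, has dimH A ≤ s.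
`dimH_of_planes` : δ-approximation by ≤ j-dimensional planes through the points of A, at all small scales, all δ.
`dimH_strat` : the stratification theorem for a density function Θ.
-/

set_option autoImplicit false

open Set Filter Topology MeasureTheory Metric Module Function
open scoped ENNReal NNReal

namespace Crest.Agent.R234.Strat_842

/-- δ-separated finite subsets of the unit ball. -/
theorem card_sep {F : Type*} [NormedAddCommGroup F] [NormedSpace ℝ F] [FiniteDimensional ℝ F]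
    (s : Finset F) {δ : ℝ} (hδ : 0 < δ) (hs : ∀ c ∈ s, ‖c‖ ≤ 1)
    (h : ∀ c ∈ s, ∀ d ∈ s, c ≠ d → δ ≤ ‖c - d‖) :
    (s.card : ℝ) ≤ (1 + 2 / δ) ^ finrank ℝ F := by
  borelize F
  let μ : Measure F := Measure.addHaar
  let r : ℝ := δ / 2
  let ρ : ℝ := 1 + δ / 2
  have hr : 0 < r := by positivity
  have hρ : 0 < ρ := by positivity
  set A := ⋃ c ∈ s, ball (c : F) r with hA
  have D : Set.Pairwise (s : Set F) (Disjoint on fun c => ball (c : F) r) := by
    rintro c hc d hd hcd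
    apply ball_disjoint_ball
    rw [dist_eq_norm]
    have := h c hc d hd hcd
    simp only [r]; linarith
  have A_subset : A ⊆ ball (0 : F) ρ := by
    refine iUnion₂_subset fun x hx => ?_
    apply ball_subset_ball'
    have := hs x hx
    simp only [dist_zero_right]
    simp only [r, ρ]; linarith
  have I : (s.card : ℝ≥0∞) * ENNReal.ofReal (r ^ finrank ℝ F) * μ (ball 0 1) ≤
      ENNReal.ofReal (ρ ^ finrank ℝ F) * μ (ball 0 1) :=
    calc
      (s.card : ℝ≥0∞) * ENNReal.ofReal (r ^ finrank ℝ F) * μ (ball 0 1) = μ A := by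
        rw [hA, measure_biUnion_finset D fun c _ => measurableSet_ball]
        have I : 0 < r := hr
        simp only [μ.addHaar_ball_of_pos _ I]
        simp only [Finset.sum_const, nsmul_eq_mul, mul_assoc]
      _ ≤ μ (ball (0 : F) ρ) := measure_mono A_subset
      _ = ENNReal.ofReal (ρ ^ finrank ℝ F) * μ (ball 0 1) := by
        simp only [μ.addHaar_ball_of_pos _ hρ]
  have J : (s.card : ℝ≥0∞) * ENNReal.ofReal (r ^ finrank ℝ F) ≤
      ENNReal.ofReal (ρ ^ finrank ℝ F) :=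
    (ENNReal.mul_le_mul_iff_left (measure_ball_pos _ _ zero_lt_one).ne'
      measure_ball_lt_top.ne).1 I
  have K : (s.card : ℝ) * r ^ finrank ℝ F ≤ ρ ^ finrank ℝ F := by
    rw [← ENNReal.ofReal_natCast, ← ENNReal.ofReal_mul (by positivity),
      ENNReal.ofReal_le_ofReal_iff (by positivity)] at J
    exact J
  have e : (1 + 2 / δ) ^ finrank ℝ F = ρ ^ finrank ℝ F / r ^ finrank ℝ F := by
    rw [← div_pow]
    congr 1
    simp only [r, ρ]; field_simp
    ring
  rw [e, le_div_iff₀ (by positivity)]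
  exact K

theorem ediam_cb {X : Type*} [MetricSpace X] (x : X) {r : ℝ} (hr : 0 ≤ r) :
    ediam (closedBall x r) ≤ ENNReal.ofReal (2 * r) := by
  have _ := hr
  refine Metric.ediam_le_of_forall_dist_le fun y hy z hz => ?_
  have h1 : dist y x ≤ r := hy
  have h2 : dist z x ≤ r := hz
  have := dist_triangle_right y z x
  linarith

/-- a bounded maximal separated set -/
theorem exists_net {X : Type*} [MetricSpace X] (B : Set X) {η : ℝ} (hη : 0 ≤ η) (M : ℕ)
    (hM : ∀ t : Finset X, (t : Set X) ⊆ B → (∀ c ∈ t, ∀ d ∈ t, c ≠ d → η < dist c d) → t.card ≤ M) :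
    ∃ t : Finset X, (t : Set X) ⊆ B ∧ t.card ≤ M ∧ B ⊆ ⋃ a ∈ t, closedBall a η := by
  classical
  let P : ℕ → Prop := fun n => ∃ t : Finset X, (t : Set X) ⊆ B ∧
    (∀ c ∈ t, ∀ d ∈ t, c ≠ d → η < dist c d) ∧ t.card = n
  have h0 : P 0 := ⟨∅, by simp, by simp, by simp⟩
  obtain ⟨t, ht, hsep, hc⟩ : P (Nat.findGreatest P M) := Nat.findGreatest_spec (Nat.zero_le M) h0
  refine ⟨t, ht, hM t ht hsep, fun x hx => ?_⟩
  by_contra hcon
  simp only [mem_iUnion, mem_closedBall, not_exists, not_le, exists_prop, not_and] at hcon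
  have hxt : x ∉ t := by
    intro hxt
    have := hcon x hxt
    rw [dist_self] at this
    linarith
  have hP : P ((insert x t).card) := by
    refine ⟨insert x t, ?_, ?_, rfl⟩
    · intro y hy
      rcases Finset.mem_insert.1 (by simpa using hy) with rfl | hy
      · exact hx
      · exact ht hy
    · intro c hc d hd hcd
      rcases Finset.mem_insert.1 hc with rfl | hc'
      · rcases Finset.mem_insert.1 hd with rfl | hd'
        · exact absurd rfl hcd
        · exact hcon d hd'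
      · rcases Finset.mem_insert.1 hd with rfl | hd'
        · rw [dist_comm]; exact hcon c hc'
        · exact hsep c hc' d hd' hcd
  have hle : (insert x t).card ≤ M := by
    obtain ⟨t', ht', hs', hc'⟩ := hP
    rw [← hc']; exact hM t' ht' hs'
  have := Nat.le_findGreatest hle hP
  rw [Finset.card_insert_of_notMem hxt, ← hc] at this
  omega

/-- iteration of a covering property -/
theorem iter_cover {X : Type*} [MetricSpace X] (A : Set X) (M : ℕ) {l ρ₀ : ℝ} (hl : 0 < l) (hl1 : l ≤ 1)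
    (h : ∀ x ∈ A, ∀ ρ : ℝ, 0 < ρ → ρ ≤ ρ₀ → ∃ t : Finset X, (t : Set X) ⊆ A ∧ t.card ≤ M ∧
      A ∩ closedBall x ρ ⊆ ⋃ a ∈ t, closedBall a (l * ρ)) {x : X} (hx : x ∈ A) (hρ₀ : 0 < ρ₀) (k : ℕ) :
    ∃ t : Finset X, (t : Set X) ⊆ A ∧ t.card ≤ M ^ k ∧
      A ∩ closedBall x ρ₀ ⊆ ⋃ a ∈ t, closedBall a (l ^ k * ρ₀) := by
  classical
  induction k with
  | zero => exact ⟨{x}, by simpa using hx, by simp, by simp⟩
  | succ k ih =>
    obtain ⟨t, ht, hc, hcov⟩ := ih
    have hk : 0 < l ^ k * ρ₀ := by positivity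
    have hk1 : l ^ k * ρ₀ ≤ ρ₀ := by
      have : l ^ k ≤ 1 := pow_le_one₀ hl.le hl1
      nlinarith
    choose! u hu using fun a (ha : a ∈ A) => h a ha (l ^ k * ρ₀) hk hk1
    refine ⟨t.biUnion u, ?_, ?_, ?_⟩
    · intro y hy
      simp only [Finset.coe_biUnion, mem_iUnion] at hy
      obtain ⟨a, ha, hy⟩ := hy
      exact (hu a (ht ha)).1 hy
    · calc (t.biUnion u).card ≤ t.card * M :=
            Finset.card_biUnion_le_card_mul _ _ _ fun a ha => (hu a (ht ha)).2.1
        _ ≤ M ^ k * M := Nat.mul_le_mul_right _ hc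
        _ = M ^ (k + 1) := (pow_succ M k).symm
    · rintro y ⟨hyA, hy⟩
      have := hcov ⟨hyA, hy⟩
      simp only [mem_iUnion] at this
      obtain ⟨a, ha, hya⟩ := this
      have := (hu a (ht ha)).2.2 ⟨hyA, hya⟩
      simp only [mem_iUnion] at this
      obtain ⟨b, hb, hyb⟩ := this
      simp only [mem_iUnion]
      refine ⟨b, Finset.mem_biUnion.2 ⟨a, ha, hb⟩, ?_⟩
      have e : l ^ (k + 1) * ρ₀ = l * (l ^ k * ρ₀) := by ring
      rw [e]; exact hyb

/-- covering property => dimension bound -/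
theorem dimH_le_of_cover {X : Type*} [MetricSpace X] [SecondCountableTopology X] (A : Set X) (M : ℕ)
    {l ρ₀ : ℝ} (hl : 0 < l) (hl1 : l < 1) (hρ₀ : 0 < ρ₀) {s : ℝ≥0} (hs : 0 < s) (hMs : (M : ℝ) * l ^ (s : ℝ) < 1)
    (h : ∀ x ∈ A, ∀ ρ : ℝ, 0 < ρ → ρ ≤ ρ₀ → ∃ t : Finset X, (t : Set X) ⊆ A ∧ t.card ≤ M ∧
      A ∩ closedBall x ρ ⊆ ⋃ a ∈ t, closedBall a (l * ρ)) : dimH A ≤ s := by
  borelize X
  -- local statement
  have loc : ∀ x ∈ A, dimH (A ∩ closedBall x ρ₀) ≤ s := by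
    intro x hx
    apply dimH_le_of_hausdorffMeasure_ne_top
    have key := fun k => iter_cover A M hl hl1.le h hx hρ₀ k
    choose t ht hc hcov using key
    have hr : Tendsto (fun k : ℕ => ENNReal.ofReal (2 * (l ^ k * ρ₀))) atTop (𝓝 0) := by
      have : Tendsto (fun k : ℕ => 2 * (l ^ k * ρ₀)) atTop (𝓝 (2 * (0 * ρ₀))) :=
        ((tendsto_pow_atTop_nhds_zero_of_lt_one hl.le hl1).mul_const ρ₀).const_mul 2
      have h2 := ENNReal.tendsto_ofReal this
      simpa using h2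
    have hb := Measure.hausdorffMeasure_le_liminf_sum (X := X) (s : ℝ) (A ∩ closedBall x ρ₀)
      (l := atTop) (fun k : ℕ => ENNReal.ofReal (2 * (l ^ k * ρ₀))) hr
      (ι := fun k => {a // a ∈ t k}) (fun k a => closedBall (a : X) (l ^ k * ρ₀))
      (Eventually.of_forall fun k a => ?_) (Eventually.of_forall fun k => ?_)
    · have hz : liminf (fun k : ℕ => ∑ a : {a // a ∈ t k},
          ediam (closedBall (a : X) (l ^ k * ρ₀)) ^ (s : ℝ)) atTop = 0 := by
        have hT : Tendsto (fun k : ℕ => ∑ a : {a // a ∈ t k},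
            ediam (closedBall (a : X) (l ^ k * ρ₀)) ^ (s : ℝ)) atTop (𝓝 0) := by
          have up : ∀ k : ℕ, (∑ a : {a // a ∈ t k},
              ediam (closedBall (a : X) (l ^ k * ρ₀)) ^ (s : ℝ)) ≤
              ENNReal.ofReal (((M : ℝ) * l ^ (s : ℝ)) ^ k * (2 * ρ₀) ^ (s : ℝ)) := by
            intro k
            have h1 : ∀ a : {a // a ∈ t k},
                ediam (closedBall (a : X) (l ^ k * ρ₀)) ^ (s : ℝ) ≤
                  ENNReal.ofReal ((l ^ (s : ℝ)) ^ k * (2 * ρ₀) ^ (s : ℝ)) := by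
              intro a
              have hd : ediam (closedBall (a : X) (l ^ k * ρ₀)) ≤ ENNReal.ofReal (2 * (l ^ k * ρ₀)) := by
                exact ediam_cb (a : X) (by positivity)
              calc ediam (closedBall (a : X) (l ^ k * ρ₀)) ^ (s : ℝ)
                  ≤ (ENNReal.ofReal (2 * (l ^ k * ρ₀))) ^ (s : ℝ) :=
                    ENNReal.rpow_le_rpow hd s.2
                _ = ENNReal.ofReal ((2 * (l ^ k * ρ₀)) ^ (s : ℝ)) :=
                    ENNReal.ofReal_rpow_of_nonneg (by positivity) s.2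
                _ = ENNReal.ofReal ((l ^ (s : ℝ)) ^ k * (2 * ρ₀) ^ (s : ℝ)) := by
                    congr 1
                    have e1 : 2 * (l ^ k * ρ₀) = l ^ k * (2 * ρ₀) := by ring
                    rw [e1, Real.mul_rpow (by positivity) (by positivity)]
                    congr 1
                    rw [← Real.rpow_natCast, ← Real.rpow_natCast, ← Real.rpow_mul hl.le,
                      ← Real.rpow_mul hl.le, mul_comm]
            calc (∑ a : {a // a ∈ t k}, ediam (closedBall (a : X) (l ^ k * ρ₀)) ^ (s : ℝ))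
                ≤ ∑ _a : {a // a ∈ t k}, ENNReal.ofReal ((l ^ (s : ℝ)) ^ k * (2 * ρ₀) ^ (s : ℝ)) :=
                  Finset.sum_le_sum fun a _ => h1 a
              _ = (t k).card * ENNReal.ofReal ((l ^ (s : ℝ)) ^ k * (2 * ρ₀) ^ (s : ℝ)) := by
                  simp
              _ ≤ ((M ^ k : ℕ) : ℝ≥0∞) * ENNReal.ofReal ((l ^ (s : ℝ)) ^ k * (2 * ρ₀) ^ (s : ℝ)) := by
                  gcongr
                  exact_mod_cast hc k
              _ = ENNReal.ofReal (((M : ℝ) * l ^ (s : ℝ)) ^ k * (2 * ρ₀) ^ (s : ℝ)) := by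
                  rw [← ENNReal.ofReal_natCast, ← ENNReal.ofReal_mul (by positivity)]
                  congr 1
                  push_cast
                  rw [mul_pow]; ring
          have lim : Tendsto (fun k : ℕ => ENNReal.ofReal (((M : ℝ) * l ^ (s : ℝ)) ^ k * (2 * ρ₀) ^ (s : ℝ)))
              atTop (𝓝 0) := by
            have h0 : 0 ≤ (M : ℝ) * l ^ (s : ℝ) := by positivity
            have : Tendsto (fun k : ℕ => ((M : ℝ) * l ^ (s : ℝ)) ^ k * (2 * ρ₀) ^ (s : ℝ)) atTop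
                (𝓝 (0 * (2 * ρ₀) ^ (s : ℝ))) :=
              (tendsto_pow_atTop_nhds_zero_of_lt_one h0 hMs).mul_const _
            have h2 := ENNReal.tendsto_ofReal this
            simpa using h2
          exact tendsto_of_tendsto_of_tendsto_of_le_of_le tendsto_const_nhds lim (fun k => bot_le) up
        exact hT.liminf_eq
      rw [hz] at hb
      exact (lt_of_le_of_lt hb ENNReal.zero_lt_top).ne
    · exact ediam_cb (a : X) (by positivity)
    · intro y hy
      have := hcov k hy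
      simp only [mem_iUnion] at this ⊢
      obtain ⟨a, ha, hy'⟩ := this
      exact ⟨⟨a, ha⟩, hy'⟩
  -- countable subcover
  obtain ⟨T, hTA, hTc, hTU⟩ : ∃ T ⊆ A, T.Countable ∧ A ⊆ ⋃ x ∈ T, ball x ρ₀ := by
    obtain ⟨T, hT, hc, hU⟩ := TopologicalSpace.countable_cover_nhdsWithin
      (s := A) (f := fun x => ball x ρ₀) (fun x _ => mem_nhdsWithin_of_mem_nhds (ball_mem_nhds x hρ₀))
    exact ⟨T, hT, hc, hU⟩
  have hA : A ⊆ ⋃ x ∈ T, (A ∩ closedBall x ρ₀) := by
    intro y hy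
    have := hTU hy
    simp only [mem_iUnion] at this ⊢
    obtain ⟨x, hx, hyx⟩ := this
    exact ⟨x, hx, hy, ball_subset_closedBall hyx⟩
  calc dimH A ≤ dimH (⋃ x ∈ T, (A ∩ closedBall x ρ₀)) := dimH_mono hA
    _ = ⨆ x ∈ T, dimH (A ∩ closedBall x ρ₀) := dimH_bUnion hTc _
    _ ≤ s := iSup₂_le fun x hx => loc x (hTA hx)

end Crest.Agent.R234.Strat_842
end

-- ▼ part R234/Strat2_842
section

/-!
Row 234, VF-STRAT (helper842), part 2: approximation by planes and the stratification theorem.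
-/

set_option autoImplicit false

open Set Filter Topology MeasureTheory Metric Module Function
open scoped ENNReal NNReal

namespace Crest.Agent.R234.Strat_842

variable {E : Type*} [NormedAddCommGroup E] [NormedSpace ℝ E] [FiniteDimensional ℝ E]

/-- `A` is `δ`-close, in the ball of radius `ρ` about `x`, to a plane through `x` of dimension `≤ j`. -/
def Near (j : ℕ) (A : Set E) (x : E) (ρ δ : ℝ) : Prop :=
  ∃ L : Submodule ℝ E, finrank ℝ L ≤ j ∧ ∀ y ∈ A, dist y x ≤ ρ → ∃ l ∈ L, ‖y - x - l‖ ≤ δ * ρ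

theorem net_of_near {j : ℕ} {A : Set E} {x : E} {ρ δ : ℝ} (hρ : 0 < ρ) (hδ : 0 < δ) (hδ1 : δ ≤ 1)
    (h : Near j A x ρ δ) :
    ∃ t : Finset E, (t : Set E) ⊆ A ∧ t.card ≤ ⌊(1 + 2 / δ) ^ j⌋₊ ∧
      A ∩ closedBall x ρ ⊆ ⋃ a ∈ t, closedBall a (4 * δ * ρ) := by
  classical
  obtain ⟨L, hL, hA⟩ := h
  suffices hM : ∀ t : Finset E, (t : Set E) ⊆ A ∩ closedBall x ρ →
      (∀ c ∈ t, ∀ d ∈ t, c ≠ d → 4 * δ * ρ < dist c d) → t.card ≤ ⌊(1 + 2 / δ) ^ j⌋₊ by
    obtain ⟨t, ht, hc, hcov⟩ := exists_net (A ∩ closedBall x ρ) (η := 4 * δ * ρ) (by positivity)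
      ⌊(1 + 2 / δ) ^ j⌋₊ hM
    exact ⟨t, fun a ha => (ht ha).1, hc, hcov⟩
  · intro t ht hsep
    have key : ∀ c : E, c ∈ t → ∃ v : L, ‖v‖ ≤ 1 ∧ ‖c - x - (2 * ρ) • (v : E)‖ ≤ δ * ρ := by
      intro c hc
      have hcA := ht hc
      obtain ⟨l, hl, hle⟩ := hA c hcA.1 hcA.2
      refine ⟨(2 * ρ)⁻¹ • (⟨l, hl⟩ : L), ?_, ?_⟩
      · rw [norm_smul, Real.norm_of_nonneg (by positivity)]
        have h1 : ‖(⟨l, hl⟩ : L)‖ = ‖l‖ := rfl
        rw [h1]
        have h2 : ‖l‖ ≤ 2 * ρ := by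
          have h3 : ‖c - x‖ ≤ ρ := by rw [← dist_eq_norm]; exact hcA.2
          calc ‖l‖ = ‖(c - x) - (c - x - l)‖ := by congr 1; abel
            _ ≤ ‖c - x‖ + ‖c - x - l‖ := norm_sub_le _ _
            _ ≤ ρ + δ * ρ := add_le_add h3 hle
            _ ≤ 2 * ρ := by nlinarith
        rw [inv_mul_le_iff₀ (by positivity)]
        linarith
      · have h1 : (((2 * ρ)⁻¹ • (⟨l, hl⟩ : L) : L) : E) = (2 * ρ)⁻¹ • l := rfl
        rw [h1, smul_smul, mul_inv_cancel₀ (by positivity), one_smul]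
        exact hle
    choose! v hv1 hv2 using key
    have sep : ∀ c ∈ t, ∀ d ∈ t, c ≠ d → δ ≤ ‖v c - v d‖ := by
      intro c hc d hd hcd
      have h1 := hsep c hc d hd hcd
      rw [dist_eq_norm] at h1
      have h2 := hv2 c hc
      have h3 := hv2 d hd
      have h4 : ‖c - d‖ ≤ (2 * ρ) * ‖v c - v d‖ + 2 * (δ * ρ) := by
        have e : c - d = (2 * ρ) • ((v c : E) - (v d : E)) + (c - x - (2 * ρ) • (v c : E)) -
            (d - x - (2 * ρ) • (v d : E)) := by
          rw [smul_sub]; abel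
        have e2 : ‖v c - v d‖ = ‖(v c : E) - (v d : E)‖ := rfl
        rw [e2]
        calc ‖c - d‖ = ‖(2 * ρ) • ((v c : E) - (v d : E)) + (c - x - (2 * ρ) • (v c : E)) -
            (d - x - (2 * ρ) • (v d : E))‖ := by rw [← e]
          _ ≤ ‖(2 * ρ) • ((v c : E) - (v d : E)) + (c - x - (2 * ρ) • (v c : E))‖ +
              ‖d - x - (2 * ρ) • (v d : E)‖ := norm_sub_le _ _
          _ ≤ ‖(2 * ρ) • ((v c : E) - (v d : E))‖ + ‖c - x - (2 * ρ) • (v c : E)‖ +
              ‖d - x - (2 * ρ) • (v d : E)‖ := by gcongr; exact norm_add_le _ _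
          _ ≤ (2 * ρ) * ‖(v c : E) - (v d : E)‖ + δ * ρ + δ * ρ := by
              gcongr
              rw [norm_smul, Real.norm_of_nonneg (by positivity)]
          _ = (2 * ρ) * ‖(v c : E) - (v d : E)‖ + 2 * (δ * ρ) := by ring
      have h5 : 4 * δ * ρ < (2 * ρ) * ‖v c - v d‖ + 2 * (δ * ρ) := lt_of_lt_of_le h1 h4
      by_contra hlt
      push Not at hlt
      nlinarith
    have inj : Set.InjOn v (t : Set E) := by
      intro c hc d hd hcd
      by_contra hne
      have := sep c hc d hd hne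
      rw [hcd, sub_self, norm_zero] at this
      linarith
    have h1 := card_sep (t.image v) hδ
      (by
        intro c hc
        obtain ⟨a, ha, rfl⟩ := Finset.mem_image.1 hc
        exact hv1 a ha)
      (by
        intro c hc d hd hcd
        obtain ⟨a, ha, rfl⟩ := Finset.mem_image.1 hc
        obtain ⟨b, hb, rfl⟩ := Finset.mem_image.1 hd
        exact sep a ha b hb (fun hab => hcd (by rw [hab])))
    rw [Finset.card_image_of_injOn inj] at h1
    apply Nat.le_floor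
    calc (t.card : ℝ) ≤ (1 + 2 / δ) ^ finrank ℝ L := h1
      _ ≤ (1 + 2 / δ) ^ j := by
        apply pow_le_pow_right₀ _ hL
        have : 0 < 2 / δ := by positivity
        linarith

/-- For `s > j` there is `δ > 0` such that sets which are `δ`-close to `≤ j`-planes at all small scales
about all their points have dimension `≤ s`. -/
theorem exists_delta (E : Type*) [NormedAddCommGroup E] [NormedSpace ℝ E] [FiniteDimensional ℝ E]
    (j : ℕ) (s : ℝ≥0) (hs : (j : ℝ) < s) :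
    ∃ δ : ℝ, 0 < δ ∧ ∀ (A : Set E) (ρ₀ : ℝ), 0 < ρ₀ →
      (∀ x ∈ A, ∀ ρ : ℝ, 0 < ρ → ρ ≤ ρ₀ → Near j A x ρ δ) → dimH A ≤ s := by
  have lim : Tendsto (fun δ : ℝ => (3 : ℝ) ^ j * 4 ^ (s : ℝ) * δ ^ ((s : ℝ) - j)) (𝓝[>] 0) (𝓝 0) := by
    have h1 : Tendsto (fun δ : ℝ => δ ^ ((s : ℝ) - j)) (𝓝[>] 0) (𝓝 0) := by
      have h2 : ContinuousAt (fun δ : ℝ => δ ^ ((s : ℝ) - j)) 0 :=
        Real.continuousAt_rpow_const _ _ (Or.inr (by linarith))
      have h3 := h2.tendsto
      rw [Real.zero_rpow (by linarith)] at h3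
      exact h3.mono_left nhdsWithin_le_nhds
    simpa using h1.const_mul ((3 : ℝ) ^ j * 4 ^ (s : ℝ))
  have ev : ∀ᶠ δ : ℝ in 𝓝[>] 0, (3 : ℝ) ^ j * 4 ^ (s : ℝ) * δ ^ ((s : ℝ) - j) < 1 ∧ δ < 1 / 8 ∧ 0 < δ := by
    refine (lim.eventually (gt_mem_nhds one_pos)).and (Filter.Eventually.and ?_ ?_)
    · exact nhdsWithin_le_nhds (gt_mem_nhds (by norm_num))
    · exact self_mem_nhdsWithin
  obtain ⟨δ, h1, h2, h3⟩ := ev.exists
  refine ⟨δ, h3, fun A ρ₀ hρ₀ hA => ?_⟩
  have hspos : (0 : ℝ) < s := lt_of_le_of_lt (Nat.cast_nonneg j) hs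
  have hl : 0 < 4 * δ := by linarith
  refine dimH_le_of_cover A ⌊(1 + 2 / δ) ^ j⌋₊ hl (by linarith) hρ₀ (by exact_mod_cast hspos) ?_
    (fun x hx ρ hρ hρ' => ?_)
  · have hb : (1 + 2 / δ) ≤ 3 / δ := by
      rw [le_div_iff₀ h3, add_mul, div_mul_cancel₀ _ h3.ne']
      linarith
    have hM : ((⌊(1 + 2 / δ) ^ j⌋₊ : ℕ) : ℝ) ≤ (3 / δ) ^ j := by
      calc ((⌊(1 + 2 / δ) ^ j⌋₊ : ℕ) : ℝ) ≤ (1 + 2 / δ) ^ j := Nat.floor_le (by positivity)
        _ ≤ (3 / δ) ^ j := by gcongr
    calc ((⌊(1 + 2 / δ) ^ j⌋₊ : ℕ) : ℝ) * (4 * δ) ^ (s : ℝ)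
        ≤ (3 / δ) ^ j * (4 * δ) ^ (s : ℝ) := by gcongr
      _ = (3 : ℝ) ^ j * 4 ^ (s : ℝ) * δ ^ ((s : ℝ) - j) := by
        rw [div_pow, Real.mul_rpow (by norm_num) h3.le, Real.rpow_sub h3, Real.rpow_natCast]
        field_simp
      _ < 1 := h1
  · obtain ⟨t, ht, hc, hcov⟩ := net_of_near hρ h3 (by linarith) (hA x hx ρ hρ hρ')
    exact ⟨t, ht, hc, hcov⟩




end Crest.Agent.R234.Strat_842
end

-- ▼ part R234/Strat3_842

/-!
Row 234, VF-STRAT2 (helper842), part 1: algebra of two planes, extraction of a fat simplex, the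
pointwise excess estimate.  (Idea of helper870, #5121.)
-/

set_option autoImplicit false

open Set Filter Topology MeasureTheory Metric Module Function
open Crest.GeometryTopology.Submanifold
open Crest.Agent.R234.Vf_884
open scoped ENNReal NNReal InnerProductSpace

noncomputable section

namespace Crest.Agent.R234.Strat3_842

/-! ### simplex -/

section simplex

variable {E : Type*} [NormedAddCommGroup E] [NormedSpace ℝ E]

/-- greedy extraction of a fat simplex. -/
theorem exists_fat (B : Set E) (hB : ∀ v ∈ B, ‖v‖ ≤ 1) {δ : ℝ} (hδ : 0 < δ) (m : ℕ)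
    (H : ∀ W : Submodule ℝ E, finrank ℝ W < m → ∃ v ∈ B, ∀ l ∈ W, δ < ‖v - l‖) :
    ∀ j : ℕ, j ≤ m → ∃ v : Fin j → E, (∀ i, v i ∈ B) ∧
      ∀ (c : Fin j → ℝ) (i : Fin j), |c i| ≤ (1 + 1 / δ) ^ j * ‖∑ i, c i • v i‖ := by
  intro j
  induction j with
  | zero => exact fun _ => ⟨Fin.elim0, fun i => i.elim0, fun c i => i.elim0⟩
  | succ j ih =>
    intro hj
    obtain ⟨v, hvB, hv⟩ := ih (by omega)
    have hfr : finrank ℝ (Submodule.span ℝ (Set.range v)) < m := by
      have h1 := finrank_range_le_card (R := ℝ) (b := v)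
      have h2 : (Set.range v).finrank ℝ = finrank ℝ (Submodule.span ℝ (Set.range v)) := rfl
      rw [h2, Fintype.card_fin] at h1
      omega
    obtain ⟨w, hwB, hw⟩ := H _ hfr
    have hone : (1 : ℝ) ≤ 1 + 1 / δ := by
      have : 0 < 1 / δ := by positivity
      linarith
    have hpow : (1 : ℝ) ≤ (1 + 1 / δ) ^ j := one_le_pow₀ hone
    refine ⟨Fin.snoc v w, fun i => ?_, fun c i => ?_⟩
    · refine Fin.lastCases ?_ (fun i => ?_) i
      · simpa using hwB
      · simpa using hvB i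
    · have hsum : ∑ i : Fin (j + 1), c i • (Fin.snoc v w : Fin (j + 1) → E) i =
          (∑ i : Fin j, c i.castSucc • v i) + c (Fin.last j) • w := by
        rw [Fin.sum_univ_castSucc]
        simp
      rw [hsum]
      set u : E := ∑ i : Fin j, c i.castSucc • v i with hu
      set a : ℝ := c (Fin.last j) with ha
      have humem : u ∈ Submodule.span ℝ (Set.range v) :=
        Submodule.sum_mem _ fun i _ => Submodule.smul_mem _ _ (Submodule.subset_span ⟨i, rfl⟩)
      have h1 : |a| * δ ≤ ‖u + a • w‖ := by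
        by_cases ha0 : a = 0
        · rw [ha0]; simp
        · have h2 := (hw (-(a⁻¹ • u)) (Submodule.neg_mem _ (Submodule.smul_mem _ _ humem))).le
          have h3 : u + a • w = a • (w - -(a⁻¹ • u)) := by
            rw [sub_neg_eq_add, smul_add, smul_smul, mul_inv_cancel₀ ha0, one_smul, add_comm]
          rw [h3, norm_smul, Real.norm_eq_abs]
          exact mul_le_mul_of_nonneg_left h2 (abs_nonneg _)
      have h2 : |a| ≤ (1 / δ) * ‖u + a • w‖ := by
        rw [one_div, ← div_eq_inv_mul, le_div_iff₀ hδ]; exact h1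
      have h3 : ‖u‖ ≤ (1 + 1 / δ) * ‖u + a • w‖ := by
        calc ‖u‖ = ‖(u + a • w) - a • w‖ := by congr 1; abel
          _ ≤ ‖u + a • w‖ + ‖a • w‖ := norm_sub_le _ _
          _ = ‖u + a • w‖ + |a| * ‖w‖ := by rw [norm_smul, Real.norm_eq_abs]
          _ ≤ ‖u + a • w‖ + |a| * 1 := by gcongr; exact hB w hwB
          _ ≤ ‖u + a • w‖ + (1 / δ) * ‖u + a • w‖ := by rw [mul_one]; gcongr
          _ = _ := by ring
      refine Fin.lastCases ?_ (fun i => ?_) i
      · calc |c (Fin.last j)| ≤ (1 / δ) * ‖u + a • w‖ := h2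
          _ ≤ (1 + 1 / δ) ^ (j + 1) * ‖u + a • w‖ := by
            gcongr
            calc 1 / δ ≤ 1 + 1 / δ := by linarith
              _ = (1 + 1 / δ) ^ 1 := (pow_one _).symm
              _ ≤ _ := pow_le_pow_right₀ hone (by omega)
      · have h4 := hv (fun i => c i.castSucc) i
        calc |c i.castSucc| ≤ (1 + 1 / δ) ^ j * ‖u‖ := h4
          _ ≤ (1 + 1 / δ) ^ j * ((1 + 1 / δ) * ‖u + a • w‖) := by gcongr
          _ = _ := by rw [pow_succ]; ring

end simplex

/-! ### algebra of two planes -/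

variable {m k : ℕ}

/-- `tr ((S - P) ∘ (S - P)) = 2 tr ((1 - P) ∘ S)`. -/
theorem tr_sub_sq {S P : L k} (hS : S ∈ G m k) (hP : P ∈ G m k) :
    tr ((S - P) ∘L (S - P)) = 2 * tr ((ContinuousLinearMap.id ℝ (Euc k) - P) ∘L S) := by
  have e1 : (S - P) ∘L (S - P) = S ∘L S - S ∘L P - P ∘L S + P ∘L P := by
    ext1 x; simp; abel
  have e2 : (ContinuousLinearMap.id ℝ (Euc k) - P) ∘L S = S - P ∘L S := by
    ext1 x; simp
  rw [e1, e2, map_add, map_sub, map_sub, map_sub, hS.1, hP.1, hS.2.2, hP.2.2, tr_comm S P]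
  ring

theorem tr_perp_symm {S P : L k} (hS : S ∈ G m k) (hP : P ∈ G m k) :
    tr ((ContinuousLinearMap.id ℝ (Euc k) - P) ∘L S) =
      tr ((ContinuousLinearMap.id ℝ (Euc k) - S) ∘L P) := by
  have h1 := tr_sub_sq hS hP
  have h2 := tr_sub_sq hP hS
  have e : (S - P) ∘L (S - P) = (P - S) ∘L (P - S) := by
    ext1 x; simp; abel
  rw [e] at h1
  linarith

/-- Hilbert–Schmidt bound for self-adjoint operators. -/
theorem norm_sq_le_tr {A : L k} (hA : ∀ x y, ⟪A x, y⟫_ℝ = ⟪x, A y⟫_ℝ) (w : Euc k) :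
    ‖A w‖ ^ 2 ≤ tr (A ∘L A) * ‖w‖ ^ 2 := by
  have h1 : ‖A w‖ ^ 2 = ∑ i, ⟪stdVec k i, A w⟫_ℝ ^ 2 := by
    have := (EuclideanSpace.basisFun (Fin k) ℝ).sum_sq_norm_inner_right (A w)
    rw [← this]
    refine Finset.sum_congr rfl fun i _ => ?_
    rw [Real.norm_eq_abs, sq_abs]
    simp [stdVec]
  rw [h1, tr_eq_sum, Finset.sum_mul]
  refine Finset.sum_le_sum fun i _ => ?_
  rw [← hA (stdVec k i) w]
  have h2 := abs_real_inner_le_norm (A (stdVec k i)) w
  have h3 : ⟪stdVec k i, (A ∘L A) (stdVec k i)⟫_ℝ = ‖A (stdVec k i)‖ ^ 2 := by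
    rw [ContinuousLinearMap.comp_apply, ← hA, real_inner_self_eq_norm_sq]
  rw [h3, ← mul_pow]
  exact sq_le_sq' (by linarith [neg_abs_le ⟪A (stdVec k i), w⟫_ℝ, h2]) ((le_abs_self _).trans h2)

theorem sub_symm {S P : L k} (hS : S ∈ G m k) (hP : P ∈ G m k) (x y : Euc k) :
    ⟪(S - P) x, y⟫_ℝ = ⟪x, (S - P) y⟫_ℝ := by
  simp only [sub_apply, inner_sub_left, inner_sub_right, G_symm hS, G_symm hP]

theorem tr_perp_nonneg {S P : L k} (hS : S ∈ G m k) (hP : P ∈ G m k) :
    0 ≤ tr ((ContinuousLinearMap.id ℝ (Euc k) - P) ∘L S) := by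
  have h1 := tr_sub_sq hS hP
  have h2 : 0 ≤ tr ((S - P) ∘L (S - P)) := by
    rw [tr_eq_sum]
    refine Finset.sum_nonneg fun i _ => ?_
    rw [ContinuousLinearMap.comp_apply, ← sub_symm hS hP, real_inner_self_eq_norm_sq]
    positivity
  linarith

/-- `tr ((1-S) P)` as a sum over an orthonormal basis of the plane. -/
theorem tr_perp_eq_sum {S : L k} (hS : S ∈ G m k) (W : Submodule ℝ (Euc k)) {ι : Type*} [Fintype ι]
    (b : OrthonormalBasis ι ℝ W) :
    tr ((ContinuousLinearMap.id ℝ (Euc k) - S) ∘L W.starProjection) =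
      ∑ i, ‖(b i : Euc k) - S (b i)‖ ^ 2 := by
  have key : ∀ w : Euc k, ⟪(w : Euc k), w - S w⟫_ℝ = ‖w - S w‖ ^ 2 := by
    intro w
    have h1 := G_norm_sq_add hS w
    have h2 := G_inner_self hS w
    rw [inner_sub_right, real_inner_self_eq_norm_sq]
    rw [real_inner_comm] at h2
    linarith
  have e : (ContinuousLinearMap.id ℝ (Euc k) - S) ∘L W.starProjection =
      ∑ i, InnerProductSpace.rankOne ℝ ((b i : Euc k) - S (b i)) (b i : Euc k) := by
    rw [b.starProjection_eq_sum_rankOne]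
    ext1 x
    simp only [ContinuousLinearMap.comp_apply, sum_apply,
      InnerProductSpace.rankOne_apply, sub_apply, ContinuousLinearMap.id_apply, map_sum, map_smul,
      smul_sub, Finset.sum_sub_distrib]
  rw [e, map_sum]
  refine Finset.sum_congr rfl fun i _ => ?_
  rw [tr_apply, ← key]
  exact InnerProductSpace.trace_rankOne _ _

theorem linInd_of_fat {v : Fin m → Euc k} {K : ℝ}
    (hv : ∀ (c : Fin m → ℝ) (i : Fin m), |c i| ≤ K * ‖∑ i, c i • v i‖) : LinearIndependent ℝ v := by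
  rw [Fintype.linearIndependent_iff]
  intro c hc i
  have h := hv c i
  rw [hc, norm_zero, mul_zero] at h
  exact abs_eq_zero.1 (le_antisymm h (abs_nonneg _))

/-- the plane spanned by a fat simplex. -/
def plane (v : Fin m → Euc k) : Submodule ℝ (Euc k) := Submodule.span ℝ (Set.range v)

theorem finrank_plane {v : Fin m → Euc k} {K : ℝ}
    (hv : ∀ (c : Fin m → ℝ) (i : Fin m), |c i| ≤ K * ‖∑ i, c i • v i‖) :
    finrank ℝ (plane v) = m := by
  rw [plane, finrank_span_eq_card (linInd_of_fat hv), Fintype.card_fin]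

theorem plane_mem_G {v : Fin m → Euc k} {K : ℝ}
    (hv : ∀ (c : Fin m → ℝ) (i : Fin m), |c i| ≤ K * ‖∑ i, c i • v i‖) :
    (plane v).starProjection ∈ G m k := starProjection_mem_G _ (finrank_plane hv)

/-- tilt bound from the defects `‖v i - S (v i)‖`. -/
theorem tilt_le {v : Fin m → Euc k} {K : ℝ} (hK : 0 ≤ K)
    (hv : ∀ (c : Fin m → ℝ) (i : Fin m), |c i| ≤ K * ‖∑ i, c i • v i‖) {S : L k} (hS : S ∈ G m k) :
    tr ((ContinuousLinearMap.id ℝ (Euc k) - (plane v).starProjection) ∘L S) ≤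
      (m * K) ^ 2 * ∑ i, ‖v i - S (v i)‖ ^ 2 := by
  rw [tr_perp_symm hS (plane_mem_G hv)]
  have b := (stdOrthonormalBasis ℝ (plane v)).reindex (finCongr (finrank_plane hv))
  rw [tr_perp_eq_sum hS (plane v) b]
  have h1 : ∀ j : Fin m, ‖(b j : Euc k) - S (b j)‖ ^ 2 ≤ m * K ^ 2 * ∑ i, ‖v i - S (v i)‖ ^ 2 := by
    intro j
    obtain ⟨c, hc⟩ := (Submodule.mem_span_range_iff_exists_fun ℝ).1 (b j).2
    have hn : ‖(b j : Euc k)‖ = 1 := b.orthonormal.1 j
    have hcK : ∀ i, |c i| ≤ K := by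
      intro i
      have := hv c i
      rw [hc, hn, mul_one] at this
      exact this
    have h2 : (b j : Euc k) - S (b j) = ∑ i, c i • (v i - S (v i)) := by
      rw [← hc, map_sum, ← Finset.sum_sub_distrib]
      refine Finset.sum_congr rfl fun i _ => ?_
      rw [map_smul, smul_sub]
    have h3 : ‖(b j : Euc k) - S (b j)‖ ≤ ∑ i, K * ‖v i - S (v i)‖ := by
      rw [h2]
      refine (norm_sum_le _ _).trans (Finset.sum_le_sum fun i _ => ?_)
      rw [norm_smul, Real.norm_eq_abs]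
      exact mul_le_mul_of_nonneg_right (hcK i) (norm_nonneg _)
    calc ‖(b j : Euc k) - S (b j)‖ ^ 2 ≤ (∑ i, K * ‖v i - S (v i)‖) ^ 2 := by gcongr
      _ ≤ (Finset.univ : Finset (Fin m)).card * ∑ i, (K * ‖v i - S (v i)‖) ^ 2 :=
        sq_sum_le_card_mul_sum_sq
      _ = m * K ^ 2 * ∑ i, ‖v i - S (v i)‖ ^ 2 := by
        rw [Finset.card_univ, Fintype.card_fin, mul_assoc]
        congr 1
        rw [Finset.mul_sum]
        exact Finset.sum_congr rfl fun i _ => by ring
  calc ∑ j, ‖(b j : Euc k) - S (b j)‖ ^ 2 ≤ ∑ j : Fin m, m * K ^ 2 * ∑ i, ‖v i - S (v i)‖ ^ 2 :=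
        Finset.sum_le_sum fun j _ => h1 j
    _ = _ := by
      rw [Finset.sum_const, Finset.card_univ, Fintype.card_fin, nsmul_eq_mul]; ring

/-- the defect `‖(y - z) - S (y - z)‖ ^ 2`. -/
def defect (z : Euc k) (p : Euc k × L k) : ℝ := ‖(p.1 - z) - p.2 (p.1 - z)‖ ^ 2

theorem defect_nonneg (z : Euc k) (p : Euc k × L k) : 0 ≤ defect z p := by
  unfold defect; positivity

/-- the two excesses at a point, w.r.t. the plane `x + P`. -/
def tilt (P : L k) (p : Euc k × L k) : ℝ := tr ((ContinuousLinearMap.id ℝ (Euc k) - P) ∘L p.2)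

def height (P : L k) (x : Euc k) (p : Euc k × L k) : ℝ := ‖(p.1 - x) - P (p.1 - x)‖ ^ 2

theorem defect_sub {S : L k} (x y : Euc k) (r : ℝ) (v : Euc k) :
    r ^ 2 * ‖v - S v‖ ^ 2 ≤ 2 * defect x (y, S) + 2 * defect (x + r • v) (y, S) := by
  unfold defect
  simp only
  have e : r • (v - S v) = ((y - x) - S (y - x)) - ((y - (x + r • v)) - S (y - (x + r • v))) := by
    have h1 : y - (x + r • v) = (y - x) - r • v := by abel
    rw [h1, map_sub S (y - x), map_smul, smul_sub]; abel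
  have h2 : r ^ 2 * ‖v - S v‖ ^ 2 = ‖r • (v - S v)‖ ^ 2 := by
    rw [norm_smul, Real.norm_eq_abs, mul_pow, sq_abs]
  rw [h2, e]
  have h3 := norm_sub_le ((y - x) - S (y - x)) ((y - (x + r • v)) - S (y - (x + r • v)))
  have h4 := norm_nonneg (((y - x) - S (y - x)) - ((y - (x + r • v)) - S (y - (x + r • v))))
  nlinarith [sq_nonneg (‖(y - x) - S (y - x)‖ - ‖(y - (x + r • v)) - S (y - (x + r • v))‖)]

/-- **Pointwise excess estimate.** -/
theorem excess_pt {v : Fin m → Euc k} {K : ℝ} (hK : 0 ≤ K)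
    (hv : ∀ (c : Fin m → ℝ) (i : Fin m), |c i| ≤ K * ‖∑ i, c i • v i‖) {S : L k} (hS : S ∈ G m k)
    (x y : Euc k) (r : ℝ) (hy : ‖y - x‖ ≤ r) :
    r ^ 2 * tilt (plane v).starProjection (y, S) + height (plane v).starProjection x (y, S) ≤
      (2 + 10 * (m * K) ^ 2 * m) * defect x (y, S) +
        10 * (m * K) ^ 2 * ∑ i, defect (x + r • v i) (y, S) := by
  have hP := plane_mem_G hv
  set P := (plane v).starProjection with hPdef
  set D := ∑ i, defect (x + r • v i) (y, S) with hD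
  have h1 : r ^ 2 * tilt P (y, S) ≤ (m * K) ^ 2 * (2 * m * defect x (y, S) + 2 * D) := by
    have h2 := tilt_le hK hv hS
    have h3 : ∑ i, r ^ 2 * ‖v i - S (v i)‖ ^ 2 ≤ 2 * m * defect x (y, S) + 2 * D := by
      calc ∑ i, r ^ 2 * ‖v i - S (v i)‖ ^ 2
          ≤ ∑ i, (2 * defect x (y, S) + 2 * defect (x + r • v i) (y, S)) :=
            Finset.sum_le_sum fun i _ => defect_sub x y r (v i)
        _ = _ := by
          rw [Finset.sum_add_distrib, Finset.sum_const, Finset.card_univ, Fintype.card_fin,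
            nsmul_eq_mul, ← Finset.mul_sum]
          ring
    calc r ^ 2 * tilt P (y, S) ≤ r ^ 2 * ((m * K) ^ 2 * ∑ i, ‖v i - S (v i)‖ ^ 2) := by
          refine mul_le_mul_of_nonneg_left ?_ (sq_nonneg _)
          exact h2
      _ = (m * K) ^ 2 * ∑ i, r ^ 2 * ‖v i - S (v i)‖ ^ 2 := by
          rw [Finset.mul_sum, Finset.mul_sum, Finset.mul_sum]
          exact Finset.sum_congr rfl fun i _ => by ring
      _ ≤ _ := by gcongr
  have h4 : height P x (y, S) ≤ 2 * defect x (y, S) + 4 * (r ^ 2 * tilt P (y, S)) := by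
    unfold height
    simp only
    have e : (y - x) - P (y - x) = ((y - x) - S (y - x)) + (S - P) (y - x) := by
      rw [sub_apply]; abel
    have h5 := norm_add_le ((y - x) - S (y - x)) ((S - P) (y - x))
    have h6 := norm_sq_le_tr (A := S - P) (sub_symm hS hP) (y - x)
    rw [tr_sub_sq hS hP] at h6
    have h7 : ‖y - x‖ ^ 2 ≤ r ^ 2 := by gcongr
    have h8 : 0 ≤ tilt P (y, S) := tr_perp_nonneg hS hP
    have h9 : ‖(S - P) (y - x)‖ ^ 2 ≤ 2 * (r ^ 2 * tilt P (y, S)) := by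
      calc ‖(S - P) (y - x)‖ ^ 2 ≤ 2 * tilt P (y, S) * ‖y - x‖ ^ 2 := h6
        _ ≤ 2 * tilt P (y, S) * r ^ 2 := by gcongr
        _ = _ := by ring
    have h10 : ‖(y - x) - P (y - x)‖ ^ 2 ≤
        2 * ‖(y - x) - S (y - x)‖ ^ 2 + 2 * ‖(S - P) (y - x)‖ ^ 2 := by
      rw [e]
      nlinarith [norm_nonneg (((y - x) - S (y - x)) + (S - P) (y - x)),
        sq_nonneg (‖(y - x) - S (y - x)‖ - ‖(S - P) (y - x)‖)]
    unfold defect
    simp only
    linarith
  nlinarith

end Crest.Agent.R234.Strat3_842
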