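import Crest.Agent.R246.H2c5_622
import Crest.Agent.R234.Ell1_3
import Crest.Agent.R234.Leaf1_456
import Crest.Agent.R234.Mx13_397
import Crest.Agent.R234.Main2_456

-- ▼ part R234/IntRegA_971
section

/-!
R234, VF-INTREG (helper971), part A: quantitative interior regularity of smooth small solutions of
`Δ v = div G(v, ∇v)` (all derivatives at the centre are bounded by the `C^α` size), from
helper622's `schauder_pert` and `sol_prolong`.
-/

set_option autoImplicit false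

open MeasureTheory Metric Set Filter Topology
open scoped ContDiff

namespace Crest.Agent.R234.IntReg_971

noncomputable section

set_option linter.unusedSectionVars false
set_option linter.unusedVariables false

open Crest.Agent.R246.H2x622

variable {F : Type} [NormedAddCommGroup F] [InnerProductSpace ℝ F]

/-- quasi-linear bound near `0` -/
def QB (β : ℝ) {V : Type} [NormedAddCommGroup V] [NormedSpace ℝ V]
    (G : V × (F →L[ℝ] V) → (F →L[ℝ] V)) : Prop :=
  ∃ δ : ℝ, 0 < δ ∧ ∃ L : ℝ, 0 ≤ L ∧ ∀ p p' : V, ‖p‖ ≤ δ → ‖p'‖ ≤ δ → ∀ P P' : F →L[ℝ] V,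
    ‖G (p, P) - G (p', P')‖ ≤ β * ‖P - P'‖ + L * (1 + ‖P'‖) * ‖p - p'‖

/-- local Lipschitz bound -/
lemma exists_lip {A B : Type*} [NormedAddCommGroup A] [NormedSpace ℝ A] [NormedAddCommGroup B]
    [NormedSpace ℝ B] {T : A → B} (hT : ContDiff ℝ ∞ T) {β : ℝ} (hβ : 0 < β) :
    ∃ δ : ℝ, 0 < δ ∧ δ ≤ 1 ∧ ∃ K : ℝ, 0 ≤ K ∧ K * δ ≤ β ∧ ∀ q q' : A, ‖q‖ ≤ δ → ‖q'‖ ≤ δ →
      ‖T q - T q'‖ ≤ K * ‖q - q'‖ := by
  obtain ⟨K, t, ht, hK⟩ :=
    ((hT.of_le (by simp) : ContDiff ℝ 1 T).contDiffAt (x := (0 : A))).exists_lipschitzOnWith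
  obtain ⟨r, hr, hrt⟩ := Metric.mem_nhds_iff.1 ht
  refine ⟨min (min (r / 2) 1) (β / (K + 1)), by positivity,
    (min_le_left _ _).trans (min_le_right _ _), K, K.2, ?_, ?_⟩
  · have hK1 : (0 : ℝ) < K + 1 := by positivity
    calc (K : ℝ) * min (min (r / 2) 1) (β / (K + 1)) ≤ (K + 1) * (β / (K + 1)) := by
          refine mul_le_mul (by linarith) (min_le_right _ _) (by positivity) hK1.le
      _ = β := by field_simp
  · intro q q' hq hq'
    have h1 : min (min (r / 2) 1) (β / ((K : ℝ) + 1)) ≤ r / 2 :=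
      (min_le_left _ _).trans (min_le_left _ _)
    have m1 : q ∈ t := hrt (by rw [mem_ball, dist_zero_right]; linarith)
    have m2 : q' ∈ t := hrt (by rw [mem_ball, dist_zero_right]; linarith)
    have := hK.dist_le_mul q m1 q' m2
    rwa [dist_eq_norm, dist_eq_norm] at this

set_option maxHeartbeats 1000000 in
theorem pro_QB {V : Type} [NormedAddCommGroup V] [NormedSpace ℝ V]
    {G : V × (F →L[ℝ] V) → (F →L[ℝ] V)} (hG : ContDiff ℝ ∞ G) (hs : Sml 0 G (0, 0)) {β : ℝ}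
    (hβ : 0 < β) : QB β (pro G) := by
  have h : ContDiff ℝ (∞ + 1) G := by simpa using hG
  have hT : ContDiff ℝ ∞ (fderiv ℝ G) := h.fderiv_right (m := ∞) le_rfl
  obtain ⟨δ1, hδ1, hδ11, K1, hK10, hKδ1, hK1⟩ := exists_lip hT hβ
  obtain ⟨δ2, hδ2, hδ21, K2, hK20, hKδ2, hK2⟩ := exists_lip hG hβ
  set T := fderiv ℝ G with hTdef
  set L1 : ℝ := ‖T 0‖ + β with hL1
  have hL10 : 0 ≤ L1 := by positivity
  refine ⟨min δ1 δ2, lt_min hδ1 hδ2, K1 + L1 + K2, by positivity, ?_⟩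
  intro q q' hq hq' P P'
  have hq1 : ‖q‖ ≤ δ1 := hq.trans (min_le_left _ _)
  have hq2 : ‖q‖ ≤ δ2 := hq.trans (min_le_right _ _)
  have hq1' : ‖q'‖ ≤ δ1 := hq'.trans (min_le_left _ _)
  have hq2' : ‖q'‖ ≤ δ2 := hq'.trans (min_le_right _ _)
  have h0δ1 : ‖(0 : V × (F →L[ℝ] V))‖ ≤ δ1 := by rw [norm_zero]; exact hδ1.le
  have hTq0 : ‖T q - T 0‖ ≤ β := by
    refine (hK1 q 0 hq1 h0δ1).trans ?_
    rw [sub_zero]
    exact (mul_le_mul_of_nonneg_left hq1 hK10).trans hKδ1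
  have hTq : ‖T q‖ ≤ L1 := by
    have h1 := norm_le_norm_add_norm_sub' (T q) (T 0)
    rw [hL1]; linarith
  have hTP : ∀ R : F →L[ℝ] V, ‖T q ((0 : V), R)‖ ≤ β * ‖R‖ := by
    intro R
    have h0 : T 0 ((0 : V), R) = 0 := by
      have := hs R
      rw [zero_mul] at this
      exact norm_le_zero_iff.1 this
    have h1 : T q ((0 : V), R) = (T q - T 0) ((0 : V), R) := by
      rw [_root_.sub_apply, h0, sub_zero]
    rw [h1]
    refine (ContinuousLinearMap.le_opNorm _ _).trans ?_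
    have h2 : ‖((0 : V), R)‖ = ‖R‖ := by rw [Prod.norm_def]; simp
    rw [h2]
    exact mul_le_mul_of_nonneg_right hTq0 (norm_nonneg _)
  set S : (F →L[ℝ] (V × (F →L[ℝ] V))) → (F →L[ℝ] (F →L[ℝ] V)) :=
    fun P => (ContinuousLinearMap.snd ℝ V (F →L[ℝ] V)) ∘L P with hS
  have hSn : ∀ P, ‖S P‖ ≤ ‖P‖ := by
    intro P
    refine (ContinuousLinearMap.opNorm_comp_le _ _).trans ?_
    have := ContinuousLinearMap.norm_snd_le (𝕜 := ℝ) V (F →L[ℝ] V)
    nlinarith [norm_nonneg P]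
  have hSsub : ∀ P P', S P - S P' = S (P - P') := by
    intro P P'
    simp only [hS, ContinuousLinearMap.comp_sub]
  set X : F →L[ℝ] (F →L[ℝ] V) := T q ∘L (q.2.prod (S P).flip) - T q' ∘L (q'.2.prod (S P').flip)
    with hX
  have hdq2 : ‖q.2 - q'.2‖ ≤ ‖q - q'‖ := by
    have : q.2 - q'.2 = (q - q').2 := rfl
    rw [this]; exact norm_snd_le _
  have hXn : ‖X‖ ≤ β * ‖P - P'‖ + (K1 + L1) * (1 + ‖P'‖) * ‖q - q'‖ := by
    refine ContinuousLinearMap.opNorm_le_bound _ (by positivity) fun e => ?_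
    have e1 : X e = (T q - T q') (q'.2 e, (S P').flip e) + T q ((q.2 - q'.2) e, 0)
        + T q (0, (S (P - P')).flip e) := by
      rw [hX]
      simp only [_root_.sub_apply, ContinuousLinearMap.comp_apply, ContinuousLinearMap.prod_apply]
      rw [add_assoc, ← map_add, Prod.mk_add_mk, add_zero, zero_add, ← hSsub]
      have e2 : (S P - S P').flip e = (S P).flip e - (S P').flip e := rfl
      rw [e2]
      have e3 : ((q.2 e - q'.2 e, (S P).flip e - (S P').flip e) : V × (F →L[ℝ] V))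
          = (q.2 e, (S P).flip e) - (q'.2 e, (S P').flip e) := rfl
      rw [e3, map_sub]
      abel
    rw [e1]
    have b1 : ‖(T q - T q') (q'.2 e, (S P').flip e)‖ ≤ K1 * ‖q - q'‖ * ((1 + ‖P'‖) * ‖e‖) := by
      refine (ContinuousLinearMap.le_opNorm _ _).trans ?_
      refine mul_le_mul (hK1 q q' hq1 hq1') ?_ (norm_nonneg _) (by positivity)
      rw [Prod.norm_def]
      have c1 : ‖q'.2 e‖ ≤ (1 + ‖P'‖) * ‖e‖ := by
        refine (ContinuousLinearMap.le_opNorm _ _).trans ?_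
        refine mul_le_mul_of_nonneg_right ?_ (norm_nonneg _)
        have := (norm_snd_le q').trans (hq1'.trans hδ11)
        have := norm_nonneg P'
        linarith
      have c2 : ‖(S P').flip e‖ ≤ (1 + ‖P'‖) * ‖e‖ := by
        refine (ContinuousLinearMap.le_opNorm _ _).trans ?_
        refine mul_le_mul_of_nonneg_right ?_ (norm_nonneg _)
        rw [ContinuousLinearMap.opNorm_flip]
        have := hSn P'
        linarith
      exact max_le c1 c2
    have b2 : ‖T q ((q.2 - q'.2) e, 0)‖ ≤ L1 * (‖q - q'‖ * ‖e‖) := by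
      refine (ContinuousLinearMap.le_opNorm _ _).trans ?_
      refine mul_le_mul hTq ?_ (norm_nonneg _) hL10
      rw [Prod.norm_def]
      refine max_le ?_ ?_
      · exact (ContinuousLinearMap.le_opNorm _ _).trans
          (mul_le_mul_of_nonneg_right hdq2 (norm_nonneg _))
      · simp only [norm_zero]; positivity
    have b3 : ‖T q (0, (S (P - P')).flip e)‖ ≤ β * (‖P - P'‖ * ‖e‖) := by
      refine (hTP _).trans (mul_le_mul_of_nonneg_left ?_ hβ.le)
      refine (ContinuousLinearMap.le_opNorm _ _).trans ?_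
      rw [ContinuousLinearMap.opNorm_flip]
      exact mul_le_mul_of_nonneg_right (hSn _) (norm_nonneg _)
    refine (norm_add_le _ _).trans ((add_le_add (norm_add_le _ _) le_rfl).trans ?_)
    have h4 : L1 * (‖q - q'‖ * ‖e‖) ≤ L1 * (‖q - q'‖ * ‖e‖) * (1 + ‖P'‖) := by
      have h5 : 0 ≤ L1 * (‖q - q'‖ * ‖e‖) := by positivity
      have := norm_nonneg P'
      nlinarith
    calc _ ≤ K1 * ‖q - q'‖ * ((1 + ‖P'‖) * ‖e‖) + L1 * (‖q - q'‖ * ‖e‖) * (1 + ‖P'‖)
          + β * (‖P - P'‖ * ‖e‖) := by linarith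
      _ = _ := by ring
  have hGn : ‖G q - G q'‖ ≤ K2 * ‖q - q'‖ := hK2 q q' hq2 hq2'
  have hdiff : pro G (q, P) - pro G (q', P') = (G q - G q').prod X.flip := rfl
  rw [hdiff, ContinuousLinearMap.opNorm_prod, Prod.norm_def]
  have hP' := norm_nonneg P'
  have hqq := norm_nonneg (q - q')
  refine max_le ?_ ?_
  · change ‖G q - G q'‖ ≤ _
    refine hGn.trans ?_
    have h1 : K2 * ‖q - q'‖ ≤ K2 * (1 + ‖P'‖) * ‖q - q'‖ := by
      have : 0 ≤ K2 * ‖P'‖ * ‖q - q'‖ := by positivity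
      nlinarith
    have h2 : 0 ≤ β * ‖P - P'‖ := by positivity
    have h3 : 0 ≤ (K1 + L1) * (1 + ‖P'‖) * ‖q - q'‖ := by positivity
    calc K2 * ‖q - q'‖ ≤ K2 * (1 + ‖P'‖) * ‖q - q'‖ := h1
      _ ≤ β * ‖P - P'‖ + ((K1 + L1) * (1 + ‖P'‖) * ‖q - q'‖ + K2 * (1 + ‖P'‖) * ‖q - q'‖) := by
          linarith
      _ = _ := by ring
  · change ‖X.flip‖ ≤ _
    rw [ContinuousLinearMap.opNorm_flip]
    refine hXn.trans ?_
    have h3 : 0 ≤ K2 * (1 + ‖P'‖) * ‖q - q'‖ := by positivity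
    calc _ ≤ β * ‖P - P'‖ + (K1 + L1) * (1 + ‖P'‖) * ‖q - q'‖ + K2 * (1 + ‖P'‖) * ‖q - q'‖ := by
          linarith
      _ = _ := by ring

variable [FiniteDimensional ℝ F] [MeasurableSpace F] [BorelSpace F]

/-- a smooth function is Hölder on every ball -/
lemma exists_hol {W : Type*} [NormedAddCommGroup W] [NormedSpace ℝ W] {g : F → W}
    (hg : ContDiff ℝ ∞ g) (x₀ : F) {ρ α : ℝ} (hρ : 0 < ρ) (hα : 0 < α) (hα1 : α < 1) :
    ∃ K : ℝ, ∀ z ∈ ball x₀ ρ, ∀ z' ∈ ball x₀ ρ, ‖g z - g z'‖ ≤ K * ‖z - z'‖ ^ α := by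
  have h : ContDiff ℝ (∞ + 1) g := by simpa using hg
  have hc : Continuous (fderiv ℝ g) := (h.fderiv_right (m := ∞) le_rfl).continuous
  obtain ⟨C, hC⟩ := (isCompact_closedBall x₀ ρ).exists_bound_of_continuousOn hc.continuousOn
  have hC0 : 0 ≤ C := (norm_nonneg _).trans (hC x₀ (mem_closedBall_self hρ.le))
  refine ⟨C * (2 * ρ) ^ (1 - α), fun z hz z' hz' => ?_⟩
  have h1 : ‖g z - g z'‖ ≤ C * ‖z - z'‖ :=
    (convex_ball x₀ ρ).norm_image_sub_le_of_norm_fderiv_le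
      (fun y _ => hg.differentiable (by simp) y) (fun y hy => hC y (ball_subset_closedBall hy))
      hz' hz
  rcases eq_or_ne z z' with rfl | hne
  · simp only [sub_self, norm_zero]
    have := Real.zero_rpow hα.ne'
    rw [this, mul_zero]
  have hn : 0 < ‖z - z'‖ := norm_pos_iff.2 (sub_ne_zero.2 hne)
  have h2 : ‖z - z'‖ ≤ 2 * ρ := by
    rw [mem_ball, dist_eq_norm] at hz hz'
    calc ‖z - z'‖ = ‖(z - x₀) - (z' - x₀)‖ := by congr 1; abel
      _ ≤ ‖z - x₀‖ + ‖z' - x₀‖ := norm_sub_le _ _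
      _ ≤ 2 * ρ := by linarith
  have h3 : ‖z - z'‖ = ‖z - z'‖ ^ (1 - α) * ‖z - z'‖ ^ α := by
    rw [← Real.rpow_add hn]; simp
  calc ‖g z - g z'‖ ≤ C * (‖z - z'‖ ^ (1 - α) * ‖z - z'‖ ^ α) := by rw [← h3]; exact h1
    _ ≤ C * ((2 * ρ) ^ (1 - α) * ‖z - z'‖ ^ α) := by
        refine mul_le_mul_of_nonneg_left ?_ hC0
        refine mul_le_mul_of_nonneg_right ?_ (Real.rpow_nonneg hn.le _)
        exact Real.rpow_le_rpow hn.le h2 (by linarith)
    _ = _ := by ring

/-- a smooth weak solution is a `Sol` -/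
lemma sol_of_smooth {V : Type} [NormedAddCommGroup V] [NormedSpace ℝ V]
    {G : V × (F →L[ℝ] V) → (F →L[ℝ] V)} {v : F → V} (hv : ContDiff ℝ ∞ v) {x₀ : F} {ρ α : ℝ}
    (hρ : 0 < ρ) (hα : 0 < α) (hα1 : α < 1)
    (hw : WeakDiv (fun z => fderiv ℝ v z - G (v z, fderiv ℝ v z)) (ball x₀ ρ)) :
    Sol α G v (fderiv ℝ v) (ball x₀ ρ) := by
  have h : ContDiff ℝ (∞ + 1) v := by simpa using hv
  have hg : ContDiff ℝ ∞ (fderiv ℝ v) := h.fderiv_right (m := ∞) le_rfl
  refine ⟨isOpen_ball, fun z _ => (hv.differentiable (by simp) z).hasFDerivAt, fun x _ => ?_, hw⟩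
  obtain ⟨K, hK⟩ := exists_hol hg x one_pos hα hα1
  exact ⟨1, one_pos, K, hK⟩

/-- **Quantitative interior regularity**, all orders, at the centre. -/
theorem quant {κF α β₁ : ℝ} (hκ : KB F κF) (hα : 0 < α) (hα1 : α < 1) (hβ0 : 0 ≤ β₁)
    (hβ : β₁ < bet F κF α) (k : ℕ) :
    ∀ {V : Type} [NormedAddCommGroup V] [NormedSpace ℝ V] [CompleteSpace V]
      {G : V × (F →L[ℝ] V) → (F →L[ℝ] V)} (_ : ContDiff ℝ ∞ G) (_ : Sml 0 G (0, 0))
      (_ : QB (bet F κF α) G) {ρ : ℝ}, 0 < ρ → ρ ≤ 1 → ∃ κ₀ : ℝ, 0 < κ₀ ∧ ∃ C : ℝ, 0 ≤ C ∧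
        ∀ (x₀ : F) (v : F → V), ContDiff ℝ ∞ v →
          WeakDiv (fun z => fderiv ℝ v z - G (v z, fderiv ℝ v z)) (ball x₀ ρ) →
          (∀ z ∈ ball x₀ ρ, Sml β₁ G (v z, fderiv ℝ v z)) → ∀ κ : ℝ, 0 ≤ κ → κ ≤ κ₀ →
          (∀ z ∈ ball x₀ ρ, ‖v z‖ ≤ κ) →
          (∀ z ∈ ball x₀ ρ, ∀ z' ∈ ball x₀ ρ, ‖v z - v z'‖ ≤ κ * ‖z - z'‖ ^ α) →
          ∀ j ≤ k, ‖iteratedFDeriv ℝ j v x₀‖ ≤ C * κ := by
  induction k with
  | zero =>
    intro V _ _ _ G hG h0 hQ ρ hρ hρ1
    refine ⟨1, one_pos, 1, zero_le_one, ?_⟩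
    intro x₀ v hv hw hs κ hκ0 hκ1 hb hh j hj
    obtain rfl : j = 0 := Nat.le_zero.1 hj
    rw [norm_iteratedFDeriv_zero, one_mul]
    exact hb x₀ (mem_ball_self hρ)
  | succ k ih =>
    intro V _ _ _ G hG h0 hQ ρ hρ hρ1
    have hbet := bet_pos hκ hα hα1
    obtain ⟨δ, hδ, L, hL, hQ⟩ := hQ
    obtain ⟨Cs, hCs0, hCs⟩ := schauder_pert (V := V) hκ hα hα1 (b := L) (ρ := ρ) hL hρ hρ1
    have hp0 : Sml 0 (pro G) (0, 0) := pro_sml hG le_rfl (p := (0, 0)) h0 0
    obtain ⟨κ₁, hκ₁, C₁, hC₁, H⟩ := ih (pro_contDiff hG) hp0 (pro_QB hG h0 hbet)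
      (ρ := ρ / 16) (by positivity) (by linarith)
    set Λ : ℝ := Cs * (1 + L) with hΛ
    have hΛ0 : 0 ≤ Λ := by positivity
    refine ⟨min (min δ 1) (κ₁ / (1 + Λ)), by positivity, C₁ * (1 + Λ) + 1, by positivity, ?_⟩
    intro x₀ v hv hw hs κ hκ0 hκ1 hb hh j hj
    have hκδ : κ ≤ δ := hκ1.trans ((min_le_left _ _).trans (min_le_left _ _))
    have hκ1' : κ ≤ 1 := hκ1.trans ((min_le_left _ _).trans (min_le_right _ _))
    have hκκ : (1 + Λ) * κ ≤ κ₁ := by
      have h1 := hκ1.trans (min_le_right _ _)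
      rw [le_div_iff₀ (by positivity)] at h1
      linarith
    have hv1 : ContDiff ℝ (∞ + 1) v := by simpa using hv
    have hg : ContDiff ℝ ∞ (fderiv ℝ v) := hv1.fderiv_right (m := ∞) le_rfl
    obtain ⟨K0, hK0⟩ := exists_hol hg x₀ hρ hα hα1
    have hfc : Continuous (fun z => G (v z, fderiv ℝ v z)) :=
      hG.continuous.comp (hv.continuous.prodMk hg.continuous)
    obtain ⟨hS1, hS2⟩ := hCs v (fderiv ℝ v) (fun z => G (v z, fderiv ℝ v z)) x₀ κ (L * κ) K0 hκ0
      (by positivity) (fun z _ => (hv.differentiable (by simp) z).hasFDerivAt)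
      hfc.continuousOn hw hK0 hb (by
        intro z hz z' hz'
        refine (hQ (v z) (v z') ((hb z hz).trans hκδ) ((hb z' hz').trans hκδ) _ _).trans ?_
        have h1 := hh z hz z' hz'
        have hn : 0 ≤ ‖fderiv ℝ v z'‖ := norm_nonneg _
        have h0 : 0 ≤ ‖z - z'‖ ^ α := Real.rpow_nonneg (norm_nonneg _) _
        have h2 : L * (1 + ‖fderiv ℝ v z'‖) * ‖v z - v z'‖ ≤
            L * (1 + ‖fderiv ℝ v z'‖) * (κ * ‖z - z'‖ ^ α) :=
          mul_le_mul_of_nonneg_left h1 (by positivity)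
        have h3 : L * (1 + ‖fderiv ℝ v z'‖) * (κ * ‖z - z'‖ ^ α) ≤
            (L * ‖fderiv ℝ v z'‖ + L * κ) * ‖z - z'‖ ^ α := by
          have h4 : L * (1 + ‖fderiv ℝ v z'‖) * κ ≤ L * ‖fderiv ℝ v z'‖ + L * κ := by
            have h5 : L * ‖fderiv ℝ v z'‖ * κ ≤ L * ‖fderiv ℝ v z'‖ * 1 :=
              mul_le_mul_of_nonneg_left hκ1' (by positivity)
            nlinarith
          calc _ = L * (1 + ‖fderiv ℝ v z'‖) * κ * ‖z - z'‖ ^ α := by ring
            _ ≤ _ := mul_le_mul_of_nonneg_right h4 h0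
        linarith)
    have hΛκ : Cs * (κ + L * κ) = Λ * κ := by rw [hΛ]; ring
    rw [hΛκ] at hS1 hS2
    -- the prolonged solution
    have hSol := sol_of_smooth (G := G) hv hρ hα hα1 hw
    have hpr := sol_prolong hκ hα hα1 hβ hG hSol hs
    set w : F → V × (F →L[ℝ] V) := fun z => (v z, fderiv ℝ v z) with hwdef
    have hwc : ContDiff ℝ ∞ w := hv.prodMk hg
    have hfw : ∀ z, fderiv ℝ w z = (fderiv ℝ v z).prod (fderiv ℝ (fderiv ℝ v) z) := fun z =>
      ((hv.differentiable (by simp) z).hasFDerivAt.prodMk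
        (hg.differentiable (by simp) z).hasFDerivAt).fderiv
    have hsub : ball x₀ (ρ / 16) ⊆ ball x₀ ρ := ball_subset_ball (by linarith)
    have hsub2 : ball x₀ (ρ / 16) ⊆ ball x₀ (ρ / 2) := ball_subset_ball (by linarith)
    have hww : WeakDiv (fun z => fderiv ℝ w z - pro G (w z, fderiv ℝ w z)) (ball x₀ (ρ / 16)) := by
      intro ζ z1 z2 z3
      have h3 := hpr.weak ζ z1 z2 (z3.trans hsub)
      simp only [hfw]
      exact h3
    have hws : ∀ z ∈ ball x₀ (ρ / 16), Sml β₁ (pro G) (w z, fderiv ℝ w z) := fun z hz =>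
      pro_sml hG hβ0 (hs z (hsub hz)) _
    have hΛκ0 : 0 ≤ Λ * κ := by positivity
    have hwb : ∀ z ∈ ball x₀ (ρ / 16), ‖w z‖ ≤ (1 + Λ) * κ := by
      intro z hz
      rw [hwdef, Prod.norm_def]
      have a1 := hb z (hsub hz)
      have a2 := hS1 z (hsub2 hz)
      exact max_le (by linarith) (by linarith)
    have hwh : ∀ z ∈ ball x₀ (ρ / 16), ∀ z' ∈ ball x₀ (ρ / 16),
        ‖w z - w z'‖ ≤ (1 + Λ) * κ * ‖z - z'‖ ^ α := by
      intro z hz z' hz'
      have h0 : 0 ≤ ‖z - z'‖ ^ α := Real.rpow_nonneg (norm_nonneg _) _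
      have hzz : ‖z' - z‖ ≤ ρ / 8 := by
        rw [mem_ball, dist_eq_norm] at hz hz'
        calc ‖z' - z‖ = ‖(z' - x₀) - (z - x₀)‖ := by congr 1; abel
          _ ≤ ‖z' - x₀‖ + ‖z - x₀‖ := norm_sub_le _ _
          _ ≤ ρ / 8 := by linarith
      have a1 := hh z (hsub hz) z' (hsub hz')
      have a2 := hS2 z (hsub2 hz) z' hzz
      rw [norm_sub_rev z' z] at a2
      have e1 : w z - w z' = (v z - v z', fderiv ℝ v z - fderiv ℝ v z') := rfl
      rw [e1, Prod.norm_def]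
      have b1 : 0 ≤ κ * ‖z - z'‖ ^ α := by positivity
      have b2 : 0 ≤ Λ * κ * ‖z - z'‖ ^ α := by positivity
      have b3 : (1 + Λ) * κ * ‖z - z'‖ ^ α = κ * ‖z - z'‖ ^ α + Λ * κ * ‖z - z'‖ ^ α := by ring
      rw [b3]
      exact max_le (by linarith) (by linarith)
    have hfin := H x₀ w hwc hww hws ((1 + Λ) * κ) (by positivity) hκκ hwb hwh
    rcases Nat.eq_zero_or_pos j with rfl | hjpos
    · rw [norm_iteratedFDeriv_zero]
      have h1 := hb x₀ (mem_ball_self hρ)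
      have h2 : 0 ≤ C₁ * (1 + Λ) * κ := by positivity
      have h3 : (C₁ * (1 + Λ) + 1) * κ = C₁ * (1 + Λ) * κ + κ := by ring
      linarith
    · obtain ⟨i, rfl⟩ : ∃ i, j = i + 1 := ⟨j - 1, by omega⟩
      have h1 := hfin i (by omega)
      rw [← norm_iteratedFDeriv_fderiv]
      have h2 : fderiv ℝ v = (ContinuousLinearMap.snd ℝ V (F →L[ℝ] V)) ∘ w := rfl
      have h3 : ‖iteratedFDeriv ℝ i (fderiv ℝ v) x₀‖ ≤ ‖iteratedFDeriv ℝ i w x₀‖ := by
        rw [h2]
        refine ((ContinuousLinearMap.snd ℝ V (F →L[ℝ] V)).norm_iteratedFDeriv_comp_left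
          (hwc.contDiffAt) (by exact_mod_cast le_top)).trans ?_
        have h4 := ContinuousLinearMap.norm_snd_le (𝕜 := ℝ) V (F →L[ℝ] V)
        nlinarith [norm_nonneg (iteratedFDeriv ℝ i w x₀)]
      have h5 : (C₁ * (1 + Λ) + 1) * κ = C₁ * ((1 + Λ) * κ) + κ := by ring
      linarith

end

end Crest.Agent.R234.IntReg_971
end

-- ▼ part R234/IntRegB_971
section

/-!
R234, VF-INTREG (helper971), part B: the gradient of a solution of the minimal surface system in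
non-divergence form solves `Δ v = div G(v, ∇v)`; weak form and smallness.
-/

set_option autoImplicit false
set_option maxSynthPendingDepth 3

open MeasureTheory Metric Set Filter Topology
open scoped ContDiff

namespace Crest.Agent.R234.IntReg_971

noncomputable section

set_option linter.unusedSectionVars false
set_option linter.unusedVariables false

open Crest.Agent.R246.H2x622 Crest.Agent.R234.Ell1_3

section swap

variable {F : Type} [NormedAddCommGroup F] [InnerProductSpace ℝ F] [FiniteDimensional ℝ F]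
  [MeasurableSpace F] [BorelSpace F] {W : Type} [NormedAddCommGroup W] [NormedSpace ℝ W]

lemma fderiv_dir {ζ : F → ℝ} (hζ : ContDiff ℝ ∞ ζ) (a z b : F) :
    fderiv ℝ (fun y => fderiv ℝ ζ y a) z b = fderiv ℝ (fderiv ℝ ζ) z b a := by
  have h : ContDiff ℝ (∞ + 1) ζ := by simpa using hζ
  have h2 : ContDiff ℝ ∞ (fderiv ℝ ζ) := h.fderiv_right (m := ∞) le_rfl
  have h3 : HasFDerivAt (fderiv ℝ ζ) (fderiv ℝ (fderiv ℝ ζ) z) z :=
    (h2.differentiable (by simp) z).hasFDerivAt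
  have h4 := (h3.clm_apply (hasFDerivAt_const a z)).fderiv
  rw [h4]
  simp

lemma sym_dir {ζ : F → ℝ} (hζ : ContDiff ℝ ∞ ζ) (a z b : F) :
    fderiv ℝ (fderiv ℝ ζ) z b a = fderiv ℝ (fderiv ℝ ζ) z a b := by
  have h : ContDiff ℝ (∞ + 1) ζ := by simpa using hζ
  have h2 : ContDiff ℝ ∞ (fderiv ℝ ζ) := h.fderiv_right (m := ∞) le_rfl
  exact second_derivative_symmetric (fun y => (hζ.differentiable (by simp) y).hasFDerivAt)
    (h2.differentiable (by simp) z).hasFDerivAt b a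

lemma int_swap_aux {ζ : F → ℝ} (hζ : ContDiff ℝ ∞ ζ) (hcs : HasCompactSupport ζ) {ψ : F → W}
    (hψ : ContDiff ℝ ∞ ψ) (a b : F) :
    ∫ z, fderiv ℝ ζ z a • fderiv ℝ ψ z b = - ∫ z, fderiv ℝ (fderiv ℝ ζ) z b a • ψ z := by
  have h : ContDiff ℝ (∞ + 1) ζ := by simpa using hζ
  have h2 : ContDiff ℝ ∞ (fderiv ℝ ζ) := h.fderiv_right (m := ∞) le_rfl
  have hψ' : ContDiff ℝ (∞ + 1) ψ := by simpa using hψ
  have hψ2 : ContDiff ℝ ∞ (fderiv ℝ ψ) := hψ'.fderiv_right (m := ∞) le_rfl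
  have ha : ContDiff ℝ ∞ (fun y => fderiv ℝ ζ y a) := h2.clm_apply contDiff_const
  have hb : ContDiff ℝ ∞ (fun y => fderiv ℝ ψ y b) := hψ2.clm_apply contDiff_const
  have hcsa : HasCompactSupport (fun y => fderiv ℝ ζ y a) := by
    refine hcs.of_isClosed_subset (isClosed_tsupport _) ?_
    refine closure_minimal ?_ (isClosed_tsupport ζ)
    intro z hz
    by_contra hz2
    apply hz
    simp only
    rw [fderiv_of_notMem_tsupport ℝ hz2]
    rfl
  have h' : ContDiff ℝ (∞ + 1) (fun y => fderiv ℝ ζ y a) := by simpa using ha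
  have h2' : ContDiff ℝ ∞ (fderiv ℝ (fun y => fderiv ℝ ζ y a)) := h'.fderiv_right (m := ∞) le_rfl
  have hcsb : HasCompactSupport (fun y => fderiv ℝ (fun y => fderiv ℝ ζ y a) y b) :=
    (hcsa.fderiv (𝕜 := ℝ)).comp_left (g := fun L : F →L[ℝ] ℝ => L b) rfl
  have i1 : Integrable (fun z => fderiv ℝ (fun y => fderiv ℝ ζ y a) z b • ψ z) :=
    ((h2'.clm_apply contDiff_const).continuous.smul hψ.continuous).integrable_of_hasCompactSupport
      hcsb.smul_right
  have i2 : Integrable (fun z => fderiv ℝ ζ z a • fderiv ℝ ψ z b) :=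
    (ha.continuous.smul hb.continuous).integrable_of_hasCompactSupport hcsa.smul_right
  have i3 : Integrable (fun z => fderiv ℝ ζ z a • ψ z) :=
    (ha.continuous.smul hψ.continuous).integrable_of_hasCompactSupport hcsa.smul_right
  have h5 := integral_smul_fderiv_eq_neg_fderiv_smul_of_integrable (μ := (volume : Measure F))
    (f := fun y => fderiv ℝ ζ y a) (g := ψ) (v := b) i1 i2 i3
    (fun x _ => ha.differentiable (by simp) x) (fun x _ => hψ.differentiable (by simp) x)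
  rw [h5]
  congr 1
  refine integral_congr_ae (Filter.Eventually.of_forall fun z => ?_)
  simp only [fderiv_dir hζ]

lemma int_swap {ζ : F → ℝ} (hζ : ContDiff ℝ ∞ ζ) (hcs : HasCompactSupport ζ) {ψ : F → W}
    (hψ : ContDiff ℝ ∞ ψ) (a b : F) :
    ∫ z, fderiv ℝ ζ z a • fderiv ℝ ψ z b = ∫ z, fderiv ℝ ζ z b • fderiv ℝ ψ z a := by
  rw [int_swap_aux hζ hcs hψ, int_swap_aux hζ hcs hψ]
  congr 1
  refine integral_congr_ae (Filter.Eventually.of_forall fun z => ?_)
  simp only [sym_dir hζ a z b]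

end swap

section maps

variable {ι : Type} [Fintype ι] {F V : Type} [NormedAddCommGroup F] [InnerProductSpace ℝ F]
  [FiniteDimensional ℝ F] [NormedAddCommGroup V] [InnerProductSpace ℝ V] [FiniteDimensional ℝ V]

/-- trace of a second derivative -/
def trC {W : Type} [NormedAddCommGroup W] [NormedSpace ℝ W] (e : OrthonormalBasis ι ℝ F) :
    (F →L[ℝ] F →L[ℝ] W) →L[ℝ] W :=
  ∑ i, (ContinuousLinearMap.apply ℝ W (e i)) ∘L (ContinuousLinearMap.apply ℝ (F →L[ℝ] W) (e i))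

lemma trC_apply {W : Type} [NormedAddCommGroup W] [NormedSpace ℝ W] (e : OrthonormalBasis ι ℝ F)
    (S : F →L[ℝ] F →L[ℝ] W) : trC e S = ∑ i, S (e i) (e i) := by
  simp [trC, _root_.sum_apply]

/-- `y ↦ (a, b) ↦ ⟨a, b⟩ y` -/
def Jm (F W : Type) [NormedAddCommGroup F] [InnerProductSpace ℝ F] [NormedAddCommGroup W]
    [NormedSpace ℝ W] : W →L[ℝ] (F →L[ℝ] F →L[ℝ] W) :=
  ((ContinuousLinearMap.compL ℝ F (F →L[ℝ] ℝ) (F →L[ℝ] W)).flip (innerSL ℝ)) ∘L
    (ContinuousLinearMap.smulRightL ℝ F W).flip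

lemma Jm_apply {W : Type} [NormedAddCommGroup W] [NormedSpace ℝ W] (y : W) (a b : F) :
    Jm F W y a b = inner ℝ a b • y := rfl

/-- the (small) coefficient map -/
def Bq (e : OrthonormalBasis ι ℝ F) (p : F →L[ℝ] V) : (F →L[ℝ] F →L[ℝ] V) →L[ℝ] V :=
  (trC e) ∘L ((ContinuousLinearMap.compL ℝ F F (F →L[ℝ] V)).flip
      (ContinuousLinearMap.id ℝ F - ginv p))

lemma Bq_apply (e : OrthonormalBasis ι ℝ F) (p : F →L[ℝ] V) (S : F →L[ℝ] F →L[ℝ] V) :
    Bq e p S = trC e S - ∑ i, S (ginv p (e i)) (e i) := by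
  have h : Bq e p S = trC e (S ∘L (ContinuousLinearMap.id ℝ _ - ginv p)) := rfl
  rw [h, trC_apply, trC_apply, ← Finset.sum_sub_distrib]
  refine Finset.sum_congr rfl fun i _ => ?_
  simp

lemma Bq_zero (e : OrthonormalBasis ι ℝ F) : Bq (V := V) e 0 = 0 := by
  unfold Bq
  rw [ginv_zero, sub_self, map_zero, ContinuousLinearMap.comp_zero]

lemma Bq_contDiff (e : OrthonormalBasis ι ℝ F) : ContDiff ℝ ∞ (Bq (V := V) e) := by
  unfold Bq
  refine contDiff_const.clm_comp ?_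
  exact (ContinuousLinearMap.contDiff _).comp (contDiff_const.sub ginv_contDiff)

/-- the nonlinearity for the gradient -/
def G0 (e : OrthonormalBasis ι ℝ F) (q : (F →L[ℝ] V) × (F →L[ℝ] (F →L[ℝ] V))) :
    F →L[ℝ] (F →L[ℝ] V) :=
  Jm F V (Bq e q.1 q.2)

lemma G0_contDiff (e : OrthonormalBasis ι ℝ F) : ContDiff ℝ ∞ (G0 (V := V) e) := by
  unfold G0
  refine (ContinuousLinearMap.contDiff _).comp ?_
  exact ((Bq_contDiff (V := V) e).comp contDiff_fst).clm_apply contDiff_snd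

lemma fderiv_G0 (e : OrthonormalBasis ι ℝ F) (p : F →L[ℝ] V) (S P : F →L[ℝ] (F →L[ℝ] V)) :
    fderiv ℝ (G0 (V := V) e) (p, S) (0, P) = Jm F V (Bq e p P) := by
  refine fderiv_of_affine ((G0_contDiff e).differentiable (by simp)) fun t => ?_
  have h1 : (p, S) + t • ((0 : F →L[ℝ] V), P) = (p, S + t • P) := by
    rw [Prod.smul_mk, Prod.mk_add_mk, smul_zero, add_zero]
  rw [h1]
  simp only [G0, map_add, map_smul]

lemma sml0_G0 (e : OrthonormalBasis ι ℝ F) : Sml 0 (G0 (V := V) e) (0, 0) := by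
  intro P
  rw [fderiv_G0, Bq_zero]
  simp

/-- smallness of `G0` near `0` -/
theorem G0_small (e : OrthonormalBasis ι ℝ F) {β : ℝ} (hβ : 0 < β) : QB β (G0 (V := V) e) ∧
    ∃ δ : ℝ, 0 < δ ∧ ∀ p : F →L[ℝ] V, ‖p‖ ≤ δ → ∀ S, Sml β (G0 (V := V) e) (p, S) := by
  set c : ℝ := ‖Jm F V‖ + 1 with hc
  have hc0 : 0 < c := by positivity
  obtain ⟨δ, hδ, hδ1, K, hK0, hKδ, hK⟩ := exists_lip (Bq_contDiff (V := V) e)
    (div_pos hβ hc0)
  have hB : ∀ p : F →L[ℝ] V, ‖p‖ ≤ δ → c * ‖Bq e p‖ ≤ β := by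
    intro p hp
    have h1 := hK p 0 hp (by rw [norm_zero]; exact hδ.le)
    rw [Bq_zero, sub_zero, sub_zero] at h1
    have h2 : ‖Bq e p‖ ≤ β / c := h1.trans ((mul_le_mul_of_nonneg_left hp hK0).trans hKδ)
    rw [le_div_iff₀ hc0] at h2
    linarith
  have hJ : ∀ y : V, ‖Jm F V y‖ ≤ c * ‖y‖ := by
    intro y
    refine (ContinuousLinearMap.le_opNorm _ _).trans ?_
    exact mul_le_mul_of_nonneg_right (by rw [hc]; linarith) (norm_nonneg _)
  refine ⟨⟨δ, hδ, c * K, by positivity, ?_⟩, δ, hδ, ?_⟩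
  · intro p p' hp hp' P P'
    have e1 : G0 e (p, P) - G0 e (p', P') =
        Jm F V (Bq e p (P - P') + (Bq e p - Bq e p') P') := by
      simp only [G0, map_add, map_sub, _root_.sub_apply]
      abel
    rw [e1]
    refine (hJ _).trans ?_
    have h1 : ‖Bq e p (P - P') + (Bq e p - Bq e p') P'‖ ≤
        ‖Bq e p‖ * ‖P - P'‖ + K * ‖p - p'‖ * ‖P'‖ := by
      refine (norm_add_le _ _).trans (add_le_add (ContinuousLinearMap.le_opNorm _ _) ?_)
      refine (ContinuousLinearMap.le_opNorm _ _).trans ?_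
      exact mul_le_mul_of_nonneg_right (hK p p' hp hp') (norm_nonneg _)
    have h2 := mul_le_mul_of_nonneg_left h1 hc0.le
    have h3 := mul_le_mul_of_nonneg_right (hB p hp) (norm_nonneg (P - P'))
    have h4 : 0 ≤ c * K * ‖p - p'‖ := by positivity
    calc _ ≤ c * (‖Bq e p‖ * ‖P - P'‖ + K * ‖p - p'‖ * ‖P'‖) := h2
      _ = c * ‖Bq e p‖ * ‖P - P'‖ + c * K * ‖P'‖ * ‖p - p'‖ := by ring
      _ ≤ β * ‖P - P'‖ + c * K * (1 + ‖P'‖) * ‖p - p'‖ := by nlinarith
  · intro p hp S P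
    rw [fderiv_G0]
    refine (hJ _).trans ?_
    have h1 := mul_le_mul_of_nonneg_left (ContinuousLinearMap.le_opNorm (Bq e p) P) hc0.le
    have h3 := mul_le_mul_of_nonneg_right (hB p hp) (norm_nonneg P)
    linarith

variable [MeasurableSpace F] [BorelSpace F]

/-- `Δ (Du) = div (Δu · id)` in the weak form -/
theorem weak_grad (e : OrthonormalBasis ι ℝ F) {u : F → V} (hu : ContDiff ℝ ∞ u) {ζ : F → ℝ}
    (hζ : ContDiff ℝ ∞ ζ) (hcs : HasCompactSupport ζ) :
    ∫ z, (fderiv ℝ (fderiv ℝ u) z - Jm F V (trC e (fderiv ℝ (fderiv ℝ u) z)))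
      (gradient ζ z) = 0 := by
  have h : ContDiff ℝ (∞ + 1) u := by simpa using hu
  have h1 : ContDiff ℝ ∞ (fderiv ℝ u) := h.fderiv_right (m := ∞) le_rfl
  have h1' : ContDiff ℝ (∞ + 1) (fderiv ℝ u) := by simpa using h1
  have h2 : ContDiff ℝ ∞ (fderiv ℝ (fderiv ℝ u)) := h1'.fderiv_right (m := ∞) le_rfl
  have hHc : Continuous (fun z => fderiv ℝ (fderiv ℝ u) z -
      Jm F V (trC e (fderiv ℝ (fderiv ℝ u) z))) := by
    refine h2.continuous.sub ?_
    exact (Jm F V).continuous.comp ((trC e).continuous.comp h2.continuous)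
  have hint := integrable_grad (U := univ) hHc.continuousOn hζ hcs (subset_univ _)
  refine ContinuousLinearMap.ext fun b => ?_
  rw [ContinuousLinearMap.integral_apply hint, _root_.zero_apply]
  have hin : ∀ y a : F, inner ℝ (gradient ζ y) a = fderiv ℝ ζ y a := by
    intro y a
    rw [gradient, InnerProductSpace.toDual_symm_apply]
  have hsym : ∀ z a b : F, fderiv ℝ (fderiv ℝ u) z a b = fderiv ℝ (fderiv ℝ u) z b a := by
    intro z a b
    exact second_derivative_symmetric (fun y => (hu.differentiable (by simp) y).hasFDerivAt)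
      (h1.differentiable (by simp) z).hasFDerivAt a b
  have hexp : ∀ z : F, gradient ζ z = ∑ i, fderiv ℝ ζ z (e i) • e i := by
    intro z
    conv_lhs => rw [← e.sum_repr' (gradient ζ z)]
    refine Finset.sum_congr rfl fun i _ => ?_
    rw [real_inner_comm, hin]
  have hψd : ∀ (a : F) (z c : F), fderiv ℝ (fun y => fderiv ℝ u y a) z c =
      fderiv ℝ (fderiv ℝ u) z c a := by
    intro a z c
    have h3 : HasFDerivAt (fderiv ℝ u) (fderiv ℝ (fderiv ℝ u) z) z :=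
      (h1.differentiable (by simp) z).hasFDerivAt
    rw [(h3.clm_apply (hasFDerivAt_const a z)).fderiv]
    simp
  have hψc : ∀ a : F, ContDiff ℝ ∞ (fun y => fderiv ℝ u y a) := fun a =>
    h1.clm_apply contDiff_const
  have hptw : ∀ z, ((fderiv ℝ (fderiv ℝ u) z - Jm F V (trC e (fderiv ℝ (fderiv ℝ u) z)))
      (gradient ζ z)) b = ∑ i, (fderiv ℝ ζ z (e i) • fderiv ℝ (fun y => fderiv ℝ u y (e i)) z b
        - fderiv ℝ ζ z b • fderiv ℝ (fun y => fderiv ℝ u y (e i)) z (e i)) := by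
    intro z
    rw [_root_.sub_apply, _root_.sub_apply, Jm_apply, hin, trC_apply, Finset.smul_sum,
      Finset.sum_sub_distrib]
    congr 1
    · conv_lhs => rw [hexp z]
      rw [map_sum, _root_.sum_apply]
      refine Finset.sum_congr rfl fun i _ => ?_
      rw [map_smul, _root_.smul_apply, hψd, hsym]
    · refine Finset.sum_congr rfl fun i _ => ?_
      rw [hψd]
  simp only [hptw]
  have hcsd : ∀ a : F, HasCompactSupport (fun y => fderiv ℝ ζ y a) := fun a =>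
    (hcs.fderiv (𝕜 := ℝ)).comp_left (g := fun L : F →L[ℝ] ℝ => L a) rfl
  have hζ1 : ContDiff ℝ (∞ + 1) ζ := by simpa using hζ
  have hζ2 : ContDiff ℝ ∞ (fderiv ℝ ζ) := hζ1.fderiv_right (m := ∞) le_rfl
  have hiψ : ∀ a c d : F, Integrable (fun z => fderiv ℝ ζ z c •
      fderiv ℝ (fun y => fderiv ℝ u y a) z d) := by
    intro a c d
    have h3 : ContDiff ℝ (∞ + 1) (fun y => fderiv ℝ u y a) := by simpa using hψc a
    have h4 : ContDiff ℝ ∞ (fderiv ℝ (fun y => fderiv ℝ u y a)) := h3.fderiv_right (m := ∞) le_rfl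
    have c1 : Continuous fun z => fderiv ℝ ζ z c := (hζ2.clm_apply contDiff_const).continuous
    have c2 : Continuous fun z => fderiv ℝ (fun y => fderiv ℝ u y a) z d :=
      (h4.clm_apply contDiff_const).continuous
    exact (c1.smul c2).integrable_of_hasCompactSupport (hcsd c).smul_right
  rw [integral_finsetSum (μ := (volume : Measure F)) (Finset.univ : Finset ι)
    (f := fun i z => fderiv ℝ ζ z (e i) • fderiv ℝ (fun y => fderiv ℝ u y (e i)) z b
        - fderiv ℝ ζ z b • fderiv ℝ (fun y => fderiv ℝ u y (e i)) z (e i))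
    (fun i _ => (hiψ (e i) (e i) b).sub (hiψ (e i) b (e i)))]
  refine Finset.sum_eq_zero fun i _ => ?_
  rw [integral_sub (hiψ (e i) (e i) b) (hiψ (e i) b (e i)),
    int_swap hζ hcs (hψc (e i)) (e i) b, sub_self]

end maps

end

end Crest.Agent.R234.IntReg_971
end

-- ▼ part R234/IntReg_971
section

/-!
R234, VF-INTREG (helper971): **`Leaf1_456.IntReg`**, quantitative interior regularity of the
minimal surface system.
-/

set_option autoImplicit false
set_option maxSynthPendingDepth 3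

open MeasureTheory Metric Set Filter Topology
open scoped ContDiff
open Crest.GeometryTopology.Submanifold

namespace Crest.Agent.R234.IntReg_971

noncomputable section

set_option linter.unusedSectionVars false
set_option linter.unusedVariables false

open Crest.Agent.R246.H2x622 Crest.Agent.R234.Ell1_3
open Crest.Agent.R234.Main_456 (Msys IntReg)

variable {m n : ℕ}

/-- the standard basis -/
abbrev eb (m : ℕ) : OrthonormalBasis (Fin m) ℝ (Euc m) := EuclideanSpace.basisFun (Fin m) ℝ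

lemma Bq_eq {u : Euc m → Euc n} {z : Euc m} (h : Msys u z = 0) :
    Bq (eb m) (fderiv ℝ u z) (fderiv ℝ (fderiv ℝ u) z) = trC (eb m) (fderiv ℝ (fderiv ℝ u) z) := by
  rw [Bq_apply]
  have h1 : ∑ i, fderiv ℝ (fderiv ℝ u) z (ginv (fderiv ℝ u z) (eb m i)) (eb m i) = Msys u z := by
    unfold Msys
    refine Finset.sum_congr rfl fun i _ => ?_
    have h2 : eb m i = stdVec m i := by
      simp [eb, stdVec]
    rw [h2]
  rw [h1, h, sub_zero]

/-- the gradient of a solution of the minimal surface system is a solution of the divergence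
form system. -/
theorem weak_msys {u : Euc m → Euc n} (hu : ContDiff ℝ ∞ u) {x₀ : Euc m} {ρ : ℝ}
    (h : ∀ z ∈ ball x₀ ρ, Msys u z = 0) :
    WeakDiv (fun z => fderiv ℝ (fderiv ℝ u) z -
      G0 (eb m) (fderiv ℝ u z, fderiv ℝ (fderiv ℝ u) z)) (ball x₀ ρ) := by
  intro ζ hζ hcs hts
  have h1 := weak_grad (eb m) hu hζ hcs
  rw [← h1]
  refine integral_congr_ae (Filter.Eventually.of_forall fun z => ?_)
  simp only
  by_cases hz : z ∈ tsupport ζ
  · have h2 : G0 (eb m) (fderiv ℝ u z, fderiv ℝ (fderiv ℝ u) z) =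
        Jm (Euc m) (Euc n) (trC (eb m) (fderiv ℝ (fderiv ℝ u) z)) := by
      unfold G0
      rw [Bq_eq (h z (hts hz))]
    rw [h2]
  · rw [gradient_zero_of_notMem hz, map_zero, map_zero]

theorem intReg : IntReg := by
  intro m n K hm
  obtain ⟨κF, hκF⟩ := exists_KB (F := Euc m)
  have hbet : 0 < bet (Euc m) κF (1 / 2) := bet_pos hκF (by norm_num) (by norm_num)
  obtain ⟨hQB, _⟩ := G0_small (V := Euc n) (eb m) hbet
  obtain ⟨_, δ, hδ, hsml⟩ := G0_small (V := Euc n) (eb m) (half_pos hbet)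
  obtain ⟨κ₁, hκ₁, C, hC, H⟩ := quant hκF (α := 1 / 2) (by norm_num) (by norm_num)
    (half_pos hbet).le (half_lt_self hbet) K (G0_contDiff (V := Euc n) (eb m))
    (sml0_G0 (V := Euc n) (eb m)) hQB (ρ := 1 / 2) (by norm_num) (by norm_num)
  refine ⟨min κ₁ δ, max C 1, lt_min hκ₁ hδ, ?_⟩
  intro u hu κ hκ0 hκ hb hM j hj z hz
  have hCκ : C * κ ≤ max C 1 * κ := mul_le_mul_of_nonneg_right (le_max_left _ _) hκ0
  have h1κ : κ ≤ max C 1 * κ := by
    have := mul_le_mul_of_nonneg_right (le_max_right C 1) hκ0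
    linarith
  have hsub : ball z (1 / 2) ⊆ ball (0 : Euc m) 1 := by
    intro y hy
    rw [mem_ball, dist_eq_norm] at hy
    rw [mem_ball, dist_zero_right] at hz ⊢
    calc ‖y‖ = ‖(y - z) + z‖ := by congr 1; abel
      _ ≤ ‖y - z‖ + ‖z‖ := norm_add_le _ _
      _ < 1 := by linarith
  rcases Nat.eq_zero_or_pos j with rfl | hjpos
  · exact (hb 0 (by norm_num) z (hsub (mem_ball_self (by norm_num)))).trans h1κ
  obtain ⟨i, rfl⟩ : ∃ i, j = i + 1 := ⟨j - 1, by omega⟩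
  have hu1 : ContDiff ℝ (∞ + 1) u := by simpa using hu
  have hg : ContDiff ℝ ∞ (fderiv ℝ u) := hu1.fderiv_right (m := ∞) le_rfl
  have hd1 : ∀ y ∈ ball z (1 / 2), ‖fderiv ℝ u y‖ ≤ κ := by
    intro y hy
    have := hb 1 (by norm_num) y (hsub hy)
    rwa [norm_iteratedFDeriv_one] at this
  have hd2 : ∀ y ∈ ball z (1 / 2), ‖fderiv ℝ (fderiv ℝ u) y‖ ≤ κ := by
    intro y hy
    have := hb 2 (by norm_num) y (hsub hy)
    rwa [← norm_iteratedFDeriv_fderiv, norm_iteratedFDeriv_one] at this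
  rw [← norm_iteratedFDeriv_fderiv]
  refine (H z (fderiv ℝ u) hg (weak_msys hu fun y hy => hM y (hsub hy))
    (fun y hy => hsml _ ((hd1 y hy).trans (hκ.trans (min_le_right _ _))) _) κ hκ0
    (hκ.trans (min_le_left _ _)) hd1 ?_ i (by omega)).trans hCκ
  intro y hy y' hy'
  have h1 : ‖fderiv ℝ u y - fderiv ℝ u y'‖ ≤ κ * ‖y - y'‖ :=
    (convex_ball z (1 / 2)).norm_image_sub_le_of_norm_fderiv_le
      (fun y _ => hg.differentiable (by simp) y) hd2 hy' hy
  refine h1.trans (mul_le_mul_of_nonneg_left ?_ hκ0)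
  have h2 : ‖y - y'‖ ≤ 1 := by
    rw [mem_ball, dist_eq_norm] at hy hy'
    calc ‖y - y'‖ = ‖(y - z) - (y' - z)‖ := by congr 1; abel
      _ ≤ ‖y - z‖ + ‖y' - z‖ := norm_sub_le _ _
      _ ≤ 1 := by linarith
  calc ‖y - y'‖ = ‖y - y'‖ ^ (1 : ℝ) := (Real.rpow_one _).symm
    _ ≤ ‖y - y'‖ ^ (1 / 2 : ℝ) :=
        Real.rpow_le_rpow_of_exponent_ge' (norm_nonneg _) h2 (by norm_num) (by norm_num)

end

end Crest.Agent.R234.IntReg_971
end

-- ▼ part R234/End2_395

/-!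
# Row 234, (END) graph part (helper395)

`ref_graph`: a small `C²` minimal graph over the ball of radius `34` agrees on the ball of radius `33`
with a globally smooth function with `C^K` bounds on the ball of radius `32`.
-/

set_option autoImplicit false
set_option linter.unusedSectionVars false

open MeasureTheory Set Filter Topology
open Crest.GeometryTopology.Submanifold Crest.Agent.R234.Vf_884
open Crest.Agent.R234.Main_456
open Crest.Agent.R234.Mx5_397 (msop msop_congr)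
open scoped ENNReal NNReal InnerProductSpace ContDiff

noncomputable section

namespace Crest.Agent.R234.End_395

variable {m n k : ℕ}

theorem msop_eq_Msys (u : Euc m → Euc n) (x : Euc m) : msop u x = Msys u x := by
  rw [Mx13_397.msop_eq_sum (EuclideanSpace.basisFun (Fin m) ℝ)]
  unfold Msys
  refine Finset.sum_congr rfl fun i _ => ?_
  have : (EuclideanSpace.basisFun (Fin m) ℝ) i = stdVec m i := by
    rw [EuclideanSpace.basisFun_apply]; rfl
  rw [this]

theorem Msys_congr {u v : Euc m → Euc n} {x : Euc m} (h : u =ᶠ[𝓝 x] v) : Msys u x = Msys v x := by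
  rw [← msop_eq_Msys, ← msop_eq_Msys]
  exact msop_congr h

theorem Msys_translate (a : Euc m) (u : Euc m → Euc n) (x : Euc m) :
    Msys (fun x => u (x + a)) x = Msys u (x + a) := by
  rw [← msop_eq_Msys, ← msop_eq_Msys, Mx13_397.msop_translate]

theorem Msys_scale {r : ℝ} (hr : r ≠ 0) (u : Euc m → Euc n) (x : Euc m) :
    Msys (fun x => r⁻¹ • u (r • x)) x = r • Msys u (r • x) := by
  rw [← msop_eq_Msys, ← msop_eq_Msys, Mx13_397.msop_scale hr]

/-- **graph part of `Ref`.** -/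
theorem ref_graph (m n K : ℕ) (hm : 1 ≤ m) : ∃ κ₀ C : ℝ, 0 < κ₀ ∧ 0 ≤ C ∧
    ∀ (v : Euc m → Euc n) (κ : ℝ), 0 ≤ κ → κ ≤ κ₀ → ContDiffOn ℝ 2 v (Metric.ball 0 34) →
      (∀ j ≤ 2, ∀ y ∈ Metric.ball (0 : Euc m) 34, ‖iteratedFDeriv ℝ j v y‖ ≤ κ) →
      (∀ y ∈ Metric.ball (0 : Euc m) 34, Msys v y = 0) →
      ∃ u : Euc m → Euc n, ContDiff ℝ ∞ u ∧ (∀ y ∈ Metric.ball (0 : Euc m) 33, u y = v y) ∧
        (∀ j ≤ K, ∀ y ∈ Metric.ball (0 : Euc m) 32, ‖iteratedFDeriv ℝ j u y‖ ≤ C * κ) ∧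
        ∀ y ∈ Metric.ball (0 : Euc m) 32, Msys u y = 0 := by
  obtain ⟨κ₁, C, hκ₁, H⟩ := IntReg_971.intReg m n K hm
  obtain ⟨p₀, hp₀, HP⟩ := Mx12_397.exists_smooth (Euc m) (Euc n)
  refine ⟨min κ₁ (p₀ / 2), max C 0, by positivity, le_max_right _ _, ?_⟩
  intro v κ hκ hκκ hv hb hM
  have hCD : ContDiffOn ℝ ∞ v (Metric.ball 0 34) := by
    refine HP _ v Metric.isOpen_ball hv (fun y hy => by rw [msop_eq_Msys]; exact hM y hy) ?_
    intro y hy
    have h1 := hb 1 (by norm_num) y hy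
    rw [norm_iteratedFDeriv_one] at h1
    have h2 : κ ≤ p₀ / 2 := hκκ.trans (min_le_right _ _)
    linarith
  let B : ContDiffBump (0 : Euc m) := ⟨33, 67 / 2, by norm_num, by norm_num⟩
  set u : Euc m → Euc n := fun y => B y • v y with hu
  have hzero : ∀ y, 67 / 2 ≤ ‖y‖ → B y = 0 := by
    intro y hy
    refine B.zero_of_le_dist ?_
    rw [dist_zero_right]
    exact hy
  have hone : ∀ y ∈ Metric.closedBall (0 : Euc m) 33, B y = 1 := fun y hy =>
    B.one_of_mem_closedBall hy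
  have hsm : ContDiff ℝ ∞ u := by
    rw [contDiff_iff_contDiffAt]
    intro y
    rcases lt_or_ge ‖y‖ 34 with hy | hy
    · exact B.contDiff.contDiffAt.smul (hCD.contDiffAt (Metric.isOpen_ball.mem_nhds
        (mem_ball_zero_iff.2 hy)))
    · have h3 : u =ᶠ[𝓝 y] fun _ => (0 : Euc n) := by
        have h4 : 67 / 2 < ‖y‖ := by linarith
        filter_upwards [(isOpen_lt continuous_const continuous_norm).mem_nhds h4] with z hz
        rw [hu]
        simp only
        rw [hzero z hz.le, zero_smul]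
      exact contDiffAt_const.congr_of_eventuallyEq h3
  have heq : ∀ y ∈ Metric.ball (0 : Euc m) 33, u =ᶠ[𝓝 y] v := by
    intro y hy
    filter_upwards [Metric.isOpen_ball.mem_nhds hy] with z hz
    rw [hu]
    simp only
    rw [hone z (Metric.ball_subset_closedBall hz), one_smul]
  have hit : ∀ j ≤ 2, ∀ y ∈ Metric.ball (0 : Euc m) 33, ‖iteratedFDeriv ℝ j u y‖ ≤ κ := by
    intro j hj y hy
    rw [(Filter.EventuallyEq.iteratedFDeriv ℝ (heq y hy) j).self_of_nhds]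
    exact hb j hj y (Metric.ball_subset_ball (by norm_num) hy)
  have hMu : ∀ y ∈ Metric.ball (0 : Euc m) 33, Msys u y = 0 := by
    intro y hy
    rw [Msys_congr (heq y hy)]
    exact hM y (Metric.ball_subset_ball (by norm_num) hy)
  refine ⟨u, hsm, fun y hy => (heq y hy).self_of_nhds, ?_,
    fun y hy => hMu y (Metric.ball_subset_ball (by norm_num) hy)⟩
  intro j hj y hy
  have hsub : ∀ z ∈ Metric.ball (0 : Euc m) 1, z + y ∈ Metric.ball (0 : Euc m) 33 := by
    intro z hz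
    rw [mem_ball_zero_iff] at hz hy ⊢
    have := norm_add_le z y
    linarith
  have h1 := H (fun z => u (z + y)) (hsm.comp (contDiff_id.add contDiff_const)) κ hκ
    (hκκ.trans (min_le_left _ _)) (fun i hi z hz => by
      rw [iteratedFDeriv_comp_add_right]
      exact hit i hi _ (hsub z hz)) (fun z hz => by
      rw [Msys_translate]
      exact hMu _ (hsub z hz)) j hj 0 (Metric.mem_ball_self (by norm_num))
  rw [iteratedFDeriv_comp_add_right, zero_add] at h1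
  refine h1.trans ?_
  gcongr
  exact le_max_left _ _

/-! ### shift and scale -/

/-- the reference `w` (base point `q`) seen from the centre `x` at the scale `r`:
`X₀ = π (x - q)`, `b = ρ (x - q)`. -/
def sh (r : ℝ) (w : Euc m → Euc n) (X₀ : Euc m) (b : Euc n) (y : Euc m) : Euc n :=
  r⁻¹ • (w (r • y + X₀) - b)

theorem hgt_sh {π : Euc k →L[ℝ] Euc m} {ρ : Euc k →L[ℝ] Euc n} {x q z : Euc k} {r : ℝ}
    (hr : r ≠ 0) (w : Euc m → Euc n) :
    hgt π ρ x r (sh r w (π (x - q)) (ρ (x - q))) z = ρ (z - q) - w (π (z - q)) := by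
  unfold hgt sh
  rw [smul_smul, smul_smul, mul_inv_cancel₀ hr, one_smul, one_smul, ← map_add,
    sub_add_sub_cancel]
  have : ρ (z - q) = ρ (z - x) + ρ (x - q) := by rw [← map_add, sub_add_sub_cancel]
  rw [this]
  abel


theorem Msys_sub_const (u : Euc m → Euc n) (b : Euc n) (x : Euc m) :
    Msys (fun X => u X - b) x = Msys u x := by
  unfold Msys
  have h1 : fderiv ℝ (fun X => u X - b) = fderiv ℝ u := by
    funext y
    rw [fderiv_sub_const]
  rw [h1]

theorem Msys_sh {r : ℝ} (hr : r ≠ 0) (w : Euc m → Euc n) (X₀ : Euc m) (b : Euc n) (y : Euc m) :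
    Msys (sh r w X₀ b) y = r • Msys w (r • y + X₀) := by
  have h1 := Msys_scale hr (fun X => w (X + X₀) - b) y
  rw [Msys_sub_const (fun X => w (X + X₀)), Msys_translate] at h1
  exact h1

theorem fderiv_sh {r : ℝ} (hr : r ≠ 0) (w : Euc m → Euc n) (X₀ : Euc m) (b : Euc n) :
    fderiv ℝ (sh r w X₀ b) = fun y => fderiv ℝ w (r • y + X₀) := by
  have h1 := Mx13_397.fderiv_scale1 hr (fun X => w (X + X₀) - b)
  refine h1.trans ?_
  funext y
  rw [fderiv_sub_const, fderiv_comp_add_right]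

theorem fderiv2_sh {r : ℝ} (hr : r ≠ 0) (w : Euc m → Euc n) (X₀ : Euc m) (b : Euc n) (y : Euc m) :
    fderiv ℝ (fderiv ℝ (sh r w X₀ b)) y = r • fderiv ℝ (fderiv ℝ w) (r • y + X₀) := by
  rw [fderiv_sh hr]
  have h1 := Mx13_397.fderiv_scale hr (fun X => fderiv ℝ w (X + X₀)) y
  rw [fderiv_comp_add_right] at h1
  exact h1

/-- **graph part of `Ref`**, from the block data. -/
theorem ref_graph_sh (m n K : ℕ) (hm : 1 ≤ m) : ∃ κ₀ C : ℝ, 0 < κ₀ ∧ 0 ≤ C ∧
    ∀ (w : Euc m → Euc n) (κ r R : ℝ) (X₀ : Euc m) (b : Euc n), 0 < r → 0 ≤ κ → κ ≤ κ₀ →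
      34 * r + ‖X₀‖ ≤ R → ContDiffOn ℝ 2 w (Metric.ball 0 R) →
      (∀ X ∈ Metric.ball (0 : Euc m) R, ‖fderiv ℝ w X‖ ≤ κ) →
      (∀ X ∈ Metric.ball (0 : Euc m) R, r * ‖fderiv ℝ (fderiv ℝ w) X‖ ≤ κ) →
      (∀ X ∈ Metric.ball (0 : Euc m) R, Msys w X = 0) → ‖w X₀ - b‖ ≤ κ * r →
      ∃ u : Euc m → Euc n, ContDiff ℝ ∞ u ∧
        (∀ y ∈ Metric.ball (0 : Euc m) 33, u y = sh r w X₀ b y) ∧
        (∀ j ≤ K, ∀ y ∈ Metric.ball (0 : Euc m) 32, ‖iteratedFDeriv ℝ j u y‖ ≤ C * κ) ∧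
        ∀ y ∈ Metric.ball (0 : Euc m) 32, Msys u y = 0 := by
  obtain ⟨κ₁, C, hκ₁, hC, H⟩ := ref_graph m n K hm
  refine ⟨κ₁ / 35, C * 35, by positivity, by positivity, ?_⟩
  intro w κ r R X₀ b hr hκ hκκ hR hw h1 h2 h3 h4
  have hsub : ∀ y ∈ Metric.ball (0 : Euc m) 34, r • y + X₀ ∈ Metric.ball (0 : Euc m) R := by
    intro y hy
    rw [mem_ball_zero_iff] at hy ⊢
    have h5 := norm_add_le (r • y) X₀
    rw [norm_smul, Real.norm_of_nonneg hr.le] at h5
    nlinarith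
  have hcd : ContDiffOn ℝ 2 (sh r w X₀ b) (Metric.ball 0 34) := by
    have h5 : ContDiffOn ℝ 2 (fun y => w (r • y + X₀)) (Metric.ball 0 34) :=
      hw.comp ((contDiff_id.const_smul r).add contDiff_const).contDiffOn hsub
    exact (h5.sub contDiffOn_const).const_smul r⁻¹
  have hd1 : ∀ y ∈ Metric.ball (0 : Euc m) 34, ‖fderiv ℝ (sh r w X₀ b) y‖ ≤ κ := by
    intro y hy
    rw [fderiv_sh hr.ne']
    exact h1 _ (hsub y hy)
  have h0 : ‖sh r w X₀ b 0‖ ≤ κ := by
    unfold sh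
    rw [smul_zero, zero_add, norm_smul, norm_inv, Real.norm_of_nonneg hr.le,
      inv_mul_le_iff₀ hr, mul_comm]
    exact h4
  have hz : ∀ y ∈ Metric.ball (0 : Euc m) 34, ‖sh r w X₀ b y‖ ≤ 35 * κ := by
    intro y hy
    have h5 := (convex_ball (0 : Euc m) 34).norm_image_sub_le_of_norm_fderiv_le
      (fun z hz => ((hcd.contDiffAt (Metric.isOpen_ball.mem_nhds hz)).differentiableAt
        (by norm_num))) hd1 (Metric.mem_ball_self (by norm_num : (0:ℝ) < 34)) hy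
    rw [sub_zero] at h5
    have h6 := norm_le_norm_add_norm_sub' (sh r w X₀ b y) (sh r w X₀ b 0)
    rw [mem_ball_zero_iff] at hy
    nlinarith [norm_nonneg y]
  obtain ⟨u, g1, g2, g3, g4⟩ := H (sh r w X₀ b) (35 * κ) (by positivity) (by
    rw [le_div_iff₀ (by norm_num)] at hκκ; linarith) hcd (fun j hj y hy => by
      interval_cases j
      · rw [norm_iteratedFDeriv_zero]; exact hz y hy
      · rw [norm_iteratedFDeriv_one]
        exact (hd1 y hy).trans (by linarith)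
      · rw [← norm_iteratedFDeriv_fderiv, norm_iteratedFDeriv_one, fderiv2_sh hr.ne', norm_smul,
          Real.norm_of_nonneg hr.le]
        exact (h2 _ (hsub y hy)).trans (by linarith)) (fun y hy => by
      rw [Msys_sh hr.ne', h3 _ (hsub y hy), smul_zero])
  refine ⟨u, g1, g2, fun j hj y hy => (g3 j hj y hy).trans (le_of_eq (by ring)), g4⟩

end Crest.Agent.R234.End_395
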