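import Crest.Agent.R234.Vf6_884
import Crest.Agent.R234.Main2_456

-- ▼ part R234/Top1_395
section

/-!
Row 234 (helper395), file 1 of VF-TOP: the exact scaling identity of the planar excess
`ρ^(-m-2) ∫_{B_ρ(z)} ‖A (x - z)‖² dV` for a stationary varifold (degree-two homogeneous analogue of
the monotonicity identity of helper884, same proof).
-/

set_option autoImplicit false

open MeasureTheory Crest.GeometryTopology.Submanifold Filter Topology
open scoped ENNReal InnerProductSpace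

noncomputable section

namespace Crest.Agent.R234.Top_395

open Crest.Agent.R234.Vf_884

variable {m k : ℕ} {U : Set (Euc k)} {V : Measure (Euc k × L k)}

/-- the algebra of the three zones, with exponent `N` independent of `m`. -/
theorem zones (N : ℕ) {z : Euc k} {p : Euc k × L k} (hp : p.2 ∈ G m k) {σ ρ : ℝ} (hσ : 0 < σ)
    (hσρ : σ < ρ) :
    (N / 2 : ℝ) * (∫ u in (‖p.1 - z‖ ^ 2)..(ρ ^ 2),
        (Set.Ioo (σ ^ 2) (ρ ^ 2)).indicator (cc N (σ ^ 2)) u)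
      - (Set.Ioo (σ ^ 2) (ρ ^ 2)).indicator (cc N (σ ^ 2)) (‖p.1 - z‖ ^ 2) *
        ‖p.2 (p.1 - z)‖ ^ 2 =
    (Prod.fst ⁻¹' (Metric.ball z ρ \ Metric.closedBall z σ)).indicator (perpQ N z) p
      + (σ ^ N)⁻¹ * (Prod.fst ⁻¹' (Metric.closedBall z σ)).indicator (fun _ => (1:ℝ)) p
      - (ρ ^ N)⁻¹ * (Prod.fst ⁻¹' (Metric.ball z ρ)).indicator (fun _ => (1:ℝ)) p := by
  have hρ : 0 < ρ := hσ.trans hσρ
  have hab : σ ^ 2 < ρ ^ 2 := by gcongr
  rw [inner_eq N (by positivity) hab]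
  have hsσ : √(σ ^ 2) = σ := Real.sqrt_sq hσ.le
  have hsρ : √(ρ ^ 2) = ρ := Real.sqrt_sq hρ.le
  have hsr : √(‖p.1 - z‖ ^ 2) = ‖p.1 - z‖ := Real.sqrt_sq (norm_nonneg _)
  rcases le_or_gt ρ ‖p.1 - z‖ with h1 | h1
  · have h2 : ¬ ‖p.1 - z‖ ^ 2 < ρ ^ 2 := by
      rw [not_lt]; gcongr
    rw [if_neg h2, Set.indicator_of_notMem (fun h => h2 h.2)]
    have h3 : p.1 ∉ Metric.ball z ρ := by
      rw [mem_ball_iff_norm]; exact not_lt.2 h1
    have h4 : p.1 ∉ Metric.closedBall z σ := by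
      rw [mem_closedBall_iff_norm]; exact not_le.2 (hσρ.trans_le h1)
    rw [Set.indicator_of_notMem (fun h => h3 h.1),
      Set.indicator_of_notMem (show p ∉ Prod.fst ⁻¹' Metric.closedBall z σ from h4),
      Set.indicator_of_notMem (show p ∉ Prod.fst ⁻¹' Metric.ball z ρ from h3)]
    simp
  · have h2 : ‖p.1 - z‖ ^ 2 < ρ ^ 2 := by gcongr
    have h3 : p.1 ∈ Metric.ball z ρ := by rwa [mem_ball_iff_norm]
    rw [if_pos h2, hsρ, Set.indicator_of_mem (s := Prod.fst ⁻¹' Metric.ball z ρ)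
      (show p ∈ Prod.fst ⁻¹' Metric.ball z ρ from h3)]
    rcases le_or_gt ‖p.1 - z‖ σ with h4 | h4
    · have h5 : p.1 ∈ Metric.closedBall z σ := by rwa [mem_closedBall_iff_norm]
      have h6 : ‖p.1 - z‖ ^ 2 ≤ σ ^ 2 := by gcongr
      rw [max_eq_right h6, hsσ, Set.indicator_of_notMem (fun h => absurd h.1 (not_lt.2 h6)),
        Set.indicator_of_notMem (fun h => h.2 h5),
        Set.indicator_of_mem (show p ∈ Prod.fst ⁻¹' Metric.closedBall z σ from h5)]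
      ring
    · have h5 : p.1 ∉ Metric.closedBall z σ := by
        rw [mem_closedBall_iff_norm]; exact not_le.2 h4
      have h6 : σ ^ 2 < ‖p.1 - z‖ ^ 2 := by gcongr
      rw [max_eq_left h6.le, hsr, Set.indicator_of_mem
          (show ‖p.1 - z‖ ^ 2 ∈ Set.Ioo (σ ^ 2) (ρ ^ 2) from ⟨h6, h2⟩),
        Set.indicator_of_mem (show p ∈ Prod.fst ⁻¹' (Metric.ball z ρ \ Metric.closedBall z σ) from
          ⟨h3, h5⟩),
        Set.indicator_of_notMem (show p ∉ Prod.fst ⁻¹' Metric.closedBall z σ from h5)]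
      unfold cc perpQ
      rw [max_eq_left h6.le, hsr]
      have h7 : 0 < ‖p.1 - z‖ := hσ.trans h4
      have h8 := G_norm_sq_add hp (p.1 - z)
      have h9 : ‖p.1 - z - p.2 (p.1 - z)‖ ^ 2 = ‖p.1 - z‖ ^ 2 - ‖p.2 (p.1 - z)‖ ^ 2 := by
        linarith
      rw [h9, pow_add]
      field_simp
      ring

variable {F : Type*} [NormedAddCommGroup F] [InnerProductSpace ℝ F]

theorem hasFDerivAt_quad (A : Euc k →L[ℝ] F) (z x : Euc k) :
    HasFDerivAt (fun y => ‖A (y - z)‖ ^ 2) (2 • (innerSL ℝ (A (x - z))).comp A) x := by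
  have h1 : HasFDerivAt (fun y : Euc k => A (y - z)) A x := by
    have h2 := (A.hasFDerivAt (x := x - z)).comp x ((hasFDerivAt_id x).sub_const z)
    rw [ContinuousLinearMap.comp_id] at h2
    exact h2
  exact h1.norm_sq

theorem fderiv_quad (A : Euc k →L[ℝ] F) (z x v : Euc k) :
    fderiv ℝ (fun y => ‖A (y - z)‖ ^ 2) x v = 2 * ⟪A (x - z), A v⟫_ℝ := by
  rw [(hasFDerivAt_quad A z x).fderiv]
  simp [inner_sub_left]

theorem contDiff_quad (A : Euc k →L[ℝ] F) (z : Euc k) :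
    ContDiff ℝ 1 (fun y : Euc k => ‖A (y - z)‖ ^ 2) := by
  refine ContDiff.norm_sq ℝ ?_
  exact A.contDiff.comp (contDiff_id.sub contDiff_const)

/-- **the scaling identity of the planar excess.** -/
theorem quad_identity (hV : Stat m k U V) (A : Euc k →L[ℝ] F) {z : Euc k} {σ ρ : ℝ} (hσ : 0 < σ)
    (hσρ : σ < ρ) (hU : Metric.closedBall z ρ ⊆ U) :
    (ρ ^ (m + 2))⁻¹ * (∫ p in Prod.fst ⁻¹' (Metric.ball z ρ), ‖A (p.1 - z)‖ ^ 2 ∂V)
      - (σ ^ (m + 2))⁻¹ * (∫ p in Prod.fst ⁻¹' (Metric.closedBall z σ), ‖A (p.1 - z)‖ ^ 2 ∂V) =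
    (∫ p in Prod.fst ⁻¹' (Metric.ball z ρ \ Metric.closedBall z σ),
        ‖A (p.1 - z)‖ ^ 2 * perpQ (m + 2) z p ∂V)
      - (2 / (m + 2 : ℝ)) * ∫ p in Prod.fst ⁻¹' (Metric.ball z ρ),
        (((max ‖p.1 - z‖ σ) ^ (m + 2))⁻¹ - (ρ ^ (m + 2))⁻¹) *
          ⟪A (p.1 - z), A ((p.1 - z) - p.2 (p.1 - z))⟫_ℝ ∂V := by
  set h : Euc k → ℝ := fun x => ‖A (x - z)‖ ^ 2 with hh0
  have hh : ContDiff ℝ 1 h := contDiff_quad A z
  have hρ : 0 < ρ := hσ.trans hσρ
  obtain ⟨C, hC⟩ := (isCompact_closedBall z ρ).exists_bound_of_continuousOn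
    hh.continuous.continuousOn
  have key := radialh_ind hV (continuous_cc (m + 2) (by positivity : 0 < σ ^ 2)) hh (a := σ ^ 2)
    hρ.le hU
  set A' : Euc k × L k → ℝ := (Prod.fst ⁻¹' (Metric.ball z ρ \ Metric.closedBall z σ)).indicator
    (fun p => h p.1 * perpQ (m + 2) z p) with hA
  set B : Euc k × L k → ℝ := (Prod.fst ⁻¹' (Metric.closedBall z σ)).indicator
    (fun p => h p.1) with hB
  set D : Euc k × L k → ℝ := (Prod.fst ⁻¹' (Metric.ball z ρ)).indicator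
    (fun p => h p.1) with hD
  set E : Euc k × L k → ℝ := (Prod.fst ⁻¹' (Metric.ball z ρ)).indicator
    (fun p => (((max ‖p.1 - z‖ σ) ^ (m + 2))⁻¹ - (ρ ^ (m + 2))⁻¹) *
      ⟪A (p.1 - z), A ((p.1 - z) - p.2 (p.1 - z))⟫_ℝ) with hE
  have hmh : Measurable fun p : Euc k × L k => h p.1 := hh.continuous.measurable.comp measurable_fst
  have hmE : Continuous fun p : Euc k × L k =>
      (((max ‖p.1 - z‖ σ) ^ (m + 2))⁻¹ - (ρ ^ (m + 2))⁻¹) *
        ⟪A (p.1 - z), A ((p.1 - z) - p.2 (p.1 - z))⟫_ℝ := by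
    refine Continuous.mul ?_ ?_
    · refine Continuous.sub (Continuous.inv₀ (by fun_prop) fun p => ?_) continuous_const
      have : 0 < max ‖p.1 - z‖ σ := lt_max_of_lt_right hσ
      positivity
    · have h1 : Continuous fun p : Euc k × L k => p.1 - z := continuous_fst.sub continuous_const
      have h2 : Continuous fun p : Euc k × L k => p.2 (p.1 - z) := continuous_snd.clm_apply h1
      exact (A.continuous.comp h1).inner (A.continuous.comp (h1.sub h2))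
  have hann : ∀ p : Euc k × L k, p.1 ∈ Metric.ball z ρ \ Metric.closedBall z σ → p.2 ∈ G m k →
      |h p.1 * perpQ (m + 2) z p| ≤ C * (σ ^ (m + 2))⁻¹ := by
    intro p hp hp2
    have h1 : ‖h p.1‖ ≤ C := hC _ (Metric.ball_subset_closedBall hp.1)
    have h3 : σ < ‖p.1 - z‖ := by
      have := hp.2
      rwa [mem_closedBall_iff_norm, not_le] at this
    have h2 : perpQ (m + 2) z p ≤ (σ ^ (m + 2))⁻¹ := by
      unfold perpQ
      have h4 := G_norm_sq_add hp2 (p.1 - z)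
      have h5 : ‖(p.1 - z) - p.2 (p.1 - z)‖ ^ 2 ≤ ‖p.1 - z‖ ^ 2 := by
        nlinarith [sq_nonneg ‖p.2 (p.1 - z)‖]
      have h6 : 0 < ‖p.1 - z‖ := hσ.trans h3
      have e1 : ‖p.1 - z‖ ^ (m + 2 + 2) = ‖p.1 - z‖ ^ (m + 2) * ‖p.1 - z‖ ^ 2 := by ring
      rw [e1, ← div_div, div_right_comm]
      calc ‖(p.1 - z) - p.2 (p.1 - z)‖ ^ 2 / ‖p.1 - z‖ ^ 2 / ‖p.1 - z‖ ^ (m + 2)
          ≤ 1 / ‖p.1 - z‖ ^ (m + 2) := by
            gcongr
            exact (div_le_one (by positivity)).2 h5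
        _ ≤ 1 / σ ^ (m + 2) := by gcongr
        _ = _ := one_div _
    rw [abs_mul, abs_of_nonneg (perpQ_nonneg (m + 2) z p)]
    exact mul_le_mul h1 h2 (perpQ_nonneg (m + 2) z p) ((norm_nonneg _).trans h1)
  have iA : Integrable A' V := integrable_ball_ind hV hU (hmh.mul (measurable_perpQ (m + 2) z))
      (measurableSet_ball.diff measurableSet_closedBall)
      (Set.sdiff_subset.trans Metric.ball_subset_closedBall) hann
  have iB : Integrable B V := integrable_ball_ind hV hU hmh measurableSet_closedBall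
    (Metric.closedBall_subset_closedBall hσρ.le) (C := C) fun p hp _ =>
      hC _ (Metric.closedBall_subset_closedBall hσρ.le hp)
  have iD : Integrable D V := integrable_ball_ind hV hU hmh measurableSet_ball
    Metric.ball_subset_closedBall (C := C) fun p hp _ =>
      hC _ (Metric.ball_subset_closedBall hp)
  have iE : Integrable E V := by
    refine integrable_ball_ind hV hU hmE.measurable measurableSet_ball
      Metric.ball_subset_closedBall
      (C := (σ ^ (m + 2))⁻¹ * ((‖A‖ * ρ) * (‖A‖ * ρ))) ?_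
    intro p hp hp2
    rw [mem_ball_iff_norm] at hp
    have h0 : 0 < max ‖p.1 - z‖ σ := lt_max_of_lt_right hσ
    have h3 : max ‖p.1 - z‖ σ ≤ ρ := max_le hp.le hσρ.le
    have h4 : (ρ ^ (m + 2))⁻¹ ≤ ((max ‖p.1 - z‖ σ) ^ (m + 2))⁻¹ := by gcongr
    have h5 : ((max ‖p.1 - z‖ σ) ^ (m + 2))⁻¹ ≤ (σ ^ (m + 2))⁻¹ := by
      gcongr
      exact le_max_right _ _
    have h6 : |((max ‖p.1 - z‖ σ) ^ (m + 2))⁻¹ - (ρ ^ (m + 2))⁻¹| ≤ (σ ^ (m + 2))⁻¹ := by
      rw [abs_of_nonneg (by linarith)]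
      have : 0 ≤ (ρ ^ (m + 2))⁻¹ := by positivity
      linarith
    have h8 := G_norm_sq_add hp2 (p.1 - z)
    have h9 : ‖(p.1 - z) - p.2 (p.1 - z)‖ ≤ ρ := by
      refine le_trans ?_ hp.le
      have : ‖(p.1 - z) - p.2 (p.1 - z)‖ ^ 2 ≤ ‖p.1 - z‖ ^ 2 := by
        nlinarith [sq_nonneg ‖p.2 (p.1 - z)‖]
      exact le_of_sq_le_sq this (norm_nonneg _)
    rw [abs_mul]
    refine mul_le_mul h6 ?_ (abs_nonneg _) (by positivity)
    refine (abs_real_inner_le_norm _ _).trans ?_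
    refine mul_le_mul ?_ ?_ (norm_nonneg _) (by positivity)
    · exact (A.le_opNorm _).trans (by gcongr)
    · exact (A.le_opNorm _).trans (by gcongr)
  have hm2 : ((m + 2 : ℕ) : ℝ) = (m : ℝ) + 2 := by push_cast; ring
  have hid : (fun p : Euc k × L k => h p.1 * ((m / 2 : ℝ) *
        (∫ u in (‖p.1 - z‖ ^ 2)..(ρ ^ 2),
          (Set.Ioo (σ ^ 2) (ρ ^ 2)).indicator (cc (m + 2) (σ ^ 2)) u)
      - (Set.Ioo (σ ^ 2) (ρ ^ 2)).indicator (cc (m + 2) (σ ^ 2)) (‖p.1 - z‖ ^ 2) *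
        ‖p.2 (p.1 - z)‖ ^ 2)
      + (1 / 2 : ℝ) * (∫ u in (‖p.1 - z‖ ^ 2)..(ρ ^ 2),
          (Set.Ioo (σ ^ 2) (ρ ^ 2)).indicator (cc (m + 2) (σ ^ 2)) u) *
        fderiv ℝ h p.1 (p.2 (p.1 - z)))
      =ᵐ[V] fun p => ((A' p + (σ ^ (m + 2))⁻¹ * B p) - (ρ ^ (m + 2))⁻¹ * D p)
        - (2 / (m + 2 : ℝ)) * E p := by
    filter_upwards [hV.conc] with p hp
    have hz := zones (m + 2) hp hσ hσρ (z := z)
    set J : ℝ := ∫ u in (‖p.1 - z‖ ^ 2)..(ρ ^ 2),
          (Set.Ioo (σ ^ 2) (ρ ^ 2)).indicator (cc (m + 2) (σ ^ 2)) u with hJ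
    have hi := inner_eq (m + 2) (t := ‖p.1 - z‖ ^ 2) (by positivity : 0 < σ ^ 2)
      (by gcongr : σ ^ 2 < ρ ^ 2)
    rw [← hJ, hm2] at hi
    rw [hm2] at hz
    have hmx : √(max (‖p.1 - z‖ ^ 2) (σ ^ 2)) = max ‖p.1 - z‖ σ := by
      rcases le_total ‖p.1 - z‖ σ with h | h
      · rw [max_eq_right h, max_eq_right (by gcongr), Real.sqrt_sq hσ.le]
      · rw [max_eq_left h, max_eq_left (by gcongr), Real.sqrt_sq (norm_nonneg _)]
    rw [hmx, Real.sqrt_sq hρ.le] at hi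
    have hder : fderiv ℝ h p.1 (p.2 (p.1 - z)) =
        2 * h p.1 - 2 * ⟪A (p.1 - z), A ((p.1 - z) - p.2 (p.1 - z))⟫_ℝ := by
      have e0 : A ((p.1 - z) - p.2 (p.1 - z)) = A (p.1 - z) - A (p.2 (p.1 - z)) := map_sub _ _ _
      rw [hh0, fderiv_quad, e0, inner_sub_right, real_inner_self_eq_norm_sq]
      ring
    rw [hder]
    have e1 : h p.1 * (Prod.fst ⁻¹' (Metric.ball z ρ \ Metric.closedBall z σ)).indicator
        (perpQ (m + 2) z) p = A' p := by
      simp only [hA, Set.indicator]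
      split_ifs <;> simp
    have e2 : h p.1 * ((σ ^ (m + 2))⁻¹ *
        (Prod.fst ⁻¹' (Metric.closedBall z σ)).indicator (fun _ => (1:ℝ)) p)
        = (σ ^ (m + 2))⁻¹ * B p := by
      simp only [hB, Set.indicator]
      split_ifs <;> ring
    have e3 : h p.1 * ((ρ ^ (m + 2))⁻¹ *
        (Prod.fst ⁻¹' (Metric.ball z ρ)).indicator (fun _ => (1:ℝ)) p)
        = (ρ ^ (m + 2))⁻¹ * D p := by
      simp only [hD, Set.indicator]
      split_ifs <;> ring
    have e4 : J * ⟪A (p.1 - z), A ((p.1 - z) - p.2 (p.1 - z))⟫_ℝ = (2 / (m + 2 : ℝ)) * E p := by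
      have hiff : ‖p.1 - z‖ ^ 2 < ρ ^ 2 ↔ p ∈ Prod.fst ⁻¹' (Metric.ball z ρ) := by
        rw [Set.mem_preimage, mem_ball_iff_norm]
        exact pow_lt_pow_iff_left₀ (norm_nonneg _) hρ.le two_ne_zero
      have hJ2 : J = (2 / (m + 2 : ℝ)) * (if ‖p.1 - z‖ ^ 2 < ρ ^ 2 then
          ((max ‖p.1 - z‖ σ) ^ (m + 2))⁻¹ - (ρ ^ (m + 2))⁻¹ else 0) := by
        rw [← hi]
        field_simp
      rw [hJ2, mul_assoc]
      congr 1
      simp only [hE, Set.indicator]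
      by_cases hc : ‖p.1 - z‖ ^ 2 < ρ ^ 2
      · rw [if_pos hc, if_pos (hiff.1 hc)]
      · rw [if_neg hc, if_neg (fun h => hc (hiff.2 h)), zero_mul]
    rw [← e1, ← e2, ← e3, ← e4]
    have h5 := congrArg (fun t => h p.1 * t) hz
    simp only at h5
    linear_combination h5
  have j1 : Integrable (fun p => (σ ^ (m + 2))⁻¹ * B p) V := iB.const_mul _
  have j2 : Integrable (fun p => (ρ ^ (m + 2))⁻¹ * D p) V := iD.const_mul _
  have j3 : Integrable (fun p => (2 / (m + 2 : ℝ)) * E p) V := iE.const_mul _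
  have j4 : Integrable (fun p => A' p + (σ ^ (m + 2))⁻¹ * B p) V := iA.add j1
  have j5 : Integrable (fun p => A' p + (σ ^ (m + 2))⁻¹ * B p - (ρ ^ (m + 2))⁻¹ * D p) V :=
    j4.sub j2
  rw [integral_congr_ae hid, integral_sub j5 j3, integral_sub j4 j2,
    integral_add iA j1, integral_const_mul, integral_const_mul, integral_const_mul] at key
  rw [← integral_indicator (measurable_fst measurableSet_ball),
    ← integral_indicator (measurable_fst measurableSet_closedBall),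
    ← integral_indicator (measurable_fst (measurableSet_ball.diff measurableSet_closedBall)),
    ← integral_indicator (measurable_fst measurableSet_ball)]
  linarith

end Crest.Agent.R234.Top_395
end
end

-- ▼ part R234/Top2_395
section

/-!
Row 234 (helper395), file 2 of VF-TOP: small drop of the mass ratio at `z` ==> the planar excess with
respect to any plane is almost the same at comparable scales.
-/

set_option autoImplicit false

open MeasureTheory Crest.GeometryTopology.Submanifold Filter Topology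
open scoped ENNReal InnerProductSpace

noncomputable section

namespace Crest.Agent.R234.Top_395

open Crest.Agent.R234.Vf_884

variable {m k : ℕ} {U : Set (Euc k)} {V : Measure (Euc k × L k)}

theorem measS {S : Set (Euc k)} (hS : MeasurableSet S) :
    MeasurableSet ((Prod.fst : Euc k × L k → Euc k) ⁻¹' S) := measurable_fst hS

theorem fin_ball (hV : Stat m k U V) {z : Euc k} {ρ : ℝ} (hU : Metric.closedBall z ρ ⊆ U)
    {S : Set (Euc k)} (hS : S ⊆ Metric.closedBall z ρ) :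
    V ((Prod.fst : Euc k × L k → Euc k) ⁻¹' S) < ⊤ := by
  refine (measure_mono ?_).trans_lt (hV.fin _ (isCompact_closedBall z ρ) hU)
  intro p hp
  exact ⟨hS hp, trivial⟩

/-- integrability of bounded functions over pieces of a ball. -/
theorem intOn (hV : Stat m k U V) {z : Euc k} {ρ : ℝ} (hU : Metric.closedBall z ρ ⊆ U)
    {S : Set (Euc k)} (hS : MeasurableSet S) (hSρ : S ⊆ Metric.closedBall z ρ)
    {f : Euc k × L k → ℝ}
    (hf : AEStronglyMeasurable f (V.restrict ((Prod.fst : Euc k × L k → Euc k) ⁻¹' S))) {C : ℝ}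
    (hC : ∀ p : Euc k × L k, p.1 ∈ S → p.2 ∈ G m k → ‖f p‖ ≤ C) :
    IntegrableOn f ((Prod.fst : Euc k × L k → Euc k) ⁻¹' S) V := by
  refine IntegrableOn.of_bound (fin_ball hV hU hSρ) hf C ?_
  filter_upwards [ae_restrict_mem (measS hS), ae_restrict_of_ae hV.conc] with p hp hp2
  exact hC p hp hp2

/-- squared length of the normal part of `x - z`. -/
def pp (z : Euc k) (p : Euc k × L k) : ℝ := ‖(p.1 - z) - p.2 (p.1 - z)‖ ^ 2

theorem pp_nonneg (z : Euc k) (p : Euc k × L k) : 0 ≤ pp z p := by unfold pp; positivity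

theorem continuous_pp (z : Euc k) : Continuous (pp (k := k) z) := by
  unfold pp
  have h1 : Continuous fun p : Euc k × L k => p.1 - z := continuous_fst.sub continuous_const
  exact (h1.sub (continuous_snd.clm_apply h1)).norm.pow 2

theorem pp_le {z : Euc k} {p : Euc k × L k} (hp : p.2 ∈ G m k) : pp z p ≤ ‖p.1 - z‖ ^ 2 := by
  unfold pp
  have := G_norm_sq_add hp (p.1 - z)
  nlinarith [sq_nonneg ‖p.2 (p.1 - z)‖]

theorem perpQ_eq (N : ℕ) (z : Euc k) (p : Euc k × L k) : perpQ N z p = pp z p / ‖p.1 - z‖ ^ (N + 2) :=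
  rfl

/-- the drop controls the annuli. -/
theorem ann_le (hV : Stat m k U V) (hm : 1 ≤ m) {z : Euc k} {σ ρ θ g : ℝ} (hσ : 0 < σ)
    (hσρ : σ < ρ) (hU : Metric.closedBall z ρ ⊆ U)
    (hθ : θ * σ ^ m ≤ (mass V).real (Metric.closedBall z σ))
    (hM : (mass V).real (Metric.ball z ρ) ≤ (θ + g) * ρ ^ m) :
    ∫ p in Prod.fst ⁻¹' (Metric.ball z ρ \ Metric.closedBall z σ), perpQ m z p ∂V ≤ g := by
  rw [← mono_identity hV hm hσ hσρ hU]
  have hρ := hσ.trans hσρ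
  have h1 : (ρ ^ m)⁻¹ * (mass V).real (Metric.ball z ρ) ≤ θ + g := by
    rw [inv_mul_le_iff₀ (by positivity)]
    linarith [mul_comm (θ + g) (ρ ^ m)]
  have h2 : θ ≤ (σ ^ m)⁻¹ * (mass V).real (Metric.closedBall z σ) := by
    rw [le_inv_mul_iff₀ (by positivity)]
    linarith [mul_comm θ (σ ^ m)]
  linarith

/-- the normal part is small on the whole ball. -/
theorem pp_ball_le (hV : Stat m k U V) (hm : 1 ≤ m) {z : Euc k} {σ ρ θ g : ℝ} (hσ : 0 < σ)
    (hσρ : σ < ρ) (hU : Metric.closedBall z ρ ⊆ U)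
    (hθ : ∀ r ∈ Set.Ioo 0 ρ, θ * r ^ m ≤ (mass V).real (Metric.closedBall z r))
    (hM : (mass V).real (Metric.ball z ρ) ≤ (θ + g) * ρ ^ m) :
    ∫ p in Prod.fst ⁻¹' (Metric.closedBall z σ), pp z p ∂V ≤ σ ^ (m + 2) * g := by
  have hρ := hσ.trans hσρ
  set M : ℝ := V.real ((Prod.fst : Euc k × L k → Euc k) ⁻¹' (Metric.closedBall z ρ)) with hMdef
  have key : ∀ τ ∈ Set.Ioo 0 σ, ∫ p in Prod.fst ⁻¹' (Metric.closedBall z σ), pp z p ∂V
      ≤ τ ^ 2 * M + σ ^ (m + 2) * g := by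
    intro τ hτ
    have hsub : Metric.closedBall z τ ⊆ Metric.closedBall z σ :=
      Metric.closedBall_subset_closedBall hτ.2.le
    have hsρ : Metric.closedBall z σ ⊆ Metric.closedBall z ρ :=
      Metric.closedBall_subset_closedBall hσρ.le
    have e1 : (Prod.fst : Euc k × L k → Euc k) ⁻¹' (Metric.closedBall z σ) =
        (Prod.fst ⁻¹' (Metric.closedBall z τ)) ∪
          (Prod.fst ⁻¹' (Metric.closedBall z σ \ Metric.closedBall z τ)) := by
      rw [← Set.preimage_union, Set.union_sdiff_cancel hsub]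
    have hdis : Disjoint ((Prod.fst : Euc k × L k → Euc k) ⁻¹' (Metric.closedBall z τ))
        (Prod.fst ⁻¹' (Metric.closedBall z σ \ Metric.closedBall z τ)) :=
      Disjoint.preimage _ Set.disjoint_sdiff_right
    have hb : ∀ (r : ℝ), ∀ p : Euc k × L k, p.1 ∈ Metric.closedBall z r → p.2 ∈ G m k →
        ‖pp z p‖ ≤ r ^ 2 := by
      intro r p hp hp2
      rw [Real.norm_of_nonneg (pp_nonneg z p)]
      rw [mem_closedBall_iff_norm] at hp
      exact (pp_le hp2).trans (by gcongr)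
    have i1 : IntegrableOn (pp z) (Prod.fst ⁻¹' (Metric.closedBall z τ)) V :=
      intOn hV hU measurableSet_closedBall (hsub.trans hsρ)
        (continuous_pp z).aestronglyMeasurable (hb τ)
    have i2 : IntegrableOn (pp z) (Prod.fst ⁻¹' (Metric.closedBall z σ \ Metric.closedBall z τ))
        V :=
      intOn hV hU (measurableSet_closedBall.diff measurableSet_closedBall)
        (Set.sdiff_subset.trans hsρ) (continuous_pp z).aestronglyMeasurable
        fun p hp hp2 => hb σ p hp.1 hp2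
    rw [e1, setIntegral_union hdis
      (measS (measurableSet_closedBall.diff measurableSet_closedBall)) i1 i2]
    have b1 : ∫ p in Prod.fst ⁻¹' (Metric.closedBall z τ), pp z p ∂V ≤ τ ^ 2 * M := by
      have h1 : ∫ p in Prod.fst ⁻¹' (Metric.closedBall z τ), pp z p ∂V ≤
          ∫ p in (Prod.fst : Euc k × L k → Euc k) ⁻¹' (Metric.closedBall z τ), τ ^ 2 ∂V := by
        refine setIntegral_mono_on_ae i1 (integrableOn_const
          (fin_ball hV hU (hsub.trans hsρ)).ne) (measS measurableSet_closedBall) ?_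
        filter_upwards [hV.conc] with p hp hp2
        exact (le_abs_self _).trans (hb τ p hp2 hp)
      refine h1.trans ?_
      rw [setIntegral_const, smul_eq_mul, mul_comm]
      refine mul_le_mul_of_nonneg_left ?_ (sq_nonneg _)
      exact measureReal_mono (Set.preimage_mono (hsub.trans hsρ))
        (fin_ball hV hU subset_rfl).ne
    have i3 : IntegrableOn (perpQ m z) (Prod.fst ⁻¹' (Metric.ball z ρ \ Metric.closedBall z τ))
        V := by
      refine intOn hV hU (measurableSet_ball.diff measurableSet_closedBall)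
        (Set.sdiff_subset.trans Metric.ball_subset_closedBall)
        (measurable_perpQ m z).aestronglyMeasurable (C := (τ ^ m)⁻¹) fun p hp hp2 => ?_
      rw [Real.norm_of_nonneg (perpQ_nonneg m z p)]
      refine perpQ_le m hp2 hτ.1 ?_
      have := hp.2
      rw [mem_closedBall_iff_norm, not_le] at this
      exact this.le
    have hss : (Prod.fst : Euc k × L k → Euc k) ⁻¹' (Metric.closedBall z σ \ Metric.closedBall z τ)
        ⊆ Prod.fst ⁻¹' (Metric.ball z ρ \ Metric.closedBall z τ) := by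
      refine Set.preimage_mono (Set.sdiff_subset_sdiff_left ?_)
      exact Metric.closedBall_subset_ball hσρ
    have b2 : ∫ p in Prod.fst ⁻¹' (Metric.closedBall z σ \ Metric.closedBall z τ), pp z p ∂V
        ≤ σ ^ (m + 2) * g := by
      calc ∫ p in Prod.fst ⁻¹' (Metric.closedBall z σ \ Metric.closedBall z τ), pp z p ∂V
          ≤ ∫ p in Prod.fst ⁻¹' (Metric.closedBall z σ \ Metric.closedBall z τ),
              σ ^ (m + 2) * perpQ m z p ∂V := by
            refine setIntegral_mono_on i2 ((i3.mono_set hss).const_mul _)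
              (measS (measurableSet_closedBall.diff measurableSet_closedBall)) ?_
            intro p hp
            have h1 : ‖p.1 - z‖ ≤ σ := mem_closedBall_iff_norm.1 hp.1
            have h2 : τ < ‖p.1 - z‖ := by
              have := hp.2
              rwa [mem_closedBall_iff_norm, not_le] at this
            have h3 : 0 < ‖p.1 - z‖ := hτ.1.trans h2
            rw [perpQ_eq]
            rw [mul_div_assoc', le_div_iff₀ (by positivity), mul_comm]
            exact mul_le_mul_of_nonneg_right (by gcongr) (pp_nonneg z p)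
        _ = σ ^ (m + 2) * ∫ p in Prod.fst ⁻¹' (Metric.closedBall z σ \ Metric.closedBall z τ),
              perpQ m z p ∂V := integral_const_mul _ _
        _ ≤ σ ^ (m + 2) * g := by
            refine mul_le_mul_of_nonneg_left ?_ (by positivity)
            refine (setIntegral_mono_set i3 (ae_of_all _ fun p => perpQ_nonneg m z p)
              (LE.le.eventuallyLE hss)).trans ?_
            exact ann_le hV hm hτ.1 (hτ.2.trans hσρ) hU
              (hθ τ ⟨hτ.1, hτ.2.trans hσρ⟩) hM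
    linarith
  have hlim : Tendsto (fun τ : ℝ => τ ^ 2 * M + σ ^ (m + 2) * g) (𝓝[>] 0)
      (𝓝 (σ ^ (m + 2) * g)) := by
    have h1 : Tendsto (fun τ : ℝ => τ ^ 2 * M + σ ^ (m + 2) * g) (𝓝 0)
        (𝓝 ((0:ℝ) ^ 2 * M + σ ^ (m + 2) * g)) := by
      exact Continuous.tendsto (by fun_prop) 0
    rw [zero_pow two_ne_zero, zero_mul, zero_add] at h1
    exact h1.mono_left nhdsWithin_le_nhds
  refine ge_of_tendsto hlim ?_
  filter_upwards [Ioo_mem_nhdsGT hσ] with τ hτ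
  exact key τ hτ

variable {F : Type*} [NormedAddCommGroup F] [InnerProductSpace ℝ F]

/-- planar excess (height with respect to the plane `ker A` through `z`), open ball. -/
def ex (m : ℕ) (V : Measure (Euc k × L k)) (A : Euc k →L[ℝ] F) (z : Euc k) (r : ℝ) : ℝ :=
  (r ^ (m + 2))⁻¹ * ∫ p in Prod.fst ⁻¹' (Metric.ball z r), ‖A (p.1 - z)‖ ^ 2 ∂V

/-- the same over the closed ball. -/
def exc (m : ℕ) (V : Measure (Euc k × L k)) (A : Euc k →L[ℝ] F) (z : Euc k) (r : ℝ) : ℝ :=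
  (r ^ (m + 2))⁻¹ * ∫ p in Prod.fst ⁻¹' (Metric.closedBall z r), ‖A (p.1 - z)‖ ^ 2 ∂V

theorem continuous_quad (A : Euc k →L[ℝ] F) (z : Euc k) :
    Continuous fun p : Euc k × L k => ‖A (p.1 - z)‖ ^ 2 :=
  (A.continuous.comp (continuous_fst.sub continuous_const)).norm.pow 2

theorem quad_le (A : Euc k →L[ℝ] F) {z x : Euc k} {r : ℝ} (hx : x ∈ Metric.closedBall z r) :
    ‖A (x - z)‖ ^ 2 ≤ ‖A‖ ^ 2 * r ^ 2 := by
  rw [mem_closedBall_iff_norm] at hx
  rw [← mul_pow]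
  have := A.le_opNorm (x - z)
  gcongr
  exact this.trans (by gcongr)

theorem ex_nonneg (A : Euc k →L[ℝ] F) (z : Euc k) {r : ℝ} (hr : 0 ≤ r) : 0 ≤ ex m V A z r :=
  mul_nonneg (by positivity) (integral_nonneg fun _ => sq_nonneg _)

theorem exc_nonneg (A : Euc k →L[ℝ] F) (z : Euc k) {r : ℝ} (hr : 0 ≤ r) : 0 ≤ exc m V A z r :=
  mul_nonneg (by positivity) (integral_nonneg fun _ => sq_nonneg _)

theorem ex_le_norm (hV : Stat m k U V) (A : Euc k →L[ℝ] F) {z : Euc k} {ρ Λ : ℝ} (hρ : 0 < ρ)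
    (hU : Metric.closedBall z ρ ⊆ U) (hM : (mass V).real (Metric.ball z ρ) ≤ Λ * ρ ^ m) :
    ex m V A z ρ ≤ ‖A‖ ^ 2 * Λ := by
  unfold ex
  rw [inv_mul_le_iff₀ (by positivity)]
  have h1 : ∫ p in Prod.fst ⁻¹' (Metric.ball z ρ), ‖A (p.1 - z)‖ ^ 2 ∂V ≤
      ∫ p in (Prod.fst : Euc k × L k → Euc k) ⁻¹' (Metric.ball z ρ), ‖A‖ ^ 2 * ρ ^ 2 ∂V := by
    refine setIntegral_mono_on ?_ (integrableOn_const
      (fin_ball hV hU Metric.ball_subset_closedBall).ne) (measS measurableSet_ball) ?_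
    · refine intOn hV hU measurableSet_ball Metric.ball_subset_closedBall
        (continuous_quad A z).aestronglyMeasurable (C := ‖A‖ ^ 2 * ρ ^ 2) fun p hp _ => ?_
      rw [Real.norm_of_nonneg (sq_nonneg _)]
      exact quad_le A (Metric.ball_subset_closedBall hp)
    · intro p hp
      exact quad_le A (Metric.ball_subset_closedBall hp)
  refine h1.trans ?_
  rw [setIntegral_const, smul_eq_mul, ← mass_real_apply V measurableSet_ball]
  calc (mass V).real (Metric.ball z ρ) * (‖A‖ ^ 2 * ρ ^ 2)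
      ≤ (Λ * ρ ^ m) * (‖A‖ ^ 2 * ρ ^ 2) := by gcongr
    _ = _ := by ring

/-- **(T2) with a free parameter**: small drop ==> the excess is almost constant. -/
theorem quad_close_param (hV : Stat m k U V) (hm : 1 ≤ m) (A : Euc k →L[ℝ] F) {z : Euc k}
    {σ ρ θ g : ℝ} (hσ : 0 < σ) (hσρ : σ < ρ) (hU : Metric.closedBall z ρ ⊆ U)
    (hθ : ∀ r ∈ Set.Ioo 0 ρ, θ * r ^ m ≤ (mass V).real (Metric.closedBall z r))
    (hM : (mass V).real (Metric.ball z ρ) ≤ (θ + g) * ρ ^ m) {t : ℝ} (ht : 0 < t) :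
    |ex m V A z ρ - exc m V A z σ| ≤
      ‖A‖ ^ 2 * g + ‖A‖ * (t * ((ρ / σ) ^ (m + 2) * ex m V A z ρ / 2) + g / t) := by
  have hρ := hσ.trans hσρ
  have hid := quad_identity hV A hσ hσρ hU
  rw [show ex m V A z ρ - exc m V A z σ = _ from hid]
  have hbU : Metric.ball z ρ ⊆ Metric.closedBall z ρ := Metric.ball_subset_closedBall
  have hdU : Metric.ball z ρ \ Metric.closedBall z σ ⊆ Metric.closedBall z ρ :=
    Set.sdiff_subset.trans hbU
  have hdm : MeasurableSet (Metric.ball z ρ \ Metric.closedBall z σ) :=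
    measurableSet_ball.diff measurableSet_closedBall
  -- the drop
  have hdrop := ann_le hV hm hσ hσρ hU (hθ σ ⟨hσ, hσρ⟩) hM
  have hg : 0 ≤ g := le_trans (integral_nonneg fun p => perpQ_nonneg m z p) hdrop
  have i3 : IntegrableOn (perpQ m z) (Prod.fst ⁻¹' (Metric.ball z ρ \ Metric.closedBall z σ))
      V := by
    refine intOn hV hU hdm hdU
      (measurable_perpQ m z).aestronglyMeasurable (C := (σ ^ m)⁻¹) fun p hp hp2 => ?_
    rw [Real.norm_of_nonneg (perpQ_nonneg m z p)]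
    refine perpQ_le m hp2 hσ ?_
    have := hp.2
    rw [mem_closedBall_iff_norm, not_le] at this
    exact this.le
  -- first term
  have t1 : |∫ p in Prod.fst ⁻¹' (Metric.ball z ρ \ Metric.closedBall z σ),
      ‖A (p.1 - z)‖ ^ 2 * perpQ (m + 2) z p ∂V| ≤ ‖A‖ ^ 2 * g := by
    have h1 : ∀ p ∈ (Prod.fst : Euc k × L k → Euc k) ⁻¹'
        (Metric.ball z ρ \ Metric.closedBall z σ),
        ‖‖A (p.1 - z)‖ ^ 2 * perpQ (m + 2) z p‖ ≤ ‖A‖ ^ 2 * perpQ m z p := by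
      intro p hp
      have h2 : σ < ‖p.1 - z‖ := by
        have := hp.2
        rwa [mem_closedBall_iff_norm, not_le] at this
      have h3 : 0 < ‖p.1 - z‖ := hσ.trans h2
      rw [Real.norm_of_nonneg (mul_nonneg (sq_nonneg _) (perpQ_nonneg _ _ _))]
      have h4 : ‖A (p.1 - z)‖ ^ 2 ≤ ‖A‖ ^ 2 * ‖p.1 - z‖ ^ 2 := by
        rw [← mul_pow]
        gcongr
        exact A.le_opNorm _
      calc ‖A (p.1 - z)‖ ^ 2 * perpQ (m + 2) z p
          ≤ (‖A‖ ^ 2 * ‖p.1 - z‖ ^ 2) * perpQ (m + 2) z p :=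
            mul_le_mul_of_nonneg_right h4 (perpQ_nonneg _ _ _)
        _ = ‖A‖ ^ 2 * perpQ m z p := by
            rw [perpQ_eq, perpQ_eq, pow_add ‖p.1 - z‖ (m + 2) 2]
            field_simp
    rw [← Real.norm_eq_abs]
    refine (norm_integral_le_of_norm_le (i3.const_mul (‖A‖ ^ 2))
      ((ae_restrict_mem (measS hdm)).mono h1)).trans ?_
    rw [integral_const_mul]
    exact mul_le_mul_of_nonneg_left hdrop (sq_nonneg _)
  -- second term
  set I1 : Euc k × L k → ℝ :=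
    (Prod.fst ⁻¹' (Metric.ball z ρ \ Metric.closedBall z σ)).indicator (perpQ m z) with hI1
  set I2 : Euc k × L k → ℝ :=
    (Prod.fst ⁻¹' (Metric.closedBall z σ)).indicator (fun p => (σ ^ (m + 2))⁻¹ * pp z p) with hI2
  have iq : IntegrableOn (fun p : Euc k × L k => ‖A (p.1 - z)‖ ^ 2)
      (Prod.fst ⁻¹' (Metric.ball z ρ)) V := by
    refine intOn hV hU measurableSet_ball Metric.ball_subset_closedBall
      (continuous_quad A z).aestronglyMeasurable (C := ‖A‖ ^ 2 * ρ ^ 2) fun p hp _ => ?_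
    rw [Real.norm_of_nonneg (sq_nonneg _)]
    exact quad_le A (Metric.ball_subset_closedBall hp)
  have ipp : IntegrableOn (pp z) (Prod.fst ⁻¹' (Metric.closedBall z σ)) V := by
    refine intOn hV hU measurableSet_closedBall (Metric.closedBall_subset_closedBall hσρ.le)
      (continuous_pp z).aestronglyMeasurable (C := σ ^ 2) fun p hp hp2 => ?_
    rw [Real.norm_of_nonneg (pp_nonneg z p)]
    rw [mem_closedBall_iff_norm] at hp
    exact (pp_le hp2).trans (by gcongr)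
  have j1 : IntegrableOn I1 (Prod.fst ⁻¹' (Metric.ball z ρ)) V := by
    refine Integrable.integrableOn ?_
    exact (integrable_indicator_iff (measS hdm)).2 i3
  have j2 : IntegrableOn I2 (Prod.fst ⁻¹' (Metric.ball z ρ)) V := by
    refine Integrable.integrableOn ?_
    exact (integrable_indicator_iff (measS measurableSet_closedBall)).2 (ipp.const_mul _)
  have v1 : ∫ p in Prod.fst ⁻¹' (Metric.ball z ρ), I1 p ∂V ≤ g := by
    rw [hI1, setIntegral_indicator (measS hdm), ← Set.preimage_inter,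
      Set.inter_eq_right.2 Set.sdiff_subset]
    exact hdrop
  have v2 : ∫ p in Prod.fst ⁻¹' (Metric.ball z ρ), I2 p ∂V ≤ g := by
    rw [hI2, setIntegral_indicator (measS measurableSet_closedBall), ← Set.preimage_inter,
      Set.inter_eq_right.2 (Metric.closedBall_subset_ball hσρ), integral_const_mul,
      inv_mul_le_iff₀ (by positivity)]
    exact pp_ball_le hV hm hσ hσρ hU hθ hM
  have hbd : ∀ p ∈ (Prod.fst : Euc k × L k → Euc k) ⁻¹' (Metric.ball z ρ),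
      ‖(((max ‖p.1 - z‖ σ) ^ (m + 2))⁻¹ - (ρ ^ (m + 2))⁻¹) *
        ⟪A (p.1 - z), A ((p.1 - z) - p.2 (p.1 - z))⟫_ℝ‖ ≤
      ‖A‖ * (t / 2 * ((σ ^ (m + 2))⁻¹ * ‖A (p.1 - z)‖ ^ 2) + (1 / (2 * t)) * (I1 p + I2 p)) := by
    intro p hp
    have hp' : ‖p.1 - z‖ < ρ := mem_ball_iff_norm.1 hp
    set W : ℝ := ((max ‖p.1 - z‖ σ) ^ (m + 2))⁻¹ with hW
    have h0 : 0 < max ‖p.1 - z‖ σ := lt_max_of_lt_right hσ
    have hW0 : 0 ≤ W := by positivity
    have h3 : max ‖p.1 - z‖ σ ≤ ρ := max_le hp'.le hσρ.le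
    have h4 : (ρ ^ (m + 2))⁻¹ ≤ W := by rw [hW]; gcongr
    have h5 : W ≤ (σ ^ (m + 2))⁻¹ := by
      rw [hW]
      gcongr
      exact le_max_right _ _
    have h6 : |W - (ρ ^ (m + 2))⁻¹| ≤ W := by
      rw [abs_of_nonneg (by linarith)]
      have : 0 ≤ (ρ ^ (m + 2))⁻¹ := by positivity
      linarith
    have h7 : W * pp z p = I1 p + I2 p := by
      by_cases hc : p.1 ∈ Metric.closedBall z σ
      · have hc' : ‖p.1 - z‖ ≤ σ := mem_closedBall_iff_norm.1 hc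
        rw [hI1, hI2, Set.indicator_of_notMem (fun h => h.2 hc),
          Set.indicator_of_mem (show p ∈ Prod.fst ⁻¹' Metric.closedBall z σ from hc), hW,
          max_eq_right hc', zero_add]
      · have hc' : σ < ‖p.1 - z‖ := by
          rwa [mem_closedBall_iff_norm, not_le] at hc
        rw [hI1, hI2, Set.indicator_of_mem
          (show p ∈ Prod.fst ⁻¹' (Metric.ball z ρ \ Metric.closedBall z σ) from ⟨hp, hc⟩),
          Set.indicator_of_notMem (show p ∉ Prod.fst ⁻¹' Metric.closedBall z σ from hc), hW,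
          max_eq_left hc'.le, add_zero, perpQ_eq, inv_mul_eq_div]
    set a : ℝ := ‖A (p.1 - z)‖ with ha
    set b : ℝ := ‖(p.1 - z) - p.2 (p.1 - z)‖ with hb
    have hpb : pp z p = b ^ 2 := rfl
    have hab : a * b ≤ t / 2 * a ^ 2 + (1 / (2 * t)) * b ^ 2 := by
      have h8 : 0 ≤ (t * a - b) ^ 2 / (2 * t) := by positivity
      have h9 : (t * a - b) ^ 2 / (2 * t) = t / 2 * a ^ 2 + (1 / (2 * t)) * b ^ 2 - a * b := by
        field_simp
        ring
      linarith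
    have ha0 : 0 ≤ a := norm_nonneg _
    have hb0 : 0 ≤ b := norm_nonneg _
    calc ‖(W - (ρ ^ (m + 2))⁻¹) * ⟪A (p.1 - z), A ((p.1 - z) - p.2 (p.1 - z))⟫_ℝ‖
        = |W - (ρ ^ (m + 2))⁻¹| * |⟪A (p.1 - z), A ((p.1 - z) - p.2 (p.1 - z))⟫_ℝ| := by
          rw [Real.norm_eq_abs, abs_mul]
      _ ≤ W * (a * (‖A‖ * b)) := by
          refine mul_le_mul h6 ?_ (abs_nonneg _) hW0
          refine (abs_real_inner_le_norm _ _).trans ?_
          exact mul_le_mul_of_nonneg_left (A.le_opNorm _) ha0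
      _ = ‖A‖ * (W * (a * b)) := by ring
      _ ≤ ‖A‖ * (W * (t / 2 * a ^ 2 + (1 / (2 * t)) * b ^ 2)) := by gcongr
      _ = ‖A‖ * (t / 2 * (W * a ^ 2) + (1 / (2 * t)) * (W * b ^ 2)) := by ring
      _ ≤ ‖A‖ * (t / 2 * ((σ ^ (m + 2))⁻¹ * a ^ 2) + (1 / (2 * t)) * (I1 p + I2 p)) := by
          rw [← h7, hpb]
          gcongr
  have t2 : |(2 / (m + 2 : ℝ)) * ∫ p in Prod.fst ⁻¹' (Metric.ball z ρ),
        (((max ‖p.1 - z‖ σ) ^ (m + 2))⁻¹ - (ρ ^ (m + 2))⁻¹) *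
          ⟪A (p.1 - z), A ((p.1 - z) - p.2 (p.1 - z))⟫_ℝ ∂V| ≤
      ‖A‖ * (t * ((ρ / σ) ^ (m + 2) * ex m V A z ρ / 2) + g / t) := by
    have k1 : IntegrableOn (fun p : Euc k × L k => t / 2 * ((σ ^ (m + 2))⁻¹ * ‖A (p.1 - z)‖ ^ 2))
        (Prod.fst ⁻¹' (Metric.ball z ρ)) V := (iq.const_mul _).const_mul _
    have k2 : IntegrableOn (fun p : Euc k × L k => (1 / (2 * t)) * (I1 p + I2 p))
        (Prod.fst ⁻¹' (Metric.ball z ρ)) V := (j1.add j2).const_mul _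
    have h1 := norm_integral_le_of_norm_le ((k1.add k2).const_mul ‖A‖)
      ((ae_restrict_mem (measS measurableSet_ball)).mono hbd)
    simp only [Pi.add_apply] at h1
    rw [integral_const_mul, integral_add k1 k2, integral_const_mul, integral_const_mul,
      integral_const_mul, integral_add j1 j2] at h1
    have e1 : (σ ^ (m + 2))⁻¹ * ∫ p in (Prod.fst : Euc k × L k → Euc k) ⁻¹' (Metric.ball z ρ),
        ‖A (p.1 - z)‖ ^ 2 ∂V = (ρ / σ) ^ (m + 2) * ex m V A z ρ := by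
      unfold ex
      rw [div_pow]
      field_simp
    rw [e1] at h1
    have h2 : |(2 / (m + 2 : ℝ))| ≤ 1 := by
      rw [abs_of_nonneg (by positivity), div_le_one (by positivity)]
      have : (0:ℝ) ≤ m := Nat.cast_nonneg m
      linarith
    rw [abs_mul]
    refine (mul_le_mul h2 (h1) (abs_nonneg _) zero_le_one).trans ?_
    rw [one_mul]
    refine mul_le_mul_of_nonneg_left ?_ (norm_nonneg _)
    have h3 : (1 / (2 * t)) * ((∫ p in Prod.fst ⁻¹' (Metric.ball z ρ), I1 p ∂V) +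
        ∫ p in Prod.fst ⁻¹' (Metric.ball z ρ), I2 p ∂V) ≤ g / t := by
      calc _ ≤ (1 / (2 * t)) * (g + g) := by gcongr
        _ = g / t := by field_simp; ring
    have h4 : t / 2 * ((ρ / σ) ^ (m + 2) * ex m V A z ρ) =
        t * ((ρ / σ) ^ (m + 2) * ex m V A z ρ / 2) := by ring
    linarith
  exact (abs_sub _ _).trans (add_le_add t1 t2)

theorem le_sqrt_of_param {D X Y : ℝ} (hX : 0 ≤ X) (hY : 0 ≤ Y)
    (h : ∀ t : ℝ, 0 < t → D ≤ t * X + Y / t) : D ≤ 2 * √(X * Y) := by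
  have h1 : ∀ ε : ℝ, 0 < ε → D ≤ 2 * √((X + ε) * (Y + ε)) := by
    intro ε hε
    have hX' : 0 < X + ε := by linarith
    have hY' : 0 < Y + ε := by linarith
    set t : ℝ := √((Y + ε) / (X + ε)) with ht
    have ht0 : 0 < t := Real.sqrt_pos.2 (by positivity)
    have h2 := h t ht0
    have h3 : t * (X + ε) = √((X + ε) * (Y + ε)) := by
      rw [ht, Real.sqrt_div hY'.le, Real.sqrt_mul hX'.le]
      have : √(X + ε) * √(X + ε) = X + ε := Real.mul_self_sqrt hX'.le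
      have h4 : √(X + ε) ≠ 0 := (Real.sqrt_pos.2 hX').ne'
      field_simp
      nlinarith
    have h5 : (Y + ε) / t = √((X + ε) * (Y + ε)) := by
      rw [div_eq_iff ht0.ne', ← h3]
      have h6 : t * t = (Y + ε) / (X + ε) := Real.mul_self_sqrt (by positivity)
      calc Y + ε = ((Y + ε) / (X + ε)) * (X + ε) := by field_simp
        _ = t * (X + ε) * t := by rw [← h6]; ring
    have h7 : t * X ≤ t * (X + ε) := by gcongr; linarith
    have h8 : Y / t ≤ (Y + ε) / t := by gcongr; linarith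
    linarith
  have h2 : Tendsto (fun ε : ℝ => 2 * √((X + ε) * (Y + ε))) (𝓝[>] 0) (𝓝 (2 * √(X * Y))) := by
    have h3 : Tendsto (fun ε : ℝ => 2 * √((X + ε) * (Y + ε))) (𝓝 0)
        (𝓝 (2 * √((X + 0) * (Y + 0)))) := Continuous.tendsto (by fun_prop) 0
    rw [add_zero, add_zero] at h3
    exact h3.mono_left nhdsWithin_le_nhds
  exact ge_of_tendsto h2 (by filter_upwards [self_mem_nhdsWithin] with ε hε using h1 ε hε)

/-- **(T2)**: small drop of the mass ratio ==> the excess w.r.t. every plane is almost constant. -/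
theorem quad_close (hV : Stat m k U V) (hm : 1 ≤ m) (A : Euc k →L[ℝ] F) {z : Euc k}
    {σ ρ θ g : ℝ} (hσ : 0 < σ) (hσρ : σ < ρ) (hU : Metric.closedBall z ρ ⊆ U)
    (hθ : ∀ r ∈ Set.Ioo 0 ρ, θ * r ^ m ≤ (mass V).real (Metric.closedBall z r))
    (hM : (mass V).real (Metric.ball z ρ) ≤ (θ + g) * ρ ^ m) :
    |ex m V A z ρ - exc m V A z σ| ≤
      ‖A‖ ^ 2 * g + ‖A‖ * √(2 * (ρ / σ) ^ (m + 2) * ex m V A z ρ * g) := by
  have hρ := hσ.trans hσρ
  have hg : 0 ≤ g := le_trans (integral_nonneg fun p => perpQ_nonneg m z p)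
    (ann_le hV hm hσ hσρ hU (hθ σ ⟨hσ, hσρ⟩) hM)
  have hex := ex_nonneg (m := m) (V := V) A z hρ.le
  have h1 : |ex m V A z ρ - exc m V A z σ| - ‖A‖ ^ 2 * g ≤
      2 * √((‖A‖ * ((ρ / σ) ^ (m + 2) * ex m V A z ρ / 2)) * (‖A‖ * g)) := by
    refine le_sqrt_of_param (by positivity) (by positivity) fun t ht => ?_
    have := quad_close_param hV hm A hσ hσρ hU hθ hM ht
    calc _ ≤ ‖A‖ * (t * ((ρ / σ) ^ (m + 2) * ex m V A z ρ / 2) + g / t) := by linarith
      _ = _ := by ring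
  have h2 : 2 * √((‖A‖ * ((ρ / σ) ^ (m + 2) * ex m V A z ρ / 2)) * (‖A‖ * g)) =
      ‖A‖ * √(2 * (ρ / σ) ^ (m + 2) * ex m V A z ρ * g) := by
    have e1 : (‖A‖ * ((ρ / σ) ^ (m + 2) * ex m V A z ρ / 2)) * (‖A‖ * g) =
        (‖A‖ / 2) ^ 2 * (2 * (ρ / σ) ^ (m + 2) * ex m V A z ρ * g) := by ring
    rw [e1, Real.sqrt_mul (by positivity), Real.sqrt_sq (by positivity)]
    ring
  linarith

end Crest.Agent.R234.Top_395
end
end

-- ▼ part R234/Top3_395
section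

/-!
Row 234 (helper395), file 3 of VF-TOP = node (F9) of #6174, cone-like case: if the mass ratio drops
by little between scale `ρ` and `0` at `z`, and `V` is `L²`-close to the zero set of a `C^2` height
function `Gf` (vertical height over a graph, Fermi height ...), then `V` is flat at scale `ρ`.
Contrapositive: planar excess `≥ δ` and small drop ==> separation from every such set `≥ c(δ)`.
-/

set_option autoImplicit false
set_option linter.unusedSectionVars false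

open MeasureTheory Crest.GeometryTopology.Submanifold Filter Topology
open scoped ENNReal InnerProductSpace

noncomputable section

namespace Crest.Agent.R234.Top_395

open Crest.Agent.R234.Vf_884

variable {m k : ℕ} {U : Set (Euc k)} {V : Measure (Euc k × L k)}
variable {F : Type*} [NormedAddCommGroup F] [InnerProductSpace ℝ F]

/-- separation of `V` from the zero set of `Gf` at scale `r` (scale invariant, `L²`). -/
def sep (m : ℕ) (V : Measure (Euc k × L k)) (Gf : Euc k → F) (z : Euc k) (r : ℝ) : ℝ :=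
  (r ^ (m + 2))⁻¹ * ∫ p in Prod.fst ⁻¹' (Metric.ball z r), ‖Gf p.1‖ ^ 2 ∂V

theorem intOn_sq (hV : Stat m k U V) {z : Euc k} {ρ : ℝ} (hU : Metric.closedBall z ρ ⊆ U)
    {Gf : Euc k → F} (hG : ContinuousOn Gf (Metric.closedBall z ρ)) :
    IntegrableOn (fun p : Euc k × L k => ‖Gf p.1‖ ^ 2) (Prod.fst ⁻¹' (Metric.closedBall z ρ)) V := by
  have hc : ContinuousOn (fun x => ‖Gf x‖ ^ 2) (Metric.closedBall z ρ) := hG.norm.pow 2
  obtain ⟨C, hC⟩ := (isCompact_closedBall z ρ).exists_bound_of_continuousOn hc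
  refine intOn hV hU measurableSet_closedBall subset_rfl ?_ (C := C) fun p hp _ => hC _ hp
  have h2 : ContinuousOn (fun p : Euc k × L k => ‖Gf p.1‖ ^ 2)
      (Prod.fst ⁻¹' (Metric.closedBall z ρ)) :=
    hc.comp continuousOn_fst fun p hp => hp
  exact h2.aestronglyMeasurable (measS measurableSet_closedBall)

/-- the height at the centre. -/
theorem norm_center_le (hV : Stat m k U V) (A : Euc k →L[ℝ] F) {z : Euc k} {ρ K τ θ : ℝ}
    (hρ : 0 < ρ) (hU : Metric.closedBall z ρ ⊆ U) {Gf : Euc k → F}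
    (hG : ContinuousOn Gf (Metric.closedBall z ρ)) (hK : 0 ≤ K)
    (hGA : ∀ x ∈ Metric.closedBall z ρ, ‖Gf x - Gf z - A (x - z)‖ ≤ K * ‖x - z‖ ^ 2 / ρ)
    (hτ : 0 < τ) (hτ1 : τ < 1) (hθ0 : 0 < θ)
    (hθ : θ * (τ * ρ) ^ m ≤ (mass V).real (Metric.closedBall z (τ * ρ))) :
    ‖Gf z‖ ^ 2 ≤ ρ ^ 2 * (2 * sep m V Gf z ρ / (θ * τ ^ m) + 2 * τ ^ 2 * (‖A‖ + K) ^ 2) := by
  have hτρ : τ * ρ < ρ := by nlinarith
  have hτρ0 : 0 < τ * ρ := by positivity
  set μ : ℝ := V.real ((Prod.fst : Euc k × L k → Euc k) ⁻¹' (Metric.closedBall z (τ * ρ))) with hμ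
  rw [mass_real_apply V measurableSet_closedBall, ← hμ] at hθ
  have hμ0 : 0 < μ := lt_of_lt_of_le (by positivity) hθ
  have hsub : Metric.closedBall z (τ * ρ) ⊆ Metric.ball z ρ := Metric.closedBall_subset_ball hτρ
  have hi := intOn_sq hV hU hG
  have hi1 : IntegrableOn (fun p : Euc k × L k => ‖Gf p.1‖ ^ 2)
      (Prod.fst ⁻¹' (Metric.ball z ρ)) V :=
    hi.mono_set (Set.preimage_mono Metric.ball_subset_closedBall)
  have hi2 : IntegrableOn (fun p : Euc k × L k => ‖Gf p.1‖ ^ 2)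
      (Prod.fst ⁻¹' (Metric.closedBall z (τ * ρ))) V :=
    hi1.mono_set (Set.preimage_mono hsub)
  set B : ℝ := 2 * (τ * ρ * (‖A‖ + K)) ^ 2 with hB
  have hpt : ∀ p ∈ (Prod.fst : Euc k × L k → Euc k) ⁻¹' (Metric.closedBall z (τ * ρ)),
      ‖Gf z‖ ^ 2 ≤ 2 * ‖Gf p.1‖ ^ 2 + B := by
    intro p hp
    have h1 : ‖p.1 - z‖ ≤ τ * ρ := mem_closedBall_iff_norm.1 hp
    have h2 := hGA p.1 (Metric.ball_subset_closedBall (hsub hp))
    have h3 : ‖Gf z‖ ≤ ‖Gf p.1‖ + (τ * ρ * (‖A‖ + K)) := by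
      have e1 : Gf z = Gf p.1 - (Gf p.1 - Gf z - A (p.1 - z)) - A (p.1 - z) := by abel
      calc ‖Gf z‖ = ‖Gf p.1 - (Gf p.1 - Gf z - A (p.1 - z)) - A (p.1 - z)‖ := by rw [← e1]
        _ ≤ ‖Gf p.1‖ + ‖Gf p.1 - Gf z - A (p.1 - z)‖ + ‖A (p.1 - z)‖ :=
            (norm_sub_le _ _).trans (add_le_add (norm_sub_le _ _) le_rfl)
        _ ≤ ‖Gf p.1‖ + K * ‖p.1 - z‖ ^ 2 / ρ + ‖A‖ * ‖p.1 - z‖ :=
            add_le_add (add_le_add le_rfl h2) (A.le_opNorm _)
        _ ≤ ‖Gf p.1‖ + K * (τ * ρ) + ‖A‖ * (τ * ρ) := by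
            gcongr
            rw [div_le_iff₀ hρ]
            calc K * ‖p.1 - z‖ ^ 2 ≤ K * (τ * ρ) ^ 2 := by gcongr
              _ = (K * (τ * ρ) * ρ) * τ := by ring
              _ ≤ (K * (τ * ρ) * ρ) * 1 := by gcongr
              _ = _ := mul_one _
        _ = _ := by ring
    have h4 : 0 ≤ τ * ρ * (‖A‖ + K) := by positivity
    calc ‖Gf z‖ ^ 2 ≤ (‖Gf p.1‖ + (τ * ρ * (‖A‖ + K))) ^ 2 := by gcongr
      _ ≤ 2 * ‖Gf p.1‖ ^ 2 + B := by
        rw [hB]
        nlinarith [sq_nonneg (‖Gf p.1‖ - (τ * ρ * (‖A‖ + K)))]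
  have hfin := fin_ball hV hU (hsub.trans Metric.ball_subset_closedBall)
  have h1 : ∫ p in (Prod.fst : Euc k × L k → Euc k) ⁻¹' (Metric.closedBall z (τ * ρ)),
      ‖Gf z‖ ^ 2 ∂V ≤
      ∫ p in Prod.fst ⁻¹' (Metric.closedBall z (τ * ρ)), (2 * ‖Gf p.1‖ ^ 2 + B) ∂V :=
    setIntegral_mono_on (integrableOn_const hfin.ne)
      ((hi2.const_mul 2).add (integrableOn_const hfin.ne)) (measS measurableSet_closedBall) hpt
  rw [integral_add (hi2.const_mul 2) (integrableOn_const hfin.ne), integral_const_mul,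
    setIntegral_const, setIntegral_const, smul_eq_mul, smul_eq_mul, ← hμ] at h1
  have h2 : ∫ p in Prod.fst ⁻¹' (Metric.closedBall z (τ * ρ)), ‖Gf p.1‖ ^ 2 ∂V ≤
      ρ ^ (m + 2) * sep m V Gf z ρ := by
    have h3 : ρ ^ (m + 2) * sep m V Gf z ρ =
        ∫ p in Prod.fst ⁻¹' (Metric.ball z ρ), ‖Gf p.1‖ ^ 2 ∂V := by
      unfold sep
      rw [← mul_assoc, mul_inv_cancel₀ (by positivity), one_mul]
    rw [h3]
    exact setIntegral_mono_set hi1 (ae_of_all _ fun p => sq_nonneg _)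
      (LE.le.eventuallyLE (Set.preimage_mono hsub))
  have hs0 : 0 ≤ sep m V Gf z ρ :=
    mul_nonneg (by positivity) (integral_nonneg fun _ => sq_nonneg _)
  have h3 : ‖Gf z‖ ^ 2 ≤ 2 * (ρ ^ (m + 2) * sep m V Gf z ρ) / μ + B := by
    rw [div_add' _ _ _ hμ0.ne', le_div_iff₀ hμ0]
    nlinarith
  refine h3.trans ?_
  have h4 : 2 * (ρ ^ (m + 2) * sep m V Gf z ρ) / μ ≤
      2 * (ρ ^ (m + 2) * sep m V Gf z ρ) / (θ * (τ * ρ) ^ m) := by gcongr
  calc 2 * (ρ ^ (m + 2) * sep m V Gf z ρ) / μ + B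
      ≤ 2 * (ρ ^ (m + 2) * sep m V Gf z ρ) / (θ * (τ * ρ) ^ m) + B := by linarith
    _ = _ := by
      rw [hB, mul_pow, pow_add]
      field_simp

/-- the planar excess at a smaller scale. -/
theorem exc_le_of_sep (hV : Stat m k U V) (A : Euc k →L[ℝ] F) {z : Euc k} {ρ K s Λ : ℝ}
    (hρ : 0 < ρ) (hU : Metric.closedBall z ρ ⊆ U) {Gf : Euc k → F}
    (hG : ContinuousOn Gf (Metric.closedBall z ρ)) (hK : 0 ≤ K)
    (hGA : ∀ x ∈ Metric.closedBall z ρ, ‖Gf x - Gf z - A (x - z)‖ ≤ K * ‖x - z‖ ^ 2 / ρ)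
    (hs : 0 < s) (hs1 : s < 1)
    (hΛ : (mass V).real (Metric.closedBall z (s * ρ)) ≤ Λ * (s * ρ) ^ m) :
    exc m V A z (s * ρ) ≤ 3 * (s ^ (m + 2))⁻¹ * sep m V Gf z ρ +
      3 * (s ^ 2)⁻¹ * (‖Gf z‖ ^ 2 / ρ ^ 2 + K ^ 2 * s ^ 4) * Λ := by
  have hsρ : s * ρ < ρ := by nlinarith
  have hsρ0 : 0 < s * ρ := by positivity
  have hsub : Metric.closedBall z (s * ρ) ⊆ Metric.ball z ρ := Metric.closedBall_subset_ball hsρ
  have hi := intOn_sq hV hU hG
  have hi1 : IntegrableOn (fun p : Euc k × L k => ‖Gf p.1‖ ^ 2)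
      (Prod.fst ⁻¹' (Metric.ball z ρ)) V :=
    hi.mono_set (Set.preimage_mono Metric.ball_subset_closedBall)
  have hi2 : IntegrableOn (fun p : Euc k × L k => ‖Gf p.1‖ ^ 2)
      (Prod.fst ⁻¹' (Metric.closedBall z (s * ρ))) V :=
    hi1.mono_set (Set.preimage_mono hsub)
  set B : ℝ := 3 * (‖Gf z‖ ^ 2 + K ^ 2 * s ^ 4 * ρ ^ 2) with hB
  have hpt : ∀ p ∈ (Prod.fst : Euc k × L k → Euc k) ⁻¹' (Metric.closedBall z (s * ρ)),
      ‖A (p.1 - z)‖ ^ 2 ≤ 3 * ‖Gf p.1‖ ^ 2 + B := by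
    intro p hp
    have h1 : ‖p.1 - z‖ ≤ s * ρ := mem_closedBall_iff_norm.1 hp
    have h2 := hGA p.1 (Metric.ball_subset_closedBall (hsub hp))
    have h5 : K * ‖p.1 - z‖ ^ 2 / ρ ≤ K * s ^ 2 * ρ := by
      rw [div_le_iff₀ hρ]
      calc K * ‖p.1 - z‖ ^ 2 ≤ K * (s * ρ) ^ 2 := by gcongr
        _ = _ := by ring
    have h3 : ‖A (p.1 - z)‖ ≤ ‖Gf p.1‖ + ‖Gf z‖ + K * s ^ 2 * ρ := by
      have e1 : A (p.1 - z) = Gf p.1 - Gf z - (Gf p.1 - Gf z - A (p.1 - z)) := by abel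
      rw [e1]
      refine (norm_sub_le _ _).trans (add_le_add (norm_sub_le _ _) ?_)
      exact h2.trans h5
    have h4 : 0 ≤ K * s ^ 2 * ρ := by positivity
    calc ‖A (p.1 - z)‖ ^ 2 ≤ (‖Gf p.1‖ + ‖Gf z‖ + K * s ^ 2 * ρ) ^ 2 := by gcongr
      _ ≤ 3 * ‖Gf p.1‖ ^ 2 + B := by
        rw [hB]
        nlinarith [sq_nonneg (‖Gf p.1‖ - ‖Gf z‖), sq_nonneg (‖Gf p.1‖ - K * s ^ 2 * ρ),
          sq_nonneg (‖Gf z‖ - K * s ^ 2 * ρ)]
  have hfin := fin_ball hV hU (hsub.trans Metric.ball_subset_closedBall)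
  have iq : IntegrableOn (fun p : Euc k × L k => ‖A (p.1 - z)‖ ^ 2)
      (Prod.fst ⁻¹' (Metric.closedBall z (s * ρ))) V := by
    refine intOn hV hU measurableSet_closedBall (hsub.trans Metric.ball_subset_closedBall)
      (continuous_quad A z).aestronglyMeasurable (C := ‖A‖ ^ 2 * (s * ρ) ^ 2) fun p hp _ => ?_
    rw [Real.norm_of_nonneg (sq_nonneg _)]
    exact quad_le A hp
  have h1 : ∫ p in (Prod.fst : Euc k × L k → Euc k) ⁻¹' (Metric.closedBall z (s * ρ)),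
      ‖A (p.1 - z)‖ ^ 2 ∂V ≤
      ∫ p in Prod.fst ⁻¹' (Metric.closedBall z (s * ρ)), (3 * ‖Gf p.1‖ ^ 2 + B) ∂V :=
    setIntegral_mono_on iq
      ((hi2.const_mul 3).add (integrableOn_const hfin.ne)) (measS measurableSet_closedBall) hpt
  rw [integral_add (hi2.const_mul 3) (integrableOn_const hfin.ne), integral_const_mul,
    setIntegral_const, smul_eq_mul, ← mass_real_apply V measurableSet_closedBall] at h1
  have h2 : ∫ p in Prod.fst ⁻¹' (Metric.closedBall z (s * ρ)), ‖Gf p.1‖ ^ 2 ∂V ≤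
      ρ ^ (m + 2) * sep m V Gf z ρ := by
    have h3 : ρ ^ (m + 2) * sep m V Gf z ρ =
        ∫ p in Prod.fst ⁻¹' (Metric.ball z ρ), ‖Gf p.1‖ ^ 2 ∂V := by
      unfold sep
      rw [← mul_assoc, mul_inv_cancel₀ (by positivity), one_mul]
    rw [h3]
    exact setIntegral_mono_set hi1 (ae_of_all _ fun p => sq_nonneg _)
      (LE.le.eventuallyLE (Set.preimage_mono hsub))
  have hB0 : 0 ≤ B := by positivity
  have h3 : (mass V).real (Metric.closedBall z (s * ρ)) * B ≤ Λ * (s * ρ) ^ m * B := by gcongr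
  unfold exc
  rw [inv_mul_le_iff₀ (by positivity)]
  calc _ ≤ 3 * (ρ ^ (m + 2) * sep m V Gf z ρ) + Λ * (s * ρ) ^ m * B := by linarith
    _ = _ := by
      rw [hB, mul_pow, mul_pow, pow_add, pow_add]
      field_simp

theorem small (a : ℝ) {b : ℝ} (hb : 0 < b) : ∃ c : ℝ, 0 < c ∧ c ≤ 1 / 2 ∧ a * c ≤ b := by
  refine ⟨min (1 / 2) (b / (|a| + 1)), lt_min (by norm_num) (by positivity), min_le_left _ _, ?_⟩
  have h1 : 0 < |a| + 1 := by positivity
  calc a * min (1 / 2) (b / (|a| + 1)) ≤ |a| * min (1 / 2) (b / (|a| + 1)) := by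
        refine mul_le_mul_of_nonneg_right (le_abs_self a) ?_
        exact (lt_min (by norm_num) (by positivity)).le
    _ ≤ |a| * (b / (|a| + 1)) := by
        refine mul_le_mul_of_nonneg_left (min_le_right _ _) (abs_nonneg _)
    _ ≤ b := by
        rw [mul_div_assoc', div_le_iff₀ h1]
        nlinarith [abs_nonneg a]

/-- **(T1) = the cone-like case of (F9)**: small drop + `L²`-close to a `C²` zero set ==> flat. -/
theorem flat_of_sep (m : ℕ) (hm : 1 ≤ m) {θ₁ Λ K₀ δ : ℝ} (hθ₁ : 0 < θ₁) (hΛ : 0 < Λ)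
    (hK₀ : 0 ≤ K₀) (hδ : 0 < δ) :
    ∃ c : ℝ, 0 < c ∧ ∃ g₀ : ℝ, 0 < g₀ ∧ g₀ ≤ 1 ∧ ∀ {U : Set (Euc k)} {V : Measure (Euc k × L k)},
      Stat m k U V → ∀ {z : Euc k} {ρ θ : ℝ} (A : Euc k →L[ℝ] F) (Gf : Euc k → F), 0 < ρ →
      Metric.closedBall z ρ ⊆ U → θ₁ ≤ θ → θ + g₀ ≤ Λ →
      (∀ r ∈ Set.Ioo 0 ρ, θ * r ^ m ≤ (mass V).real (Metric.closedBall z r)) →
      (mass V).real (Metric.ball z ρ) ≤ (θ + g₀) * ρ ^ m → ‖A‖ ≤ K₀ →
      ContinuousOn Gf (Metric.closedBall z ρ) →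
      (∀ x ∈ Metric.closedBall z ρ, ‖Gf x - Gf z - A (x - z)‖ ≤ K₀ * ‖x - z‖ ^ 2 / ρ) →
      sep m V Gf z ρ ≤ c → ‖Gf z‖ ≤ δ * ρ ∧ ex m V A z ρ ≤ δ := by
  obtain ⟨s, hs0, hs2, hs⟩ := small (3 * K₀ ^ 2 * Λ) (show 0 < δ / 5 by positivity)
  obtain ⟨τ, hτ0, hτ2, hτ⟩ := small (3 * (s ^ 2)⁻¹ * (2 * (K₀ + K₀) ^ 2) * Λ + 2 * (K₀ + K₀) ^ 2)
    (show 0 < min (δ / 5) (δ ^ 2 / 2) by positivity)
  obtain ⟨c, hc0, hc2, hc⟩ := small (3 * (s ^ (m + 2))⁻¹ +
    3 * (s ^ 2)⁻¹ * (2 / (θ₁ * τ ^ m)) * Λ + 2 / (θ₁ * τ ^ m))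
    (show 0 < min (δ / 5) (δ ^ 2 / 2) by positivity)
  obtain ⟨q, hq0, hq2, hq⟩ := small (K₀ ^ 2 + K₀ * √(2 * (s⁻¹) ^ (m + 2) * (K₀ ^ 2 * Λ)))
    (show 0 < δ / 5 by positivity)
  refine ⟨c, hc0, q ^ 2, by positivity, by nlinarith, ?_⟩
  intro U V hV z ρ θ A Gf hρ hU hθ1 hθΛ hθ hM hA hG hGA hsep
  have hs1 : s < 1 := by linarith
  have hτ1 : τ < 1 := by linarith
  have hθ0 : 0 < θ := hθ₁.trans_le hθ1
  have hsρ : s * ρ < ρ := by nlinarith
  have hsρ0 : 0 < s * ρ := by positivity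
  have hMΛ : (mass V).real (Metric.ball z ρ) ≤ Λ * ρ ^ m := hM.trans (by gcongr)
  have hsep0 : 0 ≤ sep m V Gf z ρ :=
    mul_nonneg (by positivity) (integral_nonneg fun _ => sq_nonneg _)
  -- the centre
  have c1 := norm_center_le (m := m) hV A hρ hU hG hK₀ hGA hτ0 hτ1 hθ0
    (hθ (τ * ρ) ⟨by positivity, by nlinarith⟩)
  have c2 : ‖Gf z‖ ^ 2 ≤ ρ ^ 2 * (2 / (θ₁ * τ ^ m) * c + 2 * (K₀ + K₀) ^ 2 * τ) := by
    refine c1.trans ?_
    refine mul_le_mul_of_nonneg_left (add_le_add ?_ ?_) (by positivity)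
    · calc 2 * sep m V Gf z ρ / (θ * τ ^ m) ≤ 2 * c / (θ₁ * τ ^ m) := by gcongr
        _ = _ := by ring
    · calc 2 * τ ^ 2 * (‖A‖ + K₀) ^ 2 ≤ 2 * (τ * 1) * (K₀ + K₀) ^ 2 := by
            rw [pow_two]
            gcongr
        _ = _ := by ring
  have p1 : 0 ≤ 3 * (s ^ (m + 2))⁻¹ * c := by positivity
  have p2 : 0 ≤ 3 * (s ^ 2)⁻¹ * (2 / (θ₁ * τ ^ m)) * Λ * c := by positivity
  have p3 : 0 ≤ 2 / (θ₁ * τ ^ m) * c := by positivity
  have p4 : 0 ≤ 3 * (s ^ 2)⁻¹ * (2 * (K₀ + K₀) ^ 2) * Λ * τ := by positivity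
  have p5 : 0 ≤ 2 * (K₀ + K₀) ^ 2 * τ := by positivity
  have q1 : 3 * (s ^ (m + 2))⁻¹ * c + 3 * (s ^ 2)⁻¹ * (2 / (θ₁ * τ ^ m)) * Λ * c ≤ δ / 5 := by
    have := hc.trans (min_le_left _ _)
    linarith
  have q2 : 2 / (θ₁ * τ ^ m) * c ≤ δ ^ 2 / 2 := by
    have := hc.trans (min_le_right _ _)
    linarith
  have q3 : 3 * (s ^ 2)⁻¹ * (2 * (K₀ + K₀) ^ 2) * Λ * τ ≤ δ / 5 := by
    have := hτ.trans (min_le_left _ _)
    linarith
  have q4 : 2 * (K₀ + K₀) ^ 2 * τ ≤ δ ^ 2 / 2 := by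
    have := hτ.trans (min_le_right _ _)
    linarith
  constructor
  · have h1 : ‖Gf z‖ ^ 2 ≤ (δ * ρ) ^ 2 := by
      calc ‖Gf z‖ ^ 2 ≤ ρ ^ 2 * (δ ^ 2 / 2 + δ ^ 2 / 2) := c2.trans (by gcongr)
        _ = _ := by ring
    exact le_of_sq_le_sq h1 (by positivity)
  · -- the mass of the small ball
    have hms : (mass V).real (Metric.closedBall z (s * ρ)) ≤ Λ * (s * ρ) ^ m := by
      have h1 := mono_real hV hm hsρ0 hsρ hU
      rw [inv_mul_le_iff₀ (by positivity)] at h1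
      have h2 : (ρ ^ m)⁻¹ * (mass V).real (Metric.ball z ρ) ≤ Λ := by
        rw [inv_mul_le_iff₀ (by positivity)]
        linarith [mul_comm Λ (ρ ^ m)]
      calc _ ≤ (s * ρ) ^ m * ((ρ ^ m)⁻¹ * (mass V).real (Metric.ball z ρ)) := h1
        _ ≤ (s * ρ) ^ m * Λ := by gcongr
        _ = _ := mul_comm _ _
    have e1 := exc_le_of_sep (m := m) hV A hρ hU hG hK₀ hGA hs0 hs1 hms
    have e2 : ‖Gf z‖ ^ 2 / ρ ^ 2 ≤ 2 / (θ₁ * τ ^ m) * c + 2 * (K₀ + K₀) ^ 2 * τ := by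
      rw [div_le_iff₀ (by positivity)]
      linarith [mul_comm (ρ ^ 2) (2 / (θ₁ * τ ^ m) * c + 2 * (K₀ + K₀) ^ 2 * τ)]
    have e3 : exc m V A z (s * ρ) ≤ 3 * δ / 5 := by
      refine e1.trans ?_
      have e4 : K₀ ^ 2 * s ^ 4 ≤ K₀ ^ 2 * s * s ^ 2 := by
        have : s ^ 4 ≤ s * s ^ 2 := by
          calc s ^ 4 = s * s ^ 2 * s := by ring
            _ ≤ s * s ^ 2 * 1 := by gcongr
            _ = _ := mul_one _
        calc K₀ ^ 2 * s ^ 4 ≤ K₀ ^ 2 * (s * s ^ 2) := by gcongr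
          _ = _ := by ring
      calc 3 * (s ^ (m + 2))⁻¹ * sep m V Gf z ρ +
            3 * (s ^ 2)⁻¹ * (‖Gf z‖ ^ 2 / ρ ^ 2 + K₀ ^ 2 * s ^ 4) * Λ
          ≤ 3 * (s ^ (m + 2))⁻¹ * c +
            3 * (s ^ 2)⁻¹ * ((2 / (θ₁ * τ ^ m) * c + 2 * (K₀ + K₀) ^ 2 * τ) +
              K₀ ^ 2 * s * s ^ 2) * Λ := by gcongr
        _ = (3 * (s ^ (m + 2))⁻¹ * c + 3 * (s ^ 2)⁻¹ * (2 / (θ₁ * τ ^ m)) * Λ * c) +
            3 * (s ^ 2)⁻¹ * (2 * (K₀ + K₀) ^ 2) * Λ * τ + 3 * K₀ ^ 2 * Λ * s := by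
            field_simp
            ring
        _ ≤ δ / 5 + δ / 5 + δ / 5 := by gcongr
        _ = 3 * δ / 5 := by ring
    have e5 := quad_close hV hm A hsρ0 hsρ hU hθ hM
    have e6 : ex m V A z ρ ≤ K₀ ^ 2 * Λ :=
      (ex_le_norm hV A hρ hU hMΛ).trans (by gcongr)
    have e7 : ‖A‖ ^ 2 * q ^ 2 + ‖A‖ * √(2 * (ρ / (s * ρ)) ^ (m + 2) * ex m V A z ρ * q ^ 2) ≤
        δ / 5 := by
      have f1 : ρ / (s * ρ) = s⁻¹ := by field_simp
      have f2 : √(2 * (ρ / (s * ρ)) ^ (m + 2) * ex m V A z ρ * q ^ 2) ≤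
          √(2 * (s⁻¹) ^ (m + 2) * (K₀ ^ 2 * Λ)) * q := by
        rw [f1, Real.sqrt_mul' _ (sq_nonneg q), Real.sqrt_sq hq0.le]
        gcongr
      calc ‖A‖ ^ 2 * q ^ 2 + ‖A‖ * √(2 * (ρ / (s * ρ)) ^ (m + 2) * ex m V A z ρ * q ^ 2)
          ≤ K₀ ^ 2 * (q * 1) + K₀ * (√(2 * (s⁻¹) ^ (m + 2) * (K₀ ^ 2 * Λ)) * q) := by
            refine add_le_add ?_ (mul_le_mul hA f2 (Real.sqrt_nonneg _) hK₀)
            rw [pow_two q]
            have : q ≤ 1 := by linarith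
            gcongr
        _ = (K₀ ^ 2 + K₀ * √(2 * (s⁻¹) ^ (m + 2) * (K₀ ^ 2 * Λ))) * q := by ring
        _ ≤ δ / 5 := hq
    have e8 := (abs_le.1 e5).2
    linarith

end Crest.Agent.R234.Top_395
end
end

-- ▼ part R234/Top4_395

/-!
Row 234 (helper395), file 4 of VF-TOP: node (F9) of #6174, cone-like case, for the references of
`Main2_456` (graphs in a frame).
-/

set_option autoImplicit false
set_option linter.unusedSectionVars false

open MeasureTheory Crest.GeometryTopology.Submanifold Filter Topology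
open scoped ENNReal InnerProductSpace

noncomputable section

namespace Crest.Agent.R234.Top_395

open Crest.Agent.R234.Vf_884 Crest.Agent.R234.Main_456

variable {m n k : ℕ} {U : Set (Euc k)} {V : Measure (Euc k × L k)}

/-! ### algebra of a frame -/

section frame

variable {π : Euc k →L[ℝ] Euc m} {ρ : Euc k →L[ℝ] Euc n}

theorem fr_pp (h : Frame π ρ) (v : Euc m) : π (ContinuousLinearMap.adjoint π v) = v :=
  congrArg (fun A : Euc m →L[ℝ] Euc m => A v) h.coπ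

theorem fr_rr (h : Frame π ρ) (v : Euc n) : ρ (ContinuousLinearMap.adjoint ρ v) = v :=
  congrArg (fun A : Euc n →L[ℝ] Euc n => A v) h.coρ

theorem fr_pr (h : Frame π ρ) (v : Euc n) : π (ContinuousLinearMap.adjoint ρ v) = 0 :=
  congrArg (fun A : Euc n →L[ℝ] Euc m => A v) h.orth

theorem fr_rp (h : Frame π ρ) (v : Euc m) : ρ (ContinuousLinearMap.adjoint π v) = 0 := by
  refine ext_inner_left ℝ fun w => ?_
  rw [← ContinuousLinearMap.adjoint_inner_left, ContinuousLinearMap.adjoint_inner_right, fr_pr h,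
    inner_zero_left, inner_zero_right]

theorem fr_sum (h : Frame π ρ) (v : Euc k) :
    ContinuousLinearMap.adjoint π (π v) + ContinuousLinearMap.adjoint ρ (ρ v) = v :=
  congrArg (fun A : Euc k →L[ℝ] Euc k => A v) h.full

theorem fr_norm_sq (h : Frame π ρ) (v : Euc k) : ‖v‖ ^ 2 = ‖π v‖ ^ 2 + ‖ρ v‖ ^ 2 := by
  have h1 : ⟪v, v⟫_ℝ = ⟪π v, π v⟫_ℝ + ⟪ρ v, ρ v⟫_ℝ := by
    conv_lhs => rw [← fr_sum h v]
    rw [inner_add_left, ContinuousLinearMap.adjoint_inner_left,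
      ContinuousLinearMap.adjoint_inner_left, fr_sum h v]
  rw [real_inner_self_eq_norm_sq, real_inner_self_eq_norm_sq, real_inner_self_eq_norm_sq] at h1
  exact h1

theorem fr_norm_p (h : Frame π ρ) (v : Euc k) : ‖π v‖ ≤ ‖v‖ := by
  have := fr_norm_sq h v
  exact le_of_sq_le_sq (by nlinarith [sq_nonneg ‖ρ v‖]) (norm_nonneg _)

theorem fr_norm_r (h : Frame π ρ) (v : Euc k) : ‖ρ v‖ ≤ ‖v‖ := by
  have := fr_norm_sq h v
  exact le_of_sq_le_sq (by nlinarith [sq_nonneg ‖π v‖]) (norm_nonneg _)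

/-- the tangent plane of a graph. -/
def gpl (π : Euc k →L[ℝ] Euc m) (ρ : Euc k →L[ℝ] Euc n) (B : Euc m →L[ℝ] Euc n) :
    Submodule ℝ (Euc k) :=
  LinearMap.range (ContinuousLinearMap.adjoint π + ContinuousLinearMap.adjoint ρ ∘L B).toLinearMap

theorem finrank_gpl (h : Frame π ρ) (B : Euc m →L[ℝ] Euc n) :
    Module.finrank ℝ (gpl π ρ B) = m := by
  unfold gpl
  rw [LinearMap.finrank_range_of_inj, finrank_euclideanSpace, Fintype.card_fin]
  intro v w hvw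
  have h1 := congrArg π hvw
  simpa [fr_pp h, fr_pr h] using h1

/-- the projection onto the tangent plane of the graph of `B`. -/
def gpr (π : Euc k →L[ℝ] Euc m) (ρ : Euc k →L[ℝ] Euc n) (B : Euc m →L[ℝ] Euc n) : L k :=
  (gpl π ρ B).starProjection

theorem gpr_mem (h : Frame π ρ) (B : Euc m →L[ℝ] Euc n) : gpr π ρ B ∈ G m k :=
  starProjection_mem_G _ (finrank_gpl h B)

theorem lin_gpr (h : Frame π ρ) (B : Euc m →L[ℝ] Euc n) (v : Euc k) :
    (ρ - B ∘L π) (gpr π ρ B v) = 0 := by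
  have h1 : gpr π ρ B v ∈ gpl π ρ B := Submodule.starProjection_apply_mem _ v
  obtain ⟨ξ, hξ⟩ := h1
  rw [← hξ]
  simp [fr_pp h, fr_rr h, fr_pr h, fr_rp h]

/-- a vector normal to a plane of dimension `m` killed by `ρ - B π` is controlled by its height. -/
theorem norm_normal_le (h : Frame π ρ) (B : Euc m →L[ℝ] Euc n) {w : Euc k}
    (hw : ∀ ξ : Euc m, ⟪w, ContinuousLinearMap.adjoint π ξ +
      ContinuousLinearMap.adjoint ρ (B ξ)⟫_ℝ = 0) :
    ‖w‖ ^ 2 ≤ (1 + ‖B‖ ^ 2) * ‖(ρ - B ∘L π) w‖ ^ 2 := by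
  have h1 : π w = -(ContinuousLinearMap.adjoint B (ρ w)) := by
    refine ext_inner_right ℝ fun ξ => ?_
    have h2 := hw ξ
    rw [inner_add_right, ContinuousLinearMap.adjoint_inner_right,
      ContinuousLinearMap.adjoint_inner_right] at h2
    rw [inner_neg_left, ContinuousLinearMap.adjoint_inner_left]
    linarith
  have h2 : ‖ρ w‖ ≤ ‖(ρ - B ∘L π) w‖ := by
    have h3 : (ρ - B ∘L π) w = ρ w + B (ContinuousLinearMap.adjoint B (ρ w)) := by
      simp [h1]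
    have h4 : ‖ρ w‖ ^ 2 ≤ ⟪ρ w, (ρ - B ∘L π) w⟫_ℝ := by
      rw [h3, inner_add_right, real_inner_self_eq_norm_sq,
        ← ContinuousLinearMap.adjoint_inner_left, real_inner_self_eq_norm_sq]
      nlinarith [sq_nonneg ‖ContinuousLinearMap.adjoint B (ρ w)‖]
    have h5 : ⟪ρ w, (ρ - B ∘L π) w⟫_ℝ ≤ ‖ρ w‖ * ‖(ρ - B ∘L π) w‖ := real_inner_le_norm _ _
    rcases (norm_nonneg (ρ w)).eq_or_lt with h0 | h0
    · rw [← h0]; exact norm_nonneg _
    · nlinarith
  have h3 : ‖π w‖ ≤ ‖B‖ * ‖ρ w‖ := by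
    rw [h1, norm_neg]
    refine (ContinuousLinearMap.le_opNorm _ _).trans (le_of_eq ?_)
    rw [LinearIsometryEquiv.norm_map]
  rw [fr_norm_sq h w]
  have h4 : ‖π w‖ ^ 2 ≤ ‖B‖ ^ 2 * ‖ρ w‖ ^ 2 := by
    rw [← mul_pow]; gcongr
  have h5 : ‖ρ w‖ ^ 2 ≤ ‖(ρ - B ∘L π) w‖ ^ 2 := by gcongr
  nlinarith [sq_nonneg ‖B‖]

theorem norm_sub_gpr_le (h : Frame π ρ) (B : Euc m →L[ℝ] Euc n) (v : Euc k) :
    ‖v - gpr π ρ B v‖ ^ 2 ≤ (1 + ‖B‖ ^ 2) * ‖(ρ - B ∘L π) v‖ ^ 2 := by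
  have h1 := norm_normal_le h B (w := v - gpr π ρ B v) (fun ξ => by
    have h2 : v - gpr π ρ B v ∈ (gpl π ρ B)ᗮ := Submodule.sub_starProjection_mem_orthogonal v
    have h3 := (Submodule.mem_orthogonal' _ _).1 h2
      (ContinuousLinearMap.adjoint π ξ + ContinuousLinearMap.adjoint ρ (B ξ)) ⟨ξ, rfl⟩
    exact h3)
  rwa [map_sub, lin_gpr h B, sub_zero] at h1

theorem norm_lin_le (h : Frame π ρ) (B : Euc m →L[ℝ] Euc n) : ‖ρ - B ∘L π‖ ≤ 1 + ‖B‖ := by
  refine ContinuousLinearMap.opNorm_le_bound _ (by positivity) fun v => ?_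
  calc ‖(ρ - B ∘L π) v‖ = ‖ρ v - B (π v)‖ := rfl
    _ ≤ ‖ρ v‖ + ‖B (π v)‖ := norm_sub_le _ _
    _ ≤ ‖v‖ + ‖B‖ * ‖v‖ := by
      refine add_le_add (fr_norm_r h v) ((B.le_opNorm _).trans ?_)
      gcongr
      exact fr_norm_p h v
    _ = _ := by ring

end frame

/-! ### planes -/

theorem norm_one_sub_le {P : L k} (hP : P ∈ G m k) :
    ‖ContinuousLinearMap.id ℝ (Euc k) - P‖ ≤ 1 := by
  refine ContinuousLinearMap.opNorm_le_bound _ zero_le_one fun v => ?_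
  have := G_norm_sq_add hP v
  rw [one_mul]
  exact le_of_sq_le_sq (by
    change ‖v - P v‖ ^ 2 ≤ _
    nlinarith [sq_nonneg ‖P v‖]) (norm_nonneg _)

/-- planar height excess w.r.t. the plane `x + range P`. -/
def pex (m : ℕ) (V : Measure (Euc k × L k)) (P : L k) (x : Euc k) (r : ℝ) : ℝ :=
  ex m V (ContinuousLinearMap.id ℝ (Euc k) - P) x r

/-- `V` is not `ω`-flat at scale `r` (w.r.t. any plane through `x`). -/
def NotFlat (m : ℕ) (V : Measure (Euc k × L k)) (x : Euc k) (ω r : ℝ) : Prop :=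
  ∀ P ∈ G m k, ω < pex m V P x r

/-- lower bound of the separation from every graph. -/
theorem sep_low (m n : ℕ) (hm : 1 ≤ m) {ω κ a₁ θ₁ Λ : ℝ} (hω : 0 < ω) (hκ : 0 ≤ κ) (ha₁ : 0 < a₁)
    (hθ₁ : 0 < θ₁) (hΛ : 0 < Λ) :
    ∃ c : ℝ, 0 < c ∧ ∃ g₀ : ℝ, 0 < g₀ ∧ g₀ ≤ 1 ∧
      ∀ {U : Set (Euc k)} {V : Measure (Euc k × L k)},
      Stat m k U V → ∀ {x : Euc k} {r a θ : ℝ}, 0 < r → 0 < a → a ≤ a₁ →
      Metric.closedBall x (a * r) ⊆ U → θ₁ ≤ θ → θ + g₀ ≤ Λ →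
      (∀ s ∈ Set.Ioo 0 (a * r), θ * s ^ m ≤ (mass V).real (Metric.closedBall x s)) →
      (mass V).real (Metric.ball x (a * r)) ≤ (θ + g₀) * (a * r) ^ m →
      NotFlat m V x ω (a * r) →
      ∀ (π : Euc k →L[ℝ] Euc m) (ρ : Euc k →L[ℝ] Euc n), Frame π ρ → ∀ (u : Euc m → Euc n)
        (B : Euc m →L[ℝ] Euc n),
      ContinuousOn u (Metric.closedBall 0 a) → ‖B‖ ≤ κ →
      (∀ w ∈ Metric.closedBall (0 : Euc m) a, ‖u w - u 0 - B w‖ ≤ κ * ‖w‖ ^ 2) →
      c * (a * r) ^ (m + 2) <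
        ∫ p in Prod.fst ⁻¹' (Metric.ball x (a * r)), ‖hgt π ρ x r u p.1‖ ^ 2 ∂V := by
  have hδ : 0 < ω / (1 + κ ^ 2) := by positivity
  obtain ⟨c, hc, g₀, hg₀, hg₁, H⟩ := flat_of_sep (k := k) (F := Euc n) m hm (θ₁ := θ₁) (Λ := Λ)
    (K₀ := max (1 + κ) (κ * a₁)) (δ := ω / (1 + κ ^ 2)) hθ₁ hΛ
    (le_trans (by positivity) (le_max_left _ _)) hδ
  refine ⟨c, hc, g₀, hg₀, hg₁, ?_⟩
  intro U V hV x r a θ hr ha haa hU hθ1 hθΛ hθ hM hnf π ρ hF u B hu hB hu2
  have har : 0 < a * r := by positivity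
  by_contra hcon
  rw [not_lt] at hcon
  have hmaps : ∀ z ∈ Metric.closedBall x (a * r), r⁻¹ • π (z - x) ∈
      Metric.closedBall (0 : Euc m) a := by
    intro z hz
    rw [mem_closedBall_zero_iff, norm_smul, Real.norm_of_nonneg (by positivity),
      inv_mul_le_iff₀ hr]
    have := fr_norm_p hF (z - x)
    rw [mem_closedBall_iff_norm] at hz
    linarith [mul_comm r a]
  have hpc : Continuous fun z : Euc k => r⁻¹ • π (z - x) :=
    (π.continuous.comp (continuous_id.sub continuous_const)).const_smul r⁻¹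
  have hG : ContinuousOn (hgt π ρ x r u) (Metric.closedBall x (a * r)) := by
    unfold hgt
    have h1 : ContinuousOn (fun z : Euc k => u (r⁻¹ • π (z - x))) (Metric.closedBall x (a * r)) :=
      hu.comp hpc.continuousOn hmaps
    have h2 : Continuous fun z : Euc k => ρ (z - x) :=
      ρ.continuous.comp (continuous_id.sub continuous_const)
    exact h2.continuousOn.sub (h1.const_smul r)
  have hx0 : hgt π ρ x r u x = -(r • u 0) := by simp [hgt]
  have hGA : ∀ z ∈ Metric.closedBall x (a * r),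
      ‖hgt π ρ x r u z - hgt π ρ x r u x - (ρ - B ∘L π) (z - x)‖ ≤
        max (1 + κ) (κ * a₁) * ‖z - x‖ ^ 2 / (a * r) := by
    intro z hz
    have h1 := hu2 _ (hmaps z hz)
    have e1 : hgt π ρ x r u z - hgt π ρ x r u x - (ρ - B ∘L π) (z - x) =
        -(r • (u (r⁻¹ • π (z - x)) - u 0 - B (r⁻¹ • π (z - x)))) := by
      rw [hx0]
      have e2 : (ρ - B ∘L π) (z - x) = ρ (z - x) - B (π (z - x)) := rfl
      rw [e2]
      unfold hgt
      rw [map_smul, smul_sub, smul_sub, smul_smul, mul_inv_cancel₀ hr.ne', one_smul]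
      abel
    rw [e1, norm_neg, norm_smul, Real.norm_of_nonneg hr.le]
    have h2 : ‖r⁻¹ • π (z - x)‖ ≤ ‖z - x‖ / r := by
      rw [norm_smul, Real.norm_of_nonneg (by positivity), div_eq_inv_mul]
      gcongr
      exact fr_norm_p hF _
    calc r * ‖u (r⁻¹ • π (z - x)) - u 0 - B (r⁻¹ • π (z - x))‖
        ≤ r * (κ * (‖z - x‖ / r) ^ 2) := by
          gcongr
          exact h1.trans (by gcongr)
      _ = (κ * a) * ‖z - x‖ ^ 2 / (a * r) := by
          field_simp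
      _ ≤ max (1 + κ) (κ * a₁) * ‖z - x‖ ^ 2 / (a * r) := by
          gcongr
          refine le_trans ?_ (le_max_right _ _)
          gcongr
  have hAn : ‖ρ - B ∘L π‖ ≤ max (1 + κ) (κ * a₁) :=
    (norm_lin_le hF B).trans (le_trans (by gcongr) (le_max_left _ _))
  have hsep : Top_395.sep m V (hgt π ρ x r u) x (a * r) ≤ c := by
    unfold Top_395.sep
    rw [inv_mul_le_iff₀ (by positivity)]
    linarith [mul_comm c ((a * r) ^ (m + 2))]
  have h3 := (H hV (ρ - B ∘L π) (hgt π ρ x r u) har hU hθ1 hθΛ hθ hM hAn hG hGA hsep).2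
  have h4 := hnf _ (gpr_mem hF B)
  have h5 : pex m V (gpr π ρ B) x (a * r) ≤
      (1 + ‖B‖ ^ 2) * ex m V (ρ - B ∘L π) x (a * r) := by
    unfold pex ex
    rw [← mul_assoc, mul_comm (1 + ‖B‖ ^ 2), mul_assoc]
    refine mul_le_mul_of_nonneg_left ?_ (by positivity)
    rw [← integral_const_mul]
    have hb : ∀ A : Euc k →L[ℝ] Euc n, IntegrableOn (fun p : Euc k × L k => ‖A (p.1 - x)‖ ^ 2)
        (Prod.fst ⁻¹' (Metric.ball x (a * r))) V := fun A =>
      intOn hV hU measurableSet_ball Metric.ball_subset_closedBall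
        (continuous_quad A x).aestronglyMeasurable (C := ‖A‖ ^ 2 * (a * r) ^ 2) fun p hp _ => by
          rw [Real.norm_of_nonneg (sq_nonneg _)]
          exact quad_le A (Metric.ball_subset_closedBall hp)
    have hb' : ∀ A : Euc k →L[ℝ] Euc k, IntegrableOn (fun p : Euc k × L k => ‖A (p.1 - x)‖ ^ 2)
        (Prod.fst ⁻¹' (Metric.ball x (a * r))) V := fun A =>
      intOn hV hU measurableSet_ball Metric.ball_subset_closedBall
        (continuous_quad A x).aestronglyMeasurable (C := ‖A‖ ^ 2 * (a * r) ^ 2) fun p hp _ => by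
          rw [Real.norm_of_nonneg (sq_nonneg _)]
          exact quad_le A (Metric.ball_subset_closedBall hp)
    refine setIntegral_mono_on (hb' _) ((hb _).const_mul _) (measS measurableSet_ball) ?_
    intro p _
    exact norm_sub_gpr_le hF B (p.1 - x)
  have hex0 := ex_nonneg (m := m) (V := V) (ρ - B ∘L π) x har.le
  have h6 : (1 + ‖B‖ ^ 2) * ex m V (ρ - B ∘L π) x (a * r) ≤
      (1 + κ ^ 2) * (ω / (1 + κ ^ 2)) := by gcongr
  rw [mul_div_cancel₀ _ (by positivity)] at h6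
  linarith

end Crest.Agent.R234.Top_395
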