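import Crest.Agent.R234.Main2_456
import Crest.Agent.R234.Mx4_397
import Crest.Agent.R234.Cy5_870

/-!
# Row 234, node F2 (helper570): the class `MG` of reference minimal graphs, and the frozen Props

* `MG N κ r u` : `u = ev a` on all of `ℝ^m`, `a` real in 397's Wiener space `X (N+2)`, `‖a‖ ≤ κ`,
  `u` solves the minimal surface system on `ball 0 r` only.
* `SelP`    : selection (one Newton step), loss `ε^{-p}` only, no loss of derivatives.
* `RescP`   : change of block (rotation to the tangent plane + zoom by `t`), the norm drops.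
* `NewtonP`, `RegP` : sub-nodes.
-/

set_option autoImplicit false
set_option linter.unusedVariables false

open MeasureTheory Filter Topology Set
open scoped ENNReal NNReal ContDiff
open Crest.GeometryTopology.Submanifold Crest.Agent.R234.Vf_884
open Crest.Agent.R234.Main_456 (Frame Msys)
open Crest.Agent.R086.Wie Crest.Agent.R234.Mx1_397

noncomputable section

namespace Crest.Agent.R234.MG_570

variable {m n k : ℕ}

/-- vectors of Wiener functions. -/
abbrev XV (m n N : ℕ) : Type := Fin n → X (Euc m) N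

/-- real vectors of Wiener functions. -/
def IsReal {N : ℕ} (a : XV m n N) : Prop := ∀ α, star (a α) = a α

/-- `u` is the function represented by `a`. -/
def Rep {N : ℕ} (a : XV m n N) (u : Euc m → Euc n) : Prop :=
  ∀ x α, ((u x α : ℝ) : ℂ) = ev (a α) x

/-- **class MG**. -/
def MG (N : ℕ) (κ r : ℝ) (u : Euc m → Euc n) : Prop :=
  ∃ a : XV m n (N + 2), IsReal a ∧ ‖a‖ ≤ κ ∧ Rep a u ∧
    ∀ z ∈ Metric.ball (0 : Euc m) r, Msys u z = 0

theorem MG.mono {N : ℕ} {κ κ' r r' : ℝ} {u : Euc m → Euc n} (h : MG N κ r u) (hκ : κ ≤ κ')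
    (hr : r' ≤ r) : MG N κ' r' u := by
  obtain ⟨a, h1, h2, h3, h4⟩ := h
  exact ⟨a, h1, h2.trans hκ, h3, fun z hz => h4 z (Metric.ball_subset_ball hr hz)⟩

/-- node (i): derivatives. -/
def BdP : Prop := ∀ (m n N : ℕ), ∃ C : ℝ, 0 ≤ C ∧ ∀ (κ r : ℝ) (u : Euc m → Euc n), MG N κ r u →
  ContDiff ℝ ((N + 2 : ℕ) : ℕ∞) u ∧
    ∀ j ≤ N + 2, ∀ x, ‖iteratedFDeriv ℝ j u x‖ ≤ C * κ

/-- mean functional of the heights over the graph of `u` (unit scale). -/
def bar (W : Measure (Euc k × L k)) (π : Euc k →L[ℝ] Euc m) (ρ : Euc k →L[ℝ] Euc n)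
    (u : Euc m → Euc n) (ζ : Euc m → ℝ) : Euc n :=
  ∫ p, ζ (π p.1) • (ρ p.1 - u (π p.1)) ∂W






end Crest.Agent.R234.MG_570
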