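import Crest.Agent.R234.GL4_394
import Crest.Agent.R234.Main2_456
import Crest.Agent.R234.End2_395
import Crest.Agent.R234.Nr1_884
import Crest.Agent.R234.Supm4_685
import Crest.Agent.R234.Top7_395
import Crest.Agent.R234.Gi5_456
import Crest.Agent.R234.Gi6_456
import Crest.Agent.R234.Ng2_290

-- ▼ part R234/End1_395
section

/-!
# Row 234, (V6) (helper395): the height functional `II` of the foot chart against `∫ |hgt|²`

`Cmp c K h p l` : pointwise comparison on `K` of the chart data `c` (394, 456) with the graph height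
`h` and the base coordinate `p` (`= π (z - x) - X0`).  `II_le`, `le_II` : two-sided comparison of
`II c V g1 l` with `e^{-ml} ∫_S ‖h‖² dV`; `II_le_sep`, `sep_le_II` : the same with `sep`.
-/

set_option autoImplicit false
set_option linter.unusedSectionVars false

open MeasureTheory Set Filter Topology
open Crest.GeometryTopology.Submanifold
open Crest.Agent.R234.Vf_884 Crest.Agent.R234.Cy_870 Crest.Agent.R234.GL_394
open Crest.Agent.R234.Main_456
open scoped ENNReal NNReal InnerProductSpace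

noncomputable section

namespace Crest.Agent.R234.End_395

variable {m n k : ℕ} {c : Ch m k} {K S : Set (Euc k)} {D : Set (Euc m)}
  {V : Measure (Euc k × L k)} {g g1 g2 : ℝ → ℝ} {B l η : ℝ}
  {h : Euc k → Euc n} {p : Euc k → Euc m}

/-- comparison of the chart data with height and base coordinate. -/
structure Cmp (c : Ch m k) (K : Set (Euc k)) (h : Euc k → Euc n) (p : Euc k → Euc m) (l : ℝ) :
    Prop where
  f1 : ∀ z ∈ K, 2 * c.f z ≤ 3 / 2 * ‖h z‖ ^ 2
  f2 : ∀ z ∈ K, ‖h z‖ ^ 2 ≤ 3 / 2 * (2 * c.f z)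
  x1 : ∀ z ∈ K, ‖c.x z‖ ≤ 33 / 32 * (‖p z‖ + ‖h z‖)
  x2 : ∀ z ∈ K, ‖p z‖ ≤ ‖c.x z‖ + ‖h z‖
  mu : ∀ z ∈ K, ‖c.x z‖ ≤ Real.exp l → 1 / 2 ≤ c.mu (c.x z) ∧ c.mu (c.x z) ≤ 3 / 2

/-- the integrand of `II`. -/
def ig (c : Ch m k) (g1 : ℝ → ℝ) (l : ℝ) (q : Euc k × L k) : ℝ :=
  (c.f q.1 * c.mu (c.x q.1)) * (-4 * g1 (Real.exp (-2 * l) * ‖c.x q.1‖ ^ 2))

theorem II_eq : II c V g1 l = Real.exp (-m * l) * ∫ q, ig c g1 l q ∂V := rfl

theorem sq_arg (l t : ℝ) : Real.exp (-2 * l) * t ^ 2 = (Real.exp (-l) * t) ^ 2 := by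
  rw [mul_pow, ← Real.exp_nat_mul]
  congr 2
  push_cast
  ring

theorem ig_nonneg (hc : Cmp c K h p l) (hg : Pf g g1 g2 B) {q : Euc k × L k} (hq : q.1 ∈ K) :
    0 ≤ ig c g1 l q := by
  have h0 : 0 ≤ c.f q.1 := by
    have := hc.f2 q.1 hq
    nlinarith [sq_nonneg ‖h q.1‖]
  unfold ig
  rcases le_or_gt ‖c.x q.1‖ (Real.exp l) with hx | hx
  · have h1 := (hc.mu q.1 hq hx).1
    have h2 := hg.pr.anti (Real.exp (-2 * l) * ‖c.x q.1‖ ^ 2) (by positivity)
    have h3 : 0 ≤ c.f q.1 * c.mu (c.x q.1) := mul_nonneg h0 (by linarith)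
    nlinarith
  · have h2 : g1 (Real.exp (-2 * l) * ‖c.x q.1‖ ^ 2) = 0 := by
      refine hg.pr.k1.zero _ ?_
      rw [sq_arg]
      have : 1 ≤ Real.exp (-l) * ‖c.x q.1‖ := by
        rw [Real.exp_neg, ← div_eq_inv_mul, one_le_div (Real.exp_pos l)]
        exact hx.le
      nlinarith
    rw [h2]
    simp

theorem ig_le (hc : Cmp c K h p l) (hg : Pf g g1 g2 B) (hB : 0 ≤ B) {q : Euc k × L k}
    (hq : q.1 ∈ K) (hη : ‖h q.1‖ ≤ η) :
    ig c g1 l q ≤ {q : Euc k × L k | ‖p q.1‖ ≤ Real.exp l + η}.indicator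
      (fun q => 9 / 2 * B * ‖h q.1‖ ^ 2) q := by
  have h0 : 0 ≤ c.f q.1 := by
    have := hc.f2 q.1 hq
    nlinarith [sq_nonneg ‖h q.1‖]
  rcases le_or_gt ‖c.x q.1‖ (Real.exp l) with hx | hx
  · have hmem : q ∈ {q : Euc k × L k | ‖p q.1‖ ≤ Real.exp l + η} := by
      have := hc.x2 q.1 hq
      show ‖p q.1‖ ≤ Real.exp l + η
      linarith
    rw [indicator_of_mem hmem]
    unfold ig
    obtain ⟨h1, h2⟩ := hc.mu q.1 hq hx
    have h3 := hg.b1 (Real.exp (-2 * l) * ‖c.x q.1‖ ^ 2) (by positivity)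
    have h4 := hg.pr.anti (Real.exp (-2 * l) * ‖c.x q.1‖ ^ 2) (by positivity)
    have h5 := hc.f1 q.1 hq
    have h6 : c.f q.1 * c.mu (c.x q.1) ≤ 3 / 4 * ‖h q.1‖ ^ 2 * (3 / 2) := by
      refine mul_le_mul (by linarith) h2 (by linarith) (by positivity)
    have h7 : c.f q.1 * c.mu (c.x q.1) * (-4 * g1 (Real.exp (-2 * l) * ‖c.x q.1‖ ^ 2)) ≤
        3 / 4 * ‖h q.1‖ ^ 2 * (3 / 2) * (4 * B) := by
      refine mul_le_mul h6 (by linarith) (by linarith) (by positivity)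
    refine h7.trans (le_of_eq ?_)
    ring
  · have h2 : g1 (Real.exp (-2 * l) * ‖c.x q.1‖ ^ 2) = 0 := by
      refine hg.pr.k1.zero _ ?_
      rw [sq_arg]
      have : 1 ≤ Real.exp (-l) * ‖c.x q.1‖ := by
        rw [Real.exp_neg, ← div_eq_inv_mul, one_le_div (Real.exp_pos l)]
        exact hx.le
      nlinarith
    unfold ig
    rw [h2, mul_zero, mul_zero]
    refine indicator_nonneg (fun q _ => ?_) q
    positivity

/-- upper bound of `II`. -/
theorem II_le (hV : On V m K) (hK : IsCompact K) (hc : Cmp c K h p l) (hg : Pf g g1 g2 B)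
    (hB : 0 ≤ B) (hh : ContinuousOn h K) (hη : ∀ z ∈ K, ‖h z‖ ≤ η) (hS : MeasurableSet S)
    (hsub : ∀ z ∈ K, ‖p z‖ ≤ Real.exp l + η → z ∈ S) :
    II c V g1 l ≤ 9 / 2 * B * (Real.exp (-m * l) * ∫ q in Prod.fst ⁻¹' S, ‖h q.1‖ ^ 2 ∂V) := by
  rw [II_eq]
  have hcont : ContinuousOn (fun q : Euc k × L k => ‖h q.1‖ ^ 2) (K ×ˢ G m k) :=
    (hh.comp continuousOn_fst fun q hq => hq.1).norm.pow 2
  have hint : Integrable (fun q : Euc k × L k => ‖h q.1‖ ^ 2) V := hV.integrable hK hcont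
  have hSm : MeasurableSet ((Prod.fst : Euc k × L k → Euc k) ⁻¹' S) := measurable_fst hS
  have h1 : ∫ q, ig c g1 l q ∂V ≤
      ∫ q, ((Prod.fst : Euc k × L k → Euc k) ⁻¹' S).indicator
        (fun q => 9 / 2 * B * ‖h q.1‖ ^ 2) q ∂V := by
    refine integral_mono_of_nonneg ?_ ((hint.const_mul _).indicator hSm) ?_
    · filter_upwards [hV.mem] with q hq
      exact ig_nonneg hc hg hq.1
    · filter_upwards [hV.mem] with q hq
      refine (ig_le hc hg hB hq.1 (hη q.1 hq.1)).trans ?_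
      by_cases hmem : q ∈ {q : Euc k × L k | ‖p q.1‖ ≤ Real.exp l + η}
      · rw [indicator_of_mem hmem, indicator_of_mem (show q ∈ Prod.fst ⁻¹' S from
          hsub q.1 hq.1 hmem)]
      · rw [indicator_of_notMem hmem]
        exact indicator_nonneg (fun q _ => by positivity) q
  rw [integral_indicator hSm, integral_const_mul] at h1
  calc Real.exp (-m * l) * ∫ q, ig c g1 l q ∂V
      ≤ Real.exp (-m * l) * (9 / 2 * B * ∫ q in Prod.fst ⁻¹' S, ‖h q.1‖ ^ 2 ∂V) := by gcongr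
    _ = _ := by ring

/-- lower bound of `II`. -/
theorem le_II (hok : Ok c K D) (hV : On V m K) (hc : Cmp c K h p l) (hg : Pf g g1 g2 B)
    (hh : ContinuousOn h K) {a b : ℝ} (ha : a ≤ 1) (hb : 0 ≤ b)
    (hg1 : ∀ t, 0 ≤ t → t ≤ a ^ 2 → b ≤ -g1 t) (hS : MeasurableSet S)
    (hsub : ∀ z ∈ K, z ∈ S → 33 / 32 * (‖p z‖ + ‖h z‖) ≤ a * Real.exp l) :
    2 / 3 * b * (Real.exp (-m * l) * ∫ q in Prod.fst ⁻¹' S, ‖h q.1‖ ^ 2 ∂V) ≤ II c V g1 l := by
  rw [II_eq]
  have hcont : ContinuousOn (fun q : Euc k × L k => ‖h q.1‖ ^ 2) (K ×ˢ G m k) :=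
    (hh.comp continuousOn_fst fun q hq => hq.1).norm.pow 2
  have hint : Integrable (fun q : Euc k × L k => ‖h q.1‖ ^ 2) V := hV.integrable hok.cpt hcont
  have hig : Integrable (ig c g1 l) V := by
    refine hV.integrable hok.cpt ?_
    unfold ig
    have e1 : ContinuousOn (fun q : Euc k × L k => c.f q.1) (K ×ˢ G m k) :=
      hok.cf.comp continuousOn_fst fun q hq => hq.1
    have e2 : ContinuousOn (fun q : Euc k × L k => c.x q.1) (K ×ˢ G m k) :=
      hok.cx.comp continuousOn_fst fun q hq => hq.1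
    have e3 : ContinuousOn (fun q : Euc k × L k => c.mu (c.x q.1)) (K ×ˢ G m k) :=
      hok.cmu.comp e2 fun q hq => hok.mem q.1 hq.1
    have e4 : ContinuousOn (fun q : Euc k × L k =>
        g1 (Real.exp (-2 * l) * ‖c.x q.1‖ ^ 2)) (K ×ˢ G m k) :=
      hg.pr.k1.continuous.comp_continuousOn (continuousOn_const.mul (e2.norm.pow 2))
    exact (e1.mul e3).mul (continuousOn_const.mul e4)
  have hSm : MeasurableSet ((Prod.fst : Euc k × L k → Euc k) ⁻¹' S) := measurable_fst hS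
  have h1 : ∫ q, ((Prod.fst : Euc k × L k → Euc k) ⁻¹' S).indicator
        (fun q => 2 / 3 * b * ‖h q.1‖ ^ 2) q ∂V ≤ ∫ q, ig c g1 l q ∂V := by
    refine integral_mono_ae ((hint.const_mul _).indicator hSm) hig ?_
    filter_upwards [hV.mem] with q hq
    by_cases hmem : q ∈ (Prod.fst : Euc k × L k → Euc k) ⁻¹' S
    · rw [indicator_of_mem hmem]
      have h2 := hsub q.1 hq.1 hmem
      have h3 := hc.x1 q.1 hq.1
      have h4 : ‖c.x q.1‖ ≤ a * Real.exp l := h3.trans h2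
      have h5 : ‖c.x q.1‖ ≤ Real.exp l := h4.trans (by
        have := Real.exp_pos l
        nlinarith)
      obtain ⟨h6, -⟩ := hc.mu q.1 hq.1 h5
      have h7 : b ≤ -g1 (Real.exp (-2 * l) * ‖c.x q.1‖ ^ 2) := by
        refine hg1 _ (by positivity) ?_
        rw [sq_arg]
        have h8 : Real.exp (-l) * ‖c.x q.1‖ ≤ a := by
          rw [Real.exp_neg, inv_mul_le_iff₀ (Real.exp_pos l), mul_comm]
          exact h4
        exact pow_le_pow_left₀ (by positivity) h8 2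
      have h9 := hc.f2 q.1 hq.1
      have h10 : 1 / 3 * ‖h q.1‖ ^ 2 * (1 / 2) ≤ c.f q.1 * c.mu (c.x q.1) := by
        have : 1 / 3 * ‖h q.1‖ ^ 2 ≤ c.f q.1 := by linarith
        refine mul_le_mul this h6 (by norm_num) (le_trans (by positivity) this)
      have h11 : 1 / 3 * ‖h q.1‖ ^ 2 * (1 / 2) * (4 * b) ≤
          c.f q.1 * c.mu (c.x q.1) * (-4 * g1 (Real.exp (-2 * l) * ‖c.x q.1‖ ^ 2)) := by
        refine mul_le_mul h10 (by linarith) (by linarith) (le_trans (by positivity) h10)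
      unfold ig
      refine le_trans (le_of_eq ?_) h11
      ring
    · rw [indicator_of_notMem hmem]
      exact ig_nonneg hc hg hq.1
  rw [integral_indicator hSm, integral_const_mul] at h1
  calc _ = Real.exp (-m * l) * (2 / 3 * b * ∫ q in Prod.fst ⁻¹' S, ‖h q.1‖ ^ 2 ∂V) := by ring
    _ ≤ _ := by gcongr

end Crest.Agent.R234.End_395
end
end

-- ▼ part R234/End3_395
section

/-!
# Row 234, (END) (helper395), part 3: `Ref` from the data of a state

`StD` : the data of a state around `x` at the scale `r` (graph `w` with base point `q`, chart `c` on the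
compact set `Kc`, comparison, doubling of `II`, small mean).  `ref_of_std` : `StD` gives `Ref`.
-/

set_option autoImplicit false
set_option linter.unusedSectionVars false

open MeasureTheory Set Filter Topology
open Crest.GeometryTopology.Submanifold Crest.Agent.R234.Vf_884
open Crest.Agent.R234.Main_456 Crest.Agent.R234.GL_394
open Crest.Agent.R234.AS_456 (hp vp)
open scoped ENNReal NNReal InnerProductSpace ContDiff

noncomputable section

namespace Crest.Agent.R234.End_395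

variable {m n k : ℕ}

/-- data of a state at `x`, scale `r`; `κ` = all small quantities, `G` = growth constant. -/
structure StD (U : Set (Euc k)) (V : Measure (Euc k × L k)) (x : Euc k) (r : ℝ)
    (π : Euc k →L[ℝ] Euc m) (ρ : Euc k →L[ℝ] Euc n) (q : Euc k) (w : Euc m → Euc n)
    (c : Ch m k) (Kc : Set (Euc k)) (D : Set (Euc m)) (g1 : ℝ → ℝ) (R κ G : ℝ) (K : ℕ) : Prop where
  frame : Frame π ρ
  hR : 34 * r + ‖π (x - q)‖ ≤ R
  cd : ContDiffOn ℝ 2 w (Metric.ball 0 R)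
  d1 : ∀ X ∈ Metric.ball (0 : Euc m) R, ‖fderiv ℝ w X‖ ≤ κ
  d2 : ∀ X ∈ Metric.ball (0 : Euc m) R, r * ‖fderiv ℝ (fderiv ℝ w) X‖ ≤ κ
  ms : ∀ X ∈ Metric.ball (0 : Euc m) R, Msys w X = 0
  near0 : ‖w (π (x - q)) - ρ (x - q)‖ ≤ κ * r
  ok : Ok c Kc D
  on : On (V.restrict (Kc ×ˢ univ)) m Kc
  cmp : Cmp c Kc (fun z => ρ (z - q) - w (π (z - q))) (fun z => π (z - x)) (Real.log (12 * r))
  hh : ContinuousOn (fun z => ρ (z - q) - w (π (z - q))) Kc
  mem : ∀ᵐ p ∂V, p.1 ∈ box π ρ x (8 * r) → p.1 ∈ Kc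
  sup : ∀ z ∈ Kc, ‖ρ (z - q) - w (π (z - q))‖ ≤ κ * r
  pos : 0 < II c (V.restrict (Kc ×ˢ univ)) g1 (Real.log (r / 8))
  dbl : II c (V.restrict (Kc ×ˢ univ)) g1 (Real.log (12 * r)) ≤
    Real.exp G * II c (V.restrict (Kc ×ˢ univ)) g1 (Real.log (r / 8))
  sml : II c (V.restrict (Kc ×ˢ univ)) g1 (Real.log (12 * r)) ≤ κ * r ^ 2
  mean : ∀ ζ : Euc m → ℝ, ContDiff ℝ ∞ ζ → tsupport ζ ⊆ Metric.ball 0 8 →
    (∀ j ≤ K, ∀ z, ‖iteratedFDeriv ℝ j ζ z‖ ≤ 1) →
    ‖∫ p in box π ρ x (8 * r) ×ˢ univ, ζ (r⁻¹ • π (p.1 - x)) •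
      (ρ (p.1 - q) - w (π (p.1 - q))) ∂V‖ ^ 2 ≤
      κ ^ 2 * (r ^ m * (r ^ m * II c (V.restrict (Kc ×ˢ univ)) g1 (Real.log (r / 8))))

theorem isOpen_box (π : Euc k →L[ℝ] Euc m) (ρ : Euc k →L[ℝ] Euc n) (x : Euc k) (a : ℝ) :
    IsOpen (box π ρ x a) := by
  have h1 : box π ρ x a = {z | ‖π (z - x)‖ < a} ∩ {z | ‖ρ (z - x)‖ < a} := rfl
  rw [h1]
  exact (isOpen_lt (by fun_prop) continuous_const).inter (isOpen_lt (by fun_prop) continuous_const)

theorem exp_neg_log (m : ℕ) {a : ℝ} (ha : 0 < a) : Real.exp (-m * Real.log a) = (a ^ m)⁻¹ := by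
  rw [neg_mul, Real.exp_neg, Real.exp_nat_mul, Real.exp_log ha]

set_option maxHeartbeats 1600000 in
/-- **(END)**: `Ref` from the data of a state. -/
theorem ref_of_std (m n k Q K : ℕ) (hm : 1 ≤ m) {g g1 g2 : ℝ → ℝ} {B b : ℝ} (hg : Pf g g1 g2 B)
    (hB : 0 < B) (hb : 0 < b) (hgb : ∀ t, 0 ≤ t → t ≤ (3 / 4) ^ 2 → b ≤ -g1 t) :
    ∀ G : ℝ, ∃ C : ℝ, ∀ ε : ℝ, 0 < ε → ∃ δ : ℝ, 0 < δ ∧
      ∀ (U : Set (Euc k)) (V : Measure (Euc k × L k)), Stat m k U V → ∀ (x : Euc k) (r : ℝ), 0 < r →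
        Metric.closedBall x (128 * r) ⊆ U → 1 ≤ Th m V x → ∀ P : L k,
        NearQ m V Q x (128 * r) δ P →
        ∀ (π : Euc k →L[ℝ] Euc m) (ρ : Euc k →L[ℝ] Euc n) (q : Euc k) (w : Euc m → Euc n)
          (c : Ch m k) (Kc : Set (Euc k)) (D : Set (Euc m)) (R : ℝ),
          StD U V x r π ρ q w c Kc D g1 R δ G K →
          ∃ u : Euc m → Euc n, Ref V Q x r π ρ u K ε C := by
  intro G
  obtain ⟨κ₀, C₁, hκ₀, hC₁, HG⟩ := ref_graph_sh m n K hm
  obtain ⟨C₂, hC₂, HN⟩ := Nr_884.nearRot m n k Q hm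
  set C : ℝ := 3 / (2 * b) * 12 ^ m * (Real.exp G * (9 / 2 * B * 8 ^ m)) with hC
  have hC0 : 0 < C := by positivity
  refine ⟨C, ?_⟩
  intro ε hε
  -- the small constant
  set A₃ : ℝ := 3 / (2 * b) * 12 ^ m with hA₃
  have hA₃0 : 0 < A₃ := by positivity
  set A₄ : ℝ := C₂ * (1 + A₃ + C₁ ^ 2) with hA₄
  have hA₄0 : 0 < A₄ := by positivity
  set A₅ : ℝ := 9 / 2 * B * 8 ^ m with hA₅
  have hA₅0 : 0 < A₅ := by positivity
  obtain ⟨δ, hδ0, hδ1, hδκ, hδε, hδA, hδ5⟩ : ∃ δ : ℝ, 0 < δ ∧ δ ≤ 1 / 64 ∧ δ ≤ κ₀ ∧ C₁ * δ ≤ ε ∧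
      A₄ * δ ≤ ε ∧ δ ^ 2 * A₅ ≤ ε ^ 2 := by
    refine ⟨min (min (1 / 64) κ₀) (min (ε / (C₁ + 1)) (min (ε / A₄) (ε ^ 2 / A₅))), by positivity,
      (min_le_left _ _).trans (min_le_left _ _), (min_le_left _ _).trans (min_le_right _ _), ?_, ?_,
      ?_⟩
    · set δ := min (min (1 / 64) κ₀) (min (ε / (C₁ + 1)) (min (ε / A₄) (ε ^ 2 / A₅))) with hδ
      have h0 : 0 ≤ δ := by positivity
      have h1 : δ ≤ ε / (C₁ + 1) := (min_le_right _ _).trans (min_le_left _ _)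
      rw [le_div_iff₀ (by positivity)] at h1
      nlinarith
    · set δ := min (min (1 / 64) κ₀) (min (ε / (C₁ + 1)) (min (ε / A₄) (ε ^ 2 / A₅))) with hδ
      have h1 : δ ≤ ε / A₄ := (min_le_right _ _).trans ((min_le_right _ _).trans (min_le_left _ _))
      rw [le_div_iff₀ (by positivity)] at h1
      linarith
    · set δ := min (min (1 / 64) κ₀) (min (ε / (C₁ + 1)) (min (ε / A₄) (ε ^ 2 / A₅))) with hδ
      have h0 : 0 < δ := by positivity
      have h1 : δ ≤ ε ^ 2 / A₅ :=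
        (min_le_right _ _).trans ((min_le_right _ _).trans (min_le_right _ _))
      have h2 : δ ≤ 1 / 64 := (min_le_left _ _).trans (min_le_left _ _)
      rw [le_div_iff₀ (by positivity)] at h1
      have h3 : δ ^ 2 * A₅ ≤ δ * A₅ := by
        have : 0 < δ * A₅ := by positivity
        nlinarith
      linarith
  refine ⟨δ, hδ0, ?_⟩
  intro U V hV x r hr hU hTh P hnear π ρ q w c Kc D R h
  set X₀ := π (x - q) with hX₀
  set b₀ := ρ (x - q) with hb₀
  obtain ⟨u, hu1, hu2, hu3, hu4⟩ := HG w δ r R X₀ b₀ hr hδ0.le hδκ h.hR h.cd h.d1 h.d2 h.ms h.near0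
  set V' := V.restrict (Kc ×ˢ univ) with hV'
  set hz : Euc k → Euc n := fun z => ρ (z - q) - w (π (z - q)) with hhz
  have hf := h.frame
  -- heights
  have hhgt : ∀ z, ‖π (z - x)‖ < 33 * r → hgt π ρ x r u z = hz z := by
    intro z hzb
    have h0 := hgt_sh (x := x) (q := q) (z := z) (π := π) (ρ := ρ) hr.ne' w
    refine Eq.trans ?_ h0
    unfold hgt
    rw [hu2]
    rw [mem_ball_zero_iff, norm_smul, norm_inv, Real.norm_of_nonneg hr.le, inv_mul_lt_iff₀ hr]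
    linarith
  have hbox : ∀ {a : ℝ}, a ≤ 8 → ∀ z ∈ box π ρ x (a * r), hgt π ρ x r u z = hz z := by
    intro a ha z hzb
    refine hhgt z (hzb.1.trans_le ?_)
    nlinarith
  have hbm : ∀ a : ℝ, MeasurableSet (box π ρ x a) := fun a => (isOpen_box π ρ x a).measurableSet
  have hsep : ∀ {a : ℝ}, a ≤ 8 → sep V π ρ x r u a =
      ∫ p in Prod.fst ⁻¹' (box π ρ x (a * r)), ‖hz p.1‖ ^ 2 ∂V := by
    intro a ha
    unfold sep
    rw [Top_395.prod_eq]
    refine setIntegral_congr_fun (measurable_fst (hbm _)) ?_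
    intro p hp
    simp only
    rw [hbox ha p.1 hp]
  have hucont : Continuous u := hu1.continuous
  have hint8 : IntegrableOn (fun p : Euc k × L k => ‖hgt π ρ x r u p.1‖ ^ 2)
      (box π ρ x (8 * r) ×ˢ univ) V := by
    refine Supm_685.integrableOn_box hV hf ?_ (g := fun z => ‖hgt π ρ x r u z‖ ^ 2) ?_
    · exact (Metric.closedBall_subset_closedBall (by linarith)).trans hU
    · unfold hgt
      fun_prop
  have hbsub : ∀ {a : ℝ}, a ≤ 8 → box π ρ x (a * r) ⊆ box π ρ x (8 * r) := by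
    intro a ha z hzb
    have : a * r ≤ 8 * r := by nlinarith
    exact ⟨hzb.1.trans_le this, hzb.2.trans_le this⟩
  -- the integral over the box 8 r seen by `V'`
  have hV'8 : ∫ p in Prod.fst ⁻¹' (box π ρ x (8 * r)), ‖hz p.1‖ ^ 2 ∂V' =
      ∫ p in Prod.fst ⁻¹' (box π ρ x (8 * r)), ‖hz p.1‖ ^ 2 ∂V := by
    rw [hV', Measure.restrict_restrict (measurable_fst (hbm _))]
    refine setIntegral_congr_set ?_
    filter_upwards [h.mem] with p hp
    refine propext ⟨fun h1 => h1.1, fun h1 => ⟨h1, hp h1, mem_univ _⟩⟩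
  have hl1 : Real.exp (Real.log (12 * r)) = 12 * r := Real.exp_log (by positivity)
  have hl2 : Real.exp (Real.log (r / 8)) = r / 8 := Real.exp_log (by positivity)
  -- sep 8 ≤ A₃ r^m II(l₁)
  have hS8 : sep V π ρ x r u 8 ≤ A₃ * (r ^ m * II c V' g1 (Real.log (12 * r))) := by
    have h1 := le_II (S := box π ρ x (8 * r)) (a := 3 / 4) (b := b) h.ok h.on h.cmp hg h.hh
      (by norm_num) hb.le hgb (hbm _) (by
        intro z hzK hzS
        have h2 := h.sup z hzK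
        rw [hl1]
        have h3 := hzS.1
        have h4 : δ * r ≤ 1 / 64 * r := by gcongr
        linarith)
    rw [hV'8, exp_neg_log m (by positivity : (0:ℝ) < 12 * r), ← hsep le_rfl] at h1
    have h5 : sep V π ρ x r u 8 = 3 / (2 * b) * (12 * r) ^ m *
        (2 / 3 * b * (((12 * r) ^ m)⁻¹ * sep V π ρ x r u 8)) := by
      field_simp
    rw [h5]
    calc 3 / (2 * b) * (12 * r) ^ m * (2 / 3 * b * (((12 * r) ^ m)⁻¹ * sep V π ρ x r u 8))
        ≤ 3 / (2 * b) * (12 * r) ^ m * II c V' g1 (Real.log (12 * r)) := by gcongr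
      _ = A₃ * (r ^ m * II c V' g1 (Real.log (12 * r))) := by
          rw [hA₃, mul_pow]; ring
  -- II(l₂) ≤ A₅ r^{-m} sep (1/4)
  have hS4 : r ^ m * II c V' g1 (Real.log (r / 8)) ≤ A₅ * sep V π ρ x r u (1 / 4) := by
    have hsubK : ∀ z ∈ Kc, ‖π (z - x)‖ ≤ Real.exp (Real.log (r / 8)) + δ * r →
        z ∈ box π ρ x (1 / 4 * r) := by
      intro z hzK hzp
      rw [hl2] at hzp
      have h4 : δ * r ≤ 1 / 64 * r := by gcongr
      have h5 : ‖π (z - x)‖ < 1 / 4 * r := by linarith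
      refine ⟨h5, ?_⟩
      have h6 : ρ (z - x) = hz z + ((w (π (z - q)) - w X₀) + (w X₀ - b₀)) := by
        have : ρ (z - q) = ρ (z - x) + ρ (x - q) := by rw [← map_add, sub_add_sub_cancel]
        rw [hhz]
        simp only
        rw [this, hb₀]
        abel
      have h7 : π (z - q) - X₀ = π (z - x) := by
        rw [hX₀, ← map_sub, sub_sub_sub_cancel_right]
      have hXR : X₀ ∈ Metric.ball (0 : Euc m) R := by
        rw [mem_ball_zero_iff]
        have := h.hR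
        linarith
      have hzR : π (z - q) ∈ Metric.ball (0 : Euc m) R := by
        rw [mem_ball_zero_iff]
        have h8 : π (z - q) = π (z - x) + X₀ := by rw [← h7]; abel
        rw [h8]
        have := norm_add_le (π (z - x)) X₀
        have := h.hR
        linarith
      have h8 : ‖w (π (z - q)) - w X₀‖ ≤ δ * ‖π (z - x)‖ := by
        have h9 := (convex_ball (0 : Euc m) R).norm_image_sub_le_of_norm_fderiv_le
          (fun X hX => ((h.cd.contDiffAt (Metric.isOpen_ball.mem_nhds hX)).differentiableAt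
            (by norm_num))) h.d1 hXR hzR
        rwa [h7] at h9
      have h9 := h.sup z hzK
      have h10 := h.near0
      rw [h6]
      have h11 := norm_add_le (hz z) ((w (π (z - q)) - w X₀) + (w X₀ - b₀))
      have h12 := norm_add_le (w (π (z - q)) - w X₀) (w X₀ - b₀)
      have h13 : δ * ‖π (z - x)‖ ≤ 1 / 64 * (1 / 4 * r) := by gcongr
      have h14 : ‖hz z‖ ≤ δ * r := h9
      linarith
    have h1 := II_le (S := box π ρ x (1 / 4 * r)) (η := δ * r) h.on h.ok.cpt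
      (l := Real.log (r / 8)) (p := fun z => π (z - x)) (h := hz)
      ⟨h.cmp.f1, h.cmp.f2, h.cmp.x1, h.cmp.x2, fun z hz1 hz2 => h.cmp.mu z hz1 (hz2.trans (by
        rw [hl1, hl2]; linarith))⟩ hg hB.le h.hh h.sup (hbm _) hsubK
    rw [exp_neg_log m (by positivity : (0:ℝ) < r / 8)] at h1
    have h2 : ∫ p in Prod.fst ⁻¹' (box π ρ x (1 / 4 * r)), ‖hz p.1‖ ^ 2 ∂V' ≤
        sep V π ρ x r u (1 / 4) := by
      rw [hsep (by norm_num)]
      refine integral_mono_measure ?_ (Eventually.of_forall fun p => by positivity) ?_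
      · exact Measure.restrict_mono_measure Measure.restrict_le_self _
      · have h3 : IntegrableOn (fun p : Euc k × L k => ‖hgt π ρ x r u p.1‖ ^ 2)
            (Prod.fst ⁻¹' (box π ρ x (1 / 4 * r))) V := by
          rw [← Top_395.prod_eq]
          exact hint8.mono_set (Set.prod_mono (hbsub (by norm_num)) Subset.rfl)
        refine h3.congr_fun (fun p hp => ?_) (measurable_fst (hbm _))
        simp only
        rw [hbox (by norm_num : (1:ℝ) / 4 ≤ 8) p.1 hp]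
    calc r ^ m * II c V' g1 (Real.log (r / 8))
        ≤ r ^ m * (9 / 2 * B * (((r / 8) ^ m)⁻¹ *
          ∫ p in Prod.fst ⁻¹' (box π ρ x (1 / 4 * r)), ‖hz p.1‖ ^ 2 ∂V')) := by gcongr
      _ ≤ r ^ m * (9 / 2 * B * (((r / 8) ^ m)⁻¹ * sep V π ρ x r u (1 / 4))) := by gcongr
      _ = A₅ * sep V π ρ x r u (1 / 4) := by
          rw [hA₅, div_pow]
          field_simp
  have hpos : 0 < sep V π ρ x r u (1 / 4) := by
    have h1 : 0 < r ^ m * II c V' g1 (Real.log (r / 8)) := mul_pos (by positivity) h.pos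
    have h2 := h1.trans_le hS4
    exact pos_of_mul_pos_right h2 hA₅0.le
  have hdbl : sep V π ρ x r u 8 ≤ C * sep V π ρ x r u (1 / 4) := by
    calc sep V π ρ x r u 8 ≤ A₃ * (r ^ m * II c V' g1 (Real.log (12 * r))) := hS8
      _ ≤ A₃ * (r ^ m * (Real.exp G * II c V' g1 (Real.log (r / 8)))) := by
          have := h.dbl
          gcongr
      _ = A₃ * (Real.exp G * (r ^ m * II c V' g1 (Real.log (r / 8)))) := by ring
      _ ≤ A₃ * (Real.exp G * (A₅ * sep V π ρ x r u (1 / 4))) := by gcongr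
      _ = C * sep V π ρ x r u (1 / 4) := by rw [hC, hA₃, hA₅]; ring
  have h4le8 : sep V π ρ x r u (1 / 4) ≤ sep V π ρ x r u 8 := by
    unfold sep
    refine setIntegral_mono_set hint8 (Eventually.of_forall fun p => by positivity) ?_
    exact (Set.prod_mono (hbsub (by norm_num)) Subset.rfl).eventuallyLE
  have hsml : sep V π ρ x r u 8 ≤ A₃ * δ * r ^ (m + 2) := by
    calc sep V π ρ x r u 8 ≤ A₃ * (r ^ m * II c V' g1 (Real.log (12 * r))) := hS8
      _ ≤ A₃ * (r ^ m * (δ * r ^ 2)) := by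
          have := h.sml
          gcongr
      _ = A₃ * δ * r ^ (m + 2) := by ring
  have hu8 : ∀ z ∈ Metric.ball (0 : Euc m) 8, ‖u z‖ ≤ C₁ * δ := by
    intro z hz1
    have h1 := hu3 0 (Nat.zero_le K) z (Metric.ball_subset_ball (by norm_num) hz1)
    rwa [norm_iteratedFDeriv_zero] at h1
  obtain ⟨-, hNe⟩ := HN U V hV x r hr hU hTh P δ hδ0.le (by linarith) hnear π ρ hf u (C₁ * δ)
    (A₃ * δ) hucont (by positivity) (by positivity) hu8 hsml
  have hsmall : C₂ * (δ + A₃ * δ + (C₁ * δ) ^ 2) ≤ ε := by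
    refine le_trans ?_ hδA
    rw [hA₄]
    have h1 : (C₁ * δ) ^ 2 ≤ C₁ ^ 2 * δ := by
      rw [mul_pow]
      have : δ ^ 2 ≤ δ := by nlinarith
      gcongr
    nlinarith
  refine ⟨u, ?_⟩
  refine { frame := hf, near := ?_, smooth := hu1, small := ?_, minimal := hu4, pos := hpos,
           dbl := hdbl, mean := ?_ }
  · obtain ⟨h1, h2, h3⟩ := hNe
    refine ⟨h1, h2.trans ?_, h3.trans ?_⟩
    · gcongr
    · gcongr
  · intro j hj z hz1
    exact (hu3 j hj z hz1).trans hδε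
  · intro ζ hζ1 hζ2 hζ3
    have h1 := h.mean ζ hζ1 hζ2 hζ3
    have h2 : ∫ p in box π ρ x (8 * r) ×ˢ univ, ζ (r⁻¹ • π (p.1 - x)) • hgt π ρ x r u p.1 ∂V =
        ∫ p in box π ρ x (8 * r) ×ˢ univ, ζ (r⁻¹ • π (p.1 - x)) •
          (ρ (p.1 - q) - w (π (p.1 - q))) ∂V := by
      refine setIntegral_congr_fun ((hbm _).prod MeasurableSet.univ) ?_
      intro p hp
      simp only
      rw [hbox le_rfl p.1 hp.1]
    rw [h2]
    refine h1.trans ?_
    calc δ ^ 2 * (r ^ m * (r ^ m * II c V' g1 (Real.log (r / 8))))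
        ≤ δ ^ 2 * (r ^ m * (A₅ * sep V π ρ x r u (1 / 4))) := by gcongr
      _ = (δ ^ 2 * A₅) * r ^ m * sep V π ρ x r u (1 / 4) := by ring
      _ ≤ ε ^ 2 * r ^ m * sep V π ρ x r u 8 := by
          have : 0 ≤ sep V π ρ x r u 8 := hpos.le.trans h4le8
          gcongr

end Crest.Agent.R234.End_395
end
end

-- ▼ part R234/End4_395

/-!
# Row 234, (END) (helper395), part 4: the chart of a block

`cmp_ch` : the chart `ch` of a graph satisfies `Cmp`.  `Blk` : data of a block with base point `x`,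
centre `0`.  `std_of_blk` : `Blk` gives `StD`.
-/

set_option autoImplicit false
set_option linter.unusedSectionVars false

open MeasureTheory Set Filter Topology
open Crest.GeometryTopology.Submanifold Crest.Agent.R234.Vf_884
open Crest.Agent.R234.Main_456 Crest.Agent.R234.GL_394 Crest.Agent.R234.Gi_456
open Crest.Agent.R234.AS_456 (hp vp)
open scoped ENNReal NNReal InnerProductSpace ContDiff

noncomputable section

namespace Crest.Agent.R234.End_395

variable {m n k : ℕ} {π : Euc k →L[ℝ] Euc m} {ρ : Euc k →L[ℝ] Euc n} {x : Euc k} {S : ℝ}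
  {w : Euc m → Euc n} {X0 : Euc m}

local notation "adj" => ContinuousLinearMap.adjoint

/-- `|nu|² = |y|² + |Dw† y|²` -/
theorem nu_sq (hf : Frame π ρ) (z : Euc k) : ‖(ch π ρ x S w X0).nu z‖ ^ 2 =
    ‖yy π ρ x S w z‖ ^ 2 + ‖adj (fderiv ℝ w (foot π ρ x S w z)) (yy π ρ x S w z)‖ ^ 2 := by
  show ‖Bt π ρ w (foot π ρ x S w z) (yy π ρ x S w z)‖ ^ 2 = _
  have e := GLK_128.hh_inner (fderiv ℝ w (foot π ρ x S w z)) (yy π ρ x S w z)
  rw [← e, ← GLK_128.BB_BB (frame_fr hf), ContinuousLinearMap.comp_apply,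
    ContinuousLinearMap.adjoint_inner_left, real_inner_self_eq_norm_sq]
  rfl

theorem two_f (z : Euc k) : 2 * (ch π ρ x S w X0).f z = ‖(ch π ρ x S w X0).nu z‖ ^ 2 := by
  show 2 * (‖Bt π ρ w (foot π ρ x S w z) (yy π ρ x S w z)‖ ^ 2 / 2) = _
  have : (ch π ρ x S w X0).nu z = Bt π ρ w (foot π ρ x S w z) (yy π ρ x S w z) := rfl
  rw [this]
  ring

theorem adj_le (h : Gr S w) (X : Euc m) (y : Euc n) : ‖adj (fderiv ℝ w X) y‖ ≤ 1 / 8 * ‖y‖ := by
  refine (ContinuousLinearMap.le_opNorm _ _).trans ?_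
  rw [GLK_128.norm_adj]
  have := h.d1 X
  gcongr

theorem x_eq (z : Euc k) : (ch π ρ x S w 0).x z = Lo (fderiv ℝ w 0) (foot π ρ x S w z) := by
  show Lo (fderiv ℝ w 0) (foot π ρ x S w z - 0) = _
  rw [sub_zero]

theorem norm_x_le (h : Gr S w) (z : Euc k) :
    ‖(ch π ρ x S w 0).x z‖ ≤ 65 / 64 * ‖foot π ρ x S w z‖ := by
  rw [x_eq]
  exact norm_Lo_le (h.d1 0) (foot π ρ x S w z)

theorem le_norm_x (z : Euc k) : ‖foot π ρ x S w z‖ ≤ ‖(ch π ρ x S w 0).x z‖ := by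
  rw [x_eq]
  exact le_norm_Lo (fderiv ℝ w 0) (foot π ρ x S w z)

/-- **comparison of the chart of a graph** with height and base coordinate. -/
theorem cmp_ch (h : Gr S w) (hf : Frame π ρ) {κ l : ℝ} (hκ : 0 ≤ κ)
    (h1 : ∀ X, ‖fderiv ℝ w X‖ ≤ κ) (h2 : ∀ X, S * ‖fderiv ℝ (fderiv ℝ w) X‖ ≤ κ)
    (hl : Real.exp l ≤ S) (hκ8 : κ ≤ 1 / 8) {K : Set (Euc k)} (hK : K ⊆ tube π ρ x S w) :
    Cmp (ch π ρ x S w 0) K (fun z => ρ (z - x) - w (π (z - x))) (fun z => π (z - x)) l where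
  f1 := by
    intro z hz
    have e1 := nu_sq (x := x) (S := S) (w := w) (X0 := 0) hf z
    have e2 := h.norm_yy_sub (hK hz)
    have e3 := adj_le h (foot π ρ x S w z) (yy π ρ x S w z)
    have e4 := norm_le_norm_add_norm_sub' (yy π ρ x S w z) (ρ (z - x) - w (π (z - x)))
    rw [two_f, e1]
    set Y := ‖yy π ρ x S w z‖ with hY
    set Z := ‖ρ (z - x) - w (π (z - x))‖ with hZ
    have hY0 : 0 ≤ Y := norm_nonneg _
    have hZ0 : 0 ≤ Z := norm_nonneg _
    have e5 : ‖adj (fderiv ℝ w (foot π ρ x S w z)) (yy π ρ x S w z)‖ ^ 2 ≤ (1 / 8 * Y) ^ 2 :=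
      pow_le_pow_left₀ (norm_nonneg _) e3 2
    have e6 : Y ^ 2 ≤ (33 / 32 * Z) ^ 2 := pow_le_pow_left₀ hY0 (by linarith) 2
    nlinarith [sq_nonneg Z]
  f2 := by
    intro z hz
    have e1 := nu_sq (x := x) (S := S) (w := w) (X0 := 0) hf z
    have e2 := h.norm_yy_sub (hK hz)
    have e4 := norm_le_norm_add_norm_sub (yy π ρ x S w z) (ρ (z - x) - w (π (z - x)))
    rw [two_f, e1]
    set Y := ‖yy π ρ x S w z‖ with hY
    set Z := ‖ρ (z - x) - w (π (z - x))‖ with hZ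
    have hY0 : 0 ≤ Y := norm_nonneg _
    have hZ0 : 0 ≤ Z := norm_nonneg _
    have e6 : Z ^ 2 ≤ (32 / 31 * Y) ^ 2 := pow_le_pow_left₀ hZ0 (by linarith) 2
    have e7 := sq_nonneg ‖adj (fderiv ℝ w (foot π ρ x S w z)) (yy π ρ x S w z)‖
    nlinarith [sq_nonneg Y]
  x1 := by
    intro z hz
    have e1 := norm_x_le (π := π) (ρ := ρ) (x := x) h z
    have e2 := h.norm_foot_sub (hK hz)
    have e3 := norm_le_norm_add_norm_sub' (foot π ρ x S w z) (π (z - x))
    have e4 := norm_nonneg (ρ (z - x) - w (π (z - x)))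
    have e5 := norm_nonneg (π (z - x))
    linarith
  x2 := by
    intro z hz
    have e1 := le_norm_x (π := π) (ρ := ρ) (x := x) (S := S) (w := w) z
    have e2 := h.norm_foot_sub (hK hz)
    have e3 := norm_le_norm_add_norm_sub (foot π ρ x S w z) (π (z - x))
    have e4 := norm_nonneg (ρ (z - x) - w (π (z - x)))
    linarith
  mu := by
    intro z hz hx
    have hS := h.pos
    set c := 3 * (κ * (κ / S)) with hc
    have hc0 : 0 ≤ c := by positivity
    have hcS : c * S = 3 * κ ^ 2 := by rw [hc]; field_simp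
    have hd2 : ∀ X, ‖fderiv ℝ (fderiv ℝ w) X‖ ≤ κ / S := by
      intro X
      rw [le_div_iff₀ hS, mul_comm]
      exact h2 X
    have hsm : c * ‖(ch π ρ x S w 0).x z‖ ≤ 1 / 4 := by
      calc c * ‖(ch π ρ x S w 0).x z‖ ≤ c * S := mul_le_mul_of_nonneg_left (hx.trans hl) hc0
        _ = 3 * κ ^ 2 := hcS
        _ ≤ 1 / 4 := by nlinarith
    have hp := h.pt_of 0 (v := (ch π ρ x S w 0).x z) hsm (fun u _ => by
      rw [hc]
      gcongr
      · exact h1 _
      · exact hd2 _)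
    have e1 := hp.abs_mu_sub
    have e2 : (ch π ρ x S w 0).mu ((ch π ρ x S w 0).x z) =
        muG (giB w 0) ((ch π ρ x S w 0).x z) := rfl
    rw [e2]
    obtain ⟨e3, e4⟩ := abs_le.1 e1
    constructor <;> linarith

/-- data of a block (base point `x`, centre `0`), `κ` = all small quantities; `l` = the level of the
state. -/
structure Blk (U : Set (Euc k)) (V : Measure (Euc k × L k)) (x : Euc k) (r : ℝ)
    (π : Euc k →L[ℝ] Euc m) (ρ : Euc k →L[ℝ] Euc n) (S : ℝ) (w : Euc m → Euc n)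
    (Kt : Set (Euc k)) (g1 : ℝ → ℝ) (l κ G : ℝ) (K : ℕ) : Prop where
  frame : Frame π ρ
  gr : Gr S w
  d1 : ∀ X, ‖fderiv ℝ w X‖ ≤ κ
  d2 : ∀ X, S * ‖fderiv ℝ (fderiv ℝ w) X‖ ≤ κ
  w0 : ‖w 0‖ ≤ κ * r
  ms : ∀ X ∈ Metric.ball (0 : Euc m) (Real.exp l), Msys w X = 0
  lS : Real.exp l ≤ S
  ll : Real.log r + 4 ≤ l
  lu : l ≤ Real.log r + 5
  loc : Loc (ch π ρ x S w 0) U (tube π ρ x S w) Kt V l
  sup : ∀ᵐ p ∂(VK V Kt), ‖(ch π ρ x S w 0).x p.1‖ ≤ 12 * r →
    2 * (ch π ρ x S w 0).f p.1 ≤ κ ^ 2 * r ^ 2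
  pos : 0 < II (ch π ρ x S w 0) (VK V Kt) g1 (Real.log (r / 8))
  dbl : II (ch π ρ x S w 0) (VK V Kt) g1 l ≤
    Real.exp G * II (ch π ρ x S w 0) (VK V Kt) g1 (Real.log (r / 8))
  mon : II (ch π ρ x S w 0) (VK V Kt) g1 (Real.log (12 * r)) ≤
    Real.exp G * II (ch π ρ x S w 0) (VK V Kt) g1 l
  sml : II (ch π ρ x S w 0) (VK V Kt) g1 l ≤ κ ^ 2 * r ^ 2
  mean : ∀ ζ : Euc m → ℝ, ContDiff ℝ ∞ ζ → tsupport ζ ⊆ Metric.ball 0 8 →
    (∀ j ≤ K, ∀ z, ‖iteratedFDeriv ℝ j ζ z‖ ≤ 1) →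
    ‖∫ p in box π ρ x (8 * r) ×ˢ univ, ζ (r⁻¹ • π (p.1 - x)) •
      (ρ (p.1 - x) - w (π (p.1 - x))) ∂V‖ ^ 2 ≤
      κ ^ 2 * (r ^ m * (r ^ m * II (ch π ρ x S w 0) (VK V Kt) g1 (Real.log (r / 8))))

/-- **`Blk` gives `StD`**. -/
theorem std_of_blk {U : Set (Euc k)} {V : Measure (Euc k × L k)} {r : ℝ}
    {Kt : Set (Euc k)} {g g1 g2 : ℝ → ℝ} {B l κ G κ' : ℝ} {K : ℕ}
    (hU : Metric.closedBall x (128 * r) ⊆ U) (hr : 0 < r) (hp : Pf g g1 g2 B)
    (h : Blk U V x r π ρ S w Kt g1 l κ G K) (hκ : 0 ≤ κ) (hκ8 : κ ≤ 1 / 8)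
    (hκ2 : 2 * κ ≤ κ') (hG : Real.exp G * κ ^ 2 ≤ κ') :
    StD U V x r π ρ x w (ch π ρ x S w 0)
      (Ng_290.Kc (ch π ρ x S w 0) Kt (κ ^ 2 * r ^ 2) (Real.log (12 * r))) univ g1
      (34 * r) κ' (2 * G) K := by
  set c := ch π ρ x S w 0 with hc
  set h2 := κ ^ 2 * r ^ 2 with hh2
  have hf := h.frame
  have hκ' : κ ≤ κ' := by linarith
  have hel : Real.exp (Real.log r + 4) ≤ Real.exp l := Real.exp_le_exp.2 h.ll
  have hel' : Real.exp l ≤ Real.exp (Real.log r + 5) := Real.exp_le_exp.2 h.lu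
  rw [Real.exp_add, Real.exp_log hr] at hel hel'
  have he4 : (54 : ℝ) ≤ Real.exp 4 := by
    have h1 : Real.exp 4 = Real.exp 1 ^ 4 := by rw [← Real.exp_nat_mul]; norm_num
    rw [h1]
    have h2 : (2.7182818283 : ℝ) < Real.exp 1 := Real.exp_one_gt_d9
    calc (54 : ℝ) ≤ 2.7182818283 ^ 4 := by norm_num
      _ ≤ Real.exp 1 ^ 4 := pow_le_pow_left₀ (by norm_num) h2.le 4
  have h54 : 54 * r ≤ Real.exp l := by nlinarith
  have hSr : 54 * r ≤ S := h54.trans h.lS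
  have hl12 : Real.exp (Real.log (12 * r)) = 12 * r := Real.exp_log (by positivity)
  have hl12l : Real.log (12 * r) ≤ l := by
    rw [← Real.exp_le_exp, hl12]
    linarith
  have hreg := h.gr.reg hf (0 : Euc m) (x := x)
  have hok : Ok c Kt univ := hreg.ok h.loc.cpt (h.loc.sub.trans inter_subset_left)
  have hOn := h.loc.toOn
  have hIl : 0 ≤ II c (VK V Kt) g1 l := II_nonneg hok hOn hp.pr.anti l
  have hcmpt : Cmp c Kt (fun z => ρ (z - x) - w (π (z - x))) (fun z => π (z - x)) l :=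
    cmp_ch h.gr hf hκ h.d1 h.d2 h.lS hκ8 (h.loc.sub.trans inter_subset_left)
  -- heights
  have hae : ∀ᵐ p ∂(VK V Kt), ‖c.x p.1‖ ≤ Real.exp (Real.log (12 * r)) → 2 * c.f p.1 ≤ h2 := by
    rw [hl12]
    exact h.sup
  obtain ⟨hloc, hsub⟩ := Ng_290.loc_Kc (L := Real.log (12 * r)) (h2 := h2) hreg h.loc hl12l hae
  set Kc := Ng_290.Kc c Kt h2 (Real.log (12 * r)) with hKc
  have hKsub : Kc ⊆ Kt := fun z hz => hz.1
  have hKt : Kt ⊆ tube π ρ x S w := h.loc.sub.trans inter_subset_left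
  have hI1 : ∀ {a : ℝ}, a ≤ Real.log (12 * r) →
      II c (V.restrict (Kc ×ˢ univ)) g1 a = II c (VK V Kt) g1 a := fun ha => hsub.II_eq' hp ha
  have hl8 : Real.log (r / 8) ≤ Real.log (12 * r) := Real.log_le_log (by positivity) (by linarith)
  have hcd : ContDiff ℝ 2 w := h.gr.cd.of_le (by norm_num)
  refine
    { frame := hf, hR := by simp, cd := hcd.contDiffOn, d1 := fun X _ => (h.d1 X).trans hκ'
      d2 := ?_, ms := ?_, near0 := ?_, ok := hreg.ok hloc.cpt (hloc.sub.trans inter_subset_left)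
      on := hloc.toOn, cmp := ?_, hh := ?_, mem := ?_, sup := ?_, pos := ?_, dbl := ?_
      sml := ?_, mean := ?_ }
  · intro X _
    refine le_trans ?_ ((h.d2 X).trans hκ')
    have := norm_nonneg (fderiv ℝ (fderiv ℝ w) X)
    nlinarith
  · intro X hX
    exact h.ms X (Metric.ball_subset_ball (by linarith) hX)
  · rw [sub_self, map_zero, map_zero, sub_zero]
    exact h.w0.trans (by gcongr)
  · exact ⟨fun z hz => hcmpt.f1 z (hKsub hz), fun z hz => hcmpt.f2 z (hKsub hz),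
      fun z hz => hcmpt.x1 z (hKsub hz), fun z hz => hcmpt.x2 z (hKsub hz),
      fun z hz hx => hcmpt.mu z (hKsub hz) (hx.trans (Real.exp_le_exp.2 hl12l))⟩
  · have hw : Continuous w := hcd.continuous
    fun_prop
  · -- the box is in `Kc`
    filter_upwards [h.loc.gap, hsub.ae] with p hp1 hp2 hpb
    have hb1 : ‖π (p.1 - x)‖ < 8 * r := hpb.1
    have hb2 : ‖ρ (p.1 - x)‖ < 8 * r := hpb.2
    have hw1 : ‖w (π (p.1 - x))‖ ≤ 2 * r := by
      have e1 := h.gr.lip (π (p.1 - x)) 0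
      rw [sub_zero] at e1
      have e2 := norm_le_norm_add_norm_sub' (w (π (p.1 - x))) (w 0)
      have e3 := h.w0
      nlinarith
    have hz : ‖ρ (p.1 - x) - w (π (p.1 - x))‖ ≤ 10 * r := by
      have := norm_sub_le (ρ (p.1 - x)) (w (π (p.1 - x)))
      linarith
    have ht : p.1 ∈ tube π ρ x S w := by
      show ‖ρ (p.1 - x) - w (π (p.1 - x))‖ < S
      linarith
    have hpU : p.1 ∈ U := by
      refine hU ?_
      rw [mem_closedBall_iff_norm]
      have e1 := Gi_456.Frame.full_apply hf (p.1 - x)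
      have e2 : ‖p.1 - x‖ ≤ ‖π (p.1 - x)‖ + ‖ρ (p.1 - x)‖ := by
        rw [← e1]
        refine (norm_add_le _ _).trans (add_le_add ?_ ?_)
        · rw [e1]
          refine (ContinuousLinearMap.le_opNorm _ _).trans ?_
          have := (frame_fr hf).norm_i_le
          have := norm_nonneg (π (p.1 - x))
          nlinarith
        · rw [e1]
          refine (ContinuousLinearMap.le_opNorm _ _).trans ?_
          have := (frame_fr hf).norm_j_le
          have := norm_nonneg (ρ (p.1 - x))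
          nlinarith
      linarith
    have hx1 : ‖c.x p.1‖ ≤ 12 * r := by
      have e1 := norm_x_le (π := π) (ρ := ρ) (x := x) h.gr p.1
      have e2 := h.gr.norm_foot_sub ht
      have e3 := norm_le_norm_add_norm_sub' (foot π ρ x S w p.1) (π (p.1 - x))
      rw [hc]
      linarith
    exact hp2 (hp1 ⟨ht, hpU⟩ (hx1.trans (by linarith))) (hx1.trans hl12.ge)
  · intro z hz
    have e1 := hcmpt.f2 z (hKsub hz)
    have e2 : 2 * c.f z ≤ h2 := hz.2.1
    have hκ'0 : 0 ≤ κ' := hκ.trans hκ'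
    refine le_of_sq_le_sq (a := ‖ρ (z - x) - w (π (z - x))‖) ?_ (by positivity)
    calc ‖ρ (z - x) - w (π (z - x))‖ ^ 2 ≤ 3 / 2 * (2 * c.f z) := e1
      _ ≤ 3 / 2 * h2 := by gcongr
      _ ≤ (2 * κ) ^ 2 * r ^ 2 := by rw [hh2]; nlinarith [sq_nonneg (κ * r)]
      _ ≤ κ' ^ 2 * r ^ 2 := by gcongr
      _ = (κ' * r) ^ 2 := by ring
  · rw [hI1 hl8]
    exact h.pos
  · rw [hI1 hl8, hI1 le_rfl]
    calc II c (VK V Kt) g1 (Real.log (12 * r)) ≤ Real.exp G * II c (VK V Kt) g1 l := h.mon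
      _ ≤ Real.exp G * (Real.exp G * II c (VK V Kt) g1 (Real.log (r / 8))) := by
          have := h.dbl
          gcongr
      _ = Real.exp (2 * G) * II c (VK V Kt) g1 (Real.log (r / 8)) := by
          rw [two_mul, Real.exp_add]; ring
  · rw [hI1 le_rfl]
    calc II c (VK V Kt) g1 (Real.log (12 * r)) ≤ Real.exp G * II c (VK V Kt) g1 l := h.mon
      _ ≤ Real.exp G * (κ ^ 2 * r ^ 2) := by
          have := h.sml
          gcongr
      _ = (Real.exp G * κ ^ 2) * r ^ 2 := by ring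
      _ ≤ κ' * r ^ 2 := by gcongr
  · intro ζ hζ1 hζ2 hζ3
    rw [hI1 hl8]
    refine (h.mean ζ hζ1 hζ2 hζ3).trans ?_
    have := h.pos
    gcongr

end Crest.Agent.R234.End_395
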