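import Crest.Agent.R234.Ell3_3
import Crest.Agent.R234.Vf3_884
import Crest.Agent.R234.Ell6_3
import Crest.Agent.R234.Cp3_914
import Crest.Agent.R234.Ex2_46
import Crest.Agent.R234.Core0_809

-- ▼ part R234/Ct1_914
section

/-!
VF-CONST (row 234, helper914): a stationary varifold carried, over a ball, by the graph of a `C²`
map (with tangent planes a.e.) has support equal to the whole graph or nothing.  No minimality of
the graph is needed.
-/

set_option autoImplicit false
set_option linter.unusedSectionVars false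
set_option linter.unusedVariables false

open MeasureTheory Filter Topology Set Metric Crest.GeometryTopology.Submanifold
open scoped ENNReal ContDiff InnerProductSpace

namespace Crest.Agent.R234.Ct914

open Crest.Agent.R234.Vf_884 Crest.Agent.R234.Ell3_3

noncomputable section

/-- the cut-off profile. -/
def hh (A b t : ℝ) : ℝ := Real.exp (-(A * t)) * Real.smoothTransition (b - t)







variable {m k : ℕ} {U : Set (Euc k)} {V : Measure (Euc k × L k)}

section Field

variable (T : Submodule ℝ (Euc k)) (x0 : Euc k) (g : T → T →L[ℝ] Tᗮ) (z1 : T)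

/-- the lifted radial field. -/
def Y (z : T) : Euc k := ((z - z1 : T) : Euc k) + ((g z (z - z1) : Tᗮ) : Euc k)



/-- the cut off radial field. -/
def Z (A b : ℝ) (z : T) : Euc k := hh A b (‖z - z1‖ ^ 2) • Y T g z1 z




end Field

section Main

variable {T : Submodule ℝ (Euc k)} {x0 : Euc k} {r s s' : ℝ} {u : T → Tᗮ}
  {g : T → T →L[ℝ] Tᗮ}






end Main

end

end Crest.Agent.R234.Ct914
end

-- ▼ part R234/Ct2_914
section

/-!
VF-CONST, frozen data (row 234, helper914): if near a point the support of a stationary integral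
varifold is contained in a smooth graph, the point is not singular.
-/

set_option autoImplicit false
set_option linter.unusedSectionVars false
set_option linter.unusedVariables false

open MeasureTheory Filter Topology Set Metric Crest.GeometryTopology.Submanifold
open scoped ENNReal ContDiff InnerProductSpace

namespace Crest.Agent.R234.Ct914

open Crest.Agent.R234.Vf_884 Crest.Agent.R234.Ell3_3 Crest.Agent.R234.Ell2_3
open Crest.Agent.R234.Ell6_3

noncomputable section

variable {m k : ℕ} {U : Set (Euc k)} {D : VarifoldData m k}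

theorem weight_compl_support (D : VarifoldData m k) : weight D (support D)ᶜ = 0 :=
  Cp914.measure_compl_spt (weight D)

variable {T : Submodule ℝ (Euc k)} {x0 : Euc k} {r s s' : ℝ} {u : T → Tᗮ}
  {g : T → T →L[ℝ] Tᗮ}





end

end Crest.Agent.R234.Ct914
end

-- ▼ part R234/Ex3_46

/-!
# Row 234, VF-EXT, file 3 (helper46): the mass fields `dens`, `ubd` of the class from `HasExt`
-/

set_option autoImplicit false

open MeasureTheory Filter Topology Set Metric
open scoped ENNReal InnerProductSpace
open Crest.GeometryTopology.Submanifold Crest.Agent.R234.Vf_884 Crest.Agent.R234.Cy_870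

noncomputable section

namespace Crest.Agent.R234.Ex_46

variable {m n k : ℕ} {U : Set (Euc k)} {D : VarifoldData m k}
  {π : Euc k →L[ℝ] Euc m} {κ : Euc k →L[ℝ] Euc n}

theorem norm_vert_le (h : Split π κ) (z : Euc k) : ‖κ z‖ ≤ ‖z‖ := by
  have h1 := h.norm_sq z
  nlinarith [norm_nonneg (κ z), norm_nonneg z, sq_nonneg ‖π z‖]

theorem closedBall_subset_cyl (sp : Split π κ) {z : Euc k} (hz : z ∈ cyl π κ 0 4 1) :
    closedBall z 1 ⊆ cyl π κ 0 5 2 := by
  intro w hw
  rw [mem_closedBall, dist_eq_norm] at hw
  obtain ⟨h1, h2⟩ := hz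
  rw [sub_zero] at h1
  have h3 : π w = π z + π (w - z) := by rw [map_sub]; abel
  have h4 : κ w = κ z + κ (w - z) := by rw [map_sub]; abel
  constructor
  · rw [sub_zero, h3]
    refine (norm_add_le _ _).trans ?_
    have := norm_base_le sp (w - z)
    linarith
  · rw [h4]
    refine (norm_add_le _ _).trans ?_
    have := norm_vert_le sp (w - z)
    linarith


theorem measurableSet_cyl (π : Euc k →L[ℝ] Euc m) (κ : Euc k →L[ℝ] Euc n) (x : Euc m) (R h : ℝ) :
    MeasurableSet (cyl π κ x R h) := (isClosed_cyl π κ x R h).measurableSet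


/-- **ubd**: upper mass bound in all balls -/
theorem ubd (hD : IsIntegralVarifoldIn U D) (sp : Split π κ)
    (dom : cyl π κ 0 5 2 ⊆ U) (hE : HasExt U D) (hm : 1 ≤ m) {K : ℝ}
    (hfin : VD D (cyl π κ 0 5 2 ×ˢ univ) < ⊤)
    (big : (VD D).real (cyl π κ 0 5 2 ×ˢ univ) ≤ K) (z : Euc k) {r : ℝ} (hr : 0 < r) :
    ((VD D).restrict (cyl π κ 0 4 1 ×ˢ univ)).real (closedBall z r ×ˢ univ) ≤ 3 ^ m * K * r ^ m := by
  have hK : 0 ≤ K := measureReal_nonneg.trans big
  have hm5 := measurableSet_cyl π κ 0 5 2
  have h45 : cyl π κ 0 4 1 ⊆ cyl π κ 0 5 2 := fun w hw =>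
    ⟨hw.1.trans (by norm_num), hw.2.trans (by norm_num)⟩
  have hfin' : weight D (cyl π κ 0 5 2) < ⊤ := by rwa [← VD_prod_univ hD hm5]
  have hK' : weight D (cyl π κ 0 5 2) ≤ ENNReal.ofReal K := by
    rw [← VD_prod_univ hD hm5]
    refine ENNReal.le_ofReal_iff_toReal_le hfin.ne hK |>.2 ?_
    exact big
  have hset : (closedBall z r ×ˢ univ : Set (Euc k × L k)) ∩ cyl π κ 0 4 1 ×ˢ univ =
      (closedBall z r ∩ cyl π κ 0 4 1) ×ˢ univ := by
    rw [Set.prod_inter_prod, univ_inter]
  rw [measureReal_def, Measure.restrict_apply (measurableSet_closedBall.prod MeasurableSet.univ),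
    hset, VD_prod_univ hD (measurableSet_closedBall.inter (measurableSet_cyl π κ 0 4 1))]
  refine ENNReal.toReal_le_of_le_ofReal (by positivity) ?_
  rcases (closedBall z r ∩ cyl π κ 0 4 1).eq_empty_or_nonempty with h0 | ⟨z₁, hz₁, hz₁c⟩
  · rw [h0, measure_empty]; exact bot_le
  have hrr : closedBall z r ⊆ closedBall z₁ (2 * r) := by
    refine closedBall_subset_closedBall' ?_
    rw [mem_closedBall, dist_comm] at hz₁
    linarith
  rcases le_or_gt 1 (2 * r) with h1 | h1
  · refine (measure_mono (inter_subset_right.trans h45)).trans (hK'.trans ?_)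
    refine ENNReal.ofReal_le_ofReal ?_
    have h2 : 1 ≤ (3 * r) ^ m := one_le_pow₀ (by linarith)
    calc K = 1 * K := (one_mul K).symm
      _ ≤ (3 * r) ^ m * K := mul_le_mul_of_nonneg_right h2 hK
      _ = _ := by rw [mul_pow]; ring
  · obtain ⟨T, T', hT, hg, hs⟩ := hE
    have hb : ball z₁ 1 ⊆ U :=
      (ball_subset_closedBall.trans (closedBall_subset_cyl sp hz₁c)).trans dom
    have h2 := up_mass hD hT hg hs hm (z := z₁) (by positivity : 0 < 2 * r) h1 hb
    refine (measure_mono (inter_subset_left.trans hrr)).trans (h2.trans ?_)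
    have h3 : weight D (ball z₁ 1) ≤ ENNReal.ofReal K :=
      (measure_mono (ball_subset_closedBall.trans (closedBall_subset_cyl sp hz₁c))).trans hK'
    refine (mul_le_mul_right h3 _).trans ?_
    rw [← ENNReal.ofReal_mul (by positivity)]
    refine ENNReal.ofReal_le_ofReal ?_
    have h4 : ((17 / 15 : ℝ) ^ 2 * (2 * r / 1)) ^ m ≤ (3 * r) ^ m := by
      refine pow_le_pow_left₀ (by positivity) ?_ m
      linarith
    calc ((17 / 15 : ℝ) ^ 2 * (2 * r / 1)) ^ m * K ≤ (3 * r) ^ m * K :=
          mul_le_mul_of_nonneg_right h4 hK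
      _ = _ := by rw [mul_pow]; ring

/-! ### the two bounds for the class -/

variable {Q : ℕ} {δ Dm : ℝ}




end Crest.Agent.R234.Ex_46
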