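import Crest.Agent.R234.Ex3_46
import Crest.Agent.R234.Ex4_46
import Crest.Agent.R234.Supm4_685
import Crest.Agent.R234.Ex1_46
import Crest.Agent.R234.Asl2_214

-- ▼ part R234/Ex5_46
section

/-!
# Row 234, node F3-CLS, part 1 (helper46): heights

`Φ` the chart of the graph of `u`: heights `‖κ z‖` of the transported varifold are controlled by the
heights over the graph; sup bound from 685's height bound.
-/

set_option autoImplicit false

open MeasureTheory Filter Topology Set Metric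
open scoped ENNReal InnerProductSpace ContDiff
open Crest.GeometryTopology.Submanifold Crest.Agent.R234.Vf_884 Crest.Agent.R234.Cy_870
open Crest.Agent.R234.Main_456 (Frame Msys hgt sep box)

noncomputable section

namespace Crest.Agent.R234.Ex_46

variable {m n k : ℕ} {U : Set (Euc k)} {D : VarifoldData m k}
  {π : Euc k →L[ℝ] Euc m} {κ : Euc k →L[ℝ] Euc n}

theorem split_orth (h : Split π κ) : π ∘L ContinuousLinearMap.adjoint κ = 0 := by
  ext1 y
  have h1 : ContinuousLinearMap.adjoint π (π (ContinuousLinearMap.adjoint κ y)) +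
      ContinuousLinearMap.adjoint κ (κ (ContinuousLinearMap.adjoint κ y)) =
      ContinuousLinearMap.adjoint κ y :=
    congrArg (fun T : L k => T (ContinuousLinearMap.adjoint κ y)) h.sum
  have h2 : κ (ContinuousLinearMap.adjoint κ y) = y :=
    congrArg (fun T : Euc n →L[ℝ] Euc n => T y) h.vv
  rw [h2] at h1
  have h3 : ContinuousLinearMap.adjoint π (π (ContinuousLinearMap.adjoint κ y)) = 0 := by
    simpa using h1
  have h4 : π (ContinuousLinearMap.adjoint π (π (ContinuousLinearMap.adjoint κ y))) =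
      π (ContinuousLinearMap.adjoint κ y) :=
    congrArg (fun T : Euc m →L[ℝ] Euc m => T (π (ContinuousLinearMap.adjoint κ y))) h.hh
  rw [h3, map_zero] at h4
  exact h4.symm

theorem frame_of_split (h : Split π κ) : Frame π κ where
  coπ := h.hh
  coρ := h.vv
  orth := split_orth h
  full := h.sum


theorem pi_adj (h : Split π κ) (v : Euc m) : π (ContinuousLinearMap.adjoint π v) = v :=
  congrArg (fun T : Euc m →L[ℝ] Euc m => T v) h.hh

theorem ka_adj (h : Split π κ) (y : Euc n) : κ (ContinuousLinearMap.adjoint κ y) = y :=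
  congrArg (fun T : Euc n →L[ℝ] Euc n => T y) h.vv

theorem pi_adj_ka (h : Split π κ) (y : Euc n) : π (ContinuousLinearMap.adjoint κ y) = 0 :=
  congrArg (fun T : Euc n →L[ℝ] Euc m => T y) (split_orth h)

theorem ka_adj_pi (h : Split π κ) (v : Euc m) : κ (ContinuousLinearMap.adjoint π v) = 0 := by
  have h1 := h.norm_sq (ContinuousLinearMap.adjoint π v)
  have h2 : ‖ContinuousLinearMap.adjoint π v‖ ^ 2 = ‖v‖ ^ 2 := by
    rw [← real_inner_self_eq_norm_sq, ContinuousLinearMap.adjoint_inner_left, pi_adj h,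
      real_inner_self_eq_norm_sq]
  rw [h2, pi_adj h] at h1
  have h3 : ‖κ (ContinuousLinearMap.adjoint π v)‖ ^ 2 = 0 := by linarith
  simpa using h3

/-- the chart adapted to the graph of `u`: `Φ z = z + κ† u(π z) - π† (Du(π z)† κ z)` on a strip;
`e`-close to the identity everywhere. -/
structure Cht (π : Euc k →L[ℝ] Euc m) (κ : Euc k →L[ℝ] Euc n) (u : Euc m → Euc n) (e : ℝ)
    (Φ Ψ : Euc k → Euc k) : Prop where
  dif : Dif Φ Ψ
  der : ∀ z, ‖fderiv ℝ Φ z - 1‖ ≤ e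
  eq : ∀ z, ‖κ z‖ < 3 → Φ z = z + ContinuousLinearMap.adjoint κ (u (π z)) -
    ContinuousLinearMap.adjoint π (ContinuousLinearMap.adjoint (fderiv ℝ u (π z)) (κ z))

variable {u : Euc m → Euc n} {e : ℝ} {Φ Ψ : Euc k → Euc k} {lam : ℝ}

theorem Cht.pi_eq (h : Cht π κ u e Φ Ψ) (sp : Split π κ) {z : Euc k} (hz : ‖κ z‖ < 3) :
    π (Φ z) = π z - ContinuousLinearMap.adjoint (fderiv ℝ u (π z)) (κ z) := by
  rw [h.eq z hz, map_sub, map_add, pi_adj_ka sp, pi_adj sp, add_zero]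

theorem Cht.ka_eq (h : Cht π κ u e Φ Ψ) (sp : Split π κ) {z : Euc k} (hz : ‖κ z‖ < 3) :
    κ (Φ z) = κ z + u (π z) := by
  rw [h.eq z hz, map_sub, map_add, ka_adj sp, ka_adj_pi sp, sub_zero]

theorem norm_adj_le {A : Euc m →L[ℝ] Euc n} (hA : ‖A‖ ≤ lam) (y : Euc n) :
    ‖ContinuousLinearMap.adjoint A y‖ ≤ lam * ‖y‖ := by
  refine ((ContinuousLinearMap.adjoint A).le_opNorm y).trans ?_
  rw [LinearIsometryEquiv.norm_map]
  exact mul_le_mul_of_nonneg_right hA (norm_nonneg _)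

/-- normal height versus height over the graph -/
theorem Cht.height_le (h : Cht π κ u e Φ Ψ) (sp : Split π κ) (hu : Differentiable ℝ u)
    (hl : ∀ v, ‖fderiv ℝ u v‖ ≤ lam) (hl2 : lam ≤ 1 / 2) {z : Euc k} (hz : ‖κ z‖ < 3)
    (z₀ : Euc k) {ρ : ℝ} (hρ : 0 < ρ) :
    ρ * ‖κ z‖ ≤ 2 * ‖hgt π κ z₀ ρ u (hmt' z₀ ρ (Φ z))‖ := by
  have hl0 : 0 ≤ lam := (norm_nonneg _).trans (hl 0)
  set w := ContinuousLinearMap.adjoint (fderiv ℝ u (π z)) (κ z) with hw
  have h1 : hgt π κ z₀ ρ u (hmt' z₀ ρ (Φ z)) = ρ • (κ z + (u (π z) - u (π z - w))) := by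
    unfold hgt hmt'
    rw [add_sub_cancel_left, map_smul, map_smul, smul_smul, inv_mul_cancel₀ hρ.ne', one_smul,
      h.pi_eq sp hz, h.ka_eq sp hz, ← hw, ← smul_sub]
    congr 1
    abel
  have h2 : ‖w‖ ≤ lam * ‖κ z‖ := norm_adj_le (hl _) _
  have h3 : ‖u (π z) - u (π z - w)‖ ≤ lam * ‖π z - (π z - w)‖ :=
    convex_univ.norm_image_sub_le_of_norm_fderiv_le (fun x _ => hu x) (fun x _ => hl x)
      (mem_univ _) (mem_univ _)
  rw [sub_sub_cancel] at h3
  have h4 : ‖u (π z) - u (π z - w)‖ ≤ 1 / 4 * ‖κ z‖ := by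
    refine h3.trans ((mul_le_mul_of_nonneg_left h2 hl0).trans ?_)
    rw [← mul_assoc]
    refine mul_le_mul_of_nonneg_right ?_ (norm_nonneg _)
    nlinarith
  rw [h1, norm_smul, Real.norm_of_nonneg hρ.le]
  have h5 : ‖κ z‖ ≤ ‖κ z + (u (π z) - u (π z - w))‖ + ‖u (π z) - u (π z - w)‖ := by
    have := norm_sub_le (κ z + (u (π z) - u (π z - w))) (u (π z) - u (π z - w))
    rwa [add_sub_cancel_right] at this
  nlinarith [norm_nonneg (κ z)]

/-- support points of the zoomed data -/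
theorem support_zoom (hD : IsIntegralVarifoldIn U D) (z₀ : Euc k) {ρ : ℝ} (hρ : 0 < ρ) {z : Euc k}
    (hz : z ∈ support (zoom z₀ ρ D)) : hmt' z₀ ρ z ∈ support D := by
  intro s hs
  have h1 : 0 < weight (zoom z₀ ρ D) (ball z (ρ⁻¹ * s)) := hz _ (by positivity)
  rw [weight_zoom hD z₀ hρ measurableSet_ball] at h1
  have h2 : hmt' z₀ ρ '' ball z (ρ⁻¹ * s) ⊆ ball (hmt' z₀ ρ z) s := by
    rintro _ ⟨w, hw, rfl⟩
    rw [mem_ball, dist_eq_norm] at hw ⊢
    unfold hmt'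
    rw [add_sub_add_left_eq_sub, ← smul_sub, norm_smul, Real.norm_of_nonneg hρ.le]
    calc ρ * ‖w - z‖ < ρ * (ρ⁻¹ * s) := mul_lt_mul_of_pos_left hw hρ
      _ = s := by rw [← mul_assoc, mul_inv_cancel₀ hρ.ne', one_mul]
  have h3 : weight D (hmt' z₀ ρ '' ball z (ρ⁻¹ * s)) ≠ 0 := by
    intro h0
    rw [h0, mul_zero] at h1
    exact lt_irrefl _ h1
  exact (pos_iff_ne_zero.2 h3).trans_le (measure_mono h2)

/-- support points of the transported data -/
theorem support_cht (hD : IsIntegralVarifoldIn U D) (h : Cht π κ u e Φ Ψ) (he : e ≤ 1 / 16)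
    {z : Euc k} (hz : z ∈ support (trans Ψ D)) : Φ z ∈ support D := by
  have h1 := support_image (integral_trans hD h.dif.symm) h.dif
    (fun z => (h.der z).trans he) hz
  rwa [trans_trans h.dif.right] at h1

/-- **heights of the transported varifold** -/
theorem hgt_cht (hU : IsOpen U) (hD : IsIntegralVarifoldIn U D) (hs : IsStationaryIn U D)
    (hm : 1 ≤ m) (sp : Split π κ) (h : Cht π κ u e Φ Ψ) (he : e ≤ 1 / 16) (hu : ContDiff ℝ 2 u)
    (hu0 : ∀ v, ‖u v‖ ≤ lam) (hu1 : ∀ v, ‖fderiv ℝ u v‖ ≤ lam)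
    (hu2 : ∀ v ∈ ball (0 : Euc m) 7, ‖iteratedFDeriv ℝ 2 u v‖ ≤ lam ∧ Msys u v = 0)
    (hl2 : lam ≤ 1 / 4) (hlm : 64 * m * lam ^ 2 ≤ 1) {z₀ : Euc k} {ρ : ℝ} (hρ : 0 < ρ)
    (hb : closedBall z₀ (14 * ρ) ⊆ U) {d : ℝ}
    (hd : sep (VD D) π κ z₀ ρ u 7 ≤ d * ρ ^ (m + 2)) {z : Euc k}
    (hz : z ∈ support (trans Ψ (zoom z₀ ρ D))) (hzc : ‖π z‖ < 6) (hzk : ‖κ z‖ < 3) :
    ‖κ z‖ ^ 2 ≤ 5 * 4 ^ m / ome m * d := by
  have hom := ome_pos m
  have hl0 : 0 ≤ lam := (norm_nonneg _).trans (hu0 0)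
  have h1 : hmt' z₀ ρ (Φ z) ∈ support D :=
    support_zoom hD z₀ hρ (support_cht (integral_zoom hD z₀ hρ) h he hz)
  have hbox : hmt' z₀ ρ (Φ z) ∈ box π κ z₀ ((7 - 1 / 4) * ρ) := by
    have e1 : hmt' z₀ ρ (Φ z) - z₀ = ρ • Φ z := by unfold hmt'; abel
    have h2 : ‖π (Φ z)‖ < 7 - 1 / 4 := by
      rw [h.pi_eq sp hzk]
      refine (norm_sub_le _ _).trans_lt ?_
      have := norm_adj_le (hu1 (π z)) (κ z)
      nlinarith [norm_nonneg (κ z)]
    have h3 : ‖κ (Φ z)‖ < 7 - 1 / 4 := by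
      rw [h.ka_eq sp hzk]
      refine (norm_add_le _ _).trans_lt ?_
      have := hu0 (π z)
      linarith
    constructor
    · rw [e1, map_smul, norm_smul, Real.norm_of_nonneg hρ.le, mul_comm]
      exact mul_lt_mul_of_pos_right h2 hρ
    · rw [e1, map_smul, norm_smul, Real.norm_of_nonneg hρ.le, mul_comm]
      exact mul_lt_mul_of_pos_right h3 hρ
  have h4 := Supm_685.height_supp hU hD hs hm (frame_of_split sp) hρ hu (a := 7) (b := 1 / 4)
    (by norm_num) (by norm_num) (by rw [show (2 * (7 * ρ) : ℝ) = 14 * ρ by ring]; exact hb) hu2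
    (by nlinarith) hbox h1
  have h5 := h.height_le sp (hu.differentiable two_ne_zero) hu1 (by linarith) hzk z₀ hρ
  set a := ‖hgt π κ z₀ ρ u (hmt' z₀ ρ (Φ z))‖ with ha
  have h6 : ome m * a ^ 2 ≤ 33 / 32 * (4 ^ m * d * ρ ^ 2) := by
    refine h4.trans ?_
    have e1 : ((1 / 4 * ρ) ^ m)⁻¹ * (d * ρ ^ (m + 2)) = 4 ^ m * d * ρ ^ 2 := by
      rw [pow_add, mul_pow, div_pow, one_pow]
      have : ρ ^ m ≠ 0 := by positivity
      have h44 : (4:ℝ) ^ m ≠ 0 := by positivity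
      field_simp
    rw [← e1]
    refine mul_le_mul_of_nonneg_left ?_ (by norm_num)
    exact mul_le_mul_of_nonneg_left hd (by positivity)
  have h7 : (ρ * ‖κ z‖) ^ 2 ≤ 4 * a ^ 2 := by
    have := pow_le_pow_left₀ (by positivity) h5 2
    linarith [this, mul_pow (2:ℝ) a 2]
  have hρ2 : 0 < ρ ^ 2 := by positivity
  have h8 : ome m * ‖κ z‖ ^ 2 * ρ ^ 2 ≤ 5 * (4 ^ m * d) * ρ ^ 2 := by
    have e2 : 0 ≤ 4 ^ m * d * ρ ^ 2 := by nlinarith [mul_nonneg hom.le (sq_nonneg a)]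
    nlinarith
  have h9 : ome m * ‖κ z‖ ^ 2 ≤ 5 * (4 ^ m * d) := le_of_mul_le_mul_right h8 hρ2
  rw [div_mul_eq_mul_div, le_div_iff₀ hom]
  linarith

end Crest.Agent.R234.Ex_46
end
end

-- ▼ part R234/Ex6_46
section

/-!
# Row 234, VF-EXT, file 6 (helper46): restriction of frozen data to an open set
-/

set_option autoImplicit false

open MeasureTheory Filter Topology Set Metric
open scoped ENNReal InnerProductSpace
open Crest.GeometryTopology.Submanifold Crest.Agent.R234.Vf_884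

noncomputable section

namespace Crest.Agent.R234.Ex_46

variable {m k : ℕ} {U W : Set (Euc k)} {D : VarifoldData m k}

/-- restricted data -/
def restr (W : Set (Euc k)) (D : VarifoldData m k) : VarifoldData m k where
  chart := D.chart
  dom i := D.dom i ∩ D.chart i ⁻¹' W
  mult := D.mult

theorem trans_restr {T T' : Euc k → Euc k} (h : Dif T T') (W : Set (Euc k))
    (D : VarifoldData m k) : trans T (restr W D) = restr (T' ⁻¹' W) (trans T D) := by
  unfold trans restr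
  congr 1
  funext i
  ext a
  simp only [mem_inter_iff, mem_preimage, Function.comp_apply, h.left]

theorem weight_restr (hD : IsIntegralVarifoldIn U D) (hW : MeasurableSet W) :
    weight (restr W D) = (weight D).restrict W := by
  unfold weight
  rw [Measure.restrict_sum _ hW]
  congr 1
  funext i
  have hfm : Measurable (D.chart i) := (hD.contDiff i).continuous.measurable
  rw [Measure.restrict_map hfm hW, restrict_withDensity (hfm hW),
    Measure.restrict_restrict (hfm hW), inter_comm]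
  rfl

theorem VD_restr (hD : IsIntegralVarifoldIn U D) (hW : MeasurableSet W) :
    VD (restr W D) = (VD D).restrict (W ×ˢ univ) := by
  have hWm : MeasurableSet (W ×ˢ (univ : Set (L k))) := hW.prod MeasurableSet.univ
  unfold VD
  rw [Measure.restrict_sum _ hWm]
  congr 1
  funext i
  have hfm : Measurable (D.chart i) := (hD.contDiff i).continuous.measurable
  have h1 : lift D i ⁻¹' (W ×ˢ (univ : Set (L k))) = D.chart i ⁻¹' W := by
    ext a; simp [lift]
  rw [Measure.restrict_map_of_aemeasurable (aemeasurable_lift hD i) hWm, h1]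
  have h2 : (base D i).restrict (D.chart i ⁻¹' W) = base (restr W D) i := by
    unfold base
    rw [restrict_withDensity (hfm hW), Measure.restrict_restrict (hfm hW), inter_comm]
    rfl
  rw [h2]
  rfl

theorem integral_restr (hD : IsIntegralVarifoldIn U D) (hW : MeasurableSet W) (hWU : W ⊆ U) :
    IsIntegralVarifoldIn W (restr W D) where
  measurableSet i :=
    (hD.measurableSet i).inter ((hD.contDiff i).continuous.measurable hW)
  contDiff := hD.contDiff
  injOn i := (hD.injOn i).mono inter_subset_left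
  injective_fderiv i a ha := hD.injective_fderiv i a ha.1
  disjoint i j hij := (hD.disjoint i j hij).mono (image_mono inter_subset_left)
    (image_mono inter_subset_left)
  subset i := by
    rintro _ ⟨a, ha, rfl⟩
    exact ha.2
  measurable_mult := hD.measurable_mult
  mult_pos i a ha := hD.mult_pos i a ha.1
  locallyFinite K hK hKW := by
    rw [weight_restr hD hW]
    exact (Measure.restrict_apply_le _ _).trans_lt (hD.locallyFinite K hK (hKW.trans hWU))

theorem stationary_restr (hD : IsIntegralVarifoldIn U D) (hs : IsStationaryIn U D)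
    (hW : MeasurableSet W) (hWU : W ⊆ U) : IsStationaryIn W (restr W D) := by
  intro X hX hXc hXW
  rw [firstVariation_eq (integral_restr hD hW hWU) hX hXc hXW, VD_restr hD hW,
    ← (stat_VD hD hs).stat X hX hXc (hXW.trans hWU)]
  refine setIntegral_eq_integral_of_forall_compl_eq_zero fun p hp => ?_
  have h1 : p.1 ∉ tsupport X := fun h => hp ⟨hXW h, mem_univ _⟩
  have h2 : fderiv ℝ X p.1 = 0 := by
    by_contra h
    exact h1 (support_fderiv_subset ℝ h)
  rw [h2, ContinuousLinearMap.zero_comp, map_zero]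

theorem support_restr (hD : IsIntegralVarifoldIn U D) (hW : MeasurableSet W) :
    support (restr W D) ⊆ support D := by
  intro z hz r hr
  have h1 := hz r hr
  rw [weight_restr hD hW] at h1
  exact h1.trans_le (Measure.restrict_apply_le _ _)

end Crest.Agent.R234.Ex_46
end
end

-- ▼ part R234/Ex7_46
section

/-!
# Row 234, node F3-CLS, part 2 (helper46): Caccioppoli inequality in `CylAS`, general cut-off
-/

set_option autoImplicit false

open MeasureTheory Filter Topology Set Metric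
open scoped ENNReal InnerProductSpace ContDiff
open Crest.GeometryTopology.Submanifold Crest.Agent.R234.Vf_884 Crest.Agent.R234.Cy_870
open Crest.Agent.R234.Ar_870 Crest.Agent.R234.Asl_214 Crest.Agent.R234.AS_456

noncomputable section

namespace Crest.Agent.R234.Ex_46

variable {m n k : ℕ} {π : Euc k →L[ℝ] Euc m} {κ : Euc k →L[ℝ] Euc n}

/-- `|π P κ† w| ≤ √tl |w|` -/
theorem norm_hv_le (sp : Split π κ) {P : L k} (hP : P ∈ G m k) (w : Euc n) :
    ‖π (P (ContinuousLinearMap.adjoint κ w))‖ ≤ √(tl π P) * ‖w‖ := by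
  set v := π (P (ContinuousLinearMap.adjoint κ w)) with hv
  have hPr := isPr_of_G hP
  have ht := tl_nonneg sp.hh hPr
  have h1 : ‖v‖ ^ 2 = ⟪w, Svh π κ P v⟫_ℝ := by
    have e1 : ⟪w, Svh π κ P v⟫_ℝ =
        ⟪w, κ (P (ContinuousLinearMap.adjoint π v))⟫_ℝ := rfl
    rw [e1, ← ContinuousLinearMap.adjoint_inner_left κ, ← G_symm hP,
      ContinuousLinearMap.adjoint_inner_right, ← real_inner_self_eq_norm_sq]
  have h2 : ‖Svh π κ P v‖ ≤ √(tl π P) * ‖v‖ := by
    have h3 := (norm_Svh_sq_le sp hPr v).trans (qf_le_tl sp hP v)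
    have h4 : ‖Svh π κ P v‖ ^ 2 ≤ (√(tl π P) * ‖v‖) ^ 2 := by
      rw [mul_pow, Real.sq_sqrt ht]
      linarith
    exact le_of_sq_le_sq h4 (by positivity)
  rcases (norm_nonneg v).eq_or_lt with h0 | h0
  · rw [← h0]; positivity
  · have h3 : ‖v‖ ^ 2 ≤ ‖w‖ * (√(tl π P) * ‖v‖) := by
      rw [h1]
      exact (real_inner_le_norm _ _).trans (mul_le_mul_of_nonneg_left h2 (norm_nonneg _))
    have h4 : ‖v‖ * ‖v‖ ≤ (√(tl π P) * ‖w‖) * ‖v‖ := by nlinarith
    exact le_of_mul_le_mul_right h4 h0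

theorem real_cacc {f g a T s δ h q : ℝ} (hf : 0 ≤ f) (hg : 0 ≤ g) (ha : 0 ≤ a) (ha1 : a ≤ h)
    (hT : 0 ≤ T) (hs : s = √T) (hδ : 0 ≤ δ) (hδ1 : δ ≤ 1 / 32) (hh : h ≤ 1 / 2)
    (hq : q = √δ) :
    δ * (s + a) * (2 * f * g * a + f ^ 2 * a) + δ * (T + a * s) * (f ^ 2 * 1) +
      q * T * (f ^ 2 * a) + 2 * f * g * s * a ≤
      1 / 2 * (f ^ 2 * T) + 5 * ((f ^ 2 + g ^ 2) * a ^ 2) := by
  have hs0 : 0 ≤ s := by rw [hs]; exact Real.sqrt_nonneg _
  have hss : s ^ 2 = T := by rw [hs]; exact Real.sq_sqrt hT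
  have hq0 : 0 ≤ q := by rw [hq]; exact Real.sqrt_nonneg _
  have hqq : q ^ 2 = δ := by rw [hq]; exact Real.sq_sqrt hδ
  have hq1 : q ≤ 1 / 4 := by
    by_contra hcon
    push Not at hcon
    nlinarith
  rw [← hss]
  have e1 : 2 * f * g * s * a ≤ 1 / 4 * (f ^ 2 * s ^ 2) + 4 * (g ^ 2 * a ^ 2) := by
    nlinarith [sq_nonneg (1 / 2 * (f * s) - 2 * (g * a))]
  have e2 : q * s ^ 2 * (f ^ 2 * a) ≤ 1 / 8 * (f ^ 2 * s ^ 2) := by
    have h1 : q * a ≤ 1 / 4 * (1 / 2) := mul_le_mul hq1 (ha1.trans hh) ha (by norm_num)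
    have h2 : 0 ≤ f ^ 2 * s ^ 2 := by positivity
    nlinarith [mul_le_mul_of_nonneg_right h1 h2]
  have e3 : (s + a) * (2 * f * g * a + f ^ 2 * a) + (s ^ 2 + a * s) * (f ^ 2 * 1) ≤
      4 * (f ^ 2 * s ^ 2) + 5 * ((f ^ 2 + g ^ 2) * a ^ 2) := by
    nlinarith [sq_nonneg (f * s - g * a), sq_nonneg (f * s - f * a), sq_nonneg (f * a - g * a),
      mul_nonneg (mul_nonneg hf hg) (sq_nonneg a), sq_nonneg (g * a), sq_nonneg (f * s)]
  have e4 : δ * ((s + a) * (2 * f * g * a + f ^ 2 * a) + (s ^ 2 + a * s) * (f ^ 2 * 1)) ≤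
      1 / 32 * (4 * (f ^ 2 * s ^ 2) + 5 * ((f ^ 2 + g ^ 2) * a ^ 2)) := by
    have h0 : 0 ≤ 4 * (f ^ 2 * s ^ 2) + 5 * ((f ^ 2 + g ^ 2) * a ^ 2) := by positivity
    exact (mul_le_mul_of_nonneg_left e3 hδ).trans (mul_le_mul_of_nonneg_right hδ1 h0)
  nlinarith [sq_nonneg (f * a), sq_nonneg (g * a)]

/-- **Caccioppoli inequality in `CylAS`** -/
theorem cacc_cylAS {W : Measure (Euc k × L k)} {x₀ : Euc m} {R h₀ δ : ℝ}
    (h : CylAS W π κ x₀ R h₀ δ) (hδ : 0 ≤ δ) (hδ1 : δ ≤ 1 / 32) (hh : h₀ ≤ 1 / 2)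
    {φ : Euc m → ℝ} (hφ : ContDiff ℝ 1 φ) (hφ0 : ∀ v, R ≤ ‖v - x₀‖ → φ v = 0) :
    ∫ p, φ (π p.1) ^ 2 * tl π p.2 ∂W ≤
      10 * ∫ p, (φ (π p.1) ^ 2 + ‖fderiv ℝ φ (π p.1)‖ ^ 2) * ‖κ p.1‖ ^ 2 ∂W := by
  have sp := h.sp
  have hφd : Differentiable ℝ φ := hφ.differentiable one_ne_zero
  have hφc := hφ.continuous
  have hdφ := hφ.continuous_fderiv one_ne_zero
  set f : Euc m → ℝ := fun v => φ v ^ 2 with hf
  set df : Euc m → Euc m →L[ℝ] ℝ := fun v => (2 * φ v) • fderiv ℝ φ v with hdf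
  have hfd : ∀ v, HasFDerivAt f (df v) v := by
    intro v
    have h1 := (hφd v).hasFDerivAt.pow 2
    refine h1.congr_fderiv ?_
    simp [hdf]
  have hdfc : Continuous df := (continuous_const.mul hφc).smul hdφ
  have hψd : ∀ v : Euc n, HasFDerivAt (fun v : Euc n => v) (ContinuousLinearMap.id ℝ (Euc n)) v :=
    fun v => hasFDerivAt_id v
  have h1 := h.fv_ver hδ hfd hdfc (ψ := fun v : Euc n => v)
    (dψ := fun _ => ContinuousLinearMap.id ℝ (Euc n)) hψd continuous_const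
    (fun v hv => by simp only [hf]; rw [hφ0 v hv]; ring)
  -- continuity
  have cT := CylAS.continuous_tl (k := k) π
  have cπ : Continuous fun p : Euc k × L k => π p.1 := π.continuous.comp continuous_fst
  have cκ : Continuous fun p : Euc k × L k => κ p.1 := κ.continuous.comp continuous_fst
  have cφ : Continuous fun p : Euc k × L k => φ (π p.1) := hφc.comp cπ
  have cdφ : Continuous fun p : Euc k × L k => fderiv ℝ φ (π p.1) := hdφ.comp cπ
  have cadj : Continuous fun p : Euc k × L k =>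
      ContinuousLinearMap.adjoint κ (κ p.1) := (ContinuousLinearMap.adjoint κ).continuous.comp cκ
  have cmix : Continuous fun p : Euc k × L k =>
      π (p.2 (ContinuousLinearMap.adjoint κ (κ p.1))) :=
    π.continuous.comp (continuous_snd.clm_apply cadj)
  -- the first variation
  have h2 : FV W (fun p => f (π p) • ContinuousLinearMap.adjoint κ (κ p)) =
      (∫ p, φ (π p.1) ^ 2 * tl π p.2 ∂W) + ∫ p, 2 * φ (π p.1) * fderiv ℝ φ (π p.1)
        (π (p.2 (ContinuousLinearMap.adjoint κ (κ p.1)))) ∂W := by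
    have j1 : Integrable (fun p : Euc k × L k => φ (π p.1) ^ 2 * tl π p.2) W :=
      h.integrable_continuous ((cφ.pow 2).mul cT)
    have j2 : Integrable (fun p : Euc k × L k => 2 * φ (π p.1) * fderiv ℝ φ (π p.1)
        (π (p.2 (ContinuousLinearMap.adjoint κ (κ p.1))))) W :=
      h.integrable_continuous ((continuous_const.mul cφ).mul (cdφ.clm_apply cmix))
    rw [← integral_add j1 j2]
    unfold FV
    refine integral_congr_ae ?_
    filter_upwards [h.conc] with p hp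
    have e1 := tr_field κ π (F := f) (ξ := fun v : Euc n => v) p.1 p.2
      (hfd _).differentiableAt differentiableAt_id
    have e2 : fderiv ℝ (fun v : Euc n => v) (κ p.1) = ContinuousLinearMap.id ℝ (Euc n) :=
      (hψd _).fderiv
    rw [e2, ContinuousLinearMap.id_comp, tr_Svv sp hp, (hfd _).fderiv] at e1
    rw [e1]
    simp only [hf, hdf, ContinuousLinearMap.smul_apply, smul_eq_mul]
  have h3 : ∫ p, φ (π p.1) ^ 2 * tl π p.2 ∂W ≤
      |FV W (fun p => f (π p) • ContinuousLinearMap.adjoint κ (κ p))| +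
      ∫ p, 2 * |φ (π p.1)| * ‖fderiv ℝ φ (π p.1)‖ * √(tl π p.2) * ‖κ p.1‖ ∂W := by
    have e1 : -(∫ p, 2 * φ (π p.1) * fderiv ℝ φ (π p.1)
        (π (p.2 (ContinuousLinearMap.adjoint κ (κ p.1)))) ∂W) ≤
        ∫ p, 2 * |φ (π p.1)| * ‖fderiv ℝ φ (π p.1)‖ * √(tl π p.2) * ‖κ p.1‖ ∂W := by
      rw [← integral_neg]
      refine integral_mono_ae (h.integrable_continuous
        ((continuous_const.mul cφ).mul (cdφ.clm_apply cmix)).neg) (h.integrable_continuous
        ((((continuous_const.mul cφ.abs).mul cdφ.norm).mul cT.sqrt).mul cκ.norm)) ?_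
      filter_upwards [h.conc] with p hp
      have e2 := norm_hv_le sp hp (κ p.1)
      have e3 := (fderiv ℝ φ (π p.1)).le_opNorm
        (π (p.2 (ContinuousLinearMap.adjoint κ (κ p.1))))
      rw [Real.norm_eq_abs] at e3
      calc _ ≤ |2 * φ (π p.1) * fderiv ℝ φ (π p.1)
            (π (p.2 (ContinuousLinearMap.adjoint κ (κ p.1))))| := neg_le_abs _
        _ = 2 * |φ (π p.1)| * |fderiv ℝ φ (π p.1)
            (π (p.2 (ContinuousLinearMap.adjoint κ (κ p.1))))| := by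
            rw [abs_mul, abs_mul, abs_of_pos (two_pos : (0:ℝ) < 2)]
        _ ≤ 2 * |φ (π p.1)| * (‖fderiv ℝ φ (π p.1)‖ * (√(tl π p.2) * ‖κ p.1‖)) :=
            mul_le_mul_of_nonneg_left (e3.trans (mul_le_mul_of_nonneg_left e2 (norm_nonneg _)))
              (by positivity)
        _ = _ := by ring
    have e4 := le_abs_self (FV W (fun p => f (π p) • ContinuousLinearMap.adjoint κ (κ p)))
    linarith
  have h4 : ∫ p, φ (π p.1) ^ 2 * tl π p.2 ∂W ≤
      ∫ p, (1 / 2 * (φ (π p.1) ^ 2 * tl π p.2) +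
        5 * ((φ (π p.1) ^ 2 + ‖fderiv ℝ φ (π p.1)‖ ^ 2) * ‖κ p.1‖ ^ 2)) ∂W := by
    refine h3.trans ((add_le_add_left h1 _).trans ?_)
    have cA : Continuous fun p : Euc k × L k =>
        (δ * (√(tl π p.2) + ‖κ p.1‖) *
          (‖df (π p.1)‖ * ‖κ p.1‖ + |f (π p.1)| * ‖κ p.1‖) +
        δ * (tl π p.2 + ‖κ p.1‖ * √(tl π p.2)) *
          (|f (π p.1)| * ‖ContinuousLinearMap.id ℝ (Euc n)‖) +
        √δ * tl π p.2 * (|f (π p.1)| * ‖κ p.1‖)) := by
      have c1 : Continuous fun p : Euc k × L k => ‖df (π p.1)‖ := (hdfc.comp cπ).norm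
      have c2 : Continuous fun p : Euc k × L k => |f (π p.1)| := (cφ.pow 2).abs
      exact (((continuous_const.mul (cT.sqrt.add cκ.norm)).mul
        ((c1.mul cκ.norm).add (c2.mul cκ.norm))).add
        ((continuous_const.mul (cT.add (cκ.norm.mul cT.sqrt))).mul (c2.mul continuous_const))).add
        ((continuous_const.mul cT).mul (c2.mul cκ.norm))
    have cB : Continuous fun p : Euc k × L k =>
        2 * |φ (π p.1)| * ‖fderiv ℝ φ (π p.1)‖ * √(tl π p.2) * ‖κ p.1‖ :=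
      (((continuous_const.mul cφ.abs).mul cdφ.norm).mul cT.sqrt).mul cκ.norm
    rw [← integral_add (h.integrable_continuous cA) (h.integrable_continuous cB)]
    refine integral_mono_ae (h.integrable_continuous (cA.add cB)) (h.integrable_continuous
      ((continuous_const.mul ((cφ.pow 2).mul cT)).add (continuous_const.mul
        (((cφ.pow 2).add (cdφ.norm.pow 2)).mul (cκ.norm.pow 2))))) ?_
    filter_upwards [h.conc, h.hgt] with p hp hhp
    have hT := tl_nonneg sp.hh (isPr_of_G hp)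
    have e1 := real_cacc (f := |φ (π p.1)|) (g := ‖fderiv ℝ φ (π p.1)‖) (a := ‖κ p.1‖)
      (T := tl π p.2) (s := √(tl π p.2)) (δ := δ) (h := h₀) (q := √δ) (abs_nonneg _)
      (norm_nonneg _) (norm_nonneg _) hhp hT rfl hδ hδ1 hh rfl
    have e2 : ‖df (π p.1)‖ = 2 * |φ (π p.1)| * ‖fderiv ℝ φ (π p.1)‖ := by
      simp only [hdf]
      rw [norm_smul, Real.norm_eq_abs, abs_mul, abs_of_pos (two_pos : (0:ℝ) < 2)]
    have e3 : |f (π p.1)| = |φ (π p.1)| ^ 2 := by
      simp only [hf]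
      rw [abs_pow]
    have e4 : ‖ContinuousLinearMap.id ℝ (Euc n)‖ ≤ 1 := ContinuousLinearMap.norm_id_le
    have e5 : δ * (tl π p.2 + ‖κ p.1‖ * √(tl π p.2)) *
          (|φ (π p.1)| ^ 2 * ‖ContinuousLinearMap.id ℝ (Euc n)‖) ≤
        δ * (tl π p.2 + ‖κ p.1‖ * √(tl π p.2)) * (|φ (π p.1)| ^ 2 * 1) := by
      refine mul_le_mul_of_nonneg_left (mul_le_mul_of_nonneg_left e4 (by positivity)) ?_
      exact mul_nonneg hδ (add_nonneg hT (by positivity))
    rw [e2, e3]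
    simp only [sq_abs] at e1 e5 ⊢
    linarith
  have i1 : Integrable (fun p : Euc k × L k => φ (π p.1) ^ 2 * tl π p.2) W :=
    h.integrable_continuous ((cφ.pow 2).mul cT)
  have i2 : Integrable (fun p : Euc k × L k =>
      (φ (π p.1) ^ 2 + ‖fderiv ℝ φ (π p.1)‖ ^ 2) * ‖κ p.1‖ ^ 2) W :=
    h.integrable_continuous (((cφ.pow 2).add (cdφ.norm.pow 2)).mul (cκ.norm.pow 2))
  rw [integral_add (i1.const_mul _) (i2.const_mul _), integral_const_mul,
    integral_const_mul] at h4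
  linarith

end Crest.Agent.R234.Ex_46
end
end

-- ▼ part R234/Ex8_46

/-!
# Row 234, node F3-CLS, part 3 (helper46): masses under the chart, cut-off, and the class

`cls_of`: the restricted, transported, zoomed data `DD` belong to the class of the core, given the
almost stationarity (281) and the masses of the two solid cylinders.
-/

set_option autoImplicit false

open MeasureTheory Filter Topology Set Metric
open scoped ENNReal InnerProductSpace ContDiff
open Crest.GeometryTopology.Submanifold Crest.Agent.R234.Vf_884 Crest.Agent.R234.Cy_870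
open Crest.Agent.R234.Ar_870
open Crest.Agent.R234.Main_456 (Frame Msys hgt sep box)

noncomputable section

namespace Crest.Agent.R234.Ex_46

variable {m n k : ℕ} {U : Set (Euc k)} {D : VarifoldData m k}
  {π : Euc k →L[ℝ] Euc m} {κ : Euc k →L[ℝ] Euc n} {T T' : Euc k → Euc k}
  {u : Euc m → Euc n} {e : ℝ} {Φ Ψ : Euc k → Euc k} {lam : ℝ}

theorem norm_fderiv_le' {e : ℝ} (hg : ∀ z, ‖fderiv ℝ T z - 1‖ ≤ e) (z : Euc k) :
    ‖fderiv ℝ T z‖ ≤ 1 + e := by
  have h1 : fderiv ℝ T z = (fderiv ℝ T z - 1) + 1 := by abel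
  have h2 : ‖(1 : Euc k →L[ℝ] Euc k)‖ ≤ 1 := ContinuousLinearMap.norm_id_le
  rw [h1]
  exact (norm_add_le _ _).trans (by linarith [hg z])

theorem norm_fderiv_inv_le' (h : Dif T T') {e : ℝ} (he : e < 1)
    (hg : ∀ z, ‖fderiv ℝ T z - 1‖ ≤ e) (z : Euc k) :
    ‖fderiv ℝ T' z‖ ≤ (1 - e)⁻¹ := by
  have h0 : 0 < 1 - e := by linarith
  have h1 : LipschitzWith (Real.toNNReal (1 - e)⁻¹) T' := by
    refine LipschitzWith.of_dist_le_mul fun x y => ?_
    rw [dist_eq_norm, dist_eq_norm, Real.coe_toNNReal _ (by positivity)]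
    have h1 := near h convex_univ (fun z _ => hg z) (mem_univ (T' x)) (mem_univ (T' y))
    rw [h.right, h.right] at h1
    have h2 := norm_sub_norm_le (T' x - T' y) (x - y)
    rw [norm_sub_rev (T' x - T' y)] at h2
    rw [inv_mul_eq_div, le_div_iff₀ h0]
    linarith
  have h2 := norm_fderiv_le_of_lipschitz ℝ h1 (x₀ := z)
  rwa [Real.coe_toNNReal _ (by positivity)] at h2

theorem exists_small (m : ℕ) {η : ℝ} (hη : 0 < η) : ∃ c : ℝ, 0 < c ∧ c ≤ 1 / 16 ∧
    ∀ e, e ≤ c → ((1 - e)⁻¹) ^ m ≤ 1 + η ∧ (0 ≤ e → (1 + e) ^ m ≤ 1 + η) := by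
  have h1 : Tendsto (fun e : ℝ => ((1 - e)⁻¹) ^ m) (𝓝 0) (𝓝 (((1 - 0 : ℝ)⁻¹) ^ m)) := by
    refine Tendsto.pow (Tendsto.inv₀ (tendsto_const_nhds.sub tendsto_id) ?_) m
    norm_num
  have h2 : Tendsto (fun e : ℝ => (1 + e) ^ m) (𝓝 0) (𝓝 ((1 + 0 : ℝ) ^ m)) :=
    Tendsto.pow (tendsto_const_nhds.add tendsto_id) m
  have e1 : ((1 - 0 : ℝ)⁻¹) ^ m < 1 + η := by simp; exact hη
  have e2 : ((1 + 0 : ℝ)) ^ m < 1 + η := by simp; exact hη
  obtain ⟨c, hc, hcc⟩ := Metric.eventually_nhds_iff.1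
    ((h1.eventually_lt_const e1).and (h2.eventually_lt_const e2))
  refine ⟨min (c / 2) (1 / 16), by positivity, min_le_right _ _, fun e he => ?_⟩
  have hec : e ≤ c / 2 := he.trans (min_le_left _ _)
  have he16 : e ≤ 1 / 16 := he.trans (min_le_right _ _)
  have key : ∀ x : ℝ, 0 ≤ x → x ≤ c / 2 → ((1 - x)⁻¹) ^ m < 1 + η ∧ (1 + x) ^ m < 1 + η := by
    intro x hx hxc
    refine hcc ?_
    rw [Real.dist_eq, sub_zero, abs_of_nonneg hx]
    linarith
  constructor
  · rcases le_or_gt 0 e with h0 | h0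
    · exact (key e h0 hec).1.le
    · have h3 : (1 - e)⁻¹ ≤ 1 := inv_le_one_of_one_le₀ (by linarith)
      have h4 : ((1 - e)⁻¹) ^ m ≤ 1 := pow_le_one₀ (by
        have : 0 < 1 - e := by linarith
        positivity) h3
      linarith
  · intro h0
    exact (key e h0 hec).2.le

/-- the open set of the class -/
def UU (π : Euc k →L[ℝ] Euc m) (κ : Euc k →L[ℝ] Euc n) (Φ : Euc k → Euc k) (z₀ : Euc k) (ρ : ℝ)
    (U : Set (Euc k)) : Set (Euc k) := {z | ‖π z‖ < 6 ∧ ‖κ z‖ < 3 ∧ hmt' z₀ ρ (Φ z) ∈ U}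

/-- the data of the class -/
def DD (π : Euc k →L[ℝ] Euc m) (κ : Euc k →L[ℝ] Euc n) (Φ Ψ : Euc k → Euc k) (z₀ : Euc k)
    (ρ : ℝ) (U : Set (Euc k)) (D : VarifoldData m k) : VarifoldData m k :=
  restr (UU π κ Φ z₀ ρ U) (trans Ψ (zoom z₀ ρ D))

theorem isOpen_UU (hΦ : Continuous Φ) (z₀ : Euc k) (ρ : ℝ) (hU : IsOpen U) :
    IsOpen (UU π κ Φ z₀ ρ U) := by
  have h1 : IsOpen {z : Euc k | ‖π z‖ < 6} := isOpen_lt (by fun_prop) continuous_const
  have h2 : IsOpen {z : Euc k | ‖κ z‖ < 3} := isOpen_lt (by fun_prop) continuous_const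
  have h3 : IsOpen {z : Euc k | hmt' z₀ ρ (Φ z) ∈ U} := by
    refine hU.preimage ?_
    unfold hmt'
    fun_prop
  exact h1.inter (h2.inter h3)

theorem UU_subset (z₀ : Euc k) (ρ : ℝ) :
    UU π κ Φ z₀ ρ U ⊆ Φ ⁻¹' (hmt' z₀ ρ ⁻¹' U) := fun _ hz => hz.2.2

theorem cyl_subset_UU (h : Cht π κ u e Φ Ψ) (sp : Split π κ)
    (hu0 : ∀ v, ‖u v‖ ≤ lam) (hu1 : ∀ v, ‖fderiv ℝ u v‖ ≤ lam) (hl2 : lam ≤ 1 / 4)
    {z₀ : Euc k} {ρ : ℝ} (hρ : 0 < ρ) (hb : closedBall z₀ (14 * ρ) ⊆ U) :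
    cyl π κ 0 5 2 ⊆ UU π κ Φ z₀ ρ U := by
  intro z hz
  obtain ⟨h1, h2⟩ := hz
  rw [sub_zero] at h1
  refine ⟨by linarith, by linarith, hb ?_⟩
  rw [mem_closedBall, dist_eq_norm]
  have e1 : hmt' z₀ ρ (Φ z) - z₀ = ρ • Φ z := by unfold hmt'; abel
  rw [e1, norm_smul, Real.norm_of_nonneg hρ.le, mul_comm]
  refine mul_le_mul_of_nonneg_right ?_ hρ.le
  have h3 : ‖π (Φ z)‖ ≤ 6 := by
    rw [h.pi_eq sp (by linarith)]
    refine (norm_sub_le _ _).trans ?_
    have := norm_adj_le (hu1 (π z)) (κ z)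
    nlinarith [norm_nonneg (κ z)]
  have h4 : ‖κ (Φ z)‖ ≤ 6 := by
    rw [h.ka_eq sp (by linarith)]
    refine (norm_add_le _ _).trans ?_
    have := hu0 (π z)
    linarith
  have h5 := sp.norm_sq (Φ z)
  nlinarith [norm_nonneg (Φ z), norm_nonneg (π (Φ z)), norm_nonneg (κ (Φ z))]

theorem integral_DD (hD : IsIntegralVarifoldIn U D) (hU : IsOpen U) (h : Dif Φ Ψ) (z₀ : Euc k)
    {ρ : ℝ} (hρ : 0 < ρ) :
    IsIntegralVarifoldIn (UU π κ Φ z₀ ρ U) (DD π κ Φ Ψ z₀ ρ U D) :=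
  integral_restr (integral_trans (integral_zoom hD z₀ hρ) h.symm)
    (isOpen_UU h.cd.continuous z₀ ρ hU).measurableSet (UU_subset z₀ ρ)

theorem weight_DD (hD : IsIntegralVarifoldIn U D) (hU : IsOpen U) (h : Dif Φ Ψ) (z₀ : Euc k)
    {ρ : ℝ} (hρ : 0 < ρ) {B : Set (Euc k)} (hB : MeasurableSet B)
    (hBU : B ⊆ UU π κ Φ z₀ ρ U) :
    weight (DD π κ Φ Ψ z₀ ρ U D) B = weight (trans Ψ (zoom z₀ ρ D)) B := by
  unfold DD
  rw [weight_restr (integral_trans (integral_zoom hD z₀ hρ) h.symm)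
    (isOpen_UU h.cd.continuous z₀ ρ hU).measurableSet, Measure.restrict_apply hB,
    inter_eq_left.2 hBU]

/-- two-sided comparison of the mass of `B` with the mass of the image in the original varifold -/
theorem weight_cht (hD : IsIntegralVarifoldIn U D) (h : Dif Φ Ψ)
    (hg : ∀ z, ‖fderiv ℝ Φ z - 1‖ ≤ e) (he0 : 0 ≤ e) (he : e < 1) (z₀ : Euc k) {ρ : ℝ}
    (hρ : 0 < ρ) {B : Set (Euc k)} (hB : MeasurableSet B) :
    weight (trans Ψ (zoom z₀ ρ D)) B ≤ ENNReal.ofReal (((1 - e)⁻¹) ^ m) *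
      (ENNReal.ofReal ((ρ ^ m)⁻¹) * weight D (hmt' z₀ ρ '' (Φ '' B))) ∧
    ENNReal.ofReal ((ρ ^ m)⁻¹) * weight D (hmt' z₀ ρ '' (Φ '' B)) ≤
      ENNReal.ofReal ((1 + e) ^ m) * weight (trans Ψ (zoom z₀ ρ D)) B := by
  have hz := integral_zoom hD z₀ hρ
  have hB' : MeasurableSet (Φ '' B) := by
    rw [h.image_eq]; exact h.symm.meas hB
  have h1 := weight_trans_le hz h.symm (L := (1 - e)⁻¹) (by
    have : 0 < 1 - e := by linarith
    positivity) hB (fun z _ => norm_fderiv_inv_le' h he hg z)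
  have h2 := weight_trans_le (integral_trans hz h.symm) h (L := 1 + e) (by linarith) hB'
    (fun z _ => norm_fderiv_le' hg z)
  rw [trans_trans h.right] at h2
  have h3 : Φ ⁻¹' (Φ '' B) = B := preimage_image_eq _ h.inj
  rw [← h.image_eq, weight_zoom hD z₀ hρ hB'] at h1
  rw [h3, weight_zoom hD z₀ hρ hB'] at h2
  exact ⟨h1, h2⟩

end Crest.Agent.R234.Ex_46
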