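import Crest.Agent.R234.F10a_188
import Crest.Agent.R234.Top9_395

-- ▼ part R234/F10b_188
section

/-!
# Row 234, (F10), part b (helper188): the chain of references in an abstract world

`R` = references, `l` = logarithmic scale. `st M l` = "`M` is a state at level `l`" (selected minimal
graph, small mean error, doubling on the collar), `L M l` = `Λ`, `f M l` = frequency excess,
`κ M l` = normalised curvature, `K M l` = inverse step length, `flat l` = flatness of the varifold at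
level `l`.

* `StepH` (F7): from a state with permitted frequency one can go down by `h ∈ [1 / K, 1]`, the new
  `K` is at most `max K (K₀ (1 + f'))`.
* `FlatH` (FL): flatness at level `l` gives `Λ₀ ≤ L M l`.
* `reach` : from a state with the invariant `Inv` one reaches every lower level of flatness, with
  the invariant, hence with a frequency bound independent of the number of steps.
* `reach_kappa` : if moreover `λ ≤ L` on the last part of length `t₁ - t`, the curvature at the end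
  is at most `exp (-(t₁ - t) / 2) κm + 2 a / λ ^ 2`.
-/

set_option autoImplicit false

namespace Crest.Agent.R234.F10b_188

open Real Crest.Agent.R234.F10a_188

variable {R : Type*}

/-- the data of the chain at one point. -/
structure World (R : Type*) where
  st : R → ℝ → Prop
  L : R → ℝ → ℝ
  f : R → ℝ → ℝ
  κ : R → ℝ → ℝ
  K : R → ℝ → ℝ
  f_gt : ∀ M l, st M l → -1 < f M l
  κ_nonneg : ∀ M l, st M l → 0 ≤ κ M l
  K_pos : ∀ M l, st M l → 0 < K M l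

variable (W : World R) (k : Cst)

/-- the relation of one step. -/
structure Nx (K₀ : ℝ) (M : R) (l : ℝ) (M' : R) (h : ℝ) : Prop where
  lo : 1 / W.K M l ≤ h
  hi : h ≤ 1
  st : W.st M' (l - h)
  rel : k.Rel h (W.L M l) (W.f M l) (W.κ M l) (W.L M' (l - h)) (W.f M' (l - h)) (W.κ M' (l - h))
  hK : W.K M' (l - h) ≤ max (W.K M l) (K₀ * (1 + W.f M' (l - h)))

/-- (F7) the step. -/
def StepH (flat : ℝ → Prop) (Λ₀ κm P K₀ : ℝ) : Prop :=
  ∀ M l, W.st M l → flat l → Λ₀ ≤ W.L M l → W.κ M l ≤ κm → P * (1 + W.f M l) ≤ W.L M l ^ 2 →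
    ∃ M' h, Nx W k K₀ M l M' h

/-- (FL) flatness bounds `Λ` from below. -/
def FlatH (flat : ℝ → Prop) (Λ₀ κm : ℝ) : Prop :=
  ∀ M l, W.st M l → flat l → W.κ M l ≤ κm → Λ₀ ≤ W.L M l

/-- the invariant at a state. -/
def InvW (Λ₀ κm B P : ℝ) (M : R) (l : ℝ) : Prop :=
  k.Inv Λ₀ κm B P (W.L M l) (W.f M l) (W.κ M l)

variable {W k}

/-- general induction: every property which contains the invariant and is preserved by the steps
can be transported down to the bottom of the range of flatness. -/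
theorem reach_gen {flat : ℝ → Prop} {Λ₀ κm B P K₀ : ℝ} (hΛ₀ : 0 < Λ₀) (hP : 0 ≤ P)
    (hK₀ : 0 ≤ K₀) (hκm : 2 * k.a / Λ₀ ^ 2 ≤ κm)
    (hB : P * exp (k.base Λ₀ κm) ≤ Λ₀ ^ 2)
    (hstep : StepH W k flat Λ₀ κm P K₀) (hfl : FlatH W flat Λ₀ κm)
    (Φ : R → ℝ → Prop) {M₀ : R} {l₀ t : ℝ}
    (hΦ : ∀ M l M' h, l ≤ l₀ → t ≤ l - h → W.st M l → InvW W k Λ₀ κm B P M l → Φ M l →
      Nx W k K₀ M l M' h → Φ M' (l - h))
    (htl : t ≤ l₀) (hflat : ∀ l, t ≤ l → l ≤ l₀ → flat l)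
    (h0 : W.st M₀ l₀) (hi0 : InvW W k Λ₀ κm B P M₀ l₀) (hΦ0 : Φ M₀ l₀) :
    ∃ M l, t ≤ l ∧ l ≤ t + 1 ∧ l ≤ l₀ ∧ W.st M l ∧ InvW W k Λ₀ κm B P M l ∧ Φ M l := by
  set F := exp (max B (k.base Λ₀ κm)) with hF
  have hF0 : 0 < F := exp_pos _
  set Km := max (W.K M₀ l₀) (K₀ * F) with hKm
  have hKm0 : 0 < Km := (W.K_pos _ _ h0).trans_le (le_max_left _ _)
  set hm := 1 / Km with hhm
  have hhm0 : 0 < hm := by positivity
  -- the induction
  have key : ∀ n : ℕ, (∃ M l, t ≤ l ∧ l ≤ t + 1 ∧ l ≤ l₀ ∧ W.st M l ∧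
        InvW W k Λ₀ κm B P M l ∧ Φ M l) ∨
      (∃ M l, t ≤ l ∧ l ≤ l₀ - n * hm ∧ l ≤ l₀ ∧ W.st M l ∧ InvW W k Λ₀ κm B P M l ∧ Φ M l ∧
        W.K M l ≤ Km) := by
    intro n
    induction n with
    | zero =>
      exact Or.inr ⟨M₀, l₀, htl, by simp, le_refl _, h0, hi0, hΦ0, le_max_left _ _⟩
    | succ n ih =>
      rcases ih with ih | ⟨M, l, h1, h2, h3, h4, h5, h6, h7⟩
      · exact Or.inl ih
      rcases le_or_gt l (t + 1) with hl | hl
      · exact Or.inl ⟨M, l, h1, hl, h3, h4, h5, h6⟩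
      obtain ⟨M', h, hn⟩ := hstep M l h4 (hflat l h1 h3) h5.hL h5.hκ (h5.perm hΛ₀ hP)
      have hh : hm ≤ h := by
        refine le_trans ?_ hn.lo
        exact one_div_le_one_div_of_le (W.K_pos _ _ h4) h7
      have hh0 : 0 < h := hhm0.trans_le hh
      have hh1 : h ≤ 1 := hn.hi
      have hfl' : flat (l - h) := hflat _ (by linarith) (by linarith)
      have hκ' := Cst.Inv.kappa_le hh0.le (by linarith) hΛ₀ hκm h5 hn.rel
      have hinv : InvW W k Λ₀ κm B P M' (l - h) :=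
        Cst.Inv.next hh0.le (by linarith) hΛ₀ hP hκm hB h5 hn.rel (hfl M' _ hn.st hfl' hκ')
          (W.κ_nonneg _ _ hn.st) (W.f_gt _ _ hn.st)
      refine Or.inr ⟨M', l - h, by linarith, ?_, by linarith, hn.st, hinv,
        hΦ M l M' h h3 (by linarith) h4 h5 h6 hn, ?_⟩
      · push_cast
        nlinarith
      · refine hn.hK.trans (max_le h7 ?_)
        have h9 : 1 + W.f M' (l - h) ≤ F := hinv.freq hΛ₀
        exact (mul_le_mul_of_nonneg_left h9 hK₀).trans (le_max_right _ _)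
  obtain ⟨n, hn⟩ := exists_nat_gt ((l₀ - t) / hm)
  rcases key n with h | ⟨M, l, h1, h2, -⟩
  · exact h
  · exfalso
    rw [div_lt_iff₀ hhm0] at hn
    linarith

/-- the chain reaches every lower level of flatness, the invariant is preserved. -/
theorem reach {flat : ℝ → Prop} {Λ₀ κm B P K₀ : ℝ} (hΛ₀ : 0 < Λ₀) (hP : 0 ≤ P)
    (hK₀ : 0 ≤ K₀) (hκm : 2 * k.a / Λ₀ ^ 2 ≤ κm)
    (hB : P * exp (k.base Λ₀ κm) ≤ Λ₀ ^ 2)
    (hstep : StepH W k flat Λ₀ κm P K₀) (hfl : FlatH W flat Λ₀ κm)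
    {M₀ : R} {l₀ t : ℝ} (htl : t ≤ l₀) (hflat : ∀ l, t ≤ l → l ≤ l₀ → flat l)
    (h0 : W.st M₀ l₀) (hi0 : InvW W k Λ₀ κm B P M₀ l₀) :
    ∃ M l, t ≤ l ∧ l ≤ t + 1 ∧ l ≤ l₀ ∧ W.st M l ∧ InvW W k Λ₀ κm B P M l := by
  obtain ⟨M, l, h1, h2, h3, h4, h5, -⟩ := reach_gen hΛ₀ hP hK₀ hκm hB hstep hfl
    (fun _ _ => True) (fun _ _ _ _ _ _ _ _ _ _ => trivial) htl hflat h0 hi0 trivial
  exact ⟨M, l, h1, h2, h3, h4, h5⟩

/-- the curvature at the end of a stretch where `λ ≤ Λ`. -/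
theorem reach_kappa {flat : ℝ → Prop} {Λ₀ κm B P K₀ lam : ℝ} (hΛ₀ : 0 < Λ₀) (hP : 0 ≤ P)
    (hK₀ : 0 ≤ K₀) (hκm : 2 * k.a / Λ₀ ^ 2 ≤ κm) (hκ0 : 0 ≤ κm)
    (hB : P * exp (k.base Λ₀ κm) ≤ Λ₀ ^ 2)
    (hstep : StepH W k flat Λ₀ κm P K₀) (hfl : FlatH W flat Λ₀ κm) (hlam : 0 < lam)
    {M₀ : R} {l₀ t : ℝ} (htl : t ≤ l₀) (hflat : ∀ l, t ≤ l → l ≤ l₀ → flat l)
    (hlarge : ∀ M l, t ≤ l → l ≤ l₀ → W.st M l → W.κ M l ≤ κm → lam ≤ W.L M l)
    (h0 : W.st M₀ l₀) (hi0 : InvW W k Λ₀ κm B P M₀ l₀) :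
    ∃ M l, t ≤ l ∧ l ≤ t + 1 ∧ l ≤ l₀ ∧ W.st M l ∧ InvW W k Λ₀ κm B P M l ∧
      W.κ M l ≤ exp (-(l₀ - l) / 2) * κm + 2 * k.a / lam ^ 2 := by
  have ha := k.ha
  refine reach_gen hΛ₀ hP hK₀ hκm hB hstep hfl
    (fun M l => W.κ M l ≤ exp (-(l₀ - l) / 2) * κm + 2 * k.a / lam ^ 2) ?_ htl hflat h0 hi0 ?_
  · intro M l M' h hl hth hst hinv hΦ hn
    have hh0 : 0 < h := (one_div_pos.2 (W.K_pos _ _ hst)).trans_le hn.lo
    have hh1 : h ≤ 1 := hn.hi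
    have h9 := hn.rel.HK
    have h10 : lam ≤ W.L M l := hlarge M l (by linarith) hl hst hinv.hκ
    have h11 : k.a * h / W.L M l ^ 2 ≤ k.a * h / lam ^ 2 :=
      div_le_div_of_nonneg_left (by positivity) (by positivity)
        (pow_le_pow_left₀ hlam.le h10 2)
    have h12 : 1 - h / 2 ≤ exp (-h / 2) := by
      have := add_one_le_exp (-h / 2)
      linarith
    have h13 : exp (-(l₀ - (l - h)) / 2) = exp (-h / 2) * exp (-(l₀ - l) / 2) := by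
      rw [← exp_add]; congr 1; ring
    have h14 : (1 - h / 2) * (exp (-(l₀ - l) / 2) * κm) ≤
        exp (-(l₀ - (l - h)) / 2) * κm := by
      rw [h13, mul_assoc]
      exact mul_le_mul_of_nonneg_right h12 (by positivity)
    have h15 : (1 - h / 2) * W.κ M l ≤
        (1 - h / 2) * (exp (-(l₀ - l) / 2) * κm + 2 * k.a / lam ^ 2) :=
      mul_le_mul_of_nonneg_left hΦ (by linarith)
    have h16 : (1 - h / 2) * (2 * k.a / lam ^ 2) + k.a * h / lam ^ 2 = 2 * k.a / lam ^ 2 := by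
      ring
    calc W.κ M' (l - h) ≤ (1 - h / 2) * W.κ M l + k.a * h / W.L M l ^ 2 := h9
      _ ≤ (1 - h / 2) * (exp (-(l₀ - l) / 2) * κm + 2 * k.a / lam ^ 2) + k.a * h / lam ^ 2 := by
          linarith
      _ ≤ exp (-(l₀ - (l - h)) / 2) * κm + 2 * k.a / lam ^ 2 := by linarith
  · have := hi0.hκ
    have h7 : 0 ≤ 2 * k.a / lam ^ 2 := by positivity
    simp only [sub_self, neg_zero, zero_div, exp_zero, one_mul]
    linarith

/-! ### the start -/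

/-- pre-states: references without selection property; `Lp` = their `Λ`, `κp` = their curvature. -/
structure Pre (R : Type*) where
  pre : R → ℝ → Prop
  L : R → ℝ → ℝ
  κ : R → ℝ → ℝ

/-- (F8) the start step: from a pre-state at level `l` either a state with permitted frequency in
`[l - δ Λ^(-γ), l]` or a pre-state there whose `Λ` has grown by the factor `p`
(for levels in the window `[S - 1, S]`). -/
def StartH (W : World R) (Wp : Pre R) (flat : ℝ → Prop) (Λ₀ κm P δ γ p S : ℝ) : Prop :=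
  ∀ M l, S - 1 ≤ l → l ≤ S → Wp.pre M l → flat l → Λ₀ ≤ Wp.L M l → Wp.κ M l ≤ κm →
    ∃ M' l', l - δ * Wp.L M l ^ (-γ) ≤ l' ∧ l' ≤ l ∧
      ((W.st M' l' ∧ Λ₀ ≤ W.L M' l' ∧ P * (1 + W.f M' l') ≤ W.L M' l' ^ 2 ∧
        W.κ M' l' ≤ Wp.κ M l + 1 / Wp.L M l) ∨
      (Wp.pre M' l' ∧ p * Wp.L M l ≤ Wp.L M' l' ∧ Wp.κ M' l' ≤ Wp.κ M l + 1 / Wp.L M l))

/-- the start: from a pre-state at the level `S` one finds a state in `[S - 1, S]`, provided the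
excess is bounded from below there. -/
theorem start {W : World R} {Wp : Pre R} {flat : ℝ → Prop} {Λ₀ κm P δ γ p lam S : ℝ}
    (hΛ₀ : 0 < Λ₀) (hδ : 0 ≤ δ) (hγ : 0 < γ) (hp : 1 < p)
    (hlen : δ * Λ₀ ^ (-γ) ≤ 1 - p ^ (-γ))
    (hκm : 1 / Λ₀ ≤ κm / 2 * (1 - p⁻¹))
    (hst : StartH W Wp flat Λ₀ κm P δ γ p S) (hflat : ∀ l, S - 1 ≤ l → l ≤ S → flat l)
    (hpos : ∀ M l, S - 1 ≤ l → l ≤ S → Wp.pre M l → Wp.κ M l ≤ κm → Wp.L M l ≤ lam)
    {M₀ : R} (h0 : Wp.pre M₀ S) (hL0 : Λ₀ ≤ Wp.L M₀ S) (hκ : Wp.κ M₀ S ≤ κm / 2) :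
    ∃ M l, S - 1 ≤ l ∧ l ≤ S ∧ W.st M l ∧ Λ₀ ≤ W.L M l ∧ P * (1 + W.f M l) ≤ W.L M l ^ 2 ∧
      W.κ M l ≤ κm := by
  set q := p ^ (-γ) with hq
  have hp0 : 0 < p := by linarith
  have hq0 : 0 < q := rpow_pos_of_pos hp0 _
  have hq1 : q < 1 := rpow_lt_one_of_one_lt_of_neg hp (by linarith)
  have hpi : 0 < p⁻¹ := inv_pos.2 hp0
  have hpi1 : p⁻¹ < 1 := inv_lt_one_of_one_lt₀ hp
  have hd : δ * Λ₀ ^ (-γ) / (1 - q) ≤ 1 := by
    rw [div_le_one (by linarith)]; exact hlen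
  have hk : 1 / Λ₀ / (1 - p⁻¹) ≤ κm / 2 := by
    rw [div_le_iff₀ (by linarith)]; exact hκm
  set A := δ * Λ₀ ^ (-γ) / (1 - q) with hA
  set B := 1 / Λ₀ / (1 - p⁻¹) with hB
  have hA0 : 0 ≤ A := by positivity
  have hB0 : 0 ≤ B := by
    have : 0 < 1 - p⁻¹ := by linarith
    positivity
  have key : ∀ n : ℕ, (∃ M l, S - 1 ≤ l ∧ l ≤ S ∧ W.st M l ∧ Λ₀ ≤ W.L M l ∧
        P * (1 + W.f M l) ≤ W.L M l ^ 2 ∧ W.κ M l ≤ κm) ∨
      (∃ M l, S - A * (1 - q ^ n) ≤ l ∧ l ≤ S ∧ Wp.pre M l ∧ p ^ n * Λ₀ ≤ Wp.L M l ∧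
        Wp.κ M l ≤ κm / 2 + B * (1 - p⁻¹ ^ n)) := by
    intro n
    induction n with
    | zero => exact Or.inr ⟨M₀, S, by simp, le_refl _, h0, by simpa using hL0, by simpa using hκ⟩
    | succ n ih =>
      rcases ih with ih | ⟨M, l, h1, h2, h3, h4, h5⟩
      · exact Or.inl ih
      have hpn : 1 ≤ p ^ n := one_le_pow₀ hp.le
      have hpnΛ : Λ₀ ≤ p ^ n * Λ₀ := le_mul_of_one_le_left hΛ₀.le hpn
      have hLL : Λ₀ ≤ Wp.L M l := hpnΛ.trans h4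
      have hLpos : 0 < Wp.L M l := hΛ₀.trans_le hLL
      have hA1 : A * (1 - q ^ n) ≤ 1 := by
        have : A * (1 - q ^ n) ≤ A * 1 :=
          mul_le_mul_of_nonneg_left (by linarith [pow_pos hq0 n]) hA0
        linarith
      have hB1 : B * (1 - p⁻¹ ^ n) ≤ B * 1 :=
        mul_le_mul_of_nonneg_left (by linarith [pow_pos hpi n]) hB0
      obtain ⟨M', l', e1, e2, e3⟩ :=
        hst M l (by linarith) h2 h3 (hflat l (by linarith) h2) hLL (by linarith)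
      -- length of the step
      have hlen' : δ * Wp.L M l ^ (-γ) ≤ A * (q ^ n * (1 - q)) := by
        have g1 : Wp.L M l ^ (-γ) ≤ (p ^ n * Λ₀) ^ (-γ) :=
          rpow_le_rpow_of_nonpos (by positivity) h4 (by linarith)
        have g2 : (p ^ n * Λ₀) ^ (-γ) = q ^ n * Λ₀ ^ (-γ) := by
          rw [mul_rpow (by positivity) hΛ₀.le, hq, ← rpow_natCast p n, ← rpow_mul hp0.le,
            mul_comm (n : ℝ) (-γ), rpow_mul hp0.le, rpow_natCast]
        have hq1' : 1 - q ≠ 0 := by linarith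
        have g3 : A * (q ^ n * (1 - q)) = δ * (q ^ n * Λ₀ ^ (-γ)) := by
          rw [hA]; field_simp
        rw [g3, ← g2]
        exact mul_le_mul_of_nonneg_left g1 hδ
      have hgA : A * (1 - q ^ (n + 1)) = A * (1 - q ^ n) + A * (q ^ n * (1 - q)) := by
        rw [pow_succ]; ring
      have hA2 : A * (1 - q ^ (n + 1)) ≤ 1 := by
        have : A * (1 - q ^ (n + 1)) ≤ A * 1 :=
          mul_le_mul_of_nonneg_left (by linarith [pow_pos hq0 (n + 1)]) hA0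
        linarith
      -- curvature
      have hcur : 1 / Wp.L M l ≤ B * (p⁻¹ ^ n * (1 - p⁻¹)) := by
        have hpi1' : 1 - p⁻¹ ≠ 0 := by linarith
        have g3 : B * (p⁻¹ ^ n * (1 - p⁻¹)) = 1 / (p ^ n * Λ₀) := by
          rw [hB, inv_pow, div_mul_eq_mul_div, div_eq_iff hpi1', one_div, one_div, mul_inv]
          ring
        rw [g3]
        exact one_div_le_one_div_of_le (by positivity) h4
      have hgB : B * (1 - p⁻¹ ^ (n + 1)) = B * (1 - p⁻¹ ^ n) + B * (p⁻¹ ^ n * (1 - p⁻¹)) := by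
        rw [pow_succ]; ring
      have hB2 : B * (1 - p⁻¹ ^ (n + 1)) ≤ B * 1 :=
        mul_le_mul_of_nonneg_left (by linarith [pow_pos hpi (n + 1)]) hB0
      rcases e3 with ⟨f1, f2, f3, f4⟩ | ⟨f1, f2, f3⟩
      · exact Or.inl ⟨M', l', by linarith, by linarith, f1, f2, f3, by linarith⟩
      · refine Or.inr ⟨M', l', by linarith, by linarith, f1, ?_, by linarith⟩
        calc p ^ (n + 1) * Λ₀ = p * (p ^ n * Λ₀) := by ring
          _ ≤ p * Wp.L M l := mul_le_mul_of_nonneg_left h4 hp0.le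
          _ ≤ Wp.L M' l' := f2
  obtain ⟨n, hn⟩ := ((tendsto_pow_atTop_atTop_of_one_lt hp).eventually_gt_atTop
    (lam / Λ₀)).exists
  rcases key n with h | ⟨M, l, h1, h2, h3, h4, h6⟩
  · exact h
  · exfalso
    have hA1 : A * (1 - q ^ n) ≤ A * 1 :=
      mul_le_mul_of_nonneg_left (by linarith [pow_pos hq0 n]) hA0
    have hB1 : B * (1 - p⁻¹ ^ n) ≤ B * 1 :=
      mul_le_mul_of_nonneg_left (by linarith [pow_pos hpi n]) hB0
    have h5 := hpos M l (by linarith) h2 h3 (by linarith)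
    rw [div_lt_iff₀ hΛ₀] at hn
    linarith

/-! ### the conclusion of (F10) in the abstract world -/

/-- the frequency bound at the end of the chain. -/
noncomputable def Fb (k : Cst) (Λ₀ κm P lam : ℝ) : ℝ :=
  exp (max (log (lam ^ 2 / P) + (2 * k.b * κm + 4 * k.A / Λ₀)) (k.base Λ₀ κm))

/-- **(F10), abstract form.** From the pre-state at the stopping level `S` down to the level `t`:
flatness on `[t, S]`, `Λ ≤ lam` on `[S - 1, S]` (positivity), `mu ≤ Λ` on `[t, t + A]`. -/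
theorem final {W : World R} {Wp : Pre R} {flat : ℝ → Prop}
    {Λ₀ κm P K₀ δ γ p lam mu A S t : ℝ}
    (hΛ₀ : 0 < Λ₀) (hP : 0 < P) (hK₀ : 0 ≤ K₀)
    (hκm : 2 * k.a / Λ₀ ^ 2 ≤ κm) (hκ0 : 0 ≤ κm) (hB : P * exp (k.base Λ₀ κm) ≤ Λ₀ ^ 2)
    (hδ : 0 ≤ δ) (hγ : 0 < γ) (hp : 1 < p) (hlen : δ * Λ₀ ^ (-γ) ≤ 1 - p ^ (-γ))
    (hκm' : 1 / Λ₀ ≤ κm / 2 * (1 - p⁻¹))
    (hstep : StepH W k flat Λ₀ κm P K₀) (hfl : FlatH W flat Λ₀ κm)
    (hst : StartH W Wp flat Λ₀ κm (P * exp (2 * k.b * κm + 4 * k.A / Λ₀)) δ γ p S)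
    (hmu : 0 < mu) (hA : 0 ≤ A) (htS : t + A + 3 ≤ S)
    (hflat : ∀ l, t ≤ l → l ≤ S → flat l)
    (hpos : ∀ M l, S - 1 ≤ l → l ≤ S → Wp.pre M l → Wp.κ M l ≤ κm → Wp.L M l ≤ lam)
    (hpos' : ∀ M l, S - 1 ≤ l → l ≤ S → W.st M l → W.L M l ≤ lam)
    (hlarge : ∀ M l, t ≤ l → l ≤ t + A + 1 → W.st M l → W.κ M l ≤ κm → mu ≤ W.L M l)
    {M₀ : R} (h0 : Wp.pre M₀ S) (hL0 : Λ₀ ≤ Wp.L M₀ S) (hκ : Wp.κ M₀ S ≤ κm / 2) :
    ∃ M l, t ≤ l ∧ l ≤ t + 1 ∧ W.st M l ∧ mu ≤ W.L M l ∧ 1 + W.f M l ≤ Fb k Λ₀ κm P lam ∧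
      W.κ M l ≤ exp (-(A - 1) / 2) * κm + 2 * k.a / mu ^ 2 := by
  have ha := k.ha
  obtain ⟨M₁, l₁, a1, a2, a3, a4, a5, a6⟩ := start hΛ₀ hδ hγ hp hlen hκm' hst
    (fun l hl hl' => hflat l (by linarith) hl') hpos h0 hL0 hκ
  have hf1 := W.f_gt M₁ l₁ a3
  -- the invariant at the start
  have hi1 : InvW W k Λ₀ κm (log (1 + W.f M₁ l₁) + (2 * k.b * κm + 4 * k.A / Λ₀)) P M₁ l₁ :=
    Cst.Inv.start hΛ₀ hP.le a4 (W.κ_nonneg _ _ a3) a6 hf1 a5
  have hL1 : W.L M₁ l₁ ≤ lam := hpos' M₁ l₁ a1 a2 a3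
  have hL1pos : 0 < W.L M₁ l₁ := hΛ₀.trans_le a4
  have hE : 1 ≤ exp (2 * k.b * κm + 4 * k.A / Λ₀) := by
    have hb := k.hb
    have hA0 := k.A_nonneg
    exact one_le_exp (by positivity)
  have hB1 : log (1 + W.f M₁ l₁) ≤ log (lam ^ 2 / P) := by
    refine log_le_log (by linarith) ?_
    rw [le_div_iff₀ hP]
    have h1 : P * (1 + W.f M₁ l₁) ≤ P * exp (2 * k.b * κm + 4 * k.A / Λ₀) * (1 + W.f M₁ l₁) := by
      refine mul_le_mul_of_nonneg_right ?_ (by linarith)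
      exact le_mul_of_one_le_right hP.le hE
    have h2 : W.L M₁ l₁ ^ 2 ≤ lam ^ 2 := pow_le_pow_left₀ hL1pos.le hL1 2
    linarith
  have hi1' : InvW W k Λ₀ κm (log (lam ^ 2 / P) + (2 * k.b * κm + 4 * k.A / Λ₀)) P M₁ l₁ := by
    refine ⟨hi1.hL, hi1.hκ0, hi1.hκ, hi1.hf, hi1.hP.trans ?_, hi1.hM⟩
    exact max_le_max (by linarith) le_rfl
  -- first part
  obtain ⟨M₂, l₂, b1, b2, b3, b4, b5⟩ := reach (t := t + A) hΛ₀ hP.le hK₀ hκm hB hstep
    hfl (by linarith) (fun l hl hl' => hflat l (by linarith) (by linarith)) a3 hi1'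
  -- second part
  obtain ⟨M₃, l₃, c1, c2, c3, c4, c5, c6⟩ := reach_kappa (t := t) (lam := mu) hΛ₀ hP.le hK₀
    hκm hκ0 hB hstep hfl hmu (by linarith)
    (fun l hl hl' => hflat l hl (by linarith))
    (fun M l hl hl' h h' => hlarge M l hl (by linarith) h h') b4 b5
  refine ⟨M₃, l₃, c1, c2, c4, hlarge M₃ l₃ c1 (by linarith) c4 c5.hκ, c5.freq hΛ₀, c6.trans ?_⟩
  have h1 : exp (-(l₂ - l₃) / 2) ≤ exp (-(A - 1) / 2) := exp_le_exp.2 (by linarith)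
  have h2 := mul_le_mul_of_nonneg_right h1 hκ0
  linarith

end Crest.Agent.R234.F10b_188
end

-- ▼ part R234/F10d_188

/-!
# Row 234, (F10), part d (helper188): `Dbl` from a chain theory at every point

`Thy m n D Q x K` = all V-level inputs of (F-c) at the singular point `x`, in the language of the
abstract world of `F10b_188` (states, steps, start, flatness, comparison of heights, final step).
`dbl_of_thy` : if every singular point of density `Q ≥ 2` has such a theory, then `Main_456.Dbl`.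
-/

set_option autoImplicit false

open MeasureTheory Filter Topology Set
open scoped ENNReal NNReal
open Crest.GeometryTopology.Submanifold Crest.Agent.R234.Vf_884
open Crest.Agent.R234.Strat3_842 (tilt height)
open Crest.Agent.R234.AS_456 (hp vp)
open Crest.Agent.R234.F10a_188 Crest.Agent.R234.F10b_188 Crest.Agent.R234.Main_456
open Crest.Agent.R234.Top_395

noncomputable section

namespace Crest.Agent.R234.F10d_188

/-- flatness at the level `l`. -/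
def flatL (m : ℕ) {k : ℕ} (V : Measure (Euc k × L k)) (x : Euc k) (ω c₀ r₁ l : ℝ) : Prop :=
  Real.exp (l + c₀) ≤ r₁ ∧ FlatAt m V x ω (Real.exp (l + c₀))

/-- `exp (-Λ)` dominates the normalised height over some reference in the ball of radius
`exp (l - c₁)`. -/
def Lowr (m n : ℕ) (V : Measure (Euc (m + n) × Crest.Agent.R234.Vf_884.L (m + n)))
    (x : Euc (m + n)) (κ A c₁ Cc l Λ : ℝ) : Prop :=
  ∃ (π : Euc (m + n) →L[ℝ] Euc m) (ρ : Euc (m + n) →L[ℝ] Euc n), Frame π ρ ∧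
    ∃ (u : Euc m → Euc n) (g : Euc m → Euc m →L[ℝ] Euc n) (s A' : ℝ), |l - c₁ - s| ≤ A ∧
      Real.exp (l - c₁ - s) < A' ∧ C11 κ A' u g ∧
      Real.exp (-((m + 2) * (l - c₁))) *
        ∫ p in Prod.fst ⁻¹' (Metric.ball x (Real.exp (l - c₁))),
          ‖hgt π ρ x (Real.exp s) u p.1‖ ^ 2 ∂V ≤ Cc * Real.exp (-Λ)

/-- **the chain theory at a singular point.** -/
structure Thy (m n : ℕ) (D : VarifoldData m (m + n)) (Q : ℕ) (x : Euc (m + n)) (K : ℕ) where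
  R : Type
  W : World R
  /-- pre-states of the start at the level `S` -/
  Wp : ℝ → Pre R
  k : Cst
  (Λ₀ κm P K₀ δ γ p c₀ ω r₁ : ℝ)
  hΛ₀ : 0 < Λ₀
  hP : 0 < P
  hK₀ : 0 ≤ K₀
  hκm : 2 * k.a / Λ₀ ^ 2 ≤ κm
  hκ0 : 0 ≤ κm
  hB : P * Real.exp (k.base Λ₀ κm) ≤ Λ₀ ^ 2
  hδ : 0 ≤ δ
  hγ : 0 < γ
  hp : 1 < p
  hlen : δ * Λ₀ ^ (-γ) ≤ 1 - p ^ (-γ)
  hκm' : 1 / Λ₀ ≤ κm / 2 * (1 - p⁻¹)
  hc₀ : 0 ≤ c₀
  hω : 0 < ω
  hr₁ : 0 < r₁
  /-- (F7) -/
  step : StepH W k (flatL m (VD D) x ω c₀ r₁) Λ₀ κm P K₀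
  /-- (FL) -/
  fl : FlatH W (flatL m (VD D) x ω c₀ r₁) Λ₀ κm
  /-- (F8) -/
  start : ∀ S, StartH W (Wp S) (flatL m (VD D) x ω c₀ r₁) Λ₀ κm
    (P * Real.exp (2 * k.b * κm + 4 * k.A / Λ₀)) δ γ p S
  /-- the plane as a pre-state -/
  top : ∀ S, flatL m (VD D) x ω c₀ r₁ S → ∃ M, (Wp S).pre M S ∧ Λ₀ ≤ (Wp S).L M S ∧
    (Wp S).κ M S ≤ κm / 2
  (κ A c₁ Cc : ℝ)
  hκ : 0 ≤ κ
  hA : 0 ≤ A
  hc₁ : 0 ≤ c₁
  hCc : 0 < Cc
  /-- comparison with the heights -/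
  cmp : ∀ M l, flatL m (VD D) x ω c₀ r₁ l → W.st M l → Lowr m n (VD D) x κ A c₁ Cc l (W.L M l)
  cmp' : ∀ S M l, S - 1 ≤ l → l ≤ S → flatL m (VD D) x ω c₀ r₁ l → (Wp S).pre M l →
    (Wp S).κ M l ≤ κm → Lowr m n (VD D) x κ A c₁ Cc l ((Wp S).L M l)
  /-- (FL) again, with small flatness -/
  large : ∀ mu : ℝ, ∃ ω' : ℝ, 0 < ω' ∧ ∀ M l, W.st M l → flatL m (VD D) x ω' c₀ r₁ l →
    W.κ M l ≤ κm → mu ≤ W.L M l
  (c₂ Rb : ℝ)
  hRb : 0 < Rb
  /-- (END) -/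
  fin : ∀ F : ℝ, ∃ C : ℝ, ∀ ε : ℝ, 0 < ε → ∃ mu κ₁ ε' : ℝ, 0 < κ₁ ∧ 0 < ε' ∧
    ∀ (r : ℝ) (P' : Crest.Agent.R234.Vf_884.L (m + n)), 0 < r → r ≤ r₁ →
      NearQ m (VD D) Q x (Rb * r) ε' P' →
      ∀ M l, Real.log r + c₂ ≤ l → l ≤ Real.log r + c₂ + 1 → W.st M l → 1 + W.f M l ≤ F →
        W.κ M l ≤ κ₁ → mu ≤ W.L M l →
        ∃ (π : Euc (m + n) →L[ℝ] Euc m) (ρ : Euc (m + n) →L[ℝ] Euc n) (u : Euc m → Euc n),
          Ref (VD D) Q x r π ρ u K ε C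

/-- flatness at smaller scales from `NearQ`. -/
theorem flat_of_near {m k : ℕ} {U : Set (Euc k)} {V : Measure (Euc k × Crest.Agent.R234.Vf_884.L k)}
    (hV : Stat m k U V) {Q : ℕ} {x : Euc k} {R ε : ℝ} {P : Crest.Agent.R234.Vf_884.L k}
    (hU : Metric.closedBall x R ⊆ U) (h : NearQ m V Q x R ε P) {σ : ℝ} (hσ : 0 < σ) (hσR : σ ≤ R) :
    FlatAt m V x ((R / σ) ^ (m + 2) * ε) σ := by
  have hR : 0 < R := hσ.trans_le hσR
  have hfin : V (Metric.ball x R ×ˢ univ) < ⊤ := by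
    rw [Top_395.prod_eq]; exact fin_ball hV hU Metric.ball_subset_closedBall
  have h1 := flatAt_of_int hV.conc h.1 hR hfin h.2.1
  refine ⟨P, h.1, ?_⟩
  rw [pex_eq] at h1 ⊢
  have i1 : IntegrableOn (fun p => height P x p) (Metric.ball x R ×ˢ univ) V :=
    Strat3_842.integrableOn_of_bdd hV.conc hfin (Strat3_842.continuous_height P x)
  have h2 : ∫ p in Metric.ball x σ ×ˢ univ, height P x p ∂V ≤
      ∫ p in Metric.ball x R ×ˢ univ, height P x p ∂V := by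
    refine setIntegral_mono_set i1 (Eventually.of_forall fun p => ?_)
      (Set.prod_mono (Metric.ball_subset_ball hσR) Subset.rfl).eventuallyLE
    unfold height
    positivity
  rw [inv_mul_le_iff₀ (by positivity)] at h1 ⊢
  calc ∫ p in Metric.ball x σ ×ˢ univ, height P x p ∂V ≤ R ^ (m + 2) * ε := h2.trans h1
    _ = σ ^ (m + 2) * ((R / σ) ^ (m + 2) * ε) := by rw [div_pow]; field_simp

theorem FlatAt.mono {m k : ℕ} {V : Measure (Euc k × Crest.Agent.R234.Vf_884.L k)} {x : Euc k}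
    {ω ω' r : ℝ} (h : FlatAt m V x ω r) (hω : ω ≤ ω') : FlatAt m V x ω' r := by
  obtain ⟨P, hP, h1⟩ := h
  exact ⟨P, hP, h1.trans hω⟩

theorem le_lam {c Cc Λ X : ℝ} (hc : 0 < c) (hCc : 0 < Cc) (h1 : c ≤ X)
    (h2 : X ≤ Cc * Real.exp (-Λ)) : Λ ≤ Real.log (Cc / c) := by
  rw [Real.le_log_iff_exp_le (by positivity), le_div_iff₀ hc]
  have h3 : c ≤ Cc * Real.exp (-Λ) := h1.trans h2
  have h4 : Real.exp Λ * c ≤ Real.exp Λ * (Cc * Real.exp (-Λ)) :=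
    mul_le_mul_of_nonneg_left h3 (Real.exp_pos _).le
  have h5 : Real.exp Λ * (Cc * Real.exp (-Λ)) = Cc := by
    rw [mul_comm Cc, ← mul_assoc, ← Real.exp_add]; simp
  linarith

/-- **`Dbl` at one selection.** -/
theorem dbl_at {m n : ℕ} (hm : 1 ≤ m) {U : Set (Euc (m + n))} (hU : IsOpen U)
    {D : VarifoldData m (m + n)} (hD : IsIntegralVarifoldIn U D) (hst : IsStationaryIn U D)
    {s : ℝ} {Q : ℕ} {c : ℝ} {x : Euc (m + n)} {r : ℕ → ℝ}
    {P : ℕ → Crest.Agent.R234.Vf_884.L (m + n)} (hS : Sel m (m + n) U D s Q c x r P) {K : ℕ}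
    (T : Thy m n D Q x K) :
    ∃ C : ℝ, ∀ ε : ℝ, 0 < ε → ∃ᶠ i in atTop,
      ∃ (π : Euc (m + n) →L[ℝ] Euc m) (ρ : Euc (m + n) →L[ℝ] Euc n) (u : Euc m → Euc n),
        Ref (VD D) Q x (r i) π ρ u K ε C := by
  have hV := stat_VD hD hst
  -- positivity
  obtain ⟨cp, l₀, hcp, hl₀, hl₀U, hpos⟩ := pos_log' n hU hm hD hst hS.mem.1 (by have := hS.hQ; omega)
    hS.mem.2 (κ := T.κ) (A := T.A) (B := T.c₀ + T.c₁ + 1) T.hω T.hκ T.hA
    (by have := T.hc₀; have := T.hc₁; linarith) (Real.log T.r₁)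
  set lam := Real.log (T.Cc / cp) with hlam
  set F := Fb T.k T.Λ₀ T.κm T.P lam with hF
  obtain ⟨C, hC⟩ := T.fin F
  refine ⟨C, ?_⟩
  intro ε hε
  obtain ⟨mu₀, κ₁, ε', hκ₁, hε', hfin⟩ := hC ε hε
  have ha := T.k.ha
  -- the length
  obtain ⟨A, hA0, hA⟩ : ∃ A : ℝ, 0 ≤ A ∧ Real.exp (-(A - 1) / 2) * T.κm ≤ κ₁ / 2 := by
    have h1 : Tendsto (fun A : ℝ => Real.exp (-(A - 1) / 2) * T.κm) atTop (𝓝 (0 * T.κm)) := by
      refine Tendsto.mul_const _ ?_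
      refine Real.tendsto_exp_atBot.comp ?_
      have h2 : Tendsto (fun A : ℝ => (A - 1) / 2) atTop atTop :=
        (tendsto_atTop_add_const_right atTop (-1) tendsto_id).atTop_div_const (by norm_num)
      have h3 := tendsto_neg_atTop_atBot.comp h2
      refine h3.congr ?_
      intro A
      simp only [Function.comp]
      ring
    rw [zero_mul] at h1
    obtain ⟨A, hA1, hA2⟩ := ((h1.eventually (gt_mem_nhds (show (0:ℝ) < κ₁ / 2 by positivity))).and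
      (eventually_ge_atTop 0)).exists
    exact ⟨A, hA2, hA1.le⟩
  obtain ⟨mu, hmu1, hmu2, hmu3⟩ : ∃ mu : ℝ, 0 < mu ∧ mu₀ ≤ mu ∧ 2 * T.k.a / mu ^ 2 ≤ κ₁ / 2 := by
    refine ⟨max 1 (max mu₀ (4 * T.k.a / κ₁)), by positivity, (le_max_left _ _).trans
      (le_max_right _ _), ?_⟩
    set mu := max 1 (max mu₀ (4 * T.k.a / κ₁)) with hmu
    have h1 : 1 ≤ mu := le_max_left _ _
    have h2 : 4 * T.k.a / κ₁ ≤ mu := (le_max_right _ _).trans (le_max_right _ _)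
    rw [div_le_iff₀ hκ₁] at h2
    rw [div_le_iff₀ (by positivity)]
    nlinarith
  obtain ⟨ω', hω', hlarge⟩ := T.large mu
  -- the scale
  set E := T.c₀ + A + 4 with hE
  set RR := Real.exp (T.c₂ + E) with hRR
  have hRR0 : 0 < RR := Real.exp_pos _
  set ω₂ := min T.ω ω' with hω₂
  have hω₂0 : 0 < ω₂ := lt_min T.hω hω'
  set ε₂ := ω₂ * Real.exp (-((m + 2) * (A + 4))) with hε₂
  have hε₂0 : 0 < ε₂ := by positivity
  have e1 := hS.near RR hRR0 ε₂ hε₂0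
  have e2 := hS.near T.Rb T.hRb ε' hε'
  have hlim := hS.lim
  have e3 : ∀ᶠ i in atTop, r i ≤ T.r₁ := hlim.eventually (ge_mem_nhds T.hr₁)
  have e4 : ∀ᶠ i in atTop, RR * r i ≤ Real.exp l₀ := by
    have h := hlim.const_mul RR
    rw [mul_zero] at h
    exact h.eventually (ge_mem_nhds (Real.exp_pos l₀))
  refine Eventually.frequently ?_
  filter_upwards [e1, e2, e3, e4] with i h1 h2 h3 h4
  have hr := hS.pos i
  set t := Real.log (r i) + T.c₂ with ht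
  have hRt : RR * r i = Real.exp (t + E) := by
    rw [hRR, ht, show Real.log (r i) + T.c₂ + E = (T.c₂ + E) + Real.log (r i) by ring,
      Real.exp_add (T.c₂ + E), Real.exp_log hr]
  have hte : t + E ≤ l₀ := by
    rw [hRt] at h4
    exact Real.exp_le_exp.1 h4
  have hUR : Metric.closedBall x (RR * r i) ⊆ U :=
    (Metric.closedBall_subset_closedBall h4).trans hl₀U
  -- flatness on the lower part
  have hfl1 : ∀ l, t ≤ l → l ≤ t + A + 4 → FlatAt m (VD D) x ω₂ (Real.exp (l + T.c₀)) := by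
    intro l hl1 hl2
    have h5 : Real.exp (l + T.c₀) ≤ RR * r i := by
      rw [hRt]
      exact Real.exp_le_exp.2 (by rw [hE]; linarith)
    refine FlatAt.mono (flat_of_near hV hUR h1 (Real.exp_pos _) h5) ?_
    have h6 : RR * r i / Real.exp (l + T.c₀) ≤ Real.exp (A + 4) := by
      rw [hRt, ← Real.exp_sub]
      exact Real.exp_le_exp.2 (by rw [hE]; linarith)
    have h7 : (RR * r i / Real.exp (l + T.c₀)) ^ (m + 2) ≤ Real.exp ((m + 2) * (A + 4)) := by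
      calc (RR * r i / Real.exp (l + T.c₀)) ^ (m + 2) ≤ Real.exp (A + 4) ^ (m + 2) :=
            pow_le_pow_left₀ (by positivity) h6 _
        _ = Real.exp ((m + 2) * (A + 4)) := by
            rw [← Real.exp_nat_mul]; push_cast; rfl
    calc (RR * r i / Real.exp (l + T.c₀)) ^ (m + 2) * ε₂ ≤ Real.exp ((m + 2) * (A + 4)) * ε₂ :=
          mul_le_mul_of_nonneg_right h7 hε₂0.le
      _ = ω₂ := by
          rw [hε₂, mul_comm ω₂, ← mul_assoc, ← Real.exp_add]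
          simp
  -- the stopping level
  obtain ⟨Sp, hS1, hS2, hS3, hS4⟩ := hpos (t + E) hte (by
    have h5 := hfl1 (t + A + 4) (by linarith) le_rfl
    rw [show t + A + 4 + T.c₀ = t + E by rw [hE]; ring] at h5
    exact FlatAt.mono h5 (min_le_left _ _))
  set S := Sp - T.c₀ with hSdef
  have hr₁S : ∀ l, l ≤ S → Real.exp (l + T.c₀) ≤ T.r₁ := by
    intro l hl
    rw [← Real.exp_log T.hr₁]
    exact Real.exp_le_exp.2 (by rw [hSdef] at hl; linarith)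
  have hflat : ∀ l, t ≤ l → l ≤ S → flatL m (VD D) x T.ω T.c₀ T.r₁ l := by
    intro l hl1 hl2
    refine ⟨hr₁S l hl2, ?_⟩
    rcases le_total l (t + A + 4) with h | h
    · exact FlatAt.mono (hfl1 l hl1 h) (min_le_left _ _)
    · exact hS3 _ ⟨by rw [hE]; linarith, by rw [hSdef] at hl2; linarith⟩
  have hpos2 : ∀ l Λ, S - 1 ≤ l → l ≤ S → Lowr m n (VD D) x T.κ T.A T.c₁ T.Cc l Λ → Λ ≤ lam := by
    rintro l Λ hl1 hl2 ⟨π, ρ, hf, u, g, s', A', g1, g2, g3, g4⟩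
    have hc₀ := T.hc₀
    have hc₁ := T.hc₁
    have h5 := hS4 (l - T.c₁) s' (by rw [hSdef] at hl1; linarith) (by rw [hSdef] at hl2; linarith)
      g1 π ρ hf u g A' g2 g3
    exact le_lam hcp T.hCc h5 g4
  have htS : t + A + 4 ≤ S := by rw [hSdef]; linarith
  obtain ⟨M₀, hM1, hM2, hM3⟩ := T.top S (hflat S (by linarith) le_rfl)
  obtain ⟨M, l, b1, b2, b3, b4, b5, b6⟩ := final (W := T.W) (Wp := T.Wp S) (k := T.k)
    (mu := mu) (A := A) (lam := lam) T.hΛ₀ T.hP T.hK₀ T.hκm T.hκ0 T.hB T.hδ T.hγ T.hp T.hlen T.hκm'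
    T.step T.fl (T.start S) (S := S) (t := t) hmu1 hA0 (by linarith) hflat
    (fun M l h5 h6 h7 h8 =>
      hpos2 l _ h5 h6 (T.cmp' S M l h5 h6 (hflat l (by linarith) h6) h7 h8))
    (fun M l h5 h6 h7 => hpos2 l _ h5 h6 (T.cmp M l (hflat l (by linarith) h6) h7))
    (fun M l h5 h6 h7 h8 => hlarge M l h7
      ⟨hr₁S l (by linarith), FlatAt.mono (hfl1 l h5 (by linarith)) (min_le_right _ _)⟩ h8)
    hM1 hM2 hM3
  exact hfin (r i) (P i) hr h3 h2 M l b1 b2 b3 b5 (by linarith) (hmu2.trans b4)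


end Crest.Agent.R234.F10d_188
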