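import Crest.Agent.R234.Ell1_3
import Mathlib
import Crest.Agent.R234.Main2_456

-- ▼ part R234/Grot1_842
section

/-!
# Row 234, node GROT (helper842), part 1: inverse square roots and the rotated frame

`exists_isqrt`: for `T ≥ 0` symmetric there is a symmetric `H` with `H (1 + T) H = 1`, commuting with
everything that commutes... (we only need `H T = T H`), `‖H - 1‖ ≤ ‖T‖`, `‖H x‖ ≤ ‖x‖`.
-/

set_option autoImplicit false
set_option linter.unusedSectionVars false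

open Module
open scoped RealInnerProductSpace

noncomputable section

namespace Crest.Agent.R234.Grot_842

open Crest.Agent.R234.Ell1_3

variable {F V : Type} [NormedAddCommGroup F] [InnerProductSpace ℝ F] [FiniteDimensional ℝ F]
  [NormedAddCommGroup V] [InnerProductSpace ℝ V] [FiniteDimensional ℝ V]

/-- diagonal operator in an orthonormal basis -/
def dg {ι : Type} [Fintype ι] (b : OrthonormalBasis ι ℝ F) (c : ι → ℝ) : F →L[ℝ] F :=
  ∑ i, c i • (innerSL ℝ (b i)).smulRight (b i)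

theorem dg_apply {ι : Type} [Fintype ι] (b : OrthonormalBasis ι ℝ F) (c : ι → ℝ) (x : F) :
    dg b c x = ∑ i, (c i * ⟪b i, x⟫) • b i := by
  simp [dg, smul_smul]

theorem inner_dg {ι : Type} [Fintype ι] (b : OrthonormalBasis ι ℝ F) (c : ι → ℝ) (x : F) (i : ι) :
    ⟪b i, dg b c x⟫ = c i * ⟪b i, x⟫ := by
  rw [dg_apply, inner_sum]
  rw [Finset.sum_eq_single i]
  · rw [inner_smul_right, real_inner_self_eq_norm_sq, b.norm_eq_one]; ring
  · intro j _ hj
    rw [inner_smul_right, b.inner_eq_zero (Ne.symm hj)]; ring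
  · intro h; exact absurd (Finset.mem_univ i) h

theorem ext_b {ι : Type} [Fintype ι] (b : OrthonormalBasis ι ℝ F) {x y : F}
    (h : ∀ i, ⟪b i, x⟫ = ⟪b i, y⟫) : x = y := by
  rw [← b.sum_repr x, ← b.sum_repr y]
  refine Finset.sum_congr rfl fun i _ => ?_
  rw [b.repr_apply_apply, b.repr_apply_apply, h i]

theorem norm_sq_b {ι : Type} [Fintype ι] (b : OrthonormalBasis ι ℝ F) (x : F) :
    ‖x‖ ^ 2 = ∑ i, ⟪b i, x⟫ ^ 2 := by
  have h := b.sum_sq_norm_inner_right x
  rw [← h]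
  refine Finset.sum_congr rfl fun i _ => ?_
  rw [Real.norm_eq_abs, sq_abs]

theorem inner_b {ι : Type} [Fintype ι] (b : OrthonormalBasis ι ℝ F) (x y : F) :
    ⟪x, y⟫ = ∑ i, ⟪b i, x⟫ * ⟪b i, y⟫ := by
  rw [← b.sum_inner_mul_inner x y]
  refine Finset.sum_congr rfl fun i _ => ?_
  rw [real_inner_comm]

/-- inverse square root of `1 + T` -/
theorem exists_isqrt (T : F →L[ℝ] F) (hsym : ∀ x y, ⟪T x, y⟫ = ⟪x, T y⟫)
    (hpos : ∀ x, 0 ≤ ⟪T x, x⟫) :
    ∃ H : F →L[ℝ] F, (∀ x y, ⟪H x, y⟫ = ⟪x, H y⟫) ∧ (∀ x, H (H x + T (H x)) = x) ∧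
      (∀ x, H (T x) = T (H x)) ∧ (∀ x, H (H x) + T (H (H x)) = x) ∧
      (∀ x, ‖H x - x‖ ≤ ‖T‖ * ‖x‖) ∧ (∀ x, ‖H x‖ ≤ ‖x‖) ∧
      (∀ x, ‖x‖ ^ 2 = ‖H x‖ ^ 2 + ⟪T (H x), H x⟫) := by
  classical
  have hT : (T : F →ₗ[ℝ] F).IsSymmetric := fun x y => hsym x y
  set b := hT.eigenvectorBasis rfl with hb
  set l : Fin (finrank ℝ F) → ℝ := hT.eigenvalues rfl with hl
  have hTb : ∀ i, T (b i) = l i • b i := fun i => by
    exact hT.apply_eigenvectorBasis rfl i
  have hl0 : ∀ i, 0 ≤ l i := fun i => by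
    have h := hpos (b i)
    rw [hTb i, inner_smul_left, real_inner_self_eq_norm_sq, b.norm_eq_one] at h
    simpa using h
  have hlT : ∀ i, l i ≤ ‖T‖ := fun i => by
    have h := T.le_opNorm (b i)
    rw [hTb i, norm_smul, b.norm_eq_one, Real.norm_eq_abs, abs_of_nonneg (hl0 i)] at h
    simpa using h
  have hTi : ∀ (x : F) i, ⟪b i, T x⟫ = l i * ⟪b i, x⟫ := fun x i => by
    rw [← hsym, hTb i, inner_smul_left]; simp
  set c : Fin (finrank ℝ F) → ℝ := fun i => (Real.sqrt (1 + l i))⁻¹ with hc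
  have hs : ∀ i, 0 < Real.sqrt (1 + l i) := fun i => Real.sqrt_pos.2 (by have := hl0 i; linarith)
  have hc2 : ∀ i, c i * c i * (1 + l i) = 1 := fun i => by
    have h1 : Real.sqrt (1 + l i) * Real.sqrt (1 + l i) = 1 + l i :=
      Real.mul_self_sqrt (by have := hl0 i; linarith)
    simp only [hc]
    have h2 := (hs i).ne'
    nth_rewrite 3 [← h1]
    field_simp
  have hc0 : ∀ i, 0 < c i := fun i => inv_pos.2 (hs i)
  have hc1 : ∀ i, c i ≤ 1 := fun i => by
    refine inv_le_one_of_one_le₀ ?_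
    exact Real.one_le_sqrt.2 (by have := hl0 i; linarith)
  have hc3 : ∀ i, 1 - c i ≤ l i := fun i => by
    have h1 := hc2 i
    have h2 := hl0 i
    have h3 := hc1 i
    have h4 := hc0 i
    by_contra hcon
    push Not at hcon
    -- c < 1 - l, then c^2 (1+l) < (1-l)^2(1+l) ≤ 1
    have h5 : c i * c i < (1 - l i) * (1 - l i) := by nlinarith
    have h6 : c i * c i * (1 + l i) < (1 - l i) * (1 - l i) * (1 + l i) := by
      apply mul_lt_mul_of_pos_right h5; linarith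
    have h7 : (1 - l i) * (1 - l i) * (1 + l i) ≤ 1 := by
      have : l i < 1 := by linarith
      nlinarith [mul_nonneg h2 (mul_nonneg h2 h2), mul_nonneg h2 (sub_nonneg.2 this.le)]
    linarith
  refine ⟨dg b c, ?_, ?_, ?_, ?_, ?_, ?_, ?_⟩
  · intro x y
    rw [inner_b b, inner_b b x]
    refine Finset.sum_congr rfl fun i _ => ?_
    rw [inner_dg, inner_dg]; ring
  · intro x
    refine ext_b b fun i => ?_
    rw [inner_dg, inner_add_right, hTi, inner_dg]
    have := hc2 i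
    linear_combination ⟪b i, x⟫ * this
  · intro x
    refine ext_b b fun i => ?_
    rw [inner_dg, hTi, hTi, inner_dg]; ring
  · intro x
    refine ext_b b fun i => ?_
    rw [inner_add_right, hTi, inner_dg, inner_dg]
    have := hc2 i
    linear_combination ⟪b i, x⟫ * this
  · intro x
    have h1 : ‖dg b c x - x‖ ^ 2 ≤ (‖T‖ * ‖x‖) ^ 2 := by
      rw [mul_pow, norm_sq_b b x, norm_sq_b b, Finset.mul_sum]
      refine Finset.sum_le_sum fun i _ => ?_
      rw [inner_sub_right, inner_dg]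
      have e : c i * ⟪b i, x⟫ - ⟪b i, x⟫ = -((1 - c i) * ⟪b i, x⟫) := by ring
      rw [e, neg_sq, mul_pow]
      have h2 : 0 ≤ 1 - c i := by linarith [hc1 i]
      have h3 : 1 - c i ≤ ‖T‖ := (hc3 i).trans (hlT i)
      gcongr
    exact (sq_le_sq₀ (norm_nonneg _) (by positivity)).1 h1
  · intro x
    have h1 : ‖dg b c x‖ ^ 2 ≤ ‖x‖ ^ 2 := by
      rw [norm_sq_b b x, norm_sq_b b]
      refine Finset.sum_le_sum fun i _ => ?_
      rw [inner_dg, mul_pow]
      have h2 : (c i) ^ 2 ≤ 1 := by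
        have := hc1 i; have := hc0 i; nlinarith
      nlinarith [sq_nonneg ⟪b i, x⟫]
    exact (sq_le_sq₀ (norm_nonneg _) (norm_nonneg _)).1 h1
  · intro x
    rw [norm_sq_b b x, norm_sq_b b (dg b c x), inner_b b, ← Finset.sum_add_distrib]
    refine Finset.sum_congr rfl fun i _ => ?_
    rw [hTi, inner_dg]
    have := hc2 i
    linear_combination -⟪b i, x⟫ ^ 2 * this

end Crest.Agent.R234.Grot_842
end
end

-- ▼ part R234/Grot2_842
section

/-!
# Row 234, node GROT (helper842), part 2: derivative bounds of inverse maps, cut-offs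

* `inv_bound`: `ψ : F → F` smooth, `‖Dψ - 1‖ ≤ 1/2`, `‖D^j ψ‖ ≤ B` (`1 ≤ j ≤ K`), `ψ ∘ φ = id`:
  `‖D^j φ‖ ≤ C^j` for `1 ≤ j ≤ K`, `C = C(F, K, B)`.
* `exists_inv`: such a `ψ` is a homeomorphism with smooth inverse.
* `cut_bound`: `v` smooth on `ball 0 1`, `v 0 = 0`, `‖D^j v‖ ≤ κ` there: `χ v` is smooth with
  `‖D^j (χ v)‖ ≤ C κ` everywhere.
-/

set_option autoImplicit false
set_option linter.unusedSectionVars false

open Set Metric Filter Topology
open scoped ContDiff NNReal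

noncomputable section

namespace Crest.Agent.R234.Grot_842

variable {F V : Type} [NormedAddCommGroup F] [NormedSpace ℝ F] [FiniteDimensional ℝ F]
  [NormedAddCommGroup V] [NormedSpace ℝ V]

/-- the inversion of operators near `1` -/
def ivL : (F →L[ℝ] F) → (F →L[ℝ] F) := Ring.inverse

theorem isUnit_of_near {A : F →L[ℝ] F} (h : ‖A - 1‖ < 1) : IsUnit A := by
  have h1 : ‖(1 : F →L[ℝ] F) - A‖ < 1 := by rwa [norm_sub_rev] at h
  have h2 := (Units.oneSub ((1 : F →L[ℝ] F) - A) h1).isUnit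
  simpa using h2

theorem ivL_contDiffOn : ContDiffOn ℝ ∞ (ivL : (F →L[ℝ] F) → (F →L[ℝ] F)) (ball 1 (3 / 4)) := by
  intro A hA
  rw [mem_ball, dist_eq_norm] at hA
  obtain ⟨u, hu⟩ := isUnit_of_near (hA.trans (by norm_num))
  have h1 : ContDiffAt ℝ ∞ (Ring.inverse : (F →L[ℝ] F) → (F →L[ℝ] F)) A := by
    rw [← hu]; exact contDiffAt_ringInverse ℝ u
  exact h1.contDiffWithinAt

/-- bounds of the derivatives of the inversion on `closedBall 1 (1/2)` -/
theorem ivL_bound (K : ℕ) : ∃ C : ℝ, 1 ≤ C ∧ ∀ i ≤ K, ∀ A ∈ closedBall (1 : F →L[ℝ] F) (1 / 2),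
    ‖iteratedFDerivWithin ℝ i ivL (ball (1 : F →L[ℝ] F) (3 / 4)) A‖ ≤ C := by
  have hsub : closedBall (1 : F →L[ℝ] F) (1 / 2) ⊆ ball 1 (3 / 4) :=
    closedBall_subset_ball (by norm_num)
  have hc : ∀ i : ℕ, ∃ C : ℝ, ∀ A ∈ closedBall (1 : F →L[ℝ] F) (1 / 2),
      ‖iteratedFDerivWithin ℝ i ivL (ball (1 : F →L[ℝ] F) (3 / 4)) A‖ ≤ C := by
    intro i
    have h1 : ContinuousOn (iteratedFDerivWithin ℝ i ivL (ball (1 : F →L[ℝ] F) (3 / 4)))
        (ball (1 : F →L[ℝ] F) (3 / 4)) :=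
      ivL_contDiffOn.continuousOn_iteratedFDerivWithin (by exact_mod_cast le_top)
        isOpen_ball.uniqueDiffOn
    exact (isCompact_closedBall _ _).exists_bound_of_continuousOn (h1.mono hsub)
  choose C hC using hc
  refine ⟨1 + ∑ i ∈ Finset.range (K + 1), |C i|, ?_, ?_⟩
  · have : 0 ≤ ∑ i ∈ Finset.range (K + 1), |C i| := Finset.sum_nonneg fun _ _ => abs_nonneg _
    linarith
  · intro i hi A hA
    have h1 : |C i| ≤ ∑ i ∈ Finset.range (K + 1), |C i| :=
      Finset.single_le_sum (f := fun i => |C i|) (fun _ _ => abs_nonneg _)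
        (Finset.mem_range.2 (by omega))
    linarith [hC i A hA, le_abs_self (C i)]

/-- derivatives of `(Dψ)⁻¹` -/
theorem comp_ivL_bound (K : ℕ) (B : ℝ) (hB : 1 ≤ B) : ∃ C : ℝ, 1 ≤ C ∧ ∀ L ≤ K,
    ∀ N : F → (F →L[ℝ] F),
    ContDiff ℝ ∞ N → (∀ x, ‖N x - 1‖ ≤ 1 / 2) →
    (∀ x, ∀ i, 1 ≤ i → i ≤ L → ‖iteratedFDeriv ℝ i N x‖ ≤ B) →
    ContDiff ℝ ∞ (fun x => ivL (N x)) ∧
      ∀ x, ∀ i ≤ L, ‖iteratedFDeriv ℝ i (fun x => ivL (N x)) x‖ ≤ C := by
  obtain ⟨C0, hC0, hC⟩ := ivL_bound (F := F) K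
  refine ⟨K.factorial * C0 * B ^ K, ?_, ?_⟩
  · have h1 : (1 : ℝ) ≤ K.factorial := by exact_mod_cast K.factorial_pos
    have h2 : (1 : ℝ) ≤ B ^ K := one_le_pow₀ hB
    calc (1:ℝ) = 1 * 1 * 1 := by norm_num
      _ ≤ K.factorial * C0 * B ^ K := by gcongr
  · intro L hLK N hN hN1 hNB
    have hmap : MapsTo N univ (ball (1 : F →L[ℝ] F) (3 / 4)) := fun x _ => by
      rw [mem_ball, dist_eq_norm]
      exact (hN1 x).trans_lt (by norm_num)
    refine ⟨?_, ?_⟩
    · rw [← contDiffOn_univ]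
      exact ivL_contDiffOn.comp hN.contDiffOn hmap
    · intro x i hi
      have h := norm_iteratedFDerivWithin_comp_le (𝕜 := ℝ) (g := ivL) (f := N) (n := i)
        (s := univ) (t := ball (1 : F →L[ℝ] F) (3 / 4)) (x := x) (N := ∞) ivL_contDiffOn
        hN.contDiffOn (by exact_mod_cast le_top) isOpen_ball.uniqueDiffOn uniqueDiffOn_univ hmap
        (mem_univ x) (C := C0) (D := B) ?_ ?_
      · rw [iteratedFDerivWithin_univ] at h
        refine h.trans ?_
        have h1 : (i.factorial : ℝ) ≤ K.factorial := by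
          exact_mod_cast Nat.factorial_le (hi.trans hLK)
        have h2 : B ^ i ≤ B ^ K := pow_le_pow_right₀ hB (hi.trans hLK)
        gcongr
      · intro j hj
        refine hC j ((hj.trans hi).trans hLK) _ ?_
        rw [mem_closedBall, dist_eq_norm]; exact hN1 x
      · intro j hj hj'
        rw [iteratedFDerivWithin_univ]
        refine (hNB x j hj (hj'.trans hi)).trans ?_
        exact le_self_pow₀ hB (by omega)

/-- **derivative bounds of the inverse map** -/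
theorem inv_bound (K : ℕ) (B : ℝ) (hB : 1 ≤ B) : ∃ C : ℝ, 1 ≤ C ∧ ∀ ψ φ : F → F,
    ContDiff ℝ ∞ ψ → ContDiff ℝ ∞ φ → (∀ y, ψ (φ y) = y) →
    (∀ x, ‖fderiv ℝ ψ x - 1‖ ≤ 1 / 2) →
    (∀ x, ∀ j, 1 ≤ j → j ≤ K → ‖iteratedFDeriv ℝ j ψ x‖ ≤ B) →
    ∀ y, ∀ j, 1 ≤ j → j ≤ K → ‖iteratedFDeriv ℝ j φ y‖ ≤ C ^ j := by
  obtain ⟨C0, hC0, hC⟩ := comp_ivL_bound (F := F) K B hB
  -- induction on K' ≤ K
  suffices h : ∀ L ≤ K, ∃ C : ℝ, 1 ≤ C ∧ ∀ ψ φ : F → F,
      ContDiff ℝ ∞ ψ → ContDiff ℝ ∞ φ → (∀ y, ψ (φ y) = y) →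
      (∀ x, ‖fderiv ℝ ψ x - 1‖ ≤ 1 / 2) →
      (∀ x, ∀ j, 1 ≤ j → j ≤ K → ‖iteratedFDeriv ℝ j ψ x‖ ≤ B) →
      ∀ y, ∀ j, 1 ≤ j → j ≤ L → ‖iteratedFDeriv ℝ j φ y‖ ≤ C ^ j from h K le_rfl
  intro L
  induction L with
  | zero => intro _; exact ⟨1, le_rfl, fun ψ φ _ _ _ _ _ y j h1 h2 => by omega⟩
  | succ L ih =>
    intro hL
    obtain ⟨D, hD, hDb⟩ := ih (by omega)
    refine ⟨max D (L.factorial * C0 * D ^ L), hD.trans (le_max_left _ _), ?_⟩
    intro ψ φ hψ hφ hinv h1 h2 y j hj hj'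
    have hmax1 : 1 ≤ max D (L.factorial * C0 * D ^ L) := hD.trans (le_max_left _ _)
    rcases Nat.lt_or_ge j (L + 1) with hlt | hge
    · refine (hDb ψ φ hψ hφ hinv h1 h2 y j hj (by omega)).trans ?_
      exact pow_le_pow_left₀ (by linarith) (le_max_left _ _) j
    · have hj2 : j = L + 1 := by omega
      subst hj2
      -- fderiv φ = ivL ∘ fderiv ψ ∘ φ
      have hdψ : ContDiff ℝ ∞ (fderiv ℝ ψ) := hψ.fderiv_right (by simp)
      have hNB : ∀ x, ∀ i, 1 ≤ i → i ≤ L → ‖iteratedFDeriv ℝ i (fderiv ℝ ψ) x‖ ≤ B := by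
        intro x i hi hi'
        rw [norm_iteratedFDeriv_fderiv]
        exact h2 x (i + 1) (by omega) (by omega)
      have hG : ContDiff ℝ ∞ (fun x => ivL (fderiv ℝ ψ x)) ∧
          ∀ x, ∀ i ≤ L, ‖iteratedFDeriv ℝ i (fun x => ivL (fderiv ℝ ψ x)) x‖ ≤ C0 :=
        hC L (by omega) (fderiv ℝ ψ) hdψ h1 hNB
      have hfd : fderiv ℝ φ = fun y => ivL (fderiv ℝ ψ (φ y)) := by
        funext y
        have hc : HasFDerivAt (fun y => ψ (φ y)) ((fderiv ℝ ψ (φ y)) ∘L (fderiv ℝ φ y)) y :=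
          ((hψ.differentiable (by simp)) (φ y)).hasFDerivAt.comp y
            ((hφ.differentiable (by simp)) y).hasFDerivAt
        have hid : HasFDerivAt (fun y => ψ (φ y)) (ContinuousLinearMap.id ℝ F) y := by
          have : (fun y => ψ (φ y)) = fun y => y := funext hinv
          rw [this]; exact hasFDerivAt_id y
        have he : (fderiv ℝ ψ (φ y)) * (fderiv ℝ φ y) = 1 := hc.unique hid
        have hu : IsUnit (fderiv ℝ ψ (φ y)) := isUnit_of_near ((h1 _).trans_lt (by norm_num))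
        have h3 : Ring.inverse (fderiv ℝ ψ (φ y)) * (fderiv ℝ ψ (φ y) * fderiv ℝ φ y) =
            fderiv ℝ φ y := Ring.inverse_mul_cancel_left _ _ hu
        rw [he, mul_one] at h3
        exact h3.symm
      rw [← norm_iteratedFDeriv_fderiv, hfd]
      have h := norm_iteratedFDeriv_comp_le (𝕜 := ℝ) (g := fun x => ivL (fderiv ℝ ψ x)) (f := φ)
        (n := L) (N := ∞) hG.1 hφ (by exact_mod_cast le_top) y (C := C0) (D := D)
        (fun i hi => hG.2 _ i hi) (fun i hi hi' => hDb ψ φ hψ hφ hinv h1 h2 y i hi hi')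
      refine h.trans ((le_max_right D _).trans ?_)
      exact le_self_pow₀ hmax1 (by omega)

/-- smooth small perturbations of the identity are invertible, with smooth inverse -/
theorem exists_inv {ψ : F → F} (hψ : ContDiff ℝ ∞ ψ) (h1 : ∀ x, ‖fderiv ℝ ψ x - 1‖ ≤ 1 / 2) :
    ∃ φ : F → F, ContDiff ℝ ∞ φ ∧ (∀ y, ψ (φ y) = y) ∧ (∀ x, φ (ψ x) = x) := by
  have hd : Differentiable ℝ ψ := hψ.differentiable (by simp)
  have hap : ApproximatesLinearOn ψ (ContinuousLinearEquiv.refl ℝ F : F →L[ℝ] F) univ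
      (1 / 2 : ℝ≥0) := by
    intro x _ y _
    have h := Convex.norm_image_sub_le_of_norm_hasFDerivWithin_le (𝕜 := ℝ)
      (f := fun z => ψ z - z) (f' := fun z => fderiv ℝ ψ z - 1) (s := univ) (C := 1 / 2)
      (fun z _ => ((hd z).hasFDerivAt.sub (hasFDerivAt_id z)).hasFDerivWithinAt)
      (fun z _ => h1 z) convex_univ (mem_univ y) (mem_univ x)
    have e : ψ x - ψ y - (ContinuousLinearEquiv.refl ℝ F : F →L[ℝ] F) (x - y) =
        (ψ x - x) - (ψ y - y) := by
      simp only [ContinuousLinearEquiv.coe_refl, ContinuousLinearMap.coe_id', id_eq]; abel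
    rw [e]
    simpa using h
  have hc : Subsingleton F ∨ (1 / 2 : ℝ≥0) <
      ‖((ContinuousLinearEquiv.refl ℝ F).symm : F →L[ℝ] F)‖₊⁻¹ := by
    rcases subsingleton_or_nontrivial F with h | h
    · exact Or.inl h
    · right
      have : ‖((ContinuousLinearEquiv.refl ℝ F).symm : F →L[ℝ] F)‖₊ = 1 := by
        have h2 : ‖((ContinuousLinearEquiv.refl ℝ F).symm : F →L[ℝ] F)‖ = 1 :=
          ContinuousLinearMap.norm_id
        exact NNReal.eq h2
      rw [this, inv_one]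
      exact NNReal.half_lt_self one_ne_zero
  let e : F ≃ₜ F := hap.toHomeomorph ψ hc
  have he : ∀ x, e x = ψ x := fun x => rfl
  have hfd : ∀ a, ∃ A : F ≃L[ℝ] F, HasFDerivAt ψ (A : F →L[ℝ] F) a := by
    intro a
    obtain ⟨u, hu⟩ := isUnit_of_near ((h1 a).trans_lt (by norm_num))
    refine ⟨ContinuousLinearEquiv.unitsEquiv ℝ F u, ?_⟩
    have : ((ContinuousLinearEquiv.unitsEquiv ℝ F u : F ≃L[ℝ] F) : F →L[ℝ] F) =
        fderiv ℝ ψ a := by
      rw [← hu]; rfl
    rw [this]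
    exact (hd a).hasFDerivAt
  choose A hA using hfd
  refine ⟨e.symm, ?_, ?_, ?_⟩
  · exact e.contDiff_symm (f₀' := A) hA hψ
  · intro y; rw [← he]; exact e.apply_symm_apply y
  · intro x; rw [← he]; exact e.symm_apply_apply x

end Crest.Agent.R234.Grot_842
end
end

-- ▼ part R234/Grot3_842
section

/-!
# Row 234, node GROT (helper842), part 3: cut-off with bounds
-/

set_option autoImplicit false
set_option linter.unusedSectionVars false

open Set Metric Filter Topology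
open scoped ContDiff NNReal

noncomputable section

namespace Crest.Agent.R234.Grot_842

variable {F V : Type} [NormedAddCommGroup F] [InnerProductSpace ℝ F] [FiniteDimensional ℝ F]
  [NormedAddCommGroup V] [NormedSpace ℝ V]

/-- **cut-off**: one function `χ` for all `v`. -/
theorem exists_cut (F : Type) [NormedAddCommGroup F] [InnerProductSpace ℝ F] [FiniteDimensional ℝ F]
    (a : ℝ) (ha : 0 < a) (ha1 : a < 1) : ∃ χ : F → ℝ, ContDiff ℝ ∞ χ ∧
      (∀ x ∈ closedBall (0 : F) a, χ x = 1) ∧ tsupport χ ⊆ ball 0 1 ∧ (∀ x, 0 ≤ χ x) ∧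
      (∀ x, χ x ≤ 1) ∧ HasCompactSupport χ ∧
      ∀ K : ℕ, ∃ C : ℝ, 1 ≤ C ∧ ∀ i ≤ K, ∀ x, ‖iteratedFDeriv ℝ i χ x‖ ≤ C := by
  let f : ContDiffBump (0 : F) := ⟨a, (a + 1) / 2, ha, by linarith⟩
  have hcs : HasCompactSupport (f : F → ℝ) := f.hasCompactSupport
  have hf : ContDiff ℝ ∞ (f : F → ℝ) := f.contDiff
  refine ⟨f, hf, ?_, ?_, fun x => f.nonneg, fun x => f.le_one, hcs, ?_⟩
  · intro x hx; exact f.one_of_mem_closedBall hx
  · rw [f.tsupport_eq]
    exact closedBall_subset_ball (by show (a + 1) / 2 < 1; linarith)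
  · intro K
    have hc : ∀ i : ℕ, ∃ C : ℝ, ∀ x, ‖iteratedFDeriv ℝ i f x‖ ≤ C := by
      intro i
      have h1 : Continuous (iteratedFDeriv ℝ i f) :=
        hf.continuous_iteratedFDeriv (by exact_mod_cast le_top)
      exact (hcs.iteratedFDeriv i).exists_bound_of_continuous h1
    choose C hC using hc
    refine ⟨1 + ∑ i ∈ Finset.range (K + 1), |C i|, ?_, ?_⟩
    · have : 0 ≤ ∑ i ∈ Finset.range (K + 1), |C i| := Finset.sum_nonneg fun _ _ => abs_nonneg _
      linarith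
    · intro i hi x
      have h1 : |C i| ≤ ∑ i ∈ Finset.range (K + 1), |C i| :=
        Finset.single_le_sum (f := fun i => |C i|) (fun _ _ => abs_nonneg _)
          (Finset.mem_range.2 (by omega))
      linarith [hC i x, le_abs_self (C i)]

theorem cut_smooth {χ : F → ℝ} (hχ : ContDiff ℝ ∞ χ) (hs : tsupport χ ⊆ ball 0 1) {v : F → V}
    (hv : ContDiffOn ℝ ∞ v (ball 0 1)) : ContDiff ℝ ∞ (fun x => χ x • v x) := by
  rw [contDiff_iff_contDiffAt]
  intro x
  by_cases hx : x ∈ ball (0 : F) 1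
  · exact hχ.contDiffAt.smul (hv.contDiffAt (isOpen_ball.mem_nhds hx))
  · have hx' : x ∉ tsupport χ := fun h => hx (hs h)
    have h1 : (fun x => χ x • v x) =ᶠ[𝓝 x] fun _ => 0 := by
      filter_upwards [(isClosed_tsupport χ).isOpen_compl.mem_nhds hx'] with y hy
      rw [image_eq_zero_of_notMem_tsupport hy, zero_smul]
    exact (contDiffAt_const (c := (0 : V))).congr_of_eventuallyEq h1

theorem cut_bound {χ : F → ℝ} (hχ : ContDiff ℝ ∞ χ) (hs : tsupport χ ⊆ ball 0 1) {K : ℕ} {C : ℝ}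
    (hC : 1 ≤ C) (hb : ∀ i ≤ K, ∀ x, ‖iteratedFDeriv ℝ i χ x‖ ≤ C) {v : F → V} {κ : ℝ} (hκ : 0 ≤ κ)
    (hv : ContDiffOn ℝ ∞ v (ball 0 1))
    (hvb : ∀ i ≤ K, ∀ x ∈ ball (0 : F) 1, ‖iteratedFDeriv ℝ i v x‖ ≤ κ) :
    ∀ i ≤ K, ∀ x, ‖iteratedFDeriv ℝ i (fun x => χ x • v x) x‖ ≤ 2 ^ K * C * κ := by
  intro i hi x
  by_cases hx : x ∈ ball (0 : F) 1
  · have h := norm_iteratedFDerivWithin_smul_le (𝕜 := ℝ) (f := χ) (g := v) (s := ball (0 : F) 1)
      (N := ∞) hχ.contDiffOn hv isOpen_ball.uniqueDiffOn hx (n := i) (by exact_mod_cast le_top)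
    rw [iteratedFDerivWithin_of_isOpen i isOpen_ball hx] at h
    refine h.trans ?_
    have h1 : ∑ j ∈ Finset.range (i + 1), (i.choose j : ℝ) *
        ‖iteratedFDerivWithin ℝ j χ (ball (0 : F) 1) x‖ *
          ‖iteratedFDerivWithin ℝ (i - j) v (ball (0 : F) 1) x‖ ≤
        ∑ j ∈ Finset.range (i + 1), (i.choose j : ℝ) * (C * κ) := by
      refine Finset.sum_le_sum fun j hj => ?_
      rw [Finset.mem_range] at hj
      rw [iteratedFDerivWithin_of_isOpen j isOpen_ball hx,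
        iteratedFDerivWithin_of_isOpen (i - j) isOpen_ball hx, mul_assoc]
      have h2 := hb j (by omega) x
      have h3 := hvb (i - j) (by omega) x hx
      gcongr
    refine h1.trans ?_
    rw [← Finset.sum_mul]
    have h4 : ∑ j ∈ Finset.range (i + 1), (i.choose j : ℝ) = 2 ^ i := by
      exact_mod_cast Nat.sum_range_choose i
    rw [h4, mul_assoc]
    have h5 : (2:ℝ) ^ i ≤ 2 ^ K := pow_le_pow_right₀ (by norm_num) hi
    gcongr
  · have hx' : x ∉ tsupport χ := fun h => hx (hs h)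
    have h1 : (fun x => χ x • v x) =ᶠ[𝓝 x] fun _ => 0 := by
      filter_upwards [(isClosed_tsupport χ).isOpen_compl.mem_nhds hx'] with y hy
      rw [image_eq_zero_of_notMem_tsupport hy, zero_smul]
    have h2 : iteratedFDeriv ℝ i (fun x => χ x • v x) x = 0 := by
      rw [(h1.iteratedFDeriv ℝ i).eq_of_nhds]
      simp
    rw [h2, norm_zero]
    positivity

end Crest.Agent.R234.Grot_842
end
end

-- ▼ part R234/Grot4_842
section

/-!
# Row 234, node GROT (helper842), part 4: the rotated graph, model form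

`Rt q H H'` : `H = (1 + qᵀq)^(-1/2)`, `H' = (1 + q qᵀ)^(-1/2)`.
For `v : F → V` (graph over the old plane, `v 0 = 0`, `Dv 0 = q`) the new coordinates of the point
`(a, b)` are `(H (a + qᵀ b), H' (b - q a))`. `rot_graph`: the graph of `v` is the graph of a smooth
function `w` with `w 0 = 0`, `Dw 0 = 0`, `‖D^j w‖ ≤ C κ`.
-/

set_option autoImplicit false
set_option linter.unusedSectionVars false

open Set Metric Filter Topology
open scoped ContDiff NNReal RealInnerProductSpace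

noncomputable section

namespace Crest.Agent.R234.Grot_842

open Crest.Agent.R234.Ell1_3

variable {F V : Type} [NormedAddCommGroup F] [InnerProductSpace ℝ F] [FiniteDimensional ℝ F]
  [NormedAddCommGroup V] [InnerProductSpace ℝ V] [FiniteDimensional ℝ V]

theorem norm_iter_clm {E G : Type} [NormedAddCommGroup E] [NormedSpace ℝ E] [NormedAddCommGroup G]
    [NormedSpace ℝ G] (A : E →L[ℝ] G) (x : E) {j : ℕ} (hj : 1 ≤ j) :
    ‖iteratedFDeriv ℝ j A x‖ ≤ ‖A‖ := by
  obtain ⟨i, rfl⟩ : ∃ i, j = i + 1 := ⟨j - 1, by omega⟩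
  rw [← norm_iteratedFDeriv_fderiv]
  have h : fderiv ℝ (A : E → G) = fun _ => A := by funext y; exact A.fderiv
  rw [h]
  rcases Nat.eq_zero_or_pos i with hi | hi
  · subst hi; rw [norm_iteratedFDeriv_zero]
  · rw [iteratedFDeriv_const_of_ne (by omega)]
    simp

/-- composition bound for `n ≥ 1` without the zeroth derivative -/
theorem comp_bound {E G W : Type} [NormedAddCommGroup E] [NormedSpace ℝ E] [NormedAddCommGroup G]
    [NormedSpace ℝ G] [NormedAddCommGroup W] [NormedSpace ℝ W] {g : G → W} {f : E → G}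
    (hg : ContDiff ℝ ∞ g) (hf : ContDiff ℝ ∞ f) {n : ℕ} (hn : 1 ≤ n) (x : E) {C D : ℝ}
    (hC0 : 0 ≤ C) (hC : ∀ i, 1 ≤ i → i ≤ n → ‖iteratedFDeriv ℝ i g (f x)‖ ≤ C)
    (hD : ∀ i, 1 ≤ i → i ≤ n → ‖iteratedFDeriv ℝ i f x‖ ≤ D ^ i) :
    ‖iteratedFDeriv ℝ n (fun y => g (f y)) x‖ ≤ n.factorial * C * D ^ n := by
  set c := g (f x) with hc
  have hg' : ContDiff ℝ ∞ (fun z => g z - c) := hg.sub contDiff_const
  have hit : ∀ i, 1 ≤ i → ∀ z, iteratedFDeriv ℝ i (fun z => g z - c) z = iteratedFDeriv ℝ i g z := by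
    intro i hi z
    have h1 := iteratedFDeriv_sub_apply (𝕜 := ℝ) (i := i) (f := g) (g := fun _ => c) (x := z)
      (hg.contDiffAt.of_le (by exact_mod_cast le_top)) contDiffAt_const
    have h2 : iteratedFDeriv ℝ i (fun z => g z - c) z =
        iteratedFDeriv ℝ i g z - iteratedFDeriv ℝ i (fun _ : G => c) z := h1
    rw [h2, iteratedFDeriv_const_of_ne (by omega)]
    simp
  have h := norm_iteratedFDeriv_comp_le (𝕜 := ℝ) (g := fun z => g z - c) (f := f) (n := n)
    (N := ∞) hg' hf (by exact_mod_cast le_top) x (C := C) (D := D) ?_ hD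
  · have e : iteratedFDeriv ℝ n ((fun z => g z - c) ∘ f) x =
        iteratedFDeriv ℝ n (fun y => g (f y)) x := by
      have h1 := iteratedFDeriv_sub_apply (𝕜 := ℝ) (i := n) (f := fun y => g (f y))
        (g := fun _ => c) (x := x)
        ((hg.comp hf).contDiffAt.of_le (by exact_mod_cast le_top)) contDiffAt_const
      have h2 : iteratedFDeriv ℝ n ((fun z => g z - c) ∘ f) x =
          iteratedFDeriv ℝ n (fun y => g (f y)) x - iteratedFDeriv ℝ n (fun _ : E => c) x := h1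
      rw [h2, iteratedFDeriv_const_of_ne (by omega)]
      simp
    rwa [e] at h
  · intro i hi
    rcases Nat.eq_zero_or_pos i with h0 | h0
    · subst h0
      rw [norm_iteratedFDeriv_zero, hc, sub_self, norm_zero]; exact hC0
    · rw [hit i h0]; exact hC i h0 hi

/-- the two inverse square roots -/
structure Rt (q : F →L[ℝ] V) (H : F →L[ℝ] F) (H' : V →L[ℝ] V) : Prop where
  sym : ∀ x y, ⟪H x, y⟫ = ⟪x, H y⟫
  sym' : ∀ x y, ⟪H' x, y⟫ = ⟪x, H' y⟫
  inv : ∀ x, H (gop q (H x)) = x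
  inv' : ∀ x, H' (gop (ContinuousLinearMap.adjoint q) (H' x)) = x
  gop_sq : ∀ x, gop q (H (H x)) = x
  gop_sq' : ∀ x, gop (ContinuousLinearMap.adjoint q) (H' (H' x)) = x
  near : ∀ x, ‖H x - x‖ ≤ ‖q‖ ^ 2 * ‖x‖
  near' : ∀ x, ‖H' x - x‖ ≤ ‖q‖ ^ 2 * ‖x‖
  le : ∀ x, ‖H x‖ ≤ ‖x‖
  le' : ∀ x, ‖H' x‖ ≤ ‖x‖

theorem exists_Rt_half (q : F →L[ℝ] V) : ∃ H : F →L[ℝ] F, (∀ x y, ⟪H x, y⟫ = ⟪x, H y⟫) ∧
    (∀ x, H (gop q (H x)) = x) ∧ (∀ x, gop q (H (H x)) = x) ∧
    (∀ x, ‖H x - x‖ ≤ ‖q‖ ^ 2 * ‖x‖) ∧ (∀ x, ‖H x‖ ≤ ‖x‖) := by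
  set T : F →L[ℝ] F := ContinuousLinearMap.adjoint q ∘L q with hT
  have hin : ∀ x y, ⟪T x, y⟫ = ⟪q x, q y⟫ := fun x y => by
    rw [hT, ContinuousLinearMap.comp_apply, ContinuousLinearMap.adjoint_inner_left]
  have hin' : ∀ x y, ⟪x, T y⟫ = ⟪q x, q y⟫ := fun x y => by
    rw [hT, ContinuousLinearMap.comp_apply, ContinuousLinearMap.adjoint_inner_right]
  obtain ⟨H, h1, h2, _, h4, h5, h6, _⟩ := exists_isqrt T (fun x y => by rw [hin, hin'])
    (fun x => by rw [hin]; exact real_inner_self_nonneg)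
  have hTn : ‖T‖ ≤ ‖q‖ ^ 2 := by
    rw [sq]
    refine (ContinuousLinearMap.opNorm_comp_le _ _).trans ?_
    rw [LinearIsometryEquiv.norm_map]
  have hg : ∀ x, gop q x = x + T x := fun x => by simp [gop, hT]
  refine ⟨H, h1, ?_, ?_, ?_, h6⟩
  · intro x; rw [hg]; exact h2 x
  · intro x; rw [hg]; exact h4 x
  · intro x
    exact (h5 x).trans (mul_le_mul_of_nonneg_right hTn (norm_nonneg _))

theorem exists_Rt (q : F →L[ℝ] V) : ∃ H H', Rt q H H' := by
  obtain ⟨H, a1, a2, a3, a4, a5⟩ := exists_Rt_half q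
  obtain ⟨H', b1, b2, b3, b4, b5⟩ := exists_Rt_half (ContinuousLinearMap.adjoint q)
  rw [LinearIsometryEquiv.norm_map] at b4
  exact ⟨H, H', a1, b1, a2, b2, a3, b3, a4, b4, a5, b5⟩

namespace Rt

variable {q : F →L[ℝ] V} {H : F →L[ℝ] F} {H' : V →L[ℝ] V} (h : Rt q H H')
include h

theorem norm_le : ‖H‖ ≤ 1 := H.opNorm_le_bound zero_le_one fun x => by simpa using h.le x

theorem norm_le' : ‖H'‖ ≤ 1 := H'.opNorm_le_bound zero_le_one fun x => by simpa using h.le' x

theorem norm_sub : ‖H - 1‖ ≤ ‖q‖ ^ 2 :=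
  (H - 1).opNorm_le_bound (by positivity) fun x => by simpa using h.near x

theorem norm_sub' : ‖H' - 1‖ ≤ ‖q‖ ^ 2 :=
  (H' - 1).opNorm_le_bound (by positivity) fun x => by simpa using h.near' x

/-- `qᵀ H'² = H² qᵀ` -/
theorem comm' (y : V) : ContinuousLinearMap.adjoint q (H' (H' y)) =
    H (H (ContinuousLinearMap.adjoint q y)) := by
  apply gop_injective q
  rw [h.gop_sq]
  have h1 := congrArg (ContinuousLinearMap.adjoint q) (h.gop_sq' y)
  simp only [gop, add_apply, ContinuousLinearMap.id_apply,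
    ContinuousLinearMap.comp_apply, ContinuousLinearMap.adjoint_adjoint, map_add] at h1 ⊢
  exact h1

/-- `q H² = H'² q` -/
theorem comm (x : F) : q (H (H x)) = H' (H' (q x)) := by
  apply gop_injective (ContinuousLinearMap.adjoint q)
  rw [h.gop_sq']
  have h1 := congrArg q (h.gop_sq x)
  simp only [gop, add_apply, ContinuousLinearMap.id_apply,
    ContinuousLinearMap.comp_apply, ContinuousLinearMap.adjoint_adjoint, map_add] at h1 ⊢
  exact h1

end Rt

/-- the rotated graph of a globally defined `v` with small derivatives -/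
theorem rot_core (F V : Type) [NormedAddCommGroup F] [InnerProductSpace ℝ F]
    [FiniteDimensional ℝ F] [NormedAddCommGroup V] [InnerProductSpace ℝ V] [FiniteDimensional ℝ V]
    (K : ℕ) : ∃ C : ℝ, 1 ≤ C ∧ ∀ (v : F → V) (q : F →L[ℝ] V) (H : F →L[ℝ] F) (H' : V →L[ℝ] V)
      (κ : ℝ), 0 ≤ κ → κ ≤ 1 / 2 → ContDiff ℝ ∞ v → v 0 = 0 → fderiv ℝ v 0 = q → Rt q H H' →
      (∀ j, 1 ≤ j → j ≤ K + 1 → ∀ x, ‖iteratedFDeriv ℝ j v x‖ ≤ κ) →
      ∃ (φ : F → F), ContDiff ℝ ∞ φ ∧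
        (∀ y, H (φ y + ContinuousLinearMap.adjoint q (v (φ y))) = y) ∧
        (∀ x, φ (H (x + ContinuousLinearMap.adjoint q (v x))) = x) ∧ φ 0 = 0 ∧
        (∀ y, ‖φ y‖ ≤ 2 * ‖y‖) ∧
        ContDiff ℝ ∞ (fun y => H' (v (φ y) - q (φ y))) ∧
        fderiv ℝ (fun y => H' (v (φ y) - q (φ y))) 0 = 0 ∧
        (∀ j, 1 ≤ j → j ≤ K + 1 → ∀ y, ‖iteratedFDeriv ℝ j (fun y => H' (v (φ y) - q (φ y))) y‖ ≤
          C * κ) ∧
        (∀ y, ‖H' (v (φ y) - q (φ y))‖ ≤ 4 * κ * ‖y‖) := by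
  obtain ⟨C0, hC0, hC⟩ := inv_bound (F := F) (K + 1) 2 (by norm_num)
  refine ⟨(K + 1).factorial * 2 * C0 ^ (K + 1), ?_, ?_⟩
  · have h1 : (1 : ℝ) ≤ (K + 1).factorial := by exact_mod_cast (K + 1).factorial_pos
    have h2 : (1 : ℝ) ≤ C0 ^ (K + 1) := one_le_pow₀ hC0
    calc (1:ℝ) ≤ 1 * 2 * 1 := by norm_num
      _ ≤ _ := by gcongr
  intro v q H H' κ hκ0 hκ hv hv0 hq hR hb
  set qa := ContinuousLinearMap.adjoint q with hqa
  have hdv : Differentiable ℝ v := hv.differentiable (by simp)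
  have hfd : ∀ x, ‖fderiv ℝ v x‖ ≤ κ := fun x => by
    have h := hb 1 le_rfl (by omega) x
    rwa [← norm_iteratedFDeriv_fderiv, norm_iteratedFDeriv_zero] at h
  have hqκ : ‖q‖ ≤ κ := by rw [← hq]; exact hfd 0
  have hqaκ : ‖qa‖ ≤ κ := by rw [hqa, LinearIsometryEquiv.norm_map]; exact hqκ
  set ψ : F → F := fun x => H (x + qa (v x)) with hψd
  have hψ : ContDiff ℝ ∞ ψ := H.contDiff.comp (contDiff_id.add (qa.contDiff.comp hv))
  have hψD : ∀ x, HasFDerivAt ψ (H ∘L (ContinuousLinearMap.id ℝ F + qa ∘L fderiv ℝ v x)) x := by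
    intro x
    exact H.hasFDerivAt.comp x ((hasFDerivAt_id x).add (qa.hasFDerivAt.comp x (hdv x).hasFDerivAt))
  have hH1 := hR.norm_le
  have hH2 := hR.norm_sub
  have hnear : ∀ x, ‖fderiv ℝ ψ x - 1‖ ≤ 1 / 2 := by
    intro x
    rw [(hψD x).fderiv]
    have e : H ∘L (ContinuousLinearMap.id ℝ F + qa ∘L fderiv ℝ v x) - 1 =
        (H - 1) + (H ∘L (qa ∘L fderiv ℝ v x)) := by
      ext y; simp; abel
    rw [e]
    have h1 : ‖H ∘L (qa ∘L fderiv ℝ v x)‖ ≤ 1 * (κ * κ) := by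
      refine (ContinuousLinearMap.opNorm_comp_le _ _).trans ?_
      have := (ContinuousLinearMap.opNorm_comp_le qa (fderiv ℝ v x)).trans
        (mul_le_mul hqaκ (hfd x) (norm_nonneg _) hκ0)
      gcongr
    calc ‖(H - 1) + (H ∘L (qa ∘L fderiv ℝ v x))‖ ≤ ‖q‖ ^ 2 + 1 * (κ * κ) :=
          (norm_add_le _ _).trans (add_le_add hH2 h1)
      _ ≤ κ ^ 2 + 1 * (κ * κ) := by gcongr
      _ ≤ 1 / 2 := by nlinarith
  have hψb : ∀ x, ∀ j, 1 ≤ j → j ≤ K + 1 → ‖iteratedFDeriv ℝ j ψ x‖ ≤ 2 := by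
    intro x j hj hj'
    have e : ψ = fun x => H x + (H ∘L qa) (v x) := by
      funext x; simp [hψd]
    have h1 : iteratedFDeriv ℝ j ψ x = iteratedFDeriv ℝ j H x +
        iteratedFDeriv ℝ j (fun x => (H ∘L qa) (v x)) x := by
      rw [e]
      exact iteratedFDeriv_add_apply (f := fun x => H x) (g := fun x => (H ∘L qa) (v x))
        (H.contDiff.contDiffAt) (((H ∘L qa).contDiff.comp hv).contDiffAt.of_le (by exact_mod_cast le_top))
    rw [h1]
    have h2 := norm_iter_clm H x hj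
    have h3 : ‖iteratedFDeriv ℝ j (fun x => (H ∘L qa) (v x)) x‖ ≤ 1 * κ * κ := by
      have h4 := (H ∘L qa).norm_iteratedFDeriv_comp_left (f := v) (x := x) (N := ∞) (n := j)
        hv.contDiffAt (by exact_mod_cast le_top)
      refine h4.trans ?_
      have h5 : ‖H ∘L qa‖ ≤ 1 * κ := (ContinuousLinearMap.opNorm_comp_le _ _).trans (by gcongr)
      have h6 := hb j hj hj' x
      gcongr
    calc ‖iteratedFDeriv ℝ j H x + iteratedFDeriv ℝ j (fun x => (H ∘L qa) (v x)) x‖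
        ≤ 1 + 1 * κ * κ := (norm_add_le _ _).trans (add_le_add (h2.trans hH1) h3)
      _ ≤ 2 := by nlinarith
  obtain ⟨φ, hφ, h1, h2⟩ := exists_inv hψ hnear
  have hφb := hC ψ φ hψ hφ h1 hnear hψb
  have hφ0 : φ 0 = 0 := by
    have h3 := h2 0
    have h4 : ψ 0 = 0 := by simp [hψd, hv0]
    rwa [h4] at h3
  have hψlow : ∀ x y, ‖x - y‖ ≤ 2 * ‖ψ x - ψ y‖ := by
    intro x y
    have h := Convex.norm_image_sub_le_of_norm_hasFDerivWithin_le (𝕜 := ℝ)
      (f := fun z => ψ z - z) (f' := fun z => fderiv ℝ ψ z - 1) (s := univ) (C := 1 / 2)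
      (fun z _ => (((hψ.differentiable (by simp)) z).hasFDerivAt.sub
        (hasFDerivAt_id z)).hasFDerivWithinAt)
      (fun z _ => hnear z) convex_univ (mem_univ y) (mem_univ x)
    have e : x - y = (ψ x - ψ y) - ((ψ x - x) - (ψ y - y)) := by abel
    have h3 : ‖x - y‖ ≤ ‖ψ x - ψ y‖ + 1 / 2 * ‖x - y‖ := by
      nth_rewrite 1 [e]
      exact (norm_sub_le _ _).trans (by gcongr)
    linarith
  have hφn : ∀ y, ‖φ y‖ ≤ 2 * ‖y‖ := by
    intro y
    have h3 := hψlow (φ y) 0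
    have h4 : ψ 0 = 0 := by simp [hψd, hv0]
    rw [h1, h4, sub_zero, sub_zero] at h3
    exact h3
  -- the function η
  set η : F → V := fun x => H' (v x - q x) with hη
  have hηs : ContDiff ℝ ∞ η := H'.contDiff.comp (hv.sub q.contDiff)
  have hH1' := hR.norm_le'
  have hηD : ∀ x, HasFDerivAt η (H' ∘L (fderiv ℝ v x - q)) x := fun x =>
    H'.hasFDerivAt.comp x ((hdv x).hasFDerivAt.sub q.hasFDerivAt)
  have hηb : ∀ x, ∀ j, 1 ≤ j → j ≤ K + 1 → ‖iteratedFDeriv ℝ j η x‖ ≤ 2 * κ := by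
    intro x j hj hj'
    have h3 : iteratedFDeriv ℝ j (fun x => v x - q x) x = iteratedFDeriv ℝ j v x -
        iteratedFDeriv ℝ j q x :=
      iteratedFDeriv_sub_apply (f := v) (g := fun x => q x)
        (hv.contDiffAt.of_le (by exact_mod_cast le_top)) q.contDiff.contDiffAt
    have h4 := H'.norm_iteratedFDeriv_comp_left (f := fun x => v x - q x) (x := x) (N := ∞) (n := j)
      (hv.sub q.contDiff).contDiffAt (by exact_mod_cast le_top)
    have h5 : ‖iteratedFDeriv ℝ j (fun x => v x - q x) x‖ ≤ 2 * κ := by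
      rw [h3]
      have := norm_iter_clm q x hj
      have := hb j hj hj' x
      calc _ ≤ ‖iteratedFDeriv ℝ j v x‖ + ‖iteratedFDeriv ℝ j q x‖ := norm_sub_le _ _
        _ ≤ 2 * κ := by linarith
    calc ‖iteratedFDeriv ℝ j η x‖ ≤ ‖H'‖ * ‖iteratedFDeriv ℝ j (fun x => v x - q x) x‖ := h4
      _ ≤ 1 * (2 * κ) := by gcongr
      _ = 2 * κ := one_mul _
  have hη0 : η 0 = 0 := by simp [hη, hv0]
  have hηn : ∀ x, ‖η x‖ ≤ 2 * κ * ‖x‖ := by
    intro x
    have h := Convex.norm_image_sub_le_of_norm_hasFDerivWithin_le (𝕜 := ℝ)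
      (f := η) (f' := fun z => H' ∘L (fderiv ℝ v z - q)) (s := univ) (C := 2 * κ)
      (fun z _ => (hηD z).hasFDerivWithinAt) (fun z _ => ?_) convex_univ (mem_univ 0) (mem_univ x)
    · rwa [hη0, sub_zero, sub_zero] at h
    · refine (ContinuousLinearMap.opNorm_comp_le _ _).trans ?_
      have h3 : ‖fderiv ℝ v z - q‖ ≤ κ + κ := (norm_sub_le _ _).trans (add_le_add (hfd z) hqκ)
      calc ‖H'‖ * ‖fderiv ℝ v z - q‖ ≤ 1 * (κ + κ) := by gcongr
        _ = 2 * κ := by ring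
  refine ⟨φ, hφ, h1, h2, hφ0, hφn, hηs.comp hφ, ?_, ?_, ?_⟩
  · have h3 : HasFDerivAt (fun y => η (φ y)) ((H' ∘L (fderiv ℝ v (φ 0) - q)) ∘L (fderiv ℝ φ 0)) 0 :=
      (hηD (φ 0)).comp 0 ((hφ.differentiable (by simp)) 0).hasFDerivAt
    rw [hφ0, hq, sub_self] at h3
    rw [h3.fderiv]
    ext; simp
  · intro j hj hj' y
    have h3 := comp_bound (g := η) (f := φ) hηs hφ hj y (C := 2 * κ) (D := C0) (by positivity)
      (fun i hi hi' => hηb _ i hi (by omega)) (fun i hi hi' => hφb y i hi (by omega))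
    refine h3.trans ?_
    have h4 : (j.factorial : ℝ) ≤ (K + 1).factorial := by exact_mod_cast Nat.factorial_le hj'
    have h5 : C0 ^ j ≤ C0 ^ (K + 1) := pow_le_pow_right₀ hC0 hj'
    calc (j.factorial : ℝ) * (2 * κ) * C0 ^ j ≤ (K + 1).factorial * (2 * κ) * C0 ^ (K + 1) := by
          gcongr
      _ = _ := by ring
  · intro y
    calc ‖η (φ y)‖ ≤ 2 * κ * ‖φ y‖ := hηn _
      _ ≤ 2 * κ * (2 * ‖y‖) := by gcongr; exact hφn y
      _ = 4 * κ * ‖y‖ := by ring

end Crest.Agent.R234.Grot_842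
end
end

-- ▼ part R234/Grot5_842
section

/-!
# Row 234, node GROT (helper842), part 5: the rotated frame and invariance of the minimal system
-/

set_option autoImplicit false
set_option linter.unusedSectionVars false

open Set Metric Filter Topology
open scoped ContDiff NNReal RealInnerProductSpace
open Crest.GeometryTopology.Submanifold

noncomputable section

namespace Crest.Agent.R234.Grot_842

open Crest.Agent.R234.Ell1_3 Crest.Agent.R234.Main_456

variable {F V : Type} [NormedAddCommGroup F] [InnerProductSpace ℝ F] [FiniteDimensional ℝ F]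
  [NormedAddCommGroup V] [InnerProductSpace ℝ V] [FiniteDimensional ℝ V]

namespace Rt

variable {q : F →L[ℝ] V} {H : F →L[ℝ] F} {H' : V →L[ℝ] V} (h : Rt q H H')
include h

theorem sq_gop (a : F) : H (H (gop q a)) = a := by
  apply gop_injective q
  rw [h.gop_sq]

theorem sq_gop' (b : V) : H' (H' (gop (ContinuousLinearMap.adjoint q) b)) = b := by
  apply gop_injective (ContinuousLinearMap.adjoint q)
  rw [h.gop_sq']

theorem key1 (a : F) (b : V) : H (H (a + ContinuousLinearMap.adjoint q b)) -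
    ContinuousLinearMap.adjoint q (H' (H' (b - q a))) = a := by
  rw [h.comm']
  have e : H (H (a + ContinuousLinearMap.adjoint q b)) -
      H (H (ContinuousLinearMap.adjoint q (b - q a))) = H (H (gop q a)) := by
    simp only [gop, add_apply, ContinuousLinearMap.id_apply,
      ContinuousLinearMap.comp_apply, map_add, map_sub]
    abel
  rw [e, h.sq_gop]

theorem key2 (a : F) (b : V) : q (H (H (a + ContinuousLinearMap.adjoint q b))) +
    H' (H' (b - q a)) = b := by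
  rw [h.comm]
  have e : H' (H' (q (a + ContinuousLinearMap.adjoint q b))) + H' (H' (b - q a)) =
      H' (H' (gop (ContinuousLinearMap.adjoint q) b)) := by
    simp only [gop, add_apply, ContinuousLinearMap.id_apply,
      ContinuousLinearMap.comp_apply, map_add, map_sub, ContinuousLinearMap.adjoint_adjoint]
    abel
  rw [e, h.sq_gop']

/-- the change of coordinates is an isometry -/
theorem isom (a c : F) (b d : V) :
    ⟪H (a + ContinuousLinearMap.adjoint q b), H (c + ContinuousLinearMap.adjoint q d)⟫ +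
      ⟪H' (b - q a), H' (d - q c)⟫ = ⟪a, c⟫ + ⟪b, d⟫ := by
  rw [← h.sym, ← h.sym', inner_add_right, inner_sub_right,
    ContinuousLinearMap.adjoint_inner_right]
  have h3 : ⟪H' (H' (b - q a)), q c⟫ =
      ⟪ContinuousLinearMap.adjoint q (H' (H' (b - q a))), c⟫ := by
    rw [ContinuousLinearMap.adjoint_inner_left]
  rw [h3]
  have e : ∀ (A B : F) (X Y : V), ⟪A, c⟫ + ⟪X, d⟫ + (⟪Y, d⟫ - ⟪B, c⟫) = ⟪A - B, c⟫ + ⟪X + Y, d⟫ := by
    intro A B X Y
    rw [inner_sub_left, inner_add_left]; ring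
  rw [e, h.key1, h.key2]

end Rt

section Frame

variable {m n k : ℕ} {π : Euc k →L[ℝ] Euc m} {ρ : Euc k →L[ℝ] Euc n}

theorem fr_πρ (hf : Frame π ρ) (b : Euc n) : π (ContinuousLinearMap.adjoint ρ b) = 0 :=
  congrArg (fun T : Euc n →L[ℝ] Euc m => T b) hf.orth

theorem fr_ππ (hf : Frame π ρ) (a : Euc m) : π (ContinuousLinearMap.adjoint π a) = a :=
  congrArg (fun T : Euc m →L[ℝ] Euc m => T a) hf.coπ

theorem fr_ρρ (hf : Frame π ρ) (b : Euc n) : ρ (ContinuousLinearMap.adjoint ρ b) = b :=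
  congrArg (fun T : Euc n →L[ℝ] Euc n => T b) hf.coρ

theorem fr_ρπ (hf : Frame π ρ) (a : Euc m) : ρ (ContinuousLinearMap.adjoint π a) = 0 := by
  refine ext_inner_right ℝ fun b => ?_
  rw [← ContinuousLinearMap.adjoint_inner_right, ContinuousLinearMap.adjoint_inner_left,
    fr_πρ hf]
  simp

theorem fr_full (hf : Frame π ρ) (z : Euc k) :
    ContinuousLinearMap.adjoint π (π z) + ContinuousLinearMap.adjoint ρ (ρ z) = z :=
  congrArg (fun T : Euc k →L[ℝ] Euc k => T z) hf.full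

/-- the rotated frame -/
def rπ (π : Euc k →L[ℝ] Euc m) (ρ : Euc k →L[ℝ] Euc n) (q : Euc m →L[ℝ] Euc n)
    (H : Euc m →L[ℝ] Euc m) : Euc k →L[ℝ] Euc m := H ∘L (π + (ContinuousLinearMap.adjoint q) ∘L ρ)

/-- the rotated frame -/
def rρ (π : Euc k →L[ℝ] Euc m) (ρ : Euc k →L[ℝ] Euc n) (q : Euc m →L[ℝ] Euc n)
    (H' : Euc n →L[ℝ] Euc n) : Euc k →L[ℝ] Euc n := H' ∘L (ρ - q ∘L π)

variable {q : Euc m →L[ℝ] Euc n} {H : Euc m →L[ℝ] Euc m} {H' : Euc n →L[ℝ] Euc n}

theorem rπ_apply (z : Euc k) : rπ π ρ q H z = H (π z + ContinuousLinearMap.adjoint q (ρ z)) := rfl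

theorem rρ_apply (z : Euc k) : rρ π ρ q H' z = H' (ρ z - q (π z)) := rfl

theorem adj_rπ (h : Rt q H H') (x : Euc m) : ContinuousLinearMap.adjoint (rπ π ρ q H) x =
    ContinuousLinearMap.adjoint π (H x) + ContinuousLinearMap.adjoint ρ (q (H x)) := by
  refine ext_inner_right ℝ fun z => ?_
  rw [ContinuousLinearMap.adjoint_inner_left, rπ_apply, ← h.sym, inner_add_right, inner_add_left,
    ContinuousLinearMap.adjoint_inner_left, ContinuousLinearMap.adjoint_inner_left,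
    ContinuousLinearMap.adjoint_inner_right]

theorem adj_rρ (h : Rt q H H') (y : Euc n) : ContinuousLinearMap.adjoint (rρ π ρ q H') y =
    ContinuousLinearMap.adjoint ρ (H' y) -
      ContinuousLinearMap.adjoint π (ContinuousLinearMap.adjoint q (H' y)) := by
  refine ext_inner_right ℝ fun z => ?_
  rw [ContinuousLinearMap.adjoint_inner_left, rρ_apply, ← h.sym', inner_sub_right, inner_sub_left,
    ContinuousLinearMap.adjoint_inner_left, ContinuousLinearMap.adjoint_inner_left,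
    ContinuousLinearMap.adjoint_inner_left]

theorem frame_rot (hf : Frame π ρ) (h : Rt q H H') : Frame (rπ π ρ q H) (rρ π ρ q H') := by
  constructor
  · show _ ∘L _ = _
    ext1 x
    rw [ContinuousLinearMap.comp_apply, adj_rπ h, rπ_apply]
    simp only [map_add, fr_ππ hf, fr_ρρ hf, fr_πρ hf, fr_ρπ hf, add_zero, zero_add]
    have := h.inv x
    simpa [gop] using this
  · show _ ∘L _ = _
    ext1 x
    rw [ContinuousLinearMap.comp_apply, adj_rρ h, rρ_apply]
    simp only [map_sub, fr_ππ hf, fr_ρρ hf, fr_πρ hf, fr_ρπ hf, sub_zero, zero_sub, map_neg,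
      sub_neg_eq_add]
    have := h.inv' x
    simpa [gop] using this
  · ext1 y
    rw [ContinuousLinearMap.comp_apply, adj_rρ h, rπ_apply]
    simp only [map_sub, fr_ππ hf, fr_ρρ hf, fr_πρ hf, fr_ρπ hf, sub_zero, zero_sub]
    simp
  · ext1 z
    rw [add_apply, ContinuousLinearMap.comp_apply, ContinuousLinearMap.comp_apply,
      adj_rπ h, adj_rρ h, rπ_apply, rρ_apply, ContinuousLinearMap.id_apply]
    have k1 := h.key1 (π z) (ρ z)
    have k2 := h.key2 (π z) (ρ z)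
    have e : ContinuousLinearMap.adjoint π (H (H (π z + ContinuousLinearMap.adjoint q (ρ z)))) +
        ContinuousLinearMap.adjoint ρ
          (q (H (H (π z + ContinuousLinearMap.adjoint q (ρ z))))) +
        (ContinuousLinearMap.adjoint ρ (H' (H' (ρ z - q (π z)))) -
          ContinuousLinearMap.adjoint π
            (ContinuousLinearMap.adjoint q (H' (H' (ρ z - q (π z)))))) =
        ContinuousLinearMap.adjoint π (H (H (π z + ContinuousLinearMap.adjoint q (ρ z))) -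
          ContinuousLinearMap.adjoint q (H' (H' (ρ z - q (π z))))) +
        ContinuousLinearMap.adjoint ρ (q (H (H (π z + ContinuousLinearMap.adjoint q (ρ z)))) +
          H' (H' (ρ z - q (π z)))) := by
      simp only [map_add, map_sub]; abel
    rw [e, k1, k2, fr_full hf]

end Frame

end Crest.Agent.R234.Grot_842
end
end

-- ▼ part R234/Grot6_842
section

/-!
# Row 234, node GROT (helper842), part 6: invariance of the minimal surface system
-/

set_option autoImplicit false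
set_option linter.unusedSectionVars false

open Set Metric Filter Topology
open scoped ContDiff NNReal RealInnerProductSpace
open Crest.GeometryTopology.Submanifold

noncomputable section

namespace Crest.Agent.R234.Grot_842

open Crest.Agent.R234.Ell1_3 Crest.Agent.R234.Main_456

variable {F V : Type} [NormedAddCommGroup F] [InnerProductSpace ℝ F] [FiniteDimensional ℝ F]
  [NormedAddCommGroup V] [InnerProductSpace ℝ V] [FiniteDimensional ℝ V]

/-- trace of a bilinear map against an operator -/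
def mt {ι : Type} [Fintype ι] (b : OrthonormalBasis ι ℝ F) (B : F →L[ℝ] F →L[ℝ] V)
    (T : F →L[ℝ] F) : V := ∑ i, B (T (b i)) (b i)

theorem mt_conj {ι : Type} [Fintype ι] (b : OrthonormalBasis ι ℝ F) (B : F →L[ℝ] F →L[ℝ] V)
    (T J : F →L[ℝ] F) :
    mt b B (J ∘L T ∘L (ContinuousLinearMap.adjoint J)) = ∑ i, B (J (T (b i))) (J (b i)) := by
  have h1 : ∀ x : F, x = ∑ j, ⟪b j, x⟫ • b j := fun x => by
    conv_lhs => rw [← b.sum_repr x]
    exact Finset.sum_congr rfl fun j _ => by rw [b.repr_apply_apply]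
  unfold mt
  have h2 : ∀ i, B ((J ∘L T ∘L (ContinuousLinearMap.adjoint J)) (b i)) (b i) =
      ∑ j, ⟪b i, J (b j)⟫ • B (J (T (b j))) (b i) := by
    intro i
    rw [ContinuousLinearMap.comp_apply, ContinuousLinearMap.comp_apply]
    nth_rewrite 1 [h1 (ContinuousLinearMap.adjoint J (b i))]
    simp only [map_sum, map_smul, sum_apply, smul_apply]
    refine Finset.sum_congr rfl fun j _ => ?_
    rw [ContinuousLinearMap.adjoint_inner_right, real_inner_comm]
  simp_rw [h2]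
  rw [Finset.sum_comm]
  refine Finset.sum_congr rfl fun j _ => ?_
  have h3 := congrArg (fun x => B (J (T (b j))) x) (h1 (J (b j)))
  simp only [map_sum, map_smul] at h3
  rw [h3]

/-- transformation of the inverse metric -/
theorem ginv_conj (qa q' : F →L[ℝ] V) (J : F →L[ℝ] F)
    (h : ∀ x y, ⟪J x, J y⟫ + ⟪q' (J x), q' (J y)⟫ = ⟪x, y⟫ + ⟪qa x, qa y⟫) :
    ginv q' = J ∘L (ginv qa) ∘L (ContinuousLinearMap.adjoint J) := by
  -- J† gop q' J = gop qa
  have h1 : (ContinuousLinearMap.adjoint J) ∘L (gop q') ∘L J = gop qa := by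
    ext1 y
    refine ext_inner_left ℝ fun x => ?_
    rw [ContinuousLinearMap.comp_apply, ContinuousLinearMap.comp_apply,
      ContinuousLinearMap.adjoint_inner_right, gop_inner, gop_inner, h]
  -- J is injective, hence surjective
  have hinj : Function.Injective J := by
    rw [injective_iff_map_eq_zero]
    intro x hx
    have h2 : gop qa x = 0 := by
      rw [← h1, ContinuousLinearMap.comp_apply, ContinuousLinearMap.comp_apply, hx, map_zero,
        map_zero]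
    exact gop_injective qa (h2.trans (map_zero _).symm)
  have hsurj : Function.Surjective J := by
    have := (LinearMap.injective_iff_surjective (f := (J : F →ₗ[ℝ] F))).1 hinj
    exact this
  have h3 : (J ∘L (ginv qa) ∘L (ContinuousLinearMap.adjoint J)) ∘L (gop q') =
      ContinuousLinearMap.id ℝ F := by
    ext1 y
    obtain ⟨x, rfl⟩ := hsurj y
    have h4 : (ContinuousLinearMap.adjoint J) (gop q' (J x)) = gop qa x :=
      congrArg (fun T : F →L[ℝ] F => T x) h1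
    have h5 : ginv qa (gop qa x) = x := congrArg (fun T : F →L[ℝ] F => T x) (ginv_gop qa)
    rw [ContinuousLinearMap.comp_apply, ContinuousLinearMap.comp_apply,
      ContinuousLinearMap.comp_apply, h4, h5]
    rfl
  calc ginv q' = ContinuousLinearMap.id ℝ F ∘L ginv q' := (ContinuousLinearMap.id_comp _).symm
    _ = ((J ∘L (ginv qa) ∘L (ContinuousLinearMap.adjoint J)) ∘L (gop q')) ∘L ginv q' := by rw [h3]
    _ = (J ∘L (ginv qa) ∘L (ContinuousLinearMap.adjoint J)) ∘L ((gop q') ∘L ginv q') := rfl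
    _ = _ := by rw [gop_ginv]; rfl

/-- the minimal system in an orthonormal basis -/
def ms {ι : Type} [Fintype ι] (b : OrthonormalBasis ι ℝ F) (u : F → V) (x : F) : V :=
  mt b (fderiv ℝ (fderiv ℝ u) x) (ginv (fderiv ℝ u x))

theorem ms_std {m n : ℕ} (u : Euc m → Euc n) (x : Euc m) :
    ms (EuclideanSpace.basisFun (Fin m) ℝ) u x = Msys u x := by
  unfold ms mt Msys
  refine Finset.sum_congr rfl fun i _ => ?_
  have : (EuclideanSpace.basisFun (Fin m) ℝ) i = stdVec m i := by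
    rw [EuclideanSpace.basisFun_apply]; rfl
  rw [this]

/-- **invariance**: if the graph of `v` near `a` is the graph of `w` in rotated coordinates -/
theorem ms_rot {ι : Type} [Fintype ι] (b : OrthonormalBasis ι ℝ F) {q : F →L[ℝ] V}
    {H : F →L[ℝ] F} {H' : V →L[ℝ] V} (hR : Rt q H H') {v w : F → V} {a : F}
    (hv : ContDiffAt ℝ 2 v a)
    (hw : ContDiffAt ℝ 2 w (H (a + ContinuousLinearMap.adjoint q (v a))))
    (hvw : ∀ᶠ x in 𝓝 a, w (H (x + ContinuousLinearMap.adjoint q (v x))) = H' (v x - q x)) :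
    ms b w (H (a + ContinuousLinearMap.adjoint q (v a))) =
      H' (ms b v a) - fderiv ℝ w (H (a + ContinuousLinearMap.adjoint q (v a)))
        (H (ContinuousLinearMap.adjoint q (ms b v a))) := by
  set qa := ContinuousLinearMap.adjoint q with hqa
  set ψ : F → F := fun x => H (x + qa (v x)) with hψ
  -- differentiability near a
  have hv1 : ∀ᶠ x in 𝓝 a, DifferentiableAt ℝ v x := by
    filter_upwards [hv.eventually (by simp)] with x hx
    exact hx.differentiableAt (by simp)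
  have hψD : ∀ x, DifferentiableAt ℝ v x →
      HasFDerivAt ψ (H ∘L (ContinuousLinearMap.id ℝ F + qa ∘L fderiv ℝ v x)) x := by
    intro x hx
    exact H.hasFDerivAt.comp x ((hasFDerivAt_id x).add (qa.hasFDerivAt.comp x hx.hasFDerivAt))
  have hψc : ContinuousAt ψ a := (hψD a hv1.self_of_nhds).continuousAt
  have hw1 : ∀ᶠ x in 𝓝 a, DifferentiableAt ℝ w (ψ x) := by
    refine hψc.eventually ?_
    filter_upwards [hw.eventually (by simp)] with x hx
    exact hx.differentiableAt (by simp)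
  -- first derivative identity near a
  have hE : ∀ᶠ x in 𝓝 a, ∀ y, fderiv ℝ w (ψ x) (H (y + qa (fderiv ℝ v x y))) =
      H' (fderiv ℝ v x y - q y) := by
    filter_upwards [hv1, hw1, hvw.eventually_nhds] with x h1 h2 h3 y
    have h4 : HasFDerivAt (fun x => w (ψ x)) ((fderiv ℝ w (ψ x)) ∘L
        (H ∘L (ContinuousLinearMap.id ℝ F + qa ∘L fderiv ℝ v x))) x :=
      h2.hasFDerivAt.comp x (hψD x h1)
    have h5 : HasFDerivAt (fun x => H' (v x - q x)) (H' ∘L (fderiv ℝ v x - q)) x :=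
      H'.hasFDerivAt.comp x (h1.hasFDerivAt.sub q.hasFDerivAt)
    have h6 : HasFDerivAt (fun x => w (ψ x)) (H' ∘L (fderiv ℝ v x - q)) x :=
      h5.congr_of_eventuallyEq h3
    have h7 := h4.unique h6
    have h8 := congrArg (fun T : F →L[ℝ] V => T y) h7
    simpa using h8
  -- second derivatives
  have hv2 : HasFDerivAt (fderiv ℝ v) (fderiv ℝ (fderiv ℝ v) a) a := by
    have : ContDiffAt ℝ 1 (fderiv ℝ v) a := hv.fderiv_right (by norm_num)
    exact (this.differentiableAt (by simp)).hasFDerivAt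
  have hw2 : HasFDerivAt (fderiv ℝ w) (fderiv ℝ (fderiv ℝ w) (ψ a)) (ψ a) := by
    have : ContDiffAt ℝ 1 (fderiv ℝ w) (ψ a) := hw.fderiv_right (by norm_num)
    exact (this.differentiableAt (by simp)).hasFDerivAt
  set J : F →L[ℝ] F := H ∘L (ContinuousLinearMap.id ℝ F + qa ∘L fderiv ℝ v a) with hJ
  set q' := fderiv ℝ w (ψ a) with hq'
  have hJa : ∀ y, J y = H (y + qa (fderiv ℝ v a y)) := fun y => rfl
  have hE0 : ∀ y, q' (J y) = H' (fderiv ℝ v a y - q y) := fun y => by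
    rw [hJa]; exact hE.self_of_nhds y
  have hD2 : ∀ x y, fderiv ℝ (fderiv ℝ w) (ψ a) (J x) (J y) =
      H' (fderiv ℝ (fderiv ℝ v) a x y) - q' (H (qa (fderiv ℝ (fderiv ℝ v) a x y))) := by
    intro x y
    have h1 : HasFDerivAt (fun X => fderiv ℝ v X y)
        ((fderiv ℝ (fderiv ℝ v) a).flip y) a := by
      have := hv2.clm_apply (hasFDerivAt_const y a)
      simpa using this
    have h2 : HasFDerivAt (fun X => H (y + qa (fderiv ℝ v X y)))
        (H ∘L (qa ∘L ((fderiv ℝ (fderiv ℝ v) a).flip y))) a :=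
      H.hasFDerivAt.comp a ((qa.hasFDerivAt.comp a h1).const_add y)
    have h3 : HasFDerivAt (fun X => fderiv ℝ w (ψ X)) ((fderiv ℝ (fderiv ℝ w) (ψ a)) ∘L J) a :=
      hw2.comp a (hψD a hv1.self_of_nhds)
    have h4 := h3.clm_apply h2
    have h5 : HasFDerivAt (fun X => H' (fderiv ℝ v X y - q y))
        (H' ∘L ((fderiv ℝ (fderiv ℝ v) a).flip y)) a :=
      H'.hasFDerivAt.comp a (h1.sub_const (q y))
    have h6 := h5.congr_of_eventuallyEq (hE.mono fun X hX => hX y)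
    have h7 := h4.unique h6
    have h8 := congrArg (fun T : F →L[ℝ] V => T x) h7
    simp only [ContinuousLinearMap.comp_apply, add_apply,
      ContinuousLinearMap.flip_apply] at h8
    rw [hJa y]
    rw [← h8]
    abel
  have hginv : ginv q' = J ∘L (ginv (fderiv ℝ v a)) ∘L (ContinuousLinearMap.adjoint J) := by
    refine ginv_conj _ _ _ fun x y => ?_
    rw [hE0, hE0, hJa, hJa]
    exact hR.isom x y (fderiv ℝ v a x) (fderiv ℝ v a y)
  show mt b (fderiv ℝ (fderiv ℝ w) (ψ a)) (ginv q') = _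
  rw [hginv, mt_conj]
  simp_rw [hD2]
  rw [Finset.sum_sub_distrib, ← map_sum, ← map_sum, ← map_sum, ← map_sum]
  rfl

end Crest.Agent.R234.Grot_842
end
end

-- ▼ part R234/Grot7_842
section

/-!
# Row 234, node GROT (helper842), part 7: rotation of a minimal graph to its tangent plane

`grot`: a smooth `v` with `v 0 = 0` and small derivatives on `ball 0 1`; there are a frame `π', ρ'`
tangent to the graph at the centre and a smooth `w` on all of `Euc m` with `w 0 = 0`, `Dw 0 = 0`,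
`‖D^j w‖ ≤ C κ`, with the same graph over the `15/16` ball, comparable heights; `Msys v = 0` on
`ball 0 1` implies `Msys w = 0` on `ball 0 (7/8)`.
-/

set_option autoImplicit false
set_option linter.unusedSectionVars false

open Set Metric Filter Topology
open scoped ContDiff NNReal RealInnerProductSpace
open Crest.GeometryTopology.Submanifold

noncomputable section

namespace Crest.Agent.R234.Grot_842

open Crest.Agent.R234.Ell1_3 Crest.Agent.R234.Main_456

/-- the data of a rotation: `ψ` = base coordinate change, `w` the new graph function. -/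
structure Rot {m n : ℕ} (q : Euc m →L[ℝ] Euc n) (H : Euc m →L[ℝ] Euc m)
    (H' : Euc n →L[ℝ] Euc n) (K : ℕ) (C κ : ℝ) (v w : Euc m → Euc n) : Prop where
  rt : Rt q H H'
  q_le : ‖q‖ ≤ κ
  smooth : ContDiff ℝ ∞ w
  zero : w 0 = 0
  dzero : fderiv ℝ w 0 = 0
  bound : ∀ j, 1 ≤ j → j ≤ K + 1 → ∀ y, ‖iteratedFDeriv ℝ j w y‖ ≤ C * κ
  bound0 : ∀ y, ‖w y‖ ≤ C * κ * ‖y‖
  graph : ∀ a ∈ closedBall (0 : Euc m) (15 / 16),
    w (H (a + ContinuousLinearMap.adjoint q (v a))) = H' (v a - q a)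
  surj : ∀ y ∈ ball (0 : Euc m) (7 / 8), ∃ a ∈ ball (0 : Euc m) (15 / 16),
    H (a + ContinuousLinearMap.adjoint q (v a)) = y

theorem exists_rot (m n K : ℕ) : ∃ C : ℝ, 1 ≤ C ∧ ∀ (v : Euc m → Euc n) (κ : ℝ), 0 ≤ κ →
    C * κ ≤ 1 → ContDiffOn ℝ ∞ v (ball 0 1) → v 0 = 0 →
    (∀ j, 1 ≤ j → j ≤ K + 1 → ∀ x ∈ ball (0 : Euc m) 1, ‖iteratedFDeriv ℝ j v x‖ ≤ κ) →
    ∃ (H : Euc m →L[ℝ] Euc m) (H' : Euc n →L[ℝ] Euc n) (w : Euc m → Euc n),
      Rot (fderiv ℝ v 0) H H' K C κ v w := by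
  obtain ⟨χ, hχ, hχ1, hχs, hχ0, hχle, hχc, hχb⟩ := exists_cut (Euc m) (15 / 16) (by norm_num)
    (by norm_num)
  obtain ⟨C1, hC1, hb1⟩ := hχb (K + 1)
  obtain ⟨C2, hC2, hcore⟩ := rot_core (Euc m) (Euc n) K
  set A : ℝ := 2 ^ (K + 1) * C1 with hA
  have hA1 : 1 ≤ A := by
    have h2 : (1:ℝ) ≤ 2 ^ (K + 1) := one_le_pow₀ (by norm_num)
    calc (1:ℝ) = 1 * 1 := by norm_num
      _ ≤ _ := by rw [hA]; gcongr
  have hC4 : 1 ≤ 8 * C2 * A := by
    calc (1:ℝ) ≤ 8 * 1 * 1 := by norm_num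
      _ ≤ _ := by gcongr
  refine ⟨8 * C2 * A, hC4, ?_⟩
  intro v κ hκ0 hκ hv hv0 hb
  obtain ⟨H, H', hR⟩ := exists_Rt (fderiv ℝ v 0)
  have hκ8 : A * κ ≤ 1 / 8 := by
    have : 8 * 1 * A * κ ≤ 1 := le_trans (by gcongr) hκ
    linarith
  have hκA : κ ≤ A * κ := by nlinarith
  -- bounds of order 0
  have hdv : ∀ x ∈ ball (0 : Euc m) 1, DifferentiableAt ℝ v x := fun x hx =>
    (hv.contDiffAt (isOpen_ball.mem_nhds hx)).differentiableAt (by simp)
  have hfd : ∀ x ∈ ball (0 : Euc m) 1, ‖fderiv ℝ v x‖ ≤ κ := fun x hx => by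
    have h := hb 1 le_rfl (by omega) x hx
    rwa [← norm_iteratedFDeriv_fderiv, norm_iteratedFDeriv_zero] at h
  have h0m : (0 : Euc m) ∈ ball (0 : Euc m) 1 := mem_ball_self one_pos
  have hv1 : ∀ x ∈ ball (0 : Euc m) 1, ‖v x‖ ≤ κ := by
    intro x hx
    have h := Convex.norm_image_sub_le_of_norm_hasFDerivWithin_le (𝕜 := ℝ)
      (f := v) (f' := fun z => fderiv ℝ v z) (s := ball (0 : Euc m) 1) (C := κ)
      (fun z hz => (hdv z hz).hasFDerivAt.hasFDerivWithinAt) hfd (convex_ball _ _) h0m hx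
    rw [hv0, sub_zero, sub_zero] at h
    have hx1 : ‖x‖ ≤ 1 := (mem_ball_zero_iff.1 hx).le
    calc ‖v x‖ ≤ κ * ‖x‖ := h
      _ ≤ κ * 1 := by gcongr
      _ = κ := mul_one _
  have hb' : ∀ i ≤ K + 1, ∀ x ∈ ball (0 : Euc m) 1, ‖iteratedFDeriv ℝ i v x‖ ≤ κ := by
    intro i hi x hx
    rcases Nat.eq_zero_or_pos i with h | h
    · subst h; rw [norm_iteratedFDeriv_zero]; exact hv1 x hx
    · exact hb i h hi x hx
  set vt : Euc m → Euc n := fun x => χ x • v x with hvt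
  have hvts : ContDiff ℝ ∞ vt := cut_smooth hχ hχs hv
  have hvtb := cut_bound hχ hχs hC1 hb1 hκ0 hv hb'
  have hvt_eq : ∀ x ∈ closedBall (0 : Euc m) (15 / 16), vt x = v x := fun x hx => by
    simp [hvt, hχ1 x hx]
  have hvt0 : vt 0 = 0 := by simp [hvt, hv0]
  have hnear0 : vt =ᶠ[𝓝 (0 : Euc m)] v := by
    filter_upwards [ball_mem_nhds (0 : Euc m) (show (0:ℝ) < 15 / 16 by norm_num)] with x hx
    exact hvt_eq x (ball_subset_closedBall hx)
  have hvtq : fderiv ℝ vt 0 = fderiv ℝ v 0 := hnear0.fderiv_eq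
  obtain ⟨φ, hφ, h1, h2, h3, h4, h5, h6, h7, h8⟩ := hcore vt (fderiv ℝ v 0) H H' (A * κ)
    (by positivity) (hκ8.trans (by norm_num)) hvts hvt0 hvtq hR
    (fun j hj hj' x => hvtb j hj' x)
  have hCA : C2 * (A * κ) ≤ 8 * C2 * A * κ := by
    have : 0 ≤ C2 * (A * κ) := by positivity
    calc C2 * (A * κ) ≤ 8 * (C2 * (A * κ)) := by linarith
      _ = _ := by ring
  refine ⟨H, H', fun y => H' (vt (φ y) - fderiv ℝ v 0 (φ y)), hR, hfd 0 h0m, h5, ?_, h6, ?_, ?_,
    ?_, ?_⟩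
  · simp [h3, hvt0]
  · intro j hj hj' y
    exact (h7 j hj hj' y).trans hCA
  · intro y
    refine (h8 y).trans ?_
    have : 4 * (A * κ) ≤ 8 * C2 * A * κ := by
      calc 4 * (A * κ) ≤ 8 * 1 * A * κ := by
            have : 0 ≤ A * κ := by positivity
            linarith
        _ ≤ _ := by gcongr
    gcongr
  · intro a ha
    have e := h2 a
    rw [hvt_eq a ha] at e
    simp only [e, hvt_eq a ha]
  · intro y hy
    have hy' : ‖y‖ < 7 / 8 := mem_ball_zero_iff.1 hy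
    set a := φ y with ha
    have e1 : H (a + ContinuousLinearMap.adjoint (fderiv ℝ v 0) (vt a)) = y := h1 y
    -- a is close to y
    have hq : ‖fderiv ℝ v 0‖ ≤ A * κ := (hfd 0 h0m).trans hκA
    have e2 : ‖vt a‖ ≤ A * κ * ‖a‖ := by
      have h := Convex.norm_image_sub_le_of_norm_hasFDerivWithin_le (𝕜 := ℝ)
        (f := vt) (f' := fun z => fderiv ℝ vt z) (s := univ) (C := A * κ)
        (fun z _ => ((hvts.differentiable (by simp)) z).hasFDerivAt.hasFDerivWithinAt)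
        (fun z _ => by
          have h := hvtb 1 (by omega) z
          rwa [← norm_iteratedFDeriv_fderiv, norm_iteratedFDeriv_zero] at h)
        convex_univ (mem_univ 0) (mem_univ a)
      rwa [hvt0, sub_zero, sub_zero] at h
    have e3 : ‖a‖ ≤ ‖y‖ + (1 / 32) * ‖a‖ := by
      have e4 : a = y - (H a - a) - H (ContinuousLinearMap.adjoint (fderiv ℝ v 0) (vt a)) := by
        rw [← e1, map_add]; abel
      have e5 : ‖H a - a‖ ≤ (1 / 64) * ‖a‖ := by
        refine (hR.near a).trans ?_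
        have : ‖fderiv ℝ v 0‖ ^ 2 ≤ (1 / 8) ^ 2 := by
          have := hq.trans hκ8
          gcongr
        have h9 : ((1:ℝ) / 8) ^ 2 = 1 / 64 := by norm_num
        rw [h9] at this
        gcongr
      have e6 : ‖H (ContinuousLinearMap.adjoint (fderiv ℝ v 0) (vt a))‖ ≤ (1 / 64) * ‖a‖ := by
        refine (hR.le _).trans ((ContinuousLinearMap.le_opNorm _ _).trans ?_)
        rw [LinearIsometryEquiv.norm_map]
        calc ‖fderiv ℝ v 0‖ * ‖vt a‖ ≤ (1 / 8) * (A * κ * ‖a‖) := by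
              have := hq.trans hκ8
              gcongr
          _ ≤ (1 / 8) * (1 / 8 * ‖a‖) := by gcongr
          _ = (1 / 64) * ‖a‖ := by ring
      calc ‖a‖ = ‖y - (H a - a) - H (ContinuousLinearMap.adjoint (fderiv ℝ v 0) (vt a))‖ := by
            rw [← e4]
        _ ≤ ‖y‖ + ‖H a - a‖ + ‖H (ContinuousLinearMap.adjoint (fderiv ℝ v 0) (vt a))‖ :=
            (norm_sub_le _ _).trans (add_le_add (norm_sub_le _ _) le_rfl)
        _ ≤ ‖y‖ + (1 / 64) * ‖a‖ + (1 / 64) * ‖a‖ := by gcongr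
        _ = _ := by ring
    have ha1 : ‖a‖ < 15 / 16 := by linarith
    refine ⟨a, mem_ball_zero_iff.2 ha1, ?_⟩
    rw [← hvt_eq a (mem_closedBall_zero_iff.2 ha1.le)]
    exact e1

end Crest.Agent.R234.Grot_842
end
end

-- ▼ part R234/Grot8_842

/-!
# Row 234, node GROT (helper842), part 8: scaling, heights, frame level statements
-/

set_option autoImplicit false
set_option linter.unusedSectionVars false

open Set Metric Filter Topology
open scoped ContDiff NNReal RealInnerProductSpace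
open Crest.GeometryTopology.Submanifold

noncomputable section

namespace Crest.Agent.R234.Grot_842

open Crest.Agent.R234.Ell1_3 Crest.Agent.R234.Main_456

/-! ### scaling -/

section Scale

variable {m n k : ℕ}

/-- `u` at scale `t` -/
def sc (t : ℝ) (u : Euc m → Euc n) : Euc m → Euc n := fun x => t⁻¹ • u (t • x)

theorem sc_apply (t : ℝ) (u : Euc m → Euc n) (x : Euc m) : sc t u x = t⁻¹ • u (t • x) := rfl



theorem sc_contDiff {t : ℝ} {u : Euc m → Euc n} (hu : ContDiff ℝ ∞ u) : ContDiff ℝ ∞ (sc t u) :=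
  (hu.comp (contDiff_const_smul t)).const_smul t⁻¹

/-- derivatives of the rescaled function -/
theorem iter_comp_smul {E G : Type} [NormedAddCommGroup E] [NormedSpace ℝ E]
    [NormedAddCommGroup G] [NormedSpace ℝ G] (t : ℝ) {f : E → G} {s : Set E} (hs : IsOpen s)
    (hf : ContDiffOn ℝ ∞ f s) (j : ℕ) {x : E} (hx : t • x ∈ s) :
    ‖iteratedFDeriv ℝ j (fun x => f (t • x)) x‖ ≤ ‖iteratedFDeriv ℝ j f (t • x)‖ * |t| ^ j := by
  let g : E →L[ℝ] E := t • ContinuousLinearMap.id ℝ E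
  have hg : ∀ y, g y = t • y := fun y => rfl
  have hs' : IsOpen (g ⁻¹' s) := hs.preimage g.continuous
  have h := g.iteratedFDerivWithin_comp_right (f := f) (n := ∞) hf hs.uniqueDiffOn
    hs'.uniqueDiffOn (x := x) hx (i := j) (by exact_mod_cast le_top)
  rw [iteratedFDerivWithin_of_isOpen j hs' hx, hg, iteratedFDerivWithin_of_isOpen j hs hx] at h
  have e : (f ∘ g) = fun x => f (t • x) := rfl
  rw [e] at h
  rw [h]
  refine (ContinuousMultilinearMap.norm_compContinuousLinearMap_le _ _).trans ?_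
  rw [Finset.prod_const, Finset.card_univ, Fintype.card_fin]
  have h1 : ‖g‖ ≤ |t| := by
    refine g.opNorm_le_bound (abs_nonneg _) fun y => ?_
    rw [hg, norm_smul, Real.norm_eq_abs]
  gcongr

theorem iter_sc {t R : ℝ} (ht : 0 < t) {u : Euc m → Euc n}
    (hu : ContDiffOn ℝ ∞ u (ball 0 (t * R))) {j : ℕ} (hj : 1 ≤ j) {x : Euc m}
    (hx : x ∈ ball (0 : Euc m) R) :
    ‖iteratedFDeriv ℝ j (sc t u) x‖ ≤ t ^ (j - 1) * ‖iteratedFDeriv ℝ j u (t • x)‖ := by
  have hx' : t • x ∈ ball (0 : Euc m) (t * R) := by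
    rw [mem_ball_zero_iff] at hx ⊢
    rw [norm_smul, Real.norm_of_nonneg ht.le]
    exact mul_lt_mul_of_pos_left hx ht
  have h1 : ContDiffOn ℝ ∞ (fun x => u (t • x)) (ball (0 : Euc m) R) := by
    refine ContDiffOn.comp hu (contDiff_const_smul t).contDiffOn ?_
    intro y hy
    rw [mem_ball_zero_iff] at hy ⊢
    rw [norm_smul, Real.norm_of_nonneg ht.le]
    exact mul_lt_mul_of_pos_left hy ht
  have h2 : iteratedFDeriv ℝ j (sc t u) x = t⁻¹ • iteratedFDeriv ℝ j (fun x => u (t • x)) x :=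
    iteratedFDeriv_const_smul_apply (a := t⁻¹) (f := fun x => u (t • x))
      ((h1.contDiffAt (isOpen_ball.mem_nhds hx)).of_le (by exact_mod_cast le_top))
  rw [h2, norm_smul, norm_inv, Real.norm_of_nonneg ht.le]
  have h3 := iter_comp_smul t isOpen_ball hu j hx'
  rw [abs_of_pos ht] at h3
  calc t⁻¹ * ‖iteratedFDeriv ℝ j (fun x => u (t • x)) x‖
      ≤ t⁻¹ * (‖iteratedFDeriv ℝ j u (t • x)‖ * t ^ j) := by gcongr
    _ = t ^ (j - 1) * ‖iteratedFDeriv ℝ j u (t • x)‖ := by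
        obtain ⟨i, rfl⟩ : ∃ i, j = i + 1 := ⟨j - 1, by omega⟩
        rw [Nat.add_sub_cancel, pow_succ]; field_simp

theorem fderiv_sc {t : ℝ} (ht : t ≠ 0) (u : Euc m → Euc n) (x : Euc m) :
    fderiv ℝ (sc t u) x = fderiv ℝ u (t • x) := by
  unfold sc
  have h1 : fderiv ℝ (fun x => t⁻¹ • u (t • x)) x = t⁻¹ • fderiv ℝ (fun x => u (t • x)) x :=
    congrFun (fderiv_const_smul_field (R := ℝ) (f := fun x => u (t • x)) t⁻¹) x
  rw [h1, fderiv_comp_smul, smul_smul, inv_mul_cancel₀ ht, one_smul]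

theorem Msys_sc {t : ℝ} (ht : t ≠ 0) (u : Euc m → Euc n) (x : Euc m) :
    Msys (sc t u) x = t • Msys u (t • x) := by
  unfold Msys
  have h1 : fderiv ℝ (sc t u) = fun x => fderiv ℝ u (t • x) := funext (fderiv_sc ht u)
  rw [h1]
  have h2 : fderiv ℝ (fun x => fderiv ℝ u (t • x)) x = t • fderiv ℝ (fderiv ℝ u) (t • x) :=
    fderiv_comp_smul (f := fderiv ℝ u) (x := x) t
  rw [h2, Finset.smul_sum]
  rfl

end Scale

/-! ### the rotated graph in a frame -/

section

variable {m n k : ℕ} {π : Euc k →L[ℝ] Euc m} {ρ : Euc k →L[ℝ] Euc n}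

theorem fr_norm_sq (hf : Frame π ρ) (z : Euc k) : ‖π z‖ ^ 2 + ‖ρ z‖ ^ 2 = ‖z‖ ^ 2 := by
  have h := congrArg (fun w => ⟪w, z⟫) (fr_full hf z)
  simp only [inner_add_left, ContinuousLinearMap.adjoint_inner_left,
    real_inner_self_eq_norm_sq] at h
  exact h

theorem fr_norm_π (hf : Frame π ρ) (z : Euc k) : ‖π z‖ ≤ ‖z‖ := by
  refine (sq_le_sq₀ (norm_nonneg _) (norm_nonneg _)).1 ?_
  rw [← fr_norm_sq hf]; nlinarith [sq_nonneg ‖ρ z‖]

theorem fr_norm_ρ (hf : Frame π ρ) (z : Euc k) : ‖ρ z‖ ≤ ‖z‖ := by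
  refine (sq_le_sq₀ (norm_nonneg _) (norm_nonneg _)).1 ?_
  rw [← fr_norm_sq hf]; nlinarith [sq_nonneg ‖π z‖]

variable {q : Euc m →L[ℝ] Euc n} {H : Euc m →L[ℝ] Euc m} {H' : Euc n →L[ℝ] Euc n}

theorem norm_rπ_sub (hf : Frame π ρ) (h : Rt q H H') (z : Euc k) :
    ‖rπ π ρ q H z - π z‖ ≤ (‖q‖ ^ 2 + ‖q‖) * ‖z‖ := by
  rw [rπ_apply, map_add]
  have e : H (π z) + H (ContinuousLinearMap.adjoint q (ρ z)) - π z =
      (H (π z) - π z) + H (ContinuousLinearMap.adjoint q (ρ z)) := by abel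
  rw [e]
  have h1 := (h.near (π z)).trans (mul_le_mul_of_nonneg_left (fr_norm_π hf z) (by positivity))
  have h2 : ‖H (ContinuousLinearMap.adjoint q (ρ z))‖ ≤ ‖q‖ * ‖z‖ := by
    refine (h.le _).trans ((ContinuousLinearMap.le_opNorm _ _).trans ?_)
    rw [LinearIsometryEquiv.norm_map]
    have := fr_norm_ρ hf z
    gcongr
  calc _ ≤ ‖q‖ ^ 2 * ‖z‖ + ‖q‖ * ‖z‖ := (norm_add_le _ _).trans (add_le_add h1 h2)
    _ = _ := by ring



variable {K : ℕ} {C κ : ℝ} {v w : Euc m → Euc n}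

theorem Rot.frame (hf : Frame π ρ) (h : Rot q H H' K C κ v w) :
    Frame (rπ π ρ q H) (rρ π ρ q H') := frame_rot hf h.rt

/-- the exact relation of the coordinates -/
theorem Rot.hgt_eq (h : Rot q H H' K C κ v w) (z p : Euc k) {r : ℝ} (hr : 0 < r)
    (hp : ‖π (p - z)‖ ≤ 15 / 16 * r) :
    hgt (rπ π ρ q H) (rρ π ρ q H') z r w p = H' (hgt π ρ z r v p) -
      r • (w (H (r⁻¹ • π (p - z) + ContinuousLinearMap.adjoint q (v (r⁻¹ • π (p - z)))) +
        H (ContinuousLinearMap.adjoint q (r⁻¹ • hgt π ρ z r v p))) -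
        w (H (r⁻¹ • π (p - z) + ContinuousLinearMap.adjoint q (v (r⁻¹ • π (p - z)))))) := by
  set a : Euc m := r⁻¹ • π (p - z) with ha
  have ha1 : a ∈ closedBall (0 : Euc m) (15 / 16) := by
    rw [mem_closedBall_zero_iff, ha, norm_smul, norm_inv, Real.norm_of_nonneg hr.le]
    rw [inv_mul_le_iff₀ hr]; linarith
  have hg := h.graph a ha1
  have hra : r • a = π (p - z) := by rw [ha, smul_smul, mul_inv_cancel₀ hr.ne', one_smul]
  have hρ : ρ (p - z) = hgt π ρ z r v p + r • v a := by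
    unfold hgt; rw [← ha]; abel
  have e1 : r⁻¹ • rπ π ρ q H (p - z) = H (a + ContinuousLinearMap.adjoint q (v a)) +
      H (ContinuousLinearMap.adjoint q (r⁻¹ • hgt π ρ z r v p)) := by
    rw [rπ_apply, hρ, ← hra]
    simp only [map_add, map_smul, smul_add, smul_smul, inv_mul_cancel₀ hr.ne', one_smul]
    abel
  rw [hg]
  have e0 : hgt (rπ π ρ q H) (rρ π ρ q H') z r w p = rρ π ρ q H' (p - z) -
      r • w (r⁻¹ • rπ π ρ q H (p - z)) := rfl
  rw [e0, e1, rρ_apply, hρ, ← hra]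
  simp only [map_add, map_sub, map_smul, smul_sub]
  abel

theorem Rot.lip (h : Rot q H H' K C κ v w) (x y : Euc m) : ‖w x - w y‖ ≤ C * κ * ‖x - y‖ := by
  refine Convex.norm_image_sub_le_of_norm_hasFDerivWithin_le (𝕜 := ℝ)
    (f := w) (f' := fun z => fderiv ℝ w z) (s := univ) (C := C * κ)
    (fun z _ => ((h.smooth.differentiable (by simp)) z).hasFDerivAt.hasFDerivWithinAt)
    (fun z _ => ?_) convex_univ (mem_univ y) (mem_univ x)
  have h1 := h.bound 1 le_rfl (by omega) z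
  rwa [← norm_iteratedFDeriv_fderiv, norm_iteratedFDeriv_zero] at h1

/-- **comparison of heights** -/
theorem Rot.hgt_sub (h : Rot q H H' K C κ v w) (hC : 1 ≤ C) (z p : Euc k) {r : ℝ}
    (hr : 0 < r) (hp : ‖π (p - z)‖ ≤ 15 / 16 * r) :
    ‖hgt (rπ π ρ q H) (rρ π ρ q H') z r w p - hgt π ρ z r v p‖ ≤
      2 * C * κ ^ 2 * ‖hgt π ρ z r v p‖ := by
  have hκ0 : 0 ≤ κ := (norm_nonneg _).trans h.q_le
  rw [h.hgt_eq z p hr hp]
  set t := hgt π ρ z r v p with ht
  set X := H (r⁻¹ • π (p - z) + ContinuousLinearMap.adjoint q (v (r⁻¹ • π (p - z)))) with hX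
  set Y := H (ContinuousLinearMap.adjoint q (r⁻¹ • t)) with hY
  have h1 : ‖Y‖ ≤ κ * (r⁻¹ * ‖t‖) := by
    refine (h.rt.le _).trans ((ContinuousLinearMap.le_opNorm _ _).trans ?_)
    rw [LinearIsometryEquiv.norm_map, norm_smul, norm_inv, Real.norm_of_nonneg hr.le]
    have := h.q_le
    gcongr
  have h2 : ‖w (X + Y) - w X‖ ≤ C * κ * (κ * (r⁻¹ * ‖t‖)) := by
    refine (h.lip _ _).trans ?_
    rw [add_sub_cancel_left]
    gcongr
  have h3 : ‖H' t - t‖ ≤ κ ^ 2 * ‖t‖ := by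
    refine (h.rt.near' t).trans ?_
    have := h.q_le
    gcongr
  have e : H' t - r • (w (X + Y) - w X) - t = (H' t - t) - r • (w (X + Y) - w X) := by abel
  rw [e]
  calc ‖(H' t - t) - r • (w (X + Y) - w X)‖ ≤ κ ^ 2 * ‖t‖ + r * (C * κ * (κ * (r⁻¹ * ‖t‖))) := by
        refine (norm_sub_le _ _).trans (add_le_add h3 ?_)
        rw [norm_smul, Real.norm_of_nonneg hr.le]
        gcongr
    _ = κ ^ 2 * ‖t‖ + C * κ ^ 2 * ‖t‖ := by field_simp
    _ ≤ C * κ ^ 2 * ‖t‖ + C * κ ^ 2 * ‖t‖ := by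
        have : 1 * (κ ^ 2 * ‖t‖) ≤ C * (κ ^ 2 * ‖t‖) := by gcongr
        linarith
    _ = _ := by ring

theorem two_le_inf : (2 : WithTop ℕ∞) ≤ ∞ := by
  have h : ((2 : ℕ∞) : WithTop ℕ∞) ≤ ((⊤ : ℕ∞) : WithTop ℕ∞) := WithTop.coe_le_coe.2 le_top
  exact h

/-- **the rotated graph is minimal** -/
theorem Rot.msys (h : Rot q H H' K C κ v w) (hv : ContDiffOn ℝ ∞ v (ball 0 1))
    (hM : ∀ x ∈ ball (0 : Euc m) 1, Msys v x = 0) : ∀ y ∈ ball (0 : Euc m) (7 / 8), Msys w y = 0 := by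
  intro y hy
  obtain ⟨a, ha, rfl⟩ := h.surj y hy
  have ha1 : a ∈ ball (0 : Euc m) 1 := by
    rw [mem_ball_zero_iff] at ha ⊢; linarith
  have h1 := ms_rot (EuclideanSpace.basisFun (Fin m) ℝ) h.rt (v := v) (w := w) (a := a)
    ((hv.contDiffAt (isOpen_ball.mem_nhds ha1)).of_le two_le_inf)
    (h.smooth.contDiffAt.of_le two_le_inf) ?_
  · rw [ms_std, ms_std, hM a ha1] at h1
    simpa using h1
  · filter_upwards [isOpen_ball.mem_nhds ha] with x hx
    exact h.graph x (ball_subset_closedBall hx)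

end

end Crest.Agent.R234.Grot_842
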