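import Mathlib
import Crest.Agent.R234.Stp0_518
import Crest.Agent.R234.Stp1_518
import Crest.Agent.R234.F10v_188

-- ▼ part R234/F10s_188
section

/-!
# Row 234, (F8) StartV, real-variable part (helper188)

If `log I` grows by at most `G` on a window of length `n · 4 q`, there is a piece of length `4 q` on
which it grows by at most `G / n ≤ 1`; on this piece the energy is at most `C I / q` by the mean value
theorem and the monotonicity of `e`, hence `N ≤ 13 / q` at its midpoint.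
-/

set_option autoImplicit false

open Set Filter
open scoped Topology

namespace Crest.Agent.R234.F10s_188

/-- pigeonhole. -/
theorem pigeon (F : ℝ → ℝ) {t q G : ℝ} {n : ℕ} (hn : 0 < n) (h : F (t + n * q) - F t ≤ G) :
    ∃ i < n, F (t + (i + 1 : ℕ) * q) - F (t + (i : ℕ) * q) ≤ G / n := by
  by_contra hcon
  push Not at hcon
  have hn0 : (0:ℝ) < n := by exact_mod_cast hn
  have key : ∀ j ≤ n, (j : ℝ) * (G / n) ≤ F (t + j * q) - F t := by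
    intro j
    induction j with
    | zero => intro _; simp
    | succ j ih =>
      intro hj
      have h1 := ih (by omega)
      have h2 := hcon j (by omega)
      push_cast at h2 ⊢
      linarith
  have hlt : ∀ j, 0 < j → j ≤ n → (j : ℝ) * (G / n) < F (t + j * q) - F t := by
    intro j hj0 hj
    obtain ⟨i, rfl⟩ : ∃ i, j = i + 1 := ⟨j - 1, by omega⟩
    have h1 := key i (by omega)
    have h2 := hcon i (by omega)
    push_cast at h2 ⊢
    linarith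
  have h3 := hlt n hn le_rfl
  have h4 : (n : ℝ) * (G / n) = G := by field_simp
  linarith

/-- numeric part. -/
theorem arith {It Il el eξ Iξ I3 I' bl El q δ w : ℝ} (hq : 0 < q) (hq1 : q ≤ 1) (hIt : 0 < It)
    (hIl0 : 0 < Il) (hIl : It ≤ 1.05 * Il) (hIl' : Il ≤ 2.9 * It) (hI3 : I3 ≤ 2.9 * It)
    (hIξ : Iξ ≤ 2.9 * It) (hIξ0 : 0 < Iξ) (hslope : I' = (I3 - Il) / q)
    (h1 : 2 * eξ ≤ I' + (δ * Iξ + w)) (hel : el ≤ 1.05 * eξ) (hE : El = el / 2 + bl)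
    (hb : bl ≤ δ * Il + w) (hδ : δ ≤ 1 / 100) (hw : w ≤ It / 100) :
    2 * El / Il ≤ 13 / q := by
  have a1 : δ * Iξ ≤ 1 / 100 * (2.9 * It) := mul_le_mul hδ hIξ hIξ0.le (by norm_num)
  have a2 : δ * Il ≤ 1 / 100 * (2.9 * It) := mul_le_mul hδ hIl' hIl0.le (by norm_num)
  have a3 : I' ≤ 2.9 * It / q := by
    rw [hslope]
    apply div_le_div_of_nonneg_right _ hq.le
    linarith
  have a4 : It ≤ It / q := by
    rw [le_div_iff₀ hq]
    exact mul_le_of_le_one_right hIt.le hq1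
  have a5 : 2.9 * It / q = 2.9 * (It / q) := by ring
  rw [a5] at a3
  set J := It / q with hJ
  have a6 : 2 * eξ ≤ 2.94 * J := by linarith
  have a7 : 2 * El ≤ 2 * J := by linarith
  rw [div_le_iff₀ hIl0]
  have a8 : J ≤ 1.05 * Il / q := div_le_div_of_nonneg_right hIl hq.le
  have a9 : 13 / q * Il = 13 * (Il / q) := by ring
  have a10 : 1.05 * Il / q = 1.05 * (Il / q) := by ring
  have a11 : 0 < Il / q := by positivity
  rw [a9]
  linarith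

theorem exps {x : ℝ} (hx : x ≤ 4 / 100) : Real.exp x ≤ 1.05 := by
  have h1 : Real.exp x ≤ Real.exp (4 / 100) := Real.exp_le_exp.2 hx
  have h2 : 1 - 4 / 100 ≤ Real.exp (-(4 / 100)) := by
    have := Real.add_one_le_exp (-(4 / 100 : ℝ))
    linarith
  have h3 : Real.exp (4 / 100) * Real.exp (-(4 / 100)) = 1 := by
    rw [← Real.exp_add]; simp
  have h4 := Real.exp_pos (4 / 100 : ℝ)
  nlinarith

theorem exp_two : (3.05 : ℝ) ≤ Real.exp 2 := by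
  have h4 : Real.exp 2 = Real.exp 1 * Real.exp 1 := by rw [← Real.exp_add]; norm_num
  have h5 := Real.exp_one_gt_d9
  rw [h4]; nlinarith

/-- bounds of `I` on a piece where it grows by at most a factor `e`. -/
theorem bounds {I : ℝ → ℝ} {t q m : ℝ} (hm : 0 ≤ m) (hmq : m * q ≤ 1 / 100)
    (hIt : 0 < I t) (hI4 : 0 < I (t + 4 * q))
    (hgrow : Real.log (I (t + 4 * q)) ≤ Real.log (I t) + 1)
    (hIm : ∀ l l', t ≤ l → l ≤ l' → l' ≤ t + 4 * q → I l ≤ Real.exp (m * (l' - l)) * I l')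
    {s : ℝ} (hs : t ≤ s) (hs' : s ≤ t + 4 * q) :
    0 < I s ∧ I s ≤ 2.9 * I t ∧ I t ≤ 1.05 * I s := by
  have hgrow' : I (t + 4 * q) ≤ 2.72 * I t := by
    have h1 : I (t + 4 * q) ≤ Real.exp (Real.log (I t) + 1) := by
      rw [← Real.log_le_iff_le_exp hI4]; exact hgrow
    rw [Real.exp_add, Real.exp_log hIt] at h1
    have h1' : I (t + 4 * q) ≤ Real.exp 1 * I t := by linarith [mul_comm (I t) (Real.exp 1)]
    have hexp1 : Real.exp 1 ≤ 2.72 := by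
      have := Real.exp_one_lt_d9
      linarith
    exact h1'.trans (mul_le_mul_of_nonneg_right hexp1 hIt.le)
  have e1 : m * (t + 4 * q - s) ≤ 4 / 100 := by
    have : m * (t + 4 * q - s) ≤ m * (4 * q) := mul_le_mul_of_nonneg_left (by linarith) hm
    linarith
  have e2 : m * (s - t) ≤ 4 / 100 := by
    have : m * (s - t) ≤ m * (4 * q) := mul_le_mul_of_nonneg_left (by linarith) hm
    linarith
  have h1 := hIm s (t + 4 * q) hs hs' le_rfl
  have h2 := hIm t s le_rfl hs hs'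
  have h3 : 0 < I s := by
    by_contra h
    push Not at h
    have := mul_nonpos_of_nonneg_of_nonpos (Real.exp_pos (m * (s - t))).le h
    linarith
  refine ⟨h3, ?_, h2.trans (mul_le_mul_of_nonneg_right (exps e2) h3.le)⟩
  have h4 := h1.trans (mul_le_mul_of_nonneg_right (exps e1) hI4.le)
  linarith

/-- the state in the middle of a piece of length `4 q` where `I` grows by at most a factor `e`. -/
theorem mid {I E e b : ℝ → ℝ} {t q δ w m : ℝ} (hm : 0 ≤ m) (hq : 0 < q) (hmq : m * q ≤ 1 / 100)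
    (hq1 : q ≤ 1) (hIt : 0 < I t) (hI4 : 0 < I (t + 4 * q))
    (he : ∀ l ∈ Icc (t + 2 * q) (t + 3 * q), 0 ≤ e l)
    (hE : E (t + 2 * q) = e (t + 2 * q) / 2 + b (t + 2 * q))
    (hdI : ∀ l ∈ Icc (t + 2 * q) (t + 3 * q), ∃ I', HasDerivAt I I' l ∧
      |I' - 2 * e l| ≤ δ * I l + w)
    (hb : b (t + 2 * q) ≤ δ * I (t + 2 * q) + w)
    (hgrow : Real.log (I (t + 4 * q)) ≤ Real.log (I t) + 1)
    (hIm : ∀ l l', t ≤ l → l ≤ l' → l' ≤ t + 4 * q → I l ≤ Real.exp (m * (l' - l)) * I l')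
    (hem : ∀ l l', t ≤ l → l ≤ l' → l' ≤ t + 3 * q → e l ≤ Real.exp (m * (l' - l)) * e l')
    (hδ : δ ≤ 1 / 100) (hw : w ≤ I t / 100) :
    2 * E (t + 2 * q) / I (t + 2 * q) ≤ 13 / q ∧
      ∀ s, t ≤ s → s ≤ t + 4 * q → Real.log (I s) ≤ Real.log (I (t + 2 * q)) + 2 := by
  have hB : ∀ s, t ≤ s → s ≤ t + 4 * q → 0 < I s ∧ I s ≤ 2.9 * I t ∧ I t ≤ 1.05 * I s :=
    fun s hs hs' => bounds hm hmq hIt hI4 hgrow hIm hs hs'
  obtain ⟨hIl0, hIl', hIl⟩ := hB (t + 2 * q) (by linarith) (by linarith)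
  refine ⟨?_, ?_⟩
  · -- mean value theorem on `[t + 2 q, t + 3 q]`
    have hder := hdI
    obtain ⟨ξ, hξ, hξ'⟩ := exists_hasDerivAt_eq_slope I (fun l => deriv I l)
      (show t + 2 * q < t + 3 * q by linarith)
      (fun l hl => (hder l hl).choose_spec.1.continuousAt.continuousWithinAt)
      (fun l hl => (hder l ⟨hl.1.le, hl.2.le⟩).choose_spec.1.differentiableAt.hasDerivAt)
    have hξ1 := hξ.1
    have hξ2 := hξ.2
    obtain ⟨I', hI', hI''⟩ := hder ξ ⟨hξ1.le, hξ2.le⟩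
    have hd : deriv I ξ = I' := hI'.deriv
    have hslope : I' = (I (t + 3 * q) - I (t + 2 * q)) / q := by
      rw [← hd, hξ']
      congr 1
      ring
    have hI3 := (hB (t + 3 * q) (by linarith) (by linarith)).2.1
    obtain ⟨hIξ0, hIξ, -⟩ := hB ξ (by linarith) (by linarith)
    have h1 : 2 * e ξ ≤ I' + (δ * I ξ + w) := by
      have := (abs_le.mp hI'').1
      linarith
    have heξ := he ξ ⟨hξ1.le, hξ2.le⟩
    have e3 : m * (ξ - (t + 2 * q)) ≤ 4 / 100 := by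
      have : m * (ξ - (t + 2 * q)) ≤ m * (1 * q) :=
        mul_le_mul_of_nonneg_left (by linarith) hm
      linarith
    have h6 : e (t + 2 * q) ≤ 1.05 * e ξ :=
      (hem (t + 2 * q) ξ (by linarith) hξ1.le hξ2.le).trans
        (mul_le_mul_of_nonneg_right (exps e3) heξ)
    exact arith hq hq1 hIt hIl0 hIl hIl' hI3 hIξ hIξ0 hslope h1 h6 hE hb hδ hw
  · intro s hs hs'
    obtain ⟨h0, h1, -⟩ := hB s hs hs'
    have h2 : I s ≤ Real.exp 2 * I (t + 2 * q) := by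
      have h3 := mul_le_mul_of_nonneg_right exp_two hIl0.le
      linarith
    have h3 := Real.log_le_log h0 h2
    rw [Real.log_mul (Real.exp_pos _).ne' hIl0.ne', Real.log_exp] at h3
    linarith

/-- **the search for a state**: on the window `[t₀, t₀ + n · 4 q]` with growth of `log I` at most
`n`, there is `l` with `N ≤ 13 / q` and bounded growth on `[l - 2 q, l + 2 q]`. The errors at `l` are
relative to `I c`, any `c ≥ l + q`. -/
theorem find {I E e b : ℝ → ℝ} {t₀ q δ θ m : ℝ} {n : ℕ} (hn : 0 < n) (hm : 0 ≤ m) (hq : 0 < q)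
    (hmq : m * q ≤ 1 / 100) (hq1 : q ≤ 1)
    (hI : ∀ l, t₀ ≤ l → l ≤ t₀ + n * (4 * q) → 0 < I l)
    (hgrow : Real.log (I (t₀ + n * (4 * q))) - Real.log (I t₀) ≤ n)
    (he : ∀ l, t₀ ≤ l → l ≤ t₀ + n * (4 * q) → 0 ≤ e l)
    (hE : ∀ l, t₀ ≤ l → l ≤ t₀ + n * (4 * q) → E l = e l / 2 + b l)
    (hdI : ∀ l c, t₀ ≤ l → l + q ≤ c → c ≤ t₀ + n * (4 * q) → ∃ I', HasDerivAt I I' l ∧
      |I' - 2 * e l| ≤ δ * I l + θ * I c)
    (hb : ∀ l c, t₀ ≤ l → l + q ≤ c → c ≤ t₀ + n * (4 * q) → b l ≤ δ * I l + θ * I c)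
    (hIm : ∀ l l', t₀ ≤ l → l ≤ l' → l' ≤ t₀ + n * (4 * q) →
      I l ≤ Real.exp (m * (l' - l)) * I l')
    (hem : ∀ l l', t₀ ≤ l → l ≤ l' → l' ≤ t₀ + n * (4 * q) →
      e l ≤ Real.exp (m * (l' - l)) * e l')
    (hδ : δ ≤ 1 / 100) (hθ : θ ≤ 1 / 300) :
    ∃ l, t₀ + 2 * q ≤ l ∧ l + 2 * q ≤ t₀ + n * (4 * q) ∧ 2 * E l / I l ≤ 13 / q ∧
      ∀ s, l - 2 * q ≤ s → s ≤ l + 2 * q → Real.log (I s) ≤ Real.log (I l) + 2 := by
  obtain ⟨i, hi, h1⟩ := pigeon (fun l => Real.log (I l)) (t := t₀) (q := 4 * q) (G := n) hn hgrow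
  have hn0 : (0:ℝ) < n := by exact_mod_cast hn
  rw [div_self hn0.ne'] at h1
  set t := t₀ + (i : ℕ) * (4 * q) with ht
  have ht4 : t₀ + ((i + 1 : ℕ) : ℝ) * (4 * q) = t + 4 * q := by
    rw [ht]; push_cast; ring
  rw [ht4] at h1
  have hi0 : (0:ℝ) ≤ i := Nat.cast_nonneg i
  have hi1 : ((i : ℕ) : ℝ) + 1 ≤ n := by exact_mod_cast hi
  have hq4 : 0 < 4 * q := by positivity
  have hlo : t₀ ≤ t := by
    have : 0 ≤ (i : ℝ) * (4 * q) := by positivity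
    linarith
  have hhi : t + 4 * q ≤ t₀ + n * (4 * q) := by
    have : ((i : ℝ) + 1) * (4 * q) ≤ n * (4 * q) := mul_le_mul_of_nonneg_right hi1 hq4.le
    rw [ht]
    linarith
  have hIt := hI t hlo (by linarith)
  have hI4 := hI (t + 4 * q) (by linarith) hhi
  have hgr : Real.log (I (t + 4 * q)) ≤ Real.log (I t) + 1 := by linarith
  have hB := bounds (I := I) (t := t) (q := q) hm hmq hIt hI4 hgr
    (fun l l' h h' h'' => hIm l l' (by linarith) h' (by linarith)) (s := t + 4 * q) (by linarith)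
    le_rfl
  have hw : θ * I (t + 4 * q) ≤ I t / 100 := by
    have h2 : θ * I (t + 4 * q) ≤ 1 / 300 * (2.9 * I t) :=
      mul_le_mul hθ hB.2.1 hI4.le (by norm_num)
    linarith
  obtain ⟨g1, g2⟩ := mid (I := I) (E := E) (e := e) (b := b) (t := t) (q := q) (δ := δ)
    (w := θ * I (t + 4 * q)) hm hq hmq hq1 hIt hI4
    (fun l hl => he l (by linarith [hl.1]) (by linarith [hl.2]))
    (hE _ (by linarith) (by linarith))
    (fun l hl => hdI l (t + 4 * q) (by linarith [hl.1]) (by linarith [hl.2]) hhi)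
    (hb _ _ (by linarith) (by linarith) hhi) hgr
    (fun l l' h h' h'' => hIm l l' (by linarith) h' (by linarith))
    (fun l l' h h' h'' => hem l l' (by linarith) h' (by linarith)) hδ hw
  exact ⟨t + 2 * q, by linarith, by linarith, g1, fun s hs hs' => g2 s (by linarith) (by linarith)⟩

end Crest.Agent.R234.F10s_188
end

-- ▼ part R234/F10t_188
section

/-!
# Row 234, (F8) START, part t (helper188): real-variable content of one START step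

`M'` = the reference selected at the level `l₁ ∈ [l - w, l]`, `w = L ^ (-1/2)`, where `L` is the `Λ`
of the old reference at `l`. Either `Λ` has grown by the factor `6/5` on `[l₁ - w, l₁]` (new
pre-state), or there is a level `l'` there with frequency at most `20 L ^ (3/2)` and growth at most `2`
on the collar `[l' - 2 q, l' + 2 q]`, `q ≥ (4/5) L ^ (-3/2)` (state).
-/

set_option autoImplicit false

namespace Crest.Agent.R234.F10t_188

open Real Crest.Agent.R234.Stp_518 Filter Topology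

/-- number of pieces of the window. -/
noncomputable def nn (L : ℝ) : ℕ := ⌈3 / 10 * L⌉₊

/-- length of the window. -/
noncomputable def ww (L : ℝ) : ℝ := L ^ (-(1 / 2) : ℝ)

/-- a quarter of a piece. -/
noncomputable def qq (L : ℝ) : ℝ := ww L / (4 * nn L)

/-- the functionals of one reference on the window `[t₀, t₁]`, error relative to the value at a level
higher by `q`. -/
structure GLw (I e E b : ℝ → ℝ) (t₀ t₁ q δ θ m : ℝ) : Prop where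
  pos : ∀ l, t₀ ≤ l → l ≤ t₁ → 0 < I l
  he : ∀ l, t₀ ≤ l → l ≤ t₁ → 0 ≤ e l
  hE : ∀ l, t₀ ≤ l → l ≤ t₁ → E l = e l / 2 + b l
  hdI : ∀ l c, t₀ ≤ l → l + q ≤ c → c ≤ t₁ → ∃ I', HasDerivAt I I' l ∧
    |I' - 2 * e l| ≤ δ * I l + θ * I c
  hb : ∀ l c, t₀ ≤ l → l + q ≤ c → c ≤ t₁ → b l ≤ δ * I l + θ * I c
  hIm : ∀ l l', t₀ ≤ l → l ≤ l' → l' ≤ t₁ → I l ≤ exp (m * (l' - l)) * I l'
  hem : ∀ l l', t₀ ≤ l → l ≤ l' → l' ≤ t₁ → e l ≤ exp (m * (l' - l)) * e l'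

theorem ww_pos {L : ℝ} (hL : 0 < L) : 0 < ww L := rpow_pos_of_pos hL _

theorem ww_le_one {L : ℝ} (hL : 1 ≤ L) : ww L ≤ 1 := rpow_le_one_of_one_le_of_nonpos hL (by norm_num)

theorem nn_lo (L : ℝ) : 3 / 10 * L ≤ nn L := Nat.le_ceil _

theorem nn_hi {L : ℝ} (hL : 100 ≤ L) : (nn L : ℝ) ≤ 31 / 100 * L := by
  have h := Nat.ceil_lt_add_one (show (0:ℝ) ≤ 3 / 10 * L by linarith)
  unfold nn
  linarith

theorem nn_pos {L : ℝ} (hL : 0 < L) : 0 < nn L := Nat.ceil_pos.2 (by linarith)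

theorem qq_pos {L : ℝ} (hL : 0 < L) : 0 < qq L := by
  have h1 := ww_pos hL
  have h2 : (0:ℝ) < nn L := by exact_mod_cast nn_pos hL
  unfold qq; positivity

theorem nn_qq {L : ℝ} (hL : 0 < L) : nn L * (4 * qq L) = ww L := by
  have h2 : (nn L : ℝ) ≠ 0 := by exact_mod_cast (nn_pos hL).ne'
  unfold qq; field_simp

theorem qq_lo {L : ℝ} (hL : 100 ≤ L) : 4 / 5 * L ^ (-(3 / 2) : ℝ) ≤ qq L := by
  have hL0 : 0 < L := by linarith
  have h1 := ww_pos hL0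
  have h2 : (0:ℝ) < nn L := by exact_mod_cast nn_pos hL0
  have h3 := nn_hi hL
  have h4 : L ^ (-(3 / 2) : ℝ) = ww L / L := by
    unfold ww
    rw [show (-(3 / 2) : ℝ) = -(1 / 2) + (-1) by norm_num, rpow_add hL0, rpow_neg_one]
    rfl
  unfold qq
  rw [h4, mul_div_assoc', div_le_div_iff₀ hL0 (by positivity)]
  nlinarith

theorem qq_hi {L : ℝ} (hL : 100 ≤ L) : qq L ≤ 1 / L := by
  have hL0 : 0 < L := by linarith
  have h1 := ww_pos hL0
  have h1' := ww_le_one (show 1 ≤ L by linarith)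
  have h2 : (0:ℝ) < nn L := by exact_mod_cast nn_pos hL0
  have h3 := nn_lo L
  unfold qq
  rw [div_le_div_iff₀ (by positivity) hL0]
  nlinarith

theorem inv_qq {L : ℝ} (hL : 100 ≤ L) : 13 / qq L ≤ 20 * L ^ (3 / 2 : ℝ) := by
  have hL0 : 0 < L := by linarith
  have h1 := qq_lo hL
  have h2 : 0 < L ^ (3 / 2 : ℝ) := rpow_pos_of_pos hL0 _
  have h3 : L ^ (-(3 / 2) : ℝ) * L ^ (3 / 2 : ℝ) = 1 := by
    rw [← rpow_add hL0]; norm_num
  rw [div_le_iff₀ (qq_pos hL0)]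
  have h4 : 20 * L ^ (3 / 2 : ℝ) * (4 / 5 * L ^ (-(3 / 2) : ℝ)) = 16 := by
    linear_combination 16 * h3
  have h5 : 20 * L ^ (3 / 2 : ℝ) * (4 / 5 * L ^ (-(3 / 2) : ℝ)) ≤ 20 * L ^ (3 / 2 : ℝ) * qq L :=
    mul_le_mul_of_nonneg_left h1 (by positivity)
  linarith

/-- **one START step, real-variable part.** -/
theorem step_case (m : ℝ) (hm : 0 ≤ m) : ∃ L₂ : ℝ, 100 ≤ L₂ ∧ ∀ L, L₂ ≤ L →
    ∀ (I e E b : ℝ → ℝ) (l l₁ δ θ : ℝ), l - ww L ≤ l₁ → l₁ ≤ l → δ ≤ 1 / 100 → θ ≤ 1 / 300 →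
      log (I l₁) ≤ 2 * l - 99 / 100 * L →
      GLw I e E b (l₁ - ww L) l₁ (qq L) δ θ m →
      6 / 5 * L ≤ lam I (l₁ - ww L) ∨
      ∃ l', l₁ - ww L + 2 * qq L ≤ l' ∧ l' + 2 * qq L ≤ l₁ ∧ fr E I l' ≤ 20 * L ^ (3 / 2 : ℝ) ∧
        (∀ s, l' - 2 * qq L ≤ s → s ≤ l' + 2 * qq L → log (I s) ≤ log (I l') + 2) ∧
        49 / 50 * L ≤ lam I l' ∧ lam I l' ≤ 61 / 50 * L := by
  refine ⟨max (1000 * (m + 4)) 1000, by norm_num, ?_⟩
  intro L hL I e E b l l₁ δ θ hl1 hl2 hδ hθ htop hg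
  have hL1000 : 1000 ≤ L := (le_max_right _ _).trans hL
  have hLm : 1000 * (m + 4) ≤ L := (le_max_left _ _).trans hL
  have hL0 : 0 < L := by linarith
  have hw := ww_pos hL0
  have hw1 := ww_le_one (show 1 ≤ L by linarith)
  have hq := qq_pos hL0
  have hq1 := qq_hi (show 100 ≤ L by linarith)
  have hqL : qq L * L ≤ 1 := by
    rw [le_div_iff₀ hL0] at hq1; exact hq1
  have hn := nn_pos hL0
  have hn1 := nn_lo L
  have hnq := nn_qq hL0
  set t₀ := l₁ - ww L with ht₀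
  have htop' : t₀ + nn L * (4 * qq L) = l₁ := by rw [hnq, ht₀]; ring
  rcases le_or_gt (6 / 5 * L) (lam I t₀) with h1 | h1
  · exact Or.inl h1
  right
  have h2 : log (I t₀) = 2 * t₀ - lam I t₀ := by unfold lam; ring
  have hgrow : log (I (t₀ + nn L * (4 * qq L))) - log (I t₀) ≤ nn L := by
    rw [htop', h2]
    linarith
  have hmq : m * qq L ≤ 1 / 100 := by
    have h3 : (m * qq L) * L ≤ 1 / 100 * L := by
      have : m * (qq L * L) ≤ m * 1 := mul_le_mul_of_nonneg_left hqL hm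
      nlinarith
    exact le_of_mul_le_mul_right h3 hL0
  have hq1' : qq L ≤ 1 := hq1.trans (by rw [div_le_one hL0]; linarith)
  obtain ⟨l', g1, g2, g3, g4⟩ := F10s_188.find (I := I) (E := E) (e := e) (b := b) (t₀ := t₀)
    (q := qq L) (δ := δ) (θ := θ) (m := m) (n := nn L) hn hm hq hmq hq1'
    (fun s hs hs' => hg.pos s hs (by rwa [htop'] at hs')) hgrow
    (fun s hs hs' => hg.he s hs (by rwa [htop'] at hs'))
    (fun s hs hs' => hg.hE s hs (by rwa [htop'] at hs'))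
    (fun s c hs hs' hs'' => hg.hdI s c hs hs' (by rwa [htop'] at hs''))
    (fun s c hs hs' hs'' => hg.hb s c hs hs' (by rwa [htop'] at hs''))
    (fun s s' hs hs' hs'' => hg.hIm s s' hs hs' (by rwa [htop'] at hs''))
    (fun s s' hs hs' hs'' => hg.hem s s' hs hs' (by rwa [htop'] at hs'')) hδ hθ
  rw [htop'] at g2
  refine ⟨l', g1, g2, ?_, g4, ?_, ?_⟩
  · exact g3.trans (inv_qq (by linarith))
  · have h5 := hg.hIm l' l₁ (by linarith) (by linarith) le_rfl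
    have hp := hg.pos l' (by linarith) (by linarith)
    have hp1 := hg.pos l₁ (by linarith) le_rfl
    have h6 := log_le_log hp h5
    rw [log_mul (exp_pos _).ne' hp1.ne', log_exp] at h6
    have h7 : m * (l₁ - l') ≤ m * 1 := mul_le_mul_of_nonneg_left (by linarith) hm
    unfold lam
    linarith
  · have h5 := hg.hIm t₀ l' le_rfl (by linarith) (by linarith)
    have hp := hg.pos l' (by linarith) (by linarith)
    have hp1 := hg.pos t₀ le_rfl (by linarith)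
    have h6 := log_le_log hp1 h5
    rw [log_mul (exp_pos _).ne' hp.ne', log_exp] at h6
    have h7 : m * (l' - t₀) ≤ m * 1 := mul_le_mul_of_nonneg_left (by linarith) hm
    unfold lam at h1 ⊢
    linarith

/-- the collar. -/
noncomputable def eps (L : ℝ) : ℝ := ww L / 8

theorem eps_pos {L : ℝ} (hL : 0 < L) : 0 < eps L := by have := ww_pos hL; unfold eps; positivity

theorem eps_le {L : ℝ} (hL : 100 ≤ L) : eps L ≤ 1 / 80 := by
  have hL0 : 0 < L := by linarith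
  have h1 : ww L ≤ 1 / 10 := by
    unfold ww
    rw [rpow_neg hL0.le, inv_le_comm₀ (rpow_pos_of_pos hL0 _) (by norm_num)]
    have h2 : (1 / 10 : ℝ)⁻¹ = (100:ℝ) ^ (1 / 2 : ℝ) := by
      rw [← sqrt_eq_rpow, show (100:ℝ) = 10 ^ 2 by norm_num, sqrt_sq (by norm_num)]; norm_num
    rw [h2]
    exact rpow_le_rpow (by norm_num) hL (by norm_num)
  unfold eps; linarith

/-- powers of the collar are subexponential. -/
theorem poly (C : ℝ) (p : ℕ) {η : ℝ} (hη : 0 < η) : ∃ L₂ : ℝ, 100 ≤ L₂ ∧ ∀ L, L₂ ≤ L →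
    C / eps L ^ p ≤ exp (η * L) := by
  have h1 : Tendsto (fun L : ℝ => (|C| * (8 / η) ^ p) * ((η * L) ^ p * exp (-(η * L)))) atTop
      (𝓝 ((|C| * (8 / η) ^ p) * 0)) := by
    refine Tendsto.const_mul _ ?_
    exact (Real.tendsto_pow_mul_exp_neg_atTop_nhds_zero p).comp
      (tendsto_id.const_mul_atTop hη)
  rw [mul_zero] at h1
  obtain ⟨L₂, hL₂⟩ := (h1.eventually (gt_mem_nhds (show (0:ℝ) < 1 by norm_num))).exists_forall_of_atTop
  refine ⟨max L₂ 100, le_max_right _ _, ?_⟩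
  intro L hL
  have h2 := hL₂ L ((le_max_left _ _).trans hL)
  have hL1 : 100 ≤ L := (le_max_right _ _).trans hL
  have hL0 : 0 < L := by linarith
  have h3 : (8 * L)⁻¹ ≤ eps L := by
    unfold eps ww
    have h4 : L⁻¹ ≤ L ^ (-(1 / 2) : ℝ) := by
      rw [← rpow_neg_one]
      exact rpow_le_rpow_of_exponent_le (by linarith) (by norm_num)
    rw [mul_inv]
    linarith
  have h5 : |C| / eps L ^ p ≤ |C| * (8 * L) ^ p := by
    rw [div_eq_mul_inv, ← inv_pow]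
    refine mul_le_mul_of_nonneg_left (pow_le_pow_left₀ (inv_nonneg.2 (eps_pos hL0).le) ?_ p)
      (abs_nonneg _)
    rw [inv_le_comm₀ (eps_pos hL0) (by positivity)]
    exact h3
  have h6 : (|C| * (8 / η) ^ p) * ((η * L) ^ p * exp (-(η * L))) =
      |C| * (8 * L) ^ p * exp (-(η * L)) := by
    have : (8 / η) ^ p * (η * L) ^ p = (8 * L) ^ p := by
      rw [← mul_pow]; congr 1; field_simp
    rw [← this]; ring
  rw [h6, exp_neg, ← div_eq_mul_inv, div_lt_one (exp_pos _)] at h2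
  calc C / eps L ^ p ≤ |C| / eps L ^ p :=
        div_le_div_of_nonneg_right (le_abs_self C) (pow_nonneg (eps_pos hL0).le p)
    _ ≤ |C| * (8 * L) ^ p := h5
    _ ≤ exp (η * L) := h2.le

end Crest.Agent.R234.F10t_188
end

-- ▼ part R234/F10w_188

/-!
# Row 234, (F8) START, part w (helper188): DEFINITIONS (pre-states) and the literal open inputs

* `Bk N U D Q x ε₀ Λ M l` : the reference `M` (518's `Mo`) with the flat package of its block, class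
  `MG` on the ball of radius `e^l`.
* `Pst c V x M l` : pre-state of the start (exactly tangent frame, `M.Lb` = book-keeping `Λ`).
* `SupV`, `UpV`, `LowV`, `PosV`, `MonV`, `RotI` : open V-level inputs of the start.
-/

set_option autoImplicit false
set_option linter.unusedVariables false

open MeasureTheory Filter Topology Set
open scoped ENNReal NNReal ContDiff
open Crest.GeometryTopology.Submanifold Crest.Agent.R234.Vf_884
open Crest.Agent.R234.Main_456 (Frame Msys hgt)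
open Crest.Agent.R234.AS_456 (hp vp)
open Crest.Agent.R234.F10a_188 Crest.Agent.R234.F10b_188
open Crest.Agent.R234.MG_570 (MG)
open Crest.Agent.R234.Top_395 Crest.Agent.R234.Stp_518
open Crest.Agent.R234.Grot_842 (Rt rπ rρ)

noncomputable section

namespace Crest.Agent.R234.F10w_188

variable {m n k : ℕ}

/-- a reference with its block: minimal on the ball of radius `e^l` about `0`. -/
structure Bk (N : ℕ) (U : Set (Euc k)) (D : VarifoldData m k) (Q : ℕ) (x : Euc k) (ε₀ Λ : ℝ)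
    (M : Mo m n k) (l : ℝ) : Prop where
  opn : IsOpen U
  int : IsIntegralVarifoldIn U D
  st : IsStationaryIn U D
  Q1 : 1 ≤ Q
  Th : Th m (VD D) x = (Q : ℝ≥0∞)
  sub : Metric.closedBall x (8 * M.S) ⊆ U
  pack : FlatPack D x Q M.S ε₀ Λ M.π M.ρ
  κ0 : 0 ≤ M.κ
  mg : MG N M.κ (Real.exp (l - M.lb)) M.u
  lo : M.lb - 3 ≤ l
  hi : l ≤ M.lb - 1 / 16

theorem Bk.mono {N : ℕ} {U : Set (Euc k)} {D : VarifoldData m k} {Q : ℕ} {x : Euc k} {ε₀ Λ : ℝ}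
    {M : Mo m n k} {l l' : ℝ} (h : Bk N U D Q x ε₀ Λ M l) (h1 : M.lb - 3 ≤ l') (h2 : l' ≤ l) :
    Bk N U D Q x ε₀ Λ M l' :=
  ⟨h.opn, h.int, h.st, h.Q1, h.Th, h.sub, h.pack, h.κ0,
    h.mg.mono le_rfl (Real.exp_le_exp.2 (by linarith)), h1, h2.trans h.hi⟩

/-- **sup of the heights over the smaller cylinder** (crude bound `ε/8 e^l` and slope `≤ ε/64` at
the centre given). -/
def SupV : Prop := ∀ (m n k N Q : ℕ) (Λ : ℝ), 1 ≤ m → 2 ≤ N → ∃ κ₁ ε₁ C : ℝ, 0 < κ₁ ∧ 0 < ε₁ ∧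
  0 < C ∧ ∃ pw : ℕ, ∀ (U : Set (Euc k)) (D : VarifoldData m k) (x : Euc k) (ε₀ : ℝ) (M : Mo m n k)
    (l : ℝ), Bk N U D Q x ε₀ Λ M l → M.κ ≤ κ₁ → ε₀ ≤ ε₁ → ∀ ε : ℝ, 0 < ε → ε ≤ 1 / 4 →
      64 * ‖fderiv ℝ M.u 0‖ ≤ ε →
      (∀ᵐ p ∂(VD D), ‖M.π (p.1 - x)‖ ≤ Real.exp l → ‖M.ρ (p.1 - x)‖ ≤ M.S →
        ‖hgt M.π M.ρ x M.S M.u p.1‖ ≤ ε / 8 * Real.exp l) →
      ∀ᵐ p ∂(VD D), ‖M.π (p.1 - x)‖ ≤ Real.exp (l - ε) → ‖M.ρ (p.1 - x)‖ ≤ M.S →
        ‖hgt M.π M.ρ x M.S M.u p.1‖ ^ 2 ≤ C / ε ^ pw * M.I x (VD D) l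

/-- **two references in the same frame**: `I_{M'}(l₁) ≤ C ε^{-2} (I_M(l) + τ² S²)`, `l₁ ≤ l - ε`. -/
def UpV : Prop := ∀ (m n k N Q : ℕ) (Λ : ℝ), 1 ≤ m → 2 ≤ N → ∃ κ₁ ε₁ C : ℝ, 0 < κ₁ ∧ 0 < ε₁ ∧
  0 < C ∧ ∀ (U : Set (Euc k)) (D : VarifoldData m k) (x : Euc k) (ε₀ : ℝ) (M M' : Mo m n k)
    (l l₁ ε τ : ℝ), Bk N U D Q x ε₀ Λ M l → M.κ ≤ κ₁ → ε₀ ≤ ε₁ → M'.π = M.π → M'.ρ = M.ρ →
      M'.lb = M.lb → MG N κ₁ 0 M'.u → 0 < ε → ε ≤ 1 / 4 → l₁ ≤ l - ε → M.lb - 3 ≤ l₁ →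
      (∀ X, ‖M'.u X - M.u X‖ ≤ τ) → (∀ X, ‖fderiv ℝ M'.u X - fderiv ℝ M.u X‖ ≤ τ) →
      10000 * τ ≤ ε →
      M'.I x (VD D) l₁ ≤ C / ε ^ 2 * (M.I x (VD D) l + τ ^ 2 * M.S ^ 2)

/-- **lower bound of `I`** by the heights in a smaller ball (easy half of the comparison). -/
def LowV : Prop := ∀ (m n k N : ℕ) (T : ℝ), 1 ≤ m → 2 ≤ N → ∃ κ₁ C : ℝ, 0 < κ₁ ∧ 0 < C ∧
  ∀ (V : Measure (Euc k × L k)) (x : Euc k) (M : Mo m n k) (l : ℝ), Frame M.π M.ρ → 0 ≤ M.κ →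
    M.κ ≤ κ₁ → MG N M.κ 0 M.u → M.lb - T ≤ l → l ≤ M.lb →
    V (Metric.closedBall x (8 * M.S) ×ˢ univ) < ⊤ →
    Real.exp (-((m + 2) * (l - 3))) *
      ∫ p in Prod.fst ⁻¹' (Metric.ball x (Real.exp (l - 3))), ‖hgt M.π M.ρ x M.S M.u p.1‖ ^ 2 ∂V ≤
        C * (Real.exp (-2 * l) * M.I x V l)

/-- **positivity** at singular points. -/
def PosV : Prop := ∀ (m n k N Q : ℕ) (Λ : ℝ), 1 ≤ m → 2 ≤ N → ∃ κ₁ ε₁ : ℝ, 0 < κ₁ ∧ 0 < ε₁ ∧
  ∀ (U : Set (Euc k)) (D : VarifoldData m k) (x : Euc k) (ε₀ : ℝ) (M : Mo m n k) (l : ℝ),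
    Bk N U D Q x ε₀ Λ M l → M.κ ≤ κ₁ → ε₀ ≤ ε₁ → x ∈ singularSet m k U D → 0 < M.I x (VD D) l

/-- **monotonicity** of `e^{ml} I` and `e^{ml} e`. -/
def MonV : Prop := ∀ (m n k N Q : ℕ) (Λ : ℝ), 3 ≤ m → 2 ≤ N → ∃ κ₁ ε₁ : ℝ, 0 < κ₁ ∧ 0 < ε₁ ∧
  ∀ (U : Set (Euc k)) (D : VarifoldData m k) (x : Euc k) (ε₀ : ℝ) (M : Mo m n k) (l : ℝ),
    Bk N U D Q x ε₀ Λ M l → M.κ ≤ κ₁ → ε₀ ≤ ε₁ → ∀ l₁ l₂ : ℝ, l₁ ≤ l₂ → l₂ ≤ l →
      M.I x (VD D) l₁ ≤ Real.exp (m * (l₂ - l₁)) * M.I x (VD D) l₂ ∧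
      M.e x (VD D) l₁ ≤ Real.exp (m * (l₂ - l₁)) * M.e x (VD D) l₂ ∧ 0 ≤ M.e x (VD D) l₁

/-- **the same surface in two frames** (`159`): `I_{M'}(l - ε) ≤ C ε^{-2} I_M(l)`. -/
def RotI : Prop := ∀ (m n k N Q : ℕ) (Λ : ℝ), 1 ≤ m → 2 ≤ N → ∃ κ₁ ε₁ C : ℝ, 0 < κ₁ ∧ 0 < ε₁ ∧
  0 < C ∧ ∀ (U : Set (Euc k)) (D : VarifoldData m k) (x : Euc k) (ε₀ : ℝ) (M M' : Mo m n k)
    (l ε τ : ℝ) (q : Euc m →L[ℝ] Euc n) (H : Euc m →L[ℝ] Euc m) (H' : Euc n →L[ℝ] Euc n),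
    Bk N U D Q x ε₀ Λ M l → M.κ ≤ κ₁ → ε₀ ≤ ε₁ → Rt q H H' → M'.π = rπ M.π M.ρ q H →
      M'.ρ = rρ M.π M.ρ q H' → M'.lb = M.lb → FlatPack D x Q M.S ε₀ Λ M'.π M'.ρ →
      MG N κ₁ 0 M'.u → 0 < ε → ε ≤ 1 / 4 → 1000 * ‖q‖ ≤ ε → 64 * ‖fderiv ℝ M.u 0‖ ≤ ε →
      64 * ‖fderiv ℝ M'.u 0‖ ≤ ε → M.lb - 3 ≤ l - ε →
      (∀ a ∈ Metric.ball (0 : Euc m) (Real.exp (l - ε / 2 - M.lb)),
        M'.u (H (a + ContinuousLinearMap.adjoint q (M.u a))) = H' (M.u a - q a)) →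
      (∀ X, ‖M'.u X - M.u X‖ ≤ τ) → (∀ X, ‖fderiv ℝ M'.u X - fderiv ℝ M.u X‖ ≤ τ) →
      10000 * τ ≤ ε →
      (∀ᵐ p ∂(VD D), ‖M.π (p.1 - x)‖ ≤ Real.exp l → ‖M.ρ (p.1 - x)‖ ≤ M.S →
        ‖hgt M.π M.ρ x M.S M.u p.1‖ ≤ ε / 8 * Real.exp l) →
      M'.I x (VD D) (l - ε) ≤ C / ε ^ 2 * M.I x (VD D) l

/-- **pre-states** of the start. -/
structure Pst (c : Cn) (V : Measure (Euc k × L k)) (x : Euc k) (M : Mo m n k) (l : ℝ) : Prop where
  cls : Cls c M (Real.exp (l - M.lb)) 0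
  I_le : M.I x V l ≤ Real.exp (2 * l - M.Lb)
  /-- crude bound of the heights: cone condition outside the ball of radius `e^l` -/
  cone : ∀ᵐ p ∂V, ‖M.π (p.1 - x)‖ ≤ 3 * M.S → ‖M.ρ (p.1 - x)‖ ≤ M.S →
    ‖hgt M.π M.ρ x M.S M.u p.1‖ ≤ M.S * Real.exp (-(M.Lb / 4)) +
      1 / 8 * max 0 (‖M.π (p.1 - x)‖ - Real.exp l)

/-- the plane chosen at the radius `r`. -/
def plS (m : ℕ) {k : ℕ} (V : Measure (Euc k × L k)) (x : Euc k) (om r : ℝ) : L k :=
  open Classical in if h : ∃ P ∈ G m k, pex m V P x r ≤ om then h.choose else 0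

/-- the pre-world at the starting level `S`. -/
def preW (c : Cn) (V : Measure (Euc k × L k)) (x : Euc k) (om S : ℝ) : Pre (Mo m n k) where
  pre := fun M l => M.lb = S + 1 / 8 ∧ Pst c V x M l
  L := fun M _ => M.Lb
  κ := fun M _ => M.κ + ‖hp M.π - plS m V x om (8 * Real.exp (S + 1 / 8))‖

end Crest.Agent.R234.F10w_188
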