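import Crest.Agent.R234.F10y_188
import Crest.Agent.R234.Rs7_182

-- ▼ part R234/F10z_188
section

/-!
# Row 234, (F8) START, part z (helper188): the window

`window` : below the level of the selection either `Λ` of the selected reference has grown by the
factor `6/5`, or there is a level with frequency `≤ 20 L^{3/2}` and bounded growth.
-/

set_option autoImplicit false
set_option linter.unusedVariables false

open MeasureTheory Filter Topology Set
open scoped ENNReal NNReal ContDiff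
open Crest.GeometryTopology.Submanifold Crest.Agent.R234.Vf_884
open Crest.Agent.R234.Main_456 (Frame Msys hgt NearQ)
open Crest.Agent.R234.MG_570 (MG SelP3)
open Crest.Agent.R234.Top_395 Crest.Agent.R234.Stp_518
open Crest.Agent.R234.F10t_188 Crest.Agent.R234.F10w_188 Crest.Agent.R234.F10y_188

noncomputable section

namespace Crest.Agent.R234.F10z_188

variable {m n k : ℕ}

theorem FlatPack.mono {D : VarifoldData m k} {x : Euc k} {Q : ℕ} {t ε ε' Λ : ℝ}
    {π : Euc k →L[ℝ] Euc m} {ρ : Euc k →L[ℝ] Euc n} (h : FlatPack D x Q t ε Λ π ρ) (ht : 0 < t)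
    (hε : ε ≤ ε') : FlatPack D x Q t ε' Λ π ρ where
  frame := h.frame
  sup := fun z hz hzb => (h.sup z hz hzb).trans (mul_le_mul_of_nonneg_right hε ht.le)
  supae := by
    filter_upwards [h.supae] with p hp h1
    exact (hp h1).trans (mul_le_mul_of_nonneg_right hε ht.le)
  near := by
    obtain ⟨h1, h2, h3⟩ := h.near
    refine ⟨h1, h2.trans ?_, h3.trans ?_⟩
    · exact mul_le_mul_of_nonneg_right hε (by positivity)
    · gcongr
  cyl := fun A hA => F10u_188.cylStat_mono (h.cyl A hA) hε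
  mass_le := h.mass_le
  le_mass := h.le_mass

theorem Bk.mono_eps {N : ℕ} {U : Set (Euc k)} {D : VarifoldData m k} {Q : ℕ} {x : Euc k}
    {ε₀ ε₁ Λ : ℝ} {M : Mo m n k} {l : ℝ} (h : Bk N U D Q x ε₀ Λ M l) (hε : ε₀ ≤ ε₁) :
    Bk N U D Q x ε₁ Λ M l :=
  ⟨h.opn, h.int, h.st, h.Q1, h.Th, h.sub, FlatPack.mono h.pack M.S_pos hε, h.κ0, h.mg, h.lo, h.hi⟩

/-- the selected reference is again a reference with its block. -/
theorem Sel1.bk {N Ks : ℕ} {U : Set (Euc k)} {D : VarifoldData m k} {Q : ℕ} {x : Euc k}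
    {ε₀ Λ : ℝ} {M M' : Mo m n k} {l L s : ℝ} (h : Sel1 N Ks D x M M' l L)
    (hB : Bk N U D Q x ε₀ Λ M l) (he : 0 ≤ eps L) (h1 : M.lb - 3 ≤ s) (h2 : s ≤ l - 2 * eps L) :
    Bk N U D Q x ε₀ Λ M' s := by
  have hS : M'.S = M.S := by unfold Mo.S; rw [h.hlb]
  refine ⟨hB.opn, hB.int, hB.st, hB.Q1, hB.Th, ?_, ?_, ?_, ?_, ?_, ?_⟩
  · rw [hS]; exact hB.sub
  · rw [hS, h.hπ, h.hρ]; exact hB.pack
  · rw [h.hκ]; exact add_nonneg hB.κ0 (Real.exp_pos _).le
  · exact h.mg.mono le_rfl (Real.exp_le_exp.2 (by rw [h.hlb]; linarith))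
  · rw [h.hlb]; exact h1
  · rw [h.hlb]; linarith [hB.hi]

theorem Sel1.du {N Ks : ℕ} {D : VarifoldData m k} {x : Euc k} {M M' : Mo m n k} {l L : ℝ}
    (h : Sel1 N Ks D x M M' l L) (hdu : ‖fderiv ℝ M.u 0‖ ≤ 0) :
    ‖fderiv ℝ M'.u 0‖ ≤ Real.exp (-(399 / 800 * L)) := by
  have h1 := h.d1 0
  have h2 := norm_le_norm_add_norm_sub' (fderiv ℝ M'.u 0) (fderiv ℝ M.u 0)
  linarith

theorem exp_small {a x c L : ℝ} (hx : 0 < x) (h : a / x ≤ Real.exp (c * L)) :
    a * Real.exp (-(c * L)) ≤ x := by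
  rw [div_le_iff₀ hx] at h
  have h1 := Real.exp_pos (-(c * L))
  calc a * Real.exp (-(c * L)) ≤ Real.exp (c * L) * x * Real.exp (-(c * L)) := by gcongr
    _ = x * (Real.exp (c * L) * Real.exp (-(c * L))) := by ring
    _ = x := by rw [← Real.exp_add, add_neg_cancel, Real.exp_zero, mul_one]

theorem qq_le_eps {L : ℝ} (hL : 100 ≤ L) : qq L ≤ eps L := by
  have hL0 : 0 < L := by linarith
  have h1 := qq_hi hL
  have h2 : 1 / L ≤ eps L := by
    unfold eps ww
    have h3 : L ^ (-(1 / 2) : ℝ) = L ^ (1 / 2 : ℝ) / L := by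
      rw [← Real.rpow_sub_one hL0.ne']; norm_num
    rw [h3, div_le_iff₀ hL0]
    have h4 : (8 : ℝ) ≤ L ^ (1 / 2 : ℝ) := by
      have h5 : (8 : ℝ) = (64 : ℝ) ^ (1 / 2 : ℝ) := by
        rw [← Real.sqrt_eq_rpow, show (64:ℝ) = 8 ^ 2 by norm_num, Real.sqrt_sq (by norm_num)]
      rw [h5]
      exact Real.rpow_le_rpow (by norm_num) (by linarith) (by norm_num)
    have h6 : L ^ (1 / 2 : ℝ) / L / 8 * L = L ^ (1 / 2 : ℝ) / 8 := by field_simp
    rw [h6]; linarith
  exact h1.trans h2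

theorem inv_qq_le {L : ℝ} (hL : 100 ≤ L) : 1 / qq L ≤ 2 * L ^ 2 := by
  have hL0 : 0 < L := by linarith
  have h1 := inv_qq hL
  have h2 : L ^ (3 / 2 : ℝ) ≤ L ^ 2 := by
    rw [← Real.rpow_natCast L 2]
    exact Real.rpow_le_rpow_of_exponent_le (by linarith) (by norm_num)
  have h3 : 13 / qq L = 13 * (1 / qq L) := by ring
  rw [h3] at h1
  nlinarith [sq_nonneg L]

set_option maxHeartbeats 1000000 in
theorem window (hUp : UpV) (hPos : PosV) (hMon : MonV) (hGL : GLP) (m n Q : ℕ) (hm : 3 ≤ m)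
    (hn : 1 ≤ n) (hQ : 1 ≤ Q) : ∃ N₀ : ℕ, 2 ≤ N₀ ∧ ∀ N : ℕ, N₀ ≤ N → ∀ Λ : ℝ, ∃ κ₁ ε₁ L₂ : ℝ,
      0 < κ₁ ∧ 0 < ε₁ ∧ 100 ≤ L₂ ∧
      ∀ (Ks : ℕ) (U : Set (Euc (m + n))) (D : VarifoldData m (m + n)) (x : Euc (m + n)) (ε₀ : ℝ)
        (M M' : Mo m n (m + n)) (l L : ℝ), Bk N U D Q x ε₀ Λ M l → M.κ ≤ κ₁ → ε₀ ≤ ε₁ →
        L₂ ≤ L → M.lb - 5 / 4 ≤ l → M.I x (VD D) l ≤ Real.exp (2 * l - L) →
        ‖fderiv ℝ M.u 0‖ ≤ 0 → x ∈ singularSet m (m + n) U D → Sel1 N Ks D x M M' l L →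
        (6 / 5 * L ≤ lam (M'.I x (VD D)) (l - 11 * eps L) ∧
          0 < M'.I x (VD D) (l - 11 * eps L)) ∨
        ∃ l', l - 11 * eps L + 2 * qq L ≤ l' ∧ l' + 2 * qq L ≤ l - 3 * eps L ∧
          0 < M'.I x (VD D) l' ∧
          fr (M'.E x (VD D) Q) (M'.I x (VD D)) l' ≤ 20 * L ^ (3 / 2 : ℝ) ∧
          (∀ s, l' - 2 * qq L ≤ s → s ≤ l' + 2 * qq L →
            Real.log (M'.I x (VD D) s) ≤ Real.log (M'.I x (VD D) l') + 2) ∧
          49 / 50 * L ≤ lam (M'.I x (VD D)) l' ∧ lam (M'.I x (VD D)) l' ≤ 61 / 50 * L := by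
  obtain ⟨NG, HG⟩ := hGL m n Q hm hn hQ
  refine ⟨max 2 NG, le_max_left _ _, fun N hN Λ => ?_⟩
  have hN2 : 2 ≤ N := (le_max_left _ _).trans hN
  obtain ⟨C₀, Cδ, hC₀, hCδ, HG⟩ := HG N ((le_max_right _ _).trans hN) 3 Λ
  obtain ⟨κg, εg, Lg, hκg, hεg, HG⟩ := HG 1
  obtain ⟨κu, εu, Cu, hκu, hεu, hCu, HU⟩ := hUp m n (m + n) N Q Λ (by omega) hN2
  obtain ⟨κp, εp, hκp, hεp, HP⟩ := hPos m n (m + n) N Q Λ (by omega) hN2
  obtain ⟨κm, εm, hκm, hεm, HM⟩ := hMon m n (m + n) N Q Λ hm hN2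
  obtain ⟨Ls, hLs, hstep⟩ := step_case m (Nat.cast_nonneg m)
  obtain ⟨κq, hκq⟩ : ∃ κq : ℝ, κq = 1 / (200 * (Cδ + 1)) := ⟨_, rfl⟩
  have hκq0 : 0 < κq := by rw [hκq]; positivity
  obtain ⟨κn, hκn⟩ : ∃ κn : ℝ, κn = min (min κg κu) (min (min κp κm) κq) := ⟨_, rfl⟩
  have hκn0 : 0 < κn := by
    rw [hκn]
    exact lt_min (lt_min hκg hκu) (lt_min (lt_min hκp hκm) hκq0)
  have k1 : κn ≤ κg := by rw [hκn]; exact (min_le_left _ _).trans (min_le_left _ _)
  have k2 : κn ≤ κu := by rw [hκn]; exact (min_le_left _ _).trans (min_le_right _ _)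
  have k3 : κn ≤ κp := by
    rw [hκn]; exact (min_le_right _ _).trans ((min_le_left _ _).trans (min_le_left _ _))
  have k4 : κn ≤ κm := by
    rw [hκn]; exact (min_le_right _ _).trans ((min_le_left _ _).trans (min_le_right _ _))
  have k5 : κn ≤ κq := by rw [hκn]; exact (min_le_right _ _).trans (min_le_right _ _)
  obtain ⟨L1, hL1, p1⟩ := poly (Cu * (1 + Real.exp (5 / 2))) 2 (show (0:ℝ) < 3 / 400 by norm_num)
  obtain ⟨L2, hL2, p2⟩ := poly 10000 1 (show (0:ℝ) < 399 / 800 by norm_num)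
  obtain ⟨L3, hL3, p3⟩ := poly (2 / κn) 0 (show (0:ℝ) < 399 / 800 by norm_num)
  refine ⟨κn / 2, min (min εg εu) (min εp εm),
    max (max (max L1 L2) (max L3 Ls)) (max (2 * |Lg|) 1000),
    by positivity, lt_min (lt_min hεg hεu) (lt_min hεp hεm), ?_, ?_⟩
  · exact hL1.trans (((le_max_left _ _).trans (le_max_left _ _)).trans (le_max_left _ _))
  intro Ks U D x ε₀ M M' l L hB hκ hε hL hl hI hdu hx hsel
  simp only [max_le_iff] at hL
  obtain ⟨⟨⟨l1, l2⟩, l3, l4⟩, l5, l6⟩ := hL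
  simp only [le_min_iff] at hε
  obtain ⟨⟨e1, e2⟩, e3, e4⟩ := hε
  have hL100 : 100 ≤ L := hL1.trans l1
  have hL0 : 0 < L := by linarith
  have he := eps_pos hL0
  have he1 := eps_le hL100
  have q1 := p1 L l1
  have q2 := p2 L l2
  have q3 := p3 L l3
  rw [pow_one] at q2
  rw [pow_zero, div_one] at q3
  have hw8 : ww L = 8 * eps L := by unfold eps; ring
  have hqe := qq_le_eps hL100
  have hq0 := qq_pos hL0
  have hqi := inv_qq_le hL100
  set e := eps L with hedef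
  set q := qq L with hqdef
  set τ := Real.exp (-(399 / 800 * L)) with hτ
  have hτ0 : 0 < τ := Real.exp_pos _
  have hτκ : τ ≤ κn / 2 := by
    have h1 := exp_small (a := 1) (x := κn / 2) (c := 399 / 800) (L := L) (by positivity) (by
      refine le_trans (le_of_eq ?_) q3
      field_simp)
    rwa [one_mul] at h1
  have hτe : 10000 * τ ≤ e := exp_small he q2
  have hS := M.S_pos
  have hlb := hB.hi
  have hκ' : M'.κ ≤ κn := by rw [hsel.hκ]; linarith
  have hκ'0 : 0 ≤ M'.κ := by rw [hsel.hκ]; exact add_nonneg hB.κ0 hτ0.le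
  have hdu' := Sel1.du hsel hdu
  have hlb' : M'.lb = M.lb := hsel.hlb
  have hbk : ∀ s, M.lb - 3 ≤ s → s ≤ l - 2 * e → Bk N U D Q x ε₀ Λ M' s := fun s h1 h2 =>
    Sel1.bk hsel hB he.le h1 h2
  -- upper bound of `I'`
  have hSl : M.S ^ 2 ≤ Real.exp (5 / 2) * Real.exp (2 * l) := by
    unfold Mo.S
    rw [← Real.exp_nat_mul, ← Real.exp_add]
    exact Real.exp_le_exp.2 (by push_cast; linarith)
  have hτ2 : τ ^ 2 = Real.exp (-(399 / 400 * L)) := by
    rw [hτ, ← Real.exp_nat_mul]; congr 1; push_cast; ring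
  have hup : ∀ s, M.lb - 3 ≤ s → s ≤ l - e → M'.I x (VD D) s ≤ Real.exp (2 * l - 99 / 100 * L) := by
    intro s h1 h2
    have h3 := HU U D x ε₀ M M' l s e τ hB (by linarith) e2 hsel.hπ hsel.hρ hsel.hlb
      (hsel.mg.mono (by linarith) (Real.exp_pos _).le) he (by linarith) h2 h1 hsel.d0 hsel.d1 hτe
    refine h3.trans ?_
    have h4 : M.I x (VD D) l ≤ Real.exp (2 * l) * Real.exp (-(399 / 400 * L)) := by
      refine hI.trans ?_
      rw [← Real.exp_add]
      exact Real.exp_le_exp.2 (by linarith)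
    have h5 : τ ^ 2 * M.S ^ 2 ≤ Real.exp (-(399 / 400 * L)) * (Real.exp (5 / 2) * Real.exp (2 * l)) := by
      rw [hτ2]; gcongr
    calc Cu / e ^ 2 * (M.I x (VD D) l + τ ^ 2 * M.S ^ 2) ≤
        Cu / e ^ 2 * (Real.exp (2 * l) * Real.exp (-(399 / 400 * L)) +
          Real.exp (-(399 / 400 * L)) * (Real.exp (5 / 2) * Real.exp (2 * l))) := by gcongr
      _ = (Cu * (1 + Real.exp (5 / 2)) / e ^ 2) *
          (Real.exp (2 * l) * Real.exp (-(399 / 400 * L))) := by ring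
      _ ≤ Real.exp (3 / 400 * L) * (Real.exp (2 * l) * Real.exp (-(399 / 400 * L))) := by gcongr
      _ = Real.exp (2 * l - 99 / 100 * L) := by
        rw [← Real.exp_add, ← Real.exp_add]; congr 1; ring
  have hpos : ∀ s, M.lb - 3 ≤ s → s ≤ l - 2 * e → 0 < M'.I x (VD D) s := fun s h1 h2 =>
    HP U D x ε₀ M' s (hbk s h1 h2) (by linarith) e3 hx
  have hlam : ∀ s, l - 11 * e ≤ s → s ≤ l - 2 * e → 97 / 100 * L ≤ lam (M'.I x (VD D)) s := by
    intro s h1 h2
    have h3 := hup s (by linarith) (by linarith)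
    have h4 := Real.log_le_log (hpos s (by linarith) h2) h3
    rw [Real.log_exp] at h4
    unfold lam
    linarith
  have hmon : ∀ s t, s ≤ t → t ≤ l - 2 * e → M.lb - 3 ≤ t →
      M'.I x (VD D) s ≤ Real.exp (m * (t - s)) * M'.I x (VD D) t ∧
      M'.e x (VD D) s ≤ Real.exp (m * (t - s)) * M'.e x (VD D) t ∧ 0 ≤ M'.e x (VD D) s := by
    intro s t h1 h2 h3
    exact HM U D x ε₀ M' t (hbk t h3 h2) (by linarith) e4 s t h1 le_rfl
  -- GL
  have hK4 : 4 ≤ 1 / q := by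
    rw [le_div_iff₀ hq0]; linarith
  have hgl : ∀ c, l - 11 * e + q ≤ c → c ≤ l - 2 * e → ∃ (R : ℝ → ℝ),
      Nb_290.StepW C₀ (l - 11 * e) (c - q) (1 / 100) (1 / 300 * M'.I x (VD D) c)
          (M'.I x (VD D)) (M'.E x (VD D) Q) (M'.e x (VD D)) (M'.b x (VD D) Q) R := by
    intro c h1 h2
    have hlc := hlam c (by linarith) h2
    have hIc := hpos c (by linarith) h2
    have h1q : 1 / (1 / q) = q := by rw [one_div_one_div]
    have hlam1 : 1 ≤ lam (M'.I x (VD D)) c := by linarith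
    obtain ⟨R, w, hw0, hw, hst⟩ := HG U D x M' (l - 11 * e) c (1 / q)
      (Bk.sit (Bk.mono_eps (hbk c (by linarith) h2) e1)) hκ'0 (by linarith)
      (hbk c (by linarith) h2).mg hK4 (by rw [h1q]; linarith) (by rw [hlb']; linarith)
      (by rw [hlb']; linarith) hIc (by
        have := le_abs_self Lg
        linarith) (by
        refine hqi.trans ?_
        have h5 : (97 / 100 * L) ^ 3 ≤ lam (M'.I x (VD D)) c ^ 3 := by gcongr
        refine le_trans ?_ h5
        have h6 : (97 / 100 * L) ^ 3 = (97 / 100) ^ 3 * L * L ^ 2 := by ring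
        rw [h6]
        gcongr
        norm_num
        linarith)
    rw [h1q] at hst
    refine ⟨R, hst.weaken le_rfl ?_ (hw.trans ?_)⟩
    · have h5 : Real.exp (c - M'.lb) ≤ 1 := Real.exp_le_one_iff.2 (by rw [hlb']; linarith)
      have h6 : M'.κ * Real.exp (c - M'.lb) ≤ κn * 1 := mul_le_mul hκ' h5 (Real.exp_pos _).le hκn0.le
      have h7 : M'.κ * Real.exp (c - M'.lb) + ‖fderiv ℝ M'.u 0‖ ≤ 3 / 2 * κq := by linarith
      calc Cδ * (M'.κ * Real.exp (c - M'.lb) + ‖fderiv ℝ M'.u 0‖) ≤ Cδ * (3 / 2 * κq) := by gcongr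
        _ ≤ (Cδ + 1) * (3 / 2 * κq) := by gcongr; linarith
        _ ≤ 1 / 100 := by
          rw [hκq]
          have : (Cδ + 1) * (3 / 2 * (1 / (200 * (Cδ + 1)))) = 3 / 400 := by field_simp; norm_num
          rw [this]; norm_num
    · rw [pow_one]
      refine mul_le_mul_of_nonneg_right ?_ hIc.le
      rw [one_div]
      refine inv_anti₀ (by norm_num) ?_
      linarith
  have hgw : GLw (M'.I x (VD D)) (M'.e x (VD D)) (M'.E x (VD D) Q) (M'.b x (VD D) Q)
      (l - 3 * e - ww L) (l - 3 * e) (qq L) (1 / 100) (1 / 300) m := by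
    rw [hw8, show l - 3 * e - 8 * e = l - 11 * e by ring]
    refine ⟨fun s h1 h2 => hpos s (by linarith) (by linarith),
      fun s h1 h2 => (hmon s s le_rfl (by linarith) (by linarith)).2.2, ?_, ?_, ?_, ?_, ?_⟩
    · intro s h1 h2
      obtain ⟨R, hst⟩ := hgl (l - 3 * e + q) (by linarith) (by linarith)
      exact hst.hE s ⟨h1, by linarith⟩
    · intro s c h1 h2 h3
      obtain ⟨R, hst⟩ := hgl c (by linarith) (by linarith)
      exact hst.dI s ⟨h1, by linarith⟩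
    · intro s c h1 h2 h3
      obtain ⟨R, hst⟩ := hgl c (by linarith) (by linarith)
      exact hst.hb s ⟨h1, by linarith⟩
    · intro s t h1 h2 h3
      exact (hmon s t h2 (by linarith) (by linarith)).1
    · intro s t h1 h2 h3
      exact (hmon s t h2 (by linarith) (by linarith)).2.1
  have hfin := hstep L l4 (M'.I x (VD D)) (M'.e x (VD D)) (M'.E x (VD D) Q) (M'.b x (VD D) Q)
    l (l - 3 * e) (1 / 100) (1 / 300) (by rw [hw8]; linarith) (by linarith) le_rfl le_rfl (by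
      have h4 := Real.log_le_log (hpos (l - 3 * e) (by linarith) (by linarith))
        (hup (l - 3 * e) (by linarith) (by linarith))
      rwa [Real.log_exp] at h4) hgw
  rw [hw8, show l - 3 * e - 8 * e = l - 11 * e by ring] at hfin
  rcases hfin with h | ⟨l', g1, g2, g3, g4, g5, g6⟩
  · exact Or.inl ⟨h, hpos _ (by linarith) (by linarith)⟩
  · exact Or.inr ⟨l', g1, g2, hpos _ (by linarith) (by linarith), g3, g4, g5, g6⟩

end Crest.Agent.R234.F10z_188
end
end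

-- ▼ part R234/F11a_188
section

/-!
# Row 234, (F8) START, F11a (helper188): the state case

`mkState` : at a level found by `window` the selected reference is a state (`Stp_518.Sta`).
-/

set_option autoImplicit false
set_option linter.unusedVariables false

open MeasureTheory Filter Topology Set
open scoped ENNReal NNReal ContDiff
open Crest.GeometryTopology.Submanifold Crest.Agent.R234.Vf_884
open Crest.Agent.R234.Main_456 (Frame Msys hgt NearQ)
open Crest.Agent.R234.MG_570 (MG SelP3)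
open Crest.Agent.R234.F10a_188 Crest.Agent.R234.F10b_188
open Crest.Agent.R234.Top_395 Crest.Agent.R234.Stp_518
open Crest.Agent.R234.F10t_188 Crest.Agent.R234.F10w_188 Crest.Agent.R234.F10y_188
open Crest.Agent.R234.F10z_188

noncomputable section

namespace Crest.Agent.R234.F11a_188

theorem pow32 {A L : ℝ} (hL : 0 < L) (h : A ^ 2 ≤ L) : A * L ^ (3 / 2 : ℝ) ≤ L ^ 2 := by
  have h1 : L ^ 2 = L ^ (1 / 2 : ℝ) * L ^ (3 / 2 : ℝ) := by
    rw [← Real.rpow_add hL, ← Real.rpow_natCast]; norm_num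
  have h2 : A ≤ L ^ (1 / 2 : ℝ) := by
    rw [← Real.sqrt_eq_rpow]
    exact Real.le_sqrt_of_sq_le h
  rw [h1]
  exact mul_le_mul_of_nonneg_right h2 (Real.rpow_nonneg hL.le _)

theorem Rec.raise {k : Cst} {L₁ κm G Kb Pb l lb L f κ K : ℝ}
    (h : Rec k L₁ κm G l L Kb Pb l L f κ K) (hl : l ≤ lb) (hG : 0 ≤ G) (hK : 0 ≤ Kb) :
    Rec k L₁ κm G lb L Kb Pb l L f κ K := by
  refine ⟨hl, h.hLb, h.hK, h.hP, h.hbase, h.hPK, by linarith, ?_⟩
  have : 0 ≤ (G + 1) * Kb * (lb - l) :=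
    mul_nonneg (mul_nonneg (by linarith) hK) (by linarith)
  linarith

theorem tau_le {L : ℝ} (hL : 100 ≤ L) : Real.exp (-(399 / 800 * L)) ≤ 1 / L := by
  have hL0 : 0 < L := by linarith
  rw [Real.exp_neg, one_div]
  refine inv_anti₀ hL0 ?_
  have h1 := Real.add_one_le_exp (399 / 1600 * L)
  have h2 : Real.exp (399 / 800 * L) = Real.exp (399 / 1600 * L) ^ 2 := by
    rw [← Real.exp_nat_mul]; congr 1; push_cast; ring
  rw [h2]
  have h3 : 399 / 1600 * L ≤ Real.exp (399 / 1600 * L) := by linarith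
  have h4 : (399 / 1600 * L) ^ 2 ≤ Real.exp (399 / 1600 * L) ^ 2 :=
    pow_le_pow_left₀ (by positivity) h3 2
  nlinarith

variable {m n k : ℕ}

theorem I_eq_exp {I : ℝ → ℝ} {l : ℝ} (h : 0 < I l) : I l = Real.exp (2 * l - lam I l) := by
  unfold lam
  rw [sub_sub_cancel, Real.exp_log h]

theorem sqrt_I {I : ℝ → ℝ} {l : ℝ} (h : 0 < I l) : √(I l) = Real.exp (l - lam I l / 2) := by
  rw [I_eq_exp h, ← Real.exp_half]
  congr 1
  have : lam I l = lam I l := rfl
  ring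

/-- numbers of the state case. -/
theorem numb {P κm L₁ : ℝ} (hκm : 0 < κm) (hP : 0 ≤ P) (hL₁ : 0 < L₁) : ∃ L₂ : ℝ, 100 ≤ L₂ ∧
    ∀ L Lm F : ℝ, L₂ ≤ L → 49 / 50 * L ≤ Lm → F ≤ 20 * L ^ (3 / 2 : ℝ) →
      ∃ K : ℝ, 32 ≤ K ∧ 8 * F ≤ K ∧ 1 / K ≤ qq L ∧ K ≤ 2 * Lm ^ 2 ∧
        32 * max F 1 ≤ Lm ^ 2 ∧ P * max F 1 ≤ Lm ^ 2 ∧
        Real.exp (-(399 / 800 * L)) ≤ κm / 20 ∧ Real.exp (-(399 / 800 * L)) ≤ 1 / L ∧ L₁ ≤ Lm := by
  obtain ⟨L3, hL3, p3⟩ := poly (20 / κm) 0 (show (0:ℝ) < 399 / 800 by norm_num)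
  refine ⟨max (max L3 (2 * L₁)) (max ((22 * P) ^ 2) (704 ^ 2)), ?_, ?_⟩
  · exact hL3.trans ((le_max_left _ _).trans (le_max_left _ _))
  intro L Lm F hL hlo hfr
  simp only [max_le_iff] at hL
  obtain ⟨⟨l3, l4⟩, l5, l6⟩ := hL
  have hL100 : 100 ≤ L := hL3.trans l3
  have hL0 : 0 < L := by linarith
  have q3 := p3 L l3
  rw [pow_zero, div_one] at q3
  have hq0 := qq_pos hL0
  have hqi := inv_qq hL100
  have r1 := pow32 (A := 22 * P) hL0 l5
  have r2 := pow32 (A := 704) hL0 l6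
  have hr1 : 1 ≤ L ^ (3 / 2 : ℝ) := Real.one_le_rpow (by linarith) (by norm_num)
  generalize L ^ (3 / 2 : ℝ) = r at *
  generalize qq L = q at *
  have hLm2 : 24 / 25 * L ^ 2 ≤ Lm ^ 2 := by
    have h1 : (49 / 50 * L) ^ 2 ≤ Lm ^ 2 := pow_le_pow_left₀ (by positivity) hlo 2
    have h2 : (49 / 50 * L) ^ 2 = 2401 / 2500 * L ^ 2 := by ring
    have h3 : 0 ≤ L ^ 2 := sq_nonneg L
    linarith
  have hF : max F 1 ≤ 21 * r := max_le (by linarith) (by linarith)
  refine ⟨max 32 (160 * r), le_max_left _ _, le_trans (by linarith) (le_max_right _ _), ?_, ?_, ?_,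
    ?_, ?_, tau_le hL100, by linarith⟩
  · have h1 : 160 * r ≤ max 32 (160 * r) := le_max_right _ _
    have h2 : 1 / q ≤ max 32 (160 * r) := by
      have h3 : 13 / q = 13 * (1 / q) := by ring
      rw [h3] at hqi
      linarith
    rw [div_le_iff₀ hq0] at h2
    rw [div_le_iff₀ (by linarith)]
    linarith
  · exact max_le (by linarith) (by linarith)
  · linarith
  · have h3 : P * max F 1 ≤ P * (21 * r) := mul_le_mul_of_nonneg_left hF hP
    have h4 : P * (21 * r) = 21 / 22 * (22 * P * r) := by ring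
    linarith [sq_nonneg L]
  · have h1 := exp_small (a := 1) (x := κm / 20) (c := 399 / 800) (L := L) (by positivity) (by
      refine le_trans (le_of_eq ?_) q3
      field_simp)
    rwa [one_mul] at h1

set_option maxHeartbeats 1000000 in
theorem mkState (c : Cn) (C : Cst) {κm P : ℝ} (hT : 3 ≤ c.T) (hG : 2 ≤ c.G) (hκm : 0 < κm)
    (hκ₀ : 2 * κm ≤ c.κ₀) (hL₁ : 0 < c.L₁)
    (hCK : 2 + Real.exp (2 * C.b * κm + 4 * C.A / c.L₁) ≤ c.CK)
    (hb : 32 * Real.exp (C.base c.L₁ κm) ≤ c.L₁ ^ 2) (hP : 0 ≤ P) :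
    ∃ L₂ : ℝ, 100 ≤ L₂ ∧ ∀ (D : VarifoldData m k) (x : Euc k) (Q : ℝ) (M M' : Mo m n k)
      (l L l' : ℝ), L₂ ≤ L → Frame M.π M.ρ → 0 ≤ M.κ → M.κ ≤ κm → l ≤ M.lb - 1 / 8 →
      M.lb - 5 / 4 ≤ l → ‖fderiv ℝ M.u 0‖ ≤ 0 → Sel1 c.N c.Ks D x M M' l L →
      l - 11 * eps L + 2 * qq L ≤ l' → l' + 2 * qq L ≤ l - 3 * eps L →
      0 < M'.I x (VD D) l' →
      fr (M'.E x (VD D) Q) (M'.I x (VD D)) l' ≤ 20 * L ^ (3 / 2 : ℝ) →
      (∀ s, l' - 2 * qq L ≤ s → s ≤ l' + 2 * qq L →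
        Real.log (M'.I x (VD D) s) ≤ Real.log (M'.I x (VD D) l') + 2) →
      49 / 50 * L ≤ lam (M'.I x (VD D)) l' → lam (M'.I x (VD D)) l' ≤ 61 / 50 * L →
      ∃ M'' : Mo m n k, Sta c C κm (VD D) Q x M'' l' ∧
        P * (1 + (world c C κm (VD D) Q x).f M'' l') ≤ (world c C κm (VD D) Q x).L M'' l' ^ 2 ∧
        (world c C κm (VD D) Q x).κ M'' l' ≤ M.κ + 1 / L ∧
        (world c C κm (VD D) Q x).κ M'' l' ≤ κm := by
  obtain ⟨L₂, hL₂, H⟩ := numb (L₁ := c.L₁) hκm hP hL₁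
  refine ⟨L₂, hL₂, ?_⟩
  intro D x Q M M' l L l' hL hf hκ0 hκ hl8 hl hdu hsel h1 h2 hpos hfr hgr hlo hhi
  obtain ⟨K, hK32, hKN, hKq, hKL, hf32, hPf, hτκ, hτL, hLL⟩ := H L _ _ hL hlo hfr
  have hL100 : 100 ≤ L := hL₂.trans hL
  have hL0 : 0 < L := by linarith
  have he := eps_pos hL0
  have he1 := eps_le hL100
  have hq0 := qq_pos hL0
  have hdu' := Sel1.du hsel hdu
  have hlb' : M'.lb = M.lb := hsel.hlb
  have hS := M.S_pos
  have hS' : M'.S = M.S := by unfold Mo.S; rw [hlb']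
  have hK0 : 0 < K := by linarith
  have hκ' : M'.κ = M.κ + Real.exp (-(399 / 800 * L)) := hsel.hκ
  have hτ0 : 0 < Real.exp (-(399 / 800 * L)) := Real.exp_pos _
  have hsq := sqrt_I hpos
  obtain ⟨Lm, hLm⟩ : ∃ Lm : ℝ, Lm = lam (M'.I x (VD D)) l' := ⟨_, rfl⟩
  obtain ⟨f, hfdef⟩ : ∃ f : ℝ, f = fx (M'.E x (VD D) Q) (M'.I x (VD D)) l' := ⟨_, rfl⟩
  rw [← hLm] at hlo hhi hKL hf32 hPf hLL hsq
  have hf1 : 1 + f = max (fr (M'.E x (VD D) Q) (M'.I x (VD D)) l') 1 := by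
    rw [hfdef]; unfold fx; ring
  rw [← hf1] at hf32 hPf
  have hf0 : 0 ≤ f := by rw [hfdef]; exact fx_nonneg _ _ _
  -- curvature
  have hkap : M'.kap l' ≤ κm := by
    unfold Mo.kap
    have h3 : Real.exp (-(4 / 5 * (M'.lb - l'))) ≤ 10 / 11 := by
      have h4 : Real.exp (-(4 / 5 * (M'.lb - l'))) ≤ Real.exp (-(1 / 10)) :=
        Real.exp_le_exp.2 (by rw [hlb']; linarith)
      refine h4.trans ?_
      rw [Real.exp_neg, inv_le_comm₀ (Real.exp_pos _) (by norm_num)]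
      have := Real.add_one_le_exp (1 / 10 : ℝ)
      linarith
    calc M'.κ * Real.exp (-(4 / 5 * (M'.lb - l'))) ≤ (κm + κm / 20) * (10 / 11) := by
          rw [hκ']
          exact mul_le_mul (by linarith) h3 (Real.exp_pos _).le (by linarith)
      _ ≤ κm := by linarith
  have hkap2 : M'.kap l' ≤ M.κ + 1 / L := by
    unfold Mo.kap
    have h3 : Real.exp (-(4 / 5 * (M'.lb - l'))) ≤ 1 := by
      refine Real.exp_le_one_iff.2 ?_
      rw [hlb']; linarith
    calc M'.κ * Real.exp (-(4 / 5 * (M'.lb - l'))) ≤ M'.κ * 1 :=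
          mul_le_mul_of_nonneg_left h3 (by rw [hκ']; linarith)
      _ ≤ M.κ + 1 / L := by rw [hκ']; linarith
  -- the record
  obtain ⟨hrec, hKb⟩ := Rec.start (k := C) (G := c.G) (l := l') (L := Lm) (f := f)
    (κ := M'.kap l') (K := K) hL₁ hLL hkap (by linarith) hKL hf32 hb
  obtain ⟨Kb, hKbdef⟩ : ∃ Kb : ℝ, Kb = max K (max (32 * Real.exp (C.pot Lm f (M'.kap l'))) (Lm ^ 2)) :=
    ⟨_, rfl⟩
  obtain ⟨Pb, hPbdef⟩ : ∃ Pb : ℝ, Pb = max (C.pot Lm f (M'.kap l')) (C.base c.L₁ κm) := ⟨_, rfl⟩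
  rw [← hKbdef, ← hPbdef] at hrec
  rw [← hKbdef] at hKb
  have hKb0 : 0 ≤ Kb := by rw [hKbdef]; exact hK0.le.trans (le_max_left _ _)
  have hrec' : Rec C c.L₁ κm c.G (M'.lb - 1 / 8) Lm Kb Pb l' Lm f (M'.kap l') K :=
    Rec.raise hrec (by rw [hlb']; linarith) (by linarith) hKb0
  have hKb' : Kb ≤ c.CK * Lm ^ 2 := by
    refine hKb.trans ?_
    exact mul_le_mul_of_nonneg_right hCK (sq_nonneg _)
  -- the radius
  have hrad : Real.exp (l' + 1 / K - M'.lb) * (1 + 1 / (8 * K)) ≤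
      Real.exp (l - 2 * eps L - M.lb) := by
    have h3 : 1 + 1 / (8 * K) ≤ Real.exp (1 / (8 * K)) := by
      have := Real.add_one_le_exp (1 / (8 * K)); linarith
    refine (mul_le_mul_of_nonneg_left h3 (Real.exp_pos _).le).trans ?_
    rw [← Real.exp_add]
    refine Real.exp_le_exp.2 ?_
    have h4 : 1 / (8 * K) = 1 / K / 8 := by field_simp
    rw [h4, hlb']
    linarith
  have hexp2 : Real.exp (-(399 / 800 * L)) ≤ Real.exp (-(Lm / 4)) :=
    Real.exp_le_exp.2 (by linarith)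
  have hduF : ‖fderiv ℝ M'.u 0‖ ≤ Real.exp (-Lm / 4) * (M'.lb - l') := by
    refine hdu'.trans ?_
    rw [hlb']
    have h3 : 1 / 8 ≤ M.lb - l' := by linarith
    have h4 : Real.exp (-(399 / 800 * L)) ≤ Real.exp (-Lm / 4) * (1 / 8) := by
      have h6 : (8:ℝ) ≤ Real.exp 7 := by
        have := Real.add_one_le_exp (7:ℝ); linarith
      have h7 : Real.exp (-(399 / 800 * L)) * Real.exp 7 ≤ Real.exp (-Lm / 4) := by
        rw [← Real.exp_add]
        exact Real.exp_le_exp.2 (by linarith)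
      have h8 := mul_le_mul_of_nonneg_left h6 hτ0.le
      linarith
    exact h4.trans (mul_le_mul_of_nonneg_left h3 (Real.exp_pos _).le)
  have hmean : Real.exp (l - 99 / 100 * L) ≤ Real.exp (-(Lm / 4)) * √(M'.I x (VD D) l') := by
    rw [hsq, ← Real.exp_add]
    exact Real.exp_le_exp.2 (by linarith)
  have hsup : ∀ᵐ p ∂(VD D), ‖M'.π (p.1 - x)‖ ≤
      M'.S * (Real.exp (l' + 1 / K - M'.lb) * (1 + 1 / (8 * K))) → ‖M'.ρ (p.1 - x)‖ ≤ M'.S →
      ‖hgt M'.π M'.ρ x M'.S M'.u p.1‖ ≤ M'.S * Real.exp (-(Lm / 4)) := by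
    rw [hS', hsel.hπ, hsel.hρ]
    filter_upwards [hsel.sup] with p hp g1 g2
    have h3 : M.S * (Real.exp (l' + 1 / K - M'.lb) * (1 + 1 / (8 * K))) ≤
        Real.exp (l - eps L) := by
      refine (mul_le_mul_of_nonneg_left hrad hS.le).trans ?_
      have h5 : M.S * Real.exp (l - 2 * eps L - M.lb) = Real.exp (l - 2 * eps L) := S_mul_exp M _
      rw [h5]
      exact Real.exp_le_exp.2 (by linarith)
    exact (hp (g1.trans h3) g2).trans (mul_le_mul_of_nonneg_left hexp2 hS.le)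
  have hgrow : Real.log (M'.I x (VD D) (l' + 1 / K)) ≤ Real.log (M'.I x (VD D) l') + c.G := by
    have hK1 : 0 < 1 / K := by positivity
    have := hgr (l' + 1 / K) (by linarith) (by linarith)
    linarith
  refine ⟨{ M' with K := K, Lb := Lm, Kb := Kb, Pb := Pb }, ?_, ?_, hkap2, hkap⟩
  · exact {
      cls := {
        frame := by
          show Frame M'.π M'.ρ
          rw [hsel.hπ, hsel.hρ]; exact hf
        κ0 := by
          show 0 ≤ M'.κ
          rw [hκ']; linarith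
        κ1 := by
          show M'.κ ≤ c.κ₀
          rw [hκ']; linarith
        mg := hsel.mg.mono le_rfl hrad
        du := hduF }
      lo := by
        show M'.lb - c.T ≤ l'
        rw [hlb']; linarith
      pos := hpos
      mean := by
        intro ζ hζ hζs hζb
        have h3 := hsel.mean ζ hζ (hζs.trans (Metric.ball_subset_ball hrad)) hζb
        refine h3.trans ?_
        have h4 := mul_le_mul_of_nonneg_left hmean (pow_nonneg M'.S_pos.le m)
        rw [hLm] at h4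
        exact h4
      sup := by
        rw [hLm] at hsup
        exact hsup
      grow := hgrow
      K32 := hK32
      KL := by rw [hLm] at hKL; exact hKL
      KN := hKN
      L1 := by rw [hLm] at hLL; exact hLL
      KbL := hKb'
      rcd := by
        have h3 := hrec'
        rw [hfdef] at h3
        rw [hLm] at h3 ⊢
        exact h3 }
  · show P * (1 + fx (M'.E x (VD D) Q) (M'.I x (VD D)) l') ≤ lam (M'.I x (VD D)) l' ^ 2
    rw [← hfdef, ← hLm]
    exact hPf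

end Crest.Agent.R234.F11a_188
end
end

-- ▼ part R234/F11b_188

/-!
# Row 234, (F8) START, F11b (helper188): preparations for the pre-state case

* `Rt_uniq'` : uniqueness of the inverse square root.
* `u0_le` : the reference passes near the base point.
* `Rot0` : data of the rotation of the reference to its tangent plane at the foot of the base point.
-/

set_option autoImplicit false
set_option linter.unusedVariables false

open MeasureTheory Filter Topology Set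
open scoped ENNReal NNReal ContDiff
open Crest.GeometryTopology.Submanifold Crest.Agent.R234.Vf_884
open Crest.Agent.R234.Main_456 (Frame Msys hgt NearQ)
open Crest.Agent.R234.AS_456 (hp vp)
open Crest.Agent.R234.MG_570 (MG SelP3)
open Crest.Agent.R234.F10a_188 Crest.Agent.R234.F10b_188
open Crest.Agent.R234.Top_395 Crest.Agent.R234.Stp_518
open Crest.Agent.R234.F10t_188 Crest.Agent.R234.F10w_188 Crest.Agent.R234.F10y_188
open Crest.Agent.R234.F10z_188 Crest.Agent.R234.F11a_188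
open Crest.Agent.R234.Grot_842 (Rt rπ rρ)

noncomputable section

namespace Crest.Agent.R234.F11b_188

variable {m n k : ℕ}

/-- uniqueness of the inverse square root close to the identity. -/
theorem Rt_uniq' {q : Euc m →L[ℝ] Euc n} {H G : Euc m →L[ℝ] Euc m} {H' G' : Euc n →L[ℝ] Euc n}
    (h : Rt q H H') (h2 : Rt q G G') (hq : ‖q‖ ^ 2 < 1) : H' = G' := by
  have hsq : ∀ y, H' (H' y) = G' (G' y) := by
    intro y
    have e1 := h.sq_gop' (G' (G' y))
    rw [h2.gop_sq'] at e1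
    exact e1
  have e2 : (2 : ℝ) • (H' - G') = (1 - H') * (H' - G') + (H' - G') * (1 - G') := by
    ext1 y
    simp only [_root_.smul_apply, _root_.add_apply, ContinuousLinearMap.mul_apply,
      _root_.sub_apply, ContinuousLinearMap.one_apply, map_sub]
    rw [hsq y, two_smul]
    abel
  have h3 := h.norm_sub'
  have h4 := h2.norm_sub'
  have h5 : ‖(1 : Euc n →L[ℝ] Euc n) - H'‖ ≤ ‖q‖ ^ 2 := by rwa [norm_sub_rev]
  have h6 : ‖(1 : Euc n →L[ℝ] Euc n) - G'‖ ≤ ‖q‖ ^ 2 := by rwa [norm_sub_rev]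
  have h7 : 2 * ‖H' - G'‖ ≤ ‖q‖ ^ 2 * ‖H' - G'‖ + ‖H' - G'‖ * ‖q‖ ^ 2 := by
    have e3 : 2 * ‖H' - G'‖ = ‖(2 : ℝ) • (H' - G')‖ := by
      rw [norm_smul]; norm_num
    rw [e3, e2]
    refine (norm_add_le _ _).trans (add_le_add ?_ ?_)
    · exact (norm_mul_le _ _).trans (mul_le_mul_of_nonneg_right h5 (norm_nonneg _))
    · exact (norm_mul_le _ _).trans (mul_le_mul_of_nonneg_left h6 (norm_nonneg _))
  have h8 : ‖H' - G'‖ = 0 := by
    by_contra hne
    have hpos : 0 < ‖H' - G'‖ := lt_of_le_of_ne (norm_nonneg _) (Ne.symm hne)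
    nlinarith
  exact sub_eq_zero.1 (norm_eq_zero.1 h8)

/-- the angle of the rotated frame. -/
theorem hp_rot_le {π : Euc k →L[ℝ] Euc m} {ρ : Euc k →L[ℝ] Euc n} {q : Euc m →L[ℝ] Euc n}
    {H : Euc m →L[ℝ] Euc m} {H' : Euc n →L[ℝ] Euc n} (hf : Frame π ρ) (h : Rt q H H')
    (hq : ‖q‖ ≤ 1) : ‖hp (rπ π ρ q H) - hp π‖ ≤ 4 * ‖q‖ := by
  have h0 := norm_nonneg q
  have h1 : ‖rπ π ρ q H - π‖ ≤ 2 * ‖q‖ := by
    refine ContinuousLinearMap.opNorm_le_bound _ (by positivity) fun z => ?_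
    rw [_root_.sub_apply]
    refine (Grot_842.norm_rπ_sub hf h z).trans ?_
    refine mul_le_mul_of_nonneg_right ?_ (norm_nonneg _)
    nlinarith
  have hπ1 : ‖π‖ ≤ 1 := ContinuousLinearMap.opNorm_le_bound _ zero_le_one fun z => by
    rw [one_mul]; exact Grot_842.fr_norm_π hf z
  have hπ2 : ‖rπ π ρ q H‖ ≤ 1 := ContinuousLinearMap.opNorm_le_bound _ zero_le_one fun z => by
    rw [one_mul]; exact Grot_842.fr_norm_π (Grot_842.frame_rot hf h) z
  have e1 : hp (rπ π ρ q H) - hp π =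
      ContinuousLinearMap.adjoint (rπ π ρ q H) ∘L (rπ π ρ q H - π) +
        ContinuousLinearMap.adjoint (rπ π ρ q H - π) ∘L π := by
    unfold AS_456.hp
    ext1 z
    simp only [_root_.sub_apply, _root_.add_apply, ContinuousLinearMap.comp_apply, map_sub]
    abel
  rw [e1]
  refine (norm_add_le _ _).trans ?_
  have h2 : ‖ContinuousLinearMap.adjoint (rπ π ρ q H) ∘L (rπ π ρ q H - π)‖ ≤ 1 * (2 * ‖q‖) := by
    refine (ContinuousLinearMap.opNorm_comp_le _ _).trans ?_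
    rw [LinearIsometryEquiv.norm_map]
    exact mul_le_mul hπ2 h1 (norm_nonneg _) zero_le_one
  have h3 : ‖ContinuousLinearMap.adjoint (rπ π ρ q H - π) ∘L π‖ ≤ (2 * ‖q‖) * 1 := by
    refine (ContinuousLinearMap.opNorm_comp_le _ _).trans ?_
    rw [LinearIsometryEquiv.norm_map]
    exact mul_le_mul h1 hπ1 (norm_nonneg _) (by positivity)
  linarith

/-- the support point has mass around it. -/
theorem pos_ball {U : Set (Euc k)} {V : Measure (Euc k × L k)} {x : Euc k} {r : ℝ}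
    (hV : Stat m k U V) (hm : 1 ≤ m) (hr : 0 < r) (hU : Metric.ball x r ⊆ U)
    (hTh : 1 ≤ Th m V x) : V (Metric.ball x r ×ˢ univ) ≠ 0 := by
  have h1 := mul_le_mass hV hm hr hU hTh
  rw [mass_apply V measurableSet_ball] at h1
  rw [Top_395.prod_eq]
  intro h0
  rw [h0, one_mul, nonpos_iff_eq_zero, ENNReal.ofReal_eq_zero] at h1
  have h2 := ome_pos m
  have h3 : 0 < ome m * r ^ m := by positivity
  linarith

/-- the reference passes near the base point. -/
theorem u0_le {U : Set (Euc k)} {D : VarifoldData m k} {x : Euc k} {π : Euc k →L[ℝ] Euc m}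
    {ρ : Euc k →L[ℝ] Euc n} {S A τ : ℝ} {u : Euc m → Euc n} (hV : Stat m k U (VD D)) (hm : 1 ≤ m)
    (hS : 0 < S) (hA : 0 < A) (hU : Metric.closedBall x S ⊆ U) (hTh : 1 ≤ Th m (VD D) x)
    (hu : Continuous u)
    (hsup : ∀ᵐ p ∂(VD D), ‖π (p.1 - x)‖ ≤ A → ‖ρ (p.1 - x)‖ ≤ S →
      ‖hgt π ρ x S u p.1‖ ≤ S * τ) : ‖u 0‖ ≤ τ := by
  by_contra hc
  push Not at hc
  have hx0 : ‖hgt π ρ x S u x‖ = S * ‖u 0‖ := by
    unfold Main_456.hgt
    rw [sub_self, map_zero, map_zero, smul_zero, zero_sub, norm_neg, norm_smul,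
      Real.norm_of_nonneg hS.le]
  have hcont : Continuous fun z : Euc k => ‖hgt π ρ x S u z‖ := by
    unfold Main_456.hgt
    fun_prop
  have h1 : ∀ᶠ z in 𝓝 x, S * τ < ‖hgt π ρ x S u z‖ := by
    refine (hcont.tendsto x).eventually (lt_mem_nhds ?_)
    rw [hx0]
    exact mul_lt_mul_of_pos_left hc hS
  have h2 : ∀ᶠ z in 𝓝 x, ‖π (z - x)‖ < A := by
    have hc2 : Continuous fun z : Euc k => ‖π (z - x)‖ := by fun_prop
    refine (hc2.tendsto x).eventually (gt_mem_nhds ?_)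
    simpa using hA
  have h3 : ∀ᶠ z in 𝓝 x, ‖ρ (z - x)‖ < S := by
    have hc2 : Continuous fun z : Euc k => ‖ρ (z - x)‖ := by fun_prop
    refine (hc2.tendsto x).eventually (gt_mem_nhds ?_)
    simpa using hS
  obtain ⟨δ, hδ, h4⟩ := Metric.eventually_nhds_iff_ball.1 (h1.and (h2.and h3))
  have h5 : (VD D) (Metric.ball x (min δ S) ×ˢ univ) = 0 := by
    refine measure_mono_null ?_ (ae_iff.1 hsup)
    rintro p ⟨hp, -⟩
    obtain ⟨g1, g2, g3⟩ := h4 p.1 (Metric.ball_subset_ball (min_le_left _ _) hp)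
    simp only [mem_ofPred_eq, Classical.not_imp, not_le]
    exact ⟨g2.le, g3.le, g1⟩
  refine pos_ball hV hm (lt_min hδ hS) ?_ hTh h5
  exact (Metric.ball_subset_ball (min_le_right _ _)).trans (Metric.ball_subset_closedBall.trans hU)

theorem GrB.gr1 {M : Mo m n k} {b : ℝ} (h : GrB M b) (hb : b ≤ 1 / 8) : Gi_456.Gr 1 M.u :=
  ⟨one_pos, h.cu, fun X => (h.b1 X).trans hb, fun X => (h.b2 X).trans (by rw [mul_one]; exact hb)⟩

theorem eps_sq {L : ℝ} (hL : 0 < L) : eps L ^ 2 = 1 / (64 * L) := by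
  unfold eps ww
  rw [div_pow, ← Real.rpow_natCast (L ^ (-(1 / 2) : ℝ)) 2, ← Real.rpow_mul hL.le]
  norm_num
  rw [Real.rpow_neg_one]
  field_simp

/-- radii. -/
theorem radii {s e : ℝ} (he : 0 < e) (he1 : e ≤ 1 / 80) (hs : -(5 / 4) ≤ s) :
    Real.exp (s - 23 / 2 * e) + e ≤ Real.exp (s - 4 * e) ∧
      Real.exp (s - 4 * e) ≤ (1 - e) * Real.exp (s - 2 * e) ∧
      Real.exp (-3) ≤ Real.exp (s - 2 * e) := by
  refine ⟨?_, ?_, Real.exp_le_exp.2 (by linarith)⟩
  · have e1 : Real.exp (s - 4 * e) = Real.exp (s - 23 / 2 * e) * Real.exp (15 / 2 * e) := by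
      rw [← Real.exp_add]; congr 1; ring
    have h1 := Real.add_one_le_exp (15 / 2 * e)
    have h2 : Real.exp (-2) ≤ Real.exp (s - 23 / 2 * e) := Real.exp_le_exp.2 (by linarith)
    have h3 : (1 : ℝ) / (15 / 2) ≤ Real.exp (-2) := by
      rw [Real.exp_neg, one_div]
      refine inv_anti₀ (Real.exp_pos _) ?_
      have h4 := Real.exp_one_lt_d9
      have h5 : Real.exp 2 = Real.exp 1 * Real.exp 1 := by rw [← Real.exp_add]; norm_num
      rw [h5]
      have h6 := Real.exp_pos (1:ℝ)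
      nlinarith
    rw [e1]
    have h7 : 1 / (15 / 2) ≤ Real.exp (s - 23 / 2 * e) := h3.trans h2
    have h8 := Real.exp_pos (s - 23 / 2 * e)
    nlinarith
  · have e1 : Real.exp (s - 4 * e) = Real.exp (-(2 * e)) * Real.exp (s - 2 * e) := by
      rw [← Real.exp_add]; congr 1; ring
    rw [e1]
    refine mul_le_mul_of_nonneg_right ?_ (Real.exp_pos _).le
    rw [Real.exp_neg, inv_le_comm₀ (Real.exp_pos _) (by linarith)]
    have h1 := Real.add_one_le_exp (2 * e)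
    refine le_trans ?_ h1
    rw [inv_le_comm₀ (by linarith) (by linarith), ← one_div, div_le_iff₀ (by linarith)]
    nlinarith

end Crest.Agent.R234.F11b_188
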