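import Crest.Agent.R234.Gi2_456
import Crest.Agent.R234.GL6_394
import Crest.Agent.R234.GLK2_128
import Crest.Agent.R234.Kern_567

-- ▼ part R234/Gi3_456
section

/-!
# Row 234, node GL-INST (helper456), file 3: the radial field of a metric at its centre

`G v` = inverse metric, `G 0 = 1`: `muG G v = ⟪v, G v v⟫ / |v|²`, `beG G v = (muG G v)⁻¹ G v v` is
`C¹` including the centre, with explicit bounds.
-/

set_option autoImplicit false

open MeasureTheory Filter Topology Set Function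
open scoped ENNReal NNReal ContDiff InnerProductSpace
open Crest.GeometryTopology.Submanifold Crest.Agent.R234.Vf_884

noncomputable section

namespace Crest.Agent.R234.Gi_456

variable {m : ℕ}

local notation "adj" => ContinuousLinearMap.adjoint

def muG (G : Euc m → L m) (v : Euc m) : ℝ := if v = 0 then 1 else ⟪v, G v v⟫_ℝ / ‖v‖ ^ 2

def beG (G : Euc m → L m) (v : Euc m) : Euc m := (muG G v)⁻¹ • G v v

variable {G : Euc m → L m}

theorem muG_zero : muG G 0 = 1 := by simp [muG]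

theorem muG_of_ne {v : Euc m} (hv : v ≠ 0) : muG G v = ⟪v, G v v⟫_ℝ / ‖v‖ ^ 2 := by simp [muG, hv]

theorem muG_mul (v : Euc m) : ⟪v, G v v⟫_ℝ = muG G v * ‖v‖ ^ 2 := by
  by_cases hv : v = 0
  · subst hv; simp
  · have : ‖v‖ ≠ 0 := norm_ne_zero_iff.2 hv
    rw [muG_of_ne hv]
    field_simp

theorem muG_pos (hpos : ∀ v u : Euc m, u ≠ 0 → 0 < ⟪u, G v u⟫_ℝ) (v : Euc m) : 0 < muG G v := by
  by_cases hv : v = 0
  · subst hv; rw [muG_zero]; norm_num
  · rw [muG_of_ne hv]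
    exact div_pos (hpos v v hv) (by positivity)

theorem beG_zero : beG G 0 = 0 := by simp [beG]


/-- hypotheses of the estimates at one point -/
structure Pt (G : Euc m → L m) (c : ℝ) (v : Euc m) (G' : Euc m →L[ℝ] L m) : Prop where
  der : HasFDerivAt G G' v
  c0 : 0 ≤ c
  bd : ‖G'‖ ≤ c
  sub : ‖G v - ContinuousLinearMap.id ℝ (Euc m)‖ ≤ c * ‖v‖
  small : c * ‖v‖ ≤ 1 / 4

variable {c : ℝ} {v : Euc m} {G' : Euc m →L[ℝ] L m}

theorem Pt.sub_apply (h : Pt G c v G') (u : Euc m) : ‖G v u - u‖ ≤ c * ‖v‖ * ‖u‖ := by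
  have h1 : G v u - u = (G v - ContinuousLinearMap.id ℝ (Euc m)) u := by simp
  rw [h1]
  exact (ContinuousLinearMap.le_opNorm _ _).trans (by gcongr; exact h.sub)

theorem Pt.abs_mu_sub (h : Pt G c v G') : |muG G v - 1| ≤ c * ‖v‖ := by
  have h0 := h.c0
  by_cases hv : v = 0
  · rw [hv, muG_zero]; simp
  · have hn : 0 < ‖v‖ := norm_pos_iff.2 hv
    have h1 : muG G v - 1 = ⟪v, G v v - v⟫_ℝ / ‖v‖ ^ 2 := by
      rw [muG_of_ne hv, inner_sub_right, real_inner_self_eq_norm_sq]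
      field_simp
    rw [h1, abs_div, abs_of_pos (by positivity : 0 < ‖v‖ ^ 2), div_le_iff₀ (by positivity)]
    refine (abs_real_inner_le_norm _ _).trans ?_
    have := h.sub_apply v
    calc ‖v‖ * ‖G v v - v‖ ≤ ‖v‖ * (c * ‖v‖ * ‖v‖) := by gcongr
      _ = c * ‖v‖ * ‖v‖ ^ 2 := by ring

theorem Pt.mu_ge (h : Pt G c v G') : 3 / 4 ≤ muG G v := by
  have h1 := (abs_le.1 h.abs_mu_sub).1
  have h2 := h.small
  linarith

theorem Pt.inv_mu (h : Pt G c v G') : (muG G v)⁻¹ ≤ 4 / 3 := by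
  have := inv_anti₀ (by norm_num) h.mu_ge
  norm_num at this ⊢
  exact this

theorem Pt.inv_mu_pos (h : Pt G c v G') : 0 < (muG G v)⁻¹ := inv_pos.2 (by have := h.mu_ge; linarith)

theorem Pt.norm_be_sub (h : Pt G c v G') : ‖beG G v - v‖ ≤ 3 * c * ‖v‖ ^ 2 := by
  have h0 := h.c0
  have hmu := h.mu_ge
  have h1 : beG G v - v = (muG G v)⁻¹ • ((G v v - v) - (muG G v - 1) • v) := by
    rw [beG, smul_sub, smul_sub, smul_smul, mul_sub, inv_mul_cancel₀ (by linarith), mul_one,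
      sub_smul, one_smul]
    abel
  rw [h1, norm_smul, Real.norm_of_nonneg h.inv_mu_pos.le]
  have h2 : ‖(G v v - v) - (muG G v - 1) • v‖ ≤ c * ‖v‖ * ‖v‖ + c * ‖v‖ * ‖v‖ := by
    refine (norm_sub_le _ _).trans (add_le_add (h.sub_apply v) ?_)
    rw [norm_smul, Real.norm_eq_abs]
    gcongr
    exact h.abs_mu_sub
  calc (muG G v)⁻¹ * ‖(G v v - v) - (muG G v - 1) • v‖
      ≤ 4 / 3 * (c * ‖v‖ * ‖v‖ + c * ‖v‖ * ‖v‖) :=
        mul_le_mul h.inv_mu h2 (norm_nonneg _) (by norm_num)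
    _ ≤ 3 * c * ‖v‖ ^ 2 := by nlinarith [mul_nonneg h0 (sq_nonneg ‖v‖)]

theorem Pt.norm_Gv (h : Pt G c v G') (u : Euc m) : ‖G v u‖ ≤ 5 / 4 * ‖u‖ := by
  have h1 := h.sub_apply u
  have h2 := norm_le_norm_add_norm_sub' (G v u) u
  have h3 := h.small
  have := norm_nonneg u
  nlinarith

theorem Pt.norm_be_le (h : Pt G c v G') : ‖beG G v‖ ≤ 2 * ‖v‖ := by
  rw [beG, norm_smul, Real.norm_of_nonneg h.inv_mu_pos.le]
  calc (muG G v)⁻¹ * ‖G v v‖ ≤ 4 / 3 * (5 / 4 * ‖v‖) :=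
        mul_le_mul h.inv_mu (h.norm_Gv v) (norm_nonneg _) (by norm_num)
    _ ≤ 2 * ‖v‖ := by linarith [norm_nonneg v]

/-- derivative of `v ↦ G v v` -/
theorem hasFDerivAt_Gv (h : HasFDerivAt G G' v) :
    HasFDerivAt (fun v => G v v) (G v + G'.flip v) v := by
  have := h.clm_apply (hasFDerivAt_id v)
  refine this.congr_fderiv ?_
  ext1 u
  simp

/-- the derivative of the radial field away from the centre -/
theorem hasFDerivAt_be_of_ne (h : HasFDerivAt G G' v) (hv : v ≠ 0) (hmu : muG G v ≠ 0) :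
    HasFDerivAt (beG G)
      ((muG G v)⁻¹ • (G v + G'.flip v) +
        ((-(muG G v ^ 2)⁻¹) • ((‖v‖ ^ 2)⁻¹ • (innerSL ℝ v ∘L (G v + G'.flip v) + innerSL ℝ (G v v)
          - (2 * muG G v) • innerSL ℝ v))).smulRight (G v v)) v := by
  have hn : ‖v‖ ^ 2 ≠ 0 := by
    have : ‖v‖ ≠ 0 := norm_ne_zero_iff.2 hv
    positivity
  have h1 := hasFDerivAt_Gv h
  have h2 : HasFDerivAt (fun v => ⟪v, G v v⟫_ℝ)
      (innerSL ℝ v ∘L (G v + G'.flip v) + innerSL ℝ (G v v)) v := by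
    refine ((hasFDerivAt_id v).inner ℝ h1).congr_fderiv ?_
    ext1 u
    simp only [ContinuousLinearMap.comp_apply, fderivInnerCLM_apply, ContinuousLinearMap.prod_apply,
      _root_.add_apply, innerSL_apply_apply, id_eq, ContinuousLinearMap.id_apply, inner_add_right]
    rw [real_inner_comm u (G v v)]
  have h3 : HasFDerivAt (fun v : Euc m => ‖v‖ ^ 2) (2 • innerSL ℝ v) v :=
    (hasStrictFDerivAt_norm_sq v).hasFDerivAt
  have h4 : HasFDerivAt (fun v => ⟪v, G v v⟫_ℝ / ‖v‖ ^ 2)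
      ((‖v‖ ^ 2)⁻¹ • (innerSL ℝ v ∘L (G v + G'.flip v) + innerSL ℝ (G v v)
          - (2 * muG G v) • innerSL ℝ v)) v := by
    have h5 := h2.mul ((hasDerivAt_inv hn).comp_hasFDerivAt v h3)
    have e : (fun v => ⟪v, G v v⟫_ℝ / ‖v‖ ^ 2) =
        (fun v => ⟪v, G v v⟫_ℝ) * fun v : Euc m => (‖v‖ ^ 2)⁻¹ := by
      funext u; simp [div_eq_mul_inv]
    rw [e]
    refine h5.congr_fderiv ?_
    ext1 u
    have e3 : ((fun y : ℝ => y⁻¹) ∘ fun v : Euc m => ‖v‖ ^ 2) v = (‖v‖ ^ 2)⁻¹ := rfl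
    rw [e3]
    simp only [_root_.add_apply, _root_.smul_apply, smul_eq_mul, _root_.sub_apply, nsmul_eq_mul]
    rw [muG_of_ne hv]
    field_simp
    push_cast
    ring
  have h5 := h4.congr_of_eventuallyEq (f₁ := muG G) (by
    filter_upwards [isOpen_ne.mem_nhds hv] with u hu
    exact muG_of_ne hu)
  have h6 := (hasDerivAt_inv hmu).comp_hasFDerivAt v h5
  exact h6.smul h1

/-- the bound of the derivative -/
theorem Pt.norm_dbe_sub (h : Pt G c v G') (hv : v ≠ 0) :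
    ‖((muG G v)⁻¹ • (G v + G'.flip v) +
        ((-(muG G v ^ 2)⁻¹) • ((‖v‖ ^ 2)⁻¹ • (innerSL ℝ v ∘L (G v + G'.flip v) + innerSL ℝ (G v v)
          - (2 * muG G v) • innerSL ℝ v))).smulRight (G v v)) - ContinuousLinearMap.id ℝ (Euc m)‖
      ≤ 17 * c * ‖v‖ := by
  have h0 := h.c0
  have hn : 0 < ‖v‖ := norm_pos_iff.2 hv
  have hmu := h.mu_ge
  have hs := h.small
  refine ContinuousLinearMap.opNorm_le_bound _ (by positivity) fun u => ?_
  set μ := muG G v with hμ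
  have e1 : G'.flip v u = G' u v := rfl
  have hG' : ‖G' u v‖ ≤ c * ‖u‖ * ‖v‖ := by
    refine (ContinuousLinearMap.le_opNorm _ _).trans ?_
    gcongr
    exact (G'.le_opNorm u).trans (by gcongr; exact h.bd)
  have hGu := h.sub_apply u
  have hGv := h.sub_apply v
  have hmu1 := h.abs_mu_sub
  -- value at `u`
  have e2 : (((μ)⁻¹ • (G v + G'.flip v) +
        ((-(μ ^ 2)⁻¹) • ((‖v‖ ^ 2)⁻¹ • (innerSL ℝ v ∘L (G v + G'.flip v) + innerSL ℝ (G v v)
          - (2 * μ) • innerSL ℝ v))).smulRight (G v v)) - ContinuousLinearMap.id ℝ (Euc m)) u =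
      μ⁻¹ • ((G v u - u) + G' u v - (μ - 1) • u) +
        (-(μ ^ 2)⁻¹ * ((‖v‖ ^ 2)⁻¹ * (⟪v, (G v u - u) + G' u v - (μ - 1) • u⟫_ℝ +
          ⟪(G v v - v) - (μ - 1) • v, u⟫_ℝ))) • G v v := by
    have hμ0 : μ ≠ 0 := by linarith
    simp only [_root_.add_apply, _root_.smul_apply, smul_eq_mul, _root_.sub_apply,
      ContinuousLinearMap.smulRight_apply, ContinuousLinearMap.comp_apply, innerSL_apply_apply, e1,
      ContinuousLinearMap.id_apply]
    have a1 : μ⁻¹ • ((G v u - u) + G' u v - (μ - 1) • u) = μ⁻¹ • (G v u + G' u v) - u := by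
      rw [sub_smul, one_smul, smul_sub, smul_add, smul_sub, smul_sub, smul_smul,
        inv_mul_cancel₀ hμ0, one_smul, smul_add]
      abel
    have a2 : ⟪v, (G v u - u) + G' u v - (μ - 1) • u⟫_ℝ + ⟪(G v v - v) - (μ - 1) • v, u⟫_ℝ =
        ⟪v, G v u + G' u v⟫_ℝ + ⟪G v v, u⟫_ℝ - 2 * μ * ⟪v, u⟫_ℝ := by
      simp only [inner_sub_left, inner_sub_right, inner_add_right, inner_smul_left,
        inner_smul_right]
      simp
      ring
    rw [a1, a2]
    abel
  rw [e2]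
  have b1 : ‖(G v u - u) + G' u v - (μ - 1) • u‖ ≤ 3 * c * ‖v‖ * ‖u‖ := by
    have : ‖(μ - 1) • u‖ ≤ c * ‖v‖ * ‖u‖ := by
      rw [norm_smul, Real.norm_eq_abs]; gcongr
    refine (norm_sub_le _ _).trans ?_
    have := norm_add_le (G v u - u) (G' u v)
    nlinarith
  have b2 : ‖(G v v - v) - (μ - 1) • v‖ ≤ 2 * c * ‖v‖ * ‖v‖ := by
    have : ‖(μ - 1) • v‖ ≤ c * ‖v‖ * ‖v‖ := by
      rw [norm_smul, Real.norm_eq_abs]; gcongr
    refine (norm_sub_le _ _).trans ?_
    linarith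
  have b3 : |⟪v, (G v u - u) + G' u v - (μ - 1) • u⟫_ℝ + ⟪(G v v - v) - (μ - 1) • v, u⟫_ℝ| ≤
      5 * c * ‖v‖ ^ 2 * ‖u‖ := by
    refine (abs_add_le _ _).trans ?_
    have d1 := (abs_real_inner_le_norm v ((G v u - u) + G' u v - (μ - 1) • u)).trans
      (mul_le_mul_of_nonneg_left b1 (norm_nonneg _))
    have d2 := (abs_real_inner_le_norm ((G v v - v) - (μ - 1) • v) u).trans
      (mul_le_mul_of_nonneg_right b2 (norm_nonneg _))
    nlinarith
  have hμ2 : (μ ^ 2)⁻¹ ≤ 16 / 9 := by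
    have : (9 / 16 : ℝ) ≤ μ ^ 2 := by nlinarith
    have := inv_anti₀ (by norm_num) this
    norm_num at this ⊢
    exact this
  have hμ2' : 0 ≤ (μ ^ 2)⁻¹ := by positivity
  have b4 : |-(μ ^ 2)⁻¹ * ((‖v‖ ^ 2)⁻¹ * (⟪v, (G v u - u) + G' u v - (μ - 1) • u⟫_ℝ +
          ⟪(G v v - v) - (μ - 1) • v, u⟫_ℝ))| ≤ 16 / 9 * (5 * c * ‖u‖) := by
    rw [abs_mul, abs_mul, abs_neg, abs_of_nonneg hμ2', abs_of_nonneg (by positivity)]
    refine mul_le_mul hμ2 ?_ (by positivity) (by norm_num)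
    rw [inv_mul_le_iff₀ (by positivity)]
    refine b3.trans (le_of_eq (by ring))
  refine (norm_add_le _ _).trans ?_
  rw [norm_smul, norm_smul, Real.norm_of_nonneg h.inv_mu_pos.le, Real.norm_eq_abs]
  have d1 : (muG G v)⁻¹ * ‖(G v u - u) + G' u v - (μ - 1) • u‖ ≤
      4 / 3 * (3 * c * ‖v‖ * ‖u‖) := mul_le_mul h.inv_mu b1 (norm_nonneg _) (by norm_num)
  have d2 := mul_le_mul b4 (h.norm_Gv v) (norm_nonneg _) (by positivity)
  have d3 : 0 ≤ c * ‖v‖ * ‖u‖ := by positivity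
  calc _ ≤ 4 / 3 * (3 * c * ‖v‖ * ‖u‖) + 16 / 9 * (5 * c * ‖u‖) * (5 / 4 * ‖v‖) := add_le_add d1 d2
    _ ≤ 17 * c * ‖v‖ * ‖u‖ := by nlinarith

/-- at the centre -/
theorem hasFDerivAt_be_zero (hG : ContDiff ℝ 1 G) (h0 : G 0 = ContinuousLinearMap.id ℝ (Euc m)) :
    HasFDerivAt (beG G) (ContinuousLinearMap.id ℝ (Euc m)) 0 := by
  obtain ⟨c, hc0, hc⟩ : ∃ c : ℝ, 0 ≤ c ∧ ∀ v ∈ Metric.closedBall (0 : Euc m) 1,
      ‖fderiv ℝ G v‖ ≤ c := by
    obtain ⟨c, hc⟩ := (isCompact_closedBall (0 : Euc m) 1).exists_bound_of_continuousOn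
      (hG.continuous_fderiv one_ne_zero).continuousOn
    exact ⟨max c 0, le_max_right _ _, fun v hv => (hc v hv).trans (le_max_left _ _)⟩
  have hpt : ∀ᶠ v in 𝓝 (0 : Euc m), Pt G c v (fderiv ℝ G v) := by
    have e1 : ∀ᶠ v in 𝓝 (0 : Euc m), ‖v‖ < 1 := by
      have := Metric.ball_mem_nhds (0 : Euc m) one_pos
      filter_upwards [this] with v hv
      simpa using hv
    have e2 : ∀ᶠ v in 𝓝 (0 : Euc m), c * ‖v‖ < 1 / 4 := by
      have h1 : Tendsto (fun v : Euc m => c * ‖v‖) (𝓝 0) (𝓝 0) := by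
        have : Continuous fun v : Euc m => c * ‖v‖ := by fun_prop
        simpa using this.tendsto 0
      exact h1.eventually (gt_mem_nhds (by norm_num))
    filter_upwards [e1, e2] with v h1 h2
    refine ⟨(hG.differentiable one_ne_zero v).hasFDerivAt, hc0, hc v ?_, ?_, h2.le⟩
    · simpa using h1.le
    · have := (convex_closedBall (0 : Euc m) 1).norm_image_sub_le_of_norm_fderiv_le (𝕜 := ℝ)
        (fun z _ => hG.differentiable one_ne_zero z) hc (Metric.mem_closedBall_self zero_le_one)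
        (show v ∈ Metric.closedBall (0 : Euc m) 1 by simpa using h1.le)
      rwa [h0, sub_zero] at this
  rw [hasFDerivAt_iff_isLittleO_nhds_zero]
  refine Asymptotics.IsBigO.trans_isLittleO (g := fun v : Euc m => ‖v‖ ^ 2) ?_ ?_
  · refine Asymptotics.IsBigO.of_bound (3 * c) ?_
    filter_upwards [hpt] with v hv
    rw [zero_add, beG_zero, sub_zero, Real.norm_of_nonneg (by positivity)]
    exact hv.norm_be_sub
  · exact Asymptotics.isLittleO_norm_pow_id one_lt_two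

/-- **the radial field is `C¹`, also at the centre** -/
theorem contDiff_be (hG : ContDiff ℝ 1 G) (h0 : G 0 = ContinuousLinearMap.id ℝ (Euc m))
    (hpos : ∀ v u : Euc m, u ≠ 0 → 0 < ⟪u, G v u⟫_ℝ) : ContDiff ℝ 1 (beG G) := by
  have hd : ∀ v, DifferentiableAt ℝ (beG G) v := by
    intro v
    by_cases hv : v = 0
    · rw [hv]; exact (hasFDerivAt_be_zero hG h0).differentiableAt
    · exact (hasFDerivAt_be_of_ne (hG.differentiable one_ne_zero v).hasFDerivAt hv
        (muG_pos hpos v).ne').differentiableAt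
  rw [contDiff_one_iff_fderiv]
  refine ⟨hd, continuous_iff_continuousAt.2 fun v => ?_⟩
  by_cases hv : v = 0
  · subst hv
    rw [ContinuousAt, (hasFDerivAt_be_zero hG h0).fderiv]
    obtain ⟨c, hc0, hc⟩ : ∃ c : ℝ, 0 ≤ c ∧ ∀ v ∈ Metric.closedBall (0 : Euc m) 1,
        ‖fderiv ℝ G v‖ ≤ c := by
      obtain ⟨c, hc⟩ := (isCompact_closedBall (0 : Euc m) 1).exists_bound_of_continuousOn
        (hG.continuous_fderiv one_ne_zero).continuousOn
      exact ⟨max c 0, le_max_right _ _, fun v hv => (hc v hv).trans (le_max_left _ _)⟩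
    rw [tendsto_iff_norm_sub_tendsto_zero]
    have hlim : Tendsto (fun v : Euc m => 17 * c * ‖v‖) (𝓝 0) (𝓝 0) := by
      have : Continuous fun v : Euc m => 17 * c * ‖v‖ := by fun_prop
      simpa using this.tendsto 0
    refine squeeze_zero' (Eventually.of_forall fun v => norm_nonneg _) ?_ hlim
    have e1 : ∀ᶠ v in 𝓝 (0 : Euc m), ‖v‖ < 1 := by
      have := Metric.ball_mem_nhds (0 : Euc m) one_pos
      filter_upwards [this] with v hv
      simpa using hv
    have e2 : ∀ᶠ v in 𝓝 (0 : Euc m), c * ‖v‖ < 1 / 4 := by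
      have h1 : Tendsto (fun v : Euc m => c * ‖v‖) (𝓝 0) (𝓝 0) := by
        have : Continuous fun v : Euc m => c * ‖v‖ := by fun_prop
        simpa using this.tendsto 0
      exact h1.eventually (gt_mem_nhds (by norm_num))
    filter_upwards [e1, e2] with v h1 h2
    by_cases hv : v = 0
    · rw [hv, (hasFDerivAt_be_zero hG h0).fderiv]; simp
    · have hp : Pt G c v (fderiv ℝ G v) := by
        refine ⟨(hG.differentiable one_ne_zero v).hasFDerivAt, hc0, hc v (by simpa using h1.le), ?_,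
          h2.le⟩
        have := (convex_closedBall (0 : Euc m) 1).norm_image_sub_le_of_norm_fderiv_le (𝕜 := ℝ)
          (fun z _ => hG.differentiable one_ne_zero z) hc (Metric.mem_closedBall_self zero_le_one)
          (show v ∈ Metric.closedBall (0 : Euc m) 1 by simpa using h1.le)
        rwa [h0, sub_zero] at this
      rw [(hasFDerivAt_be_of_ne hp.der hv (muG_pos hpos v).ne').fderiv]
      exact hp.norm_dbe_sub hv
  · -- away from the centre
    have h1 : ContDiffAt ℝ 1 (fun v => G v v) v := (hG.clm_apply contDiff_id).contDiffAt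
    have h2 : ContDiffAt ℝ 1 (fun v : Euc m => ⟪v, G v v⟫_ℝ / ‖v‖ ^ 2) v := by
      refine ContDiffAt.div (contDiffAt_id.inner ℝ h1) (contDiff_norm_sq ℝ).contDiffAt ?_
      have : ‖v‖ ≠ 0 := norm_ne_zero_iff.2 hv
      positivity
    have h3 : ContDiffAt ℝ 1 (muG G) v := by
      refine h2.congr_of_eventuallyEq ?_
      filter_upwards [isOpen_ne.mem_nhds hv] with u hu
      exact muG_of_ne hu
    have h4 : ContDiffAt ℝ 1 (beG G) v := (h3.inv (muG_pos hpos v).ne').smul h1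
    exact h4.continuousAt_fderiv (by norm_num)

theorem continuous_muG (hG : ContDiff ℝ 1 G) (h0 : G 0 = ContinuousLinearMap.id ℝ (Euc m)) :
    Continuous (muG G) := by
  refine continuous_iff_continuousAt.2 fun v => ?_
  by_cases hv : v = 0
  · subst hv
    obtain ⟨c, hc0, hc⟩ : ∃ c : ℝ, 0 ≤ c ∧ ∀ v ∈ Metric.closedBall (0 : Euc m) 1,
        ‖fderiv ℝ G v‖ ≤ c := by
      obtain ⟨c, hc⟩ := (isCompact_closedBall (0 : Euc m) 1).exists_bound_of_continuousOn
        (hG.continuous_fderiv one_ne_zero).continuousOn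
      exact ⟨max c 0, le_max_right _ _, fun v hv => (hc v hv).trans (le_max_left _ _)⟩
    rw [ContinuousAt, muG_zero, tendsto_iff_norm_sub_tendsto_zero]
    have hlim : Tendsto (fun v : Euc m => c * ‖v‖) (𝓝 0) (𝓝 0) := by
      have : Continuous fun v : Euc m => c * ‖v‖ := by fun_prop
      simpa using this.tendsto 0
    refine squeeze_zero' (Eventually.of_forall fun v => norm_nonneg _) ?_ hlim
    have e1 : ∀ᶠ v in 𝓝 (0 : Euc m), ‖v‖ < 1 := by
      have := Metric.ball_mem_nhds (0 : Euc m) one_pos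
      filter_upwards [this] with v hv
      simpa using hv
    have e2 : ∀ᶠ v in 𝓝 (0 : Euc m), c * ‖v‖ < 1 / 4 := hlim.eventually (gt_mem_nhds (by norm_num))
    filter_upwards [e1, e2] with v h1 h2
    have hp : Pt G c v (fderiv ℝ G v) := by
      refine ⟨(hG.differentiable one_ne_zero v).hasFDerivAt, hc0, hc v (by simpa using h1.le), ?_,
        h2.le⟩
      have := (convex_closedBall (0 : Euc m) 1).norm_image_sub_le_of_norm_fderiv_le (𝕜 := ℝ)
        (fun z _ => hG.differentiable one_ne_zero z) hc (Metric.mem_closedBall_self zero_le_one)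
        (show v ∈ Metric.closedBall (0 : Euc m) 1 by simpa using h1.le)
      rwa [h0, sub_zero] at this
    rw [Real.norm_eq_abs]
    exact hp.abs_mu_sub
  · have h1 : ContinuousAt (fun v => G v v) v :=
      (hG.continuous.clm_apply continuous_id).continuousAt
    have h2 : ContinuousAt (fun v : Euc m => ⟪v, G v v⟫_ℝ / ‖v‖ ^ 2) v := by
      refine ContinuousAt.div (continuousAt_id.inner h1) (by fun_prop) ?_
      have : ‖v‖ ≠ 0 := norm_ne_zero_iff.2 hv
      positivity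
    refine h2.congr ?_
    filter_upwards [isOpen_ne.mem_nhds hv] with u hu
    exact (muG_of_ne hu).symm

end Crest.Agent.R234.Gi_456
end
end

-- ▼ part R234/Gi4_456

/-!
# Row 234, node GL-INST (helper456), file 4: the chart of a graph as `GL_394.Ch` data, `Ok`

Centre `X0 : Euc m`, linear normalisation `Lo q0`, `(Lo q0)ᵀ (Lo q0) = 1 + q0ᵀ q0`, `q0 = Dw(X0)`.
-/

set_option autoImplicit false

open MeasureTheory Filter Topology Set Function
open scoped ENNReal NNReal ContDiff InnerProductSpace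
open Crest.GeometryTopology.Submanifold Crest.Agent.R234.Vf_884
open Crest.Agent.R234.Main_456
open Crest.Agent.R234.Ell1_3 (adjL ginv gop dns dns_pos dns_contDiff ginv_contDiff)
open Crest.Agent.R234.GLK_128 (A0 AA BB gg hh Fr Inv exists_Inv exists_inv_of_le norm_adj NN)

noncomputable section

namespace Crest.Agent.R234.Gi_456

variable {m n k : ℕ}

local notation "adj" => ContinuousLinearMap.adjoint

/-! ### the linear normalisation -/

theorem exists_Lo (q : Euc m →L[ℝ] Euc n) :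
    ∃ S : L m, adj S ∘L S = gg q ∧ 0 < S.det ∧ S.det = dns q := by
  have hs : ∀ u v : Euc m, inner ℝ (gg q u) v = inner ℝ u (gg q v) := by
    intro u v
    nth_rewrite 1 [← GLK_128.gg_adj q]
    rw [ContinuousLinearMap.adjoint_inner_left]
  have hp : ∀ v : Euc m, (1 / 2) * ‖v‖ ^ 2 ≤ inner ℝ (gg q v) v := by
    intro v
    rw [GLK_128.gg_inner]
    nlinarith [sq_nonneg ‖v‖, sq_nonneg ‖q v‖]
  obtain ⟨S, h1, h2, h3⟩ := Kern_567.exists_sqrt hs hp
  refine ⟨LinearMap.toContinuousLinearMap S, ?_, h2, ?_⟩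
  · set T : L m := adj (LinearMap.toContinuousLinearMap S) ∘L LinearMap.toContinuousLinearMap S
      with hT
    have hsym : ((T - gg q : L m) : Euc m →ₗ[ℝ] Euc m).IsSymmetric := by
      intro u v
      show ⟪(T - gg q) u, v⟫_ℝ = ⟪u, (T - gg q) v⟫_ℝ
      rw [_root_.sub_apply, _root_.sub_apply, inner_sub_left, inner_sub_right, hs]
      congr 1
      rw [hT, ContinuousLinearMap.comp_apply, ContinuousLinearMap.comp_apply,
        ContinuousLinearMap.adjoint_inner_left, ContinuousLinearMap.adjoint_inner_right]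
    have h0 : ((T - gg q : L m) : Euc m →ₗ[ℝ] Euc m) = 0 := by
      rw [← hsym.inner_map_self_eq_zero]
      intro v
      show ⟪(T - gg q) v, v⟫_ℝ = 0
      rw [_root_.sub_apply, inner_sub_left, hT, ContinuousLinearMap.comp_apply,
        ContinuousLinearMap.adjoint_inner_left, real_inner_self_eq_norm_sq]
      have := h1 v
      have e : (LinearMap.toContinuousLinearMap S) v = S v := rfl
      rw [e, this, sub_self]
    have h4 : T - gg q = 0 := by
      ext1 v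
      exact congrArg (fun T : Euc m →ₗ[ℝ] Euc m => T v) h0
    exact sub_eq_zero.1 h4
  · exact h3

/-- linear normalisation at the centre -/
def Lo (q : Euc m →L[ℝ] Euc n) : L m := (exists_Lo q).choose

theorem adj_Lo_Lo (q : Euc m →L[ℝ] Euc n) : adj (Lo q) ∘L Lo q = gg q := (exists_Lo q).choose_spec.1

theorem det_Lo_pos (q : Euc m →L[ℝ] Euc n) : 0 < (Lo q).det := (exists_Lo q).choose_spec.2.1

theorem det_Lo (q : Euc m →L[ℝ] Euc n) : (Lo q).det = dns q := (exists_Lo q).choose_spec.2.2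

theorem norm_Lo_sq (q : Euc m →L[ℝ] Euc n) (v : Euc m) : ‖Lo q v‖ ^ 2 = ‖v‖ ^ 2 + ‖q v‖ ^ 2 := by
  rw [← GLK_128.gg_inner, ← adj_Lo_Lo q, ContinuousLinearMap.comp_apply,
    ContinuousLinearMap.adjoint_inner_left, real_inner_self_eq_norm_sq]

theorem le_norm_Lo (q : Euc m →L[ℝ] Euc n) (v : Euc m) : ‖v‖ ≤ ‖Lo q v‖ := by
  have := norm_Lo_sq q v
  refine abs_le_of_sq_le_sq' ?_ (norm_nonneg _) |>.2
  nlinarith [sq_nonneg ‖q v‖]

/-- the inverse of the normalisation -/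
def Loi (q : Euc m →L[ℝ] Euc n) : L m := Ring.inverse (Lo q)

theorem Loi_spec (q : Euc m →L[ℝ] Euc n) :
    Loi q ∘L Lo q = ContinuousLinearMap.id ℝ (Euc m) ∧
      Lo q ∘L Loi q = ContinuousLinearMap.id ℝ (Euc m) ∧ ‖Loi q‖ ≤ 1 := by
  obtain ⟨X, h1, h2, h3⟩ := exists_inv_of_le (T := Lo q) one_pos (fun v => by
    rw [one_mul]; exact le_norm_Lo q v)
  have h4 : Loi q = X := ring_inverse_eq h1 h2
  rw [h4]
  exact ⟨h1, h2, by simpa using h3⟩

theorem Loi_Lo (q : Euc m →L[ℝ] Euc n) (v : Euc m) : Loi q (Lo q v) = v :=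
  congrArg (fun T : L m => T v) (Loi_spec q).1

theorem Lo_Loi (q : Euc m →L[ℝ] Euc n) (v : Euc m) : Lo q (Loi q v) = v :=
  congrArg (fun T : L m => T v) (Loi_spec q).2.1

theorem norm_Lo_le {q : Euc m →L[ℝ] Euc n} (hq : ‖q‖ ≤ 1 / 8) (v : Euc m) :
    ‖Lo q v‖ ≤ 65 / 64 * ‖v‖ := by
  have h1 := norm_Lo_sq q v
  have h2 : ‖q v‖ ≤ 1 / 8 * ‖v‖ := (q.le_opNorm v).trans (by gcongr)
  refine abs_le_of_sq_le_sq' ?_ (by positivity) |>.2
  have := norm_nonneg (q v)
  nlinarith [norm_nonneg v]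

/-! ### base data -/

/-- base point of the normalised coordinate -/
def pt (w : Euc m → Euc n) (X0 : Euc m) (v : Euc m) : Euc m := X0 + Loi (fderiv ℝ w X0) v

def giB (w : Euc m → Euc n) (X0 : Euc m) (v : Euc m) : L m :=
  Lo (fderiv ℝ w X0) ∘L ginv (fderiv ℝ w (pt w X0 v)) ∘L adj (Lo (fderiv ℝ w X0))

def jB (w : Euc m → Euc n) (X0 : Euc m) (v : Euc m) : ℝ :=
  dns (fderiv ℝ w (pt w X0 v)) / (Lo (fderiv ℝ w X0)).det

def lamB (w : Euc m → Euc n) (X0 : Euc m) (v : Euc m) : Euc m :=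
  (InnerProductSpace.toDual ℝ (Euc m)).symm ((jB w X0 v)⁻¹ • fderiv ℝ (jB w X0) v)

/-- **the chart of a graph** -/
def ch (π : Euc k →L[ℝ] Euc m) (ρ : Euc k →L[ℝ] Euc n) (x : Euc k) (r : ℝ) (w : Euc m → Euc n)
    (X0 : Euc m) : GL_394.Ch m k where
  x := fun z => Lo (fderiv ℝ w X0) (foot π ρ x r w z - X0)
  dx := fun z => Lo (fderiv ℝ w X0) ∘L dft π ρ x r w z
  f := fun z => ‖Bt π ρ w (foot π ρ x r w z) (yy π ρ x r w z)‖ ^ 2 / 2
  nu := fun z => Bt π ρ w (foot π ρ x r w z) (yy π ρ x r w z)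
  H := fun z => ContinuousLinearMap.id ℝ (Euc k) - A0t π ρ w (foot π ρ x r w z) ∘L dft π ρ x r w z
  A := fun z => At π ρ w (foot π ρ x r w z) (yy π ρ x r w z) ∘L Loi (fderiv ℝ w X0)
  dA := fderiv ℝ fun z => At π ρ w (foot π ρ x r w z) (yy π ρ x r w z) ∘L Loi (fderiv ℝ w X0)
  tau := fun z P => tr (NN (adj π) (adj ρ) (fderiv ℝ w (foot π ρ x r w z))
    (hinv (fderiv ℝ w (foot π ρ x r w z))) ∘L P)
  gi := giB w X0
  dgi := fderiv ℝ (giB w X0)
  j := jB w X0
  lam := lamB w X0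
  mu := muG (giB w X0)
  be := beG (giB w X0)
  dbe := fderiv ℝ (beG (giB w X0))

variable {π : Euc k →L[ℝ] Euc m} {ρ : Euc k →L[ℝ] Euc n} {x : Euc k} {r : ℝ} {w : Euc m → Euc n}
  {X0 : Euc m}

theorem three_le_top : (3 : WithTop ℕ∞) ≤ ((⊤ : ℕ∞) : WithTop ℕ∞) := by
  exact WithTop.coe_le_coe.2 (le_top : (3 : ℕ∞) ≤ ⊤)

theorem Gr.contDiff_pt (w : Euc m → Euc n) (X0 : Euc m) : ContDiff ℝ ∞ (pt w X0) :=
  contDiff_const.add (Loi (fderiv ℝ w X0)).contDiff

theorem Gr.contDiff_dwpt (h : Gr r w) (X0 : Euc m) : ContDiff ℝ 3 fun v => fderiv ℝ w (pt w X0 v) :=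
  h.cd1.comp ((Gr.contDiff_pt w X0).of_le three_le_top)

theorem Gr.contDiff_gi (h : Gr r w) (X0 : Euc m) : ContDiff ℝ 3 (giB w X0) := by
  have h1 : ContDiff ℝ 3 fun v => ginv (fderiv ℝ w (pt w X0 v)) :=
    (ginv_contDiff.of_le three_le_top).comp (h.contDiff_dwpt X0)
  exact contDiff_const.clm_comp (h1.clm_comp contDiff_const)

theorem Gr.contDiff_j (h : Gr r w) (X0 : Euc m) : ContDiff ℝ 3 (jB w X0) := by
  have h1 : ContDiff ℝ 3 fun v => dns (fderiv ℝ w (pt w X0 v)) :=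
    (dns_contDiff.of_le three_le_top).comp (h.contDiff_dwpt X0)
  exact h1.div_const _

theorem jB_pos (w : Euc m → Euc n) (X0 v : Euc m) : 0 < jB w X0 v :=
  div_pos (dns_pos _) (det_Lo_pos _)

theorem pt_zero (w : Euc m → Euc n) (X0 : Euc m) : pt w X0 0 = X0 := by simp [pt]

theorem jB_zero (w : Euc m → Euc n) (X0 : Euc m) : jB w X0 0 = 1 := by
  rw [jB, pt_zero, det_Lo, div_self (dns_pos _).ne']

theorem giB_zero (w : Euc m → Euc n) (X0 : Euc m) :
    giB w X0 0 = ContinuousLinearMap.id ℝ (Euc m) := by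
  rw [giB, pt_zero]
  set q := fderiv ℝ w X0 with hq
  -- `L g⁻¹ Lᵀ = L g⁻¹ Lᵀ L L⁻¹ = L L⁻¹ = 1`
  have h1 : ginv q ∘L gg q = ContinuousLinearMap.id ℝ (Euc m) := Ell1_3.ginv_gop q
  have h2 : adj (Lo q) = gg q ∘L Loi q := by
    rw [← adj_Lo_Lo q, ContinuousLinearMap.comp_assoc, (Loi_spec q).2.1,
      ContinuousLinearMap.comp_id]
  rw [h2, ← ContinuousLinearMap.comp_assoc (ginv q), h1, ContinuousLinearMap.id_comp]
  exact (Loi_spec q).2.1

theorem giB_pos (w : Euc m → Euc n) (X0 v u : Euc m) (hu : u ≠ 0) : 0 < ⟪u, giB w X0 v u⟫_ℝ := by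
  set q := fderiv ℝ w (pt w X0 v) with hq
  set Lq := Lo (fderiv ℝ w X0) with hL
  set a := adj Lq u with ha
  have ha0 : a ≠ 0 := by
    intro h0
    have h1 : ⟪u, u⟫_ℝ = 0 := by
      have h2 : ⟪u, Lq (Loi (fderiv ℝ w X0) u)⟫_ℝ = 0 := by
        rw [← ContinuousLinearMap.adjoint_inner_left, ← ha, h0, inner_zero_left]
      rwa [hL, Lo_Loi] at h2
    exact hu (inner_self_eq_zero.1 h1)
  have h1 : ⟪u, giB w X0 v u⟫_ℝ = ⟪a, ginv q a⟫_ℝ := by
    show ⟪u, Lq (ginv q (adj Lq u))⟫_ℝ = _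
    rw [← ContinuousLinearMap.adjoint_inner_left, ← ha]
  rw [h1]
  set b := ginv q a with hb
  have hab : gg q b = a := congrArg (fun T : L m => T a) (Ell1_3.gop_ginv q)
  have hb0 : b ≠ 0 := by
    intro h0
    rw [h0, map_zero] at hab
    exact ha0 hab.symm
  rw [← hab, GLK_128.gg_inner]
  have : 0 < ‖b‖ := norm_pos_iff.2 hb0
  positivity

/-! ### ambient data -/

theorem Gr.nu_eq (h : Gr r w) (hf : Frame π ρ) {z : Euc k} (hz : z ∈ tube π ρ x r w) :
    Bt π ρ w (foot π ρ x r w z) (yy π ρ x r w z) =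
      z - (x + adj π (foot π ρ x r w z) + adj ρ (w (foot π ρ x r w z))) := by
  have e := h.Phi_coord hf hz
  set X := foot π ρ x r w z with hX
  set Y := yy π ρ x r w z with hY
  have e2 : z - (x + adj π X + adj ρ (w X)) = Phi π ρ x w (X, Y) - (x + adj π X + adj ρ (w X)) := by
    rw [e]
  rw [e2]
  simp only [Bt, BB, Phi, _root_.sub_apply, ContinuousLinearMap.comp_apply, map_sub, map_add]
  abel

theorem Gr.hasFDerivAt_nu (h : Gr r w) (hf : Frame π ρ) {z : Euc k} (hz : z ∈ tube π ρ x r w) :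
    HasFDerivAt (fun z => Bt π ρ w (foot π ρ x r w z) (yy π ρ x r w z))
      (ContinuousLinearMap.id ℝ (Euc k) - A0t π ρ w (foot π ρ x r w z) ∘L dft π ρ x r w z) z := by
  have h1 := h.hasFDerivAt_foot hf hz
  have h2 : HasFDerivAt (fun z => w (foot π ρ x r w z))
      (fderiv ℝ w (foot π ρ x r w z) ∘L dft π ρ x r w z) z :=
    (h.differentiable _).hasFDerivAt.comp z h1
  have h3 : HasFDerivAt
      (fun z => z - (x + adj π (foot π ρ x r w z) + adj ρ (w (foot π ρ x r w z))))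
      (ContinuousLinearMap.id ℝ (Euc k) - (0 + adj π ∘L dft π ρ x r w z +
        adj ρ ∘L (fderiv ℝ w (foot π ρ x r w z) ∘L dft π ρ x r w z))) z :=
    (hasFDerivAt_id z).sub (((hasFDerivAt_const x z).add ((adj π).hasFDerivAt.comp z h1)).add
      ((adj ρ).hasFDerivAt.comp z h2))
  have h4 := h3.congr_of_eventuallyEq
    (f₁ := fun z => Bt π ρ w (foot π ρ x r w z) (yy π ρ x r w z)) (by
      filter_upwards [h.isOpen_tube.mem_nhds hz] with u hu
      exact h.nu_eq hf hu)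
  refine h4.congr_fderiv (ContinuousLinearMap.ext fun v => ?_)
  simp [A0t, A0]

theorem Gr.A0t_nu (hf : Frame π ρ) (X : Euc m) (Y : Euc n) :
    adj (A0t π ρ w X) (Bt π ρ w X Y) = 0 :=
  congrArg (fun T : Euc n →L[ℝ] Euc m => T Y)
    (GLK_128.A0_BB (q := fderiv ℝ w X) (frame_fr hf))

theorem Gr.hasFDerivAt_f (h : Gr r w) (hf : Frame π ρ) {z : Euc k} (hz : z ∈ tube π ρ x r w) :
    HasFDerivAt (fun z => ‖Bt π ρ w (foot π ρ x r w z) (yy π ρ x r w z)‖ ^ 2 / 2)
      (innerSL ℝ (Bt π ρ w (foot π ρ x r w z) (yy π ρ x r w z))) z := by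
  have h1 := h.hasFDerivAt_nu hf hz
  have h2 := h1.norm_sq
  have h3 := h2.const_mul (1 / 2 : ℝ)
  have h4 : (fun z => ‖Bt π ρ w (foot π ρ x r w z) (yy π ρ x r w z)‖ ^ 2 / 2) =
      fun z => 1 / 2 * ‖Bt π ρ w (foot π ρ x r w z) (yy π ρ x r w z)‖ ^ 2 := by
    funext z; ring
  rw [h4]
  refine h3.congr_fderiv (ContinuousLinearMap.ext fun v => ?_)
  set ν := Bt π ρ w (foot π ρ x r w z) (yy π ρ x r w z) with hν
  have h5 : ⟪ν, A0t π ρ w (foot π ρ x r w z) (dft π ρ x r w z v)⟫_ℝ = 0 := by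
    rw [← ContinuousLinearMap.adjoint_inner_left, hν, Gr.A0t_nu hf, inner_zero_left]
  simp only [_root_.smul_apply, ContinuousLinearMap.comp_apply, innerSL_apply_apply,
    _root_.sub_apply, ContinuousLinearMap.id_apply, inner_sub_right, h5, sub_zero, smul_eq_mul,
    nsmul_eq_mul]
  push_cast
  ring

theorem contDiff_adj {E : Type*} [NormedAddCommGroup E] [NormedSpace ℝ E] {N : WithTop ℕ∞}
    {f : E → (Euc m →L[ℝ] Euc n)} {z : E} (hf : ContDiffAt ℝ N f z) :
    ContDiffAt ℝ N (fun z => adj (f z)) z := (adjL (F := Euc m) (V := Euc n)).contDiff.contDiffAt.comp z hf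

theorem contDiffAt_flip {E : Type*} [NormedAddCommGroup E] [NormedSpace ℝ E] {N : WithTop ℕ∞}
    {f : E → (Euc m →L[ℝ] Euc n →L[ℝ] Euc m)} {z : E} (hf : ContDiffAt ℝ N f z) :
    ContDiffAt ℝ N (fun z => (f z).flip) z := by
  have h2 : ContDiffAt ℝ N (fun y : Euc m →L[ℝ] Euc n →L[ℝ] Euc m =>
      (ContinuousLinearMap.flipₗᵢ ℝ (Euc m) (Euc n)
        (Euc m)).toContinuousLinearEquiv.toContinuousLinearMap y) (f z) :=
    (ContinuousLinearMap.contDiff _).contDiffAt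
  exact h2.comp z hf

theorem Gr.contDiffAt_dw (h : Gr r w) (hf : Frame π ρ) {z : Euc k} (hz : z ∈ tube π ρ x r w) :
    ContDiffAt ℝ 3 (fun z => fderiv ℝ w (foot π ρ x r w z)) z :=
  h.cd1.contDiffAt.comp z (h.contDiffAt_foot hf hz)

theorem Gr.contDiffAt_A0t (h : Gr r w) (hf : Frame π ρ) {z : Euc k} (hz : z ∈ tube π ρ x r w) :
    ContDiffAt ℝ 3 (fun z => A0t π ρ w (foot π ρ x r w z)) z :=
  contDiffAt_const.add (contDiffAt_const.clm_comp (h.contDiffAt_dw hf hz))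

theorem Gr.contDiffAt_Bt (h : Gr r w) (hf : Frame π ρ) {z : Euc k} (hz : z ∈ tube π ρ x r w) :
    ContDiffAt ℝ 3 (fun z => Bt π ρ w (foot π ρ x r w z)) z :=
  contDiffAt_const.sub (contDiffAt_const.clm_comp (contDiff_adj (h.contDiffAt_dw hf hz)))

theorem Gr.contDiffAt_Yo (h : Gr r w) (hf : Frame π ρ) {z : Euc k} (hz : z ∈ tube π ρ x r w) :
    ContDiffAt ℝ 2 (fun z => Yo w (foot π ρ x r w z) (yy π ρ x r w z)) z := by
  have h0 : ContDiffAt ℝ 2 (foot π ρ x r w) z := (h.contDiffAt_foot hf hz).of_le (by norm_num)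
  have h0' : ContDiffAt ℝ 2 (yy π ρ x r w) z := (h.contDiffAt_yy hf hz).of_le (by norm_num)
  have h1 : ContDiffAt ℝ 2 (fun z => fderiv ℝ (fderiv ℝ w) (foot π ρ x r w z)) z :=
    h.cd2.contDiffAt.comp z h0
  have h2 : ContDiffAt ℝ 2 (fun z => (adjL (F := Euc m) (V := Euc n)) ∘L
      fderiv ℝ (fderiv ℝ w) (foot π ρ x r w z)) z := contDiffAt_const.clm_comp h1
  have h3 : ContDiffAt ℝ 2 (fun z => ((adjL (F := Euc m) (V := Euc n)) ∘L
      fderiv ℝ (fderiv ℝ w) (foot π ρ x r w z)).flip) z :=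
    contDiffAt_flip h2
  exact h3.clm_apply h0'

theorem Gr.contDiffAt_At (h : Gr r w) (hf : Frame π ρ) {z : Euc k} (hz : z ∈ tube π ρ x r w) :
    ContDiffAt ℝ 2 (fun z => At π ρ w (foot π ρ x r w z) (yy π ρ x r w z)) z :=
  (contDiffAt_const.add (contDiffAt_const.clm_comp
    ((h.contDiffAt_dw hf hz).of_le (by norm_num)))).sub
    (contDiffAt_const.clm_comp (h.contDiffAt_Yo hf hz))

theorem Gr.contDiffAt_A (h : Gr r w) (hf : Frame π ρ) (X0 : Euc m) {z : Euc k}
    (hz : z ∈ tube π ρ x r w) :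
    ContDiffAt ℝ 2 (fun z => At π ρ w (foot π ρ x r w z) (yy π ρ x r w z) ∘L
      Loi (fderiv ℝ w X0)) z :=
  (h.contDiffAt_At hf hz).clm_comp contDiffAt_const

theorem continuousAt_of_fderiv_eq {E E' : Type*} [NormedAddCommGroup E] [NormedSpace ℝ E]
    [NormedAddCommGroup E'] [NormedSpace ℝ E'] {f : E → E'} {f' : E → E →L[ℝ] E'} {z : E}
    {N : WithTop ℕ∞} (hN : N ≠ 0)
    (h1 : ContDiffAt ℝ N f z) (h2 : ∀ᶠ y in 𝓝 z, HasFDerivAt f (f' y) y) : ContinuousAt f' z := by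
  have h3 := h1.continuousAt_fderiv hN
  refine h3.congr ?_
  filter_upwards [h2] with y hy
  exact hy.fderiv

/-- **`Reg`** -/
theorem Gr.reg (h : Gr r w) (hf : Frame π ρ) (X0 : Euc m) :
    GL_394.Reg (ch π ρ x r w X0) (tube π ρ x r w) univ := by
  set K := tube π ρ x r w with hK
  have hKt : K ⊆ tube π ρ x r w := le_rfl
  have hev : ∀ z ∈ K, ∀ᶠ y in 𝓝 z, y ∈ tube π ρ x r w := fun z hz =>
    h.isOpen_tube.mem_nhds (hKt hz)
  have hx : ∀ z ∈ tube π ρ x r w, HasFDerivAt (ch π ρ x r w X0).x ((ch π ρ x r w X0).dx z) z :=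
    fun z hz => (Lo (fderiv ℝ w X0)).hasFDerivAt.comp z ((h.hasFDerivAt_foot hf hz).sub_const X0)
  have hG1 : ContDiff ℝ 1 (giB w X0) := (h.contDiff_gi X0).of_le (by norm_num)
  have hbe := contDiff_be hG1 (giB_zero w X0) (fun v u hu => giB_pos w X0 v u hu)
  refine
    { opnW := h.isOpen_tube, opn := isOpen_univ, mem := fun z _ => mem_univ _,
      hx := fun z hz => hx z (hKt hz)
      hf := fun z hz => h.hasFDerivAt_f hf (hKt hz)
      hnu := fun z hz => h.hasFDerivAt_nu hf (hKt hz)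
      hA := fun z hz => ((h.contDiffAt_A hf X0 (hKt hz)).differentiableAt (by norm_num)).hasFDerivAt
      cdx := ?_, cH := ?_, cdA := ?_, ctau := ?_, dxA := ?_, dxnu := ?_, nusq := ?_
      hgi := fun v _ => (((h.contDiff_gi X0).differentiable (by norm_num)) v).hasFDerivAt
      cdgi := ((h.contDiff_gi X0).continuous_fderiv (by norm_num)).continuousOn
      hj := ?_, clam := ?_
      cmu := (continuous_muG hG1 (giB_zero w X0)).continuousOn
      mupos := fun v _ => muG_pos (fun v u hu => giB_pos w X0 v u hu) v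
      hmu := fun v _ => muG_mul v
      hbe := fun v _ => rfl
      hdbe := fun v _ => ((hbe.differentiable one_ne_zero) v).hasFDerivAt
      cdbe := (hbe.continuous_fderiv one_ne_zero).continuousOn }
  · intro z hz
    refine (continuousAt_of_fderiv_eq (f := (ch π ρ x r w X0).x) (N := 3) (by norm_num) ?_
      ?_).continuousWithinAt
    · exact (Lo (fderiv ℝ w X0)).contDiff.contDiffAt.comp z
        ((h.contDiffAt_foot hf (hKt hz)).sub contDiffAt_const)
    · filter_upwards [hev z hz] with y hy using hx y hy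
  · intro z hz
    refine (continuousAt_of_fderiv_eq (N := 3) (by norm_num)
      ((h.contDiffAt_Bt hf (hKt hz)).clm_apply (h.contDiffAt_yy hf (hKt hz))) ?_).continuousWithinAt
    filter_upwards [hev z hz] with y hy using h.hasFDerivAt_nu hf hy
  · intro z hz
    exact ((h.contDiffAt_A hf X0 (hKt hz)).continuousAt_fderiv (by norm_num)).continuousWithinAt
  · -- tilt coefficient
    have h1 : ContinuousOn (fun z => NN (adj π) (adj ρ) (fderiv ℝ w (foot π ρ x r w z))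
        (hinv (fderiv ℝ w (foot π ρ x r w z)))) K := by
      intro z hz
      have hz' := hKt hz
      -- NN = 1 - A0 ginv A0ᵀ
      have e : ∀ y ∈ tube π ρ x r w, NN (adj π) (adj ρ) (fderiv ℝ w (foot π ρ x r w y))
          (hinv (fderiv ℝ w (foot π ρ x r w y))) = ContinuousLinearMap.id ℝ (Euc k) -
          A0t π ρ w (foot π ρ x r w y) ∘L ginv (fderiv ℝ w (foot π ρ x r w y)) ∘L
            adj (A0t π ρ w (foot π ρ x r w y)) := by
        intro y hy
        have H := h.inv (foot π ρ x r w y) (Y := yy π ρ x r w y) (h.norm_yy_lt hy).le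
        have := GLK_128.NN_add_TT (i := adj π) (j := adj ρ) (frame_fr hf) H
        rw [← this]
        simp only [GLK_128.TT, A0t]
        abel
      have c1 : ContDiffAt ℝ 3 (fun y => A0t π ρ w (foot π ρ x r w y) ∘L
          ginv (fderiv ℝ w (foot π ρ x r w y)) ∘L adj (A0t π ρ w (foot π ρ x r w y))) z :=
        (h.contDiffAt_A0t hf hz').clm_comp
          (((ginv_contDiff.of_le three_le_top).contDiffAt.comp z
            (h.contDiffAt_dw hf hz')).clm_comp (contDiff_adj (h.contDiffAt_A0t hf hz')))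
      have c2 : ContinuousAt (fun y => ContinuousLinearMap.id ℝ (Euc k) -
          A0t π ρ w (foot π ρ x r w y) ∘L ginv (fderiv ℝ w (foot π ρ x r w y)) ∘L
            adj (A0t π ρ w (foot π ρ x r w y))) z := continuousAt_const.sub c1.continuousAt
      refine (c2.congr ?_).continuousWithinAt
      filter_upwards [hev z hz] with y hy using (e y hy).symm
    have h2 : ContinuousOn (fun p : Euc k × L k => NN (adj π) (adj ρ)
        (fderiv ℝ w (foot π ρ x r w p.1)) (hinv (fderiv ℝ w (foot π ρ x r w p.1))) ∘L p.2)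
        (K ×ˢ G m k) :=
      (h1.comp continuousOn_fst (fun p hp => hp.1)).clm_comp continuousOn_snd
    exact (Vf_884.tr (k := k)).continuous.comp_continuousOn h2
  · intro z hz
    have h1 := dfx_A h hf (foot π ρ x r w z) (Y := yy π ρ x r w z) (h.norm_yy_lt (hKt hz)).le
    show (Lo (fderiv ℝ w X0) ∘L dft π ρ x r w z) ∘L
      (At π ρ w (foot π ρ x r w z) (yy π ρ x r w z) ∘L Loi (fderiv ℝ w X0)) = _
    have h2 : (Lo (fderiv ℝ w X0) ∘L dft π ρ x r w z) ∘L
      (At π ρ w (foot π ρ x r w z) (yy π ρ x r w z) ∘L Loi (fderiv ℝ w X0)) =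
      Lo (fderiv ℝ w X0) ∘L ((Li w (foot π ρ x r w z) (yy π ρ x r w z) ∘L
        adj (A0t π ρ w (foot π ρ x r w z))) ∘L At π ρ w (foot π ρ x r w z) (yy π ρ x r w z)) ∘L
        Loi (fderiv ℝ w X0) := rfl
    rw [h2, h1, ContinuousLinearMap.id_comp]
    exact (Loi_spec _).2.1
  · intro z hz
    have h1 := congrArg (fun T : Euc n →L[ℝ] Euc m => T (yy π ρ x r w z))
      (dfx_B h hf (foot π ρ x r w z) (yy π ρ x r w z))
    show Lo (fderiv ℝ w X0) (dft π ρ x r w z
      (Bt π ρ w (foot π ρ x r w z) (yy π ρ x r w z))) = 0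
    have h2 : dft π ρ x r w z (Bt π ρ w (foot π ρ x r w z) (yy π ρ x r w z)) = 0 := h1
    rw [h2, map_zero]
  · intro z hz
    show ‖Bt π ρ w (foot π ρ x r w z) (yy π ρ x r w z)‖ ^ 2 =
      2 * (‖Bt π ρ w (foot π ρ x r w z) (yy π ρ x r w z)‖ ^ 2 / 2)
    ring
  · intro v _
    refine (((h.contDiff_j X0).differentiable (by norm_num)) v).hasFDerivAt.congr_fderiv ?_
    ext1 u
    show fderiv ℝ (jB w X0) v u = jB w X0 v * ⟪lamB w X0 v, u⟫_ℝ
    rw [lamB, ← InnerProductSpace.toDual_apply_apply (𝕜 := ℝ), LinearIsometryEquiv.apply_symm_apply,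
      _root_.smul_apply, smul_eq_mul, ← mul_assoc, mul_inv_cancel₀ (jB_pos w X0 v).ne', one_mul]
  · have h1 : Continuous fun v => (jB w X0 v)⁻¹ • fderiv ℝ (jB w X0) v :=
      (((h.contDiff_j X0).continuous).inv₀ (fun v => (jB_pos w X0 v).ne')).smul
        ((h.contDiff_j X0).continuous_fderiv (by norm_num))
    exact ((InnerProductSpace.toDual ℝ (Euc m)).symm.continuous.comp h1).continuousOn

/-- **`Ok`** -/
theorem Gr.ok (h : Gr r w) (hf : Frame π ρ) (X0 : Euc m) {K : Set (Euc k)} (hK : IsCompact K)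
    (hKt : K ⊆ tube π ρ x r w) : GL_394.Ok (ch π ρ x r w X0) K univ :=
  (h.reg hf X0).ok hK hKt

end Crest.Agent.R234.Gi_456
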