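import Crest.Agent.R234.GLK3_128
import Crest.Agent.R234.Gi4_456

-- ▼ part R234/GLK4_128
section

/-!
# Row 234, node GL-K (helper128), file 4: second list of pointwise estimates

* `zeta_eq` : `(dx† - A g⁻¹) x = A0 W x - B h⁻¹ q Y g⁻¹ x`, `W = L Y g⁻¹ + g⁻¹ Y g⁻¹`
* `abs_k5a`, `abs_k5b`
* `le_DX` : `dx dx† ≥ 1/2`; `exists_c2` : `|det g det (dx dx†) - 1| ≤ C |Y|²`
-/

set_option autoImplicit false
set_option maxSynthPendingDepth 3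

open Function Set Filter Topology Crest.Agent.R234.Fm_209
open scoped InnerProductSpace ContDiff

noncomputable section

namespace Crest.Agent.R234.GLK_128

variable {E F V : Type} [NormedAddCommGroup E] [InnerProductSpace ℝ E] [FiniteDimensional ℝ E]
  [NormedAddCommGroup F] [InnerProductSpace ℝ F] [FiniteDimensional ℝ F]
  [NormedAddCommGroup V] [InnerProductSpace ℝ V] [FiniteDimensional ℝ V]

local notation "adj" => ContinuousLinearMap.adjoint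

variable {i : F →L[ℝ] E} {j : V →L[ℝ] E} {q : F →L[ℝ] V} {Y gi Li : F →L[ℝ] F} {hi : V →L[ℝ] V}
  {P : E →L[ℝ] E}

/-- tangential part of `dx† - A g⁻¹` -/
def Wz (Y gi Li : F →L[ℝ] F) : F →L[ℝ] F := Li ∘L Y ∘L gi + gi ∘L Y ∘L gi

/-- normal part of `dx† - A g⁻¹` -/
def Nz (i : F →L[ℝ] E) (j : V →L[ℝ] E) (q : F →L[ℝ] V) (hi : V →L[ℝ] V) (Y gi : F →L[ℝ] F) :
    F →L[ℝ] E := -(BB i j q ∘L hi ∘L q ∘L Y ∘L gi)

theorem adj_DX (H : Inv q Y gi hi Li) (hYs : adj Y = Y) :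
    adj (DX i j q Li) = A0 i j q ∘L Li := by
  rw [DX, ContinuousLinearMap.adjoint_comp, H.Li_adj hYs, ContinuousLinearMap.adjoint_adjoint]

theorem zeta_eq (H : Inv q Y gi hi Li) (hYs : adj Y = Y) :
    adj (DX i j q Li) - AA i j q Y ∘L gi = A0 i j q ∘L Wz Y gi Li + Nz i j q hi Y gi := by
  have e1 : (i ∘L Y) ∘L gi = A0 i j q ∘L gi ∘L Y ∘L gi + Nz i j q hi Y gi := by
    have a : i ∘L (Y ∘L gi) = (A0 i j q ∘L gi - BB i j q ∘L hi ∘L q) ∘L (Y ∘L gi) :=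
      congrArg (fun T => T ∘L (Y ∘L gi)) (H.i_eq (i := i) (j := j))
    rw [ContinuousLinearMap.sub_comp] at a
    rw [show (i ∘L Y) ∘L gi = i ∘L (Y ∘L gi) from rfl, a, Nz]
    have b : (BB i j q ∘L hi ∘L q) ∘L (Y ∘L gi) = BB i j q ∘L hi ∘L q ∘L Y ∘L gi := rfl
    have c : (A0 i j q ∘L gi) ∘L (Y ∘L gi) = A0 i j q ∘L gi ∘L Y ∘L gi := rfl
    rw [b, c]
    abel
  rw [adj_DX H hYs, AA_eq, ContinuousLinearMap.sub_comp, e1, Wz, ContinuousLinearMap.comp_add,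
    ← H.Li_sub, ContinuousLinearMap.comp_sub]
  abel

theorem norm_Wz (H : Inv q Y gi hi Li) (hY : ‖Y‖ ≤ 1 / 4) : ‖Wz Y gi Li‖ ≤ 7 / 3 * ‖Y‖ := by
  have n1 : ‖Li ∘L Y ∘L gi‖ ≤ 4 / 3 * (‖Y‖ * 1) :=
    ncomp (H.norm_Li' hY) (ncomp le_rfl H.norm_gi)
  have n2 : ‖gi ∘L Y ∘L gi‖ ≤ 1 * (‖Y‖ * 1) := ncomp H.norm_gi (ncomp le_rfl H.norm_gi)
  refine (norm_add_le _ _).trans ?_
  linarith

theorem norm_Nz (h : Fr i j) (H : Inv q Y gi hi Li) (hq : ‖q‖ ≤ 1 / 4) :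
    ‖Nz i j q hi Y gi‖ ≤ 5 / 4 * (‖q‖ * ‖Y‖) := by
  rw [Nz, norm_neg]
  have n1 : ‖BB i j q ∘L hi ∘L q ∘L Y ∘L gi‖ ≤ 5 / 4 * (1 * (‖q‖ * (‖Y‖ * 1))) :=
    ncomp (norm_BB h hq) (ncomp H.norm_hi (ncomp le_rfl (ncomp le_rfl H.norm_gi)))
  linarith

/-- (k5a) -/
theorem abs_k5a (h : Fr i j) (H : Inv q Y gi hi Li) (hYs : adj Y = Y) (hP : Pj F P)
    (hq : ‖q‖ ≤ 1 / 4) (hY : ‖Y‖ ≤ 1 / 4) (x : F) :
    |⟪adj (DX i j q Li) x - P (adj (DX i j q Li) x), A0 i j q (Wz Y gi Li x)⟫_ℝ| ≤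
      7 * (tau0 i j q hi P * ‖Y‖ * ‖x‖ ^ 2) := by
  have e : ⟪adj (DX i j q Li) x - P (adj (DX i j q Li) x), A0 i j q (Wz Y gi Li x)⟫_ℝ =
      ⟪Th i j q P (Li x), Wz Y gi Li x⟫_ℝ := by
    rw [← ContinuousLinearMap.adjoint_inner_left, adj_DX H hYs, Th]
    rfl
  rw [e]
  have t0 := tau0_nonneg h H hP
  have n1 : ‖Th i j q P (Li x)‖ ≤ 2 * tau0 i j q hi P * (4 / 3 * ‖x‖) := by
    refine (ContinuousLinearMap.le_opNorm _ _).trans ?_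
    refine mul_le_mul (norm_Th h H hP hq) ?_ (norm_nonneg _) (by positivity)
    exact (Li.le_opNorm x).trans (mul_le_mul_of_nonneg_right (H.norm_Li' hY) (norm_nonneg _))
  have n2 : ‖Wz Y gi Li x‖ ≤ 7 / 3 * ‖Y‖ * ‖x‖ :=
    (ContinuousLinearMap.le_opNorm _ _).trans
      (mul_le_mul_of_nonneg_right (norm_Wz H hY) (norm_nonneg _))
  refine (abs_real_inner_le_norm _ _).trans ?_
  calc _ ≤ 2 * tau0 i j q hi P * (4 / 3 * ‖x‖) * (7 / 3 * ‖Y‖ * ‖x‖) :=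
        mul_le_mul n1 n2 (norm_nonneg _) (by positivity)
    _ = 56 / 9 * (tau0 i j q hi P * ‖Y‖ * ‖x‖ ^ 2) := by ring
    _ ≤ _ := by
        have : 0 ≤ tau0 i j q hi P * ‖Y‖ * ‖x‖ ^ 2 := by positivity
        linarith

theorem Pj.norm_le (hP : Pj F P) : ‖P‖ ≤ 1 := by
  refine ContinuousLinearMap.opNorm_le_bound _ zero_le_one fun v => ?_
  have h1 : ‖P v‖ ^ 2 ≤ ‖P v‖ * ‖v‖ := by
    rw [← real_inner_self_eq_norm_sq, ← ContinuousLinearMap.adjoint_inner_right, hP.sa]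
    have : P (P v) = P v := congrArg (fun T : E →L[ℝ] E => T v) hP.idem
    rw [this, real_inner_comm]
    exact real_inner_le_norm _ _
  rcases eq_or_lt_of_le (norm_nonneg (P v)) with h0 | h0
  · rw [← h0]; positivity
  · rw [one_mul]
    by_contra hc
    push Not at hc
    nlinarith

/-- (k5b) -/
theorem abs_k5b (h : Fr i j) (H : Inv q Y gi hi Li) (hYs : adj Y = Y) (hP : Pj F P)
    (hq : ‖q‖ ≤ 1 / 4) (hY : ‖Y‖ ≤ 1 / 4) (x : F) (y : V) :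
    |⟪BB i j q y, P ((adj (DX i j q Li) - AA i j q Y ∘L gi) x)⟫_ℝ| ≤
      5 * (‖y‖ * Real.sqrt (tau0 i j q hi P) * ‖Y‖ * ‖x‖) +
        5 / 4 * (‖BB i j q y‖ * (‖q‖ * ‖Y‖) * ‖x‖) := by
  have t0 := tau0_nonneg h H hP
  have st0 := Real.sqrt_nonneg (tau0 i j q hi P)
  rw [zeta_eq H hYs]
  have e : ⟪BB i j q y, P ((A0 i j q ∘L Wz Y gi Li + Nz i j q hi Y gi) x)⟫_ℝ =
      ⟪y, adj (Rb i j q P) (Wz Y gi Li x)⟫_ℝ + ⟪BB i j q y, P (Nz i j q hi Y gi x)⟫_ℝ := by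
    rw [ContinuousLinearMap.add_apply, map_add, inner_add_right, Rb_adj hP]
    congr 1
    rw [← ContinuousLinearMap.adjoint_inner_right]
    rfl
  rw [e]
  have n1 : ‖adj (Rb i j q P) (Wz Y gi Li x)‖ ≤
      2 * Real.sqrt (tau0 i j q hi P) * (7 / 3 * ‖Y‖ * ‖x‖) := by
    refine (ContinuousLinearMap.le_opNorm _ _).trans ?_
    refine mul_le_mul ?_ ?_ (norm_nonneg _) (by positivity)
    · rw [LinearIsometryEquiv.norm_map]; exact norm_Rb h H hP hq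
    · exact (ContinuousLinearMap.le_opNorm _ _).trans
        (mul_le_mul_of_nonneg_right (norm_Wz H hY) (norm_nonneg _))
  have n2 : ‖P (Nz i j q hi Y gi x)‖ ≤ 5 / 4 * (‖q‖ * ‖Y‖) * ‖x‖ := by
    refine (P.le_opNorm _).trans ?_
    have a := (ContinuousLinearMap.le_opNorm (Nz i j q hi Y gi) x).trans
      (mul_le_mul_of_nonneg_right (norm_Nz h H hq) (norm_nonneg _))
    calc ‖P‖ * ‖Nz i j q hi Y gi x‖ ≤ 1 * (5 / 4 * (‖q‖ * ‖Y‖) * ‖x‖) :=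
          mul_le_mul hP.norm_le a (norm_nonneg _) zero_le_one
      _ = _ := one_mul _
  refine (abs_add_le _ _).trans (add_le_add ?_ ?_)
  · refine (abs_real_inner_le_norm _ _).trans ?_
    calc _ ≤ ‖y‖ * (2 * Real.sqrt (tau0 i j q hi P) * (7 / 3 * ‖Y‖ * ‖x‖)) :=
          mul_le_mul_of_nonneg_left n1 (norm_nonneg _)
      _ = 14 / 3 * (‖y‖ * Real.sqrt (tau0 i j q hi P) * ‖Y‖ * ‖x‖) := by ring
      _ ≤ _ := by
          have : 0 ≤ ‖y‖ * Real.sqrt (tau0 i j q hi P) * ‖Y‖ * ‖x‖ := by positivity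
          linarith
  · refine (abs_real_inner_le_norm _ _).trans ?_
    calc _ ≤ ‖BB i j q y‖ * (5 / 4 * (‖q‖ * ‖Y‖) * ‖x‖) :=
          mul_le_mul_of_nonneg_left n2 (norm_nonneg _)
      _ = _ := by ring

/-- `|B y|² = ⟪h y, y⟫ ≥ |y|²` -/
theorem norm_BB_sq (h : Fr i j) (y : V) : ‖BB i j q y‖ ^ 2 = ‖y‖ ^ 2 + ‖adj q y‖ ^ 2 := by
  rw [← real_inner_self_eq_norm_sq, ← ContinuousLinearMap.adjoint_inner_left]
  have : adj (BB i j q) (BB i j q y) = hh q y :=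
    congrArg (fun T : V →L[ℝ] V => T y) (BB_BB h)
  rw [this, hh_inner]

theorem norm_le_BB (h : Fr i j) (y : V) : ‖y‖ ≤ ‖BB i j q y‖ := by
  have h1 := norm_BB_sq (q := q) h y
  have h2 := norm_nonneg (BB i j q y)
  by_contra hc
  push Not at hc
  nlinarith [sq_nonneg ‖adj q y‖, norm_nonneg y]


variable (F) in
/-- (c2) of 618: `j² det (dx dx†) = 1 + O(|Y|²)` -/
theorem exists_c2 : ∃ C : ℝ, 0 ≤ C ∧ ∀ {E V : Type} [NormedAddCommGroup E] [InnerProductSpace ℝ E]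
    [FiniteDimensional ℝ E] [NormedAddCommGroup V] [InnerProductSpace ℝ V]
    [FiniteDimensional ℝ V] {i : F →L[ℝ] E} {j : V →L[ℝ] E} {q : F →L[ℝ] V}
    {Y gi Li : F →L[ℝ] F} {hi : V →L[ℝ] V} (_ : Fr i j) (_ : Inv q Y gi hi Li) (_ : adj Y = Y)
    (_ : ‖Y‖ ≤ 1 / 4) (_ : trc F (gi ∘L Y) = 0),
    |(gg q).det * (DX i j q Li ∘L adj (DX i j q Li)).det - 1| ≤ C * ‖Y‖ ^ 2 := by
  obtain ⟨K, hK0, hK⟩ := Crest.Agent.R247.Mcs816.exists_det_bound F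
  set d : ℝ := (Module.finrank ℝ F : ℝ) with hd
  have hd0 : 0 ≤ d := Nat.cast_nonneg _
  set C1 : ℝ := 2 * K + 2 * d with hC1
  have hC10 : 0 ≤ C1 := by positivity
  refine ⟨C1 * (C1 + 2), by positivity, ?_⟩
  intro E V _ _ _ _ _ _ i j q Y gi Li hi h H hYs hY h0
  have y0 := norm_nonneg Y
  have e1 : (gg q).det * (DX i j q Li ∘L adj (DX i j q Li)).det =
      (ContinuousLinearMap.id ℝ F + Li ∘L Y).det ^ 2 := by
    have a1 : DX i j q Li ∘L adj (DX i j q Li) = Li ∘L gg q ∘L Li := by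
      rw [adj_DX H hYs, DX]
      have : (Li ∘L adj (A0 i j q)) ∘L A0 i j q ∘L Li =
        Li ∘L (adj (A0 i j q) ∘L A0 i j q) ∘L Li := rfl
      rw [this, A0A0 h]
    have a2 : Li ∘L gg q = ContinuousLinearMap.id ℝ F + Li ∘L Y := by
      have := H.l1
      rw [ContinuousLinearMap.comp_sub] at this
      rw [← this]; abel
    have a3 : (Li ∘L gg q ∘L Li).det = Li.det * (gg q).det * Li.det := by
      have b1 : (Li ∘L gg q ∘L Li).det = Li.det * (gg q ∘L Li).det := LinearMap.det_comp _ _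
      have b2 : (gg q ∘L Li).det = (gg q).det * Li.det := LinearMap.det_comp _ _
      rw [b1, b2]; ring
    have a4 : (Li ∘L gg q).det = Li.det * (gg q).det := LinearMap.det_comp _ _
    rw [a1, a3, ← a2, a4]
    ring
  have n1 : ‖Li ∘L Y‖ ≤ 4 / 3 * ‖Y‖ := ncomp (H.norm_Li' hY) le_rfl
  have n2 : ‖Li ∘L Y‖ ≤ 1 := by linarith
  have h1 := hK (Li ∘L Y) n2
  have h2 : |trc F (Li ∘L Y)| ≤ d * (4 / 3 * ‖Y‖ ^ 2) := by
    have e : trc F (Li ∘L Y) = trc F ((Li ∘L Y ∘L gi) ∘L Y) := by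
      rw [← H.Li_sub, ContinuousLinearMap.sub_comp, map_sub, h0, sub_zero]
    rw [e]
    refine (abs_trc_le' _).trans (mul_le_mul_of_nonneg_left ?_ hd0)
    have : ‖(Li ∘L Y ∘L gi) ∘L Y‖ ≤ 4 / 3 * (‖Y‖ * 1) * ‖Y‖ :=
      ncomp (ncomp (H.norm_Li' hY) (ncomp le_rfl H.norm_gi)) le_rfl
    nlinarith
  have e3 : Crest.Agent.R247.Mcs816.trL F (Li ∘L Y) = trc F (Li ∘L Y) := rfl
  rw [e3] at h1
  set D := (ContinuousLinearMap.id ℝ F + Li ∘L Y).det with hD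
  have h3 : |D - 1| ≤ C1 * ‖Y‖ ^ 2 := by
    have n3 : ‖Li ∘L Y‖ ^ 2 ≤ 16 / 9 * ‖Y‖ ^ 2 := by
      have := pow_le_pow_left₀ (norm_nonneg (Li ∘L Y)) n1 2
      calc _ ≤ (4 / 3 * ‖Y‖) ^ 2 := this
        _ = _ := by ring
    have n4 : K * ‖Li ∘L Y‖ ^ 2 ≤ K * (16 / 9 * ‖Y‖ ^ 2) := mul_le_mul_of_nonneg_left n3 hK0
    have t1 : |D - 1| ≤ |D - 1 - trc F (Li ∘L Y)| + |trc F (Li ∘L Y)| := by
      have : D - 1 = (D - 1 - trc F (Li ∘L Y)) + trc F (Li ∘L Y) := by ring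
      conv_lhs => rw [this]
      exact abs_add_le _ _
    have p1 : 0 ≤ K * ‖Y‖ ^ 2 := by positivity
    have p2 : 0 ≤ d * ‖Y‖ ^ 2 := by positivity
    rw [hC1]
    nlinarith
  have n5 : ‖Y‖ ^ 2 ≤ 1 := by nlinarith
  rw [e1]
  have e4 : D ^ 2 - 1 = (D - 1) * (D - 1 + 2) := by ring
  rw [e4, abs_mul]
  have n6 : |D - 1 + 2| ≤ C1 + 2 := by
    refine (abs_add_le _ _).trans ?_
    have : C1 * ‖Y‖ ^ 2 ≤ C1 * 1 := mul_le_mul_of_nonneg_left n5 hC10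
    have e5 : |(2 : ℝ)| = 2 := abs_of_pos (by norm_num)
    rw [e5]
    linarith
  calc |D - 1| * |D - 1 + 2| ≤ C1 * ‖Y‖ ^ 2 * (C1 + 2) :=
        mul_le_mul h3 n6 (abs_nonneg _) (by positivity)
    _ = _ := by ring

end Crest.Agent.R234.GLK_128
end
end

-- ▼ part R234/GLK5_128
section

/-!
# Row 234, node GL-KB (helper128), file 5: the arithmetic of the fields of `GL_394.KB`

`η = |ν|/s`, `K1 ≥ |Dw|`, `a2 ≥ |D²w| s`, `a3 ≥ |D³w| s²`, `t = τ`.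
-/

set_option autoImplicit false

open Function Set Filter Topology

noncomputable section

namespace Crest.Agent.R234.GLK_128

/-- coefficient of the `(τ + q)`-terms, up to the dimensional constant -/
def cc (K1 a2 a3 : ℝ) : ℝ := K1 * a2 + a2 ^ 2 + a2 * a3 + K1 * a3

/-- coefficient of the `d`-terms, up to the dimensional constant -/
def dd (a2 a3 hh : ℝ) : ℝ := (a2 + a3) * hh

theorem cc_nonneg {K1 a2 a3 : ℝ} (h1 : 0 ≤ K1) (h2 : 0 ≤ a2) (h3 : 0 ≤ a3) : 0 ≤ cc K1 a2 a3 := by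
  unfold cc; positivity

theorem dd_nonneg {a2 a3 hh : ℝ} (h2 : 0 ≤ a2) (h3 : 0 ≤ a3) (h4 : 0 ≤ hh) : 0 ≤ dd a2 a3 hh := by
  unfold dd; positivity

theorem K1a2_le {K1 a2 a3 : ℝ} (h1 : 0 ≤ K1) (h2 : 0 ≤ a2) (h3 : 0 ≤ a3) :
    K1 * a2 ≤ cc K1 a2 a3 := by
  unfold cc
  have : 0 ≤ a2 ^ 2 + a2 * a3 + K1 * a3 := by positivity
  linarith

theorem a2sq_le {K1 a2 a3 : ℝ} (h1 : 0 ≤ K1) (h2 : 0 ≤ a2) (h3 : 0 ≤ a3) :
    a2 ^ 2 ≤ cc K1 a2 a3 := by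
  unfold cc
  have : 0 ≤ K1 * a2 + a2 * a3 + K1 * a3 := by positivity
  linarith

/-- `√τ η ≤ (τ + η²)/2` -/
theorem am_gm {t st η : ℝ} (hst : st ^ 2 = t) : st * η ≤ (t + η ^ 2) / 2 := by
  nlinarith [sq_nonneg (st - η)]

theorem kb1 {N K1 a2 a3 Y t st η qn x : ℝ} (hN : 0 ≤ N) (h1 : 0 ≤ K1) (h2 : 0 ≤ a2) (h3 : 0 ≤ a3)
    (hη : 0 ≤ η) (hst0 : 0 ≤ st) (hst : st ^ 2 = t) (hq0 : 0 ≤ qn) (hq : qn ≤ K1) (hY0 : 0 ≤ Y)
    (hY : Y ≤ a2 * η) (hx : x ≤ 3 * N * (qn * Y * st)) :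
    x ≤ 2 * N * cc K1 a2 a3 * (t + η ^ 2) := by
  have e1 : qn * Y * st ≤ K1 * (a2 * η) * st :=
    mul_le_mul_of_nonneg_right (mul_le_mul hq hY hY0 h1) hst0
  have e2 : K1 * (a2 * η) * st = K1 * a2 * (st * η) := by ring
  have e3 : K1 * a2 * (st * η) ≤ K1 * a2 * ((t + η ^ 2) / 2) :=
    mul_le_mul_of_nonneg_left (am_gm hst) (by positivity)
  have t0 : 0 ≤ t := by rw [← hst]; positivity
  have e4 : K1 * a2 * ((t + η ^ 2) / 2) ≤ cc K1 a2 a3 * ((t + η ^ 2) / 2) :=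
    mul_le_mul_of_nonneg_right (K1a2_le h1 h2 h3) (by positivity)
  have e5 : qn * Y * st ≤ cc K1 a2 a3 * ((t + η ^ 2) / 2) := by linarith
  have e6 : 3 * N * (qn * Y * st) ≤ 3 * N * (cc K1 a2 a3 * ((t + η ^ 2) / 2)) :=
    mul_le_mul_of_nonneg_left e5 (by positivity)
  have e7 : 0 ≤ N * cc K1 a2 a3 * (t + η ^ 2) := by
    have := cc_nonneg h1 h2 h3
    positivity
  nlinarith

theorem kb2 {M a2 Y t η x : ℝ} (h2 : 0 ≤ a2) (h2' : a2 ≤ 1) (hη : 0 ≤ η) (ht : 0 ≤ t)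
    (hY0 : 0 ≤ Y) (hY : Y ≤ a2 * η) (hM0 : 0 ≤ M) (hM : M ≤ 2) (hx : x ≤ M * (4 * (t + Y ^ 2))) :
    x ≤ 8 * (t + η ^ 2) := by
  have e1 : Y ≤ η := hY.trans (by nlinarith)
  have e2 : Y ^ 2 ≤ η ^ 2 := pow_le_pow_left₀ hY0 e1 2
  have e3 : M * (4 * (t + Y ^ 2)) ≤ 2 * (4 * (t + Y ^ 2)) :=
    mul_le_mul_of_nonneg_right hM (by positivity)
  linarith

theorem kb3 {N K1 a2 a3 hh Y t st η qn Kt S b x : ℝ} (hN : 0 ≤ N) (h1 : 0 ≤ K1) (h1' : K1 ≤ 1)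
    (h2 : 0 ≤ a2) (h2' : a2 ≤ 1) (h3 : 0 ≤ a3) (hη : 0 ≤ η) (hhη : η ≤ hh) (hst0 : 0 ≤ st)
    (hst : st ^ 2 = t) (hq0 : 0 ≤ qn) (hq : qn ≤ K1) (hY0 : 0 ≤ Y) (hY : Y ≤ a2 * η)
    (hb : 0 ≤ b) (hKt0 : 0 ≤ Kt) (hKt : Kt ≤ a3 * η * b) (hS0 : 0 ≤ S) (hS : S ≤ a2 * b)
    (hx : x ≤ 8 * N * (Kt * (Y + t + qn * st) + S * (qn * Y ^ 2 + qn * t + Y * st))) :
    x ≤ (16 * N * cc K1 a2 a3 + 16 * N * dd a2 a3 hh) * b * (t + η ^ 2) := by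
  have t0 : 0 ≤ t := by rw [← hst]; positivity
  have hh0 : 0 ≤ hh := hη.trans hhη
  set Z := t + η ^ 2 with hZ
  have Z0 : 0 ≤ Z := by positivity
  have am := am_gm (η := η) hst
  have tZ : t ≤ Z := by rw [hZ]; nlinarith [sq_nonneg η]
  have ηZ : η ^ 2 ≤ Z := by rw [hZ]; linarith
  have u1 : Kt * (Y + t + qn * st) ≤ a3 * η * b * (a2 * η + t + K1 * st) := by
    refine mul_le_mul hKt ?_ (by positivity) (by positivity)
    have : qn * st ≤ K1 * st := mul_le_mul_of_nonneg_right hq hst0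
    linarith
  have u2 : S * (qn * Y ^ 2 + qn * t + Y * st) ≤
      a2 * b * (K1 * (a2 * η) ^ 2 + K1 * t + a2 * η * st) := by
    refine mul_le_mul hS ?_ (by positivity) (by positivity)
    have v1 : qn * Y ^ 2 ≤ K1 * (a2 * η) ^ 2 :=
      mul_le_mul hq (pow_le_pow_left₀ hY0 hY 2) (by positivity) h1
    have v2 : qn * t ≤ K1 * t := mul_le_mul_of_nonneg_right hq t0
    have v3 : Y * st ≤ a2 * η * st := mul_le_mul_of_nonneg_right hY hst0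
    linarith
  -- monomials
  have w1 : a3 * a2 * η ^ 2 ≤ a3 * a2 * Z := mul_le_mul_of_nonneg_left ηZ (by positivity)
  have w2 : a3 * (η * t) ≤ a3 * (hh * Z) :=
    mul_le_mul_of_nonneg_left (mul_le_mul hhη tZ t0 hh0) h3
  have w3 : a3 * K1 * (st * η) ≤ a3 * K1 * Z :=
    mul_le_mul_of_nonneg_left (am.trans (by linarith)) (by positivity)
  have w4 : a2 * K1 * (a2 ^ 2 * η ^ 2) ≤ a2 * K1 * Z := by
    refine mul_le_mul_of_nonneg_left ?_ (by positivity)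
    have : a2 ^ 2 ≤ 1 := by nlinarith
    calc a2 ^ 2 * η ^ 2 ≤ 1 * η ^ 2 := mul_le_mul_of_nonneg_right this (by positivity)
      _ ≤ Z := by linarith
  have w5 : a2 * K1 * t ≤ a2 * K1 * Z := mul_le_mul_of_nonneg_left tZ (by positivity)
  have w6 : a2 ^ 2 * (st * η) ≤ a2 ^ 2 * Z :=
    mul_le_mul_of_nonneg_left (am.trans (by linarith)) (by positivity)
  have w7 : 0 ≤ a2 * (hh * Z) := by positivity
  have w8 : 0 ≤ a2 ^ 2 * Z := by positivity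
  have w9 : 0 ≤ a2 * K1 * Z := by positivity
  have w10 : 0 ≤ a3 * a2 * Z := by positivity
  have w11 : 0 ≤ a3 * K1 * Z := by positivity
  have w12 : 0 ≤ a3 * (hh * Z) := by positivity
  have s1 : a3 * η * b * (a2 * η + t + K1 * st) + a2 * b * (K1 * (a2 * η) ^ 2 + K1 * t +
      a2 * η * st) = b * (a3 * a2 * η ^ 2 + a3 * (η * t) + a3 * K1 * (st * η) +
        a2 * K1 * (a2 ^ 2 * η ^ 2) + a2 * K1 * t + a2 ^ 2 * (st * η)) := by ring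
  have s2 : a3 * a2 * η ^ 2 + a3 * (η * t) + a3 * K1 * (st * η) +
        a2 * K1 * (a2 ^ 2 * η ^ 2) + a2 * K1 * t + a2 ^ 2 * (st * η) ≤
        2 * (cc K1 a2 a3 + dd a2 a3 hh) * Z := by
    have : 2 * (cc K1 a2 a3 + dd a2 a3 hh) * Z = 2 * (a2 * K1 * Z) + 2 * (a2 ^ 2 * Z) +
        2 * (a3 * a2 * Z) + 2 * (a3 * K1 * Z) + 2 * (a2 * (hh * Z)) + 2 * (a3 * (hh * Z)) := by
      unfold cc dd; ring
    rw [this]
    linarith
  have s3 : Kt * (Y + t + qn * st) + S * (qn * Y ^ 2 + qn * t + Y * st) ≤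
      b * (2 * (cc K1 a2 a3 + dd a2 a3 hh) * Z) := by
    refine (add_le_add u1 u2).trans ?_
    rw [s1]
    exact mul_le_mul_of_nonneg_left s2 hb
  have s4 := mul_le_mul_of_nonneg_left s3 (show 0 ≤ 8 * N by positivity)
  calc x ≤ _ := hx
    _ ≤ 8 * N * (b * (2 * (cc K1 a2 a3 + dd a2 a3 hh) * Z)) := s4
    _ = _ := by ring

theorem kb4 {M K1 a2 a3 hh Y t η x : ℝ} (hM : 0 ≤ M) (h1 : 0 ≤ K1) (h2 : 0 ≤ a2) (h3 : 0 ≤ a3)
    (hη : 0 ≤ η) (hhη : η ≤ hh) (ht : 0 ≤ t) (hY0 : 0 ≤ Y) (hY : Y ≤ a2 * η)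
    (hx : x ≤ M * (2 * Y ^ 2 + 3 * (Y * t))) :
    x ≤ 3 * M * cc K1 a2 a3 * η ^ 2 + 3 * M * dd a2 a3 hh * t := by
  have hh0 : 0 ≤ hh := hη.trans hhη
  have e1 : Y ^ 2 ≤ a2 ^ 2 * η ^ 2 := by
    have := pow_le_pow_left₀ hY0 hY 2
    calc _ ≤ (a2 * η) ^ 2 := this
      _ = _ := by ring
  have e2 : a2 ^ 2 * η ^ 2 ≤ cc K1 a2 a3 * η ^ 2 :=
    mul_le_mul_of_nonneg_right (a2sq_le h1 h2 h3) (by positivity)
  have e3 : Y * t ≤ dd a2 a3 hh * t := by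
    refine mul_le_mul_of_nonneg_right (hY.trans ?_) ht
    unfold dd
    have : a2 * η ≤ a2 * hh := mul_le_mul_of_nonneg_left hhη h2
    have : 0 ≤ a3 * hh := by positivity
    linarith
  have e4 : 2 * Y ^ 2 + 3 * (Y * t) ≤ 3 * (cc K1 a2 a3 * η ^ 2) + 3 * (dd a2 a3 hh * t) := by
    have : 0 ≤ cc K1 a2 a3 * η ^ 2 := by
      have := cc_nonneg h1 h2 h3
      positivity
    linarith
  calc x ≤ _ := hx
    _ ≤ M * (3 * (cc K1 a2 a3 * η ^ 2) + 3 * (dd a2 a3 hh * t)) := mul_le_mul_of_nonneg_left e4 hM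
    _ = _ := by ring

/-- `s` scale, `X = |x'|`, `ν = η s` -/
theorem kb5 {K1 a2 a3 Y η qn s X nu x : ℝ} (h1 : 0 ≤ K1) (h2 : 0 ≤ a2) (h3 : 0 ≤ a3)
    (hs : 0 < s) (hη : 0 ≤ η) (hq0 : 0 ≤ qn) (hq : qn ≤ K1) (hY0 : 0 ≤ Y) (hY : Y ≤ a2 * η)
    (hX0 : 0 ≤ X) (hX : X ≤ 2 * s) (hnu : nu = η * s) (hx : x ≤ 5 / 4 * (qn * Y) * X) :
    x ≤ 3 * cc K1 a2 a3 * nu := by
  have e1 : qn * Y ≤ K1 * (a2 * η) := mul_le_mul hq hY hY0 h1
  have e2 : 5 / 4 * (qn * Y) * X ≤ 5 / 4 * (K1 * (a2 * η)) * (2 * s) := by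
    refine mul_le_mul ?_ hX hX0 (by positivity)
    linarith
  have e3 : 5 / 4 * (K1 * (a2 * η)) * (2 * s) = 5 / 2 * (K1 * a2) * (η * s) := by ring
  have e4 : K1 * a2 * (η * s) ≤ cc K1 a2 a3 * (η * s) :=
    mul_le_mul_of_nonneg_right (K1a2_le h1 h2 h3) (by positivity)
  have e5 : 0 ≤ cc K1 a2 a3 * (η * s) := by
    have := cc_nonneg h1 h2 h3
    positivity
  rw [hnu]
  nlinarith

theorem kb5a {a2 a3 hh Y η t s X x : ℝ} (h2 : 0 ≤ a2) (h3 : 0 ≤ a3) (hs : 0 < s)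
    (hη : 0 ≤ η) (hhη : η ≤ hh) (ht : 0 ≤ t) (hY0 : 0 ≤ Y) (hY : Y ≤ a2 * η)
    (hX0 : 0 ≤ X) (hX : X ≤ 2 * s) (hx : x ≤ 7 * (t * Y * X ^ 2)) :
    x ≤ 28 * dd a2 a3 hh * (s ^ 2 * t) := by
  have hh0 : 0 ≤ hh := hη.trans hhη
  have e1 : Y ≤ dd a2 a3 hh := by
    refine hY.trans ?_
    unfold dd
    have : a2 * η ≤ a2 * hh := mul_le_mul_of_nonneg_left hhη h2
    have : 0 ≤ a3 * hh := by positivity
    linarith
  have e2 : X ^ 2 ≤ 4 * s ^ 2 := by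
    have := pow_le_pow_left₀ hX0 hX 2
    calc _ ≤ (2 * s) ^ 2 := this
      _ = _ := by ring
  have e3 : t * Y * X ^ 2 ≤ t * dd a2 a3 hh * (4 * s ^ 2) :=
    mul_le_mul (mul_le_mul_of_nonneg_left e1 ht) e2 (by positivity)
      (mul_nonneg ht (dd_nonneg h2 h3 hh0))
  calc x ≤ _ := hx
    _ ≤ 7 * (t * dd a2 a3 hh * (4 * s ^ 2)) := by linarith
    _ = _ := by ring

theorem kb5b {K1 a2 a3 hh Y η t st s X qn y nu x : ℝ} (h1 : 0 ≤ K1) (h2 : 0 ≤ a2) (h3 : 0 ≤ a3)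
    (hs : 0 < s) (hη : 0 ≤ η) (hhη : η ≤ hh) (hst0 : 0 ≤ st) (hst : st ^ 2 = t)
    (hq0 : 0 ≤ qn) (hq : qn ≤ K1) (hY0 : 0 ≤ Y) (hY : Y ≤ a2 * η)
    (hX0 : 0 ≤ X) (hX : X ≤ 2 * s) (hy0 : 0 ≤ y) (hy : y ≤ η * s) (hnu : nu = η * s)
    (hx : x ≤ 5 * (y * st * Y * X) + 5 / 4 * (nu * (qn * Y) * X)) :
    x ≤ s ^ 2 * (3 * cc K1 a2 a3 * η ^ 2 + 5 * dd a2 a3 hh * (t + η ^ 2)) := by
  have t0 : 0 ≤ t := by rw [← hst]; positivity
  have hh0 : 0 ≤ hh := hη.trans hhη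
  have am := am_gm (η := η) hst
  have e1 : Y ≤ dd a2 a3 hh := by
    refine hY.trans ?_
    unfold dd
    have : a2 * η ≤ a2 * hh := mul_le_mul_of_nonneg_left hhη h2
    have : 0 ≤ a3 * hh := by positivity
    linarith
  have d0 := dd_nonneg (hh := hh) h2 h3 hh0
  have f1 : y * st * Y * X ≤ η * s * st * dd a2 a3 hh * (2 * s) := by
    refine mul_le_mul ?_ hX hX0 (by positivity)
    refine mul_le_mul ?_ e1 hY0 (by positivity)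
    exact mul_le_mul_of_nonneg_right hy hst0
  have f2 : η * s * st * dd a2 a3 hh * (2 * s) = 2 * s ^ 2 * dd a2 a3 hh * (st * η) := by ring
  have f3 : 2 * s ^ 2 * dd a2 a3 hh * (st * η) ≤
      2 * s ^ 2 * dd a2 a3 hh * ((t + η ^ 2) / 2) :=
    mul_le_mul_of_nonneg_left am (by positivity)
  have g1 : qn * Y ≤ K1 * (a2 * η) := mul_le_mul hq hY hY0 h1
  have g2 : nu * (qn * Y) * X ≤ η * s * (K1 * (a2 * η)) * (2 * s) := by
    rw [hnu]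
    refine mul_le_mul ?_ hX hX0 (by positivity)
    exact mul_le_mul_of_nonneg_left g1 (by positivity)
  have g3 : η * s * (K1 * (a2 * η)) * (2 * s) = 2 * s ^ 2 * (K1 * a2 * η ^ 2) := by ring
  have g4 : K1 * a2 * η ^ 2 ≤ cc K1 a2 a3 * η ^ 2 :=
    mul_le_mul_of_nonneg_right (K1a2_le h1 h2 h3) (by positivity)
  have g5 : 2 * s ^ 2 * (K1 * a2 * η ^ 2) ≤ 2 * s ^ 2 * (cc K1 a2 a3 * η ^ 2) :=
    mul_le_mul_of_nonneg_left g4 (by positivity)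
  have g6 : 0 ≤ s ^ 2 * (cc K1 a2 a3 * η ^ 2) := by
    have := cc_nonneg h1 h2 h3
    positivity
  have e : s ^ 2 * (3 * cc K1 a2 a3 * η ^ 2 + 5 * dd a2 a3 hh * (t + η ^ 2)) =
      3 * (s ^ 2 * (cc K1 a2 a3 * η ^ 2)) + 5 * (2 * s ^ 2 * dd a2 a3 hh * ((t + η ^ 2) / 2)) := by
    ring
  rw [e]
  linarith

end Crest.Agent.R234.GLK_128
end
end

-- ▼ part R234/GLK6_128

/-!
# Row 234, node GL-KB (helper128), file 6: the pointwise bounds `KB` of 394 for the chart `ch` of 456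

Part A: hypotheses `Hy`, the fields `tau0 .. k2, k4 .. k5b` of `GL_394.KB`.
-/

set_option autoImplicit false
set_option maxSynthPendingDepth 3

open MeasureTheory Filter Topology Set Function
open scoped ENNReal NNReal ContDiff InnerProductSpace
open Crest.GeometryTopology.Submanifold Crest.Agent.R234.Vf_884
open Crest.Agent.R234.Main_456
open Crest.Agent.R234.Fm_209 (trc trc_apply trc_comp_comm)
open Crest.Agent.R234.Ell1_3 (adjL ginv gop dns)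
open Crest.Agent.R234.Gi_456 (Gr tube foot yy frame_fr Yo Li hinv At A0t Bt dft dyt Lo Loi ch giB jB
  lamB muG beG pt)

noncomputable section

namespace Crest.Agent.R234.GLK_128

variable {m n k : ℕ}

local notation "adj" => ContinuousLinearMap.adjoint

theorem tr_eq_trc (A : L k) : tr A = trc (Euc k) A := rfl

theorem pj_of_mem {P : L k} (hP : P ∈ G m k) : Pj (Euc m) P where
  idem := hP.1
  sa := hP.2.1.adjoint_eq
  tr := by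
    have h1 := hP.2.2
    rw [tr_eq_trc] at h1
    rw [h1]
    simp

/-- hypotheses of the bounds at the scale `s = e^l`, centre `X0`. -/
structure Hy (π : Euc k →L[ℝ] Euc m) (ρ : Euc k →L[ℝ] Euc n) (x : Euc k) (r : ℝ)
    (w : Euc m → Euc n) (X0 : Euc m) (K : Set (Euc k)) (l K1 K2 K3 hb : ℝ) : Prop where
  gr : Gr r w
  fr : Frame π ρ
  sub : K ⊆ tube π ρ x r w
  k1 : ∀ X, ‖X - X0‖ ≤ Real.exp l → ‖fderiv ℝ w X‖ ≤ K1
  k2 : ∀ X, ‖X - X0‖ ≤ Real.exp l → ‖fderiv ℝ (fderiv ℝ w) X‖ ≤ K2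
  k3 : ∀ X, ‖X - X0‖ ≤ Real.exp l → ‖fderiv ℝ (fderiv ℝ (fderiv ℝ w)) X‖ ≤ K3
  k1le : K1 ≤ 1
  k2s : K2 * Real.exp l ≤ 1 / 2
  hb0 : 0 ≤ hb
  hb1 : hb ≤ 1
  min : ∀ X, ‖X - X0‖ ≤ Real.exp l → ∀ᶠ X' in 𝓝 X, Msys w X' = 0
  nu : ∀ z ∈ K, ‖(ch π ρ x r w X0).x z‖ ≤ Real.exp l →
    ‖(ch π ρ x r w X0).nu z‖ ≤ hb * Real.exp l

/-- the dimensional constant -/
def Ck (m n : ℕ) : ℝ := 64 * (m + n + 1)

/-- normal part of `zeta` -/
def zN (π : Euc k →L[ℝ] Euc m) (ρ : Euc k →L[ℝ] Euc n) (x : Euc k) (r : ℝ)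
    (w : Euc m → Euc n) (X0 : Euc m) (z : Euc k) : Euc k :=
  Nz (adj π) (adj ρ) (fderiv ℝ w (foot π ρ x r w z)) (hinv (fderiv ℝ w (foot π ρ x r w z)))
    (Yo w (foot π ρ x r w z) (yy π ρ x r w z)) (ginv (fderiv ℝ w (foot π ρ x r w z)))
    (adj (Lo (fderiv ℝ w X0)) (Lo (fderiv ℝ w X0) (foot π ρ x r w z - X0)))

variable {π : Euc k →L[ℝ] Euc m} {ρ : Euc k →L[ℝ] Euc n} {x : Euc k} {r : ℝ} {w : Euc m → Euc n}
  {X0 : Euc m} {K : Set (Euc k)} {l K1 K2 K3 hb : ℝ}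

theorem Ck_nonneg (m n : ℕ) : 0 ≤ Ck m n := by unfold Ck; positivity

theorem le_Ck (m n : ℕ) {a : ℝ} (h : a ≤ 64 * (m + n + 1)) : a ≤ Ck m n := h

theorem Hy.K1n (h : Hy π ρ x r w X0 K l K1 K2 K3 hb) : 0 ≤ K1 :=
  (norm_nonneg _).trans (h.k1 X0 (by simpa using (Real.exp_pos l).le))

theorem Hy.K2n (h : Hy π ρ x r w X0 K l K1 K2 K3 hb) : 0 ≤ K2 :=
  (norm_nonneg (fderiv ℝ (fderiv ℝ w) X0)).trans (h.k2 X0 (by simpa using (Real.exp_pos l).le))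

theorem Hy.K3n (h : Hy π ρ x r w X0 K l K1 K2 K3 hb) : 0 ≤ K3 :=
  (norm_nonneg (fderiv ℝ (fderiv ℝ (fderiv ℝ w)) X0)).trans
    (h.k3 X0 (by simpa using (Real.exp_pos l).le))

theorem Hy.a2n (h : Hy π ρ x r w X0 K l K1 K2 K3 hb) : 0 ≤ K2 * Real.exp l :=
  mul_nonneg h.K2n (Real.exp_pos l).le

theorem Hy.a3n (h : Hy π ρ x r w X0 K l K1 K2 K3 hb) : 0 ≤ K3 * Real.exp (2 * l) :=
  mul_nonneg h.K3n (Real.exp_pos _).le

theorem Hy.a2le (h : Hy π ρ x r w X0 K l K1 K2 K3 hb) : K2 * Real.exp l ≤ 1 :=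
  h.k2s.trans (by norm_num)

theorem Hy.q0 (h : Hy π ρ x r w X0 K l K1 K2 K3 hb) : ‖fderiv ℝ w X0‖ ≤ 1 / 8 := h.gr.d1 X0

theorem norm_Lo (h : Hy π ρ x r w X0 K l K1 K2 K3 hb) : ‖Lo (fderiv ℝ w X0)‖ ≤ 65 / 64 :=
  ContinuousLinearMap.opNorm_le_bound _ (by norm_num) fun v => Gi_456.norm_Lo_le h.q0 v

theorem norm_adj_Lo (h : Hy π ρ x r w X0 K l K1 K2 K3 hb) : ‖adj (Lo (fderiv ℝ w X0))‖ ≤ 65 / 64 := by
  rw [norm_adj]; exact norm_Lo h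

theorem norm_Loi (q : Euc m →L[ℝ] Euc n) : ‖Loi q‖ ≤ 1 := (Gi_456.Loi_spec q).2.2

theorem Hy.foot_le (_h : Hy π ρ x r w X0 K l K1 K2 K3 hb) {z : Euc k}
    (hr : ‖(ch π ρ x r w X0).x z‖ ≤ Real.exp l) : ‖foot π ρ x r w z - X0‖ ≤ Real.exp l :=
  (Gi_456.le_norm_Lo _ _).trans hr

theorem Hy.yyle (h : Hy π ρ x r w X0 K l K1 K2 K3 hb) {z : Euc k} (hz : z ∈ K) :
    ‖yy π ρ x r w z‖ ≤ 2 * r := (h.gr.norm_yy_lt (h.sub hz)).le

theorem Hy.inv (h : Hy π ρ x r w X0 K l K1 K2 K3 hb) {z : Euc k} (hz : z ∈ K) :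
    Inv (fderiv ℝ w (foot π ρ x r w z)) (Yo w (foot π ρ x r w z) (yy π ρ x r w z))
      (ginv (fderiv ℝ w (foot π ρ x r w z))) (hinv (fderiv ℝ w (foot π ρ x r w z)))
      (Li w (foot π ρ x r w z) (yy π ρ x r w z)) := h.gr.inv _ (h.yyle hz)

theorem Hy.q4 (h : Hy π ρ x r w X0 K l K1 K2 K3 hb) (z : Euc k) :
    ‖fderiv ℝ w (foot π ρ x r w z)‖ ≤ 1 / 4 := (h.gr.d1 _).trans (by norm_num)

theorem Hy.qK (h : Hy π ρ x r w X0 K l K1 K2 K3 hb) {z : Euc k}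
    (hr : ‖(ch π ρ x r w X0).x z‖ ≤ Real.exp l) : ‖fderiv ℝ w (foot π ρ x r w z)‖ ≤ K1 :=
  h.k1 _ (h.foot_le hr)

theorem Hy.Y4 (h : Hy π ρ x r w X0 K l K1 K2 K3 hb) {z : Euc k} (hz : z ∈ K) :
    ‖Yo w (foot π ρ x r w z) (yy π ρ x r w z)‖ ≤ 1 / 4 := h.gr.norm_Yo_le _ (h.yyle hz)

theorem Hy.Ys (h : Hy π ρ x r w X0 K l K1 K2 K3 hb) (z : Euc k) :
    adj (Yo w (foot π ρ x r w z) (yy π ρ x r w z)) = Yo w (foot π ρ x r w z) (yy π ρ x r w z) :=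
  h.gr.Yo_adj _ _

/-- normalised height -/
def et (π : Euc k →L[ℝ] Euc m) (ρ : Euc k →L[ℝ] Euc n) (x : Euc k) (r : ℝ)
    (w : Euc m → Euc n) (X0 : Euc m) (l : ℝ) (z : Euc k) : ℝ :=
  ‖(ch π ρ x r w X0).nu z‖ * Real.exp (-l)

theorem et_nonneg (z : Euc k) : 0 ≤ et π ρ x r w X0 l z := by unfold et; positivity

theorem exp_neg_mul (l : ℝ) : Real.exp (-l) * Real.exp l = 1 := by
  rw [← Real.exp_add]; simp

theorem et_mul (z : Euc k) : ‖(ch π ρ x r w X0).nu z‖ = et π ρ x r w X0 l z * Real.exp l := by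
  rw [et, mul_assoc, exp_neg_mul, mul_one]

theorem et_le (h : Hy π ρ x r w X0 K l K1 K2 K3 hb) {z : Euc k} (hz : z ∈ K)
    (hr : ‖(ch π ρ x r w X0).x z‖ ≤ Real.exp l) : et π ρ x r w X0 l z ≤ hb := by
  have h1 := h.nu z hz hr
  rw [et_mul (l := l)] at h1
  exact le_of_mul_le_mul_right h1 (Real.exp_pos l)

theorem qq_eq (z : Euc k) : GL_394.qq (ch π ρ x r w X0) l z = et π ρ x r w X0 l z ^ 2 := by
  have h1 : (ch π ρ x r w X0).f z = ‖(ch π ρ x r w X0).nu z‖ ^ 2 / 2 := rfl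
  have h2 : Real.exp (-2 * l) = Real.exp (-l) ^ 2 := by
    rw [← Real.exp_nat_mul]; congr 1; push_cast; ring
  rw [GL_394.qq, h1, et, h2]
  ring

theorem norm_yy_le_nu (h : Hy π ρ x r w X0 K l K1 K2 K3 hb) (z : Euc k) :
    ‖yy π ρ x r w z‖ ≤ et π ρ x r w X0 l z * Real.exp l := by
  rw [← et_mul]
  exact norm_le_BB (frame_fr h.fr) _

theorem Hy.YK (h : Hy π ρ x r w X0 K l K1 K2 K3 hb) {z : Euc k}
    (hr : ‖(ch π ρ x r w X0).x z‖ ≤ Real.exp l) :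
    ‖Yo w (foot π ρ x r w z) (yy π ρ x r w z)‖ ≤ K2 * Real.exp l * et π ρ x r w X0 l z := by
  refine (Gi_456.norm_Yo_le w _ _).trans ?_
  calc _ ≤ K2 * (et π ρ x r w X0 l z * Real.exp l) :=
        mul_le_mul (h.k2 _ (h.foot_le hr)) (norm_yy_le_nu h z) (norm_nonneg _) h.K2n
    _ = _ := by ring

theorem tau_eq (z : Euc k) (P : L k) : (ch π ρ x r w X0).tau z P =
    tau0 (adj π) (adj ρ) (fderiv ℝ w (foot π ρ x r w z)) (hinv (fderiv ℝ w (foot π ρ x r w z))) P :=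
  rfl

theorem T_eq (p : Euc k × L k) : GL_394.T (ch π ρ x r w X0) p = Lo (fderiv ℝ w X0) ∘L
    (DX (adj π) (adj ρ) (fderiv ℝ w (foot π ρ x r w p.1)) (Li w (foot π ρ x r w p.1)
      (yy π ρ x r w p.1)) ∘L p.2 ∘L AA (adj π) (adj ρ) (fderiv ℝ w (foot π ρ x r w p.1))
        (Yo w (foot π ρ x r w p.1) (yy π ρ x r w p.1))) ∘L Loi (fderiv ℝ w X0) := rfl

theorem trc_conj (q : Euc m →L[ℝ] Euc n) (A : L m) :
    trc (Euc m) (Lo q ∘L A ∘L Loi q) = trc (Euc m) A := by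
  rw [trc_comp_comm, ContinuousLinearMap.comp_assoc, (Gi_456.Loi_spec q).1,
    ContinuousLinearMap.comp_id]

theorem cast_fin (m : ℕ) : (Module.finrank ℝ (Euc m) : ℝ) = m := by simp

theorem Hy.tau_nonneg (h : Hy π ρ x r w X0 K l K1 K2 K3 hb) {p : Euc k × L k}
    (hp : p ∈ K ×ˢ G m k) : 0 ≤ (ch π ρ x r w X0).tau p.1 p.2 :=
  tau0_nonneg (frame_fr h.fr) (h.inv hp.1) (pj_of_mem hp.2)

theorem Hy.tau_le (h : Hy π ρ x r w X0 K l K1 K2 K3 hb) {p : Euc k × L k}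
    (hp : p ∈ K ×ˢ G m k) : (ch π ρ x r w X0).tau p.1 p.2 ≤ m := by
  have := tau0_le (frame_fr h.fr) (h.inv hp.1) (pj_of_mem hp.2)
  rwa [cast_fin] at this

theorem Hy.f1 (h : Hy π ρ x r w X0 K l K1 K2 K3 hb) {p : Euc k × L k}
    (hp : p ∈ K ×ˢ G m k) (hr : ‖(ch π ρ x r w X0).x p.1‖ ≤ Real.exp l) :
    |(ch π ρ x r w X0).tau p.1 p.2 - (m - tr (GL_394.T (ch π ρ x r w X0) p))| ≤
      2 * n * cc K1 (K2 * Real.exp l) (K3 * Real.exp (2 * l)) *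
        ((ch π ρ x r w X0).tau p.1 p.2 + GL_394.qq (ch π ρ x r w X0) l p.1) := by
  have h1 := abs_k1 (frame_fr h.fr) (h.inv hp.1) (pj_of_mem hp.2) (h.q4 p.1) (h.Y4 hp.1)
  rw [cast_fin, cast_fin] at h1
  have e : tr (GL_394.T (ch π ρ x r w X0) p) = trc (Euc m)
      (DX (adj π) (adj ρ) (fderiv ℝ w (foot π ρ x r w p.1)) (Li w (foot π ρ x r w p.1)
      (yy π ρ x r w p.1)) ∘L p.2 ∘L AA (adj π) (adj ρ) (fderiv ℝ w (foot π ρ x r w p.1))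
        (Yo w (foot π ρ x r w p.1) (yy π ρ x r w p.1))) := by
    rw [T_eq, tr_eq_trc, trc_conj]
  rw [e, tau_eq, qq_eq]
  exact kb1 (Nat.cast_nonneg n) h.K1n h.a2n h.a3n (et_nonneg _) (Real.sqrt_nonneg _)
    (Real.sq_sqrt (h.tau_nonneg hp)) (norm_nonneg _) (h.qK hr) (norm_nonneg _) (h.YK hr) h1

theorem Hy.f2 (h : Hy π ρ x r w X0 K l K1 K2 K3 hb) {p : Euc k × L k}
    (hp : p ∈ K ×ˢ G m k) (hr : ‖(ch π ρ x r w X0).x p.1‖ ≤ Real.exp l) :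
    ‖ContinuousLinearMap.id ℝ (Euc m) - GL_394.T (ch π ρ x r w X0) p‖ ≤
      8 * ((ch π ρ x r w X0).tau p.1 p.2 + GL_394.qq (ch π ρ x r w X0) l p.1) := by
  have h1 := norm_k2 (frame_fr h.fr) (h.inv hp.1) (pj_of_mem hp.2) (h.q4 p.1) (h.Y4 hp.1)
  set T0 := DX (adj π) (adj ρ) (fderiv ℝ w (foot π ρ x r w p.1)) (Li w (foot π ρ x r w p.1)
      (yy π ρ x r w p.1)) ∘L p.2 ∘L AA (adj π) (adj ρ) (fderiv ℝ w (foot π ρ x r w p.1))
        (Yo w (foot π ρ x r w p.1) (yy π ρ x r w p.1)) with hT0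
  have e : ContinuousLinearMap.id ℝ (Euc m) - GL_394.T (ch π ρ x r w X0) p =
      Lo (fderiv ℝ w X0) ∘L (ContinuousLinearMap.id ℝ (Euc m) - T0) ∘L Loi (fderiv ℝ w X0) := by
    rw [T_eq, ← hT0, ContinuousLinearMap.sub_comp, ContinuousLinearMap.comp_sub,
      ContinuousLinearMap.id_comp, (Gi_456.Loi_spec _).2.1]
  have h2 : ‖ContinuousLinearMap.id ℝ (Euc m) - GL_394.T (ch π ρ x r w X0) p‖ ≤
      65 / 64 * (4 * ((ch π ρ x r w X0).tau p.1 p.2 +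
        ‖Yo w (foot π ρ x r w p.1) (yy π ρ x r w p.1)‖ ^ 2)) := by
    rw [e]
    have h3 := ncomp (norm_Lo h) (ncomp h1 (norm_Loi (fderiv ℝ w X0)))
    rw [mul_one] at h3
    exact h3
  rw [qq_eq]
  exact kb2 h.a2n h.a2le (et_nonneg _) (h.tau_nonneg hp) (norm_nonneg _) (h.YK hr) (by norm_num)
    (by norm_num) h2

theorem msb_eq (X : Euc m) : msb (EuclideanSpace.basisFun (Fin m) ℝ) w X = Msys w X := by
  simp [msb, Msys, stdVec]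

theorem Hy.min' (h : Hy π ρ x r w X0 K l K1 K2 K3 hb) {X : Euc m} (hX : ‖X - X0‖ ≤ Real.exp l) :
    ∀ᶠ X' in 𝓝 X, msb (EuclideanSpace.basisFun (Fin m) ℝ) w X' = 0 := by
  filter_upwards [h.min X hX] with X' hX'
  rw [msb_eq, hX']

theorem Hy.trY (h : Hy π ρ x r w X0 K l K1 K2 K3 hb) {X : Euc m} (hX : ‖X - X0‖ ≤ Real.exp l)
    (y : Euc n) : trc (Euc m) (ginv (fderiv ℝ w X) ∘L Yo w X y) = 0 :=
  trc_gi_Yop_zero (EuclideanSpace.basisFun (Fin m) ℝ)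
    (h.gr.cd.contDiffAt.of_le (by norm_num)) (h.min' hX).self_of_nhds y

theorem Hy.f4 (h : Hy π ρ x r w X0 K l K1 K2 K3 hb) {p : Euc k × L k}
    (hp : p ∈ K ×ˢ G m k) (hr : ‖(ch π ρ x r w X0).x p.1‖ ≤ Real.exp l) :
    |tr ((ch π ρ x r w X0).H p.1 ∘L p.2) - (ch π ρ x r w X0).tau p.1 p.2| ≤
      3 * m * cc K1 (K2 * Real.exp l) (K3 * Real.exp (2 * l)) *
        GL_394.qq (ch π ρ x r w X0) l p.1 +
      3 * m * dd (K2 * Real.exp l) (K3 * Real.exp (2 * l)) hb *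
        (ch π ρ x r w X0).tau p.1 p.2 := by
  have h1 := abs_k4 (frame_fr h.fr) (h.inv hp.1) (pj_of_mem hp.2) (h.q4 p.1) (h.Y4 hp.1)
    (h.trY (h.foot_le hr) _)
  rw [cast_fin] at h1
  rw [qq_eq]
  exact kb4 (Nat.cast_nonneg m) h.K1n h.a2n h.a3n (et_nonneg _) (et_le h hp.1 hr)
    (h.tau_nonneg hp) (norm_nonneg _) (h.YK hr) h1

/-- the vector `Lo† x` -/
def xa (π : Euc k →L[ℝ] Euc m) (ρ : Euc k →L[ℝ] Euc n) (x : Euc k) (r : ℝ)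
    (w : Euc m → Euc n) (X0 : Euc m) (z : Euc k) : Euc m :=
  adj (Lo (fderiv ℝ w X0)) (Lo (fderiv ℝ w X0) (foot π ρ x r w z - X0))

theorem norm_xa (h : Hy π ρ x r w X0 K l K1 K2 K3 hb) {z : Euc k}
    (hr : ‖(ch π ρ x r w X0).x z‖ ≤ Real.exp l) : ‖xa π ρ x r w X0 z‖ ≤ 2 * Real.exp l := by
  refine (ContinuousLinearMap.le_opNorm _ _).trans ?_
  calc _ ≤ 65 / 64 * Real.exp l :=
        mul_le_mul (norm_adj_Lo h) hr (norm_nonneg _) (by norm_num)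
    _ ≤ _ := by have := Real.exp_pos l; linarith

theorem xi_eq (z : Euc k) : GL_394.xi (ch π ρ x r w X0) z =
    adj (DX (adj π) (adj ρ) (fderiv ℝ w (foot π ρ x r w z)) (Li w (foot π ρ x r w z)
      (yy π ρ x r w z))) (xa π ρ x r w X0 z) := by
  show adj (Lo (fderiv ℝ w X0) ∘L dft π ρ x r w z)
    (Lo (fderiv ℝ w X0) (foot π ρ x r w z - X0)) = _
  rw [ContinuousLinearMap.adjoint_comp]
  rfl

theorem zeta_eq0 (z : Euc k) : GL_394.zeta (ch π ρ x r w X0) z =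
    (adj (DX (adj π) (adj ρ) (fderiv ℝ w (foot π ρ x r w z)) (Li w (foot π ρ x r w z)
      (yy π ρ x r w z))) - AA (adj π) (adj ρ) (fderiv ℝ w (foot π ρ x r w z))
        (Yo w (foot π ρ x r w z) (yy π ρ x r w z)) ∘L ginv (fderiv ℝ w (foot π ρ x r w z)))
      (xa π ρ x r w X0 z) := by
  rw [GL_394.zeta, xi_eq, _root_.sub_apply]
  congr 1
  have e1 : (ch π ρ x r w X0).gi ((ch π ρ x r w X0).x z) ((ch π ρ x r w X0).x z) =
      Lo (fderiv ℝ w X0) (ginv (fderiv ℝ w (foot π ρ x r w z)) (xa π ρ x r w X0 z)) := by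
    have e2 : pt w X0 ((ch π ρ x r w X0).x z) = foot π ρ x r w z := by
      show X0 + Loi (fderiv ℝ w X0) (Lo (fderiv ℝ w X0) (foot π ρ x r w z - X0)) = _
      rw [Gi_456.Loi_Lo]; abel
    show Lo (fderiv ℝ w X0) (ginv (fderiv ℝ w (pt w X0 ((ch π ρ x r w X0).x z)))
      (adj (Lo (fderiv ℝ w X0)) ((ch π ρ x r w X0).x z))) = _
    rw [e2]
    rfl
  rw [e1]
  show At π ρ w (foot π ρ x r w z) (yy π ρ x r w z) (Loi (fderiv ℝ w X0)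
    (Lo (fderiv ℝ w X0) (ginv (fderiv ℝ w (foot π ρ x r w z)) (xa π ρ x r w X0 z)))) = _
  rw [Gi_456.Loi_Lo]
  rfl

theorem zN_eq (z : Euc k) : zN π ρ x r w X0 z =
    Nz (adj π) (adj ρ) (fderiv ℝ w (foot π ρ x r w z)) (hinv (fderiv ℝ w (foot π ρ x r w z)))
    (Yo w (foot π ρ x r w z) (yy π ρ x r w z)) (ginv (fderiv ℝ w (foot π ρ x r w z)))
    (xa π ρ x r w X0 z) := rfl

theorem zeta_sub (h : Hy π ρ x r w X0 K l K1 K2 K3 hb) {z : Euc k} (hz : z ∈ K) :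
    GL_394.zeta (ch π ρ x r w X0) z - zN π ρ x r w X0 z =
      A0 (adj π) (adj ρ) (fderiv ℝ w (foot π ρ x r w z))
        (Wz (Yo w (foot π ρ x r w z) (yy π ρ x r w z)) (ginv (fderiv ℝ w (foot π ρ x r w z)))
          (Li w (foot π ρ x r w z) (yy π ρ x r w z)) (xa π ρ x r w X0 z)) := by
  rw [zeta_eq0, zeta_eq (h.inv hz) (h.Ys z), zN_eq, _root_.add_apply, add_sub_cancel_right]
  rfl

theorem Hy.f5 (h : Hy π ρ x r w X0 K l K1 K2 K3 hb) {z : Euc k}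
    (hz : z ∈ K) (hr : ‖(ch π ρ x r w X0).x z‖ ≤ Real.exp l) :
    ‖zN π ρ x r w X0 z‖ ≤ 3 * cc K1 (K2 * Real.exp l) (K3 * Real.exp (2 * l)) *
      ‖(ch π ρ x r w X0).nu z‖ := by
  have h1 : ‖zN π ρ x r w X0 z‖ ≤ 5 / 4 * (‖fderiv ℝ w (foot π ρ x r w z)‖ *
      ‖Yo w (foot π ρ x r w z) (yy π ρ x r w z)‖) * ‖xa π ρ x r w X0 z‖ := by
    rw [zN_eq]
    refine (ContinuousLinearMap.le_opNorm _ _).trans ?_
    gcongr
    exact norm_Nz (frame_fr h.fr) (h.inv hz) (h.q4 z)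
  exact kb5 h.K1n h.a2n h.a3n (Real.exp_pos l) (et_nonneg _) (norm_nonneg _) (h.qK hr)
    (norm_nonneg _) (h.YK hr) (norm_nonneg _) (norm_xa h hr) (et_mul z) h1

theorem exp_sq (l : ℝ) : Real.exp l ^ 2 = Real.exp (2 * l) := by
  rw [← Real.exp_nat_mul]; norm_num

theorem Hy.f5a (h : Hy π ρ x r w X0 K l K1 K2 K3 hb) {p : Euc k × L k}
    (hp : p ∈ K ×ˢ G m k) (hr : ‖(ch π ρ x r w X0).x p.1‖ ≤ Real.exp l) :
    |⟪GL_394.xi (ch π ρ x r w X0) p.1 - p.2 (GL_394.xi (ch π ρ x r w X0) p.1),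
      GL_394.zeta (ch π ρ x r w X0) p.1 - zN π ρ x r w X0 p.1⟫_ℝ| ≤
      28 * dd (K2 * Real.exp l) (K3 * Real.exp (2 * l)) hb *
        (Real.exp (2 * l) * (ch π ρ x r w X0).tau p.1 p.2) := by
  rw [zeta_sub h hp.1, xi_eq]
  have h1 := abs_k5a (frame_fr h.fr) (h.inv hp.1) (h.Ys p.1) (pj_of_mem hp.2) (h.q4 p.1)
    (h.Y4 hp.1) (xa π ρ x r w X0 p.1)
  have h2 := kb5a h.a2n h.a3n (Real.exp_pos l) (et_nonneg _) (et_le h hp.1 hr)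
    (h.tau_nonneg hp) (norm_nonneg _) (h.YK hr) (norm_nonneg _) (norm_xa h hr) h1
  rw [exp_sq] at h2
  exact h2

theorem Hy.f5b (h : Hy π ρ x r w X0 K l K1 K2 K3 hb) {p : Euc k × L k}
    (hp : p ∈ K ×ˢ G m k) (hr : ‖(ch π ρ x r w X0).x p.1‖ ≤ Real.exp l) :
    |⟪(ch π ρ x r w X0).nu p.1, p.2 (GL_394.zeta (ch π ρ x r w X0) p.1)⟫_ℝ| ≤
      Real.exp (2 * l) * (3 * cc K1 (K2 * Real.exp l) (K3 * Real.exp (2 * l)) *
        GL_394.qq (ch π ρ x r w X0) l p.1 +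
      5 * dd (K2 * Real.exp l) (K3 * Real.exp (2 * l)) hb *
        ((ch π ρ x r w X0).tau p.1 p.2 + GL_394.qq (ch π ρ x r w X0) l p.1)) := by
  rw [zeta_eq0, qq_eq]
  have h1 := abs_k5b (frame_fr h.fr) (h.inv hp.1) (h.Ys p.1) (pj_of_mem hp.2) (h.q4 p.1)
    (h.Y4 hp.1) (xa π ρ x r w X0 p.1) (yy π ρ x r w p.1)
  have h2 := kb5b h.K1n h.a2n h.a3n (Real.exp_pos l) (et_nonneg _) (et_le h hp.1 hr)
    (Real.sqrt_nonneg _) (Real.sq_sqrt (h.tau_nonneg hp)) (norm_nonneg _) (h.qK hr)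
    (norm_nonneg _) (h.YK hr) (norm_nonneg _) (norm_xa h hr) (norm_nonneg _)
    (norm_yy_le_nu h p.1) (et_mul p.1) h1
  rw [exp_sq] at h2
  exact h2

/-! ### continuity of `zN` -/

theorem continuousAt_hinv (q : Euc m →L[ℝ] Euc n) :
    ContinuousAt (hinv : (Euc m →L[ℝ] Euc n) → (Euc n →L[ℝ] Euc n)) q := by
  obtain ⟨X, h1, h2, -⟩ := exists_inv_of_le (T := hh q) one_pos (fun v => by
    rw [one_mul]; exact le_hh q v)
  have e : (hh q : Euc n →L[ℝ] Euc n) = ((⟨hh q, X, h2, h1⟩ : (Euc n →L[ℝ] Euc n)ˣ) :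
      Euc n →L[ℝ] Euc n) := rfl
  have h3 : ContinuousAt (Ring.inverse : (Euc n →L[ℝ] Euc n) → (Euc n →L[ℝ] Euc n)) (hh q) := by
    rw [e]
    exact NormedRing.inverse_continuousAt _
  have h4 : ContinuousAt (hh : (Euc m →L[ℝ] Euc n) → (Euc n →L[ℝ] Euc n)) q := by
    have h5 : Continuous (hh : (Euc m →L[ℝ] Euc n) → (Euc n →L[ℝ] Euc n)) := by
      have h6 : Continuous fun q : Euc m →L[ℝ] Euc n => adj q := by
        exact (ContinuousLinearMap.adjoint (𝕜 := ℝ) (E := Euc m) (F := Euc n)).continuous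
      exact continuous_const.add (continuous_id.clm_comp h6)
    exact h5.continuousAt
  exact h3.comp h4

theorem Hy.continuousOn_zN (h : Hy π ρ x r w X0 K l K1 K2 K3 hb) :
    ContinuousOn (zN π ρ x r w X0) K := by
  intro z hz
  refine ContinuousAt.continuousWithinAt ?_
  have hz' := h.sub hz
  have c1 : ContinuousAt (fun z => fderiv ℝ w (foot π ρ x r w z)) z :=
    (h.gr.contDiffAt_dw h.fr hz').continuousAt
  have c2 : ContinuousAt (fun z => Bt π ρ w (foot π ρ x r w z)) z :=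
    (h.gr.contDiffAt_Bt h.fr hz').continuousAt
  have c3 : ContinuousAt (fun z => Yo w (foot π ρ x r w z) (yy π ρ x r w z)) z :=
    (h.gr.contDiffAt_Yo h.fr hz').continuousAt
  have c4 : ContinuousAt (fun z => hinv (fderiv ℝ w (foot π ρ x r w z))) z :=
    (continuousAt_hinv _).comp (f := fun z => fderiv ℝ w (foot π ρ x r w z)) c1
  have c5 : ContinuousAt (fun z => ginv (fderiv ℝ w (foot π ρ x r w z))) z :=
    (Ell1_3.ginv_contDiff (F := Euc m) (V := Euc n)).continuous.continuousAt.comp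
      (f := fun z => fderiv ℝ w (foot π ρ x r w z)) c1
  have c6 : ContinuousAt (fun z => foot π ρ x r w z - X0) z :=
    (h.gr.contDiffAt_foot h.fr hz').continuousAt.sub continuousAt_const
  have c7 : ContinuousAt (fun z => adj (Lo (fderiv ℝ w X0)) (Lo (fderiv ℝ w X0)
      (foot π ρ x r w z - X0))) z :=
    ((adj (Lo (fderiv ℝ w X0))).continuous.comp (Lo (fderiv ℝ w X0)).continuous).continuousAt.comp
      (f := fun z => foot π ρ x r w z - X0) c6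
  have c8 := ((c2.clm_comp (c4.clm_comp (c1.clm_comp (c3.clm_comp c5)))).neg).clm_apply c7
  exact c8

end Crest.Agent.R234.GLK_128
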