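import Mathlib
import Crest.Agent.R234.Pers2_540
import Crest.Agent.R234.Main2_456
import Crest.Agent.R234.Al7_182
import Crest.Agent.R234.FL3_567
import Crest.Agent.R234.End4_395
import Crest.Agent.R234.Stp1_518
import Crest.Agent.R234.Top9_395
import Crest.Agent.R234.GL7_394
import Crest.Agent.R234.F10w_188
import Crest.Agent.R234.Fd1_534
import Crest.Agent.R234.End6_395
import Crest.Agent.R234.Mx17_397
import Crest.Agent.R234.Lk1_456
import Crest.Agent.R234.Swb7_159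
import Crest.Agent.R234.GLK6_128

-- ▼ part R234/FL1_567
section

/-!
# R234 (helper567), node F9-FL, part 1: a flat measure with small mean error has small height excess

Pure measure theory.  `h` = height over the reference graph, `h0` = height over a plane (in the same
coordinates), `h - h0 = a + L x + O(κ)` with `a + L x` affine.  If the weighted means of `h` are small
with respect to `‖h‖_{L²}` and the measure is not concentrated on hyperplanes (`low`), then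
`∫ ‖h‖² ≤ C (om² + κ²)`, `om² = ∫ ‖h0‖²`.
-/

set_option autoImplicit false
set_option linter.unusedVariables false
set_option linter.unusedSectionVars false

open MeasureTheory Set Metric Function
open scoped ENNReal NNReal Topology ContDiff

namespace Crest.Agent.R234.FL1_567

/-- Cauchy-Schwarz against the constant one -/
theorem sq_integral_le {X : Type*} [MeasurableSpace X] {μ : Measure X} [IsFiniteMeasure μ]
    {f : X → ℝ} (hf : MemLp f 2 μ) : (∫ p, f p ∂μ) ^ 2 ≤ μ.real univ * ∫ p, f p ^ 2 ∂μ := by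
  have hi : Integrable f μ := hf.integrable (by norm_num)
  have hi2 : Integrable (fun p => f p ^ 2) μ := hf.integrable_sq
  have key : ∀ t : ℝ, 0 ≤ μ.real univ * (t * t) + (-2 * ∫ p, f p ∂μ) * t + ∫ p, f p ^ 2 ∂μ := by
    intro t
    have h0 : 0 ≤ ∫ p, (f p - t) ^ 2 ∂μ := integral_nonneg fun p => sq_nonneg _
    have h1 : ∫ p, (f p - t) ^ 2 ∂μ = ∫ p, f p ^ 2 ∂μ - 2 * t * ∫ p, f p ∂μ + t ^ 2 * μ.real univ := by
      have e : ∀ p, (f p - t) ^ 2 = (f p ^ 2 - 2 * t * f p) + t ^ 2 := fun p => by ring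
      simp_rw [e]
      have a1 : Integrable (fun p => f p ^ 2 - 2 * t * f p) μ := hi2.sub (hi.const_mul _)
      have a2 : Integrable (fun p => 2 * t * f p) μ := hi.const_mul _
      rw [integral_add a1 (integrable_const _), integral_sub hi2 a2, integral_const_mul,
        integral_const, smul_eq_mul]
      ring
    linarith
  have := discrim_le_zero key
  unfold discrim at this
  nlinarith

variable (E F : Type*) [NormedAddCommGroup E] [InnerProductSpace ℝ E] [FiniteDimensional ℝ E]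
  [NormedAddCommGroup F] [InnerProductSpace ℝ F] [FiniteDimensional ℝ F]




variable {E F}







end Crest.Agent.R234.FL1_567
end

-- ▼ part R234/FL2_567
section

/-!
# R234 (helper567), node F9-FL, part 2: V level

* `cacc` : tilt in `closedBall x r` by height in `closedBall x (2r)`;
* `persist` : a flat stationary varifold has mass near every point `x + ξ` of the plane, `|ξ| ≤ r/2`;
* `lowP`, `lowπ` : no concentration on hyperplanes (second moments bounded below);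
* `fl2` : flat + small mean error relative to the graph of `u` + `u` almost affine ⟹ small height
  excess over the graph of `u`.
-/

set_option autoImplicit false
set_option linter.unusedVariables false
set_option linter.unusedSectionVars false

open MeasureTheory Filter Topology Set
open scoped ENNReal NNReal ContDiff
open Crest.GeometryTopology.Submanifold Crest.Agent.R234.Vf_884
open Crest.Agent.R234.Strat3_842 (tilt height)

noncomputable section

namespace Crest.Agent.R234.FL2_567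

variable {m n k : ℕ} {U : Set (Euc k)} {V : Measure (Euc k × L k)}

/-- scaled bump functions: `1` on `closedBall x (a r)`, supported in `closedBall x (b r)`. -/
theorem exists_cut (k : ℕ) {a b : ℝ} (ha : 0 < a) (hab : a < b) : ∃ M : ℝ, 0 < M ∧
    ∀ (x : Euc k) {r : ℝ}, 0 < r → ∃ f : Euc k → ℝ, ContDiff ℝ ∞ f ∧ HasCompactSupport f ∧
      tsupport f ⊆ Metric.closedBall x (b * r) ∧ (∀ z, 0 ≤ f z) ∧ (∀ z, f z ≤ 1) ∧
      (∀ z ∈ Metric.closedBall x (a * r), f z = 1) ∧ (∀ z, f z ≠ 0 → z ∈ Metric.ball x (b * r)) ∧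
      ∀ z, ‖fderiv ℝ f z‖ ≤ M / r := by
  let g : ContDiffBump (0 : Euc k) := ⟨a, b, ha, hab⟩
  have hgc : ContDiff ℝ ∞ g := g.contDiff
  have hg1 : Continuous (fderiv ℝ g) := hgc.continuous_fderiv (by norm_num)
  obtain ⟨M, hM⟩ := (g.hasCompactSupport.fderiv (𝕜 := ℝ)).exists_bound_of_continuous hg1
  refine ⟨max M 1, by positivity, fun x r hr => ?_⟩
  have hsub : ∀ z : Euc k, ‖r⁻¹ • (z - x)‖ = r⁻¹ * ‖z - x‖ := fun z => by
    rw [norm_smul, norm_inv, Real.norm_of_nonneg hr.le]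
  have hsup : ∀ z, g (r⁻¹ • (z - x)) ≠ 0 → z ∈ Metric.ball x (b * r) := by
    intro z hz
    have h1 : r⁻¹ • (z - x) ∈ Metric.ball (0 : Euc k) b := by
      have : r⁻¹ • (z - x) ∈ Function.support g := hz
      rwa [g.support_eq] at this
    rw [mem_ball_zero_iff, hsub, inv_mul_lt_iff₀ hr] at h1
    rw [Metric.mem_ball, dist_eq_norm]
    linarith
  have hts : tsupport (fun z => g (r⁻¹ • (z - x))) ⊆ Metric.closedBall x (b * r) := by
    refine closure_minimal (fun z hz => ?_) Metric.isClosed_closedBall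
    exact Metric.ball_subset_closedBall (hsup z hz)
  refine ⟨fun z => g (r⁻¹ • (z - x)), ?_, ?_, hts, fun z => g.nonneg, fun z => g.le_one, ?_, hsup, ?_⟩
  · exact hgc.comp ((contDiff_id.sub contDiff_const).const_smul r⁻¹)
  · exact HasCompactSupport.of_support_subset_isCompact (isCompact_closedBall x (b * r))
      (subset_closure.trans hts)
  · intro z hz
    refine g.one_of_mem_closedBall ?_
    rw [mem_closedBall_zero_iff, hsub, inv_mul_le_iff₀ hr]
    rw [Metric.mem_closedBall, dist_eq_norm] at hz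
    change ‖z - x‖ ≤ r * a
    linarith
  · intro z
    have h1 : HasFDerivAt (fun z : Euc k => r⁻¹ • (z - x)) (r⁻¹ • ContinuousLinearMap.id ℝ (Euc k)) z :=
      ((hasFDerivAt_id z).sub_const x).const_smul r⁻¹
    have h2 := ((hgc.differentiable (by norm_num)) (r⁻¹ • (z - x))).hasFDerivAt.comp z h1
    have h3 : fderiv ℝ (fun z => g (r⁻¹ • (z - x))) z = (fderiv ℝ g (r⁻¹ • (z - x))) ∘L
        (r⁻¹ • ContinuousLinearMap.id ℝ (Euc k)) := h2.fderiv
    rw [h3]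
    calc ‖(fderiv ℝ g (r⁻¹ • (z - x))) ∘L (r⁻¹ • ContinuousLinearMap.id ℝ (Euc k))‖
        ≤ ‖fderiv ℝ g (r⁻¹ • (z - x))‖ * ‖r⁻¹ • ContinuousLinearMap.id ℝ (Euc k)‖ :=
          ContinuousLinearMap.opNorm_comp_le _ _
      _ ≤ (max M 1) * (r⁻¹ * 1) := by
          gcongr
          · exact (hM _).trans (le_max_left _ _)
          · rw [norm_smul, norm_inv, Real.norm_of_nonneg hr.le]
            gcongr
            exact ContinuousLinearMap.norm_id_le
      _ = max M 1 / r := by rw [mul_one, div_eq_mul_inv]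


/-- the tilt excess by the height excess -/
theorem cacc (k : ℕ) : ∃ C : ℝ, 0 < C ∧ ∀ {m : ℕ} {U : Set (Euc k)} {V : Measure (Euc k × L k)},
    Stat m k U V → ∀ {x : Euc k} {r : ℝ}, 0 < r → Metric.closedBall x (2 * r) ⊆ U →
    ∀ {P : L k}, P ∈ G m k →
      ∫ p in Metric.closedBall x r ×ˢ univ, tilt P p ∂V ≤
        C / r ^ 2 * ∫ p in Metric.closedBall x (2 * r) ×ˢ univ, height P x p ∂V := by
  obtain ⟨M, hM, hcut⟩ := exists_cut k (a := 1) (b := 2) one_pos one_lt_two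
  refine ⟨4 * M ^ 2, by positivity, ?_⟩
  intro m U V hV x r hr hU P hP
  obtain ⟨η, h1, h2, h3, h4, h5, h6, h7, h8⟩ := hcut x hr
  have hq : Cacc_113.IsPr (1 - P) := (Al7_182.isPr_of_G hP).compl
  have key := (Al7_182.st_of_stat hV).caccioppoli (h1.of_le (by exact_mod_cast le_top)) h2
    (h3.trans hU) hq x
  have hKm : MeasurableSet (Metric.closedBall x r ×ˢ (univ : Set (L k))) :=
    measurableSet_closedBall.prod MeasurableSet.univ
  have hKm2 : MeasurableSet (Metric.closedBall x (2 * r) ×ˢ (univ : Set (L k))) :=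
    measurableSet_closedBall.prod MeasurableSet.univ
  have hc2 : IsCompact (Metric.closedBall x (2 * r)) := isCompact_closedBall _ _
  have hfin2 := hV.fin _ hc2 hU
  -- left-hand side
  have hl : ∫ p in Metric.closedBall x r ×ˢ univ, tilt P p ∂V ≤
      ∫ z, η z.1 ^ 2 * Cacc_113.tr ((1 - P) ∘L z.2) ∂V := by
    rw [← integral_indicator hKm]
    refine integral_mono_of_nonneg ?_ ?_ ?_
    · filter_upwards [hV.conc] with p hp
      exact indicator_apply_nonneg fun _ => Pers_540.tilt_nonneg hp hP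
    · refine (Al7_182.st_of_stat hV).integrable ?_ hc2 hU ?_
      · exact ((h1.continuous.comp continuous_fst).pow 2).mul
          (Pers_540.continuous_tilt P)
      · intro z hz
        have : η z.1 = 0 := by
          by_contra h
          exact hz (Metric.ball_subset_closedBall (h7 z.1 h))
        rw [this]; simp
    · filter_upwards [hV.conc] with p hp
      have e : Cacc_113.tr ((1 - P) ∘L p.2) = tilt P p := rfl
      rw [e]
      have h0 : 0 ≤ tilt P p := Pers_540.tilt_nonneg hp hP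
      by_cases hpK : p ∈ Metric.closedBall x r ×ˢ (univ : Set (L k))
      · rw [indicator_of_mem hpK, h6 p.1 (by rw [one_mul]; exact hpK.1)]
        simp
      · rw [indicator_of_notMem hpK]
        positivity
  -- right-hand side
  have hr' : 4 * ∫ z, ‖fderiv ℝ η z.1‖ ^ 2 * ‖(1 - P) (z.1 - x)‖ ^ 2 ∂V ≤
      4 * M ^ 2 / r ^ 2 * ∫ p in Metric.closedBall x (2 * r) ×ˢ univ, height P x p ∂V := by
    rw [← integral_indicator hKm2]
    have hi : Integrable (indicator (Metric.closedBall x (2 * r) ×ˢ univ) (height P x)) V := by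
      rw [integrable_indicator_iff hKm2]
      have hcont : Continuous (height P x) := by
        unfold height
        exact ((((continuous_fst.sub continuous_const).sub
          (P.continuous.comp (continuous_fst.sub continuous_const))).norm).pow 2)
      obtain ⟨B, hB⟩ := hc2.exists_bound_of_continuousOn
        (f := fun z : Euc k => ‖(z - x) - P (z - x)‖ ^ 2) (by fun_prop)
      refine Measure.integrableOn_of_bounded (M := B) hfin2.ne hcont.aestronglyMeasurable ?_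
      filter_upwards [ae_restrict_mem hKm2] with p hp
      exact hB p.1 hp.1
    have hle : ∫ z, ‖fderiv ℝ η z.1‖ ^ 2 * ‖(1 - P) (z.1 - x)‖ ^ 2 ∂V ≤
        ∫ z, M ^ 2 / r ^ 2 * indicator (Metric.closedBall x (2 * r) ×ˢ univ) (height P x) z ∂V := by
      refine integral_mono_of_nonneg (Eventually.of_forall fun z => by positivity) (hi.const_mul _)
        (Eventually.of_forall fun z => ?_)
      beta_reduce
      by_cases hz : z ∈ Metric.closedBall x (2 * r) ×ˢ (univ : Set (L k))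
      · rw [indicator_of_mem hz]
        have e1 : ‖(1 - P) (z.1 - x)‖ ^ 2 = height P x z := rfl
        rw [e1]
        have e2 : ‖fderiv ℝ η z.1‖ ^ 2 ≤ M ^ 2 / r ^ 2 := by
          rw [← div_pow]
          exact pow_le_pow_left₀ (norm_nonneg _) (h8 z.1) 2
        have e3 : 0 ≤ height P x z := by unfold height; positivity
        exact mul_le_mul_of_nonneg_right e2 e3
      · rw [indicator_of_notMem hz, mul_zero]
        have : fderiv ℝ η z.1 = 0 := by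
          by_contra h
          apply hz
          refine ⟨h3 ?_, mem_univ _⟩
          exact support_fderiv_subset ℝ h
        rw [this]
        simp
    rw [integral_const_mul] at hle
    calc 4 * ∫ z, ‖fderiv ℝ η z.1‖ ^ 2 * ‖(1 - P) (z.1 - x)‖ ^ 2 ∂V
        ≤ 4 * (M ^ 2 / r ^ 2 * ∫ z, indicator (Metric.closedBall x (2 * r) ×ˢ univ)
            (height P x) z ∂V) := by gcongr
      _ = _ := by ring
  exact hl.trans (key.trans hr')

theorem norm_le_one_of_G {P : L k} (hP : P ∈ G m k) (v : Euc k) : ‖P v‖ ≤ ‖v‖ :=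
  (Al7_182.isPr_of_G hP).norm_le v



theorem low_of_ball {W : Set (Euc k)} {y : Euc k} {s b : ℝ} (hW : Metric.ball y s ⊆ W)
    {g : Euc k × L k → ℝ} (hg0 : ∀ p, 0 ≤ g p) (hgi : IntegrableOn g (W ×ˢ univ) V)
    (hfin : V (Metric.ball y s ×ˢ (univ : Set (L k))) ≠ ⊤)
    (hg : ∀ p : Euc k × L k, p.1 ∈ Metric.ball y s → b ≤ g p) :
    V.real (Metric.ball y s ×ˢ univ) * b ≤ ∫ p in W ×ˢ univ, g p ∂V := by
  have hm' : MeasurableSet (Metric.ball y s ×ˢ (univ : Set (L k))) :=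
    measurableSet_ball.prod MeasurableSet.univ
  have hsub : Metric.ball y s ×ˢ (univ : Set (L k)) ⊆ W ×ˢ univ := prod_mono hW Subset.rfl
  calc V.real (Metric.ball y s ×ˢ univ) * b = ∫ p in Metric.ball y s ×ˢ univ, b ∂V := by
        rw [setIntegral_const, smul_eq_mul]
    _ ≤ ∫ p in Metric.ball y s ×ˢ univ, g p ∂V := by
        refine setIntegral_mono_on (integrableOn_const hfin) (hgi.mono_set hsub) hm' ?_
        exact fun p hp => hg p hp.1
    _ ≤ _ := setIntegral_mono_set hgi (Eventually.of_forall hg0) hsub.eventuallyLE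



variable {F : Type*} [NormedAddCommGroup F] [NormedSpace ℝ F]


end Crest.Agent.R234.FL2_567
end
end

-- ▼ part R234/FL4_567
section

/-!
# R234 (helper567), node F9-FL, part 4: V level

* `persist2` : persistence of the mass along the plane at small scales `s`;
* `graph_of_flat` : a plane `P` along which `V` has mass, `V` close in mean to the graph of `u`,
  `|Du| ≤ 1/4`, is a graph of slope `≤ 1/2` over the frame;
* `vert_le` : the vertical distance to the graph of the plane is controlled by the normal distance.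
-/

set_option autoImplicit false
set_option linter.unusedVariables false
set_option linter.unusedSectionVars false

open MeasureTheory Filter Topology Set
open scoped ENNReal NNReal ContDiff
open Crest.GeometryTopology.Submanifold Crest.Agent.R234.Vf_884
open Crest.Agent.R234.Strat3_842 (tilt height)
open Crest.Agent.R234.Main_456 (Frame hgt box)
open Crest.Agent.R234.FL2_567

noncomputable section

namespace Crest.Agent.R234.FL4_567

variable {m n k : ℕ} {U : Set (Euc k)} {V : Measure (Euc k × L k)}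

/-- **persistence of mass along the plane, small scales.** -/
theorem persist2 (m k : ℕ) {Λ c : ℝ} (hΛ : 0 ≤ Λ) (hc : 0 < c) : ∃ ε : ℝ, 0 < ε ∧ ε ≤ 1 ∧
    ∀ {U : Set (Euc k)} {V : Measure (Euc k × L k)}, Stat m k U V → ∀ {x : Euc k} {r s : ℝ},
    0 < r → 0 < s → s ≤ r → Metric.closedBall x (4 * r) ⊆ U →
    V.real (Metric.closedBall x (2 * r) ×ˢ univ) ≤ Λ * r ^ m →
    c * s ^ m ≤ V.real (Metric.closedBall x (s / 2) ×ˢ univ) → ∀ {P : L k}, P ∈ G m k →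
    ∫ p in Metric.closedBall x (4 * r) ×ˢ univ, height P x p ∂V ≤
      ε * (s / r) ^ (2 * (m + 1)) * r ^ (m + 2) →
    ∀ ξ : Euc k, P ξ = ξ → ‖ξ‖ ≤ r → c / 2 * s ^ m ≤ V.real (Metric.ball (x + ξ) s ×ˢ univ) := by
  obtain ⟨M, hM, hcut⟩ := exists_cut k (a := 1 / 2) (b := 1) (by norm_num) (by norm_num)
  obtain ⟨C, hC, hcacc⟩ := cacc k
  refine ⟨min 1 (c ^ 2 / (2 * M ^ 2 * Λ * C + 1)), by positivity, min_le_left _ _, ?_⟩
  intro U V hV x r s hr hs hsr hU hup hlow P hP hflat ξ hξ hξr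
  set ε := min 1 (c ^ 2 / (2 * M ^ 2 * Λ * C + 1)) with hε
  have hε' : ε ≤ c ^ 2 / (2 * M ^ 2 * Λ * C + 1) := min_le_right _ _
  have hε0 : 0 < ε := by positivity
  obtain ⟨f, h1, h2, h3, h4, h5, h6, h7, h8⟩ := hcut x hs
  set K := Metric.closedBall x (2 * r) with hK
  have hKc : IsCompact K := isCompact_closedBall _ _
  have hKU : K ⊆ U := (Metric.closedBall_subset_closedBall (by linarith)).trans hU
  have hKm : MeasurableSet (K ×ˢ (univ : Set (L k))) :=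
    measurableSet_closedBall.prod MeasurableSet.univ
  have hKfin := hV.fin K hKc hKU
  have : IsFiniteMeasure (V.restrict (K ×ˢ (univ : Set (L k)))) := ⟨by
    rw [Measure.restrict_apply_univ]; exact hKfin⟩
  have hfK : ∀ t ∈ Icc (0:ℝ) 1, ∀ z, f (z - t • ξ) ≠ 0 → z ∈ K := by
    intro t ht z hz
    have := h7 _ hz
    rw [Metric.mem_ball, dist_eq_norm] at this
    rw [hK, Metric.mem_closedBall, dist_eq_norm]
    have e : z - x = (z - t • ξ - x) + t • ξ := by abel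
    rw [e]
    refine (norm_add_le _ _).trans ?_
    have : ‖t • ξ‖ ≤ r := by
      rw [norm_smul, Real.norm_of_nonneg ht.1]
      nlinarith [norm_nonneg ξ, ht.2]
    linarith
  have htr := Pers_540.trans_close hV (h1.of_le (by exact_mod_cast le_top)) (M := M / s) h8 ξ hKc hKU hfK
  -- the tilt term
  have h4r : (2 : ℝ) * (2 * r) = 4 * r := by ring
  have htilt : ∫ p in K ×ˢ univ, tilt P p ∂V ≤
      C / (2 * r) ^ 2 * (ε * (s / r) ^ (2 * (m + 1)) * r ^ (m + 2)) := by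
    have := hcacc hV (x := x) (r := 2 * r) (by positivity) (by rw [h4r]; exact hU) hP
    rw [h4r] at this
    exact this.trans (by gcongr)
  have hb : Continuous fun p : Euc k × L k => ‖ξ - p.2 ξ‖ :=
    (continuous_const.sub (continuous_snd.clm_apply continuous_const)).norm
  have hmem : MemLp (fun p : Euc k × L k => ‖ξ - p.2 ξ‖) 2 (V.restrict (K ×ˢ univ)) := by
    refine MemLp.of_bound hb.aestronglyMeasurable (2 * ‖ξ‖) ?_
    filter_upwards [ae_restrict_of_ae hV.conc] with p hp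
    rw [norm_norm]
    refine (norm_sub_le _ _).trans ?_
    have := norm_le_one_of_G hp ξ
    linarith
  have hsq : (∫ p in K ×ˢ univ, ‖ξ - p.2 ξ‖ ∂V) ^ 2 ≤
      (Λ * r ^ m) * (2 * ‖ξ‖ ^ 2 *
        (C / (2 * r) ^ 2 * (ε * (s / r) ^ (2 * (m + 1)) * r ^ (m + 2)))) := by
    have a1 := FL1_567.sq_integral_le hmem
    have a2 : (V.restrict (K ×ˢ univ)).real univ = V.real (K ×ˢ univ) := by
      rw [measureReal_restrict_apply_univ]
    rw [a2] at a1
    have a3 : ∫ p in K ×ˢ univ, ‖ξ - p.2 ξ‖ ^ 2 ∂V ≤ ∫ p in K ×ˢ univ, 2 * ‖ξ‖ ^ 2 * tilt P p ∂V := by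
      have i1 : IntegrableOn (fun p => tilt P p) (K ×ˢ univ) V := by
        refine Measure.integrableOn_of_bounded (M := (m : ℝ)) hKfin.ne
          (Pers_540.continuous_tilt P).aestronglyMeasurable ?_
        filter_upwards [ae_restrict_of_ae hV.conc] with p hp
        rw [Real.norm_of_nonneg (Pers_540.tilt_nonneg hp hP)]
        exact Pers_540.tilt_le hp hP
      refine integral_mono_ae hmem.integrable_sq (i1.const_mul _) ?_
      filter_upwards [ae_restrict_of_ae hV.conc] with p hp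
      have e1 := Pers_540.sub_sq_le_tilt hp hP p.1 ξ
      rw [hξ] at e1
      rw [norm_sub_rev]
      linarith
    rw [integral_const_mul] at a3
    calc (∫ p in K ×ˢ univ, ‖ξ - p.2 ξ‖ ∂V) ^ 2
        ≤ V.real (K ×ˢ univ) * ∫ p in K ×ˢ univ, ‖ξ - p.2 ξ‖ ^ 2 ∂V := a1
      _ ≤ _ := by
          refine mul_le_mul hup (a3.trans ?_) (integral_nonneg fun p => by positivity) (by positivity)
          exact mul_le_mul_of_nonneg_left htilt (by positivity)
  have hmain : M / s * ∫ p in K ×ˢ univ, ‖ξ - p.2 ξ‖ ∂V ≤ c / 2 * s ^ m := by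
    have h0 : 0 ≤ ∫ p in K ×ˢ univ, ‖ξ - p.2 ξ‖ ∂V := integral_nonneg fun p => norm_nonneg _
    refine (abs_le_of_sq_le_sq' ?_ (by positivity)).2
    rw [mul_pow]
    calc (M / s) ^ 2 * (∫ p in K ×ˢ univ, ‖ξ - p.2 ξ‖ ∂V) ^ 2
        ≤ (M / s) ^ 2 * ((Λ * r ^ m) * (2 * r ^ 2 *
          (C / (2 * r) ^ 2 * (ε * (s / r) ^ (2 * (m + 1)) * r ^ (m + 2))))) := by
          refine mul_le_mul_of_nonneg_left (hsq.trans ?_) (by positivity)
          have : ‖ξ‖ ^ 2 ≤ r ^ 2 := pow_le_pow_left₀ (norm_nonneg _) hξr 2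
          gcongr
      _ = (M ^ 2 * Λ * C * ε / 2) * (s ^ m) ^ 2 := by
          have hr2 : r ^ (m + 2) = r ^ m * r ^ 2 := pow_add _ _ _
          have hs2 : (s / r) ^ (2 * (m + 1)) = (s ^ m) ^ 2 * s ^ 2 / ((r ^ m) ^ 2 * r ^ 2) := by
            rw [div_pow]
            ring
          rw [hr2, hs2]
          field_simp
          try ring
      _ ≤ (c ^ 2 / 4) * (s ^ m) ^ 2 := by
          refine mul_le_mul_of_nonneg_right ?_ (by positivity)
          have : M ^ 2 * Λ * C * ε ≤ c ^ 2 / 2 := by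
            have h9 : M ^ 2 * Λ * C * ε ≤ M ^ 2 * Λ * C * (c ^ 2 / (2 * M ^ 2 * Λ * C + 1)) := by
              gcongr
            refine h9.trans ?_
            rw [mul_div_assoc', div_le_iff₀ (by positivity)]
            nlinarith [sq_nonneg c]
          linarith
      _ = (c / 2 * s ^ m) ^ 2 := by ring
  -- lower bound of the mass integral
  have hf1 : c * s ^ m ≤ ∫ p, f p.1 ∂V := by
    refine hlow.trans ?_
    have hm' : MeasurableSet (Metric.closedBall x (s / 2) ×ˢ (univ : Set (L k))) :=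
      measurableSet_closedBall.prod MeasurableSet.univ
    rw [← integral_indicator_one hm']
    refine integral_mono_of_nonneg (Eventually.of_forall fun p => ?_) ?_
      (Eventually.of_forall fun p => ?_)
    · exact indicator_apply_nonneg fun _ => zero_le_one
    · refine (Al7_182.st_of_stat hV).integrable (h1.continuous.comp continuous_fst) hKc hKU ?_
      intro z hz
      by_contra h
      exact hz (by simpa using hfK 0 (by simp) z.1 (by simpa using h))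
    · by_cases hp : p ∈ Metric.closedBall x (s / 2) ×ˢ (univ : Set (L k))
      · rw [indicator_of_mem hp]
        simp only [Pi.one_apply]
        rw [h6 p.1 (by
          have := hp.1
          rwa [show (1 / 2 : ℝ) * s = s / 2 by ring])]
      · rw [indicator_of_notMem hp]
        exact h4 _
  have hf2 : ∫ p, f (p.1 - ξ) ∂V ≤ V.real (Metric.ball (x + ξ) s ×ˢ univ) := by
    have hm' : MeasurableSet (Metric.ball (x + ξ) s ×ˢ (univ : Set (L k))) :=
      measurableSet_ball.prod MeasurableSet.univ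
    rw [← integral_indicator_one hm']
    have hsubK : Metric.ball (x + ξ) s ⊆ K := by
      intro z hz
      rw [Metric.mem_ball, dist_eq_norm] at hz
      rw [hK, Metric.mem_closedBall, dist_eq_norm]
      have e : z - x = (z - (x + ξ)) + ξ := by abel
      rw [e]
      exact (norm_add_le _ _).trans (by linarith)
    refine integral_mono_of_nonneg (Eventually.of_forall fun p => h4 _) ?_
      (Eventually.of_forall fun p => ?_)
    · rw [integrable_indicator_iff hm']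
      refine integrableOn_const ?_
      exact ((measure_mono (prod_mono hsubK Subset.rfl)).trans_lt hKfin).ne
    · by_cases hp : p ∈ Metric.ball (x + ξ) s ×ˢ (univ : Set (L k))
      · rw [indicator_of_mem hp]
        exact h5 _
      · rw [indicator_of_notMem hp]
        refine le_of_eq ?_
        by_contra h
        apply hp
        have := h7 _ h
        rw [Metric.mem_ball, dist_eq_norm, one_mul] at this
        refine ⟨?_, mem_univ _⟩
        rw [Metric.mem_ball, dist_eq_norm]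
        have e : p.1 - (x + ξ) = p.1 - ξ - x := by abel
        rw [e]
        exact this
  have h9 := (abs_le.1 htr).2
  linarith

/-! ### frames and planes -/

variable {π : Euc k →L[ℝ] Euc m} {ρ : Euc k →L[ℝ] Euc n}

theorem frame_norm_sq (h : Frame π ρ) (v : Euc k) : ‖v‖ ^ 2 = ‖π v‖ ^ 2 + ‖ρ v‖ ^ 2 := by
  have h1 : ContinuousLinearMap.adjoint π (π v) + ContinuousLinearMap.adjoint ρ (ρ v) = v :=
    congrArg (fun T : Euc k →L[ℝ] Euc k => T v) h.full
  rw [← real_inner_self_eq_norm_sq v]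
  nth_rewrite 2 [← h1]
  rw [inner_add_right, ContinuousLinearMap.adjoint_inner_right,
    ContinuousLinearMap.adjoint_inner_right, real_inner_self_eq_norm_sq,
    real_inner_self_eq_norm_sq]

theorem norm_pi_le (h : Frame π ρ) (v : Euc k) : ‖π v‖ ≤ ‖v‖ := by
  have h1 := frame_norm_sq h v
  exact (sq_le_sq₀ (norm_nonneg _) (norm_nonneg _)).1 (by nlinarith [sq_nonneg ‖ρ v‖])

theorem norm_rho_le (h : Frame π ρ) (v : Euc k) : ‖ρ v‖ ≤ ‖v‖ := by
  have h1 := frame_norm_sq h v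
  exact (sq_le_sq₀ (norm_nonneg _) (norm_nonneg _)).1 (by nlinarith [sq_nonneg ‖π v‖])

theorem norm_le_add (h : Frame π ρ) (v : Euc k) : ‖v‖ ≤ ‖π v‖ + ‖ρ v‖ := by
  have h1 := frame_norm_sq h v
  have h2 := norm_nonneg (π v)
  have h3 := norm_nonneg (ρ v)
  exact (sq_le_sq₀ (norm_nonneg _) (by positivity)).1 (by nlinarith)

/-- a plane of slope `≤ 1/2` is a graph. -/
theorem exists_slope (hF : Frame π ρ) {P : L k} (hP : P ∈ G m k)
    (hsl : ∀ ξ : Euc k, P ξ = ξ → ‖ρ ξ‖ ≤ 1 / 2 * ‖π ξ‖) :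
    ∃ A : Euc m →L[ℝ] Euc n, ‖A‖ ≤ 1 / 2 ∧ (∀ ξ : Euc k, P ξ = ξ → ρ ξ = A (π ξ)) ∧
      ∀ y : Euc m, ∃ ξ : Euc k, P ξ = ξ ∧ π ξ = y := by
  have hfix : ∀ ξ : LinearMap.range P.toLinearMap, P (ξ : Euc k) = ξ := by
    rintro ⟨_, v, rfl⟩
    exact G_idem_apply hP v
  let S : LinearMap.range P.toLinearMap →ₗ[ℝ] Euc m :=
    π.toLinearMap ∘ₗ (LinearMap.range P.toLinearMap).subtype
  have hS : Function.Injective S := by
    rw [← LinearMap.ker_eq_bot, LinearMap.ker_eq_bot']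
    intro ξ hξ
    have h0 : π (ξ : Euc k) = 0 := hξ
    have h1 := hsl ξ (hfix ξ)
    have h2 := norm_le_add hF (ξ : Euc k)
    rw [h0, norm_zero] at h1 h2
    have h3 : ‖(ξ : Euc k)‖ = 0 := le_antisymm (by linarith [norm_nonneg (ρ (ξ : Euc k))]) (norm_nonneg _)
    exact Subtype.ext (norm_eq_zero.1 h3)
  have hdim : Module.finrank ℝ (LinearMap.range P.toLinearMap) = Module.finrank ℝ (Euc m) := by
    rw [Pers_540.finrank_range hP]
    simp
  let e := LinearMap.linearEquivOfInjective S hS hdim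
  have he : ∀ ξ, e ξ = π (ξ : Euc k) := fun ξ => rfl
  let A0 : Euc m →ₗ[ℝ] Euc n :=
    ρ.toLinearMap ∘ₗ (LinearMap.range P.toLinearMap).subtype ∘ₗ e.symm.toLinearMap
  have hA0 : ∀ y, A0 y = ρ ((e.symm y : LinearMap.range P.toLinearMap) : Euc k) := fun y => rfl
  have hpi : ∀ y, π ((e.symm y : LinearMap.range P.toLinearMap) : Euc k) = y := by
    intro y
    rw [← he, LinearEquiv.apply_symm_apply]
  refine ⟨LinearMap.toContinuousLinearMap A0, ?_, ?_, ?_⟩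
  · refine ContinuousLinearMap.opNorm_le_bound _ (by norm_num) fun y => ?_
    have := hsl _ (hfix (e.symm y))
    rw [hpi] at this
    exact this
  · intro ξ hξ
    have hmem : ξ ∈ LinearMap.range P.toLinearMap := ⟨ξ, hξ⟩
    have h1 : e.symm (π ξ) = ⟨ξ, hmem⟩ := by
      rw [LinearEquiv.symm_apply_eq, he]
    change ρ ξ = A0 (π ξ)
    rw [hA0, h1]
  · intro y
    exact ⟨e.symm y, hfix _, hpi y⟩

/-- vertical distance to the plane by the normal distance. -/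
theorem vert_le (hF : Frame π ρ) {P : L k} (hP : P ∈ G m k) {A : Euc m →L[ℝ] Euc n}
    (hA : ‖A‖ ≤ 1 / 2) (hA2 : ∀ ξ : Euc k, P ξ = ξ → ρ ξ = A (π ξ)) (v : Euc k) :
    ‖ρ v - A (π v)‖ ≤ 3 / 2 * ‖v - P v‖ := by
  have h1 := hA2 (P v) (G_idem_apply hP v)
  have h2 : ρ v - A (π v) = ρ (v - P v) - A (π (v - P v)) := by
    rw [map_sub, map_sub, map_sub, h1]
    abel
  rw [h2]
  have h3 : ‖A (π (v - P v))‖ ≤ 1 / 2 * ‖v - P v‖ :=
    (A.le_opNorm _).trans (mul_le_mul hA (norm_pi_le hF _) (norm_nonneg _) (by norm_num))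
  have h4 := norm_rho_le hF (v - P v)
  exact (norm_sub_le _ _).trans (by linarith)

theorem continuous_hgt {x : Euc k} {r : ℝ} {u : Euc m → Euc n} (hu : Continuous u) :
    Continuous (hgt π ρ x r u) := by
  unfold hgt
  exact (ρ.continuous.comp (continuous_id.sub continuous_const)).sub
    ((hu.comp ((π.continuous.comp (continuous_id.sub continuous_const)).const_smul r⁻¹)).const_smul r)

/-- boundedness on bounded regions. -/
theorem memLp_of_cont (hV : Stat m k U V) {K : Set (Euc k)} (hK : IsCompact K) (hKU : K ⊆ U)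
    {W : Set (Euc k)} (hWm : MeasurableSet W) (hWK : W ⊆ K) {E : Type*} [NormedAddCommGroup E]
    {f : Euc k → E} (hf : Continuous f) :
    MemLp (fun p : Euc k × L k => f p.1) 2 (V.restrict (W ×ˢ univ)) := by
  obtain ⟨B, hB⟩ := hK.exists_bound_of_continuousOn hf.continuousOn
  have hfin : V (W ×ˢ (univ : Set (L k))) < ⊤ :=
    (measure_mono (prod_mono hWK Subset.rfl)).trans_lt (hV.fin K hK hKU)
  have : IsFiniteMeasure (V.restrict (W ×ˢ (univ : Set (L k)))) := ⟨by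
    rw [Measure.restrict_apply_univ]; exact hfin⟩
  refine MemLp.of_bound (hf.comp continuous_fst).aestronglyMeasurable B ?_
  filter_upwards [ae_restrict_mem (hWm.prod MeasurableSet.univ)] with p hp
  exact hB _ (hWK hp.1)

/-- **the plane is a graph of slope `≤ 1/2`.** -/
theorem slope_le (hV : Stat m k U V) (hF : Frame π ρ) {x : Euc k} {r c δ₀ : ℝ} (hr : 0 < r)
    (hU : Metric.closedBall x (4 * r) ⊆ U) {P : L k} (hP : P ∈ G m k)
    (hm : ∀ ξ : Euc k, P ξ = ξ → ‖ξ‖ ≤ r → c * (r / 128) ^ m ≤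
      V.real (Metric.ball (x + ξ) (r / 128) ×ˢ univ))
    {u : Euc m → Euc n} (huc : Continuous u)
    (hul : ∀ a ∈ Metric.closedBall (0 : Euc m) 1, ∀ b ∈ Metric.closedBall (0 : Euc m) 1,
      ‖u a - u b‖ ≤ 1 / 4 * ‖a - b‖)
    {W : Set (Euc k)} (hWm : MeasurableSet W) (hW1 : W ⊆ Metric.closedBall x (4 * r))
    (hW3 : ∀ z, ‖π (z - x)‖ < r → ‖ρ (z - x)‖ < r → z ∈ W)
    (hD : ∫ p in W ×ˢ univ, ‖hgt π ρ x r u p.1‖ ^ 2 ∂V ≤ δ₀ * r ^ (m + 2))
    (hδ : δ₀ < c * (1 / 128) ^ m * (1 / 100) ^ 2) :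
    ∀ ξ : Euc k, P ξ = ξ → ‖ρ ξ‖ ≤ 1 / 2 * ‖π ξ‖ := by
  have hWfin : V (W ×ˢ (univ : Set (L k))) < ⊤ :=
    (measure_mono (prod_mono hW1 Subset.rfl)).trans_lt (hV.fin _ (isCompact_closedBall _ _) hU)
  -- points with small height
  have key : ∀ ξ : Euc k, P ξ = ξ → ‖ξ‖ ≤ r / 4 → ∃ z ∈ Metric.ball (x + ξ) (r / 128),
      ‖hgt π ρ x r u z‖ < r / 100 := by
    intro ξ hPξ hξ
    by_contra hcon
    push Not at hcon
    have hsub : Metric.ball (x + ξ) (r / 128) ⊆ W := by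
      intro z hz
      rw [Metric.mem_ball, dist_eq_norm] at hz
      have h1 : ‖z - x‖ < r := by
        have e : z - x = (z - (x + ξ)) + ξ := by abel
        rw [e]
        exact (norm_add_le _ _).trans_lt (by linarith)
      exact hW3 z ((norm_pi_le hF _).trans_lt h1) ((norm_rho_le hF _).trans_lt h1)
    have hint : IntegrableOn (fun p : Euc k × L k => ‖hgt π ρ x r u p.1‖ ^ 2) (W ×ˢ univ) V :=
      (memLp_of_cont hV (isCompact_closedBall _ _) hU hWm hW1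
        (continuous_hgt (π := π) (ρ := ρ) (x := x) (r := r) huc).norm).integrable_sq
    have hlow := low_of_ball (V := V) hsub (g := fun p => ‖hgt π ρ x r u p.1‖ ^ 2)
      (fun p => by positivity) hint
      ((measure_mono (prod_mono hsub Subset.rfl)).trans_lt hWfin).ne (b := (r / 100) ^ 2)
      (fun p hp => pow_le_pow_left₀ (by positivity) (hcon p.1 hp) 2)
    have h1 := hm ξ hPξ (by linarith)
    have h2 : c * (r / 128) ^ m * (r / 100) ^ 2 ≤ δ₀ * r ^ (m + 2) :=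
      ((mul_le_mul_of_nonneg_right h1 (by positivity)).trans hlow).trans hD
    have h3 : c * (r / 128) ^ m * (r / 100) ^ 2 = (c * (1 / 128) ^ m * (1 / 100) ^ 2) * r ^ (m + 2) := by
      rw [div_eq_mul_inv r 128, mul_pow]
      ring
    rw [h3] at h2
    exact absurd (le_of_mul_le_mul_right h2 (by positivity)) (not_le.2 hδ)
  obtain ⟨z', hz', hz'2⟩ := key 0 (by simp) (by simp; positivity)
  rw [add_zero, Metric.mem_ball, dist_eq_norm] at hz'
  -- reduction to norm `r / 4`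
  have main : ∀ ξ : Euc k, P ξ = ξ → ‖ξ‖ = r / 4 → ‖ρ ξ‖ ≤ 1 / 2 * ‖π ξ‖ := by
    intro ξ hPξ hξ
    obtain ⟨z, hz, hz2⟩ := key ξ hPξ hξ.le
    rw [Metric.mem_ball, dist_eq_norm] at hz
    have hzx : ‖z - x‖ ≤ r := by
      have e : z - x = (z - (x + ξ)) + ξ := by abel
      rw [e]
      exact (norm_add_le _ _).trans (by linarith)
    have hin : ∀ w : Euc k, ‖w‖ ≤ r → r⁻¹ • π w ∈ Metric.closedBall (0 : Euc m) 1 := by
      intro w hw
      rw [mem_closedBall_zero_iff, norm_smul, norm_inv, Real.norm_of_nonneg hr.le,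
        inv_mul_le_iff₀ hr, mul_one]
      exact (norm_pi_le hF w).trans hw
    have h1 := hul _ (hin (z - x) hzx) _ (hin (z' - x) (by linarith))
    have h2 : ‖r • u (r⁻¹ • π (z - x)) - r • u (r⁻¹ • π (z' - x))‖ ≤ 1 / 4 * ‖π (z - z')‖ := by
      rw [← smul_sub, norm_smul, Real.norm_of_nonneg hr.le]
      have e1 : r⁻¹ • π (z - x) - r⁻¹ • π (z' - x) = r⁻¹ • π (z - z') := by
        rw [← smul_sub, ← map_sub]
        congr 2
        abel
      rw [e1, norm_smul, norm_inv, Real.norm_of_nonneg hr.le] at h1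
      calc r * ‖u (r⁻¹ • π (z - x)) - u (r⁻¹ • π (z' - x))‖ ≤ r * (1 / 4 * (r⁻¹ * ‖π (z - z')‖)) := by
            gcongr
        _ = 1 / 4 * ‖π (z - z')‖ := by field_simp
    have e2 : ρ (z - z') = hgt π ρ x r u z - hgt π ρ x r u z' +
        (r • u (r⁻¹ • π (z - x)) - r • u (r⁻¹ • π (z' - x))) := by
      unfold hgt
      have : ρ (z - z') = ρ (z - x) - ρ (z' - x) := by
        rw [← map_sub]
        congr 1
        abel
      rw [this]
      abel
    have h3 : ‖ρ (z - z')‖ ≤ r / 50 + 1 / 4 * ‖π (z - z')‖ := by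
      rw [e2]
      refine (norm_add_le _ _).trans ?_
      have := norm_sub_le (hgt π ρ x r u z) (hgt π ρ x r u z')
      linarith
    set w := (z - (x + ξ)) - (z' - x) with hw
    have hwn : ‖w‖ ≤ r / 64 := (norm_sub_le _ _).trans (by linarith)
    have e3 : z - z' = ξ + w := by rw [hw]; abel
    rw [e3, map_add, map_add] at h3
    have h4 := norm_pi_le hF w
    have h5 := norm_rho_le hF w
    have h6 : ‖ρ ξ‖ ≤ ‖ρ ξ + ρ w‖ + ‖ρ w‖ := by
      have := norm_sub_le (ρ ξ + ρ w) (ρ w)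
      rwa [add_sub_cancel_right] at this
    have h7 := norm_add_le (π ξ) (π w)
    have h8 := norm_le_add hF ξ
    rw [hξ] at h8
    linarith
  intro ξ hPξ
  rcases eq_or_ne ξ 0 with rfl | hne
  · simp
  have hn : 0 < ‖ξ‖ := norm_pos_iff.2 hne
  set t := r / 4 / ‖ξ‖ with ht
  have ht0 : 0 < t := by positivity
  have h1 := main (t • ξ) (by rw [map_smul, hPξ]) (by
    rw [norm_smul, Real.norm_of_nonneg ht0.le, ht]
    field_simp)
  rw [map_smul, map_smul, norm_smul, norm_smul, Real.norm_of_nonneg ht0.le] at h1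
  refine le_of_mul_le_mul_left ?_ ht0
  linarith

end Crest.Agent.R234.FL4_567
end
end

-- ▼ part R234/FL5_567
section

/-!
# R234 (helper567), node F9-FL, part 5: the theorem (form (V7) of helper188)

`fl` : `V` stationary, mass ratios of `x` bounded below by `c` and above by `Λ`, `V` flat relative to
a plane `P` (`∫ height ≤ om r^(m+2)`), `u` of class `C^J` with `|u| ≤ A`, `|Du| ≤ 1/4`, `|D^J u| ≤ A` on
the unit ball, mean error `mu` against `C^K` test functions supported in `ball 0 1`, a priori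
`∫ |hgt|² ≤ δ₀ r^(m+2)`.  Then `∫ |hgt|² ≤ C ((mu + √om)^γ)² r^(m+2)`, `γ = J / (J + K + m)`.
-/

set_option autoImplicit false
set_option linter.unusedVariables false
set_option linter.unusedSectionVars false

open MeasureTheory Filter Topology Set
open scoped ENNReal NNReal ContDiff
open Crest.GeometryTopology.Submanifold Crest.Agent.R234.Vf_884
open Crest.Agent.R234.Strat3_842 (tilt height)
open Crest.Agent.R234.Main_456 (Frame hgt box)
open Crest.Agent.R234.FL2_567 Crest.Agent.R234.FL4_567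

noncomputable section

namespace Crest.Agent.R234.FL5_567

variable {m n k : ℕ}

theorem iter_linear {E F : Type*} [NormedAddCommGroup E] [NormedSpace ℝ E] [NormedAddCommGroup F]
    [NormedSpace ℝ F] (T : E →L[ℝ] F) {J : ℕ} (hJ : 2 ≤ J) (y : E) :
    ‖iteratedFDeriv ℝ J T y‖ = 0 := by
  obtain ⟨j, rfl⟩ : ∃ j, J = j + 1 := ⟨J - 1, by omega⟩
  rw [← norm_iteratedFDeriv_fderiv]
  have h1 : fderiv ℝ T = fun _ => T := by
    funext z
    exact T.fderiv
  rw [h1, iteratedFDeriv_const_of_ne (by omega)]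
  simp

/-- the constants of the last step. -/
theorem pow_aux {J K m : ℕ} (hJ : m + 1 ≤ J) {om ε : ℝ} (hom : 0 ≤ om) (hom1 : om ≤ 1) (hε : 0 < ε) :
    (8 * Real.sqrt (om / ε) ^ (1 / ((m : ℝ) + 1))) ^ J ≤
      8 ^ J * (Real.sqrt ε ^ ((J : ℝ) / ((m : ℝ) + 1)))⁻¹ *
        Real.sqrt om ^ ((J : ℝ) / ((J : ℝ) + K + m)) := by
  have hm : (0 : ℝ) < (m : ℝ) + 1 := by positivity
  have hJm : (m : ℝ) + 1 ≤ J := by exact_mod_cast hJ
  have hJ0 : (0 : ℝ) < J := by linarith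
  have hs : 0 ≤ Real.sqrt om := Real.sqrt_nonneg _
  have hs1 : Real.sqrt om ≤ 1 := Real.sqrt_le_one.2 hom1
  have he : 0 < Real.sqrt ε := Real.sqrt_pos.2 hε
  have e1 : (Real.sqrt (om / ε) ^ (1 / ((m : ℝ) + 1))) ^ J =
      Real.sqrt om ^ ((J : ℝ) / ((m : ℝ) + 1)) * (Real.sqrt ε ^ ((J : ℝ) / ((m : ℝ) + 1)))⁻¹ := by
    have e0 : 1 / ((m : ℝ) + 1) * (J : ℝ) = (J : ℝ) / ((m : ℝ) + 1) := by ring
    rw [← Real.rpow_natCast, ← Real.rpow_mul (Real.sqrt_nonneg _), Real.sqrt_div hom,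
      Real.div_rpow hs he.le, div_eq_mul_inv, e0]
  rw [mul_pow, e1]
  have e2 : Real.sqrt om ^ ((J : ℝ) / ((m : ℝ) + 1)) ≤ Real.sqrt om ^ ((J : ℝ) / ((J : ℝ) + K + m)) := by
    refine Real.rpow_le_rpow_of_exponent_ge' hs hs1 (by positivity) ?_
    have h1 : (J : ℝ) / ((J : ℝ) + K + m) ≤ 1 := by
      rw [div_le_one (by positivity)]
      have : (0 : ℝ) ≤ K := Nat.cast_nonneg K
      have : (0 : ℝ) ≤ m := Nat.cast_nonneg m
      linarith
    have h2 : 1 ≤ (J : ℝ) / ((m : ℝ) + 1) := by rw [one_le_div hm]; exact hJm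
    exact h1.trans h2
  have e3 : 0 < (Real.sqrt ε ^ ((J : ℝ) / ((m : ℝ) + 1)))⁻¹ := by
    have := Real.rpow_pos_of_pos he ((J : ℝ) / ((m : ℝ) + 1))
    positivity
  calc 8 ^ J * (Real.sqrt om ^ ((J : ℝ) / ((m : ℝ) + 1)) * (Real.sqrt ε ^ ((J : ℝ) / ((m : ℝ) + 1)))⁻¹)
      ≤ 8 ^ J * (Real.sqrt om ^ ((J : ℝ) / ((J : ℝ) + K + m)) *
        (Real.sqrt ε ^ ((J : ℝ) / ((m : ℝ) + 1)))⁻¹) := by gcongr
    _ = _ := by ring

/-- the threshold: `s₀ ≤ δ` implies the smallness needed by `persist2`. -/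
theorem thr_aux {m : ℕ} {om ε δ : ℝ} (hom : 0 ≤ om) (hε : 0 < ε) (hδ : 0 < δ)
    (h : 8 * Real.sqrt (om / ε) ^ (1 / ((m : ℝ) + 1)) ≤ δ) : om ≤ ε * (δ / 8) ^ (2 * (m + 1)) := by
  have hm : (0 : ℝ) < (m : ℝ) + 1 := by positivity
  have hs : 0 ≤ Real.sqrt (om / ε) := Real.sqrt_nonneg _
  have h1 : Real.sqrt (om / ε) ^ (1 / ((m : ℝ) + 1)) ≤ δ / 8 := by linarith
  have h2 : (Real.sqrt (om / ε) ^ (1 / ((m : ℝ) + 1))) ^ (2 * (m + 1)) ≤ (δ / 8) ^ (2 * (m + 1)) :=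
    pow_le_pow_left₀ (Real.rpow_nonneg hs _) h1 _
  have h3 : (Real.sqrt (om / ε) ^ (1 / ((m : ℝ) + 1))) ^ (2 * (m + 1)) = om / ε := by
    rw [← Real.rpow_natCast, ← Real.rpow_mul hs]
    have : 1 / ((m : ℝ) + 1) * ((2 * (m + 1) : ℕ) : ℝ) = (2 : ℕ) := by
      push_cast
      field_simp
    rw [this, Real.rpow_natCast, Real.sq_sqrt (by positivity)]
  rw [h3, div_le_iff₀ hε] at h2
  linarith

/-- the data of node F9-FL. -/
structure Hyp (m n k J K : ℕ) (Λ c A : ℝ) (U : Set (Euc k)) (V : Measure (Euc k × L k))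
    (π : Euc k →L[ℝ] Euc m) (ρ : Euc k →L[ℝ] Euc n) (x : Euc k) (r : ℝ) (P : L k) (om : ℝ)
    (u : Euc m → Euc n) (W : Set (Euc k)) (mu : ℝ) : Prop where
  st : Stat m k U V
  fr : Frame π ρ
  r0 : 0 < r
  dom : Metric.closedBall x (8 * r) ⊆ U
  up : V.real (Metric.closedBall x (4 * r) ×ˢ univ) ≤ Λ * r ^ m
  low : ∀ s, 0 < s → s ≤ r → c * s ^ m ≤ V.real (Metric.closedBall x s ×ˢ univ)
  pl : P ∈ G m k
  om0 : 0 ≤ om
  flat : ∫ p in Metric.closedBall x (8 * r) ×ˢ univ, height P x p ∂V ≤ om * r ^ (m + 2)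
  cd : ContDiff ℝ J u
  bd0 : ∀ y ∈ Metric.closedBall (0 : Euc m) 1, ‖u y‖ ≤ A
  bd1 : ∀ y ∈ Metric.closedBall (0 : Euc m) 1, ‖fderiv ℝ u y‖ ≤ 1 / 4
  bdJ : ∀ y ∈ Metric.closedBall (0 : Euc m) 1, ‖iteratedFDeriv ℝ J u y‖ ≤ A
  Wm : MeasurableSet W
  W1 : W ⊆ Metric.closedBall x (4 * r)
  W2 : ∀ z ∈ W, ‖π (z - x)‖ ≤ r
  W3 : ∀ z, ‖π (z - x)‖ < r → ‖ρ (z - x)‖ < r → z ∈ W
  mu0 : 0 ≤ mu
  test : ∀ ζ : Euc m → ℝ, ContDiff ℝ ∞ ζ → tsupport ζ ⊆ Metric.ball 0 1 →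
      (∀ j ≤ K, ∀ y, ‖iteratedFDeriv ℝ j ζ y‖ ≤ 1) →
      ‖∫ p in W ×ˢ univ, ζ (r⁻¹ • π (p.1 - x)) • hgt π ρ x r u p.1 ∂V‖ ≤ mu * r ^ (m + 1)

variable {J K : ℕ} {Λ c A : ℝ} {U : Set (Euc k)} {V : Measure (Euc k × L k)}
    {π : Euc k →L[ℝ] Euc m} {ρ : Euc k →L[ℝ] Euc n} {x : Euc k} {r : ℝ} {P : L k} {om : ℝ}
    {u : Euc m → Euc n} {W : Set (Euc k)} {mu : ℝ}

/-- the base coordinate (unit scale). -/
def bX (π : Euc k →L[ℝ] Euc m) (x : Euc k) (r : ℝ) (p : Euc k × L k) : Euc m := r⁻¹ • π (p.1 - x)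

/-- vertical distance to the plane. -/
def h0 (π : Euc k →L[ℝ] Euc m) (ρ : Euc k →L[ℝ] Euc n) (T : Euc m →L[ℝ] Euc n) (x : Euc k)
    (p : Euc k × L k) : Euc n := ρ (p.1 - x) - T (π (p.1 - x))

theorem continuous_bX : Continuous (bX (k := k) π x r) := by
  unfold bX
  fun_prop

theorem continuous_h0 {T : Euc m →L[ℝ] Euc n} : Continuous (h0 (k := k) π ρ T x) := by
  unfold h0
  fun_prop

theorem h0_id (hr : 0 < r) (T : Euc m →L[ℝ] Euc n) (u : Euc m → Euc n) (p : Euc k × L k) :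
    r • (u - T) (bX π x r p) = h0 π ρ T x p - hgt π ρ x r u p.1 := by
  have e1 : r • T (bX π x r p) = T (π (p.1 - x)) := by
    unfold bX
    rw [map_smul, smul_smul, mul_inv_cancel₀ hr.ne', one_smul]
  change r • (u (bX π x r p) - T (bX π x r p)) = _
  rw [smul_sub, e1]
  unfold hgt h0 bX
  abel

namespace Hyp

variable (H : Hyp m n k J K Λ c A U V π ρ x r P om u W mu)
include H

theorem U4 : Metric.closedBall x (4 * r) ⊆ U :=
  (Metric.closedBall_subset_closedBall (by linarith [H.r0])).trans H.dom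

theorem fin4 : V (Metric.closedBall x (4 * r) ×ˢ (univ : Set (L k))) < ⊤ :=
  H.st.fin _ (isCompact_closedBall _ _) H.U4

theorem Wfin : V (W ×ˢ (univ : Set (L k))) < ⊤ :=
  (measure_mono (prod_mono H.W1 Subset.rfl)).trans_lt H.fin4

theorem finW : IsFiniteMeasure (V.restrict (W ×ˢ (univ : Set (L k)))) := ⟨by
  rw [Measure.restrict_apply_univ]; exact H.Wfin⟩

theorem Wreal : V.real (W ×ˢ (univ : Set (L k))) ≤ Λ * r ^ m :=
  (measureReal_mono (prod_mono H.W1 Subset.rfl) H.fin4.ne).trans H.up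

theorem memLp {E : Type*} [NormedAddCommGroup E] {f : Euc k → E} (hf : Continuous f) :
    MemLp (fun p : Euc k × L k => f p.1) 2 (V.restrict (W ×ˢ univ)) :=
  memLp_of_cont H.st (isCompact_closedBall _ _) H.U4 H.Wm H.W1 hf

theorem memLp_hgt : MemLp (fun p : Euc k × L k => ‖hgt π ρ x r u p.1‖) 2 (V.restrict (W ×ˢ univ)) :=
  H.memLp (continuous_hgt H.cd.continuous).norm

theorem memLp_h0 (T : Euc m →L[ℝ] Euc n) :
    MemLp (fun p : Euc k × L k => ‖h0 π ρ T x p‖) 2 (V.restrict (W ×ˢ univ)) :=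
  H.memLp (f := fun z : Euc k => ‖ρ (z - x) - T (π (z - x))‖) (by fun_prop)

/-- persistence at the scale `s`. -/
theorem per {ε : ℝ} (hε : 0 < ε)
    (hper : ∀ {U : Set (Euc k)} {V : Measure (Euc k × L k)}, Stat m k U V → ∀ {x : Euc k} {r s : ℝ},
    0 < r → 0 < s → s ≤ r → Metric.closedBall x (4 * r) ⊆ U →
    V.real (Metric.closedBall x (2 * r) ×ˢ univ) ≤ Λ * r ^ m →
    c / 2 ^ m * s ^ m ≤ V.real (Metric.closedBall x (s / 2) ×ˢ univ) → ∀ {P : L k}, P ∈ G m k →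
    ∫ p in Metric.closedBall x (4 * r) ×ˢ univ, height P x p ∂V ≤
      ε * (s / r) ^ (2 * (m + 1)) * r ^ (m + 2) →
    ∀ ξ : Euc k, P ξ = ξ → ‖ξ‖ ≤ r →
      c / 2 ^ m / 2 * s ^ m ≤ V.real (Metric.ball (x + ξ) s ×ˢ univ)) (hΛ : 0 ≤ Λ)
    {s : ℝ} (hs : 0 < s) (hsr : s ≤ r) (homs : om ≤ ε * (s / (2 * r)) ^ (2 * (m + 1)))
    {ξ : Euc k} (hPξ : P ξ = ξ) (hξ : ‖ξ‖ ≤ 2 * r) :
    c / 2 ^ m / 2 * s ^ m ≤ V.real (Metric.ball (x + ξ) s ×ˢ univ) := by
  have hr := H.r0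
  have hr2 : r ≤ 2 * r := by linarith
  have h4 : (4 : ℝ) * (2 * r) = 8 * r := by ring
  have h2 : (2 : ℝ) * (2 * r) = 4 * r := by ring
  refine hper H.st (r := 2 * r) (by positivity) hs (by linarith) (by rw [h4]; exact H.dom) ?_ ?_
    H.pl ?_ ξ hPξ hξ
  · rw [h2]
    exact H.up.trans (by gcongr)
  · refine le_trans (le_of_eq ?_) (H.low (s / 2) (by positivity) (by linarith))
    rw [div_pow]
    ring
  · rw [h4]
    exact H.flat.trans (by gcongr)

theorem q0 {T : Euc m →L[ℝ] Euc n} (hT1 : ‖T‖ ≤ 1 / 2) (hT2 : ∀ ξ : Euc k, P ξ = ξ → ρ ξ = T (π ξ)) :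
    ∫ p in W ×ˢ univ, ‖h0 π ρ T x p‖ ^ 2 ∂V ≤ 9 / 4 * (om * r ^ (m + 2)) := by
  have hr := H.r0
  have hsub : W ×ˢ (univ : Set (L k)) ⊆ Metric.closedBall x (8 * r) ×ˢ univ :=
    Set.prod_mono (H.W1.trans (Metric.closedBall_subset_closedBall (by linarith))) Subset.rfl
  have i1 : IntegrableOn (height P x) (Metric.closedBall x (8 * r) ×ˢ univ) V := by
    have := memLp_of_cont H.st (isCompact_closedBall x (8 * r)) H.dom measurableSet_closedBall
      Subset.rfl (f := fun z : Euc k => ‖(z - x) - P (z - x)‖) (by fun_prop)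
    exact this.integrable_sq
  calc ∫ p in W ×ˢ univ, ‖h0 π ρ T x p‖ ^ 2 ∂V ≤ ∫ p in W ×ˢ univ, 9 / 4 * height P x p ∂V := by
        refine setIntegral_mono_on (H.memLp_h0 T).integrable_sq ((i1.mono_set hsub).const_mul _)
          (H.Wm.prod MeasurableSet.univ) ?_
        intro p _
        have h1 := vert_le H.fr H.pl hT1 hT2 (p.1 - x)
        have h2 := pow_le_pow_left₀ (norm_nonneg _) h1 2
        refine h2.trans (le_of_eq ?_)
        rw [mul_pow]
        have : height P x p = ‖(p.1 - x) - P (p.1 - x)‖ ^ 2 := rfl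
        rw [this]
        norm_num
    _ = 9 / 4 * ∫ p in W ×ˢ univ, height P x p ∂V := integral_const_mul _ _
    _ ≤ 9 / 4 * (om * r ^ (m + 2)) := by
        refine mul_le_mul_of_nonneg_left (le_trans ?_ H.flat) (by norm_num)
        refine setIntegral_mono_set i1 (Eventually.of_forall fun p => ?_) hsub.eventuallyLE
        change 0 ≤ height P x p
        unfold height
        positivity

theorem l0 (hΛ : 0 ≤ Λ) {T : Euc m →L[ℝ] Euc n} (hT1 : ‖T‖ ≤ 1 / 2)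
    (hT2 : ∀ ξ : Euc k, P ξ = ξ → ρ ξ = T (π ξ)) :
    ∫ p in W ×ˢ univ, ‖h0 π ρ T x p‖ ∂V ≤ Real.sqrt (3 * Λ) * Real.sqrt om * r ^ (m + 1) := by
  have hr := H.r0
  have hom := H.om0
  have := H.finW
  have h1 := FL1_567.sq_integral_le (H.memLp_h0 T)
  rw [measureReal_restrict_apply_univ] at h1
  refine (abs_le_of_sq_le_sq' ?_ (by positivity)).2
  refine h1.trans ((mul_le_mul H.Wreal (H.q0 hT1 hT2) (integral_nonneg fun p => by positivity)
    (by positivity)).trans ?_)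
  rw [mul_pow, mul_pow, Real.sq_sqrt (by positivity), Real.sq_sqrt hom]
  have e1 : (r ^ (m + 1)) ^ 2 = r ^ m * r ^ (m + 2) := by ring
  rw [e1]
  have : 0 ≤ Λ * om * (r ^ m * r ^ (m + 2)) := by positivity
  nlinarith

/-- tested averages of the difference `u - T`. -/
theorem tests (hΛ : 0 ≤ Λ) {T : Euc m →L[ℝ] Euc n} (hT1 : ‖T‖ ≤ 1 / 2)
    (hT2 : ∀ ξ : Euc k, P ξ = ξ → ρ ξ = T (π ξ)) (ζ : Euc m → ℝ) (h1 : ContDiff ℝ ∞ ζ)
    (h2 : tsupport ζ ⊆ Metric.ball 0 1) (h3 : ∀ j ≤ K, ∀ z, ‖iteratedFDeriv ℝ j ζ z‖ ≤ 1) :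
    ‖∫ p in W ×ˢ univ, ζ (bX π x r p) • (u - T) (bX π x r p) ∂V‖ ≤
      (mu + Real.sqrt (3 * Λ) * Real.sqrt om) * r ^ m := by
  have hr := H.r0
  have h4 := H.test ζ h1 h2 h3
  have hζ : ∀ y, ‖ζ y‖ ≤ 1 := fun y => by
    have := h3 0 (Nat.zero_le _) y
    rwa [norm_iteratedFDeriv_zero] at this
  have hle : ∀ (y : Euc m) (v : Euc n), ‖ζ y • v‖ ≤ ‖v‖ := fun y v => by
    rw [norm_smul]
    exact mul_le_of_le_one_left (norm_nonneg _) (hζ _)
  have hz : Continuous fun p : Euc k × L k => ζ (bX π x r p) := h1.continuous.comp continuous_bX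
  have j0 : Integrable (fun p : Euc k × L k => ‖h0 π ρ T x p‖) (V.restrict (W ×ˢ univ)) := by
    have := H.finW
    exact (H.memLp_h0 T).integrable (by norm_num)
  have j1 : Integrable (fun p : Euc k × L k => ‖hgt π ρ x r u p.1‖) (V.restrict (W ×ˢ univ)) := by
    have := H.finW
    exact H.memLp_hgt.integrable (by norm_num)
  have i0 : Integrable (fun p => ζ (bX π x r p) • h0 π ρ T x p) (V.restrict (W ×ˢ univ)) :=
    Integrable.mono' j0 (hz.smul continuous_h0).aestronglyMeasurable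
      (Eventually.of_forall fun p => hle _ _)
  have i1 : Integrable (fun p : Euc k × L k => ζ (bX π x r p) • hgt π ρ x r u p.1)
      (V.restrict (W ×ˢ univ)) :=
    Integrable.mono' j1 (hz.smul ((continuous_hgt H.cd.continuous).comp
      continuous_fst)).aestronglyMeasurable (Eventually.of_forall fun p => hle _ _)
  have e1 : r • ∫ p in W ×ˢ univ, ζ (bX π x r p) • (u - T) (bX π x r p) ∂V =
      (∫ p in W ×ˢ univ, ζ (bX π x r p) • h0 π ρ T x p ∂V) -
        ∫ p in W ×ˢ univ, ζ (bX π x r p) • hgt π ρ x r u p.1 ∂V := by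
    rw [← integral_smul, ← integral_sub i0 i1]
    refine integral_congr_ae (Eventually.of_forall fun p => ?_)
    simp only
    rw [← smul_sub, ← h0_id hr, smul_comm]
  have e2 : ‖∫ p in W ×ˢ univ, ζ (bX π x r p) • h0 π ρ T x p ∂V‖ ≤
      ∫ p in W ×ˢ univ, ‖h0 π ρ T x p‖ ∂V :=
    norm_integral_le_of_norm_le j0 (Eventually.of_forall fun p => hle _ _)
  have e3 : r * ‖∫ p in W ×ˢ univ, ζ (bX π x r p) • (u - T) (bX π x r p) ∂V‖ ≤
      r * ((mu + Real.sqrt (3 * Λ) * Real.sqrt om) * r ^ m) := by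
    have : ‖r • ∫ p in W ×ˢ univ, ζ (bX π x r p) • (u - T) (bX π x r p) ∂V‖ =
        r * ‖∫ p in W ×ˢ univ, ζ (bX π x r p) • (u - T) (bX π x r p) ∂V‖ := by
      rw [norm_smul, Real.norm_of_nonneg hr.le]
    rw [← this, e1]
    refine (norm_sub_le _ _).trans ((add_le_add (e2.trans (H.l0 hΛ hT1 hT2)) h4).trans (le_of_eq ?_))
    ring
  exact le_of_mul_le_mul_left e3 hr

/-- masses over small balls of the base. -/
theorem mass {T : Euc m →L[ℝ] Euc n} (hT1 : ‖T‖ ≤ 1 / 2)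
    (hT2 : ∀ ξ : Euc k, P ξ = ξ → ρ ξ = T (π ξ)) {y : Euc m} {δ c' : ℝ} (hδ : 0 < δ) (hδ1 : δ ≤ 1)
    (hy : ‖y‖ ≤ 1 - δ) {ξ : Euc k} (hPξ : P ξ = ξ) (hπξ : π ξ = y)
    (hm : c' * (r * δ / 4) ^ m ≤ V.real (Metric.ball (x + r • ξ) (r * δ / 4) ×ˢ univ)) :
    c' * (1 / 4) ^ m * δ ^ m * r ^ m ≤
      (V.restrict (W ×ˢ univ)).real (bX π x r ⁻¹' Metric.closedBall y (δ / 2)) := by
  have hr := H.r0
  have hρξ : ‖ρ ξ‖ ≤ 1 / 2 * ‖y‖ := by
    rw [hT2 ξ hPξ, hπξ]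
    exact (T.le_opNorm y).trans (mul_le_mul_of_nonneg_right hT1 (norm_nonneg _))
  have hr' : r * δ ≤ r := mul_le_of_le_one_right hr.le hδ1
  have hsub : Metric.ball (x + r • ξ) (r * δ / 4) ×ˢ (univ : Set (L k)) ⊆
      bX π x r ⁻¹' Metric.closedBall y (δ / 2) ∩ W ×ˢ univ := by
    rintro p ⟨hp, -⟩
    rw [Metric.mem_ball, dist_eq_norm] at hp
    have e1 : p.1 - x = (p.1 - (x + r • ξ)) + r • ξ := by abel
    have e2 : bX π x r p - y = r⁻¹ • π (p.1 - (x + r • ξ)) := by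
      unfold bX
      rw [e1, map_add, smul_add, map_smul, smul_smul, inv_mul_cancel₀ hr.ne', one_smul, hπξ]
      abel
    have e3 : ‖bX π x r p - y‖ ≤ δ / 4 := by
      rw [e2, norm_smul, norm_inv, Real.norm_of_nonneg hr.le, inv_mul_le_iff₀ hr]
      exact (norm_pi_le H.fr _).trans (by linarith)
    refine ⟨?_, ?_, mem_univ _⟩
    · rw [mem_preimage, Metric.mem_closedBall, dist_eq_norm]
      linarith
    · refine H.W3 p.1 ?_ ?_
      · have h5 : ‖π (p.1 - x)‖ = r * ‖bX π x r p‖ := by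
          unfold bX
          rw [norm_smul, norm_inv, Real.norm_of_nonneg hr.le, mul_inv_cancel_left₀ hr.ne']
        have h6 : ‖bX π x r p‖ ≤ ‖bX π x r p - y‖ + ‖y‖ := by
          calc ‖bX π x r p‖ = ‖(bX π x r p - y) + y‖ := by congr 1; abel
            _ ≤ _ := norm_add_le _ _
        rw [h5]
        have h7 : ‖bX π x r p‖ < 1 := by linarith
        exact mul_lt_of_lt_one_right hr h7
      · rw [e1, map_add, map_smul]
        refine (norm_add_le _ _).trans_lt ?_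
        rw [norm_smul, Real.norm_of_nonneg hr.le]
        have h5 := norm_rho_le H.fr (p.1 - (x + r • ξ))
        have h6 : r * ‖ρ ξ‖ ≤ r * (1 / 2) := by
          refine mul_le_mul_of_nonneg_left ?_ hr.le
          linarith [norm_nonneg y]
        linarith
  have hms : MeasurableSet (bX π x r ⁻¹' Metric.closedBall y (δ / 2)) :=
    (continuous_bX (k := k)).measurable measurableSet_closedBall
  rw [measureReal_restrict_apply hms]
  refine le_trans (le_of_eq ?_) (hm.trans (measureReal_mono hsub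
    ((measure_mono inter_subset_right).trans_lt H.Wfin).ne))
  have e4 : r * δ / 4 = r * δ * (1 / 4) := by ring
  rw [e4, mul_pow, mul_pow]
  ring

/-- conclusion from the sup bound. -/
theorem concl (hΛ : 0 ≤ Λ) {T : Euc m →L[ℝ] Euc n} (hT1 : ‖T‖ ≤ 1 / 2)
    (hT2 : ∀ ξ : Euc k, P ξ = ξ → ρ ξ = T (π ξ)) {B : ℝ}
    (hsup : ∀ z ∈ Metric.closedBall (0 : Euc m) 1, ‖(u - T) z‖ ≤ B) :
    ∫ p in W ×ˢ univ, ‖hgt π ρ x r u p.1‖ ^ 2 ∂V ≤ (9 / 2 * om + 2 * Λ * B ^ 2) * r ^ (m + 2) := by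
  have hr := H.r0
  have hpt : ∀ p ∈ W ×ˢ (univ : Set (L k)), ‖hgt π ρ x r u p.1‖ ^ 2 ≤
      2 * ‖h0 π ρ T x p‖ ^ 2 + 2 * r ^ 2 * B ^ 2 := by
    intro p hp
    have h1 : bX π x r p ∈ Metric.closedBall (0 : Euc m) 1 := by
      unfold bX
      rw [mem_closedBall_zero_iff, norm_smul, norm_inv, Real.norm_of_nonneg hr.le,
        inv_mul_le_iff₀ hr, mul_one]
      exact H.W2 p.1 hp.1
    have h2 := hsup _ h1
    have h3 : hgt π ρ x r u p.1 = h0 π ρ T x p - r • (u - T) (bX π x r p) := by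
      rw [h0_id (ρ := ρ) hr]; abel
    have h4 : ‖hgt π ρ x r u p.1‖ ≤ ‖h0 π ρ T x p‖ + r * B := by
      rw [h3]
      refine (norm_sub_le _ _).trans ?_
      rw [norm_smul, Real.norm_of_nonneg hr.le]
      gcongr
    have h5 := pow_le_pow_left₀ (norm_nonneg _) h4 2
    nlinarith [sq_nonneg (‖h0 π ρ T x p‖ - r * B)]
  have := H.finW
  have i5 : Integrable (fun p : Euc k × L k => 2 * ‖h0 π ρ T x p‖ ^ 2)
      (V.restrict (W ×ˢ univ)) := (H.memLp_h0 T).integrable_sq.const_mul 2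
  have i6 : Integrable (fun _ : Euc k × L k => 2 * r ^ 2 * B ^ 2)
      (V.restrict (W ×ˢ univ)) := integrable_const _
  have i7 : IntegrableOn (fun p : Euc k × L k => 2 * ‖h0 π ρ T x p‖ ^ 2 + 2 * r ^ 2 * B ^ 2)
      (W ×ˢ univ) V := i5.add i6
  have hfinal : ∫ p in W ×ˢ univ, ‖hgt π ρ x r u p.1‖ ^ 2 ∂V ≤
      2 * (9 / 4 * (om * r ^ (m + 2))) + 2 * r ^ 2 * B ^ 2 * (Λ * r ^ m) := by
    calc ∫ p in W ×ˢ univ, ‖hgt π ρ x r u p.1‖ ^ 2 ∂V
        ≤ ∫ p in W ×ˢ univ, (2 * ‖h0 π ρ T x p‖ ^ 2 + 2 * r ^ 2 * B ^ 2) ∂V :=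
          setIntegral_mono_on H.memLp_hgt.integrable_sq i7
            (H.Wm.prod MeasurableSet.univ) hpt
      _ = 2 * (∫ p in W ×ˢ univ, ‖h0 π ρ T x p‖ ^ 2 ∂V) +
          2 * r ^ 2 * B ^ 2 * V.real (W ×ˢ univ) := by
          rw [integral_add i5 i6, integral_const_mul, integral_const, measureReal_restrict_apply_univ, smul_eq_mul,
            mul_comm (V.real _)]
      _ ≤ _ := by
          have a1 := H.q0 hT1 hT2
          have a2 := H.Wreal
          gcongr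
  refine hfinal.trans (le_of_eq ?_)
  ring

end Hyp

end Crest.Agent.R234.FL5_567
end
end

-- ▼ part R234/FL6_567
section

/-!
# R234 (helper567), node F9-FL, part 6: the theorem (form (V7) of helper188)

`fl`  : `Hyp` and `∫ |hgt|² ≤ δ₀ r^(m+2)` imply `∫ |hgt|² ≤ C ((mu + √om)^γ)² r^(m+2)`,
`γ = J / (J + K + m)`.
`fl'` : if moreover `mu ≤ B D^(3/4)`, `∫ |hgt|² = D r^(m+2)`, `J ≥ 9 (K + m)`: `D ≤ C om^γ`, `γ ≥ 9/10`.
-/

set_option autoImplicit false
set_option linter.unusedVariables false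
set_option linter.unusedSectionVars false

open MeasureTheory Filter Topology Set
open scoped ENNReal NNReal ContDiff
open Crest.GeometryTopology.Submanifold Crest.Agent.R234.Vf_884
open Crest.Agent.R234.Strat3_842 (tilt height)
open Crest.Agent.R234.Main_456 (Frame hgt box)
open Crest.Agent.R234.FL2_567 Crest.Agent.R234.FL4_567 Crest.Agent.R234.FL5_567

noncomputable section

namespace Crest.Agent.R234.FL6_567

variable {m n k : ℕ}

/-- the exponent. -/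
def gam (m J K : ℕ) : ℝ := (J : ℝ) / ((J : ℝ) + K + m)

theorem gam_pos {m J K : ℕ} (hJ : 1 ≤ J) : 0 < gam m J K := by
  unfold gam
  have hJ0 : (0 : ℝ) < J := by exact_mod_cast hJ
  positivity

theorem gam_le_one {m J K : ℕ} (hJ : 1 ≤ J) : gam m J K ≤ 1 := by
  unfold gam
  have hJ0 : (0 : ℝ) < J := by exact_mod_cast hJ
  have hK0 : (0 : ℝ) ≤ K := Nat.cast_nonneg K
  have hm0 : (0 : ℝ) ≤ m := Nat.cast_nonneg m
  rw [div_le_one (by positivity)]
  linarith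

theorem le_gam {m J K : ℕ} (hJ : 1 ≤ J) (h : 9 * (K + m) ≤ J) : 9 / 10 ≤ gam m J K := by
  unfold gam
  have hJ0 : (0 : ℝ) < J := by exact_mod_cast hJ
  have hK0 : (0 : ℝ) ≤ K := Nat.cast_nonneg K
  have hm0 : (0 : ℝ) ≤ m := Nat.cast_nonneg m
  have h1 : 9 * ((K : ℝ) + m) ≤ J := by exact_mod_cast h
  rw [le_div_iff₀ (by positivity)]
  linarith

/-- the difference of `u` and the plane is small on the whole unit ball. -/
theorem fl0 (m n k J K : ℕ) (hJ : m + 1 ≤ J) (hJ2 : 2 ≤ J) {Λ c A : ℝ} (hΛ : 0 ≤ Λ) (hc : 0 < c)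
    (hA : 0 ≤ A) : ∃ δ₀ om₀ C : ℝ, 0 < δ₀ ∧ 0 < om₀ ∧ om₀ ≤ 1 ∧ 0 < C ∧
    ∀ {U : Set (Euc k)} {V : Measure (Euc k × L k)} {π : Euc k →L[ℝ] Euc m}
      {ρ : Euc k →L[ℝ] Euc n} {x : Euc k} {r : ℝ} {P : L k} {om : ℝ} {u : Euc m → Euc n}
      {W : Set (Euc k)} {mu : ℝ}, Hyp m n k J K Λ c A U V π ρ x r P om u W mu →
    ∫ p in W ×ˢ univ, ‖hgt π ρ x r u p.1‖ ^ 2 ∂V ≤ δ₀ * r ^ (m + 2) → om ≤ om₀ →
    ∃ T : Euc m →L[ℝ] Euc n, ‖T‖ ≤ 1 / 2 ∧ (∀ ξ : Euc k, P ξ = ξ → ρ ξ = T (π ξ)) ∧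
      ∀ z ∈ Metric.closedBall (0 : Euc m) 1,
        ‖(u - ⇑T) z‖ ≤ C * (mu + Real.sqrt om) ^ gam m J K := by
  obtain ⟨ε, hε, hε1, hper⟩ := persist2 m k hΛ (c := c / 2 ^ m) (by positivity)
  have hγ0 : 0 < gam m J K := gam_pos (by omega)
  set γ : ℝ := gam m J K with hγ
  set c₀ : ℝ := c / 2 ^ m / 2 * (1 / 4) ^ m with hc₀
  have hc₀0 : 0 < c₀ := by positivity
  obtain ⟨C₁, hC₁, htested⟩ := FL3_567.tested (Euc m) m J K (by omega) hc₀0
    (A := A + 1) (by linarith)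
  set δ₀ : ℝ := (c / 2 ^ m / 2) * (1 / 128) ^ m * (1 / 100) ^ 2 / 2 with hδ₀
  have hδ₀0 : 0 < δ₀ := by positivity
  have hδ₀1 : δ₀ < (c / 2 ^ m / 2) * (1 / 128) ^ m * (1 / 100) ^ 2 := half_lt_self (by positivity)
  set om₀ : ℝ := ε * (1 / 256) ^ (2 * (m + 1)) with hom₀
  have hom₀0 : 0 < om₀ := by positivity
  have hom₀1 : om₀ ≤ 1 := mul_le_one₀ hε1 (by positivity) (pow_le_one₀ (by norm_num) (by norm_num))
  set C₂ : ℝ := 8 ^ J * (Real.sqrt ε ^ ((J : ℝ) / ((m : ℝ) + 1)))⁻¹ with hC₂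
  have hC₂0 : 0 < C₂ := by
    have := Real.rpow_pos_of_pos (Real.sqrt_pos.2 hε) ((J : ℝ) / ((m : ℝ) + 1))
    positivity
  set C₃ : ℝ := C₁ * ((1 + Real.sqrt (3 * Λ)) ^ γ + C₂) with hC₃
  have hC₃0 : 0 < C₃ := by
    have := Real.rpow_pos_of_pos (by positivity : 0 < 1 + Real.sqrt (3 * Λ)) γ
    positivity
  refine ⟨δ₀, om₀, C₃, hδ₀0, hom₀0, hom₀1, hC₃0, ?_⟩
  intro U V π ρ x r P om u W mu H hD hsmall
  have hr := H.r0
  have hom := H.om0
  have hmu := H.mu0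
  set S : ℝ := mu + Real.sqrt om with hS
  have hS0 : 0 ≤ S := by positivity
  have hSγ : 0 ≤ S ^ γ := Real.rpow_nonneg hS0 γ
  have hom1 : om ≤ 1 := hsmall.trans hom₀1
  have hsq0 : 0 ≤ Real.sqrt om := Real.sqrt_nonneg _
  have hsqS : Real.sqrt om ≤ S := by rw [hS]; linarith
  -- the slope
  obtain ⟨T, hT1, hT2, hT3⟩ := exists_slope H.fr H.pl (slope_le H.st H.fr (c := c / 2 ^ m / 2)
    (δ₀ := δ₀) hr H.U4 H.pl (fun ξ hPξ hξ => H.per hε hper hΛ (s := r / 128) (by positivity)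
      (by linarith) (by
        refine hsmall.trans (le_of_eq ?_)
        have : r / 128 / (2 * r) = 1 / 256 := by field_simp; norm_num
        rw [hom₀, this]) hPξ (by linarith)) H.cd.continuous (fun a ha b hb =>
      (convex_closedBall (0 : Euc m) 1).norm_image_sub_le_of_norm_fderiv_le (𝕜 := ℝ)
        (fun y _ => (H.cd.differentiable (by exact_mod_cast (by omega : J ≠ 0))) y) H.bd1 hb ha)
      H.Wm H.W1 H.W3 hD hδ₀1)
  refine ⟨T, hT1, hT2, ?_⟩
  -- the difference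
  have hwc : ContDiff ℝ J (u - ⇑T) := H.cd.sub T.contDiff
  have hwA : ∀ y ∈ Metric.closedBall (0 : Euc m) 1, ‖(u - T) y‖ ≤ A + 1 := by
    intro y hy
    have h1 : ‖T y‖ ≤ 1 / 2 * 1 := by
      refine (T.le_opNorm y).trans (mul_le_mul hT1 ?_ (norm_nonneg _) (by norm_num))
      rwa [mem_closedBall_zero_iff] at hy
    have h2 := norm_sub_le (u y) (T y)
    have h3 := H.bd0 y hy
    change ‖u y - T y‖ ≤ A + 1
    linarith
  have hwJ : ∀ y ∈ Metric.closedBall (0 : Euc m) 1, ‖iteratedFDeriv ℝ J (u - ⇑T) y‖ ≤ A + 1 := by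
    intro y hy
    rw [iteratedFDeriv_sub_apply H.cd.contDiffAt T.contDiff.contDiffAt]
    refine (norm_sub_le _ _).trans ?_
    rw [iter_linear T hJ2 y]
    linarith [H.bdJ y hy]
  -- the masses
  set s₀ : ℝ := 8 * Real.sqrt (om / ε) ^ (1 / ((m : ℝ) + 1)) with hs₀
  have hs₀0 : 0 ≤ s₀ := mul_nonneg (by norm_num) (Real.rpow_nonneg (Real.sqrt_nonneg _) _)
  have hmass : ∀ (y : Euc m) (δ : ℝ), s₀ ≤ δ → 0 < δ → δ ≤ 1 → ‖y‖ ≤ 1 - δ →
      c₀ * δ ^ m * r ^ m ≤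
        (V.restrict (W ×ˢ univ)).real (bX π x r ⁻¹' Metric.closedBall y (δ / 2)) := by
    intro y δ hsδ hδ hδ1 hy
    obtain ⟨ξ, hPξ, hπξ⟩ := hT3 y
    refine H.mass hT1 hT2 hδ hδ1 hy hPξ hπξ ?_
    have hρξ : ‖ρ ξ‖ ≤ 1 / 2 * ‖y‖ := by
      rw [hT2 ξ hPξ, hπξ]
      exact (T.le_opNorm y).trans (mul_le_mul_of_nonneg_right hT1 (norm_nonneg _))
    have hξn : ‖r • ξ‖ ≤ 2 * r := by
      rw [norm_smul, Real.norm_of_nonneg hr.le, mul_comm]
      refine mul_le_mul_of_nonneg_right ?_ hr.le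
      have := norm_le_add H.fr ξ
      rw [hπξ] at this
      linarith
    refine H.per hε hper hΛ (s := r * δ / 4) (by positivity) (by nlinarith) ?_
      (by rw [map_smul, hPξ]) hξn
    have := thr_aux hom hε hδ hsδ
    have e : r * δ / 4 / (2 * r) = δ / 8 := by field_simp; norm_num
    rw [e]
    exact this
  have := H.finW
  -- the sup bound
  intro z hz
  have h1 := htested (V.restrict (W ×ˢ (univ : Set (L k)))) (bX π x r) (u - ⇑T)
    (mu + Real.sqrt (3 * Λ) * Real.sqrt om) s₀ (r ^ m) (continuous_bX (k := k)).measurable hwc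
    hwA hwJ (by positivity) hs₀0 (by positivity) hmass (H.tests hΛ hT1 hT2) z hz
  have h2 : (mu + Real.sqrt (3 * Λ) * Real.sqrt om) ^ γ ≤ (1 + Real.sqrt (3 * Λ)) ^ γ * S ^ γ := by
    rw [← Real.mul_rpow (by positivity) hS0]
    refine Real.rpow_le_rpow (by positivity) ?_ hγ0.le
    have : 0 ≤ Real.sqrt (3 * Λ) * mu := by positivity
    rw [hS]
    nlinarith
  have h3 : s₀ ^ J ≤ C₂ * S ^ γ := by
    refine (pow_aux (K := K) hJ hom hom1 hε).trans ?_
    exact mul_le_mul_of_nonneg_left (Real.rpow_le_rpow hsq0 hsqS hγ0.le) hC₂0.le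
  calc ‖(u - ⇑T) z‖ ≤ C₁ * ((mu + Real.sqrt (3 * Λ) * Real.sqrt om) ^ γ + s₀ ^ J) := h1
    _ ≤ C₁ * ((1 + Real.sqrt (3 * Λ)) ^ γ * S ^ γ + C₂ * S ^ γ) := by gcongr
    _ = C₃ * S ^ γ := by rw [hC₃]; ring

/-- **node F9-FL, form (V7).** -/
theorem fl (m n k J K : ℕ) (hJ : m + 1 ≤ J) (hJ2 : 2 ≤ J) {Λ c A : ℝ} (hΛ : 0 ≤ Λ) (hc : 0 < c)
    (hA : 0 ≤ A) : ∃ δ₀ C : ℝ, 0 < δ₀ ∧ 0 < C ∧
    ∀ {U : Set (Euc k)} {V : Measure (Euc k × L k)} {π : Euc k →L[ℝ] Euc m}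
      {ρ : Euc k →L[ℝ] Euc n} {x : Euc k} {r : ℝ} {P : L k} {om : ℝ} {u : Euc m → Euc n}
      {W : Set (Euc k)} {mu : ℝ}, Hyp m n k J K Λ c A U V π ρ x r P om u W mu →
    ∫ p in W ×ˢ univ, ‖hgt π ρ x r u p.1‖ ^ 2 ∂V ≤ δ₀ * r ^ (m + 2) →
    ∫ p in W ×ˢ univ, ‖hgt π ρ x r u p.1‖ ^ 2 ∂V ≤
      C * ((mu + Real.sqrt om) ^ gam m J K) ^ 2 * r ^ (m + 2) := by
  obtain ⟨δ₀, om₀, C₃, hδ₀0, hom₀0, hom₀1, hC₃0, hfl0⟩ := fl0 m n k J K hJ hJ2 hΛ hc hA
  have hγ0 : 0 < gam m J K := gam_pos (by omega)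
  have hγ1 : gam m J K ≤ 1 := gam_le_one (by omega)
  set γ : ℝ := gam m J K with hγ
  have hom₀γ : 0 < (Real.sqrt om₀ ^ γ) ^ 2 := by
    have := Real.rpow_pos_of_pos (Real.sqrt_pos.2 hom₀0) γ
    positivity
  refine ⟨δ₀, δ₀ / (Real.sqrt om₀ ^ γ) ^ 2 + (9 / 2 + 2 * Λ * C₃ ^ 2), hδ₀0, by positivity, ?_⟩
  intro U V π ρ x r P om u W mu H hD
  have hr := H.r0
  have hom := H.om0
  have hmu := H.mu0
  set S : ℝ := mu + Real.sqrt om with hS
  have hS0 : 0 ≤ S := by positivity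
  have hr2 : (0 : ℝ) < r ^ (m + 2) := by positivity
  have hSγ : 0 ≤ S ^ γ := Real.rpow_nonneg hS0 γ
  rcases lt_or_ge om₀ om with hbig | hsmall
  · -- trivial case
    have h1 : (Real.sqrt om₀ ^ γ) ^ 2 ≤ (S ^ γ) ^ 2 := by
      refine pow_le_pow_left₀ (Real.rpow_nonneg (Real.sqrt_nonneg _) _) ?_ 2
      refine Real.rpow_le_rpow (Real.sqrt_nonneg _) ?_ hγ0.le
      have := Real.sqrt_le_sqrt hbig.le
      linarith
    refine hD.trans (mul_le_mul_of_nonneg_right ?_ hr2.le)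
    have h2 : δ₀ ≤ δ₀ / (Real.sqrt om₀ ^ γ) ^ 2 * (S ^ γ) ^ 2 := by
      rw [div_mul_eq_mul_div, le_div_iff₀ hom₀γ]
      gcongr
    have h3 : 0 ≤ (9 / 2 + 2 * Λ * C₃ ^ 2) * (S ^ γ) ^ 2 := by positivity
    rw [add_mul]
    linarith
  have hom1 : om ≤ 1 := hsmall.trans hom₀1
  have hsq0 : 0 ≤ Real.sqrt om := Real.sqrt_nonneg _
  have hsq1 : Real.sqrt om ≤ 1 := Real.sqrt_le_one.2 hom1
  have hsqS : Real.sqrt om ≤ S := by rw [hS]; linarith
  obtain ⟨T, hT1, hT2, hsup⟩ := hfl0 H hD hsmall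
  have homS : om ≤ (S ^ γ) ^ 2 := by
    have h1 : Real.sqrt om ≤ S ^ γ := by
      have h2 : Real.sqrt om ≤ Real.sqrt om ^ γ := by
        have := Real.rpow_le_rpow_of_exponent_ge' hsq0 hsq1 hγ0.le hγ1
        rwa [Real.rpow_one] at this
      exact h2.trans (Real.rpow_le_rpow hsq0 hsqS hγ0.le)
    calc om = Real.sqrt om ^ 2 := (Real.sq_sqrt hom).symm
      _ ≤ _ := pow_le_pow_left₀ hsq0 h1 2
  refine (H.concl hΛ hT1 hT2 hsup).trans (mul_le_mul_of_nonneg_right ?_ hr2.le)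
  have h1 : 0 ≤ δ₀ / (Real.sqrt om₀ ^ γ) ^ 2 * (S ^ γ) ^ 2 := by positivity
  rw [mul_pow, add_mul, add_mul]
  linarith

/-- absorption. -/
theorem absorb {γ C B : ℝ} (hγ : 9 / 10 ≤ γ) (hγ1 : γ ≤ 1) (hC : 0 < C) (hB : 0 ≤ B) :
    ∃ δ : ℝ, 0 < δ ∧ δ ≤ 1 ∧ ∀ {D mu om : ℝ}, 0 ≤ D → D ≤ δ → 0 ≤ mu → mu ≤ B * D ^ (3 / 4 : ℝ) →
      0 ≤ om → D ≤ C * ((mu + Real.sqrt om) ^ γ) ^ 2 → D ≤ 4 * C * om ^ γ := by
  set η : ℝ := (4 * C * (B + 1) ^ 2)⁻¹ with hη
  have hη0 : 0 < η := by positivity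
  refine ⟨min 1 (η ^ (20 / 7 : ℝ)), by positivity, min_le_left _ _, ?_⟩
  intro D mu om hD hDδ hmu hmuD hom h
  have hD1 : D ≤ 1 := hDδ.trans (min_le_left _ _)
  have hDη : D ≤ η ^ (20 / 7 : ℝ) := hDδ.trans (min_le_right _ _)
  have hγ0 : 0 < γ := by linarith
  have hs : 0 ≤ Real.sqrt om := Real.sqrt_nonneg _
  have h1 : (mu + Real.sqrt om) ^ γ ≤ mu ^ γ + Real.sqrt om ^ γ :=
    Real.rpow_add_le_add_rpow hmu hs hγ0.le hγ1
  have h2 : ((mu + Real.sqrt om) ^ γ) ^ 2 ≤ 2 * (mu ^ γ) ^ 2 + 2 * (Real.sqrt om ^ γ) ^ 2 := by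
    have h3 := pow_le_pow_left₀ (Real.rpow_nonneg (by positivity) _) h1 2
    nlinarith [sq_nonneg (mu ^ γ - Real.sqrt om ^ γ)]
  have h3 : (Real.sqrt om ^ γ) ^ 2 = om ^ γ := by
    rw [← Real.rpow_natCast, ← Real.rpow_mul hs, Real.sqrt_eq_rpow, ← Real.rpow_mul hom]
    congr 1
    push_cast
    ring
  have h4 : (mu ^ γ) ^ 2 ≤ (B + 1) ^ 2 * (D * η) := by
    have a1 : mu ^ γ ≤ (B + 1) * (D ^ (3 / 4 : ℝ)) ^ γ := by
      have hD34 : 0 ≤ D ^ (3 / 4 : ℝ) := Real.rpow_nonneg hD _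
      have a2 : mu ≤ (B + 1) * D ^ (3 / 4 : ℝ) := by linarith
      refine (Real.rpow_le_rpow hmu a2 hγ0.le).trans ?_
      rw [Real.mul_rpow (by positivity) hD34]
      refine mul_le_mul_of_nonneg_right ?_ (Real.rpow_nonneg hD34 _)
      have := Real.rpow_le_rpow_of_exponent_le (by linarith : (1:ℝ) ≤ B + 1) hγ1
      rwa [Real.rpow_one] at this
    have a3 : ((D ^ (3 / 4 : ℝ)) ^ γ) ^ 2 ≤ D * η := by
      rw [← Real.rpow_mul hD, ← Real.rpow_natCast, ← Real.rpow_mul hD]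
      have a4 : D ^ (3 / 4 * γ * ((2 : ℕ) : ℝ)) ≤ D ^ (1 + 7 / 20 : ℝ) := by
        refine Real.rpow_le_rpow_of_exponent_ge' hD hD1 (by norm_num) ?_
        push_cast
        linarith
      refine a4.trans ?_
      rw [Real.rpow_add_of_nonneg hD (by norm_num) (by norm_num), Real.rpow_one]
      refine mul_le_mul_of_nonneg_left ?_ hD
      refine (Real.rpow_le_rpow hD hDη (by norm_num)).trans (le_of_eq ?_)
      rw [← Real.rpow_mul hη0.le]
      norm_num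
    calc (mu ^ γ) ^ 2 ≤ ((B + 1) * (D ^ (3 / 4 : ℝ)) ^ γ) ^ 2 :=
          pow_le_pow_left₀ (Real.rpow_nonneg hmu _) a1 2
      _ = (B + 1) ^ 2 * ((D ^ (3 / 4 : ℝ)) ^ γ) ^ 2 := by ring
      _ ≤ _ := by gcongr
  have h5 : D ≤ C * (2 * ((B + 1) ^ 2 * (D * η)) + 2 * om ^ γ) := by
    refine h.trans (mul_le_mul_of_nonneg_left ?_ hC.le)
    rw [← h3]
    linarith
  have h6 : C * (2 * ((B + 1) ^ 2 * (D * η))) = D / 2 := by
    rw [hη]
    field_simp
    ring
  linarith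

/-- **node F9-FL, closed form**: `mu ≤ B D^(3/4)` and `J ≥ 9 (K + m)` give `D ≤ C om^(9/10)`. -/
theorem fl' (m n k J K : ℕ) (hJ : m + 1 ≤ J) (hJ2 : 2 ≤ J) (hJ9 : 9 * (K + m) ≤ J) {Λ c A B : ℝ}
    (hΛ : 0 ≤ Λ) (hc : 0 < c) (hA : 0 ≤ A) (hB : 0 ≤ B) : ∃ δ₀ C : ℝ, 0 < δ₀ ∧ 0 < C ∧
    ∀ {U : Set (Euc k)} {V : Measure (Euc k × L k)} {π : Euc k →L[ℝ] Euc m}
      {ρ : Euc k →L[ℝ] Euc n} {x : Euc k} {r : ℝ} {P : L k} {om : ℝ} {u : Euc m → Euc n}
      {W : Set (Euc k)} {mu D : ℝ}, Hyp m n k J K Λ c A U V π ρ x r P om u W mu →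
    ∫ p in W ×ˢ univ, ‖hgt π ρ x r u p.1‖ ^ 2 ∂V = D * r ^ (m + 2) → D ≤ δ₀ →
    mu ≤ B * D ^ (3 / 4 : ℝ) → D ≤ C * om ^ gam m J K ∧ (om ≤ 1 → D ≤ C * om ^ (9 / 10 : ℝ)) := by
  obtain ⟨δ₁, C₁, hδ₁, hC₁, h⟩ := fl m n k J K hJ hJ2 hΛ hc hA
  have hγ := le_gam (m := m) (J := J) (K := K) (by omega) hJ9
  have hγ1 := gam_le_one (m := m) (J := J) (K := K) (by omega)
  obtain ⟨δ₂, hδ₂, hδ₂1, habs⟩ := absorb hγ hγ1 hC₁ hB
  refine ⟨min δ₁ δ₂, 4 * C₁, by positivity, by positivity, ?_⟩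
  intro U V π ρ x r P om u W mu D H hD hDδ hmu
  have hr : 0 < r := H.r0
  have hr2 : (0 : ℝ) < r ^ (m + 2) := by positivity
  have hD0 : 0 ≤ D := by
    have h1 : 0 ≤ D * r ^ (m + 2) := by
      rw [← hD]
      exact integral_nonneg fun p => by positivity
    exact nonneg_of_mul_nonneg_left h1 hr2
  have h1 := h H (by
    rw [hD]
    exact mul_le_mul_of_nonneg_right (hDδ.trans (min_le_left _ _)) hr2.le)
  rw [hD] at h1
  have h2 : D ≤ C₁ * ((mu + Real.sqrt om) ^ gam m J K) ^ 2 := le_of_mul_le_mul_right h1 hr2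
  have h3 := habs hD0 (hDδ.trans (min_le_right _ _)) H.mu0 hmu H.om0 h2
  refine ⟨h3, fun hom1 => h3.trans ?_⟩
  refine mul_le_mul_of_nonneg_left ?_ (by positivity)
  exact Real.rpow_le_rpow_of_exponent_ge' H.om0 hom1 (by norm_num) hγ

end Crest.Agent.R234.FL6_567
end
end

-- ▼ part R234/FL7_567
section

/-!
# R234 (helper567), fields `fl`, `large` of `F10d_188.Thy`, part 1: from block units to the scale `r`

* `zm t u` : the rescaled graph function `t⁻¹ u (t ·)` and its derivatives;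
* `gr_of_bd` : `Gr S w`, `w = S u(S⁻¹ ·)`;
* `u0_le` : height of the centre;
* `reg_ae` : the region `Kc` and the box agree a.e. over the ball of radius `r`;
* `test_scale` : tests in the unit of the block against tests at the scale `r`.
-/

set_option autoImplicit false
set_option linter.unusedVariables false
set_option linter.unusedSectionVars false

open MeasureTheory Filter Topology Set
open scoped ENNReal NNReal ContDiff
open Crest.GeometryTopology.Submanifold Crest.Agent.R234.Vf_884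
open Crest.Agent.R234.Strat3_842 (tilt height)
open Crest.Agent.R234.Main_456 (Frame hgt box)
open Crest.Agent.R234.FL2_567 Crest.Agent.R234.FL4_567 Crest.Agent.R234.FL5_567
open Crest.Agent.R234.Gi_456 (Gr tube foot yy ch Kc pm)

noncomputable section

namespace Crest.Agent.R234.FL7_567

variable {m n k : ℕ}

/-- the rescaled graph function. -/
def zm (t : ℝ) (u : Euc m → Euc n) (y : Euc m) : Euc n := t⁻¹ • u (t • y)

theorem zm_contDiff {J : ℕ} {t : ℝ} {u : Euc m → Euc n} (hu : ContDiff ℝ J u) :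
    ContDiff ℝ J (zm t u) :=
  (hu.comp (contDiff_id.const_smul t)).const_smul t⁻¹

theorem zm_iter {J : ℕ} {t : ℝ} (ht : 0 < t) {u : Euc m → Euc n} (hu : ContDiff ℝ J u) (y : Euc m) :
    ‖iteratedFDeriv ℝ J (zm t u) y‖ ≤ t⁻¹ * (t ^ J * ‖iteratedFDeriv ℝ J u (t • y)‖) := by
  set g : Euc m →L[ℝ] Euc m := t • ContinuousLinearMap.id ℝ (Euc m) with hg
  have hgn : ‖g‖ ≤ t := by
    rw [hg, norm_smul, Real.norm_of_nonneg ht.le]
    have := ContinuousLinearMap.norm_id_le (𝕜 := ℝ) (E := Euc m)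
    nlinarith
  have h1 : zm t u = fun y => t⁻¹ • (u ∘ g) y := by
    funext y
    simp [hg, zm]
  have hc : ContDiff ℝ J (u ∘ g) := hu.comp g.contDiff
  rw [h1, iteratedFDeriv_const_smul_apply' hc.contDiffAt, norm_smul, norm_inv,
    Real.norm_of_nonneg ht.le]
  refine mul_le_mul_of_nonneg_left ?_ (by positivity)
  rw [g.iteratedFDeriv_comp_right hu y le_rfl]
  refine (ContinuousMultilinearMap.norm_compContinuousLinearMap_le _ _).trans ?_
  have h4 : g y = t • y := by simp [hg]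
  rw [h4, Finset.prod_const, Finset.card_univ, Fintype.card_fin, mul_comm]
  exact mul_le_mul_of_nonneg_right (pow_le_pow_left₀ (norm_nonneg _) hgn J) (norm_nonneg _)

theorem zm_fderiv {t : ℝ} (ht : 0 < t) {u : Euc m → Euc n} (hu : Differentiable ℝ u) (y : Euc m) :
    fderiv ℝ (zm t u) y = fderiv ℝ u (t • y) := by
  have h4 : HasFDerivAt (fun w : Euc m => t • w) (t • ContinuousLinearMap.id ℝ (Euc m)) y :=
    (hasFDerivAt_id y).const_smul t
  have h5 := (((hu (t • y)).hasFDerivAt.comp y h4).const_smul t⁻¹).fderiv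
  refine Eq.trans h5 ?_
  rw [ContinuousLinearMap.comp_smul, smul_smul, inv_mul_cancel₀ ht.ne', one_smul,
    ContinuousLinearMap.comp_id]

theorem hgt_zm (π : Euc k →L[ℝ] Euc m) (ρ : Euc k →L[ℝ] Euc n) (x : Euc k) {S t : ℝ} (hS : 0 < S)
    (ht : 0 < t) (u : Euc m → Euc n) : hgt π ρ x (S * t) (zm t u) = hgt π ρ x S u :=
  Top_395.hgt_rescale hS.ne' ht.ne' u

/-- the graph function in physical units. -/
def ws (S : ℝ) (u : Euc m → Euc n) (X : Euc m) : Euc n := S • u (S⁻¹ • X)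

theorem ws_eq_zm {S : ℝ} (u : Euc m → Euc n) : ws S u = zm S⁻¹ u := by
  funext X
  unfold ws zm
  rw [inv_inv]

/-- `Gr`. -/
theorem gr_of_bd {S κ : ℝ} (hS : 0 < S) (hκ : κ ≤ 1 / 8) {u : Euc m → Euc n} (hu : ContDiff ℝ 4 u)
    (h1 : ∀ y, ‖iteratedFDeriv ℝ 1 u y‖ ≤ κ) (h2 : ∀ y, ‖iteratedFDeriv ℝ 2 u y‖ ≤ κ) :
    Gr S (ws S u) ∧ (∀ X, ‖fderiv ℝ (ws S u) X‖ ≤ κ) ∧
      ∀ X, S * ‖fderiv ℝ (fderiv ℝ (ws S u)) X‖ ≤ κ := by
  have hS' : 0 < S⁻¹ := inv_pos.2 hS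
  have hd : Differentiable ℝ u := hu.differentiable (by norm_num)
  have e1 : ∀ X, ‖fderiv ℝ (ws S u) X‖ ≤ κ := by
    intro X
    rw [ws_eq_zm, zm_fderiv hS' hd]
    have := h1 (S⁻¹ • X)
    rwa [norm_iteratedFDeriv_one] at this
  have e2 : ∀ X, S * ‖fderiv ℝ (fderiv ℝ (ws S u)) X‖ ≤ κ := by
    intro X
    have e3 : ‖fderiv ℝ (fderiv ℝ (ws S u)) X‖ = ‖iteratedFDeriv ℝ 2 (ws S u) X‖ := by
      rw [← norm_iteratedFDeriv_one, norm_iteratedFDeriv_fderiv]
    rw [e3, ws_eq_zm]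
    have e4 := zm_iter (J := 2) hS' (hu.of_le (by norm_num)) X
    have e5 := h2 (S⁻¹ • X)
    rw [inv_inv] at e4
    calc S * ‖iteratedFDeriv ℝ 2 (zm S⁻¹ u) X‖
        ≤ S * (S * ((S⁻¹) ^ 2 * κ)) := by
          refine mul_le_mul_of_nonneg_left (e4.trans ?_) hS.le
          gcongr
      _ = κ := by field_simp
  refine ⟨⟨hS, ?_, fun X => (e1 X).trans hκ, fun X => ?_⟩, e1, e2⟩
  · rw [ws_eq_zm]
    have := zm_contDiff (J := 4) (t := S⁻¹) hu
    exact_mod_cast this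
  · have := e2 X
    rw [le_div_iff₀ (by positivity)]
    linarith

/-- height of the centre. -/
theorem u0_le {V : Measure (Euc k × L k)} {π : Euc k →L[ℝ] Euc m} {ρ : Euc k →L[ℝ] Euc n}
    (hf : Frame π ρ)
    {x : Euc k} {S R η c : ℝ} {u : Euc m → Euc n} (hu : Continuous u) (hS : 0 < S) (hR : 0 < R)
    (hc : 0 < c) (hlow : ∀ s, 0 < s → s ≤ R → c * s ^ m ≤ V.real (Metric.closedBall x s ×ˢ univ))
    (hsup : ∀ᵐ p ∂V, ‖π (p.1 - x)‖ ≤ R → ‖ρ (p.1 - x)‖ ≤ S → ‖hgt π ρ x S u p.1‖ ≤ S * η) :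
    ‖u 0‖ ≤ η := by
  by_contra hcon
  push Not at hcon
  have h0 : S * η < ‖hgt π ρ x S u x‖ := by
    unfold hgt
    simp only [sub_self, map_zero, smul_zero, zero_sub, norm_neg, norm_smul,
      Real.norm_of_nonneg hS.le]
    exact mul_lt_mul_of_pos_left hcon hS
  have hopen : IsOpen {z | S * η < ‖hgt π ρ x S u z‖} :=
    isOpen_lt continuous_const (continuous_hgt hu).norm
  obtain ⟨s, hs, hsub⟩ := Metric.isOpen_iff.1 hopen x h0
  set t := min (s / 2) (min R S) with ht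
  have ht0 : 0 < t := by positivity
  have htR : t ≤ R := (min_le_right _ _).trans (min_le_left _ _)
  have htS : t ≤ S := (min_le_right _ _).trans (min_le_right _ _)
  have hts : t ≤ s / 2 := min_le_left _ _
  have hnull : V (Metric.closedBall x t ×ˢ (univ : Set (L k))) = 0 := by
    rw [measure_eq_zero_iff_ae_notMem]
    filter_upwards [hsup] with p hp hpm
    have h1 : ‖p.1 - x‖ ≤ t := by
      have := hpm.1
      rwa [Metric.mem_closedBall, dist_eq_norm] at this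
    have h2 := hp ((norm_pi_le hf _).trans (h1.trans htR)) ((norm_rho_le hf _).trans (h1.trans htS))
    have h3 : p.1 ∈ Metric.ball x s := by
      rw [Metric.mem_ball, dist_eq_norm]
      linarith
    exact absurd h2 (not_le.2 (hsub h3))
  have h4 := hlow t ht0 htR
  rw [measureReal_def, hnull, ENNReal.toReal_zero] at h4
  have : 0 < c * t ^ m := by positivity
  linarith

variable {V : Measure (Euc k × L k)} {π : Euc k →L[ℝ] Euc m} {ρ : Euc k →L[ℝ] Euc n} {x : Euc k}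
  {S r η : ℝ} {u : Euc m → Euc n}

theorem hgt_ws (z : Euc k) : hgt π ρ x S u z = ρ (z - x) - ws S u (π (z - x)) := rfl

theorem ws_zero : ‖ws S u 0‖ = |S| * ‖u 0‖ := by
  unfold ws
  rw [smul_zero, norm_smul, Real.norm_eq_abs]

/-- the region and the box agree a.e. over the ball of radius `r`. -/
theorem reg_ae (hf : Frame π ρ) (hg : Gr S (ws S u)) (hr : 0 < r) (hrS : r ≤ S)
    (hη : S * η ≤ r / 4) (hu0 : ‖u 0‖ ≤ η)
    (hsup : ∀ᵐ p ∂V, ‖π (p.1 - x)‖ ≤ r → ‖ρ (p.1 - x)‖ ≤ S → ‖hgt π ρ x S u p.1‖ ≤ S * η) :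
    ∀ᵐ p ∂V, ‖π (p.1 - x)‖ < r →
      (p.1 ∈ Kc π ρ x (ws S u) 0 (2 * S) (S / 2) ↔ p.1 ∈ box π ρ x r) := by
  have hS := hg.pos
  have hS' : 65 / 64 * (S / 2) < S := by linarith
  have hw0 : ‖ws S u 0‖ ≤ r / 4 := by
    rw [ws_zero, abs_of_pos hS]
    exact (mul_le_mul_of_nonneg_left hu0 hS.le).trans hη
  filter_upwards [hsup] with p hp hπ
  have hlip : ‖ws S u (π (p.1 - x))‖ ≤ r / 4 + 1 / 8 * r := by
    have h1 := hg.lip (π (p.1 - x)) 0
    rw [sub_zero] at h1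
    have h2 := norm_le_norm_add_norm_sub' (ws S u (π (p.1 - x))) (ws S u 0)
    linarith
  constructor
  · intro hz
    obtain ⟨h1, h2, h3⟩ := (hg.mem_Kc hf hS').1 hz
    have h4 := hg.norm_yy_sub h1
    have h5 := norm_le_norm_add_norm_sub (yy π ρ x S (ws S u) p.1)
      (ρ (p.1 - x) - ws S u (π (p.1 - x)))
    have h6 : ‖ρ (p.1 - x)‖ ≤ ‖ρ (p.1 - x) - ws S u (π (p.1 - x))‖ + ‖ws S u (π (p.1 - x))‖ := by
      have := norm_add_le (ρ (p.1 - x) - ws S u (π (p.1 - x))) (ws S u (π (p.1 - x)))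
      rwa [sub_add_cancel] at this
    have h7 : ‖ρ (p.1 - x)‖ ≤ S := by linarith
    have h8 := hp hπ.le h7
    rw [hgt_ws] at h8
    exact ⟨hπ, by linarith⟩
  · rintro ⟨-, hρ⟩
    have h8 := hp hπ.le (hρ.le.trans hrS)
    rw [hgt_ws] at h8
    have h1 : p.1 ∈ tube π ρ x S (ws S u) := by
      show ‖ρ (p.1 - x) - ws S u (π (p.1 - x))‖ < S
      linarith
    refine (hg.mem_Kc hf hS').2 ⟨h1, ?_, ?_⟩
    · rw [sub_zero]
      have h2 := hg.norm_foot_sub h1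
      have h3 := norm_le_norm_add_norm_sub' (foot π ρ x S (ws S u) p.1) (π (p.1 - x))
      linarith
    · have h2 := hg.norm_yy_le h1
      linarith

/-- **tests at the scale `r = S rad`.** -/
theorem test_scale {Ks : ℕ} {rad τ : ℝ} (hS : 0 < S) (hrad : 0 < rad) (hrad1 : rad ≤ 1)
    {A : Set (Euc k × L k)} (hAm : MeasurableSet A)
    (hA : ∀ᵐ p ∂V, ‖π (p.1 - x)‖ < S * rad → (p ∈ A ↔ p ∈ box π ρ x (S * rad) ×ˢ (univ : Set (L k))))
    (hmean : ∀ ζ : Euc m → ℝ, ContDiff ℝ ∞ ζ → tsupport ζ ⊆ Metric.ball 0 rad →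
      (∀ j ≤ Ks, ∀ z, ‖iteratedFDeriv ℝ j ζ z‖ ≤ 1) →
      ‖∫ p in A, ζ (S⁻¹ • π (p.1 - x)) • hgt π ρ x S u p.1 ∂V‖ ≤ τ) :
    ∀ ζ : Euc m → ℝ, ContDiff ℝ ∞ ζ → tsupport ζ ⊆ Metric.ball 0 1 →
      (∀ j ≤ Ks, ∀ z, ‖iteratedFDeriv ℝ j ζ z‖ ≤ 1) →
      ‖∫ p in box π ρ x (S * rad) ×ˢ univ, ζ ((S * rad)⁻¹ • π (p.1 - x)) •
        hgt π ρ x (S * rad) (zm rad u) p.1 ∂V‖ ≤ (rad⁻¹) ^ Ks * τ := by
  intro ζ hζ1 hζ2 hζ3
  have hr : 0 < S * rad := by positivity
  set a := rad ^ Ks with ha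
  have ha0 : 0 < a := by positivity
  set t := rad⁻¹ with ht
  have ht0 : 0 < t := by positivity
  have ht1 : 1 ≤ t := (one_le_inv₀ hrad).2 hrad1
  have hat : a * t ^ Ks = 1 := by
    rw [ha, ht, ← mul_pow, mul_inv_cancel₀ hrad.ne', one_pow]
  set ζ' : Euc m → ℝ := fun y => a * ζ (t • y) with hζ'
  have h1 : ContDiff ℝ ∞ ζ' := contDiff_const.mul (hζ1.comp (contDiff_const_smul t))
  have h2 : tsupport ζ' ⊆ Metric.ball 0 rad := by
    have e1 : tsupport ζ' ⊆ (fun y : Euc m => t • y) ⁻¹' (tsupport ζ) := by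
      refine closure_minimal ?_ ((isClosed_tsupport ζ).preimage (continuous_const_smul t))
      intro y hy
      refine subset_tsupport ζ ?_
      intro h0
      exact hy (by rw [hζ']; simp only [h0, mul_zero])
    intro y hy
    have e2 := hζ2 (e1 hy)
    rw [mem_ball_zero_iff, norm_smul, Real.norm_of_nonneg ht0.le, ht, inv_mul_lt_iff₀ hrad,
      mul_one] at e2
    rwa [mem_ball_zero_iff]
  have h3 : ∀ j ≤ Ks, ∀ z, ‖iteratedFDeriv ℝ j ζ' z‖ ≤ 1 := by
    intro j hj z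
    have hcd : ContDiff ℝ j ζ := hζ1.of_le (by exact_mod_cast le_top)
    set g : Euc m →L[ℝ] Euc m := t • ContinuousLinearMap.id ℝ (Euc m) with hg
    have hgn : ‖g‖ ≤ t := by
      rw [hg, norm_smul, Real.norm_of_nonneg ht0.le]
      have := ContinuousLinearMap.norm_id_le (𝕜 := ℝ) (E := Euc m)
      nlinarith
    have e1 : ζ' = fun y => a • (ζ ∘ g) y := by
      funext y
      simp [hg, hζ']
    have hc : ContDiff ℝ j (ζ ∘ g) := hcd.comp g.contDiff
    rw [e1, iteratedFDeriv_const_smul_apply' hc.contDiffAt, norm_smul, Real.norm_of_nonneg ha0.le,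
      g.iteratedFDeriv_comp_right hcd z le_rfl]
    calc a * ‖(iteratedFDeriv ℝ j ζ (g z)).compContinuousLinearMap fun _ => g‖
        ≤ a * (1 * t ^ Ks) := by
          refine mul_le_mul_of_nonneg_left ?_ ha0.le
          refine (ContinuousMultilinearMap.norm_compContinuousLinearMap_le _ _).trans ?_
          refine mul_le_mul (hζ3 j hj _) ?_ (Finset.prod_nonneg fun _ _ => norm_nonneg _) zero_le_one
          rw [Finset.prod_const, Finset.card_univ, Fintype.card_fin]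
          exact (pow_le_pow_left₀ (norm_nonneg _) hgn j).trans (pow_le_pow_right₀ ht1 hj)
      _ = 1 := by rw [one_mul, hat]
  have h4 := hmean ζ' h1 h2 h3
  have hbox : MeasurableSet (box π ρ x (S * rad) ×ˢ (univ : Set (L k))) :=
    (End_395.isOpen_box π ρ x _).measurableSet.prod MeasurableSet.univ
  have h5 : ∫ p in A, ζ' (S⁻¹ • π (p.1 - x)) • hgt π ρ x S u p.1 ∂V =
      a • ∫ p in box π ρ x (S * rad) ×ˢ univ, ζ ((S * rad)⁻¹ • π (p.1 - x)) •
        hgt π ρ x (S * rad) (zm rad u) p.1 ∂V := by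
    have e0 : ∀ p : Euc k × L k, ζ' (S⁻¹ • π (p.1 - x)) = a * ζ ((S * rad)⁻¹ • π (p.1 - x)) := by
      intro p
      rw [hζ']
      simp only
      rw [smul_smul]
      congr 3
      rw [ht, mul_inv, mul_comm]
    rw [hgt_zm π ρ x hS hrad, ← integral_smul, ← integral_indicator hAm, ← integral_indicator hbox]
    refine integral_congr_ae ?_
    filter_upwards [hA] with p hp
    by_cases hπ : ‖π (p.1 - x)‖ < S * rad
    · have e1 := hp hπ
      by_cases hpA : p ∈ A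
      · rw [indicator_of_mem hpA, indicator_of_mem (e1.1 hpA), e0, mul_smul]
      · rw [indicator_of_notMem hpA, indicator_of_notMem (fun h => hpA (e1.2 h))]
    · have e1 : ζ ((S * rad)⁻¹ • π (p.1 - x)) = 0 := by
        by_contra hne
        have e2 := hζ2 (subset_tsupport ζ hne)
        rw [mem_ball_zero_iff, norm_smul, norm_inv, Real.norm_of_nonneg hr.le,
          inv_mul_lt_iff₀ hr, mul_one] at e2
        exact hπ e2
      have e3 : A.indicator (fun p => ζ' (S⁻¹ • π (p.1 - x)) • hgt π ρ x S u p.1) p = 0 := by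
        refine indicator_apply_eq_zero.2 fun _ => ?_
        rw [e0, e1, mul_zero, zero_smul]
      have e4 : (box π ρ x (S * rad) ×ˢ (univ : Set (L k))).indicator
          (fun p => a • ζ ((S * rad)⁻¹ • π (p.1 - x)) • hgt π ρ x S u p.1) p = 0 := by
        refine indicator_apply_eq_zero.2 fun _ => ?_
        rw [e1, zero_smul, smul_zero]
      rw [e3, e4]
  rw [h5, norm_smul, Real.norm_of_nonneg ha0.le] at h4
  calc ‖∫ p in box π ρ x (S * rad) ×ˢ univ, ζ ((S * rad)⁻¹ • π (p.1 - x)) •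
        hgt π ρ x (S * rad) (zm rad u) p.1 ∂V‖
      = t ^ Ks * (a * ‖∫ p in box π ρ x (S * rad) ×ˢ univ, ζ ((S * rad)⁻¹ • π (p.1 - x)) •
        hgt π ρ x (S * rad) (zm rad u) p.1 ∂V‖) := by
        rw [← mul_assoc, mul_comm (t ^ Ks) a, hat, one_mul]
    _ ≤ t ^ Ks * τ := by gcongr

end Crest.Agent.R234.FL7_567
end
end

-- ▼ part R234/FL8_567
section

/-!
# R234 (helper567), fields `fl`, `large` of `F10d_188.Thy`, part 2: the functional `I` against the
height integral over the box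

* `box_of_near` : points whose foot is in the ball `e` are over the ball of radius `r > e`;
* `II_le_box` : `II ≤ 27 B / 2 e^{-ml} ∫_W ‖hgt‖²`.
-/

set_option autoImplicit false
set_option linter.unusedVariables false
set_option linter.unusedSectionVars false

open MeasureTheory Filter Topology Set
open scoped ENNReal NNReal ContDiff
open Crest.GeometryTopology.Submanifold Crest.Agent.R234.Vf_884
open Crest.Agent.R234.Strat3_842 (tilt height)
open Crest.Agent.R234.Main_456 (Frame hgt box)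
open Crest.Agent.R234.FL2_567 Crest.Agent.R234.FL4_567 Crest.Agent.R234.FL5_567
open Crest.Agent.R234.Gi_456 (Gr tube foot yy ch Kc pm)
open Crest.Agent.R234.FL7_567

noncomputable section

namespace Crest.Agent.R234.FL8_567

variable {m n k : ℕ} {V : Measure (Euc k × L k)} {π : Euc k →L[ℝ] Euc m} {ρ : Euc k →L[ℝ] Euc n}
  {x : Euc k} {S rad η : ℝ} {u : Euc m → Euc n}

theorem ws_zm (hS : 0 < S) (hrad : 0 < rad) (u : Euc m → Euc n) (X : Euc m) :
    ws S u X = (S * rad) • zm rad u ((S * rad)⁻¹ • X) := by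
  unfold ws zm
  have e1 : rad • (S * rad)⁻¹ • X = S⁻¹ • X := by
    rw [smul_smul]
    congr 1
    field_simp
  rw [e1, smul_smul]
  congr 1
  field_simp

/-- points whose foot is in the ball of radius `e` are in the box of radius `r > e`. -/
theorem box_of_near (hf : Frame π ρ) (hg : Gr S (ws S u)) (hrad : 0 < rad) {P : L k}
    (hP : P ∈ G m k) {T : Euc m →L[ℝ] Euc n} (hT1 : ‖T‖ ≤ 1 / 2)
    (hT2 : ∀ ξ : Euc k, P ξ = ξ → ρ ξ = T (π ξ)) {θ η₂ e : ℝ}
    (hsup : ∀ y ∈ Metric.closedBall (0 : Euc m) 1, ‖(zm rad u - ⇑T) y‖ ≤ θ)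
    (her : e ≤ S * rad) (hgap : η₂ + S * rad * θ < S * rad - e) (h8 : η₂ + S * rad * θ ≤ S * rad / 8)
    (hw0 : ‖ws S u 0‖ ≤ S * rad / 4) {z : Euc k} (hz : z ∈ tube π ρ x S (ws S u))
    (hfoot : ‖foot π ρ x S (ws S u) z‖ ≤ e) (hnear : ‖(z - x) - P (z - x)‖ ≤ η₂) :
    z ∈ box π ρ x (S * rad) := by
  have hS := hg.pos
  set r := S * rad with hr
  have hr0 : 0 < r := by positivity
  set F := foot π ρ x S (ws S u) z with hF
  set Y := yy π ρ x S (ws S u) z with hY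
  have hfix := hg.foot_fix hz
  rw [← hF, ← hY] at hfix
  have h1 : ‖F - π (z - x)‖ ≤ 1 / 8 * ‖Y‖ := by
    have e1 : F - π (z - x) = ContinuousLinearMap.adjoint (fderiv ℝ (ws S u) F) Y := by
      nth_rewrite 1 [hfix]
      abel
    rw [e1]
    exact End_395.adj_le hg F Y
  have h2 : ‖ws S u F - T F‖ ≤ r * θ := by
    have hF1 : r⁻¹ • F ∈ Metric.closedBall (0 : Euc m) 1 := by
      rw [mem_closedBall_zero_iff, norm_smul, norm_inv, Real.norm_of_nonneg hr0.le,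
        inv_mul_le_iff₀ hr0, mul_one]
      exact hfoot.trans her
    have e1 : ws S u F - T F = r • (zm rad u - ⇑T) (r⁻¹ • F) := by
      rw [ws_zm hS hrad, ← hr]
      change r • zm rad u (r⁻¹ • F) - T F = r • (zm rad u (r⁻¹ • F) - T (r⁻¹ • F))
      rw [smul_sub, map_smul, smul_smul, mul_inv_cancel₀ hr0.ne', one_smul]
    rw [e1, norm_smul, Real.norm_of_nonneg hr0.le]
    exact mul_le_mul_of_nonneg_left (hsup _ hF1) hr0.le
  have h3 := vert_le hf hP hT1 hT2 (z - x)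
  have h4 : ‖Y‖ ≤ 3 / 2 * η₂ + 1 / 2 * (1 / 8 * ‖Y‖) + r * θ := by
    have e1 : Y = (ρ (z - x) - T (π (z - x))) - T (F - π (z - x)) - (ws S u F - T F) := by
      have e0 : T (F - π (z - x)) = T F - T (π (z - x)) := map_sub T _ _
      rw [hY, e0]
      change ρ (z - x) - ws S u F = _
      abel
    have e2 : ‖T (F - π (z - x))‖ ≤ 1 / 2 * (1 / 8 * ‖Y‖) :=
      (T.le_opNorm _).trans (mul_le_mul hT1 h1 (norm_nonneg _) (by norm_num))
    have e3 : ‖ρ (z - x) - T (π (z - x))‖ ≤ 3 / 2 * η₂ := h3.trans (by gcongr)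
    calc ‖Y‖ = ‖(ρ (z - x) - T (π (z - x))) - T (F - π (z - x)) - (ws S u F - T F)‖ := by rw [← e1]
      _ ≤ ‖(ρ (z - x) - T (π (z - x))) - T (F - π (z - x))‖ + ‖ws S u F - T F‖ := norm_sub_le _ _
      _ ≤ _ := add_le_add ((norm_sub_le _ _).trans (add_le_add e3 e2)) h2
  have hη₂ : 0 ≤ η₂ := (norm_nonneg _).trans hnear
  have hθ : 0 ≤ r * θ := (norm_nonneg _).trans h2
  have h5 : ‖Y‖ ≤ 2 * (η₂ + r * θ) := by linarith
  have h6 : ‖π (z - x)‖ ≤ ‖F‖ + ‖F - π (z - x)‖ := norm_le_norm_add_norm_sub _ _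
  refine ⟨by linarith, ?_⟩
  have h7 : ‖ws S u F‖ ≤ ‖ws S u 0‖ + 1 / 8 * r := by
    have e1 := hg.lip F 0
    rw [sub_zero] at e1
    have e2 := norm_le_norm_add_norm_sub' (ws S u F) (ws S u 0)
    have e3 : ‖F‖ ≤ r := hfoot.trans her
    linarith
  have h8' : ‖ρ (z - x)‖ ≤ ‖Y‖ + ‖ws S u F‖ := by
    have e1 : ρ (z - x) = Y + ws S u F := by
      rw [hY]
      change ρ (z - x) = (ρ (z - x) - ws S u F) + ws S u F
      abel
    rw [e1]
    exact norm_add_le _ _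
  linarith

open Crest.Agent.R234.End_395 (Cmp ig ig_nonneg II_eq sq_arg)
open Crest.Agent.R234.GL_394 (Ch VK II Pf)

/-- upper bound of `II` by the height integral over `W`. -/
theorem II_le_box {c : Ch m k} {K W : Set (Euc k)} {h : Euc k → Euc n} {p : Euc k → Euc m}
    {g g1 g2 : ℝ → ℝ} {B l : ℝ} (hc : Cmp c K h p l) (hg : Pf g g1 g2 B) (hB : 0 ≤ B)
    (hKm : MeasurableSet K) (hWm : MeasurableSet W)
    (hbox : ∀ᵐ q ∂V, q.1 ∈ K → ‖c.x q.1‖ ≤ Real.exp l → q.1 ∈ W)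
    (hint : IntegrableOn (fun q : Euc k × L k => ‖h q.1‖ ^ 2) (W ×ˢ univ) V) :
    II c (VK V K) g1 l ≤
      9 / 2 * B * (Real.exp (-m * l) * ∫ q in W ×ˢ univ, ‖h q.1‖ ^ 2 ∂V) := by
  rw [II_eq]
  have hWm' : MeasurableSet (W ×ˢ (univ : Set (L k))) := hWm.prod MeasurableSet.univ
  have hKm' : MeasurableSet (K ×ˢ (univ : Set (L k))) := hKm.prod MeasurableSet.univ
  set F : Euc k × L k → ℝ := fun q => 9 / 2 * B * ‖h q.1‖ ^ 2 with hF
  have hF0 : ∀ q, 0 ≤ F q := fun q => by rw [hF]; positivity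
  have hFi : IntegrableOn F (W ×ˢ univ) V := hint.const_mul _
  have hFi' : Integrable ((W ×ˢ univ).indicator F) V := (integrable_indicator_iff hWm').2 hFi
  have hmem : ∀ᵐ q ∂(VK V K), q.1 ∈ K := by
    filter_upwards [ae_restrict_mem hKm'] with q hq
    exact hq.1
  have h1 : ∫ q, ig c g1 l q ∂(VK V K) ≤ ∫ q, (W ×ˢ univ).indicator F q ∂(VK V K) := by
    refine integral_mono_of_nonneg ?_ (hFi'.mono_measure Measure.restrict_le_self) ?_
    · filter_upwards [hmem] with q hq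
      exact ig_nonneg hc hg hq
    · filter_upwards [hmem, (ae_restrict_of_ae hbox : ∀ᵐ q ∂(VK V K), _)] with q hq hqb
      have hf0 : 0 ≤ c.f q.1 := by
        have := hc.f2 q.1 hq
        nlinarith [sq_nonneg ‖h q.1‖]
      rcases le_or_gt ‖c.x q.1‖ (Real.exp l) with hx | hx
      · have hmem : q ∈ W ×ˢ (univ : Set (L k)) := ⟨hqb hq hx, mem_univ _⟩
        rw [indicator_of_mem hmem]
        unfold ig
        obtain ⟨h1, h2⟩ := hc.mu q.1 hq hx
        have h3 := hg.b1 (Real.exp (-2 * l) * ‖c.x q.1‖ ^ 2) (by positivity)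
        have h4 := hg.pr.anti (Real.exp (-2 * l) * ‖c.x q.1‖ ^ 2) (by positivity)
        have h5 := hc.f1 q.1 hq
        have h6 : c.f q.1 * c.mu (c.x q.1) ≤ 3 / 4 * ‖h q.1‖ ^ 2 * (3 / 2) := by
          refine mul_le_mul (by linarith) h2 (by linarith) (by positivity)
        have h7 : c.f q.1 * c.mu (c.x q.1) * (-4 * g1 (Real.exp (-2 * l) * ‖c.x q.1‖ ^ 2)) ≤
            3 / 4 * ‖h q.1‖ ^ 2 * (3 / 2) * (4 * B) := by
          refine mul_le_mul h6 (by linarith) (by linarith) (by positivity)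
        refine h7.trans (le_of_eq ?_)
        rw [hF]
        ring
      · have h2 : g1 (Real.exp (-2 * l) * ‖c.x q.1‖ ^ 2) = 0 := by
          refine hg.pr.k1.zero _ ?_
          rw [sq_arg]
          have : 1 ≤ Real.exp (-l) * ‖c.x q.1‖ := by
            rw [Real.exp_neg, ← div_eq_inv_mul, one_le_div (Real.exp_pos l)]
            exact hx.le
          nlinarith
        unfold ig
        rw [h2, mul_zero, mul_zero]
        exact indicator_nonneg (fun q _ => hF0 q) q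
  have h2 : ∫ q, (W ×ˢ univ).indicator F q ∂(VK V K) ≤ ∫ q in W ×ˢ univ, F q ∂V := by
    rw [← integral_indicator hWm']
    exact integral_mono_measure Measure.restrict_le_self
      (Eventually.of_forall fun q => indicator_nonneg (fun q _ => hF0 q) q) hFi'
  have h3 : ∫ q in W ×ˢ univ, F q ∂V = 9 / 2 * B * ∫ q in W ×ˢ univ, ‖h q.1‖ ^ 2 ∂V :=
    integral_const_mul _ _
  calc Real.exp (-m * l) * ∫ q, ig c g1 l q ∂(VK V K)
      ≤ Real.exp (-m * l) * (9 / 2 * B * ∫ q in W ×ˢ univ, ‖h q.1‖ ^ 2 ∂V) := by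
        refine mul_le_mul_of_nonneg_left ?_ (Real.exp_pos _).le
        rw [← h3]
        exact h1.trans h2
    _ = _ := by ring

end Crest.Agent.R234.FL8_567
end
end

-- ▼ part R234/FL9_567
section

/-!
# R234 (helper567), fields `fl`, `large` of `F10d_188.Thy`, part 3: the abstract form

`SD` : data of a state (unit of the block `S`, relative radius `rad`, `η = e^{-Λ/4}`), flatness `wf`.
`core` : `η⁴ ≤ C wf^(9/10)`.
-/

set_option autoImplicit false
set_option linter.unusedVariables false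
set_option linter.unusedSectionVars false

open MeasureTheory Filter Topology Set
open scoped ENNReal NNReal ContDiff
open Crest.GeometryTopology.Submanifold Crest.Agent.R234.Vf_884
open Crest.Agent.R234.Strat3_842 (tilt height)
open Crest.Agent.R234.Main_456 (Frame hgt box)
open Crest.Agent.R234.FL2_567 Crest.Agent.R234.FL4_567 Crest.Agent.R234.FL5_567
open Crest.Agent.R234.FL6_567
open Crest.Agent.R234.Gi_456 (Gr tube foot yy ch Kc pm)
open Crest.Agent.R234.GL_394 (Ch VK II Pf)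
open Crest.Agent.R234.FL7_567 Crest.Agent.R234.FL8_567

noncomputable section

namespace Crest.Agent.R234.FL9_567

variable {m n k : ℕ}

/-- data of a state. -/
structure SD (m n k Ks J : ℕ) (Λm c Tr Cf : ℝ) (U : Set (Euc k)) (V : Measure (Euc k × L k))
    (π : Euc k →L[ℝ] Euc m) (ρ : Euc k →L[ℝ] Euc n) (x : Euc k) (S rad l K η wf : ℝ)
    (u : Euc m → Euc n) (P : L k) : Prop where
  st : Stat m k U V
  fr : Frame π ρ
  S0 : 0 < S
  rad0 : 0 < rad
  rad1 : rad ≤ 1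
  radT : rad⁻¹ ≤ Tr
  el1 : Real.exp l * (1 + 1 / K) ≤ S * rad
  el2 : S * rad ≤ 2 * Real.exp l
  K1 : 1 ≤ K
  cd : ContDiff ℝ J u
  bd : ∀ j ≤ J, ∀ y, ‖iteratedFDeriv ℝ j u y‖ ≤ 1 / 8
  η0 : 0 < η
  Iη : II (ch π ρ x S (ws S u) 0) (VK V (Kc π ρ x (ws S u) 0 (2 * S) (S / 2))) GI_640.g31 l =
    Real.exp (2 * l) * η ^ 4
  sup : ∀ᵐ p ∂V, ‖π (p.1 - x)‖ ≤ S * rad → ‖ρ (p.1 - x)‖ ≤ S → ‖hgt π ρ x S u p.1‖ ≤ S * η
  mean : ∀ ζ : Euc m → ℝ, ContDiff ℝ ∞ ζ → tsupport ζ ⊆ Metric.ball 0 rad →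
      (∀ j ≤ Ks, ∀ z, ‖iteratedFDeriv ℝ j ζ z‖ ≤ 1) →
      ‖∫ p in Kc π ρ x (ws S u) 0 (2 * S) (S / 2) ×ˢ univ, ζ (S⁻¹ • π (p.1 - x)) •
        hgt π ρ x S u p.1 ∂V‖ ≤ S ^ m * (Real.exp l * η ^ 3)
  dom : Metric.closedBall x (8 * (S * rad)) ⊆ U
  up : V.real (Metric.closedBall x (4 * (S * rad)) ×ˢ univ) ≤ Λm * (S * rad) ^ m
  low : ∀ s, 0 < s → s ≤ S * rad → c * s ^ m ≤ V.real (Metric.closedBall x s ×ˢ univ)
  pl : P ∈ G m k
  wf0 : 0 ≤ wf
  wf1 : wf ≤ 1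
  flat : ∫ p in Metric.closedBall x (8 * (S * rad)) ×ˢ univ, height P x p ∂V ≤
    (Cf * wf) * (S * rad) ^ (m + 2)
  near : ∀ᵐ p ∂V, p.1 ∈ Kc π ρ x (ws S u) 0 (2 * S) (S / 2) →
    ‖(p.1 - x) - P (p.1 - x)‖ ≤ Cf * Real.sqrt wf * (S * rad)

/-- the power estimate of the difference. -/
theorem pow_le {γ mu om η wf Tm Cf : ℝ} (hγ : 9 / 10 ≤ γ) (hγ1 : γ ≤ 1) (hη : 0 < η) (hη1 : η ≤ 1)
    (hwf : 0 ≤ wf) (hwf1 : wf ≤ 1) (hT : 1 ≤ Tm) (hCf : 1 ≤ Cf) (hmu : mu = Tm * η ^ 3)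
    (hom : om = Cf * wf) :
    (mu + Real.sqrt om) ^ γ ≤ Tm * η ^ 2 + Cf * wf ^ (1 / 4 : ℝ) := by
  have hγ0 : 0 < γ := by linarith
  have hmu0 : 0 ≤ mu := by rw [hmu]; positivity
  have h1 := Real.rpow_add_le_add_rpow hmu0 (Real.sqrt_nonneg om) hγ0.le hγ1
  have h2 : mu ^ γ ≤ Tm * η ^ 2 := by
    rw [hmu, Real.mul_rpow (by positivity) (by positivity)]
    refine mul_le_mul ?_ ?_ (Real.rpow_nonneg (by positivity) _) (by positivity)
    · have := Real.rpow_le_rpow_of_exponent_le hT hγ1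
      rwa [Real.rpow_one] at this
    · rw [← Real.rpow_natCast η 3, ← Real.rpow_mul hη.le, ← Real.rpow_natCast η 2]
      refine Real.rpow_le_rpow_of_exponent_ge hη hη1 ?_
      push_cast
      linarith
  have h3 : Real.sqrt om ^ γ ≤ Cf * wf ^ (1 / 4 : ℝ) := by
    rw [hom, Real.sqrt_eq_rpow, ← Real.rpow_mul (by positivity), Real.mul_rpow (by positivity) hwf]
    refine mul_le_mul ?_ ?_ (Real.rpow_nonneg hwf _) (by positivity)
    · have := Real.rpow_le_rpow_of_exponent_le hCf (by linarith : 1 / 2 * γ ≤ 1)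
      rwa [Real.rpow_one] at this
    · exact Real.rpow_le_rpow_of_exponent_ge' hwf hwf1 (by norm_num) (by linarith)
  linarith

namespace SD

variable {Ks J : ℕ} {Λm c Tr Cf : ℝ} {U : Set (Euc k)} {V : Measure (Euc k × L k)}
    {π : Euc k →L[ℝ] Euc m} {ρ : Euc k →L[ℝ] Euc n} {x : Euc k} {S rad l K η wf : ℝ}
    {u : Euc m → Euc n} {P : L k}
    (H : SD m n k Ks J Λm c Tr Cf U V π ρ x S rad l K η wf u P)
include H

theorem r0 : 0 < S * rad := mul_pos H.S0 H.rad0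

theorem rS : S * rad ≤ S := mul_le_of_le_one_right H.S0.le H.rad1

theorem Sr : S ≤ Tr * (S * rad) := by
  have hr := H.r0
  have hrad := H.rad0
  have : S = rad⁻¹ * (S * rad) := by field_simp
  nth_rewrite 1 [this]
  exact mul_le_mul_of_nonneg_right H.radT hr.le

theorem er : Real.exp l ≤ S * rad := by
  have h1 := H.el1
  have hK := H.K1
  have h2 : 0 < Real.exp l := Real.exp_pos l
  have h3 : 0 ≤ Real.exp l * (1 / K) := by positivity
  nlinarith

theorem gr (hJ4 : 4 ≤ J) : Gr S (ws S u) ∧ (∀ X, ‖fderiv ℝ (ws S u) X‖ ≤ 1 / 8) ∧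
    ∀ X, S * ‖fderiv ℝ (fderiv ℝ (ws S u)) X‖ ≤ 1 / 8 :=
  gr_of_bd H.S0 le_rfl (H.cd.of_le (by exact_mod_cast hJ4)) (fun y => H.bd 1 (by omega) y)
    (fun y => H.bd 2 (by omega) y)

theorem Sη (hTr : 1 ≤ Tr) (hη : η ≤ 1 / (8 * Tr)) : S * η ≤ S * rad / 8 := by
  have h1 := H.Sr
  have h2 := H.r0
  have h3 := H.η0
  calc S * η ≤ (Tr * (S * rad)) * (1 / (8 * Tr)) := by gcongr
    _ = S * rad / 8 := by field_simp

theorem u0 (hc : 0 < c) : ‖u 0‖ ≤ η := u0_le H.fr H.cd.continuous H.S0 H.r0 hc H.low H.sup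

theorem w0 (hc : 0 < c) (hTr : 1 ≤ Tr) (hη : η ≤ 1 / (8 * Tr)) : ‖ws S u 0‖ ≤ S * rad / 4 := by
  rw [ws_zero, abs_of_pos H.S0]
  have h1 := mul_le_mul_of_nonneg_left (H.u0 hc) H.S0.le
  have h2 := H.Sη hTr hη
  have h3 := H.r0
  linarith

theorem reg (hJ4 : 4 ≤ J) (hc : 0 < c) (hTr : 1 ≤ Tr) (hη : η ≤ 1 / (8 * Tr)) :
    ∀ᵐ p ∂V, ‖π (p.1 - x)‖ < S * rad →
      (p.1 ∈ Kc π ρ x (ws S u) 0 (2 * S) (S / 2) ↔ p.1 ∈ box π ρ x (S * rad)) :=
  reg_ae H.fr (H.gr hJ4).1 H.r0 H.rS (by have := H.Sη hTr hη; have := H.r0; linarith) (H.u0 hc) H.sup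

theorem tests (hJ4 : 4 ≤ J) (hc : 0 < c) (hTr : 1 ≤ Tr) (hη : η ≤ 1 / (8 * Tr)) (ζ : Euc m → ℝ)
    (h1 : ContDiff ℝ ∞ ζ) (h2 : tsupport ζ ⊆ Metric.ball 0 1)
    (h3 : ∀ j ≤ Ks, ∀ z, ‖iteratedFDeriv ℝ j ζ z‖ ≤ 1) :
    ‖∫ p in box π ρ x (S * rad) ×ˢ univ, ζ ((S * rad)⁻¹ • π (p.1 - x)) •
        hgt π ρ x (S * rad) (zm rad u) p.1 ∂V‖ ≤ Tr ^ (Ks + m) * η ^ 3 * (S * rad) ^ (m + 1) := by
  have hS := H.S0
  have hrad := H.rad0
  have hr0 := H.r0
  have hη0 := H.η0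
  have hKcm : MeasurableSet (Kc π ρ x (ws S u) 0 (2 * S) (S / 2)) :=
    ((H.gr hJ4).1.isCompact_Kc 0 (2 * S) (S / 2)).isClosed.measurableSet
  have htest := test_scale (V := V) hS hrad H.rad1 (hKcm.prod MeasurableSet.univ)
    (by
      filter_upwards [H.reg hJ4 hc hTr hη] with p hp hπ
      simp only [mem_prod, mem_univ, and_true]
      exact hp hπ) H.mean
  refine (htest ζ h1 h2 h3).trans ?_
  have e1 : (rad⁻¹) ^ Ks ≤ Tr ^ Ks := pow_le_pow_left₀ (by positivity) H.radT _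
  have e2 : S ^ m ≤ Tr ^ m * (S * rad) ^ m := by
    rw [← mul_pow]
    exact pow_le_pow_left₀ hS.le H.Sr m
  have e3 := H.er
  calc (rad⁻¹) ^ Ks * (S ^ m * (Real.exp l * η ^ 3))
      ≤ Tr ^ Ks * ((Tr ^ m * (S * rad) ^ m) * ((S * rad) * η ^ 3)) := by gcongr
    _ = Tr ^ (Ks + m) * η ^ 3 * (S * rad) ^ (m + 1) := by rw [pow_add Tr]; ring

theorem toHyp (hJ4 : 4 ≤ J) (hc : 0 < c) (hTr : 1 ≤ Tr) (hCf : 1 ≤ Cf) (hη : η ≤ 1 / (8 * Tr)) :
    Hyp m n k J Ks Λm c Tr U V π ρ x (S * rad) P (Cf * wf) (zm rad u) (box π ρ x (S * rad))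
      (Tr ^ (Ks + m) * η ^ 3) where
  st := H.st
  fr := H.fr
  r0 := H.r0
  dom := H.dom
  up := H.up
  low := H.low
  pl := H.pl
  om0 := by have := H.wf0; positivity
  flat := H.flat
  cd := zm_contDiff H.cd
  bd0 := by
    intro y _
    have hrad := H.rad0
    have h1 := H.bd 0 (by omega) (rad • y)
    rw [norm_iteratedFDeriv_zero] at h1
    unfold zm
    rw [norm_smul, norm_inv, Real.norm_of_nonneg hrad.le]
    calc rad⁻¹ * ‖u (rad • y)‖ ≤ Tr * 1 := mul_le_mul H.radT (h1.trans (by norm_num))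
          (norm_nonneg _) (by linarith)
      _ = Tr := mul_one _
  bd1 := by
    intro y _
    have hdiff : Differentiable ℝ u := H.cd.differentiable (by exact_mod_cast (by omega : J ≠ 0))
    rw [zm_fderiv H.rad0 hdiff]
    have := H.bd 1 (by omega) (rad • y)
    rw [norm_iteratedFDeriv_one] at this
    linarith
  bdJ := by
    intro y _
    have hrad := H.rad0
    refine (zm_iter hrad H.cd y).trans ?_
    calc rad⁻¹ * (rad ^ J * ‖iteratedFDeriv ℝ J u (rad • y)‖) ≤ Tr * (1 * 1) := by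
          refine mul_le_mul H.radT ?_ (by positivity) (by linarith)
          exact mul_le_mul (pow_le_one₀ hrad.le H.rad1) ((H.bd J le_rfl _).trans (by norm_num))
            (norm_nonneg _) zero_le_one
      _ = Tr := by ring
  Wm := (End_395.isOpen_box π ρ x (S * rad)).measurableSet
  W1 := by
    rintro z ⟨h1, h2⟩
    rw [Metric.mem_closedBall, dist_eq_norm]
    have := norm_le_add H.fr (z - x)
    have := H.r0
    linarith
  W2 := fun z h => h.1.le
  W3 := fun z h1 h2 => ⟨h1, h2⟩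
  mu0 := by
    have := H.η0
    have : 0 ≤ Tr := by linarith
    positivity
  test := H.tests hJ4 hc hTr hη

theorem heq (z : Euc k) : hgt π ρ x (S * rad) (zm rad u) z = hgt π ρ x S u z := by
  rw [hgt_zm π ρ x H.S0 H.rad0]

theorem apr (hJ4 : 4 ≤ J) (hc : 0 < c) (hTr : 1 ≤ Tr) (hCf : 1 ≤ Cf) (hΛm : 0 ≤ Λm)
    (hη : η ≤ 1 / (8 * Tr)) :
    ∫ p in box π ρ x (S * rad) ×ˢ univ, ‖hgt π ρ x (S * rad) (zm rad u) p.1‖ ^ 2 ∂V ≤
      (η ^ 2 * (Tr ^ 2 * Λm)) * (S * rad) ^ (m + 2) := by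
  have hHyp := H.toHyp hJ4 hc hTr hCf hη
  have := hHyp.finW
  have hη0 := H.η0
  have hS := H.S0
  have hr0 := H.r0
  have h1 : ∫ p in box π ρ x (S * rad) ×ˢ univ, ‖hgt π ρ x (S * rad) (zm rad u) p.1‖ ^ 2 ∂V ≤
      ∫ p in box π ρ x (S * rad) ×ˢ univ, (S * η) ^ 2 ∂V := by
    refine setIntegral_mono_on_ae hHyp.memLp_hgt.integrable_sq (integrable_const _)
      (hHyp.Wm.prod MeasurableSet.univ) ?_
    filter_upwards [H.sup] with p hp hpm
    rw [H.heq]
    exact pow_le_pow_left₀ (norm_nonneg _) (hp hpm.1.1.le (hpm.1.2.le.trans H.rS)) 2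
  refine h1.trans ?_
  rw [setIntegral_const, smul_eq_mul]
  have h2 := hHyp.Wreal
  have h3 := H.Sr
  calc V.real (box π ρ x (S * rad) ×ˢ univ) * (S * η) ^ 2
      ≤ (Λm * (S * rad) ^ m) * ((Tr * (S * rad)) * η) ^ 2 := by gcongr
    _ = (η ^ 2 * (Tr ^ 2 * Λm)) * (S * rad) ^ (m + 2) := by ring

/-- the functional against the height integral over the box. -/
theorem eta_le (hJ4 : 4 ≤ J) (hc : 0 < c) (hTr : 1 ≤ Tr) (hCf : 1 ≤ Cf) (hη : η ≤ 1 / (8 * Tr))
    {T : Euc m →L[ℝ] Euc n} (hT1 : ‖T‖ ≤ 1 / 2) (hT2 : ∀ ξ : Euc k, P ξ = ξ → ρ ξ = T (π ξ)) {θ : ℝ}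
    (hsup : ∀ y ∈ Metric.closedBall (0 : Euc m) 1, ‖(zm rad u - ⇑T) y‖ ≤ θ) (hθ0 : 0 ≤ θ)
    (hKθ : K * (Cf * Real.sqrt wf + θ) ≤ 1 / 16) :
    η ^ 4 * (S * rad) ^ (m + 2) ≤ 27 * 2 ^ (m + 2) *
      ∫ p in box π ρ x (S * rad) ×ˢ univ, ‖hgt π ρ x (S * rad) (zm rad u) p.1‖ ^ 2 ∂V := by
  have hHyp := H.toHyp hJ4 hc hTr hCf hη
  obtain ⟨hg, hg1, hg2⟩ := H.gr hJ4
  have hS := H.S0
  have hrad := H.rad0
  have hK0 : 0 < K := by linarith [H.K1]
  have hr0 := H.r0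
  have her := H.er
  have hel1 := H.el1
  have hel2 := H.el2
  set r := S * rad with hr
  have hθK : Cf * Real.sqrt wf + θ ≤ 1 / 16 / K := by
    rw [le_div_iff₀ hK0]
    linarith
  have he0 : 0 < Real.exp l := Real.exp_pos l
  have hgap : Cf * Real.sqrt wf * r + r * θ < r - Real.exp l := by
    have h1 : Cf * Real.sqrt wf * r + r * θ ≤ 1 / 16 / K * r := by
      have := mul_le_mul_of_nonneg_right hθK hr0.le
      linarith
    have h2 : Real.exp l * (1 / K) ≤ r - Real.exp l := by linarith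
    have h3 : 1 / 16 / K * r ≤ 1 / 8 * (Real.exp l * (1 / K)) := by
      have := mul_le_mul_of_nonneg_left hel2 (by positivity : 0 ≤ 1 / 16 / K)
      calc 1 / 16 / K * r ≤ 1 / 16 / K * (2 * Real.exp l) := this
        _ = 1 / 8 * (Real.exp l * (1 / K)) := by ring
    have h4 : 0 < Real.exp l * (1 / K) := by positivity
    linarith
  have hgap8 : Cf * Real.sqrt wf * r + r * θ ≤ r / 8 := by
    have h1 : Cf * Real.sqrt wf + θ ≤ 1 / 16 := by
      refine hθK.trans ?_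
      rw [div_le_iff₀ hK0]
      linarith [H.K1]
    have := mul_le_mul_of_nonneg_right h1 hr0.le
    linarith
  have hS' : 65 / 64 * (S / 2) < S := by linarith
  have hKcm : MeasurableSet (Kc π ρ x (ws S u) 0 (2 * S) (S / 2)) :=
    (hg.isCompact_Kc 0 (2 * S) (S / 2)).isClosed.measurableSet
  have hKt : Kc π ρ x (ws S u) 0 (2 * S) (S / 2) ⊆ tube π ρ x S (ws S u) := hg.Kc_subset H.fr 0 hS'
  have hCmp := End_395.cmp_ch hg H.fr (κ := 1 / 8) (l := l) (x := x) (by norm_num) hg1 hg2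
    (her.trans H.rS) le_rfl hKt
  have hw0 := H.w0 hc hTr hη
  have hbox : ∀ᵐ q ∂V, q.1 ∈ Kc π ρ x (ws S u) 0 (2 * S) (S / 2) →
      ‖(ch π ρ x S (ws S u) 0).x q.1‖ ≤ Real.exp l → q.1 ∈ box π ρ x r := by
    filter_upwards [H.near] with p hp hpK hpx
    refine box_of_near H.fr hg hrad H.pl hT1 hT2 hsup (e := Real.exp l) her hgap hgap8 hw0
      (hKt hpK) ?_ (hp hpK)
    exact (End_395.le_norm_x p.1).trans hpx
  have hint : IntegrableOn (fun q : Euc k × L k => ‖ρ (q.1 - x) - ws S u (π (q.1 - x))‖ ^ 2)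
      (box π ρ x r ×ˢ univ) V := by
    have h1 : IntegrableOn (fun p : Euc k × L k => ‖hgt π ρ x r (zm rad u) p.1‖ ^ 2)
      (box π ρ x r ×ˢ univ) V := hHyp.memLp_hgt.integrable_sq
    refine h1.congr_fun (fun p _ => ?_) (hHyp.Wm.prod MeasurableSet.univ)
    simp only [hr, H.heq]
    rfl
  have hII := II_le_box (V := V) (W := box π ρ x r) hCmp GL_394.pf_cubic (by norm_num) hKcm
    hHyp.Wm hbox hint
  have hJ0' : ∫ q in box π ρ x r ×ˢ univ, ‖ρ (q.1 - x) - ws S u (π (q.1 - x))‖ ^ 2 ∂V =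
      ∫ p in box π ρ x r ×ˢ univ, ‖hgt π ρ x r (zm rad u) p.1‖ ^ 2 ∂V := by
    refine integral_congr_ae (Eventually.of_forall fun p => ?_)
    simp only [hr, H.heq]
    rfl
  rw [H.Iη, hJ0'] at hII
  set J0 := ∫ p in box π ρ x r ×ˢ univ, ‖hgt π ρ x r (zm rad u) p.1‖ ^ 2 ∂V with hJ0
  have hη0 := H.η0
  have h1 : r ^ (m + 2) ≤ 2 ^ (m + 2) * Real.exp l ^ (m + 2) := by
    rw [← mul_pow]
    exact pow_le_pow_left₀ hr0.le hel2 _
  have h2 : Real.exp l ^ m * Real.exp (-m * l) = 1 := by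
    rw [← Real.exp_nat_mul, ← Real.exp_add]
    simp
  have h3 : Real.exp (2 * l) = Real.exp l ^ 2 := by
    rw [← Real.exp_nat_mul]; push_cast; rfl
  calc η ^ 4 * r ^ (m + 2) ≤ η ^ 4 * (2 ^ (m + 2) * Real.exp l ^ (m + 2)) := by gcongr
    _ = 2 ^ (m + 2) * (Real.exp l ^ m * (Real.exp (2 * l) * η ^ 4)) := by rw [h3]; ring
    _ ≤ 2 ^ (m + 2) * (Real.exp l ^ m * (9 / 2 * 6 * (Real.exp (-m * l) * J0))) := by gcongr
    _ = 27 * 2 ^ (m + 2) * J0 * (Real.exp l ^ m * Real.exp (-m * l)) := by ring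
    _ = 27 * 2 ^ (m + 2) * J0 := by rw [h2, mul_one]

end SD

theorem core (m n k Ks J : ℕ) (hJ1 : m + 1 ≤ J) (hJ4 : 4 ≤ J) (hJ9 : 9 * (Ks + m) ≤ J)
    {Λm c Tr Cf : ℝ} (hΛm : 0 ≤ Λm) (hc : 0 < c) (hTr : 1 ≤ Tr) (hCf : 1 ≤ Cf) :
    ∃ η₀ ε₁ C : ℝ, 0 < η₀ ∧ 0 < ε₁ ∧ 0 < C ∧
    ∀ {U : Set (Euc k)} {V : Measure (Euc k × L k)} {π : Euc k →L[ℝ] Euc m}
      {ρ : Euc k →L[ℝ] Euc n} {x : Euc k} {S rad l K η wf : ℝ} {u : Euc m → Euc n} {P : L k},
      SD m n k Ks J Λm c Tr Cf U V π ρ x S rad l K η wf u P → η ≤ η₀ → K * η ^ 2 ≤ ε₁ →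
      K * wf ^ (1 / 4 : ℝ) ≤ ε₁ → η ^ 4 ≤ C * wf ^ (9 / 10 : ℝ) := by
  set Tm : ℝ := Tr ^ (Ks + m) with hTm
  have hTm1 : 1 ≤ Tm := one_le_pow₀ hTr
  set CI : ℝ := 27 * 2 ^ (m + 2) with hCI
  have hCI0 : 0 < CI := by positivity
  set B : ℝ := Tm * CI ^ (3 / 4 : ℝ) with hB
  have hB0 : 0 ≤ B := by positivity
  obtain ⟨δa, om₀, C₃, hδa, hom₀, hom₀1, hC₃, hfl0⟩ := fl0 m n k J Ks hJ1 (by omega) hΛm hc
    (A := Tr) (by linarith)
  obtain ⟨δb, Cb, hδb, hCb, hfl'⟩ := fl' m n k J Ks hJ1 (by omega) hJ9 hΛm hc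
    (A := Tr) (B := B) (by linarith) hB0
  have hγ := le_gam (m := m) (J := J) (K := Ks) (by omega) hJ9
  have hγ1 := gam_le_one (m := m) (J := J) (K := Ks) (by omega)
  set δ := min δa δb with hδ
  have hδ0 : 0 < δ := lt_min hδa hδb
  set η₀ : ℝ := min (1 / (8 * Tr)) (Real.sqrt (δ / (Tr ^ 2 * (Λm + 1)))) with hη₀
  have hη₀0 : 0 < η₀ := lt_min (by positivity) (Real.sqrt_pos.2 (by positivity))
  set ε₁ : ℝ := min (om₀ / Cf) (1 / (32 * (Cf + C₃ * (Tm + Cf)))) with hε₁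
  have hε₁0 : 0 < ε₁ := by positivity
  refine ⟨η₀, ε₁, CI * Cb * Cf ^ (9 / 10 : ℝ), hη₀0, hε₁0, by positivity, ?_⟩
  intro U V π ρ x S rad l K η wf u P H hη hKη hKwf
  have hη0 := H.η0
  have hwf := H.wf0
  have hwf1 := H.wf1
  have hK := H.K1
  have hη8 : η ≤ 1 / (8 * Tr) := hη.trans (min_le_left _ _)
  have hη1 : η ≤ 1 := by
    refine hη8.trans ?_
    rw [div_le_one (by positivity)]
    linarith
  have hHyp := H.toHyp hJ4 hc hTr hCf hη8
  have hr2 : (0:ℝ) < (S * rad) ^ (m + 2) := by have := H.r0; positivity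
  have hwf14 : wf ^ (1 / 4 : ℝ) ≤ ε₁ := by
    have h0 : 0 ≤ wf ^ (1 / 4 : ℝ) := Real.rpow_nonneg hwf _
    nlinarith
  have hwfε : wf ≤ ε₁ := by
    refine le_trans ?_ hwf14
    have := Real.rpow_le_rpow_of_exponent_ge' hwf hwf1 (by norm_num : (0:ℝ) ≤ 1 / 4)
      (by norm_num : (1 / 4 : ℝ) ≤ 1)
    rwa [Real.rpow_one] at this
  have homle : Cf * wf ≤ om₀ := by
    have h1 : wf ≤ om₀ / Cf := hwfε.trans (min_le_left _ _)
    rw [le_div_iff₀ (by linarith)] at h1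
    linarith
  -- a priori
  have hapr : ∫ p in box π ρ x (S * rad) ×ˢ univ, ‖hgt π ρ x (S * rad) (zm rad u) p.1‖ ^ 2 ∂V ≤
      δ * (S * rad) ^ (m + 2) := by
    refine (H.apr hJ4 hc hTr hCf hΛm hη8).trans (mul_le_mul_of_nonneg_right ?_ hr2.le)
    have h3 : η ^ 2 ≤ δ / (Tr ^ 2 * (Λm + 1)) := by
      have := pow_le_pow_left₀ hη0.le (hη.trans (min_le_right _ _)) 2
      rwa [Real.sq_sqrt (by positivity)] at this
    rw [le_div_iff₀ (by positivity)] at h3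
    refine le_trans ?_ h3
    gcongr
    linarith
  -- the plane
  obtain ⟨T, hT1, hT2, hsup⟩ := hfl0 hHyp
    (hapr.trans (mul_le_mul_of_nonneg_right (min_le_left _ _) hr2.le)) homle
  set θ := C₃ * (Tr ^ (Ks + m) * η ^ 3 + Real.sqrt (Cf * wf)) ^ gam m J Ks with hθ
  have hθ0 : 0 ≤ θ := by
    have : 0 ≤ (Tr ^ (Ks + m) * η ^ 3 + Real.sqrt (Cf * wf)) ^ gam m J Ks :=
      Real.rpow_nonneg (by positivity) _
    positivity
  have hKθ : K * (Cf * Real.sqrt wf + θ) ≤ 1 / 16 := by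
    have h1 := pow_le (mu := Tm * η ^ 3) (om := Cf * wf) (η := η) (wf := wf) (Tm := Tm) (Cf := Cf)
      hγ hγ1 hη0 hη1 hwf hwf1 hTm1 hCf rfl rfl
    have h2 : Real.sqrt wf ≤ wf ^ (1 / 4 : ℝ) := by
      rw [Real.sqrt_eq_rpow]
      exact Real.rpow_le_rpow_of_exponent_ge' hwf hwf1 (by norm_num) (by norm_num)
    have h3 : ε₁ * (Cf + C₃ * (Tm + Cf)) ≤ 1 / 32 := by
      have : ε₁ ≤ 1 / (32 * (Cf + C₃ * (Tm + Cf))) := min_le_right _ _
      rw [le_div_iff₀ (by positivity)] at this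
      linarith
    have hK0 : 0 < K := by linarith
    calc K * (Cf * Real.sqrt wf + θ)
        ≤ K * (Cf * wf ^ (1 / 4 : ℝ) + C₃ * (Tm * η ^ 2 + Cf * wf ^ (1 / 4 : ℝ))) := by
          rw [hθ]; gcongr
      _ = Cf * (K * wf ^ (1 / 4 : ℝ)) + C₃ * (Tm * (K * η ^ 2) + Cf * (K * wf ^ (1 / 4 : ℝ))) := by
          ring
      _ ≤ Cf * ε₁ + C₃ * (Tm * ε₁ + Cf * ε₁) := by gcongr
      _ = ε₁ * (Cf + C₃ * (Tm + Cf)) := by ring
      _ ≤ 1 / 16 := by linarith
  have hηJ := H.eta_le hJ4 hc hTr hCf hη8 hT1 hT2 hsup hθ0 hKθ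
  -- conclusion
  set J0 := ∫ p in box π ρ x (S * rad) ×ˢ univ, ‖hgt π ρ x (S * rad) (zm rad u) p.1‖ ^ 2 ∂V with hJ0
  set D := J0 / (S * rad) ^ (m + 2) with hD
  have hJD : J0 = D * (S * rad) ^ (m + 2) := by rw [hD]; field_simp
  have hD0 : 0 ≤ D := div_nonneg (integral_nonneg fun p => by positivity) hr2.le
  have hDδ : D ≤ δb := by
    rw [hD, div_le_iff₀ hr2]
    exact hapr.trans (mul_le_mul_of_nonneg_right (min_le_right _ _) hr2.le)
  have hηD : η ^ 4 ≤ CI * D := by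
    rw [hJD, ← mul_assoc] at hηJ
    exact le_of_mul_le_mul_right hηJ hr2
  have hmuD : Tr ^ (Ks + m) * η ^ 3 ≤ B * D ^ (3 / 4 : ℝ) := by
    have h1 : η ^ 3 ≤ (CI * D) ^ (3 / 4 : ℝ) := by
      have h2 : (η ^ 4) ^ (3 / 4 : ℝ) = η ^ 3 := by
        rw [← Real.rpow_natCast η 4, ← Real.rpow_mul hη0.le, ← Real.rpow_natCast η 3]
        norm_num
      rw [← h2]
      exact Real.rpow_le_rpow (by positivity) hηD (by norm_num)
    rw [Real.mul_rpow hCI0.le hD0] at h1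
    rw [hB, mul_assoc, ← hTm]
    exact mul_le_mul_of_nonneg_left h1 (by positivity)
  have hfin := (hfl' hHyp (D := D) hJD hDδ hmuD).2 (homle.trans hom₀1)
  calc η ^ 4 ≤ CI * D := hηD
    _ ≤ CI * (Cb * (Cf * wf) ^ (9 / 10 : ℝ)) := by gcongr
    _ = CI * Cb * Cf ^ (9 / 10 : ℝ) * wf ^ (9 / 10 : ℝ) := by
        rw [Real.mul_rpow (by linarith) hwf]; ring

end Crest.Agent.R234.FL9_567
end
end

-- ▼ part R234/Mv1_504

/-!
# R234 / Mv1_504 : monotonicity (`MonV`) of the functionals of a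
reference (inputs of the START of 188)
-/

set_option autoImplicit false

open MeasureTheory Filter Topology Set
open scoped ENNReal NNReal ContDiff InnerProductSpace
open Crest.GeometryTopology.Submanifold Crest.Agent.R234.Vf_884
open Crest.Agent.R234.Main_456 (Frame Msys hgt)
open Crest.Agent.R234.MG_570 (MG)
open Crest.Agent.R234.Stp_518 Crest.Agent.R234.Gi_456 Crest.Agent.R234.GL_394
open Crest.Agent.R234.GI_640 (g3 g31 g32)

noncomputable section

namespace Crest.Agent.R234.Mv_504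

variable {m n k : ℕ}

/-! ### the graph of a reference of the class `MG` -/

/-- second derivative in ambient scale -/
theorem fderiv2_amb {S : ℝ} (hS : 0 < S) {u : Euc m → Euc n} (hu : ContDiff ℝ 2 u)
    (X : Euc m) : ‖fderiv ℝ (fderiv ℝ (fun X => S • u (S⁻¹ • X))) X‖ ≤
      S⁻¹ * ‖fderiv ℝ (fderiv ℝ u) (S⁻¹ • X)‖ := by
  have hu1 : Differentiable ℝ u := hu.differentiable (by norm_num)
  have hu2 : Differentiable ℝ (fderiv ℝ u) :=
    (hu.fderiv_right (m := 1) (by norm_num)).differentiable (by norm_num)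
  have h1 : fderiv ℝ (fun X => S • u (S⁻¹ • X)) = fun X => fderiv ℝ u (S⁻¹ • X) :=
    funext fun X => Swb_159.fderiv_amb hS.ne' hu1 X
  rw [h1]
  have h2 : HasFDerivAt (fun X : Euc m => S⁻¹ • X) (S⁻¹ • ContinuousLinearMap.id ℝ (Euc m)) X :=
    (hasFDerivAt_id X).const_smul S⁻¹
  have h3 : HasFDerivAt (fun X => fderiv ℝ u (S⁻¹ • X))
      ((fderiv ℝ (fderiv ℝ u) (S⁻¹ • X)) ∘L (S⁻¹ • ContinuousLinearMap.id ℝ (Euc m))) X :=
    (hu2 (S⁻¹ • X)).hasFDerivAt.comp X h2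
  rw [h3.fderiv]
  refine (ContinuousLinearMap.opNorm_comp_le _ _).trans ?_
  rw [norm_smul, Real.norm_of_nonneg (by positivity), mul_comm]
  apply mul_le_mul_of_nonneg_right _ (norm_nonneg _)
  have := ContinuousLinearMap.norm_id_le (𝕜 := ℝ) (E := Euc m)
  have hS' : 0 ≤ S⁻¹ := by positivity
  nlinarith

/-- **class `MG` gives `Gr`**, with the bounds of the derivatives. -/
theorem exists_gr (m n N : ℕ) (hN : 2 ≤ N) : ∃ C : ℝ, 1 ≤ C ∧
    ∀ (κ r S : ℝ) (u : Euc m → Euc n), 0 < S → 0 ≤ κ → C * κ ≤ 1 / 8 → MG N κ r u →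
      Gr S (fun X => S • u (S⁻¹ • X)) ∧
      (∀ X, ‖u X‖ ≤ C * κ) ∧ (∀ X, ‖fderiv ℝ u X‖ ≤ C * κ) ∧
      (∀ X, ‖fderiv ℝ (fun X => S • u (S⁻¹ • X)) X‖ ≤ C * κ) ∧
      (∀ X, S * ‖fderiv ℝ (fderiv ℝ (fun X => S • u (S⁻¹ • X))) X‖ ≤ C * κ) := by
  obtain ⟨C, hC, h⟩ := Mx17_397.bdP m n N
  refine ⟨max C 1, le_max_right _ _, fun κ r S u hS hκ hκ8 hu => ?_⟩
  obtain ⟨hcd, hb⟩ := h κ r u hu
  have hcd4 : ContDiff ℝ 4 u := hcd.of_le (by
    have h4 : (4 : ℕ) ≤ N + 2 := by lia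
    have h5 : ((4 : ℕ) : ℕ∞) ≤ ((N + 2 : ℕ) : ℕ∞) := by exact_mod_cast h4
    have h6 : (((4 : ℕ) : ℕ∞) : WithTop ℕ∞) ≤ (((N + 2 : ℕ) : ℕ∞) : WithTop ℕ∞) :=
      WithTop.coe_le_coe.2 h5
    simpa using h6)
  have hCκ : C * κ ≤ max C 1 * κ := mul_le_mul_of_nonneg_right (le_max_left _ _) hκ
  have hS' : 0 < S⁻¹ := by positivity
  have b0 : ∀ X, ‖u X‖ ≤ max C 1 * κ := fun X => by
    have := hb 0 (by lia) X
    rw [norm_iteratedFDeriv_zero] at this
    exact this.trans hCκ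
  have b1 : ∀ X, ‖fderiv ℝ u X‖ ≤ max C 1 * κ := fun X => by
    have := hb 1 (by lia) X
    rw [norm_iteratedFDeriv_one] at this
    exact this.trans hCκ
  have b2 : ∀ X, ‖fderiv ℝ (fderiv ℝ u) X‖ ≤ max C 1 * κ := fun X => by
    have h1 := hb 2 (by lia) X
    have h2 : ‖fderiv ℝ (fderiv ℝ u) X‖ = ‖iteratedFDeriv ℝ 2 u X‖ := by
      rw [← norm_iteratedFDeriv_one (f := fderiv ℝ u), norm_iteratedFDeriv_fderiv]
    rw [h2]
    exact h1.trans hCκ
  have hu1 : Differentiable ℝ u := hcd4.differentiable (by norm_num)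
  have d1 : ∀ X, ‖fderiv ℝ (fun X => S • u (S⁻¹ • X)) X‖ ≤ max C 1 * κ := fun X => by
    have e := Swb_159.fderiv_amb hS.ne' hu1 X
    have e' : fderiv ℝ (fun X => S • u (S⁻¹ • X)) X = fderiv ℝ u (S⁻¹ • X) := e
    rw [e']
    exact b1 _
  have d2 : ∀ X, ‖fderiv ℝ (fderiv ℝ (fun X => S • u (S⁻¹ • X))) X‖ ≤ S⁻¹ * (max C 1 * κ) :=
    fun X => (fderiv2_amb hS (hcd4.of_le (by norm_num)) X).trans
      (mul_le_mul_of_nonneg_left (b2 _) hS'.le)
  refine ⟨⟨hS, ?_, fun X => (d1 X).trans hκ8, fun X => (d2 X).trans ?_⟩, b0, b1, d1, fun X => ?_⟩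
  · exact (hcd4.comp (contDiff_const_smul S⁻¹)).const_smul S
  · calc S⁻¹ * (max C 1 * κ) ≤ S⁻¹ * (1 / 8) := mul_le_mul_of_nonneg_left hκ8 hS'.le
      _ = 1 / (8 * S) := by field_simp
  · calc S * ‖fderiv ℝ (fderiv ℝ (fun X => S • u (S⁻¹ • X))) X‖ ≤ S * (S⁻¹ * (max C 1 * κ)) :=
        mul_le_mul_of_nonneg_left (d2 X) hS.le
      _ = max C 1 * κ := by field_simp

/-! ### monotonicity -/

section mono
variable {M : Mo m n k} {x : Euc k} {V : Measure (Euc k × L k)} {U : Set (Euc k)}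

theorem half_lt {S : ℝ} (hS : 0 < S) : 65 / 64 * (S / 2) < S := by linarith

theorem ok_reg (hf : Frame M.π M.ρ) (hg : Gr M.S M.w) : Ok (M.ch x) (M.reg x) univ :=
  hg.ok hf 0 (hg.isCompact_Kc 0 _ _) (hg.Kc_subset hf 0 (half_lt M.S_pos))

theorem reg_subset (hf : Frame M.π M.ρ) (hg : Gr M.S M.w) (h0 : ‖M.u 0‖ ≤ 1) :
    M.reg x ⊆ Metric.closedBall x (4 * M.S) := by
  refine (hg.Kc_subset_closedBall hf 0 (half_lt M.S_pos)).trans ?_
  refine Metric.closedBall_subset_closedBall' ?_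
  have hS := M.S_pos
  have h1 : dist (pm M.π M.ρ x M.w 0) x ≤ M.S := by
    have h2 : pm M.π M.ρ x M.w 0 - x = ContinuousLinearMap.adjoint M.ρ (M.w 0) := by
      unfold pm
      rw [map_zero]
      abel
    rw [dist_eq_norm, h2, norm_adj_rho hf]
    have h3 : M.w 0 = M.S • M.u 0 := by simp [Mo.w]
    rw [h3, norm_smul, Real.norm_of_nonneg hS.le]
    nlinarith
  linarith

theorem on_reg (hf : Frame M.π M.ρ) (hg : Gr M.S M.w) (h0 : ‖M.u 0‖ ≤ 1) (hV : Stat m k U V)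
    (hU : Metric.closedBall x (4 * M.S) ⊆ U) : On (M.VM x V) m (M.reg x) where
  fin := by
    refine ⟨?_⟩
    rw [Mo.VM, VK, Measure.restrict_apply_univ]
    exact hV.fin _ (hg.isCompact_Kc 0 _ _) ((reg_subset hf hg h0).trans hU)
  mem := by
    have hm : MeasurableSet (M.reg x ×ˢ (univ : Set (L k))) :=
      (hg.isCompact_Kc 0 _ _).isClosed.measurableSet.prod MeasurableSet.univ
    rw [Mo.VM, VK]
    filter_upwards [ae_restrict_mem hm, ae_restrict_of_ae hV.conc] with p h1 h2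
    exact ⟨h1.1, h2⟩

theorem tau_nonneg (hf : Frame M.π M.ρ) (hg : Gr M.S M.w) {p : Euc k × L k}
    (hp : p ∈ M.reg x ×ˢ G m k) : 0 ≤ (M.ch x).tau p.1 p.2 := by
  have h1 : p.1 ∈ tube M.π M.ρ x M.S M.w := hg.Kc_subset hf 0 (half_lt M.S_pos) hp.1
  have H := hg.inv (foot M.π M.ρ x M.S M.w p.1) (Y := yy M.π M.ρ x M.S M.w p.1)
    (hg.norm_yy_lt h1).le
  exact GLK_128.tau0_nonneg (frame_fr hf) H (GLK_128.pj_of_mem hp.2)


theorem I_mono (hf : Frame M.π M.ρ) (hg : Gr M.S M.w) (ho : On (M.VM x V) m (M.reg x)) {l l' : ℝ}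
    (hl : l ≤ l') : M.I x V l ≤ Real.exp (m * (l' - l)) * M.I x V l' :=
  Fd_534.II_mono (ok_reg hf hg) ho GL_394.pf_cubic.pr (fun t ht => by
    unfold g32
    positivity) hl

theorem e_nonneg (hf : Frame M.π M.ρ) (hg : Gr M.S M.w) (ho : On (M.VM x V) m (M.reg x)) (l : ℝ) :
    0 ≤ M.e x V l :=
  Fd_534.ee_nonneg ho GL_394.pf_cubic.pr (fun _ hp => tau_nonneg hf hg hp) l

theorem e_mono' (hf : Frame M.π M.ρ) (hg : Gr M.S M.w) (ho : On (M.VM x V) m (M.reg x)) {l l' : ℝ}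
    (hl : l ≤ l') : M.e x V l ≤ Real.exp ((m - 2) * (l' - l)) * M.e x V l' :=
  Fd_534.ee_mono (ok_reg hf hg) ho GL_394.pf_cubic.pr (fun _ hp => tau_nonneg hf hg hp) hl

theorem e_mono (hf : Frame M.π M.ρ) (hg : Gr M.S M.w) (ho : On (M.VM x V) m (M.reg x)) {l l' : ℝ}
    (hl : l ≤ l') : M.e x V l ≤ Real.exp (m * (l' - l)) * M.e x V l' := by
  refine (e_mono' hf hg ho hl).trans ?_
  refine mul_le_mul_of_nonneg_right (Real.exp_le_exp.2 ?_) (e_nonneg hf hg ho l')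
  exact mul_le_mul_of_nonneg_right (by linarith) (by linarith)


end mono

/-- **everything about a reference of the class `MG` with small norm**: `κ₁ = κ₁(m, n, N)`. -/
theorem exists_mo (m n N : ℕ) (hN : 2 ≤ N) : ∃ κ₁ : ℝ, 0 < κ₁ ∧ κ₁ ≤ 1 ∧
    ∀ {k : ℕ} (M : Mo m n k) (r : ℝ), 0 ≤ M.κ → M.κ ≤ κ₁ → MG N M.κ r M.u →
      Gr M.S M.w ∧ ‖M.u 0‖ ≤ 1 / 8 := by
  obtain ⟨C, hC, h⟩ := exists_gr m n N hN
  refine ⟨1 / (8 * C), by positivity, ?_, fun M r h0 h1 hu => ?_⟩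
  · rw [div_le_one (by positivity)]
    linarith
  · have h2 : C * M.κ ≤ 1 / 8 := by
      rw [le_div_iff₀ (by positivity)] at h1
      linarith
    obtain ⟨e1, e2, -⟩ := h M.κ r M.S M.u M.S_pos h0 h2 hu
    exact ⟨e1, (e2 0).trans h2⟩

/-- **`MonV`** (188) -/
theorem monV : F10w_188.MonV := by
  intro m n k N Q Λ hm hN
  obtain ⟨κ₁, hκ₁, hκ1, h⟩ := exists_mo m n N hN
  refine ⟨κ₁, 1, hκ₁, one_pos, fun U D x ε₀ M l hb hκ _ l₁ l₂ h12 _ => ?_⟩
  obtain ⟨hg, h0⟩ := h M _ hb.κ0 hκ hb.mg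
  have hf := hb.pack.frame
  have hst : Stat m k U (VD D) := stat_VD hb.int hb.st
  have ho : On (M.VM x (VD D)) m (M.reg x) := on_reg hf hg (h0.trans (by norm_num)) hst
    ((Metric.closedBall_subset_closedBall (by
      have := M.S_pos
      linarith)).trans hb.sub)
  exact ⟨I_mono hf hg ho h12, e_mono hf hg ho h12, e_nonneg hf hg ho l₁⟩

end Crest.Agent.R234.Mv_504
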