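import Crest.Agent.R234.MgDefs_570
import Crest.Agent.R234.Mx9_397

/-!
# Row 234, node F2 (helper570): literal texts of the OPEN sub-nodes of SEL

* `NuP`   (F2-NU)   : pure real analysis, Mathlib only: a measure with small divergence is `θ dx`.
* `IbpP`  (F2-IBP)  : the transposed Jacobi operator of a minimal graph (`∂_i(√g g^{ij}) = 0`).
* `JRegP` (F2-JREG) : Jacobi fields over a small `X (N+2)` minimal graph are in `X (N+2)`.
* `RegP2` (F2-REG)  : interior regularity for the minimal graph itself (only for RESC).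
* `RescP` (F2-RESC) is in `MgDefs_570`.
-/

set_option autoImplicit false
set_option linter.unusedVariables false

open MeasureTheory Filter Topology Set
open scoped ENNReal NNReal ContDiff InnerProductSpace
open Crest.GeometryTopology.Submanifold Crest.Agent.R234.Vf_884
open Crest.Agent.R234.Main_456 (Frame Msys)
open Crest.Agent.R234.Ell1_3 (gop ginv dns)
open Crest.Agent.R234.Mx5_397 (msop)
open Crest.Agent.R234.Mx9_397 (lop)
open Crest.Agent.R086.Wie Crest.Agent.R234.Mx1_397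

noncomputable section

namespace Crest.Agent.R234.MG_570

variable {m n k : ℕ}


/-- the transposed first order part: `(D²u(g⁻¹ Duᵀ y, ·))ᵀ φ`. -/
def Psi (u φ : Euc m → Euc n) (x : Euc m) (y : Euc n) : Euc m :=
  ContinuousLinearMap.adjoint (fderiv ℝ (fderiv ℝ u) x (ginv (fderiv ℝ u x)
    (ContinuousLinearMap.adjoint (fderiv ℝ u x) y))) (φ x)

/-- the transposed linearised operator (tested against `y`). -/
def lopT (u φ : Euc m → Euc n) (x : Euc m) (y : Euc n) : ℝ :=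
  ∑ i, ⟪fderiv ℝ (fderiv ℝ φ) x (ginv (fderiv ℝ u x) (stdOrthonormalBasis ℝ (Euc m) i))
      (stdOrthonormalBasis ℝ (Euc m) i), y⟫_ℝ
    + 2 * ∑ i, ⟪fderiv ℝ (fun x => Psi u φ x y) x
        (ginv (fderiv ℝ u x) (stdOrthonormalBasis ℝ (Euc m) i)),
        stdOrthonormalBasis ℝ (Euc m) i⟫_ℝ

/-- **F2-IBP**: `lopT` is the transpose of `lop u` with respect to the area `dns (Du) dx`. -/
def IbpP : Prop := ∀ (m n : ℕ) (u j φ : Euc m → Euc n) (R : ℝ), ContDiff ℝ 3 u →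
  (∀ x ∈ Metric.ball (0 : Euc m) R, msop u x = 0) → ContDiff ℝ 2 j → ContDiff ℝ 2 φ →
  tsupport φ ⊆ Metric.ball 0 R →
  ∫ x, dns (fderiv ℝ u x) * lopT u φ x (j x) = ∫ x, dns (fderiv ℝ u x) * ⟪lop u j x, φ x⟫_ℝ

/-- **F2-JREG**: a Jacobi field in `X 2` is, on a smaller ball, in `X (N+2)`; loss `ε^{-p}`. -/
def JRegP : Prop := ∀ (m n N : ℕ), ∃ κ₀ : ℝ, 0 < κ₀ ∧ ∃ C : ℝ, 0 < C ∧ ∃ p : ℕ,
  ∀ (r ε : ℝ) (u j : Euc m → Euc n) (a : XV m n (N + 2)) (a₂ : XV m n 2),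
    0 < r → 0 < ε → ε ≤ 1 → r + ε ≤ 2 → IsReal a → ‖a‖ ≤ κ₀ → Rep a u → IsReal a₂ → Rep a₂ j →
    (∀ x ∈ Metric.ball (0 : Euc m) (r + ε), lop u j x = 0) →
    ∃ (b : XV m n (N + 2)) (v : Euc m → Euc n), IsReal b ∧ Rep b v ∧ ‖b‖ ≤ C * ‖a₂‖ / ε ^ p ∧
      ∀ x ∈ Metric.ball (0 : Euc m) r, v x = j x




end Crest.Agent.R234.MG_570
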