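import Crest.Agent.R234.Pin3_3
import Mathlib
import Crest.Agent.R234.Sp1_643
import Crest.Agent.R234.Main2_456
import Crest.Agent.R234.F11a_435

-- ▼ part R234/Pin4_3
section

/-!
R234 (helper3), VF-PIN part 4: one level. Pinching at the vertices of a fat simplex makes the heights
in `B_(r/2)(z0)` small compared with the heights in `B_(2M)(z0)`.
-/

open MeasureTheory Set Real
open scoped RealInnerProductSpace

namespace Crest.Agent.R234.Pin4_3

set_option linter.unusedSectionVars false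

open Crest.Agent.R234.Pin1_3 Crest.Agent.R234.Pin2_3 Crest.Agent.R234.Pin3_3

variable {E W Ω : Type*} [NormedAddCommGroup E] [InnerProductSpace ℝ E] [FiniteDimensional ℝ E]
  [MeasurableSpace E] [BorelSpace E]
  [NormedAddCommGroup W] [InnerProductSpace ℝ W] [FiniteDimensional ℝ W] [MeasurableSpace Ω]

/-- the vertices of the simplex -/
def ctr {m : ℕ} (z0 : E) (v : Fin m → E) : Option (Fin m) → E
  | none => z0
  | some i => z0 + v i

/-- barycentric coordinates from linear coordinates -/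
def bco {m : ℕ} (z0 : E) (k : Fin m → E) : Option (Fin m) → E → ℝ
  | none => fun x => 1 - ∑ j, ⟪k j, x - z0⟫
  | some i => fun x => ⟪k i, x - z0⟫

/-- the dual system of a fat simplex -/
theorem exists_dual {m : ℕ} (hm : Module.finrank ℝ E = m) {v : Fin m → E} {r Cf : ℝ} (hr : 0 < r)
    (hfat : ∀ (c : Fin m → ℝ) (i : Fin m), |c i| * r ≤ Cf * ‖∑ j, c j • v j‖) :
    ∃ k : Fin m → E, (∀ x, ∑ j, ⟪k j, x⟫ • v j = x) ∧ ∀ j, ‖k j‖ * r ≤ Cf := by
  have hli : LinearIndependent ℝ v := by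
    rw [Fintype.linearIndependent_iff]
    intro c hc i
    have := hfat c i
    rw [hc, norm_zero, mul_zero] at this
    have h1 : |c i| ≤ 0 := by
      by_contra h
      push Not at h
      have : 0 < |c i| * r := by positivity
      linarith
    exact abs_eq_zero.1 (le_antisymm h1 (abs_nonneg _))
  let b : Module.Basis (Fin m) ℝ E := basisOfLinearIndependentOfCardEqFinrank' v hli (by simp [hm])
  have hb : ∀ j, b j = v j := fun j => by simp [b]
  let k : Fin m → E := fun j =>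
    (InnerProductSpace.toDual ℝ E).symm (LinearMap.toContinuousLinearMap (b.coord j))
  have hk : ∀ j x, ⟪k j, x⟫ = b.coord j x := fun j x => by
    simp [k]
  have hrep : ∀ x, ∑ j, ⟪k j, x⟫ • v j = x := by
    intro x
    conv_rhs => rw [← b.sum_repr x]
    refine Finset.sum_congr rfl fun j _ => ?_
    rw [hk, hb, Module.Basis.coord_apply]
  refine ⟨k, hrep, fun j => ?_⟩
  have h1 := hfat (fun i => ⟪k i, k j⟫) j
  rw [hrep (k j), real_inner_self_eq_norm_sq, abs_of_nonneg (sq_nonneg _)] at h1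
  rcases eq_or_lt_of_le (norm_nonneg (k j)) with h0 | h0
  · have h2 := hfat 0 j
    rw [← h0, zero_mul]
    by_contra hcon
    push Not at hcon
    have h3 := hfat (fun i => ⟪k i, v j⟫) j
    rw [hrep (v j)] at h3
    have h4 : ⟪k j, v j⟫ = 1 := by
      rw [hk, ← hb j]
      simp
    rw [h4, abs_one, one_mul] at h3
    have : Cf * ‖v j‖ ≤ 0 := mul_nonpos_of_nonpos_of_nonneg hcon.le (norm_nonneg _)
    linarith
  · have h2 : ‖k j‖ * (‖k j‖ * r) ≤ ‖k j‖ * Cf := by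
      calc ‖k j‖ * (‖k j‖ * r) = ‖k j‖ ^ 2 * r := by ring
        _ ≤ Cf * ‖k j‖ := h1
        _ = ‖k j‖ * Cf := mul_comm _ _
    exact le_of_mul_le_mul_left h2 h0

theorem bco_sum {m : ℕ} (z0 : E) (k : Fin m → E) (x : E) : ∑ o, bco z0 k o x = 1 := by
  rw [Fintype.sum_option]
  simp [bco]

theorem bco_smul {m : ℕ} {z0 : E} {k v : Fin m → E} (h : ∀ x, ∑ j, ⟪k j, x⟫ • v j = x) (x : E) :
    ∑ o, bco z0 k o x • ctr z0 v o = x := by
  rw [Fintype.sum_option]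
  simp only [bco, ctr, smul_add]
  rw [Finset.sum_add_distrib, ← Finset.sum_smul, h (x - z0), sub_smul, one_smul]
  abel

/-- the affine function with prescribed scalar values at the vertices -/
theorem bco_affine {m : ℕ} (z0 : E) (k : Fin m → E) (α : Option (Fin m) → ℝ) (x : E) :
    ∑ o, bco z0 k o x * α o =
      α none + ⟪∑ j, (α (some j) - α none) • k j, x - z0⟫ := by
  rw [Fintype.sum_option, sum_inner]
  simp only [bco, inner_smul_left, RCLike.conj_to_real]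
  have : ∑ j, (α (some j) - α none) * ⟪k j, x - z0⟫ =
      ∑ j, ⟪k j, x - z0⟫ * α (some j) - (∑ j, ⟪k j, x - z0⟫) * α none := by
    rw [Finset.sum_mul, ← Finset.sum_sub_distrib]
    exact Finset.sum_congr rfl fun j _ => by ring
  rw [this]
  ring

/-- the affine function with prescribed vector values at the vertices -/
theorem bco_affine_vec {m : ℕ} (z0 : E) (k : Fin m → E) (w : Option (Fin m) → W) (x : E) :
    ∑ o, bco z0 k o x • w o =
      w none + (∑ j, (innerSL ℝ (k j)).smulRight (w (some j) - w none)) (x - z0) := by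
  rw [Fintype.sum_option, sum_apply]
  simp only [bco, ContinuousLinearMap.smulRight_apply, innerSL_apply_apply, smul_sub]
  rw [Finset.sum_sub_distrib, ← Finset.sum_smul, sub_smul, one_smul]
  abel

variable {m : ℕ} {ν : Measure Ω} {X : Ω → E} {Y : Ω → W} {T : Ω → E →L[ℝ] W} {A : Set E}
  {c : E → W} {F I e b R : E → ℝ → ℝ} {φ : ℝ → ℝ} {C η lm lt : ℝ}

/-- the constant in front of the barycentre error -/
noncomputable def K₃ (m : ℕ) (C Cf r : ℝ) : ℝ :=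
  (2 * C + m * C * Cf / r) * (2 * C + 2 * m * C * Cf / r)

/-- **One level.** -/
theorem level (hm : Module.finrank ℝ E = m) (h : Data m ν X Y T A c F I e b R φ C η lm lt)
    (hC : 1 ≤ C) (hη : 0 ≤ η) (hη1 : η ≤ 1 / 16) {r M Cf ε κ Dt : ℝ} (hr : 0 < r)
    (hM : 20 * r ≤ M) (hlm : exp lm ≤ r / 2) (hlt : 2 * M ≤ exp lt) (hκ : 0 < κ)
    (hκ1 : κ ≤ 1 / 4) (hCf : 0 ≤ Cf) (hε : 0 ≤ ε) {z0 : E} {v : Fin m → E}
    (hA : ∀ o, ctr z0 v o ∈ A) (hvn : ∀ i, ‖v i‖ ≤ 2 * r)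
    (hfat : ∀ (c : Fin m → ℝ) (i : Fin m), |c i| * (2 * r) ≤ Cf * ‖∑ j, c j • v j‖)
    (hNN : ∀ z ∈ A, ∀ l ∈ Icc lm lt, NN (F z) (I z) l ≤ 2 * C)
    (hpin : ∀ o : Option (Fin m), ∃ t ∈ Icc (log (10 * r)) (log M),
      R (ctr z0 v o) t - 2 * NN (F (ctr z0 v o)) (I (ctr z0 v o)) t * e (ctr z0 v o) t +
        NN (F (ctr z0 v o)) (I (ctr z0 v o)) t ^ 2 * I (ctr z0 v o) t ≤ ε * I (ctr z0 v o) t)
    (hDt0 : 0 ≤ Dt) (hDt : I z0 lt ≤ Dt * HH ν X Y z0 (2 * M)) :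
    HH ν X Y z0 (r / 2) ≤
      ((κ ^ 2)⁻¹ * (((m:ℝ) + 1) ^ 2 * (1 + m * Cf) ^ 2 * ((C * ε + η) * (2 * C * (1 + C ^ 2))) +
        2 * (η * K₃ m C Cf r * √(C * Dt / M ^ m))) + C ^ 2 * (4 * κ + η)) *
          HH ν X Y z0 (2 * M) := by
  have := h.fin
  have hC0 : 0 < C := by linarith
  have hM0 : 0 < M := by linarith
  have hlm' : lm ≤ log (10 * r) := by
    rw [Real.le_log_iff_exp_le (by positivity)]; linarith
  have hlt' : log M ≤ lt := by
    rw [Real.log_le_iff_le_exp hM0]; linarith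
  have hz0 : z0 ∈ A := hA none
  obtain ⟨k, hk, hkn⟩ := exists_dual hm (v := v) (r := 2 * r) (by positivity) hfat
  set H := HH ν X Y z0 (2 * M) with hH
  have hH0 : 0 ≤ H := Data.HH_nonneg ν X Y z0 _
  choose t ht hpin using hpin
  have htI : ∀ o, t o ∈ Icc lm lt := fun o => ⟨hlm'.trans (ht o).1, (ht o).2.trans hlt'⟩
  set α : Option (Fin m) → ℝ := fun o => NN (F (ctr z0 v o)) (I (ctr z0 v o)) (t o) with hα
  have hαlow : ∀ o, 15 / 16 ≤ α o := fun o => by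
    have := (h.fd _ (hA o)).NN_low (htI o)
    simp only [hα]
    linarith
  have hαup : ∀ o, α o ≤ 2 * C := fun o => hNN _ (hA o) _ (htI o)
  have hdist : ∀ o, ‖ctr z0 v o - z0‖ ≤ 2 * r := by
    rintro (_ | i)
    · simp only [ctr, sub_self, norm_zero]; positivity
    · simp only [ctr, add_sub_cancel_left]; exact hvn i
  have hexp1 : ∀ o, 10 * r ≤ exp (t o) := fun o => by
    rw [← Real.log_le_iff_le_exp (by positivity)]; exact (ht o).1
  have hexp2 : ∀ o, exp (t o) ≤ M := fun o => by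
    rw [← Real.le_log_iff_exp_le hM0]; exact (ht o).2
  -- error integrals
  have hD : ∀ o, ∫ ω, φ (‖X ω - z0‖ ^ 2 / r ^ 2) *
      ‖er (T ω) (X ω) (ctr z0 v o) (Y ω) (c (ctr z0 v o)) (α o)‖ ^ 2 ∂ν ≤
      (C * ε + η) * (2 * C * (1 + C ^ 2)) * H := by
    intro o
    have hGc : Continuous fun p : E × W × (E →L[ℝ] W) =>
        ‖er p.2.2 p.1 (ctr z0 v o) p.2.1 (c (ctr z0 v o)) (α o)‖ ^ 2 := by
      unfold er; fun_prop
    have h1 := h.φ_int_le (z := z0) hr (G := fun p =>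
      ‖er p.2.2 p.1 (ctr z0 v o) p.2.1 (c (ctr z0 v o)) (α o)‖ ^ 2) hGc fun _ => by positivity
    have h2 : ∫ ω in BB X z0 r, ‖er (T ω) (X ω) (ctr z0 v o) (Y ω) (c (ctr z0 v o)) (α o)‖ ^ 2 ∂ν ≤
        ∫ ω in BB X (ctr z0 v o) (exp (t o) / 2),
          ‖er (T ω) (X ω) (ctr z0 v o) (Y ω) (c (ctr z0 v o)) (α o)‖ ^ 2 ∂ν := by
      refine setIntegral_mono_set (h.int hGc).integrableOn
        (Filter.Eventually.of_forall fun ω => by positivity) (Filter.Eventually.of_forall ?_)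
      intro ω hω
      have h3 : ‖X ω - ctr z0 v o‖ ≤ ‖X ω - z0‖ + ‖ctr z0 v o - z0‖ := by
        have := norm_sub_le (X ω - z0) (ctr z0 v o - z0)
        rwa [sub_sub_sub_cancel_right] at this
      have h4 : ‖X ω - z0‖ < r := hω
      have h5 := hdist o
      have h6 := hexp1 o
      change ‖X ω - ctr z0 v o‖ < exp (t o) / 2
      linarith
    have h3 := h.J _ (hA o) (t o) (htI o) (α o) (by linarith [hαlow o]) (hαup o)
    have hI := (h.fd _ (hA o)).pos (t o) (htI o)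
    have h4 := h.I_le_HH hC0.le (hA o) (htI o)
    have h5 : HH ν X Y (ctr z0 v o) (exp (t o)) ≤ H := by
      refine h.HH_mono ?_
      have := hdist o
      have := hexp2 o
      linarith
    calc _ ≤ _ := h1
      _ ≤ _ := h2
      _ ≤ _ := h3
      _ ≤ exp (t o) ^ m * (C * (ε * I (ctr z0 v o) (t o)) + η * I (ctr z0 v o) (t o)) := by
          have := hpin o
          simp only [hα]
          gcongr
      _ = (C * ε + η) * (exp (t o) ^ m * I (ctr z0 v o) (t o)) := by ring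
      _ ≤ (C * ε + η) * (2 * C * (1 + C ^ 2) * H) := by
          refine mul_le_mul_of_nonneg_left (h4.trans ?_) (by positivity)
          exact mul_le_mul_of_nonneg_left h5 (by positivity)
      _ = _ := by ring
  -- heights of the centres
  set cs := √(C * H / M ^ m) with hcs
  have hc : ∀ o, ‖c (ctr z0 v o)‖ ≤ cs := by
    intro o
    apply Real.le_sqrt_of_sq_le
    rw [le_div_iff₀ (by positivity)]
    have h1 := h.hgt _ (hA o) M (by linarith) (by linarith)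
    refine h1.trans ?_
    gcongr
    refine h.HH_mono ?_
    have := hdist o
    linarith
  have hcs0 : 0 ≤ cs := Real.sqrt_nonneg _
  -- the affine functions
  set w : Option (Fin m) → W := fun o => α o • c (ctr z0 v o) with hw
  have hwn : ∀ o, ‖w o‖ ≤ 2 * C * cs := by
    intro o
    simp only [hw]
    rw [norm_smul, Real.norm_eq_abs, abs_of_nonneg (by linarith [hαlow o])]
    exact mul_le_mul (hαup o) (hc o) (norm_nonneg _) (by positivity)
  set a1 : E := ∑ j, (α (some j) - α none) • k j with ha1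
  set B : E →L[ℝ] W := ∑ j, (innerSL ℝ (k j)).smulRight (w (some j) - w none) with hB
  have hkn' : ∀ j, ‖k j‖ ≤ Cf / (2 * r) := fun j => by
    rw [le_div_iff₀ (by positivity)]; exact hkn j
  have ha1n : ‖a1‖ ≤ m * C * Cf / r := by
    calc ‖a1‖ ≤ ∑ j, ‖(α (some j) - α none) • k j‖ := norm_sum_le _ _
      _ ≤ ∑ _j : Fin m, (2 * C) * (Cf / (2 * r)) := by
          refine Finset.sum_le_sum fun j _ => ?_
          rw [norm_smul]
          refine mul_le_mul ?_ (hkn' j) (norm_nonneg _) (by positivity)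
          rw [Real.norm_eq_abs, abs_le]
          have := hαlow (some j)
          have := hαlow none
          have := hαup (some j)
          have := hαup none
          constructor <;> linarith
      _ = m * C * Cf / r := by
          simp only [Finset.sum_const, Finset.card_univ, Fintype.card_fin, nsmul_eq_mul]
          field_simp
  have hBn : ‖B‖ ≤ 2 * m * C * Cf / r * cs := by
    calc ‖B‖ ≤ ∑ j, ‖(innerSL ℝ (k j)).smulRight (w (some j) - w none)‖ := norm_sum_le _ _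
      _ ≤ ∑ _j : Fin m, (Cf / (2 * r)) * (4 * C * cs) := by
          refine Finset.sum_le_sum fun j _ => ?_
          rw [ContinuousLinearMap.norm_smulRight_apply, innerSL_apply_norm]
          refine mul_le_mul (hkn' j) ?_ (norm_nonneg _) (by positivity)
          refine (norm_sub_le _ _).trans ?_
          have := hwn (some j)
          have := hwn none
          linarith
      _ = 2 * m * C * Cf / r * cs := by
          simp only [Finset.sum_const, Finset.card_univ, Fintype.card_fin, nsmul_eq_mul]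
          field_simp
          ring
  have hafun : ∀ x, ∑ o, bco z0 k o x * α o = α none + ⟪a1, x - z0⟫ := fun x =>
    bco_affine z0 k α x
  have hbfun : ∀ x, ∑ o, (bco z0 k o x * α o) • c (ctr z0 v o) = w none + B (x - z0) := by
    intro x
    rw [← bco_affine_vec z0 k w x]
    refine Finset.sum_congr rfl fun o _ => ?_
    simp only [hw, smul_smul]
  -- barycentre term
  have hD' : ∫ ω, φ (‖X ω - z0‖ ^ 2 / r ^ 2) * ((∑ o, bco z0 k o (X ω) * α o) *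
      inner ℝ (∑ o, (bco z0 k o (X ω) * α o) • c (ctr z0 v o)) (Y ω)) ∂ν ≤
      η * K₃ m C Cf r * √(C * Dt / M ^ m) * H := by
    have h1 := h.bar z0 hz0 r (by linarith [exp_pos lm]) (by linarith) (α none) a1 (w none) B
    have h2 : ∫ ω, φ (‖X ω - z0‖ ^ 2 / r ^ 2) * ((∑ o, bco z0 k o (X ω) * α o) *
        inner ℝ (∑ o, (bco z0 k o (X ω) * α o) • c (ctr z0 v o)) (Y ω)) ∂ν =
        ∫ ω, φ (‖X ω - z0‖ ^ 2 / r ^ 2) *
        ((α none + ⟪a1, X ω - z0⟫) * ⟪w none + B (X ω - z0), Y ω⟫) ∂ν := by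
      refine integral_congr_ae (Filter.Eventually.of_forall fun ω => ?_)
      simp only
      rw [hafun, hbfun]
    rw [h2]
    refine (le_abs_self _).trans (h1.trans ?_)
    have h3 : |α none| + ‖a1‖ ≤ 2 * C + m * C * Cf / r := by
      rw [abs_of_nonneg (by linarith [hαlow none])]
      linarith [hαup none]
    have h4 : ‖w none‖ + ‖B‖ ≤ (2 * C + 2 * m * C * Cf / r) * cs := by
      have := hwn none
      linarith
    have h5 : √(I z0 lt) ≤ √(Dt * H) := Real.sqrt_le_sqrt hDt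
    have h6 : cs * √(Dt * H) = √(C * Dt / M ^ m) * H := by
      rw [hcs, ← Real.sqrt_mul (by positivity)]
      rw [show C * H / M ^ m * (Dt * H) = (C * Dt / M ^ m) * H ^ 2 by ring,
        Real.sqrt_mul (by positivity), Real.sqrt_sq hH0]
    calc η * (|α none| + ‖a1‖) * (‖w none‖ + ‖B‖) * √(I z0 lt)
        ≤ η * (2 * C + m * C * Cf / r) * ((2 * C + 2 * m * C * Cf / r) * cs) * √(Dt * H) := by
          gcongr
      _ = η * K₃ m C Cf r * (cs * √(Dt * H)) := by unfold K₃; ring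
      _ = η * K₃ m C Cf r * √(C * Dt / M ^ m) * H := by rw [h6]; ring
  -- the slab
  have hSmeas : MeasurableSet {ω | |∑ o, bco z0 k o (X ω) * α o| < κ} := by
    simp only [hafun]
    exact measurableSet_lt ((measurable_const.add (measurable_const.inner
      (h.mX.sub_const z0))).abs) measurable_const
  have hD'' : ∫ ω in {ω | |∑ o, bco z0 k o (X ω) * α o| < κ},
      φ (‖X ω - z0‖ ^ 2 / r ^ 2) * ‖Y ω‖ ^ 2 ∂ν ≤ C ^ 2 * (4 * κ + η) * H := by
    set S : Set Ω := {ω | |∑ o, bco z0 k o (X ω) * α o| < κ} with hS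
    have hsl : ν.real (S ∩ BB X z0 r) ≤ C * (4 * κ + η) * r ^ m := by
      by_cases hcase : ‖a1‖ * r ≤ 1 / 4
      · have hemp : S ∩ BB X z0 r = ∅ := by
          ext ω
          simp only [mem_inter_iff, mem_empty_iff_false, iff_false, not_and]
          intro hω hω2
          have h1 : |∑ o, bco z0 k o (X ω) * α o| < κ := hω
          rw [hafun] at h1
          have h2 : |⟪a1, X ω - z0⟫| ≤ 1 / 4 := by
            calc |⟪a1, X ω - z0⟫| ≤ ‖a1‖ * ‖X ω - z0‖ := abs_real_inner_le_norm _ _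
              _ ≤ ‖a1‖ * r := by
                  have : ‖X ω - z0‖ < r := hω2
                  gcongr
              _ ≤ 1 / 4 := hcase
          have h3 := (abs_lt.1 h1).2
          have h4 := (abs_le.1 h2).1
          have h5 := hαlow none
          linarith
        rw [hemp, measureReal_empty]
        positivity
      · push Not at hcase
        have ha0 : 0 < ‖a1‖ := by
          by_contra hcon
          have : ‖a1‖ * r ≤ 0 := mul_nonpos_of_nonpos_of_nonneg (not_lt.1 hcon) hr.le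
          linarith
        have h1 := h.slab z0 hz0 r (by linarith [exp_pos lm]) (by linarith) (‖a1‖⁻¹ • a1) (by
          rw [norm_smul, norm_inv, norm_norm, inv_mul_cancel₀ ha0.ne']) (-(α none / ‖a1‖)) (4 * κ)
          (by positivity)
        refine (measureReal_mono ?_).trans h1
        rintro ω ⟨hω, hω2⟩
        refine ⟨hω2, ?_⟩
        have h2 : |∑ o, bco z0 k o (X ω) * α o| < κ := hω
        rw [hafun] at h2
        rw [real_inner_smul_left]
        have h3 : ‖a1‖⁻¹ * ⟪a1, X ω - z0⟫ - -(α none / ‖a1‖) =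
            (α none + ⟪a1, X ω - z0⟫) / ‖a1‖ := by field_simp; ring
        rw [h3, abs_div, abs_of_pos ha0, div_le_iff₀ ha0]
        nlinarith
    have hsup := h.sup z0 hz0 r (by linarith [exp_pos lm]) (by linarith)
    have h2r : HH ν X Y z0 (2 * r) ≤ H := h.HH_mono (by rw [sub_self, norm_zero]; linarith)
    have hb : ∀ᵐ ω ∂ν.restrict S, φ (‖X ω - z0‖ ^ 2 / r ^ 2) * ‖Y ω‖ ^ 2 ≤
        (BB X z0 r).indicator (fun _ => C * H / r ^ m) ω := by
      filter_upwards [ae_restrict_of_ae hsup] with ω hω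
      by_cases hωB : ω ∈ BB X z0 r
      · rw [indicator_of_mem hωB, le_div_iff₀ (by positivity)]
        have h3 := hω hωB
        calc φ (‖X ω - z0‖ ^ 2 / r ^ 2) * ‖Y ω‖ ^ 2 * r ^ m ≤ 1 * ‖Y ω‖ ^ 2 * r ^ m := by
              gcongr
              exact h.φ1 _
          _ = ‖Y ω‖ ^ 2 * r ^ m := by ring
          _ ≤ C * HH ν X Y z0 (2 * r) := h3
          _ ≤ C * H := by gcongr
      · rw [indicator_of_notMem hωB, h.φ_eq_zero hr hωB, zero_mul]
    have hint : Integrable (fun ω => φ (‖X ω - z0‖ ^ 2 / r ^ 2) * ‖Y ω‖ ^ 2) ν :=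
      h.φint (G := fun p => ‖p.2.1‖ ^ 2) (by fun_prop)
    calc ∫ ω in S, φ (‖X ω - z0‖ ^ 2 / r ^ 2) * ‖Y ω‖ ^ 2 ∂ν
        ≤ ∫ ω in S, (BB X z0 r).indicator (fun _ => C * H / r ^ m) ω ∂ν :=
          integral_mono_ae hint.integrableOn
            ((integrable_const _).indicator (h.measurableSet_BB z0 r)).integrableOn hb
      _ = C * H / r ^ m * ν.real (S ∩ BB X z0 r) := by
          rw [integral_indicator (h.measurableSet_BB z0 r), Measure.restrict_restrict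
            (h.measurableSet_BB z0 r), setIntegral_const, smul_eq_mul, inter_comm, mul_comm]
      _ ≤ C * H / r ^ m * (C * (4 * κ + η) * r ^ m) := by gcongr
      _ = C ^ 2 * (4 * κ + η) * H := by field_simp
  -- conclusion
  have hfin := single Finset.univ ν (fun ω => φ (‖X ω - z0‖ ^ 2 / r ^ 2)) (fun ω => h.φ0 _) X Y T
    (ctr z0 v) (fun o => c (ctr z0 v o)) α (bco z0 k) (Λ := 1 + m * Cf) hκ (bco_sum z0 k)
    (bco_smul hk) ?_ ?_ ?_ ?_ hSmeas (fun o _ => hD o) hD' hD''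
  · have h1 : HH ν X Y z0 (r / 2) ≤ ∫ ω, φ (‖X ω - z0‖ ^ 2 / r ^ 2) * ‖Y ω‖ ^ 2 ∂ν :=
      h.le_φ_int (z := z0) hr (G := fun p => ‖p.2.1‖ ^ 2) (by fun_prop) fun _ => by positivity
    refine h1.trans (hfin.trans (le_of_eq ?_))
    simp only [Finset.card_univ, Fintype.card_option, Fintype.card_fin]
    push_cast
    ring
  · intro ω hω o _
    have hωB : ω ∈ BB X z0 r := by
      by_contra hcon
      exact hω (h.φ_eq_zero hr hcon)
    have h1 : ∀ j, |⟪k j, X ω - z0⟫| ≤ Cf := by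
      intro j
      calc |⟪k j, X ω - z0⟫| ≤ ‖k j‖ * ‖X ω - z0‖ := abs_real_inner_le_norm _ _
        _ ≤ Cf / (2 * r) * r := by
            have : ‖X ω - z0‖ < r := hωB
            have := hkn' j
            gcongr
        _ = Cf / 2 := by field_simp
        _ ≤ Cf := by linarith
    rcases o with _ | i
    · simp only [bco]
      calc |1 - ∑ j, ⟪k j, X ω - z0⟫| ≤ |1| + |∑ j, ⟪k j, X ω - z0⟫| := abs_sub _ _
        _ ≤ 1 + ∑ j, |⟪k j, X ω - z0⟫| := by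
            rw [abs_one]
            gcongr
            exact Finset.abs_sum_le_sum_abs _ _
        _ ≤ 1 + ∑ _j : Fin m, Cf := by
            gcongr with j _
            exact h1 j
        _ = 1 + m * Cf := by simp
    · simp only [bco]
      have h2 := h1 i
      have h3 : (1:ℝ) ≤ m := by
        have : 0 < m := lt_of_le_of_lt (Nat.zero_le _) i.2
        exact_mod_cast this
      nlinarith
  · intro o _
    exact h.φint (G := fun p => ‖er p.2.2 p.1 (ctr z0 v o) p.2.1 (c (ctr z0 v o)) (α o)‖ ^ 2)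
      (by unfold er; fun_prop)
  · have : Continuous fun p : E × W × (E →L[ℝ] W) =>
        (α none + ⟪a1, p.1 - z0⟫) * ⟪w none + B (p.1 - z0), p.2.1⟫ := by fun_prop
    refine (h.φint (z := z0) (ρ := r) this).congr (Filter.Eventually.of_forall fun ω => ?_)
    simp only
    rw [hafun, hbfun]
  · exact h.φint (G := fun p => ‖p.2.1‖ ^ 2) (by fun_prop)

end Crest.Agent.R234.Pin4_3
private theorem rz_f083a8d954 : type_of% @_root_.Crest.Agent.R234.Pin4_3.bco.eq_1 := @_root_.Crest.Agent.R234.Pin4_3.bco.eq_1 -- L27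
private theorem rz_dd9736f7b7 : type_of% @_root_.Crest.Agent.R234.Pin4_3.ctr.eq_1 := @_root_.Crest.Agent.R234.Pin4_3.ctr.eq_1 -- L22
end

-- ▼ part R234/Spc1_699
section

/-!
# Content version of multiscale spanning with labels (VF-SPC)

Row 234.  `Pin j` = set of points which are pinched at the scale `δ ^ j`.  If a set `A` of diameter at most
one has `s`-content at least `c` (`s > k`) and every point of `A` is unpinched at at most `P` scales, then at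
one of the first `K` scales the pinched points are not flat of dimension `k` (`K` depends on `s, c, P, δ`).
-/

open MeasureTheory Metric Set Filter Topology
open scoped ENNReal NNReal
open Crest.Agent.R234.Sp1_643

namespace Crest.Agent.R234.Spc1_699

variable {E : Type*} [NormedAddCommGroup E] [InnerProductSpace ℝ E]

omit [InnerProductSpace ℝ E] in
theorem cov_union {S T : Set E} {N M ρ : ℝ} (h : Cov S N ρ) (h' : Cov T M ρ) :
    Cov (S ∪ T) (N + M) ρ := by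
  classical
  obtain ⟨F, h1, h2, h3⟩ := h
  obtain ⟨G, g1, g2, g3⟩ := h'
  refine ⟨F ∪ G, ?_, ?_, ?_⟩
  · have : ((F ∪ G).card : ℝ) ≤ (F.card : ℝ) + G.card := by
      exact_mod_cast Finset.card_union_le F G
    linarith
  · intro t ht
    rcases Finset.mem_union.1 ht with ht | ht
    · exact ⟨(h2 t ht).1.trans subset_union_left, (h2 t ht).2⟩
    · exact ⟨(g2 t ht).1.trans subset_union_right, (g2 t ht).2⟩
  · rintro y (hy | hy)
    · obtain ⟨t, ht, hyt⟩ := h3 y hy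
      exact ⟨t, Finset.mem_union_left _ ht, hyt⟩
    · obtain ⟨t, ht, hyt⟩ := g3 y hy
      exact ⟨t, Finset.mem_union_right _ ht, hyt⟩

open Classical in
/-- number of scales `j ≤ i < j + n` at which `x` is unpinched -/
noncomputable def bad (Pin : ℕ → Set E) (x : E) (j n : ℕ) : ℕ :=
  ((Finset.range n).filter fun i => x ∉ Pin (j + i)).card

omit [InnerProductSpace ℝ E] [NormedAddCommGroup E] in
open Classical in
theorem bad_succ (Pin : ℕ → Set E) (x : E) (j n : ℕ) :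
    bad Pin x j (n + 1) = (if x ∉ Pin j then 1 else 0) + bad Pin x (j + 1) n := by
  unfold bad
  rw [Finset.card_filter, Finset.card_filter, Finset.sum_range_succ', add_comm]
  congr 1
  refine Finset.sum_congr rfl fun i _ => ?_
  have : j + (i + 1) = j + 1 + i := by omega
  rw [this]

variable [FiniteDimensional ℝ E]

/-- the covering tree with labels -/
theorem tree_pin {k : ℕ} {A : Set E} {Pin : ℕ → Set E} {δ : ℝ} {K : ℕ} (hδ : 0 < δ) (hδ1 : δ ≤ 1)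
    (hfl : ∀ j < K, ∀ x ∈ A, Flat k δ (A ∩ Pin j) x (δ ^ j)) :
    ∀ (n j g : ℕ) (S : Set E), j + n ≤ K → S ⊆ A → (∀ y ∈ S, ∀ z ∈ S, dist y z ≤ δ ^ j) →
      (∀ x ∈ S, bad Pin x j n ≤ g) →
      Cov S ((2 * (C0 (Module.finrank ℝ E) * (1 / δ) ^ k)) ^ n *
        ((1 / δ) ^ (Module.finrank ℝ E)) ^ g) (δ ^ (j + n)) := by
  classical
  set d := Module.finrank ℝ E with hd
  have hb : 1 ≤ 1 / δ := by rw [le_div_iff₀ hδ]; linarith
  have hbd : 1 ≤ (1 / δ) ^ d := one_le_pow₀ hb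
  have hC : 1 ≤ C0 d := one_le_C0 d
  intro n
  induction n with
  | zero =>
    intro j g S _ hSA hS _
    refine (cov_self hS).mono ?_ (by simp)
    simpa using one_le_pow₀ hbd
  | succ n ih =>
    intro j g S hjK hSA hS hg
    have hpos : 0 < δ ^ j := by positivity
    set q : ℝ := C0 d * (1 / δ) ^ k with hq
    have hq0 : 0 < q := by positivity
    -- pinched part
    have c1 : Cov (S ∩ Pin j) (q * ((2 * q) ^ n * ((1 / δ) ^ d) ^ g)) (δ ^ (j + 1 + n)) := by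
      rcases (S ∩ Pin j).eq_empty_or_nonempty with h0 | ⟨x, hx⟩
      · rw [h0]; exact cov_empty (by positivity)
      have h1 := step_flat (k := k) (A := A ∩ Pin j) (S := S ∩ Pin j) hpos hδ hδ1
        (fun y hy => ⟨hSA hy.1, hy.2⟩) hx (fun y hy z hz => hS y hy.1 z hz.1)
        (hfl j (by omega) x (hSA hx.1))
      refine h1.comp (by positivity) ?_
      intro t ht htd
      refine ih (j + 1) g t (by omega) (fun y hy => hSA (ht hy).1) ?_ ?_
      · intro y hy z hz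
        rw [pow_succ']
        exact htd y hy z hz
      · intro y hy
        have h2 := hg y (ht hy).1
        rw [bad_succ] at h2
        omega
    have c2 : Cov (S \ Pin j) (q * ((2 * q) ^ n * ((1 / δ) ^ d) ^ g)) (δ ^ (j + 1 + n)) := by
      rcases (S \ Pin j).eq_empty_or_nonempty with h0 | ⟨x, hx⟩
      · rw [h0]; exact cov_empty (by positivity)
      obtain ⟨g', rfl⟩ : ∃ g', g = g' + 1 := by
        have h3 := hg x hx.1
        rw [bad_succ, if_pos hx.2] at h3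
        exact ⟨g - 1, by omega⟩
      have h1 := step_all (k := k) (S := S \ Pin j) hpos hδ hδ1 (fun y hy z hz => hS y hy.1 z hz.1)
      have h2 := h1.comp (N' := (2 * q) ^ n * ((1 / δ) ^ d) ^ g')
        (ρ' := δ ^ (j + 1 + n)) (by positivity) (by
        intro t ht htd
        refine ih (j + 1) g' t (by omega) (fun y hy => hSA (ht hy).1) ?_ ?_
        · intro y hy z hz
          rw [pow_succ']
          exact htd y hy z hz
        · intro y hy
          have h3 := hg y (ht hy).1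
          rw [bad_succ, if_pos (ht hy).2] at h3
          omega)
      refine h2.mono (le_of_eq ?_) le_rfl
      rw [← hd, ← hq, pow_succ]; ring
    have h3 := cov_union c1 c2
    rw [inter_union_sdiff] at h3
    refine h3.mono (le_of_eq ?_) (le_of_eq ?_)
    · rw [pow_succ]; ring
    · congr 1; omega




end Crest.Agent.R234.Spc1_699
end

-- ▼ part R234/Pin5_3
section

/-!
R234 (helper3), VF-PIN part 5: the abstract pinching theorem.
-/

open MeasureTheory Set Real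
open scoped RealInnerProductSpace

namespace Crest.Agent.R234.Pin5_3

set_option linter.unusedSectionVars false

open Crest.Agent.R234.Pin1_3 Crest.Agent.R234.Pin2_3 Crest.Agent.R234.Pin3_3
open Crest.Agent.R234.Pin4_3 Crest.Agent.R234.Spc1_699 Crest.Agent.R234.Sp1_643

variable {E W Ω : Type*} [NormedAddCommGroup E] [InnerProductSpace ℝ E] [FiniteDimensional ℝ E]
  [MeasurableSpace E] [BorelSpace E]
  [NormedAddCommGroup W] [InnerProductSpace ℝ W] [FiniteDimensional ℝ W] [MeasurableSpace Ω]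

variable {m : ℕ} {ν : Measure Ω} {X : Ω → E} {Y : Ω → W} {T : Ω → E →L[ℝ] W} {A : Set E}
  {c : E → W} {F I e b R : E → ℝ → ℝ} {φ : ℝ → ℝ} {C η lm lt : ℝ}

/-- doubling constant of `I` over a logarithmic length `L` -/
noncomputable def DD (C L : ℝ) : ℝ := exp (4 * C + (6 * C + 6) * L)

theorem I_dbl (h : Data m ν X Y T A c F I e b R φ C η lm lt) (hη : 0 ≤ η)
    (hη1 : η ≤ 1 / 16) (hNN : ∀ z ∈ A, ∀ l ∈ Icc lm lt, NN (F z) (I z) l ≤ 2 * C)
    (hsm : 72 * η * (1 + (2 * C) ^ 2) ≤ 1) {z : E} (hz : z ∈ A) {l l' : ℝ}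
    (hl : l ∈ Icc lm lt) (hl' : l' ∈ Icc lm lt) (hll : l ≤ l') : I z l' ≤ DD C (l' - l) * I z l := by
  have := (h.fd z hz).I_doubling hη hη1 (hNN z hz) hsm hl hl' hll
  unfold DD
  refine this.trans (le_of_eq ?_)
  congr 2
  ring

/-- doubling of the heights between the radii `r/2` and `2 M` -/
theorem HH_dbl (h : Data m ν X Y T A c F I e b R φ C η lm lt) (hC : 1 ≤ C) (hη : 0 ≤ η)
    (hη1 : η ≤ 1 / 16) (hNN : ∀ z ∈ A, ∀ l ∈ Icc lm lt, NN (F z) (I z) l ≤ 2 * C)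
    (hsm : 72 * η * (1 + (2 * C) ^ 2) ≤ 1) {r M : ℝ} (hr : 0 < r) (hM : 20 * r ≤ M)
    (hlm : exp lm ≤ r / 2) (hlt : 4 * M ≤ exp lt)
    (hsm2 : 4 * η ^ 2 * DD C (lt - lm) * (C * 2 ^ m) ≤ exp lm ^ m * exp lm ^ m)
    {z : E} (hz : z ∈ A) :
    HH ν X Y z (2 * M) ≤ 4 * 4 ^ m * C ^ 2 * (2 * C + 1) * (8 * M / r) ^ m *
      DD C (log (8 * M / r)) * (2 * C * (1 + C ^ 2)) * HH ν X Y z (r / 2) := by
  have hM0 : 0 < M := by linarith
  have e1 : exp (log (4 * M)) = 4 * M := exp_log (by positivity)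
  have e2 : exp (log (r / 2)) = r / 2 := exp_log (by positivity)
  have h1 : log (4 * M) ∈ Icc lm lt := by
    constructor
    · rw [Real.le_log_iff_exp_le (by positivity)]; linarith
    · rw [Real.log_le_iff_le_exp (by positivity)]; linarith
  have h2 : log (r / 2) ∈ Icc lm lt := by
    constructor
    · rw [Real.le_log_iff_exp_le (by positivity)]; linarith
    · rw [Real.log_le_iff_le_exp (by positivity)]; linarith
  have h12 : log (r / 2) ≤ log (4 * M) := Real.log_le_log (by positivity) (by linarith)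
  have hlt' : lt ∈ Icc lm lt := ⟨h1.1.trans h1.2, le_rfl⟩
  have hI := (h.fd z hz).pos _ h1
  have hDpos : ∀ L, 0 < DD C L := fun L => by unfold DD; positivity
  have hD1 : I z lt ≤ DD C (lt - lm) * I z (log (4 * M)) := by
    refine (I_dbl h hη hη1 hNN hsm hz h1 hlt' h1.2).trans ?_
    apply mul_le_mul_of_nonneg_right _ hI.le
    unfold DD
    apply exp_le_exp.2
    have := h1.1
    have : (6 * C + 6) * (lt - log (4 * M)) ≤ (6 * C + 6) * (lt - lm) := by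
      apply mul_le_mul_of_nonneg_left _ (by linarith)
      linarith
    linarith
  have h3 := h.HH_le_I hC hη hz h1 (by rw [e1]; linarith) hD1 (by
    refine hsm2.trans ?_
    rw [e1]
    have := exp_pos lm
    gcongr
    · linarith
    · linarith)
  rw [e1] at h3
  have e3 : 4 * M / 2 = 2 * M := by ring
  rw [e3] at h3
  have h4 := I_dbl h hη hη1 hNN hsm hz h2 h1 h12
  have e4 : log (4 * M) - log (r / 2) = log (8 * M / r) := by
    rw [← Real.log_div (by positivity) (by positivity)]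
    congr 1
    field_simp
    ring
  rw [e4] at h4
  have h5 := h.I_le_HH (by linarith) hz h2
  rw [e2] at h5
  have h6 : (4 * M) ^ m * I z (log (4 * M)) ≤
      (8 * M / r) ^ m * DD C (log (8 * M / r)) * (2 * C * (1 + C ^ 2) * HH ν X Y z (r / 2)) := by
    calc (4 * M) ^ m * I z (log (4 * M))
        ≤ (4 * M) ^ m * (DD C (log (8 * M / r)) * I z (log (r / 2))) := by gcongr
      _ = (8 * M / r) ^ m * DD C (log (8 * M / r)) * ((r / 2) ^ m * I z (log (r / 2))) := by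
          have : (4 * M) ^ m = (8 * M / r) ^ m * (r / 2) ^ m := by
            rw [← mul_pow]; congr 1; field_simp; ring
          rw [this]; ring
      _ ≤ _ := by
          have := hDpos (log (8 * M / r))
          gcongr
  calc HH ν X Y z (2 * M)
      ≤ 4 * 4 ^ m * C ^ 2 * (2 * C + 1) * ((4 * M) ^ m * I z (log (4 * M))) := h3
    _ ≤ 4 * 4 ^ m * C ^ 2 * (2 * C + 1) * ((8 * M / r) ^ m * DD C (log (8 * M / r)) *
          (2 * C * (1 + C ^ 2) * HH ν X Y z (r / 2))) := by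
        have : 0 ≤ 2 * C + 1 := by linarith
        gcongr
    _ = _ := by ring

/-- pinched centres at level `j`: `N(10 δ^j / δ) - N(10 δ^j) ≤ κ` -/
def PinSet (F I : E → ℝ → ℝ) (δ κ : ℝ) (j : ℕ) : Set E :=
  {z | NN (F z) (I z) (log (10 * δ ^ j / δ)) - NN (F z) (I z) (log (10 * δ ^ (j + 1) / δ)) ≤ κ}

/-- the number of unpinned levels -/
theorem bad_le (h : Data m ν X Y T A c F I e b R φ C η lm lt) (hη : 0 ≤ η)
    (hη1 : η ≤ 1 / 16) (hNN : ∀ z ∈ A, ∀ l ∈ Icc lm lt, NN (F z) (I z) l ≤ 2 * C)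
    {δ κ : ℝ} (hδ : 0 < δ) (hδ1 : δ < 1) {K : ℕ}
    (hlm : exp lm ≤ 10 * δ ^ K / δ) (hlt : 10 / δ ≤ exp lt)
    (hsm : K * (36 * η * (1 + (2 * C) ^ 2) * log (1 / δ)) ≤ 1) {z : E} (hz : z ∈ A) :
    (bad (PinSet F I δ κ) z 0 K : ℝ) * κ ≤ 2 * C + 1 := by
  classical
  set g : ℕ → ℝ := fun j => NN (F z) (I z) (log (10 * δ ^ j / δ)) with hg
  have hrange : ∀ j ≤ K, log (10 * δ ^ j / δ) ∈ Icc lm lt := by
    intro j hj
    constructor
    · rw [Real.le_log_iff_exp_le (by positivity)]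
      refine hlm.trans ?_
      gcongr ?_ / δ
      gcongr 10 * ?_
      exact pow_le_pow_of_le_one hδ.le hδ1.le hj
    · rw [Real.log_le_iff_le_exp (by positivity)]
      refine le_trans ?_ hlt
      gcongr
      have : δ ^ j ≤ 1 := pow_le_one₀ hδ.le hδ1.le
      linarith
  have hstep : ∀ j < K, g (j + 1) ≤ g j + 36 * η * (1 + (2 * C) ^ 2) * log (1 / δ) := by
    intro j hj
    have h1 := hrange j hj.le
    have h2 := hrange (j + 1) hj
    have h3 : log (10 * δ ^ (j + 1) / δ) ≤ log (10 * δ ^ j / δ) := by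
      apply Real.log_le_log (by positivity)
      gcongr ?_ / δ
      gcongr 10 * ?_
      exact pow_le_pow_of_le_one hδ.le hδ1.le (Nat.le_succ j)
    have h4 := (h.fd z hz).NN_mono hη hη1 (hNN z hz) h2 h1 h3
    refine h4.trans (le_of_eq ?_)
    congr 1
    congr 1
    rw [← Real.log_div (by positivity) (by positivity)]
    congr 1
    field_simp
    ring
  have hsum : ∑ j ∈ Finset.range K, (g j - g (j + 1)) = g 0 - g K := Finset.sum_range_sub' g K
  have h1 : ∀ j ∈ Finset.range K, (if z ∉ PinSet F I δ κ (0 + j) then κ else 0) ≤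
      (g j - g (j + 1)) + 36 * η * (1 + (2 * C) ^ 2) * log (1 / δ) := by
    intro j hj
    have hj' := Finset.mem_range.1 hj
    have h2 := hstep j hj'
    have h0 : 0 ≤ 36 * η * (1 + (2 * C) ^ 2) * log (1 / δ) := by
      have : 0 ≤ log (1 / δ) := Real.log_nonneg (by rw [le_div_iff₀ hδ]; linarith)
      positivity
    by_cases hp : z ∈ PinSet F I δ κ (0 + j)
    · rw [if_neg (not_not.2 hp)]
      linarith
    · rw [if_pos hp]
      rw [zero_add] at hp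
      have h3 : κ < g j - g (j + 1) := not_le.1 hp
      linarith
  have h2 := Finset.sum_le_sum h1
  rw [Finset.sum_add_distrib, hsum, Finset.sum_const, Finset.card_range, nsmul_eq_mul,
    ← Finset.sum_filter, Finset.sum_const, nsmul_eq_mul] at h2
  have h3 : (bad (PinSet F I δ κ) z 0 K : ℝ) * κ ≤
      g 0 - g K + K * (36 * η * (1 + (2 * C) ^ 2) * log (1 / δ)) := h2
  have h4 : g 0 ≤ 2 * C := hNN z hz _ (hrange 0 (Nat.zero_le _))
  have h5 : 0 ≤ g K := by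
    have := (h.fd z hz).NN_low (hrange K le_rfl)
    simp only [hg]
    linarith
  linarith

theorem flat_of_flat {k : ℕ} {δ : ℝ} {A : Set E} {x x' : E} {r : ℝ}
    (hx : dist x' x ≤ r) (h : Flat k (δ / 2) A x' (2 * r)) : Flat k δ A x r := by
  obtain ⟨V, h1, h2⟩ := h
  refine ⟨V, h1, fun y hy => ?_⟩
  have h4 : y ∈ Metric.closedBall x' (2 * r) := by
    rw [Metric.mem_closedBall]
    have h3 : dist y x ≤ r := hy.2
    have := dist_triangle y x x'
    rw [dist_comm x x'] at this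
    linarith
  obtain ⟨w, hw, hyw⟩ := h2 y ⟨hy.1, h4⟩
  exact ⟨w, hw, hyw.trans (le_of_eq (by ring))⟩

theorem flat_of_empty {k : ℕ} {δ : ℝ} {A : Set E} {x : E} {r : ℝ}
    (h : ∀ y ∈ A, r < dist y x) : Flat k δ A x r := by
  refine ⟨AffineSubspace.mk' x ⊥, ?_, fun y hy => ?_⟩
  · rw [AffineSubspace.direction_mk', finrank_bot]
    exact Nat.zero_le _
  · exact absurd (h y hy.1) (not_lt.2 hy.2)

theorem exists_fat' (hm1 : 1 ≤ m) {δ r : ℝ} {A : Set E} {x : E} (hδ : 0 < δ) (hr : 0 < r)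
    (hx : x ∈ A) (h : ¬ Flat (m - 1) δ A x r) :
    ∃ v : Fin m → E, (∀ i, x + v i ∈ A ∧ ‖v i‖ ≤ r) ∧
      ∀ (c : Fin m → ℝ) (i : Fin m), |c i| * r ≤ Sp3_643.Cf (m - 1) δ * ‖∑ j, c j • v j‖ := by
  obtain ⟨v, hv, hf⟩ := Sp3_643.exists_fat hδ hr hx h
  let e : Fin m ≃ Fin (m - 1 + 1) := finCongr (by omega)
  refine ⟨fun i => v (e i), fun i => hv (e i), fun c i => ?_⟩
  have h1 := hf (fun j => c (e.symm j)) (e i)
  rw [Equiv.symm_apply_apply] at h1
  rw [← Equiv.sum_comp e] at h1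
  simpa only [Equiv.symm_apply_apply] using h1

/-- the doubling constant between `r/2` and `2M` -/
noncomputable def C6 (m : ℕ) (C δ : ℝ) : ℝ := 4 * 4 ^ m * C ^ 2 * (2 * C + 1) * (80 / δ) ^ m *
      DD C (log (80 / δ)) * (2 * C * (1 + C ^ 2))

noncomputable def B1 (m : ℕ) (C Cf κ : ℝ) : ℝ := (κ ^ 2)⁻¹ * (((m:ℝ) + 1) ^ 2 * (1 + m * Cf) ^ 2 *
      (C * (2 * C * (1 + C ^ 2))))

noncomputable def Dtt (m : ℕ) (C L ρ : ℝ) : ℝ := DD C L * (2 * C * (1 + C ^ 2)) / ρ ^ m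

noncomputable def B2 (m : ℕ) (C Cf κ L ρ : ℝ) : ℝ := (κ ^ 2)⁻¹ * (((m:ℝ) + 1) ^ 2 *
      (1 + m * Cf) ^ 2 * (2 * C * (1 + C ^ 2)) +
        2 * (K₃ m C Cf ρ * √(C * Dtt m C L ρ / ρ ^ m))) + C ^ 2

theorem DD_pos (C L : ℝ) : 0 < DD C L := by unfold DD; positivity

theorem C6_pos {m : ℕ} {C δ : ℝ} (hC : 1 ≤ C) (hδ : 0 < δ) : 0 < C6 m C δ := by
  unfold C6
  have := DD_pos C (log (80 / δ))
  have : 0 < C := by linarith
  positivity

/-- one pinched level at which the centres are not flat is contradictory -/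
theorem level_false (hmE : Module.finrank ℝ E = m) (h : Data m ν X Y T A c F I e b R φ C η lm lt)
    (hC : 1 ≤ C) (hη0 : 0 < η) (hη16 : η ≤ 1 / 16) {δ r ρ Cf κ ε : ℝ} (hδ : 0 < δ)
    (hδ2 : δ ≤ 1 / 2) (hρ : 0 < ρ) (hρr : ρ ≤ r) (hr1 : r ≤ 1) (hexplm : exp lm = ρ / 8)
    (hexplt : exp lt = 40 / δ) (hCf : 1 ≤ Cf) (hκ0 : 0 < κ) (hκ1 : κ ≤ 1 / 4)
    (hκ2 : C ^ 2 * (4 * κ) * C6 m C δ ≤ 1 / 8) (hε0 : 0 < ε)
    (hε1 : B1 m C Cf κ * ε * C6 m C δ ≤ 1 / 8)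
    (hsm3 : 72 * η * (1 + (2 * C) ^ 2) ≤ 1) (c4 : η * (164 * (1 + (2 * C) ^ 2)) ≤ ε)
    (c6 : 4 * η * DD C (lt - lm) * (C * 2 ^ m) ≤ exp lm ^ m * exp lm ^ m)
    (c7 : η * B2 m C Cf κ (lt - lm) ρ * C6 m C δ ≤ 1 / 8)
    (hNN : ∀ z ∈ A, ∀ l ∈ Icc lm lt, NN (F z) (I z) l ≤ 2 * C) {z0 : E} {v : Fin m → E}
    (hA : ∀ o, ctr z0 v o ∈ A) (hvn : ∀ i, ‖v i‖ ≤ 2 * r)
    (hfat : ∀ (c : Fin m → ℝ) (i : Fin m), |c i| * (2 * r) ≤ Cf * ‖∑ j, c j • v j‖)
    (hP : ∀ o, NN (F (ctr z0 v o)) (I (ctr z0 v o)) (log (10 * r / δ)) -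
        NN (F (ctr z0 v o)) (I (ctr z0 v o)) (log (10 * r)) ≤ ε / 5 * log (1 / δ)) : False := by
  have hC0 : 0 < C := by linarith
  have hr0 : 0 < r := by linarith
  have hlog0 : 0 < log (1 / δ) := Real.log_pos (by rw [lt_div_iff₀ hδ]; linarith)
  obtain ⟨M, hM⟩ : ∃ M, M = 10 * r / δ := ⟨_, rfl⟩
  rw [← hM] at hP
  have hM0 : 0 < M := by rw [hM]; positivity
  have h20 : 20 * r ≤ M := by
    rw [hM, le_div_iff₀ hδ]
    nlinarith only [hr0, hδ2, hδ]
  have hδKr : ρ / 8 ≤ r / 2 := by linarith only [hρr, hρ]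
  have h4M : 4 * M ≤ 40 / δ := by
    rw [hM]
    have : 40 / δ = 4 * (10 * 1 / δ) := by ring
    rw [this]
    gcongr
  have hl1 : log (10 * r) ∈ Icc lm lt := by
    constructor
    · rw [Real.le_log_iff_exp_le (by positivity), hexplm]
      linarith only [hδKr, hr0]
    · rw [Real.log_le_iff_le_exp (by positivity), hexplt]
      linarith only [h20, h4M, hr0]
  have hl2 : log M ∈ Icc lm lt := by
    constructor
    · rw [Real.le_log_iff_exp_le hM0, hexplm]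
      linarith only [hδKr, h20, hr0]
    · rw [Real.log_le_iff_le_exp hM0, hexplt]
      linarith only [h4M, hM0]
  have hlmlt : lm ≤ lt := hl2.1.trans hl2.2
  have hΔ' : log M - log (10 * r) = log (1 / δ) := by
    rw [← Real.log_div (by positivity) (by positivity), hM]
    congr 1
    field_simp
  have hll : log (10 * r) < log M := by linarith only [hΔ', hlog0]
  have hpin : ∀ o : Option (Fin m), ∃ t ∈ Icc (log (10 * r)) (log M),
      R (ctr z0 v o) t - 2 * NN (F (ctr z0 v o)) (I (ctr z0 v o)) t * e (ctr z0 v o) t +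
        NN (F (ctr z0 v o)) (I (ctr z0 v o)) t ^ 2 * I (ctr z0 v o) t ≤
          ε * I (ctr z0 v o) t := by
    intro o
    obtain ⟨t, ht, h2⟩ := (h.fd _ (hA o)).exists_pinched hη0.le hη16 (hNN _ (hA o)) hl1 hl2
      hll (δ := ε / 5) (by rw [hΔ']; exact hP o)
    refine ⟨t, Ioo_subset_Icc_self ht, h2.trans ?_⟩
    have hI := (h.fd _ (hA o)).pos t ⟨hl1.1.trans ht.1.le, ht.2.le.trans hl2.2⟩
    apply mul_le_mul_of_nonneg_right _ hI.le
    linarith only [c4]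
  have hDtH : I z0 lt ≤ Dtt m C (lt - lm) ρ * HH ν X Y z0 (2 * M) := by
    have h1 := I_dbl h hη0.le hη16 hNN hsm3 (hA none) hl2 ⟨hlmlt, le_rfl⟩ hl2.2
    have h2 := h.I_le_HH hC0.le (hA none) hl2
    rw [exp_log hM0] at h2
    have h3 : HH ν X Y z0 M ≤ HH ν X Y z0 (2 * M) :=
      h.HH_mono (by rw [sub_self, norm_zero]; linarith only [hM0])
    have hI := (h.fd _ (hA none)).pos _ hl2
    have h4 : DD C (lt - log M) ≤ DD C (lt - lm) := by
      unfold DD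
      apply exp_le_exp.2
      have h5 : lt - log M ≤ lt - lm := by linarith only [hl2.1]
      have : (6 * C + 6) * (lt - log M) ≤ (6 * C + 6) * (lt - lm) :=
        mul_le_mul_of_nonneg_left h5 (by linarith only [hC0])
      linarith only [this]
    have h5 : ρ ^ m ≤ M ^ m := pow_le_pow_left₀ hρ.le (by linarith only [hρr, h20, hr0]) m
    have h6 : I z0 (log M) * ρ ^ m ≤ 2 * C * (1 + C ^ 2) * HH ν X Y z0 (2 * M) := by
      calc I z0 (log M) * ρ ^ m ≤ I z0 (log M) * M ^ m :=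
            mul_le_mul_of_nonneg_left h5 hI.le
        _ = M ^ m * I z0 (log M) := mul_comm _ _
        _ ≤ 2 * C * (1 + C ^ 2) * HH ν X Y z0 M := h2
        _ ≤ _ := mul_le_mul_of_nonneg_left h3 (by positivity)
    have hDp := DD_pos C (lt - lm)
    have h7 : I z0 lt ≤ DD C (lt - lm) * I z0 (log M) :=
      h1.trans (mul_le_mul_of_nonneg_right h4 hI.le)
    unfold Dtt
    rw [div_mul_eq_mul_div, le_div_iff₀ (by positivity)]
    calc I z0 lt * ρ ^ m ≤ (DD C (lt - lm) * I z0 (log M)) * ρ ^ m :=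
          mul_le_mul_of_nonneg_right h7 (by positivity)
      _ = DD C (lt - lm) * (I z0 (log M) * ρ ^ m) := by ring
      _ ≤ DD C (lt - lm) * (2 * C * (1 + C ^ 2) * HH ν X Y z0 (2 * M)) :=
          mul_le_mul_of_nonneg_left h6 hDp.le
      _ = _ := by ring
  have hDt0 : 0 ≤ Dtt m C (lt - lm) ρ := by
    unfold Dtt
    have := DD_pos C (lt - lm)
    positivity
  have hlev := level hmE h hC hη0.le hη16 hr0 h20 (by rw [hexplm]; exact hδKr)
    (by rw [hexplt]; linarith only [h4M, hM0]) hκ0 hκ1 (by linarith only [hCf] : 0 ≤ Cf) hε0.le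
    hA hvn hfat hNN hpin hDt0 hDtH
  have hdbl := HH_dbl h hC hη0.le hη16 hNN hsm3 hr0 h20 (by rw [hexplm]; exact hδKr)
    (by rw [hexplt]; exact h4M) (by
      have hη2 : η ^ 2 ≤ η := by nlinarith only [hη0, hη16]
      refine le_trans ?_ c6
      have := DD_pos C (lt - lm)
      gcongr) (hA none)
  have e8 : 8 * M / r = 80 / δ := by rw [hM]; field_simp; norm_num
  rw [e8] at hdbl
  change HH ν X Y z0 (2 * M) ≤ C6 m C δ * HH ν X Y z0 (r / 2) at hdbl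
  have hC6 := C6_pos (m := m) hC hδ
  set H := HH ν X Y z0 (2 * M) with hH
  have hH0 : 0 ≤ H := Data.HH_nonneg ν X Y z0 _
  -- the constant of `level`
  have hK : K₃ m C Cf r ≤ K₃ m C Cf ρ := by
    unfold K₃
    gcongr
  have hK0 : 0 ≤ K₃ m C Cf r := by unfold K₃; positivity
  have hsq : √(C * Dtt m C (lt - lm) ρ / M ^ m) ≤ √(C * Dtt m C (lt - lm) ρ / ρ ^ m) := by
    apply Real.sqrt_le_sqrt
    have h5 : ρ ^ m ≤ M ^ m := pow_le_pow_left₀ hρ.le (by linarith only [hρr, h20, hr0]) m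
    gcongr
  obtain ⟨S1, hS1⟩ : ∃ S, S = √(C * Dtt m C (lt - lm) ρ / M ^ m) := ⟨_, rfl⟩
  obtain ⟨S2, hS2⟩ : ∃ S, S = √(C * Dtt m C (lt - lm) ρ / ρ ^ m) := ⟨_, rfl⟩
  have hS1' : 0 ≤ S1 := by rw [hS1]; exact Real.sqrt_nonneg _
  have hκi : 0 ≤ (κ ^ 2)⁻¹ := by positivity
  have hΘ : ((κ ^ 2)⁻¹ * (((m:ℝ) + 1) ^ 2 * (1 + m * Cf) ^ 2 * ((C * ε + η) *
      (2 * C * (1 + C ^ 2))) + 2 * (η * K₃ m C Cf r * √(C * Dtt m C (lt - lm) ρ / M ^ m))) +
        C ^ 2 * (4 * κ + η)) ≤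
      B1 m C Cf κ * ε + η * B2 m C Cf κ (lt - lm) ρ + C ^ 2 * (4 * κ) := by
    unfold B1 B2
    rw [← hS1, ← hS2]
    rw [← hS1, ← hS2] at hsq
    have h1 : K₃ m C Cf r * S1 ≤ K₃ m C Cf ρ * S2 :=
      mul_le_mul hK hsq hS1' (hK0.trans hK)
    have h2 : (κ ^ 2)⁻¹ * (2 * (η * (K₃ m C Cf r * S1))) ≤
        (κ ^ 2)⁻¹ * (2 * (η * (K₃ m C Cf ρ * S2))) := by gcongr
    linarith only [h2]
  have h1 : HH ν X Y z0 (r / 2) ≤ (B1 m C Cf κ * ε + η * B2 m C Cf κ (lt - lm) ρ +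
      C ^ 2 * (4 * κ)) * H := hlev.trans (mul_le_mul_of_nonneg_right hΘ hH0)
  have h2 : H ≤ (3 / 8) * H := by
    calc H ≤ C6 m C δ * HH ν X Y z0 (r / 2) := hdbl
      _ ≤ C6 m C δ * ((B1 m C Cf κ * ε + η * B2 m C Cf κ (lt - lm) ρ +
            C ^ 2 * (4 * κ)) * H) := mul_le_mul_of_nonneg_left h1 hC6.le
      _ = (B1 m C Cf κ * ε * C6 m C δ + η * B2 m C Cf κ (lt - lm) ρ * C6 m C δ +
            C ^ 2 * (4 * κ) * C6 m C δ) * H := by ring
      _ ≤ (3 / 8) * H := by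
          apply mul_le_mul_of_nonneg_right _ hH0
          linarith only [hκ2, hε1, c7]
  have h3 : H ≤ 0 := by linarith only [h2, hH0]
  have hI := (h.fd _ (hA none)).pos _ hl2
  have h4 := h.I_le_HH hC0.le (hA none) hl2
  rw [exp_log hM0] at h4
  have h5 : HH ν X Y z0 M ≤ H :=
    h.HH_mono (by rw [sub_self, norm_zero]; linarith only [hM0])
  have h6 : 2 * C * (1 + C ^ 2) * HH ν X Y z0 M ≤ 0 := by
    refine mul_nonpos_of_nonneg_of_nonpos (by positivity) (h5.trans h3)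
  have h7 : 0 < M ^ m * I z0 (log M) := mul_pos (by positivity) hI
  exact absurd (h4.trans h6) (not_le.2 h7)

/-- 699's `exists_unflat` with the content replaced by coverings by sets of one diameter. -/
theorem exists_unflat_cov {k : ℕ} {s : ℝ} (hks : (k : ℝ) < s) :
    ∃ δ > 0, δ ≤ 1 / 2 ∧ ∀ c > 0, ∀ P : ℕ, ∃ K : ℕ,
      ∀ (A : Set E) (Pin : ℕ → Set E), (∀ y ∈ A, ∀ z ∈ A, dist y z ≤ 1) →
        (∀ N : ℝ, 0 ≤ N → Cov A N (δ ^ K) → c ≤ N * (δ ^ K) ^ s) →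
        (∀ x ∈ A, bad Pin x 0 K ≤ P) →
        ∃ j < K, ∃ x ∈ A, ¬ Flat k δ (A ∩ Pin j) x (δ ^ j) := by
  set d := Module.finrank ℝ E with hd
  have hCp : 0 < C0 d := lt_of_lt_of_le one_pos (one_le_C0 d)
  have he : 0 < s - k := by linarith
  have hs : 0 < s := lt_of_le_of_lt (by positivity) hks
  obtain ⟨δ, hδd⟩ : ∃ δ, δ = min (1 / 2) ((1 / (4 * C0 d)) ^ (1 / (s - k))) := ⟨_, rfl⟩
  have hδ : 0 < δ := by
    rw [hδd]; exact lt_min (by norm_num) (Real.rpow_pos_of_pos (by positivity) _)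
  refine ⟨δ, hδ, by rw [hδd]; exact min_le_left _ _, ?_⟩
  intro c hc P
  have h1 : δ ≤ 1 / 2 := by rw [hδd]; exact min_le_left _ _
  have h2 : δ ≤ (1 / (4 * C0 d)) ^ (1 / (s - k)) := by rw [hδd]; exact min_le_right _ _
  have h3 : δ ^ (s - k) ≤ 1 / (4 * C0 d) := by
    calc δ ^ (s - k) ≤ ((1 / (4 * C0 d)) ^ (1 / (s - k))) ^ (s - k) :=
          Real.rpow_le_rpow hδ.le h2 he.le
      _ = 1 / (4 * C0 d) := by
          rw [← Real.rpow_mul (by positivity), one_div_mul_cancel he.ne', Real.rpow_one]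
  have h4 : 2 * (C0 d * (1 / δ) ^ k) * δ ^ s ≤ 1 / 2 := by
    have e1 : (1 / δ) ^ k * δ ^ s = δ ^ (s - k) := by
      rw [Real.rpow_sub hδ, Real.rpow_natCast, one_div, inv_pow]
      field_simp
    calc 2 * (C0 d * (1 / δ) ^ k) * δ ^ s = 2 * C0 d * ((1 / δ) ^ k * δ ^ s) := by ring
      _ = 2 * C0 d * δ ^ (s - k) := by rw [e1]
      _ ≤ 2 * C0 d * (1 / (4 * C0 d)) := by gcongr
      _ = 1 / 2 := by field_simp; norm_num
  have hM : 0 < ((1 / δ) ^ d) ^ P := by positivity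
  obtain ⟨K, hK⟩ : ∃ K : ℕ, (1 / 2 : ℝ) ^ K < c / ((1 / δ) ^ d) ^ P :=
    exists_pow_lt_of_lt_one (by positivity) (by norm_num)
  refine ⟨K, fun A Pin hA hcon hbad => ?_⟩
  by_contra hne
  push Not at hne
  have h5 := tree_pin (k := k) (A := A) (Pin := Pin) (K := K) hδ (by linarith)
    (fun j hj x hx => hne j hj x hx) K 0 P A (by omega) le_rfl (by simpa using hA) hbad
  rw [zero_add, ← hd] at h5
  have h6 := hcon _ (by positivity) h5
  have e3 : (δ ^ K) ^ s = (δ ^ s) ^ K := by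
    rw [← Real.rpow_natCast, ← Real.rpow_natCast, ← Real.rpow_mul hδ.le, ← Real.rpow_mul hδ.le,
      mul_comm]
  have h7 : (2 * (C0 d * (1 / δ) ^ k)) ^ K * ((1 / δ) ^ d) ^ P * (δ ^ K) ^ s
      ≤ (1 / 2) ^ K * ((1 / δ) ^ d) ^ P := by
    calc (2 * (C0 d * (1 / δ) ^ k)) ^ K * ((1 / δ) ^ d) ^ P * (δ ^ K) ^ s
        = (2 * (C0 d * (1 / δ) ^ k) * δ ^ s) ^ K * ((1 / δ) ^ d) ^ P := by
          rw [e3, mul_pow (2 * (C0 d * (1 / δ) ^ k)) (δ ^ s)]; ring
      _ ≤ (1 / 2) ^ K * ((1 / δ) ^ d) ^ P := by gcongr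
  have h8 : (1 / 2 : ℝ) ^ K * ((1 / δ) ^ d) ^ P < c := by
    rwa [lt_div_iff₀ hM] at hK
  linarith

/-- **The abstract pinching theorem**: the data are contradictory when the set of centres is not
covered by few sets of diameter `ρ₀` (`s > m - 1`). -/
theorem pin_false (hmE : Module.finrank ℝ E = m) {s : ℝ} (hs : ((m - 1 : ℕ) : ℝ) < s)
    (hm1 : 1 ≤ m) :
    ∃ Lt : ℝ, 0 < Lt ∧ ∀ c₀ : ℝ, 0 < c₀ → ∀ C : ℝ, 1 ≤ C → ∃ lm < Lt, ∃ ρ₀ : ℝ, 0 < ρ₀ ∧
      ∃ η : ℝ, 0 < η ∧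
      ∀ (Ω : Type) [MeasurableSpace Ω] (ν : Measure Ω) (X : Ω → E) (Y : Ω → W)
        (T : Ω → E →L[ℝ] W) (A : Set E) (c : E → W) (F I e b R : E → ℝ → ℝ) (φ : ℝ → ℝ),
        (∀ y ∈ A, ∀ z ∈ A, dist y z ≤ 1) →
        (∀ N : ℝ, 0 ≤ N → Cov A N ρ₀ → c₀ ≤ N * ρ₀ ^ s) →
        ¬ Data m ν X Y T A c F I e b R φ C η lm Lt := by
  obtain ⟨δ, hδ, hδ2, Hun⟩ := exists_unflat_cov (E := E) hs
  have hδ1 : δ < 1 := by linarith
  obtain ⟨Δ, hΔ⟩ : ∃ Δ, Δ = log (1 / δ) := ⟨_, rfl⟩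
  have hΔ0 : 0 < Δ := by
    rw [hΔ]; exact Real.log_pos (by rw [lt_div_iff₀ hδ]; linarith)
  refine ⟨log (40 / δ), Real.log_pos (by rw [lt_div_iff₀ hδ]; linarith),
    fun c₀ hc₀ C hC => ?_⟩
  have hC0 : 0 < C := by linarith
  obtain ⟨Cf', hCf'⟩ : ∃ Cf', Cf' = Sp3_643.Cf (m - 1) (δ / 2) := ⟨_, rfl⟩
  have hCf1 : 1 ≤ Cf' := by rw [hCf']; exact Sp3_643.one_le_Cf (by positivity)
  have hC6pos := C6_pos (m := m) hC hδ
  -- `κ`
  obtain ⟨κ, hκ⟩ : ∃ κ, κ = min (1 / 4) (1 / (32 * C ^ 2 * C6 m C δ)) := ⟨_, rfl⟩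
  have hκ0 : 0 < κ := by rw [hκ]; exact lt_min (by norm_num) (by positivity)
  have hκ1 : κ ≤ 1 / 4 := by rw [hκ]; exact min_le_left _ _
  have hκ2 : C ^ 2 * (4 * κ) * C6 m C δ ≤ 1 / 8 := by
    have h1 : κ ≤ 1 / (32 * C ^ 2 * C6 m C δ) := by rw [hκ]; exact min_le_right _ _
    rw [le_div_iff₀ (by positivity)] at h1
    linarith
  -- `ε`
  have hB1pos : 0 < B1 m C Cf' κ * C6 m C δ := by unfold B1; positivity
  obtain ⟨ε, hε⟩ : ∃ ε, ε = 1 / (8 * (B1 m C Cf' κ * C6 m C δ)) := ⟨_, rfl⟩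
  have hε0 : 0 < ε := by rw [hε]; positivity
  have hε1 : B1 m C Cf' κ * ε * C6 m C δ ≤ 1 / 8 := by
    apply le_of_eq
    rw [hε]
    obtain ⟨B, hB⟩ : ∃ B, B = B1 m C Cf' κ := ⟨_, rfl⟩
    obtain ⟨C', hC'⟩ : ∃ C', C' = C6 m C δ := ⟨_, rfl⟩
    rw [← hB, ← hC'] at hB1pos ⊢
    have hB0 : B ≠ 0 := by rintro rfl; simp at hB1pos
    have hC0 : C' ≠ 0 := by rintro rfl; simp at hB1pos
    field_simp
  -- `P`, `K`, `lm`
  obtain ⟨P, hP⟩ := exists_nat_ge ((2 * C + 1) / (ε / 5 * Δ))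
  obtain ⟨K, HK⟩ := Hun c₀ hc₀ P
  have hρ : 0 < δ ^ K := by positivity
  obtain ⟨lm, hlmd⟩ : ∃ lm, lm = log (δ ^ K / 8) := ⟨_, rfl⟩
  have hexplm : exp lm = δ ^ K / 8 := by rw [hlmd]; exact exp_log (by positivity)
  have hexplt : exp (log (40 / δ)) = 40 / δ := exp_log (by positivity)
  have hδK : δ ^ K ≤ 1 := pow_le_one₀ hδ.le hδ1.le
  have hone : 1 ≤ 1 / δ := by rw [le_div_iff₀ hδ]; linarith
  have hlmlt : lm < log (40 / δ) := by
    rw [hlmd]
    apply Real.log_lt_log (by positivity)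
    have : 40 / δ = 40 * (1 / δ) := by ring
    linarith
  obtain ⟨lt, hlt⟩ : ∃ lt, lt = log (40 / δ) := ⟨_, rfl⟩
  rw [← hlt] at hexplt hlmlt ⊢
  have hL0 : 0 < lt - lm := by linarith
  have hK₃ : 0 ≤ K₃ m C Cf' (δ ^ K) := by unfold K₃; positivity
  have hB2pos : 0 ≤ B2 m C Cf' κ (lt - lm) (δ ^ K) * C6 m C δ := by unfold B2; positivity
  -- `η`
  have hDL := DD_pos C (lt - lm)
  have hexp0 := exp_pos lm
  obtain ⟨t1, ht1⟩ : ∃ t, t = 160 * C * (lt - lm) := ⟨_, rfl⟩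
  obtain ⟨t2, ht2⟩ : ∃ t, t = 72 * (1 + (2 * C) ^ 2) := ⟨_, rfl⟩
  obtain ⟨t3, ht3⟩ : ∃ t, t = 164 * (1 + (2 * C) ^ 2) / ε := ⟨_, rfl⟩
  obtain ⟨t4, ht4⟩ : ∃ t : ℝ, t = K * (36 * (1 + (2 * C) ^ 2) * Δ) := ⟨_, rfl⟩
  obtain ⟨t5, ht5⟩ : ∃ t, t = 4 * DD C (lt - lm) * (C * 2 ^ m) / (exp lm ^ m * exp lm ^ m) :=
    ⟨_, rfl⟩
  obtain ⟨t6, ht6⟩ : ∃ t, t = 8 * (B2 m C Cf' κ (lt - lm) (δ ^ K) * C6 m C δ) := ⟨_, rfl⟩
  have t1n : 0 ≤ t1 := by rw [ht1]; positivity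
  have t2n : 0 ≤ t2 := by rw [ht2]; positivity
  have t3n : 0 ≤ t3 := by rw [ht3]; positivity
  have t4n : 0 ≤ t4 := by rw [ht4]; positivity
  have t5n : 0 ≤ t5 := by rw [ht5]; positivity
  have t6n : 0 ≤ t6 := by rw [ht6]; positivity
  obtain ⟨S, hS⟩ : ∃ S : ℝ, S = 16 + t1 + t2 + t3 + t4 + t5 + t6 := ⟨_, rfl⟩
  have hSpos : 0 < S := by linarith only [hS, t1n, t2n, t3n, t4n, t5n, t6n]
  obtain ⟨η, hη⟩ : ∃ η, η = 1 / S := ⟨_, rfl⟩
  have hη0 : 0 < η := by rw [hη]; positivity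
  have hηS : ∀ t, t ≤ S → η * t ≤ 1 := fun t ht => by
    rw [hη, one_div, inv_mul_le_iff₀ hSpos, mul_one]; exact ht
  have hη16 : η ≤ 1 / 16 := by
    have := hηS 16 (by linarith only [hS, t1n, t2n, t3n, t4n, t5n, t6n])
    linarith only [this]
  have c2 := hηS t1 (by linarith only [hS, t1n, t2n, t3n, t4n, t5n, t6n])
  have c3 := hηS t2 (by linarith only [hS, t1n, t2n, t3n, t4n, t5n, t6n])
  have c4 := hηS t3 (by linarith only [hS, t1n, t2n, t3n, t4n, t5n, t6n])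
  have c5 := hηS t4 (by linarith only [hS, t1n, t2n, t3n, t4n, t5n, t6n])
  have c6 := hηS t5 (by linarith only [hS, t1n, t2n, t3n, t4n, t5n, t6n])
  have c7 := hηS t6 (by linarith only [hS, t1n, t2n, t3n, t4n, t5n, t6n])
  rw [ht1] at c2
  rw [ht2] at c3
  rw [ht3, ← mul_div_assoc, div_le_one hε0] at c4
  rw [ht4] at c5
  rw [ht5, ← mul_div_assoc, div_le_one (by positivity)] at c6
  rw [ht6] at c7
  clear ht1 ht2 ht3 ht4 ht5 ht6 t1n t2n t3n t4n t5n t6n hS hηS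
  refine ⟨lm, hlmlt, δ ^ K, hρ, η, hη0, ?_⟩
  intro Ω _ ν X Y T A c F I e b R φ hdiam hcont h
  have hNN : ∀ z ∈ A, ∀ l ∈ Icc lm lt, NN (F z) (I z) l ≤ 2 * C := fun z hz l hl =>
    h.NN_le hC hη0.le hη16 hlmlt.le (by linarith only [c2]) hz hl
  -- the number of unpinned levels
  have hbad : ∀ z ∈ A, bad (PinSet F I δ (ε / 5 * Δ)) z 0 K ≤ P := by
    intro z hz
    have h1 := bad_le h hη0.le hη16 hNN hδ hδ1 (κ := ε / 5 * Δ) (K := K) (by
      rw [hexplm, div_le_div_iff₀ (by norm_num) hδ]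
      nlinarith only [hρ, hδ, hδ2]) (by
      rw [hexplt]
      gcongr
      norm_num) (by
      rw [← hΔ]
      linarith only [c5]) hz
    have h2 : (bad (PinSet F I δ (ε / 5 * Δ)) z 0 K : ℝ) ≤ P := by
      refine le_trans ?_ hP
      rw [le_div_iff₀ (by positivity)]
      exact h1
    exact_mod_cast h2
  obtain ⟨j, hj, x, hxA, hnf⟩ := HK A (PinSet F I δ (ε / 5 * Δ)) hdiam hcont hbad
  have hr0 : 0 < δ ^ j := by positivity
  have hrK : δ ^ K ≤ δ ^ j := pow_le_pow_of_le_one hδ.le hδ1.le hj.le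
  have hr1 : δ ^ j ≤ 1 := pow_le_one₀ hδ.le hδ1.le
  -- a pinched centre in the ball
  obtain ⟨z0, ⟨hz0A, hz0P⟩, hz0x⟩ : ∃ z0 ∈ A ∩ PinSet F I δ (ε / 5 * Δ) j,
      dist z0 x ≤ δ ^ j := by
    by_contra hcon
    push Not at hcon
    exact hnf (flat_of_empty hcon)
  have hnf' : ¬ Flat (m - 1) (δ / 2) (A ∩ PinSet F I δ (ε / 5 * Δ) j) z0 (2 * δ ^ j) :=
    fun hf => hnf (flat_of_flat hz0x hf)
  obtain ⟨v, hv, hfat⟩ := exists_fat' (A := A ∩ PinSet F I δ (ε / 5 * Δ) j) hm1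
    (by positivity : (0:ℝ) < δ / 2) (by positivity : 0 < 2 * δ ^ j) ⟨hz0A, hz0P⟩ hnf'
  rw [← hCf'] at hfat
  have hAP : ∀ o, ctr z0 v o ∈ A ∩ PinSet F I δ (ε / 5 * Δ) j := by
    rintro (_ | i)
    · exact ⟨hz0A, hz0P⟩
    · exact (hv i).1
  have e10 : 10 * δ ^ (j + 1) / δ = 10 * δ ^ j := by
    rw [pow_succ]; field_simp
  refine level_false hmE h hC hη0 hη16 hδ hδ2 hρ hrK hr1 hexplm hexplt hCf1 hκ0 hκ1 hκ2 hε0 hε1
    (by linarith only [c3]) c4 (by linarith only [c6]) (by linarith only [c7]) hNN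
    (fun o => (hAP o).1) (fun i => (hv i).2) hfat fun o => ?_
  have h1 := (hAP o).2
  simp only [PinSet, mem_ofPred_eq, e10] at h1
  rw [← hΔ]
  exact h1

end Crest.Agent.R234.Pin5_3
end

-- ▼ part R234/Pin6_3
section

/-!
R234 (helper3), VF-PIN part 6: rescaling of the abstract data; the literal input `PinData`
(435: all fields of `Data` but `fd`, `top`; 534: `fd`, `top`).
-/

open MeasureTheory Set Metric
open scoped RealInnerProductSpace ENNReal

namespace Crest.Agent.R234.Pin6_3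

set_option linter.unusedSectionVars false
set_option linter.unusedVariables false

open Crest.Agent.R234.Pin1_3 Crest.Agent.R234.Pin2_3 Crest.Agent.R234.Pin3_3
open Crest.GeometryTopology.Submanifold Crest.Agent.R234.Vf_884
open Crest.Agent.R234.Main_456

/-- the V-level instance of the data of the pinching theorem, for fixed `m, n, K`. -/
def PinDataK (m n K : ℕ) : Prop :=
  ∀ (Q : ℕ) (C : ℝ), 2 ≤ Q → ∃ C' : ℝ, 1 ≤ C' ∧
    ∀ (lm η : ℝ), lm < -3 → 0 < η → ∃ ε : ℝ, 0 < ε ∧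
      ∀ (U : Set (Euc (m + n))), IsOpen U → ∀ D : VarifoldData m (m + n),
        IsIntegralVarifoldIn U D → IsStationaryIn U D → ∀ (x : Euc (m + n)) (r : ℝ), 0 < r →
        Metric.closedBall x (128 * r) ⊆ U → Th m (VD D) x = (Q : ℝ≥0∞) →
        ∀ (π : Euc (m + n) →L[ℝ] Euc m) (ρ : Euc (m + n) →L[ℝ] Euc n) (u : Euc m → Euc n),
          Ref (VD D) Q x r π ρ u K ε C →
          (∀ z ∈ closedBall x r, ∀ z' ∈ closedBall x r, (Q : ℝ≥0∞) ≤ Th m (VD D) z →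
            (Q : ℝ≥0∞) ≤ Th m (VD D) z' → ‖ρ (z - z')‖ ≤ η * r) ∧
          ∀ (A : Set (Euc m)) (zh : Euc m → Euc (m + n)),
            (∀ a ∈ A, zh a ∈ closedBall x r ∧ (Q : ℝ≥0∞) ≤ Th m (VD D) (zh a) ∧
              r⁻¹ • π (zh a - x) = a) →
            ∃ (Ω : Type) (_ : MeasurableSpace Ω) (ν : Measure Ω) (X : Ω → Euc m) (Y : Ω → Euc n)
              (T : Ω → Euc m →L[ℝ] Euc n) (c : Euc m → Euc n) (F I e b R : Euc m → ℝ → ℝ)
              (φ : ℝ → ℝ), Data m ν X Y T A c F I e b R φ C' η lm (-3)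

/-- the V-level instance of the data of the pinching theorem, for all large `K`. -/
def PinData : Prop :=
  ∀ (m n : ℕ), 3 ≤ m → 1 ≤ n → ∃ K₁ : ℕ, ∀ K : ℕ, K₁ ≤ K → PinDataK m n K

theorem fd_mono {E I e b R : ℝ → ℝ} {η η' l₀ l₁ l₀' l₁' : ℝ} (h : FD E I e b R η l₀ l₁)
    (hη : 0 ≤ η) (hη1 : η ≤ 1 / 2) (hηη : η ≤ η') (h0 : l₀ ≤ l₀') (h1 : l₁' ≤ l₁) :
    FD E I e b R η' l₀' l₁' := by
  have hs : ∀ {l}, l ∈ Icc l₀' l₁' → l ∈ Icc l₀ l₁ := fun hl => ⟨h0.trans hl.1, hl.2.trans h1⟩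
  have hE : ∀ {l}, l ∈ Icc l₀ l₁ → 0 ≤ E l := by
    intro l hl
    have h2 := h.low l hl
    have h3 := h.pos l hl
    have : 0 ≤ (1 - η) * I l := by
      apply mul_nonneg (by linarith) h3.le
    linarith
  have key : ∀ {l}, l ∈ Icc l₀ l₁ → η * (E l + |b l| + I l) ≤ η' * (E l + |b l| + I l) := by
    intro l hl
    apply mul_le_mul_of_nonneg_right hηη
    have := hE hl; have := h.pos l hl; positivity
  refine ⟨fun l hl => h.pos l (hs hl), fun l hl => ?_, fun l hl => ?_, fun l hl => h.eE l (hs hl),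
    fun l hl => ?_, fun l hl => ?_, fun l hl => ?_⟩
  · obtain ⟨ε, h1, h2⟩ := h.dE l (hs hl)
    exact ⟨ε, h1.trans (key (hs hl)), h2⟩
  · obtain ⟨ε, h1, h2⟩ := h.dI l (hs hl)
    exact ⟨ε, h1.trans (key (hs hl)), h2⟩
  · obtain ⟨ε, h1, h2⟩ := h.cs l (hs hl)
    exact ⟨ε, h1.trans (key (hs hl)), h2⟩
  · have h2 := h.low l (hs hl)
    have h3 := h.pos l (hs hl)
    have : (1 - η') * I l ≤ (1 - η) * I l := mul_le_mul_of_nonneg_right (by linarith) h3.le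
    linarith
  · exact (h.bu l (hs hl)).trans (mul_le_mul_of_nonneg_right hηη (hE (hs hl)))

theorem fd_resc {E I e b R : ℝ → ℝ} {η l₀ l₁ : ℝ} (h : FD E I e b R η l₀ l₁) {κ : ℝ} (hκ : 0 < κ)
    (c : ℝ) : FD (fun l => κ * E (l + c)) (fun l => κ * I (l + c)) (fun l => κ * e (l + c))
      (fun l => κ * b (l + c)) (fun l => κ * R (l + c)) η (l₀ - c) (l₁ - c) := by
  have hs : ∀ {l}, l ∈ Icc (l₀ - c) (l₁ - c) → l + c ∈ Icc l₀ l₁ := fun hl =>
    ⟨by linarith [hl.1], by linarith [hl.2]⟩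
  have hab : ∀ l, |κ * b (l + c)| = κ * |b (l + c)| := fun l => by rw [abs_mul, abs_of_pos hκ]
  refine ⟨fun l hl => mul_pos hκ (h.pos _ (hs hl)), fun l hl => ?_, fun l hl => ?_,
    fun l hl => ?_, fun l hl => ?_, fun l hl => ?_, fun l hl => ?_⟩
  · obtain ⟨ε, h1, h2⟩ := h.dE _ (hs hl)
    refine ⟨κ * ε, ?_, ?_⟩
    · rw [abs_mul, abs_of_pos hκ, hab]
      calc κ * |ε| ≤ κ * (η * (E (l + c) + |b (l + c)| + I (l + c))) := by gcongr
        _ = _ := by ring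
    · have := (h2.comp_add_const l c).const_mul κ
      refine this.congr_deriv ?_
      ring
  · obtain ⟨ε, h1, h2⟩ := h.dI _ (hs hl)
    refine ⟨κ * ε, ?_, ?_⟩
    · rw [abs_mul, abs_of_pos hκ, hab]
      calc κ * |ε| ≤ κ * (η * (E (l + c) + |b (l + c)| + I (l + c))) := by gcongr
        _ = _ := by ring
    · have := (h2.comp_add_const l c).const_mul κ
      refine this.congr_deriv ?_
      ring
  · show κ * e (l + c) = 2 * (κ * E (l + c)) - 2 * (κ * b (l + c))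
    rw [h.eE _ (hs hl)]; ring
  · obtain ⟨ε, h1, h2⟩ := h.cs _ (hs hl)
    refine ⟨κ * ε, ?_, ?_⟩
    · rw [abs_mul, abs_of_pos hκ, hab]
      calc κ * |ε| ≤ κ * (η * (E (l + c) + |b (l + c)| + I (l + c))) := by gcongr
        _ = _ := by ring
    · calc (κ * e (l + c) + κ * ε) ^ 2 = κ ^ 2 * (e (l + c) + ε) ^ 2 := by ring
        _ ≤ κ ^ 2 * (I (l + c) * R (l + c)) := by gcongr
        _ = _ := by ring
  · show (1 - η) * (κ * I (l + c)) ≤ 2 * (κ * E (l + c))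
    have := mul_le_mul_of_nonneg_left (h.low _ (hs hl)) hκ.le
    linarith
  · show κ * b (l + c) ≤ η * (κ * E (l + c))
    have := mul_le_mul_of_nonneg_left (h.bu _ (hs hl)) hκ.le
    linarith

variable {E W Ω : Type*} [NormedAddCommGroup E] [InnerProductSpace ℝ E] [FiniteDimensional ℝ E]
  [MeasurableSpace E] [BorelSpace E]
  [NormedAddCommGroup W] [InnerProductSpace ℝ W] [FiniteDimensional ℝ W] [MeasurableSpace Ω]

variable {m : ℕ} {ν : Measure Ω} {X : Ω → E} {Y : Ω → W} {T : Ω → E →L[ℝ] W} {A : Set E}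
  {c : E → W} {F I e b R : E → ℝ → ℝ} {φ : ℝ → ℝ} {C η lm lt : ℝ}

/-- monotonicity in `η`. -/
theorem Data.mono_eta (h : Data m ν X Y T A c F I e b R φ C η lm lt) (hC : 0 ≤ C) (hη : 0 ≤ η)
    (hη1 : η ≤ 1 / 2) {η' : ℝ} (hηη : η ≤ η') :
    Data m ν X Y T A c F I e b R φ C η' lm lt := by
  refine { h with fd := ?_, J := ?_, slab := ?_, bar := ?_ }
  · exact fun z hz => fd_mono (h.fd z hz) hη hη1 hηη le_rfl le_rfl
  · intro z hz l hl α h0 h1
    refine (h.J z hz l hl α h0 h1).trans ?_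
    have := (h.fd z hz).pos l hl
    gcongr
  · intro z hz ρ h0 h1 u hu t w hw
    refine (h.slab z hz ρ h0 h1 u hu t w hw).trans ?_
    have : 0 ≤ ρ := (Real.exp_pos _).le.trans h0
    gcongr
  · intro z hz ρ h0 h1 a₀ a₁ b₀ B
    refine (h.bar z hz ρ h0 h1 a₀ a₁ b₀ B).trans ?_
    gcongr


theorem BB_smul {τ : ℝ} (hτ : 0 < τ) (X : Ω → E) (z : E) (ρ : ℝ) :
    BB (fun ω => τ⁻¹ • X ω) z ρ = BB X (τ • z) (τ * ρ) := by
  ext ω
  simp only [BB, Set.mem_ofPred_eq]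
  have h1 : τ⁻¹ • X ω - z = τ⁻¹ • (X ω - τ • z) := by
    rw [smul_sub, smul_smul, inv_mul_cancel₀ hτ.ne', one_smul]
  rw [h1, norm_smul, norm_inv, Real.norm_of_nonneg hτ.le, inv_mul_lt_iff₀ hτ]

theorem int_smul {κ : ℝ} (hκ : 0 ≤ κ) (S : Set Ω) (f : Ω → ℝ) :
    ∫ ω in S, f ω ∂(ENNReal.ofReal κ • ν) = κ * ∫ ω in S, f ω ∂ν := by
  rw [Measure.restrict_smul, integral_smul_measure, ENNReal.toReal_ofReal hκ, smul_eq_mul]

theorem real_smul {κ : ℝ} (hκ : 0 ≤ κ) (S : Set Ω) :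
    (ENNReal.ofReal κ • ν).real S = κ * ν.real S := by
  rw [measureReal_ennreal_smul_apply, ENNReal.toReal_ofReal hκ]

/-- rescaling of the data by `τ = exp a ≤ 1`. -/
theorem Data.resc (h : Data m ν X Y T A c F I e b R φ C η lm lt) (hC : 0 ≤ C) (hη : 0 ≤ η)
    {a η' : ℝ} (ha : a ≤ 0) (hη' : η * ((Real.exp a) ^ (m + 2))⁻¹ ≤ η') (hη1 : η ≤ 1 / 2)
    (A' : Set E) (hA : ∀ y ∈ A', Real.exp a • y ∈ A) :
    Data m (ENNReal.ofReal ((Real.exp a) ^ m)⁻¹ • ν) (fun ω => (Real.exp a)⁻¹ • X ω)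
      (fun ω => (Real.exp a)⁻¹ • Y ω) T A' (fun y => (Real.exp a)⁻¹ • c (Real.exp a • y))
      (fun y l => ((Real.exp a) ^ 2)⁻¹ * F (Real.exp a • y) (l + a))
      (fun y l => ((Real.exp a) ^ 2)⁻¹ * I (Real.exp a • y) (l + a))
      (fun y l => ((Real.exp a) ^ 2)⁻¹ * e (Real.exp a • y) (l + a))
      (fun y l => ((Real.exp a) ^ 2)⁻¹ * b (Real.exp a • y) (l + a))
      (fun y l => ((Real.exp a) ^ 2)⁻¹ * R (Real.exp a • y) (l + a))
      φ C η' (lm - a) (lt - a) := by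
  obtain ⟨τ, hτdef⟩ : ∃ τ, τ = Real.exp a := ⟨_, rfl⟩
  have hτ : 0 < τ := by rw [hτdef]; exact Real.exp_pos a
  have hτ1 : τ ≤ 1 := by rw [hτdef]; exact Real.exp_le_one_iff.2 ha
  have hτm : 0 < τ ^ m := pow_pos hτ m
  have hκ : 0 ≤ (τ ^ m)⁻¹ := by positivity
  have hηη : η ≤ η' := by
    refine le_trans ?_ hη'
    rw [← hτdef]
    have h1 : 1 ≤ (τ ^ (m + 2))⁻¹ := (one_le_inv₀ (by positivity)).2 (pow_le_one₀ hτ.le hτ1)
    calc η = η * 1 := (mul_one _).symm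
      _ ≤ η * (τ ^ (m + 2))⁻¹ := by gcongr
  have he : ∀ l, Real.exp (l + a) = τ * Real.exp l := by
    intro l; rw [Real.exp_add, hτdef, mul_comm]
  have hwin : ∀ {l}, l ∈ Icc (lm - a) (lt - a) → l + a ∈ Icc lm lt := fun hl =>
    ⟨by linarith [hl.1], by linarith [hl.2]⟩
  have hr0 : ∀ {ρ}, Real.exp (lm - a) ≤ ρ → Real.exp lm ≤ τ * ρ := by
    intro ρ h0
    have : Real.exp lm = τ * Real.exp (lm - a) := by rw [← he]; congr 1; ring
    rw [this]; gcongr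
  have hr1 : ∀ {ρ}, ρ ≤ Real.exp (lt - a) → τ * ρ ≤ Real.exp lt := by
    intro ρ h0
    have : Real.exp lt = τ * Real.exp (lt - a) := by rw [← he]; congr 1; ring
    rw [this]; gcongr
  rw [← hτdef] at hA hη' ⊢
  have hYn : ∀ ω y, ‖τ⁻¹ • Y ω - τ⁻¹ • y‖ ^ 2 = (τ ^ 2)⁻¹ * ‖Y ω - y‖ ^ 2 := by
    intro ω y
    rw [← smul_sub, norm_smul, norm_inv, Real.norm_of_nonneg hτ.le, mul_pow, inv_pow]
  have hY0 : ∀ ω, ‖τ⁻¹ • Y ω‖ ^ 2 = (τ ^ 2)⁻¹ * ‖Y ω‖ ^ 2 := by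
    intro ω
    rw [norm_smul, norm_inv, Real.norm_of_nonneg hτ.le, mul_pow, inv_pow]
  have hHH : ∀ z ρ, HH (ENNReal.ofReal (τ ^ m)⁻¹ • ν) (fun ω => τ⁻¹ • X ω) (fun ω => τ⁻¹ • Y ω) z ρ =
      (τ ^ m)⁻¹ * ((τ ^ 2)⁻¹ * HH ν X Y (τ • z) (τ * ρ)) := by
    intro z ρ
    unfold HH
    rw [int_smul hκ, BB_smul hτ, ← integral_const_mul]
    simp only [hY0, integral_const_mul]
  have hsm := h.fin
  refine ⟨⟨?_⟩, h.mX.const_smul _, (h.mY.const_smul τ⁻¹).smul_measure _, h.mT.smul_measure _, ?_,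
    h.φc, h.φ0, h.φ1, h.φin, h.φout, ?_, ?_, ?_, ?_, ?_, ?_, ?_, ?_, ?_, ?_, ?_⟩
  · rw [Measure.smul_apply, smul_eq_mul]
    exact ENNReal.mul_lt_top ENNReal.ofReal_lt_top (measure_lt_top ν univ)
  · obtain ⟨K, hK⟩ := h.bd
    refine ⟨max K (τ⁻¹ * K), ?_⟩
    refine Measure.ae_smul_measure ?_ _
    filter_upwards [hK] with ω hω
    refine ⟨?_, ?_, hω.2.2.trans (le_max_left _ _)⟩
    · rw [norm_smul, norm_inv, Real.norm_of_nonneg hτ.le]
      exact le_trans (by gcongr; exact hω.1) (le_max_right _ _)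
    · rw [norm_smul, norm_inv, Real.norm_of_nonneg hτ.le]
      exact le_trans (by gcongr; exact hω.2.1) (le_max_right _ _)
  · intro z hz
    exact fd_mono (fd_resc (h.fd _ (hA z hz)) (by positivity) a) hη hη1 hηη le_rfl le_rfl
  · intro z hz
    have h1 := h.top _ (hA z hz)
    unfold NN at h1 ⊢
    show 2 * ((τ ^ 2)⁻¹ * F (τ • z) (lt - a + a)) / ((τ ^ 2)⁻¹ * I (τ • z) (lt - a + a)) ≤ C
    rw [sub_add_cancel, mul_left_comm, mul_div_mul_left _ _ (by positivity)]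
    exact h1
  · intro z hz l hl
    have h1 := h.up _ (hA z hz) _ (hwin hl)
    rw [he, mul_pow] at h1
    rw [int_smul hκ, BB_smul hτ]
    simp only [hYn, integral_const_mul]
    calc Real.exp l ^ m * ((τ ^ 2)⁻¹ * I (τ • z) (l + a)) =
          (τ ^ m)⁻¹ * (τ ^ 2)⁻¹ * (τ ^ m * Real.exp l ^ m * I (τ • z) (l + a)) := by field_simp
      _ ≤ (τ ^ m)⁻¹ * (τ ^ 2)⁻¹ * (C * ∫ ω in BB X (τ • z) (τ * Real.exp l),
            ‖Y ω - c (τ • z)‖ ^ 2 ∂ν) := by gcongr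
      _ = _ := by ring
  · intro z hz l hl
    have h1 := h.lo _ (hA z hz) _ (hwin hl)
    rw [he, mul_pow] at h1
    rw [int_smul hκ, BB_smul hτ]
    simp only [hYn, integral_const_mul]
    rw [← mul_div_assoc]
    calc (τ ^ m)⁻¹ * ((τ ^ 2)⁻¹ * ∫ ω in BB X (τ • z) (τ * Real.exp l / 2),
            ‖Y ω - c (τ • z)‖ ^ 2 ∂ν) ≤
          (τ ^ m)⁻¹ * ((τ ^ 2)⁻¹ * (C * (τ ^ m * Real.exp l ^ m * I (τ • z) (l + a)))) := by gcongr
      _ = _ := by field_simp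
  · intro z hz l hl α h0 h1
    have h1 := h.J _ (hA z hz) _ (hwin hl) α h0 h1
    rw [he, mul_pow] at h1
    rw [int_smul hκ, BB_smul hτ, ← mul_div_assoc]
    have h2 : ∀ ω, ‖er (T ω) (τ⁻¹ • X ω) z (τ⁻¹ • Y ω) (τ⁻¹ • c (τ • z)) α‖ ^ 2 =
        (τ ^ 2)⁻¹ * ‖er (T ω) (X ω) (τ • z) (Y ω) (c (τ • z)) α‖ ^ 2 := by
      intro ω
      have h3 : er (T ω) (τ⁻¹ • X ω) z (τ⁻¹ • Y ω) (τ⁻¹ • c (τ • z)) α =
          τ⁻¹ • er (T ω) (X ω) (τ • z) (Y ω) (c (τ • z)) α := by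
        unfold er
        have h4 : τ⁻¹ • X ω - z = τ⁻¹ • (X ω - τ • z) := by
          rw [smul_sub, smul_smul, inv_mul_cancel₀ hτ.ne', one_smul]
        rw [h4, map_smul, ← smul_sub, smul_comm α, ← smul_sub]
      rw [h3, norm_smul, norm_inv, Real.norm_of_nonneg hτ.le, mul_pow, inv_pow]
    simp only [h2, integral_const_mul]
    have hI := (h.fd _ (hA z hz)).pos _ (hwin hl)
    calc (τ ^ m)⁻¹ * ((τ ^ 2)⁻¹ * ∫ ω in BB X (τ • z) (τ * Real.exp l / 2),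
            ‖er (T ω) (X ω) (τ • z) (Y ω) (c (τ • z)) α‖ ^ 2 ∂ν) ≤
          (τ ^ m)⁻¹ * ((τ ^ 2)⁻¹ * (τ ^ m * Real.exp l ^ m * (C * (R (τ • z) (l + a) -
            2 * α * e (τ • z) (l + a) + α ^ 2 * I (τ • z) (l + a)) + η' * I (τ • z) (l + a)))) := by
            gcongr
            refine h1.trans ?_
            gcongr
      _ = _ := by field_simp
  · intro z hz ρ h0 h1
    have h2 := h.sup _ (hA z hz) _ (hr0 h0) (hr1 h1)
    refine Measure.ae_smul_measure ?_ _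
    filter_upwards [h2] with ω hω hb
    rw [BB_smul hτ] at hb
    have h3 := hω hb
    rw [hY0, hHH]
    have e1 : τ * (2 * ρ) = 2 * (τ * ρ) := by ring
    rw [e1]
    calc (τ ^ 2)⁻¹ * ‖Y ω‖ ^ 2 * ρ ^ m = (τ ^ m)⁻¹ * (τ ^ 2)⁻¹ * (‖Y ω‖ ^ 2 * (τ * ρ) ^ m) := by
          rw [mul_pow]; field_simp
      _ ≤ (τ ^ m)⁻¹ * (τ ^ 2)⁻¹ * (C * HH ν X Y (τ • z) (2 * (τ * ρ))) := by gcongr
      _ = _ := by ring
  · intro z hz ρ h0 h1
    have h2 := h.hgt _ (hA z hz) _ (hr0 h0) (hr1 h1)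
    rw [hHH, norm_smul, norm_inv, Real.norm_of_nonneg hτ.le, mul_pow, inv_pow]
    calc (τ ^ 2)⁻¹ * ‖c (τ • z)‖ ^ 2 * ρ ^ m =
          (τ ^ m)⁻¹ * (τ ^ 2)⁻¹ * (‖c (τ • z)‖ ^ 2 * (τ * ρ) ^ m) := by
          rw [mul_pow]; field_simp
      _ ≤ (τ ^ m)⁻¹ * (τ ^ 2)⁻¹ * (C * HH ν X Y (τ • z) (τ * ρ)) := by gcongr
      _ = _ := by ring
  · intro z hz ρ h0 h1
    have h2 := h.mass _ (hA z hz) _ (hr0 h0) (hr1 h1)
    rw [real_smul hκ, BB_smul hτ]
    calc (τ ^ m)⁻¹ * ν.real (BB X (τ • z) (τ * ρ)) ≤ (τ ^ m)⁻¹ * (C * (τ * ρ) ^ m) := by gcongr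
      _ = _ := by rw [mul_pow]; field_simp
  · intro z hz ρ h0 h1
    have h2 := h.massl _ (hA z hz) _ (hr0 h0) (hr1 h1)
    rw [real_smul hκ, BB_smul hτ]
    calc ρ ^ m = (τ ^ m)⁻¹ * (τ * ρ) ^ m := by rw [mul_pow]; field_simp
      _ ≤ (τ ^ m)⁻¹ * (C * ν.real (BB X (τ • z) (τ * ρ))) := by gcongr
      _ = _ := by ring
  · intro z hz ρ h0 h1 u hu t w hw
    have h2 := h.slab _ (hA z hz) _ (hr0 h0) (hr1 h1) u hu (τ * t) w hw
    rw [real_smul hκ]
    have h3 : {ω | ‖τ⁻¹ • X ω - z‖ < ρ ∧ |⟪u, τ⁻¹ • X ω - z⟫ - t| ≤ w * ρ} =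
        {ω | ‖X ω - τ • z‖ < τ * ρ ∧ |⟪u, X ω - τ • z⟫ - τ * t| ≤ w * (τ * ρ)} := by
      ext ω
      simp only [Set.mem_ofPred_eq]
      have h4 : τ⁻¹ • X ω - z = τ⁻¹ • (X ω - τ • z) := by
        rw [smul_sub, smul_smul, inv_mul_cancel₀ hτ.ne', one_smul]
      have h5 : τ⁻¹ * ⟪u, X ω - τ • z⟫ - t = τ⁻¹ * (⟪u, X ω - τ • z⟫ - τ * t) := by
        field_simp
      rw [h4, norm_smul, norm_inv, Real.norm_of_nonneg hτ.le, inv_mul_lt_iff₀ hτ,
        inner_smul_right, h5, abs_mul, abs_inv, abs_of_pos hτ, inv_mul_le_iff₀ hτ]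
      constructor
      · rintro ⟨a1, a2⟩; exact ⟨a1, by linarith⟩
      · rintro ⟨a1, a2⟩; exact ⟨a1, by linarith⟩
    rw [h3]
    have hρ : 0 ≤ ρ := (Real.exp_pos _).le.trans h0
    calc (τ ^ m)⁻¹ * ν.real {ω | ‖X ω - τ • z‖ < τ * ρ ∧ |⟪u, X ω - τ • z⟫ - τ * t| ≤ w * (τ * ρ)}
        ≤ (τ ^ m)⁻¹ * (C * (w + η') * (τ * ρ) ^ m) := by
          gcongr
          refine h2.trans ?_
          gcongr
      _ = _ := by rw [mul_pow]; field_simp
  · intro z hz ρ h0 h1 a₀ a₁ b₀ B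
    have h2 := h.bar _ (hA z hz) _ (hr0 h0) (hr1 h1) a₀ (τ⁻¹ • a₁) b₀ (τ⁻¹ • B)
    have h3 : ∀ ω, φ (‖τ⁻¹ • X ω - z‖ ^ 2 / ρ ^ 2) *
        ((a₀ + ⟪a₁, τ⁻¹ • X ω - z⟫) * ⟪b₀ + B (τ⁻¹ • X ω - z), τ⁻¹ • Y ω⟫) =
        τ⁻¹ * (φ (‖X ω - τ • z‖ ^ 2 / (τ * ρ) ^ 2) *
          ((a₀ + ⟪τ⁻¹ • a₁, X ω - τ • z⟫) * ⟪b₀ + (τ⁻¹ • B) (X ω - τ • z), Y ω⟫)) := by
      intro ω
      have h4 : τ⁻¹ • X ω - z = τ⁻¹ • (X ω - τ • z) := by
        rw [smul_sub, smul_smul, inv_mul_cancel₀ hτ.ne', one_smul]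
      have h5 : ‖τ⁻¹ • (X ω - τ • z)‖ ^ 2 / ρ ^ 2 = ‖X ω - τ • z‖ ^ 2 / (τ * ρ) ^ 2 := by
        rw [norm_smul, norm_inv, Real.norm_of_nonneg hτ.le, mul_pow, inv_pow, mul_pow]
        field_simp
      rw [h4, h5, inner_smul_right, map_smul, inner_smul_right, real_inner_smul_left,
        _root_.smul_apply]
      ring
    simp only [h3, integral_const_mul]
    rw [integral_smul_measure, ENNReal.toReal_ofReal hκ, smul_eq_mul, abs_mul, abs_mul,
      abs_of_pos (inv_pos.2 hτ), abs_of_nonneg hκ]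
    have hI : √(I (τ • z) lt) = τ * √((τ ^ 2)⁻¹ * I (τ • z) (lt - a + a)) := by
      rw [sub_add_cancel, ← Real.sqrt_sq hτ.le, ← Real.sqrt_mul (by positivity), Real.sqrt_sq hτ.le]
      congr 1
      field_simp
    rw [hI] at h2
    set S := √((τ ^ 2)⁻¹ * I (τ • z) (lt - a + a)) with hS
    have hS0 : 0 ≤ S := Real.sqrt_nonneg _
    have h6 : |a₀| + ‖τ⁻¹ • a₁‖ ≤ τ⁻¹ * (|a₀| + ‖a₁‖) := by
      rw [norm_smul, norm_inv, Real.norm_of_nonneg hτ.le, mul_add]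
      have : |a₀| ≤ τ⁻¹ * |a₀| := le_mul_of_one_le_left (abs_nonneg _) ((one_le_inv₀ hτ).2 hτ1)
      linarith
    have h7 : ‖b₀‖ + ‖τ⁻¹ • B‖ ≤ τ⁻¹ * (‖b₀‖ + ‖B‖) := by
      rw [norm_smul, norm_inv, Real.norm_of_nonneg hτ.le, mul_add]
      have : ‖b₀‖ ≤ τ⁻¹ * ‖b₀‖ := le_mul_of_one_le_left (norm_nonneg _) ((one_le_inv₀ hτ).2 hτ1)
      linarith
    calc _ ≤ τ⁻¹ * ((τ ^ m)⁻¹ * (η * (|a₀| + ‖τ⁻¹ • a₁‖) * (‖b₀‖ + ‖τ⁻¹ • B‖) * (τ * S))) := by
          gcongr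
      _ ≤ τ⁻¹ * ((τ ^ m)⁻¹ * (η * (τ⁻¹ * (|a₀| + ‖a₁‖)) * (τ⁻¹ * (‖b₀‖ + ‖B‖)) * (τ * S))) := by
          gcongr
      _ = (η * (τ ^ (m + 2))⁻¹) * (|a₀| + ‖a₁‖) * (‖b₀‖ + ‖B‖) * S := by
          rw [pow_add]; field_simp
      _ ≤ _ := by gcongr

end Crest.Agent.R234.Pin6_3
end

-- ▼ part R234/Pin7_3

/-!
R234 (helper3), VF-PIN part 7: content step and assembly `PinData → Main_456.Pin`.
-/

open MeasureTheory Set Metric
open scoped RealInnerProductSpace ENNReal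

namespace Crest.Agent.R234.Pin7_3

set_option linter.unusedSectionVars false
set_option linter.unusedVariables false

open Crest.Agent.R234.Pin1_3 Crest.Agent.R234.Pin2_3 Crest.Agent.R234.Pin3_3
open Crest.Agent.R234.Pin6_3
open Crest.GeometryTopology.Submanifold Crest.Agent.R234.Vf_884
open Crest.Agent.R234.Main_456 Crest.Agent.R234.Sp1_643

/-- lifting of a covering of the feet to the points. -/
theorem cov_lift {m n : ℕ} {π : Euc (m + n) →L[ℝ] Euc m} {ρ : Euc (m + n) →L[ℝ] Euc n}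
    (hf : Frame π ρ) {x : Euc (m + n)} {r τ ρ₀ N : ℝ} (hr : 0 < r) (hτ : 0 < τ) (hρ₀ : 0 < ρ₀)
    {t : Set (Euc (m + n))} (hh : ∀ z ∈ t, ∀ z' ∈ t, ‖ρ (z - z')‖ ≤ τ * ρ₀ * r)
    (hcov : Cov {y : Euc m | τ • y ∈ (fun p => r⁻¹ • π (p - x)) '' t} N ρ₀) :
    Cov t N (2 * τ * r * ρ₀) := by
  classical
  obtain ⟨T, h1, h2, h3⟩ := hcov
  refine ⟨T.image (fun a => {p ∈ t | τ⁻¹ • r⁻¹ • π (p - x) ∈ a}), ?_, ?_, ?_⟩
  · exact le_trans (by exact_mod_cast Finset.card_image_le) h1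
  · intro a ha
    obtain ⟨a, haT, rfl⟩ := Finset.mem_image.1 ha
    refine ⟨fun p hp => hp.1, ?_⟩
    rintro y ⟨hy, hya⟩ z ⟨hz, hza⟩
    have h4 := (h2 a haT).2 _ hya _ hza
    have h5 : τ⁻¹ • r⁻¹ • π (y - x) - τ⁻¹ • r⁻¹ • π (z - x) = (τ⁻¹ * r⁻¹) • π (y - z) := by
      rw [← smul_sub, ← smul_sub, ← map_sub, smul_smul]
      congr 2
      abel
    rw [dist_eq_norm, h5, norm_smul, norm_mul, norm_inv, norm_inv, Real.norm_of_nonneg hτ.le,
      Real.norm_of_nonneg hr.le] at h4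
    have h6 : ‖π (y - z)‖ ≤ τ * ρ₀ * r := by
      calc ‖π (y - z)‖ = τ * r * (τ⁻¹ * r⁻¹ * ‖π (y - z)‖) := by field_simp
        _ ≤ τ * r * ρ₀ := by gcongr
        _ = _ := by ring
    have h7 := F11_435.frame_norm_sq hf (y - z)
    rw [dist_eq_norm]
    refine abs_le_of_sq_le_sq' ?_ (by positivity) |>.2
    have h8 := hh y hy z hz
    have h9 : ‖π (y - z)‖ ^ 2 ≤ (τ * ρ₀ * r) ^ 2 := by gcongr
    have h10 : ‖ρ (y - z)‖ ^ 2 ≤ (τ * ρ₀ * r) ^ 2 := by gcongr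
    nlinarith [sq_nonneg (τ * ρ₀ * r)]
  · intro y hy
    obtain ⟨a, haT, hya⟩ := h3 (τ⁻¹ • r⁻¹ • π (y - x)) (by
      refine ⟨y, hy, ?_⟩
      show r⁻¹ • π (y - x) = τ • τ⁻¹ • r⁻¹ • π (y - x)
      rw [smul_smul τ, mul_inv_cancel₀ hτ.ne', one_smul])
    exact ⟨_, Finset.mem_image.2 ⟨a, haT, rfl⟩, hy, hya⟩

/-- `Main_456.Pin` for fixed `m, n, K`. -/
def PinK (m n K : ℕ) : Prop :=
  ∀ (Q : ℕ) (s c C : ℝ), 2 ≤ Q → (m : ℝ) - 1 < s → 0 < c →
    ∃ ε : ℝ, 0 < ε ∧ ∀ (U : Set (Euc (m + n))), IsOpen U → ∀ D : VarifoldData m (m + n),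
      IsIntegralVarifoldIn U D → IsStationaryIn U D → ∀ (x : Euc (m + n)) (r : ℝ), 0 < r →
        Metric.closedBall x (128 * r) ⊆ U → Th m (VD D) x = (Q : ℝ≥0∞) →
        ENNReal.ofReal c * ENNReal.ofReal r ^ s ≤
          Fa_694.cont s ({y | (Q : ℝ≥0∞) ≤ Th m (VD D) y} ∩ Metric.closedBall x r) →
        ∀ (π : Euc (m + n) →L[ℝ] Euc m) (ρ : Euc (m + n) →L[ℝ] Euc n) (u : Euc m → Euc n),
          ¬ Ref (VD D) Q x r π ρ u K ε C

/-- `Main_456.Dbl` for fixed `m, n, K`. -/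
def DblK (m n K : ℕ) : Prop :=
  ∀ (U : Set (Euc (m + n))), IsOpen U →
    ∀ D : VarifoldData m (m + n), IsIntegralVarifoldIn U D → IsStationaryIn U D →
      ∀ (s : ℝ) (Q : ℕ) (c : ℝ) (x : Euc (m + n)) (r : ℕ → ℝ) (P : ℕ → L (m + n)),
        Sel m (m + n) U D s Q c x r P → ∃ C : ℝ, ∀ ε : ℝ, 0 < ε → ∃ᶠ i in Filter.atTop,
          ∃ (π : Euc (m + n) →L[ℝ] Euc m) (ρ : Euc (m + n) →L[ℝ] Euc n) (u : Euc m → Euc n),
            Ref (VD D) Q x (r i) π ρ u K ε C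

/-- **the pinching node from the V-level data**, fixed `K`. -/
theorem pinK_of {m n K : ℕ} (hm : 3 ≤ m) (hn : 1 ≤ n) (hK : PinDataK m n K) : PinK m n K := by
  intro Q s c C hQ hs hc
  obtain ⟨C', hC', hdat⟩ := hK Q C hQ
  have hm1 : 1 ≤ m := by omega
  have hs' : ((m - 1 : ℕ) : ℝ) < s := by
    rw [Nat.cast_sub hm1]; simpa using hs
  have hs0 : 0 < s := lt_of_le_of_lt (Nat.cast_nonneg _) hs'
  obtain ⟨Lt, hLt, hpin⟩ := Pin5_3.pin_false (E := Euc m) (W := Euc n) (m := m)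
    (by simp) hs' hm1
  obtain ⟨τ, hτdef⟩ : ∃ τ, τ = Real.exp (-3 - Lt) := ⟨_, rfl⟩
  have hτ : 0 < τ := by rw [hτdef]; exact Real.exp_pos _
  have hτ1 : τ ≤ 1 := by rw [hτdef]; exact Real.exp_le_one_iff.2 (by linarith)
  obtain ⟨N₁, hN₁def⟩ : ∃ N₁ : ℝ, N₁ = ((2 * (Module.finrank ℝ (Euc (m + n)) : ℝ) + 4) / τ) ^
    (Module.finrank ℝ (Euc (m + n))) := ⟨_, rfl⟩
  have hN₁ : 0 < N₁ := by rw [hN₁def]; positivity
  obtain ⟨lm, hlm, ρ₀, hρ₀, η, hη, hfalse⟩ := hpin (c / (2 * N₁ * (2 * τ) ^ s)) (by positivity) C' hC'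
  obtain ⟨η', hη'⟩ : ∃ η', η' = min (η * τ ^ (m + 2)) (min (1 / 2) (τ * ρ₀)) := ⟨_, rfl⟩
  have hη'0 : 0 < η' := by
    rw [hη']; exact lt_min (by positivity) (lt_min (by norm_num) (by positivity))
  have hη'1 : η' ≤ η * τ ^ (m + 2) := by rw [hη']; exact min_le_left _ _
  have hη'2 : η' ≤ 1 / 2 := by rw [hη']; exact (min_le_right _ _).trans (min_le_left _ _)
  have hη'3 : η' ≤ τ * ρ₀ := by rw [hη']; exact (min_le_right _ _).trans (min_le_right _ _)
  obtain ⟨ε, hε, hd⟩ := hdat (lm + (-3 - Lt)) η' (by linarith) hη'0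
  refine ⟨ε, hε, fun U hU D hD hst x r hr hxU hTh hcont π ρ u href => ?_⟩
  obtain ⟨hρ, hdata⟩ := hd U hU D hD hst x r hr hxU hTh π ρ u href
  obtain ⟨S, hS⟩ : ∃ S, S = {y | (Q : ℝ≥0∞) ≤ Th m (VD D) y} ∩ closedBall x r := ⟨_, rfl⟩
  rw [← hS] at hcont
  have hcov := cov_ball (S := S) (x := x) hr hτ hτ1 (by rw [hS]; exact inter_subset_right)
  rw [← hN₁def] at hcov
  obtain ⟨Tc, h1, h2, h3⟩ := hcov
  -- the pieces have small content
  have key : ∀ t ∈ Tc, Fa_694.cont s t ≤ ENNReal.ofReal (c / (2 * N₁) * r ^ s) := by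
    intro t ht
    have hd1 := (h2 t ht).2
    have htS := (h2 t ht).1
    rw [hS] at htS
    obtain ⟨zh, hzh⟩ : ∃ zh : Euc m → Euc (m + n), ∀ a ∈ (fun p => r⁻¹ • π (p - x)) '' t,
        zh a ∈ t ∧ r⁻¹ • π (zh a - x) = a := by
      refine ⟨Function.invFunOn (fun p => r⁻¹ • π (p - x)) t, fun a ha => ?_⟩
      exact ⟨Function.invFunOn_mem ha, Function.invFunOn_eq ha⟩
    obtain ⟨Ω, mΩ, ν, X, Y, T, cc, F, I, e, b, R, φ, hData⟩ := hdata
      ((fun p => r⁻¹ • π (p - x)) '' t) zh (fun a ha =>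
        ⟨(htS (hzh a ha).1).2, (htS (hzh a ha).1).1, (hzh a ha).2⟩)
    have hData2 := Data.resc hData (by linarith) hη'0.le (a := -3 - Lt) (η' := η) (by linarith) (by
      rw [← hτdef]
      rw [← div_eq_mul_inv, div_le_iff₀ (by positivity)]
      exact hη'1) hη'2 {y : Euc m | τ • y ∈ (fun p => r⁻¹ • π (p - x)) '' t}
      (by intro y hy; rw [← hτdef]; exact hy)
    have e1 : lm + (-3 - Lt) - (-3 - Lt) = lm := by ring
    have e2 : (-3:ℝ) - (-3 - Lt) = Lt := by ring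
    rw [e1, e2] at hData2
    by_contra hcon
    refine hfalse Ω _ _ _ T _ _ _ _ _ _ _ φ ?_ ?_ hData2
    · rintro y ⟨p, hp, hpy⟩ z ⟨q, hq, hqz⟩
      have h4 : τ * dist y z ≤ τ * 1 := by
        calc τ * dist y z = ‖τ • y - τ • z‖ := by
              rw [← smul_sub, norm_smul, Real.norm_of_nonneg hτ.le, dist_eq_norm]
          _ = ‖r⁻¹ • π (p - q)‖ := by
              rw [← hpy, ← hqz]
              show ‖r⁻¹ • π (p - x) - r⁻¹ • π (q - x)‖ = _
              rw [← smul_sub, ← map_sub]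
              congr 3
              abel
          _ = r⁻¹ * ‖π (p - q)‖ := by rw [norm_smul, norm_inv, Real.norm_of_nonneg hr.le]
          _ ≤ r⁻¹ * dist p q := by
              rw [dist_eq_norm]
              gcongr
              exact F11_435.norm_pi_le href.frame _
          _ ≤ r⁻¹ * (τ * r) := by gcongr; exact hd1 p hp q hq
          _ = τ * 1 := by field_simp
      exact le_of_mul_le_mul_left h4 hτ
    · intro N hN hcovN
      by_contra hlt
      rw [not_le] at hlt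
      apply hcon
      have hlift := cov_lift href.frame hr hτ hρ₀ (t := t) (by
        intro z hz z' hz'
        refine (hρ z (htS hz).2 z' (htS hz').2 (htS hz).1 (htS hz').1).trans ?_
        gcongr) hcovN
      refine (Fa_694.cont_le_of_cov hs0 hlift).trans ?_
      rw [ENNReal.ofReal_rpow_of_nonneg (by positivity) hs0.le, ← ENNReal.ofReal_mul hN]
      apply ENNReal.ofReal_le_ofReal
      have e3 : (2 * τ * r * ρ₀) ^ s = (2 * τ) ^ s * r ^ s * ρ₀ ^ s := by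
        rw [Real.mul_rpow (by positivity) hρ₀.le, Real.mul_rpow (by positivity) hr.le]
      rw [e3]
      have h2τ : 0 < (2 * τ) ^ s := by positivity
      have hrs : 0 < r ^ s := by positivity
      calc N * ((2 * τ) ^ s * r ^ s * ρ₀ ^ s) = (2 * τ) ^ s * r ^ s * (N * ρ₀ ^ s) := by ring
        _ ≤ (2 * τ) ^ s * r ^ s * (c / (2 * N₁ * (2 * τ) ^ s)) := by gcongr
        _ = _ := by field_simp
  have hsum : Fa_694.cont s S ≤ ENNReal.ofReal (c / 2 * r ^ s) := by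
    calc Fa_694.cont s S ≤ Fa_694.cont s (⋃ t : Tc, (t : Set (Euc (m + n)))) := by
          apply Fa_694.cont_mono
          intro y hy
          obtain ⟨t, ht, hyt⟩ := h3 y hy
          exact mem_iUnion.2 ⟨⟨t, ht⟩, hyt⟩
      _ ≤ ∑' t : Tc, Fa_694.cont s (t : Set (Euc (m + n))) := Fa_694.cont_iUnion_le hs0 _
      _ ≤ ∑' _t : Tc, ENNReal.ofReal (c / (2 * N₁) * r ^ s) :=
          ENNReal.tsum_le_tsum fun t => key t t.2
      _ = (Tc.card : ℝ≥0∞) * ENNReal.ofReal (c / (2 * N₁) * r ^ s) := by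
          rw [tsum_fintype, Finset.sum_const, nsmul_eq_mul]
          simp
      _ = ENNReal.ofReal (Tc.card * (c / (2 * N₁) * r ^ s)) := by
          rw [ENNReal.ofReal_mul (Nat.cast_nonneg _), ENNReal.ofReal_natCast]
      _ ≤ _ := by
          apply ENNReal.ofReal_le_ofReal
          have hrs : 0 < r ^ s := by positivity
          calc (Tc.card : ℝ) * (c / (2 * N₁) * r ^ s) ≤ N₁ * (c / (2 * N₁) * r ^ s) := by gcongr
            _ = _ := by field_simp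
  have hlast := hcont.trans hsum
  rw [ENNReal.ofReal_rpow_of_nonneg hr.le hs0.le, ← ENNReal.ofReal_mul hc.le] at hlast
  have hrs : 0 < r ^ s := by positivity
  have h5 := (ENNReal.ofReal_le_ofReal_iff (by positivity)).1 hlast
  nlinarith [mul_pos hc hrs]


/-- the SUCP stage from `DblK` and `PinK` for all large `K`. -/
theorem noSelK (h1 : ∀ m n : ℕ, 3 ≤ m → 1 ≤ n → ∃ K₀ : ℕ, ∀ K : ℕ, K₀ ≤ K → DblK m n K)
    (h2 : ∀ m n : ℕ, 3 ≤ m → 1 ≤ n → ∃ K₁ : ℕ, ∀ K : ℕ, K₁ ≤ K → PinK m n K) : NoSel := by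
  intro m n hm hn U hU D hD hs s Q c x r P hsel
  obtain ⟨K₀, hK₀⟩ := h1 m n hm hn
  obtain ⟨K₁, hK₁⟩ := h2 m n hm hn
  obtain ⟨C, hC⟩ := hK₀ (max K₀ K₁) (le_max_left _ _) U hU D hD hs s Q c x r P hsel
  obtain ⟨ε, hε, hpin⟩ := hK₁ (max K₀ K₁) (le_max_right _ _) Q s c C hsel.hQ hsel.hs hsel.hc
  have hxU : x ∈ U := hsel.mem.1.1
  obtain ⟨R, hR, hRU⟩ := Metric.isOpen_iff.1 hU x hxU
  have hev : ∀ᶠ i in Filter.atTop, 128 * r i < R := by
    have h := hsel.lim.const_mul 128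
    rw [mul_zero] at h
    exact h.eventually (gt_mem_nhds hR)
  obtain ⟨i, ⟨π, ρ, u, href⟩, hi⟩ := ((hC ε hε).and_eventually hev).exists
  refine hpin U hU D hD hs x (r i) (hsel.pos i) ?_ hsel.mem.2 ?_ π ρ u href
  · exact (Metric.closedBall_subset_ball hi).trans hRU
  · refine (hsel.cont i).trans (Fa_694.cont_mono s ?_)
    rintro y ⟨⟨_, hy⟩, hyx⟩
    exact ⟨hy.ge, hyx⟩

/-- the SUCP stage from `DblK` for all large `K` and `PinData`. -/
theorem noSel_of_pinData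
    (h1 : ∀ m n : ℕ, 3 ≤ m → 1 ≤ n → ∃ K₀ : ℕ, ∀ K : ℕ, K₀ ≤ K → DblK m n K)
    (h2 : PinData) : NoSel :=
  noSelK h1 fun m n hm hn => by
    obtain ⟨K₁, hK₁⟩ := h2 m n hm hn
    exact ⟨K₁, fun K hK => pinK_of hm hn (hK₁ K hK)⟩

end Crest.Agent.R234.Pin7_3
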