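import Crest.Agent.R234.Up1_456
import Crest.Agent.R234.Mv1_504_Mg
import Crest.Agent.R234.Thya1_685
import Crest.Agent.R234.F11c_188
import Crest.Agent.R234.Top9_395
import Crest.Agent.R234.Nr1_884
import Crest.Agent.R234.F10w_188
import Crest.Agent.R234.Top7_395
import Crest.Agent.R234.Mx17_397

-- ▼ part R234/Up2_456
section

/-!
# Row 234, (F8) START (helper456): `UpV`, part 2

* `reg_sub_ball4`, `mass_reg4` : the region and its mass
* **`upV : F10w_188.UpV`**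
-/

set_option autoImplicit false
set_option linter.unusedVariables false

open MeasureTheory Filter Topology Set
open scoped ENNReal NNReal ContDiff InnerProductSpace
open Crest.GeometryTopology.Submanifold Crest.Agent.R234.Vf_884
open Crest.Agent.R234.Main_456 (Frame Msys hgt)
open Crest.Agent.R234.MG_570 (MG)
open Crest.Agent.R234.Gi_456
open Crest.Agent.R234.GL_394 (Ok On VK II)
open Crest.Agent.R234.GI_640 (g3 g31)
open Crest.Agent.R234.Stp_518
open Crest.Agent.R234.Lvs_214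
open Crest.Agent.R234.End_395 (Cmp cmp_ch ig norm_x_le le_norm_x x_eq)

noncomputable section

namespace Crest.Agent.R234.Up_456

variable {m n k : ℕ}

local notation "adj" => ContinuousLinearMap.adjoint

theorem reg_sub_ball4 {M : Mo m n k} {a : ℝ} (h : Wb M a) {x : Euc k} (hf : Frame M.π M.ρ) :
    M.reg x ⊆ Metric.ball x (4 * M.S) := by
  have hS := M.S_pos
  intro z hz
  have h1 := h.gr.Kc_subset_closedBall hf (x := x) (0 : Euc m) (R := 2 * M.S) (t := M.S / 2)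
    (by linarith) hz
  rw [mem_closedBall_iff_norm] at h1
  rw [mem_ball_iff_norm]
  have e : z - x = (z - pm M.π M.ρ x M.w 0) + adj M.ρ (M.w 0) := by
    rw [pm, map_zero]; abel
  have h2 : ‖adj M.ρ (M.w 0)‖ = ‖M.w 0‖ := norm_adj_rho hf _
  have h3 := h.w_le 0
  have h4 : a * M.S ≤ 1 / 8 * M.S := mul_le_mul_of_nonneg_right h.a8 hS.le
  have h5 := norm_add_le (z - pm M.π M.ρ x M.w 0) (adj M.ρ (M.w 0))
  rw [e]
  linarith

/-- mass of a ball from the ratio -/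
theorem real_ball_le {V : Measure (Euc k × L k)} {x : Euc k} {q r : ℝ} (hr : 0 < r) (hq : 0 ≤ q)
    (h1 : rat m V x r ≤ ENNReal.ofReal q) :
    V.real (Metric.ball x r ×ˢ univ) ≤ q * (ome m * r ^ m) := by
  unfold rat at h1
  rw [ENNReal.div_le_iff_le_mul (Or.inl (by
    rw [ne_eq, ENNReal.ofReal_eq_zero, not_le]; exact den_pos m hr))
    (Or.inl ENNReal.ofReal_ne_top), mass_apply V Metric.isOpen_ball.measurableSet,
    ← prod_univ_eq, ← ENNReal.ofReal_mul hq] at h1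
  have h2 := ENNReal.toReal_mono ENNReal.ofReal_ne_top h1
  rwa [ENNReal.toReal_ofReal (by
    have := den_pos m hr; positivity)] at h2

/-- integral comparison -/
theorem int_cmp {V : Measure (Euc k × L k)} {E E' : Set (Euc k × L k)} (hE : MeasurableSet E)
    (hE' : MeasurableSet E') {F F' : Euc k × L k → ℝ} (hF : IntegrableOn F E V)
    (hF' : IntegrableOn F' E' V) (hF0 : ∀ p, 0 ≤ F p) {a b : ℝ} (ha : 0 ≤ a)
    (hfin : V E' ≠ ⊤)
    (hle : ∀ᵐ p ∂(V.restrict E'), F' p ≤ a * E.indicator F p + b) :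
    ∫ p in E', F' p ∂V ≤ a * ∫ p in E, F p ∂V + b * V.real E' := by
  have hi : Integrable (E.indicator F) V := (integrable_indicator_iff hE).2 hF
  have hi' : Integrable (E.indicator F) (V.restrict E') := hi.integrableOn
  have hfm : IsFiniteMeasure (V.restrict E') := ⟨by
    rw [Measure.restrict_apply_univ]; exact lt_top_iff_ne_top.2 hfin⟩
  have h0 : ∀ p, 0 ≤ E.indicator F p := fun p => indicator_nonneg (fun p _ => hF0 p) p
  calc ∫ p in E', F' p ∂V ≤ ∫ p in E', (a * E.indicator F p + b) ∂V :=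
        integral_mono_ae hF' ((hi'.const_mul a).add (integrable_const b)) hle
    _ = a * ∫ p in E', E.indicator F p ∂V + b * V.real E' := by
        rw [integral_add (hi'.const_mul a) (integrable_const b), integral_const_mul,
          integral_const, smul_eq_mul, measureReal_restrict_apply_univ, mul_comm b]
    _ ≤ a * ∫ p, E.indicator F p ∂V + b * V.real E' := by
        have := setIntegral_le_integral (s := E') hi (Eventually.of_forall h0)
        gcongr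
    _ = a * ∫ p in E, F p ∂V + b * V.real E' := by rw [integral_indicator hE]

/-- outside the ball the integrand vanishes -/
theorem ig_zero (c : GL_394.Ch m k) {l : ℝ} {p : Euc k × L k} (h : ¬ ‖c.x p.1‖ ≤ Real.exp l) :
    ig c g31 l p = 0 := by
  have h1 := GI_640.prof.k1.zero _ (GL_394.t_ge h)
  show (c.f p.1 * c.mu (c.x p.1)) * (-4 * g31 (Real.exp (-2 * l) * ‖c.x p.1‖ ^ 2)) = 0
  rw [h1]; ring

/-- final arithmetic -/
theorem fin_ar {m : ℕ} {l l₁ lb ε J J' T Cq : ℝ} (hε : 0 < ε) (hε4 : ε ≤ 1 / 4) (hJ : 0 ≤ J)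
    (hT : 0 ≤ T) (hCq : 0 ≤ Cq) (h1 : lb - 3 ≤ l₁) (h2 : l ≤ lb)
    (h : J' ≤ 54 / ε ^ 2 * J + 27 * T * (Cq * Real.exp lb ^ m)) :
    Real.exp (-m * l₁) * J' ≤ Real.exp (3 * m) * (54 + 27 * Cq) / ε ^ 2 *
      (Real.exp (-m * l) * J + T) := by
  have hm0 : (0 : ℝ) ≤ m := Nat.cast_nonneg m
  have e1 : Real.exp (-m * l₁) * J ≤ Real.exp (3 * m) * (Real.exp (-m * l) * J) := by
    rw [← mul_assoc, ← Real.exp_add]
    refine mul_le_mul_of_nonneg_right (Real.exp_le_exp.2 ?_) hJ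
    nlinarith
  have e2 : Real.exp (-m * l₁) * Real.exp lb ^ m ≤ Real.exp (3 * m) := by
    rw [← Real.exp_nat_mul, ← Real.exp_add]
    refine Real.exp_le_exp.2 ?_
    nlinarith
  have e3 : 1 ≤ 1 / ε ^ 2 := by
    rw [le_div_iff₀ (by positivity)]
    nlinarith
  have e4 : Real.exp (-m * l₁) * J' ≤ 54 / ε ^ 2 * (Real.exp (-m * l₁) * J) +
      27 * T * Cq * (Real.exp (-m * l₁) * Real.exp lb ^ m) := by
    calc Real.exp (-m * l₁) * J' ≤ Real.exp (-m * l₁) *
        (54 / ε ^ 2 * J + 27 * T * (Cq * Real.exp lb ^ m)) :=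
          mul_le_mul_of_nonneg_left h (Real.exp_pos _).le
      _ = _ := by ring
  have e5 : 54 / ε ^ 2 * (Real.exp (-m * l₁) * J) ≤
      54 / ε ^ 2 * (Real.exp (3 * m) * (Real.exp (-m * l) * J)) :=
    mul_le_mul_of_nonneg_left e1 (by positivity)
  have e6 : 27 * T * Cq * (Real.exp (-m * l₁) * Real.exp lb ^ m) ≤
      27 * T * Cq * Real.exp (3 * m) * (1 / ε ^ 2) := by
    calc _ ≤ 27 * T * Cq * Real.exp (3 * m) := mul_le_mul_of_nonneg_left e2 (by positivity)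
      _ ≤ _ := le_mul_of_one_le_right (by positivity) e3
  have hA : 0 ≤ Real.exp (-m * l) * J := by positivity
  have e7 : Real.exp (3 * m) * (54 + 27 * Cq) / ε ^ 2 * (Real.exp (-m * l) * J + T) =
      54 / ε ^ 2 * (Real.exp (3 * m) * (Real.exp (-m * l) * J)) +
      27 * T * Cq * Real.exp (3 * m) * (1 / ε ^ 2) +
      (27 * Cq * Real.exp (3 * m) / ε ^ 2 * (Real.exp (-m * l) * J) +
        54 * Real.exp (3 * m) / ε ^ 2 * T) := by
    ring
  have e8 : 0 ≤ 27 * Cq * Real.exp (3 * m) / ε ^ 2 * (Real.exp (-m * l) * J) +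
        54 * Real.exp (3 * m) / ε ^ 2 * T := by positivity
  rw [e7]
  linarith

/-- **`UpV`** -/
theorem upV : F10w_188.UpV := by
  intro m n k N Q Λ hm hN
  obtain ⟨C, hC1, HC⟩ := exists_wb m n hN
  have hC0 : 0 < C := by linarith
  have ho := ome_pos m
  refine ⟨1 / (8 * C), 1 / 16, Real.exp (3 * m) * (54 + 27 * ((Q + 1) * (ome m * 4 ^ m))),
    by positivity, by norm_num, by positivity, ?_⟩
  intro U D x ε₀ M M' l l₁ ε τ hB hκ hε₀ hπ hρ hlb hmg' hε hε4 hl1 hlb1 hτ0 hτ1 hτ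
  obtain ⟨π', ρ', lb', u', κ', K', Lb', Kb', Pb'⟩ := M'
  simp only at hπ hρ hlb hmg' hτ0 hτ1
  subst hπ hρ hlb
  set M' : Mo m n k := ⟨M.π, M.ρ, M.lb, u', κ', K', Lb', Kb', Pb'⟩ with hM'
  have hS := M.S_pos
  have h : Wb M (C * M.κ) := HC hB.κ0 (by
    rw [le_div_iff₀ (by positivity)] at hκ
    linarith) hB.mg
  have h' : Wb M' (C * (1 / (8 * C))) := HC (M := M') (κ := 1 / (8 * C)) (by positivity)
    (by field_simp; norm_num) hmg'
  have hf : Frame M.π M.ρ := hB.pack.frame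
  have hf' : Frame M'.π M'.ρ := hf
  have hV := stat_VD hB.int hB.st
  have hfin8 : (VD D) (Metric.closedBall x (8 * M.S) ×ˢ univ) < ⊤ :=
    hV.fin _ (isCompact_closedBall _ _) hB.sub
  have hreg4 : M'.reg x ⊆ Metric.ball x (4 * M.S) := reg_sub_ball4 h' hf'
  have hfin : (VD D) (M.reg x ×ˢ univ) < ⊤ :=
    lt_of_le_of_lt (measure_mono (Set.prod_mono (h.reg_sub_ball hf) le_rfl)) hfin8
  have hfin' : (VD D) (M'.reg x ×ˢ univ) < ⊤ :=
    lt_of_le_of_lt (measure_mono (Set.prod_mono (h'.reg_sub_ball hf') le_rfl)) hfin8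
  have hint := int_ig (h.ok hf (x := x)) hfin l
  have hint' := int_ig (h'.ok hf' (x := x)) hfin' l₁
  have hm1 : MeasurableSet (M.reg x ×ˢ (univ : Set (L k))) :=
    (h.measurableSet_reg x).prod MeasurableSet.univ
  have hm2 : MeasurableSet (M'.reg x ×ˢ (univ : Set (L k))) :=
    (h'.measurableSet_reg x).prod MeasurableSet.univ
  -- closeness of the graphs
  have g0 : ∀ X, ‖M'.w X - M.w X‖ ≤ τ * M.S := by
    intro X
    have e : M'.w X - M.w X = M.S • (u' (M.S⁻¹ • X) - M.u (M.S⁻¹ • X)) := by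
      rw [smul_sub]; rfl
    rw [e, norm_smul, Real.norm_of_nonneg hS.le, mul_comm]
    exact mul_le_mul_of_nonneg_right (hτ0 _) hS.le
  have g1 : ∀ X, ‖fderiv ℝ M'.w X - fderiv ℝ M.w X‖ ≤ τ := by
    intro X
    rw [h.dw, h'.dw]
    exact hτ1 _
  have hl : l ≤ M.lb := hB.hi.trans (by linarith)
  have hl' : l₁ ≤ M.lb := by linarith
  have hcM := h.cmp hf hl (x := x)
  have hcM' := h'.cmp hf' (l := l₁) hl' (x := x)
  have hw : ∀ X, ‖M.w X‖ ≤ 1 / 8 * M.S := fun X =>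
    (h.w_le X).trans (mul_le_mul_of_nonneg_right h.a8 hS.le)
  have key := int_cmp (V := VD D) hm1 hm2 (F := ig (M.ch x) g31 l) (F' := ig (M'.ch x) g31 l₁)
    hint hint' (fun p => Wb.ig_nonneg M x l p) (a := 54 / ε ^ 2) (b := 27 * (τ ^ 2 * M.S ^ 2))
    (by positivity) hfin'.ne (by
      filter_upwards [ae_restrict_of_ae hB.pack.supae, ae_restrict_mem hm2] with p hp1 hp2
      by_cases hx : ‖(M'.ch x).x p.1‖ ≤ Real.exp l₁
      · have hρ := hp1 (hreg4 hp2.1)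
        have hρ' : ‖M.ρ (p.1 - x)‖ ≤ 1 / 16 * M.S :=
          hρ.trans (mul_le_mul_of_nonneg_right hε₀ hS.le)
        obtain ⟨k1, k2⟩ := up_pt (lb := M.lb) (S := M.S) rfl h.gr h'.gr hf g0 g1 hw hcM hcM' hε hε4
          hl1 hlb1 hl hτ hp2.1 hρ' hx
        rw [indicator_of_mem (show p ∈ M.reg x ×ˢ univ from ⟨k1, mem_univ _⟩)]
        exact k2 p.2
      · rw [ig_zero (M'.ch x) hx]
        have : 0 ≤ (M.reg x ×ˢ univ).indicator (ig (M.ch x) g31 l) p :=
          indicator_nonneg (fun p _ => Wb.ig_nonneg M x l p) p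
        positivity)
  have hQ0 : (0 : ℝ) ≤ Q + 1 := by positivity
  have hmass : (VD D).real (M'.reg x ×ˢ univ) ≤ (Q + 1) * (ome m * (4 * M.S) ^ m) := by
    have h1 : rat m (VD D) x (4 * M.S) ≤ ENNReal.ofReal (Q + 1) := by
      refine hB.pack.near.2.2.trans ?_
      rw [ENNReal.ofReal_add (by positivity) (by norm_num), ENNReal.ofReal_natCast]
      exact add_le_add le_rfl (ENNReal.ofReal_le_ofReal (by linarith))
    refine le_trans ?_ (real_ball_le (V := VD D) (x := x) (by positivity) hQ0 h1)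
    refine ENNReal.toReal_mono ?_ (measure_mono (Set.prod_mono hreg4 le_rfl))
    refine (lt_of_le_of_lt (measure_mono (Set.prod_mono ?_ le_rfl)) hfin8).ne
    exact Metric.ball_subset_closedBall.trans (Metric.closedBall_subset_closedBall (by linarith))
  have key2 : ∫ p in M'.reg x ×ˢ univ, ig (M'.ch x) g31 l₁ p ∂(VD D) ≤
      54 / ε ^ 2 * ∫ p in M.reg x ×ˢ univ, ig (M.ch x) g31 l p ∂(VD D) +
        27 * (τ ^ 2 * M.S ^ 2) * ((Q + 1) * (ome m * 4 ^ m) * Real.exp M.lb ^ m) := by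
    refine key.trans (add_le_add le_rfl (mul_le_mul_of_nonneg_left (hmass.trans (le_of_eq ?_))
      (by positivity)))
    rw [mul_pow]
    show _ = (Q + 1) * (ome m * 4 ^ m) * M.S ^ m
    ring
  exact fin_ar hε hε4 (integral_nonneg fun p => Wb.ig_nonneg M x l p) (by positivity)
    (by positivity) hlb1 hl key2

end Crest.Agent.R234.Up_456
end
end

-- ▼ part R234/FL10_567
section

/-!
# R234 (helper567), fields `fl`, `large` of `F10d_188.Thy`, part 4: the world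

* `sd_of` : a state of `Stp_518.world` at a flat level gives the data `SD`;
* `fl_world` : at a flat level `Λ₀ ≤ Λ`;
* `flAll : Thya_685.FlAll m n`.
-/

set_option autoImplicit false
set_option linter.unusedVariables false
set_option linter.unusedSectionVars false

open MeasureTheory Filter Topology Set
open scoped ENNReal NNReal ContDiff
open Crest.GeometryTopology.Submanifold Crest.Agent.R234.Vf_884
open Crest.Agent.R234.Strat3_842 (tilt height)
open Crest.Agent.R234.Main_456 (Frame hgt box)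
open Crest.Agent.R234.AS_456 (hp vp)
open Crest.Agent.R234.F10a_188 Crest.Agent.R234.F10b_188 Crest.Agent.R234.F10d_188
open Crest.Agent.R234.Stp_518
open Crest.Agent.R234.Top_395
open Crest.Agent.R234.Gi_456 (Gr tube foot yy ch Kc pm)
open Crest.Agent.R234.GL_394 (Ch VK II Pf)
open Crest.Agent.R234.FL9_567

noncomputable section

namespace Crest.Agent.R234.FL10_567

/-! ### numbers -/

/-- thresholds for `Λ`. -/
theorem exists_large {η₀ ε₁ : ℝ} (hη : 0 < η₀) (hε : 0 < ε₁) : ∃ Lm : ℝ, 0 ≤ Lm ∧ ∀ Λ : ℝ, Lm ≤ Λ →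
    Real.exp (-(Λ / 4)) ≤ η₀ ∧ 2 * Λ ^ 2 * Real.exp (-(Λ / 4)) ^ 2 ≤ ε₁ := by
  have h1 : Tendsto (fun Λ : ℝ => Real.exp (-(Λ / 4))) atTop (𝓝 0) := by
    refine Real.tendsto_exp_neg_atTop_nhds_zero.comp ?_
    exact tendsto_id.atTop_div_const (by norm_num)
  have h2 : Tendsto (fun Λ : ℝ => 2 * Λ ^ 2 * Real.exp (-(Λ / 4)) ^ 2) atTop (𝓝 0) := by
    have h3 : Tendsto (fun Λ : ℝ => (Λ / 2) ^ 2 * Real.exp (-(Λ / 2))) atTop (𝓝 0) :=
      (Real.tendsto_pow_mul_exp_neg_atTop_nhds_zero 2).comp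
        (tendsto_id.atTop_div_const (by norm_num))
    have h4 := h3.const_mul 8
    rw [mul_zero] at h4
    refine h4.congr fun Λ => ?_
    have e : Real.exp (-(Λ / 4)) ^ 2 = Real.exp (-(Λ / 2)) := by
      rw [← Real.exp_nat_mul]
      congr 1
      push_cast
      ring
    rw [e]
    ring
  have h5 := (h1.eventually (gt_mem_nhds hη)).and (h2.eventually (gt_mem_nhds hε))
  obtain ⟨L, hL⟩ := eventually_atTop.1 h5
  exact ⟨max L 0, le_max_right _ _, fun Λ hΛ =>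
    ⟨(hL Λ ((le_max_left _ _).trans hΛ)).1.le, (hL Λ ((le_max_left _ _).trans hΛ)).2.le⟩⟩

/-- threshold for the flatness. -/
theorem exists_om (A C : ℝ) {ε₁ d : ℝ} (hε : 0 < ε₁) (hd : 0 < d) :
    ∃ om₀ : ℝ, 0 < om₀ ∧ om₀ ≤ 1 ∧ ∀ om : ℝ, 0 < om → om ≤ om₀ →
      A * om ^ (1 / 4 : ℝ) ≤ ε₁ ∧ C * om ^ (9 / 10 : ℝ) ≤ d := by
  have c1 : Tendsto (fun om : ℝ => A * om ^ (1 / 4 : ℝ)) (𝓝 0) (𝓝 0) := by
    have h := ((Real.continuous_rpow_const (by norm_num : (0:ℝ) ≤ 1 / 4)).tendsto 0).const_mul A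
    rwa [Real.zero_rpow (by norm_num), mul_zero] at h
  have c2 : Tendsto (fun om : ℝ => C * om ^ (9 / 10 : ℝ)) (𝓝 0) (𝓝 0) := by
    have h := ((Real.continuous_rpow_const (by norm_num : (0:ℝ) ≤ 9 / 10)).tendsto 0).const_mul C
    rwa [Real.zero_rpow (by norm_num), mul_zero] at h
  obtain ⟨δ, hδ, h⟩ := Metric.eventually_nhds_iff.1
    ((c1.eventually (gt_mem_nhds hε)).and (c2.eventually (gt_mem_nhds hd)))
  refine ⟨min (δ / 2) 1, lt_min (by positivity) one_pos, min_le_right _ _, fun om h0 h1 => ?_⟩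
  have h2 := h (y := om) (by
    rw [Real.dist_eq, sub_zero, abs_of_pos h0]
    have := h1.trans (min_le_left _ _)
    linarith)
  exact ⟨h2.1.le, h2.2.le⟩

/-- numbers of the radius. -/
theorem rad_numbers {K l lb : ℝ} (hK : 32 ≤ K) (hl : l ≤ lb - 1 / 8) :
    0 < Real.exp (l + 1 / K - lb) * (1 + 1 / (8 * K)) ∧
    Real.exp (l + 1 / K - lb) * (1 + 1 / (8 * K)) ≤ 1 ∧
    Real.exp (l - lb) ≤ Real.exp (l + 1 / K - lb) * (1 + 1 / (8 * K)) ∧
    Real.exp l * (1 + 1 / K) ≤ Real.exp lb * (Real.exp (l + 1 / K - lb) * (1 + 1 / (8 * K))) ∧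
    Real.exp lb * (Real.exp (l + 1 / K - lb) * (1 + 1 / (8 * K))) ≤ 2 * Real.exp l := by
  have hK0 : 0 < K := by linarith
  have hi0 : 0 < 1 / K := by positivity
  have hi : 1 / K ≤ 1 / 32 := one_div_le_one_div_of_le (by norm_num) hK
  have hi8 : 1 / (8 * K) = 1 / K / 8 := by field_simp
  rw [hi8]
  set i : ℝ := 1 / K with hidef
  have e0 : Real.exp (l + i - lb) = Real.exp (l - lb) * Real.exp i := by
    rw [← Real.exp_add]
    congr 1
    ring
  have e1 : Real.exp lb * (Real.exp (l + i - lb) * (1 + i / 8)) =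
      Real.exp l * (Real.exp i * (1 + i / 8)) := by
    have : Real.exp lb * Real.exp (l - lb) = Real.exp l := by
      rw [← Real.exp_add]
      congr 1
      ring
    rw [e0, ← this]
    ring
  have h1 : 1 + i ≤ Real.exp i := by
    have := Real.add_one_le_exp i
    linarith
  have h2 : Real.exp i * (1 - i) ≤ 1 := by
    have h3 := Real.add_one_le_exp (-i)
    have h4 : Real.exp i * Real.exp (-i) = 1 := by rw [← Real.exp_add]; simp
    have h5 := Real.exp_pos i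
    nlinarith
  have h3 : Real.exp i ≤ 32 / 31 := by
    have h5 := Real.exp_pos i
    nlinarith
  have hE := Real.exp_pos i
  have hl0 := Real.exp_pos l
  refine ⟨by positivity, ?_, ?_, ?_, ?_⟩
  · have h4 : 1 + i / 8 ≤ Real.exp (i / 8) := by
      have := Real.add_one_le_exp (i / 8)
      linarith
    calc Real.exp (l + i - lb) * (1 + i / 8) ≤ Real.exp (l + i - lb) * Real.exp (i / 8) := by gcongr
      _ = Real.exp (l + i - lb + i / 8) := by rw [← Real.exp_add]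
      _ ≤ Real.exp 0 := Real.exp_le_exp.2 (by linarith)
      _ = 1 := Real.exp_zero
  · rw [e0]
    have h5 := Real.exp_pos (l - lb)
    have h6 : 1 ≤ Real.exp i * (1 + i / 8) := by nlinarith
    nlinarith
  · rw [e1]
    refine mul_le_mul_of_nonneg_left ?_ hl0.le
    nlinarith
  · rw [e1, mul_comm 2]
    refine mul_le_mul_of_nonneg_left ?_ hl0.le
    nlinarith

variable {m n k : ℕ}

/-! ### the flat plane -/

/-- what the flatness at the scale `e^(l+c₀)` gives near the block. -/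
theorem flat_data (hm : 1 ≤ m) (hk : k = m + n) {U : Set (Euc k)} {D : VarifoldData m k}
    (hU : IsOpen U) (hD : IsIntegralVarifoldIn U D) (hst : IsStationaryIn U D) {x : Euc k}
    {R om : ℝ} (hR : 0 < R) (hsub : Metric.closedBall x R ⊆ U) (hom : 0 < om)
    (hf : FlatAt m (VD D) x om R) :
    ∃ P ∈ G m k, (∀ s, 0 < s → s < R →
        ∫ p in Metric.closedBall x s ×ˢ univ, height P x p ∂(VD D) ≤ om * R ^ (m + 2)) ∧
      ∀ᵐ p ∂(VD D), p.1 ∈ Metric.ball x (R / 2) →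
        ‖(p.1 - x) - P (p.1 - x)‖ ≤ Real.sqrt (2 ^ (m + 1) / ome m) * Real.sqrt om * R := by
  obtain ⟨P, hP, hex⟩ := hf
  have hV := stat_VD hD hst
  have ho := ome_pos m
  refine ⟨P, hP, fun s hs hsR => ?_, ?_⟩
  · rw [pex_eq] at hex
    have hR2 : 0 < R ^ (m + 2) := by positivity
    have h1 : ∫ p in Metric.ball x R ×ˢ univ, height P x p ∂(VD D) ≤ om * R ^ (m + 2) := by
      rw [inv_mul_le_iff₀ hR2] at hex
      linarith
    refine le_trans ?_ h1
    refine setIntegral_mono_set ?_ ?_ ?_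
    · refine Strat3_842.integrableOn_of_bdd hV.conc ?_ (Strat3_842.continuous_height P x)
      rw [Top_395.prod_eq]
      exact fin_ball hV hsub Metric.ball_subset_closedBall
    · exact Filter.Eventually.of_forall fun p => by
        change 0 ≤ height P x p
        unfold height
        positivity
    · exact (prod_mono (Metric.closedBall_subset_ball hsR) subset_rfl).eventuallyLE
  · obtain ⟨π', ρ', hf', rfl⟩ := exists_frame hk hP
    filter_upwards [Al9_182.ae_mem_support hD] with p hps hpb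
    have hpU : p.1 ∈ U := hsub (Metric.ball_subset_closedBall
      (Metric.ball_subset_ball (by linarith) hpb))
    have h1 := sup_height hV hm hf' hR hsub hex hpb (one_le_Th hD hst hm hU hpU hps)
    have h2 : ‖(p.1 - x) - hp π' (p.1 - x)‖ = ‖ρ' (p.1 - x)‖ := by
      have := norm_vert hf' (p.1 - x)
      simpa using this
    rw [h2]
    have h3 : ‖ρ' (p.1 - x)‖ ^ 2 ≤ (Real.sqrt (2 ^ (m + 1) / ome m) * Real.sqrt om * R) ^ 2 := by
      rw [mul_pow, mul_pow, Real.sq_sqrt (by positivity), Real.sq_sqrt hom.le]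
      rw [← mul_le_mul_iff_right₀ ho]
      refine h1.trans (le_of_eq ?_)
      field_simp
    exact le_of_sq_le_sq h3 (by positivity)

/-! ### a state at a flat level -/

/-- the constant of the flatness. -/
def Cf (m : ℕ) (c₀ : ℝ) : ℝ :=
  max 1 (max (Real.exp c₀ ^ (m + 2)) (Real.sqrt (2 ^ (m + 1) / ome m) * Real.exp c₀))

theorem one_le_Cf (m : ℕ) (c₀ : ℝ) : 1 ≤ Cf m c₀ := le_max_left _ _

theorem Cf_ge1 (m : ℕ) (c₀ : ℝ) : Real.exp c₀ ^ (m + 2) ≤ Cf m c₀ :=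
  (le_max_left _ _).trans (le_max_right _ _)

theorem Cf_ge2 (m : ℕ) (c₀ : ℝ) : Real.sqrt (2 ^ (m + 1) / ome m) * Real.exp c₀ ≤ Cf m c₀ :=
  (le_max_right _ _).trans (le_max_right _ _)

/-- **a state at a flat level gives `SD`**. -/
theorem sd_of (hm : 1 ≤ m) (hk : k = m + n) {c : Cn} {C : Cst} {κm : ℝ} {U : Set (Euc k)}
    {D : VarifoldData m k} {Q : ℕ} {x : Euc k} {om₁ om r₁ c₀ B l : ℝ} {J : ℕ} {M : Mo m n k}
    (hB : ∀ (κ r : ℝ) (u : Euc m → Euc n), MG_570.MG c.N κ r u →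
      ContDiff ℝ ((c.N + 2 : ℕ) : ℕ∞) u ∧ ∀ j ≤ c.N + 2, ∀ x, ‖iteratedFDeriv ℝ j u x‖ ≤ B * κ)
    (hB0 : 0 ≤ B) (hκ : B * c.κ₀ ≤ 1 / 8) (hJ4 : 4 ≤ J) (hJ : J ≤ c.N + 2) (hT : 0 ≤ c.T)
    (hc₀ : c.T + 4 ≤ c₀) (hE : Env m U D Q x om₁ r₁) (hom₁ : om₁ ≤ 1)
    (hst : Sta c C κm (VD D) Q x M l) (hom : 0 < om) (hom1 : om ≤ 1)
    (hfl : flatL m (VD D) x om c₀ r₁ l) :
    ∃ P : L k, SD m n k c.Ks J (((Q : ℝ) + 1) * (ome m * 8 ^ m)) (ome m * Q) (Real.exp c.T)
      (Cf m c₀) U (VD D) M.π M.ρ x M.S (M.rad l) l M.K (Real.exp (-(lam (M.I x (VD D)) l / 4))) om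
      M.u P := by
  have hV := stat_VD hE.int hE.st
  have ho := ome_pos m
  have hQ1 : (1:ℝ) ≤ Q := by exact_mod_cast hE.Q1
  have hR : 0 < Real.exp (l + c₀) := Real.exp_pos _
  have hsub : Metric.closedBall x (Real.exp (l + c₀)) ⊆ U :=
    (Metric.closedBall_subset_closedBall hfl.1).trans hE.sub
  obtain ⟨P, hP, hflat, hnear⟩ := flat_data hm hk hE.opn hE.int hE.st hR hsub hom hfl.2
  obtain ⟨n1, n2, n3, n4, n5⟩ := rad_numbers hst.K32 hst.rcd.hl
  have hSd : M.S = Real.exp M.lb := rfl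
  have hrd : M.rad l = Real.exp (l + 1 / M.K - M.lb) * (1 + 1 / (8 * M.K)) := rfl
  rw [← hrd] at n1 n2 n3 n4 n5
  rw [← hSd] at n4 n5
  have hS := M.S_pos
  have hl0 := Real.exp_pos l
  have hc₀e : 54 ≤ Real.exp c₀ := by
    have h1 : (2.718 : ℝ) < Real.exp 1 := by
      have := Real.exp_one_gt_d9
      linarith
    have h2 : Real.exp 4 = Real.exp 1 ^ 4 := by
      rw [← Real.exp_nat_mul]
      norm_num
    have h3 : Real.exp 4 ≤ Real.exp c₀ := Real.exp_le_exp.2 (by linarith)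
    have h4 : (2.718 : ℝ) ^ 4 ≤ Real.exp 1 ^ 4 := by gcongr
    rw [h2] at h3
    norm_num at h4 ⊢
    linarith
  have hRe : Real.exp (l + c₀) = Real.exp l * Real.exp c₀ := Real.exp_add _ _
  have hr : 0 < M.S * M.rad l := mul_pos hS n1
  have hlr : Real.exp l ≤ M.S * M.rad l := by
    refine le_trans ?_ n4
    have : 0 ≤ Real.exp l * (1 / M.K) := by
      have := hst.K32
      positivity
    linarith
  have h16 : 8 * (M.S * M.rad l) < Real.exp (l + c₀) := by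
    rw [hRe]
    nlinarith
  have hSR : 8 * M.S ≤ Real.exp (l + c₀) := by
    have h1 : M.S * Real.exp 4 ≤ Real.exp (l + c₀) := by
      rw [hSd, ← Real.exp_add]
      exact Real.exp_le_exp.2 (by linarith [hst.lo])
    have h2 : (5:ℝ) ≤ Real.exp 4 := by
      have := Real.add_one_le_exp (4:ℝ)
      linarith
    have h3 : (8:ℝ) ≤ Real.exp 4 := by
      have h4 : (2 : ℝ) ≤ Real.exp 1 := by
        have := Real.add_one_le_exp (1:ℝ)
        linarith
      have h5 : Real.exp 4 = Real.exp 1 ^ 4 := by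
        rw [← Real.exp_nat_mul]
        norm_num
      have h6 : (2 : ℝ) ^ 4 ≤ Real.exp 1 ^ 4 := by gcongr
      rw [h5]
      norm_num at h6
      linarith
    nlinarith
  have hRr : Real.exp (l + c₀) ≤ Real.exp c₀ * (M.S * M.rad l) := by
    rw [hRe, mul_comm]
    gcongr
  -- class
  obtain ⟨hcd, hbd⟩ := hB M.κ (M.rad l) M.u hst.cls.mg
  have hκ8 : B * M.κ ≤ 1 / 8 := (mul_le_mul_of_nonneg_left hst.cls.κ1 hB0).trans hκ
  have hcdJ : ContDiff ℝ J M.u := by
    refine hcd.of_le ?_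
    exact_mod_cast hJ
  have hbdJ : ∀ j ≤ J, ∀ y, ‖iteratedFDeriv ℝ j M.u y‖ ≤ 1 / 8 := fun j hj y =>
    (hbd j (hj.trans hJ) y).trans hκ8
  have hgr : Gr M.S M.w := (FL7_567.gr_of_bd hS le_rfl (hcdJ.of_le (by exact_mod_cast hJ4))
    (fun y => hbdJ 1 (by omega) y) (fun y => hbdJ 2 (by omega) y)).1
  have hu0 : ‖M.u 0‖ ≤ 1 := by
    have := hbdJ 0 (by omega) 0
    rw [norm_iteratedFDeriv_zero] at this
    linarith
  have hreg := Mv_504.reg_subset (x := x) hst.cls.frame hgr hu0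
  refine ⟨P, ?_⟩
  have hI := hst.pos
  set Λ := lam (M.I x (VD D)) l with hΛ
  have hIη : M.I x (VD D) l = Real.exp (2 * l) * Real.exp (-(Λ / 4)) ^ 4 := by
    rw [← Real.exp_nat_mul, ← Real.exp_add]
    rw [show 2 * l + ((4:ℕ):ℝ) * -(Λ / 4) = Real.log (M.I x (VD D) l) by
      rw [hΛ]
      unfold lam
      push_cast
      ring, Real.exp_log hI]
  have hsq : Real.sqrt (M.I x (VD D) l) = Real.exp l * Real.exp (-(Λ / 4)) ^ 2 := by
    rw [hIη, show Real.exp (2 * l) * Real.exp (-(Λ / 4)) ^ 4 =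
      (Real.exp l * Real.exp (-(Λ / 4)) ^ 2) ^ 2 by
        rw [mul_pow, ← pow_mul, ← Real.exp_nat_mul l 2]
        norm_num, Real.sqrt_sq (by positivity)]
  exact
  { st := hV
    fr := hst.cls.frame
    S0 := hS
    rad0 := n1
    rad1 := n2
    radT := by
      rw [inv_le_comm₀ n1 (Real.exp_pos _), ← Real.exp_neg]
      exact (Real.exp_le_exp.2 (by linarith [hst.lo])).trans n3
    el1 := n4
    el2 := n5
    K1 := by linarith [hst.K32]
    cd := hcdJ
    bd := hbdJ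
    η0 := Real.exp_pos _
    Iη := hIη
    sup := hst.sup
    mean := fun ζ h1 h2 h3 => by
      have h4 := hst.mean ζ h1 h2 h3
      rw [hsq] at h4
      refine h4.trans (le_of_eq ?_)
      ring
    dom := (Metric.closedBall_subset_closedBall h16.le).trans hsub
    up := by
      have h1 : rat m (VD D) x (8 * (M.S * M.rad l)) ≤ ENNReal.ofReal ((Q:ℝ) + 1) := by
        refine (hE.drop _ (by positivity) (h16.le.trans hfl.1)).trans ?_
        rw [ENNReal.ofReal_add (by positivity) zero_le_one, ENNReal.ofReal_natCast]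
        gcongr
      have h2 := Up_456.real_ball_le (V := VD D) (by positivity) (by positivity) h1
      have h3 : (VD D).real (Metric.closedBall x (4 * (M.S * M.rad l)) ×ˢ univ) ≤
          (VD D).real (Metric.ball x (8 * (M.S * M.rad l)) ×ˢ univ) := by
        refine measureReal_mono (prod_mono (Metric.closedBall_subset_ball (by linarith))
          subset_rfl) ?_
        rw [Top_395.prod_eq]
        exact (fin_ball hV hsub ((Metric.ball_subset_ball h16.le).trans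
          Metric.ball_subset_closedBall)).ne
      refine (h3.trans h2).trans (le_of_eq ?_)
      rw [mul_pow]
      ring
    low := fun s hs hsr => by
      have h1 := mass_low hV hm (Q := Q) hE.Th.ge hsub hs (by linarith)
      refine h1.trans (le_of_eq ?_)
      rw [measureReal_def, measureReal_def, mass_apply _ Metric.isClosed_closedBall.measurableSet,
        Top_395.prod_eq]
    pl := hP
    wf0 := hom.le
    wf1 := hom1
    flat := by
      refine (hflat _ (by positivity) h16).trans ?_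
      calc om * Real.exp (l + c₀) ^ (m + 2)
          ≤ om * (Real.exp c₀ * (M.S * M.rad l)) ^ (m + 2) := by gcongr
        _ = (Real.exp c₀ ^ (m + 2) * om) * (M.S * M.rad l) ^ (m + 2) := by
            rw [mul_pow]
            ring
        _ ≤ (Cf m c₀ * om) * (M.S * M.rad l) ^ (m + 2) := by
            gcongr
            exact Cf_ge1 m c₀
    near := by
      filter_upwards [hnear] with p h1 h2
      have h3 : p.1 ∈ Metric.ball x (Real.exp (l + c₀) / 2) := by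
        refine Metric.closedBall_subset_ball ?_ (hreg h2)
        have h4 : M.S * Real.exp 4 ≤ Real.exp (l + c₀) := by
          rw [hSd, ← Real.exp_add]
          exact Real.exp_le_exp.2 (by linarith [hst.lo])
        have h5 : (8:ℝ) < Real.exp 4 := by
          have h4 : (2 : ℝ) ≤ Real.exp 1 := by
            have := Real.add_one_le_exp (1:ℝ)
            linarith
          have h5 : Real.exp 4 = Real.exp 1 ^ 4 := by
            rw [← Real.exp_nat_mul]
            norm_num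
          have h6 : (2 : ℝ) ^ 4 ≤ Real.exp 1 ^ 4 := by gcongr
          rw [h5]
          norm_num at h6
          linarith
        nlinarith
      refine (h1 h3).trans ?_
      calc Real.sqrt (2 ^ (m + 1) / ome m) * Real.sqrt om * Real.exp (l + c₀)
          ≤ Real.sqrt (2 ^ (m + 1) / ome m) * Real.sqrt om *
              (Real.exp c₀ * (M.S * M.rad l)) := by gcongr
        _ = (Real.sqrt (2 ^ (m + 1) / ome m) * Real.exp c₀) * Real.sqrt om *
              (M.S * M.rad l) := by ring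
        _ ≤ Cf m c₀ * Real.sqrt om * (M.S * M.rad l) := by
            gcongr
            exact Cf_ge2 m c₀ }

/-! ### the field -/

/-- number of derivatives used. -/
def Jn (m Ks : ℕ) : ℕ := 9 * (Ks + m) + 4

/-- **flat ⇒ `Λ` large**, all constants. -/
theorem fl_world (m n : ℕ) (hm : 1 ≤ m) (Q : ℕ) (hQ : 1 ≤ Q) (Ks N : ℕ)
    (hN : Jn m Ks ≤ N + 2) (T c₀ : ℝ) (hT : 0 ≤ T) (hc₀ : T + 4 ≤ c₀) :
    ∃ κs : ℝ, 0 < κs ∧ ∃ Lm : ℝ, 0 ≤ Lm ∧ ∀ Λ₀ : ℝ, ∃ om₀ : ℝ, 0 < om₀ ∧ om₀ ≤ 1 ∧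
      ∀ (c : Cn) (C : Cst) (κm : ℝ), c.N = N → c.Ks = Ks → c.T = T → c.κ₀ ≤ κs → Lm ≤ c.L₁ →
      ∀ {U : Set (Euc (m + n))} {D : VarifoldData m (m + n)} {x : Euc (m + n)} {om₁ r₁ : ℝ},
        Env m U D Q x om₁ r₁ → om₁ ≤ 1 → ∀ {M : Mo m n (m + n)} {l om : ℝ},
          Sta c C κm (VD D) Q x M l → 0 < om → om ≤ om₀ → flatL m (VD D) x om c₀ r₁ l →
            Λ₀ ≤ lam (M.I x (VD D)) l := by
  obtain ⟨B, hB0, hB⟩ := Mx17_397.bdP m n N
  have ho := ome_pos m
  have hQ0 : (0:ℝ) < Q := by exact_mod_cast hQ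
  obtain ⟨η₀, ε₁, C₁, hη₀, hε₁, hC₁, hcore⟩ := core m n (m + n) Ks (Jn m Ks) (by unfold Jn; omega)
    (by unfold Jn; omega) (by unfold Jn; omega) (Λm := ((Q : ℝ) + 1) * (ome m * 8 ^ m))
    (c := ome m * Q) (Tr := Real.exp T) (Cf := Cf m c₀) (by positivity) (by positivity)
    (Real.one_le_exp hT) (one_le_Cf m c₀)
  obtain ⟨Lm, hLm0, hLm⟩ := exists_large hη₀ hε₁
  refine ⟨1 / (8 * (B + 1)), by positivity, Lm, hLm0, fun Λ₀ => ?_⟩
  obtain ⟨om₀, hom₀, hom₀1, hom₀'⟩ := exists_om (2 * Λ₀ ^ 2) C₁ hε₁ (Real.exp_pos (-Λ₀))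
  refine ⟨om₀, hom₀, hom₀1, ?_⟩
  rintro c C κm rfl rfl rfl hκ hL₁ U D x om₁ r₁ hE hom₁ M l om hst hom homle hfl
  by_contra hcon
  push Not at hcon
  have hκ8 : B * c.κ₀ ≤ 1 / 8 := by
    calc B * c.κ₀ ≤ B * (1 / (8 * (B + 1))) := mul_le_mul_of_nonneg_left hκ hB0
      _ = B / (B + 1) / 8 := by field_simp
      _ ≤ 1 / 8 := by
        gcongr
        rw [div_le_one (by positivity)]
        linarith
  obtain ⟨P, hSD⟩ := sd_of hm rfl hB hB0 hκ8 (by unfold Jn; omega) hN hT hc₀ hE hom₁ hst hom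
    (homle.trans hom₀1) hfl
  have hΛL : Lm ≤ lam (M.I x (VD D)) l := hL₁.trans hst.L1
  set Λ := lam (M.I x (VD D)) l with hΛ
  have hΛ0 : 0 ≤ Λ := hLm0.trans hΛL
  obtain ⟨a1, a2⟩ := hLm Λ hΛL
  obtain ⟨b1, b2⟩ := hom₀' om hom homle
  have hKL : M.K ≤ 2 * Λ ^ 2 := hst.KL
  have h1 := hcore hSD a1
    ((mul_le_mul_of_nonneg_right hKL (by positivity)).trans a2)
    (le_trans (mul_le_mul_of_nonneg_right (hKL.trans (by nlinarith)) (by positivity)) b1)
  have h2 : Real.exp (-(Λ / 4)) ^ 4 = Real.exp (-Λ) := by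
    rw [← Real.exp_nat_mul]
    congr 1
    push_cast
    ring
  rw [h2] at h1
  have h3 := Real.exp_le_exp.1 (h1.trans b2)
  linarith

/-- **fields `fl`, `large` for all constants** (685's literal target). -/
theorem flAll (m n : ℕ) (hm : 1 ≤ m) : Thya_685.FlAll m n := by
  refine ⟨0, fun Ks _ K _ Q hQ => ⟨Jn m Ks, fun N hN => ⟨0, fun T hT c₀ hc₀ G CK P K₀ k _ _ _ _ => ?_⟩⟩⟩
  obtain ⟨κs, hκs, Lm, hLm, H⟩ := fl_world m n hm Q (by omega) Ks N (by omega) T c₀ hT hc₀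
  refine ⟨κs, hκs, fun κ₀ _ hκ₀ => ⟨Lm, fun L₁ hL₁ => ⟨0, fun Λ₀ _ => ?_⟩⟩⟩
  obtain ⟨om₀, h0, h1, h2⟩ := H Λ₀
  refine ⟨om₀, h0, fun om hom homle U D x r₁ hE => ⟨fun M l hst hfl _ => ?_, fun mu => ?_⟩⟩
  · exact h2 _ _ _ rfl rfl rfl hκ₀ hL₁ hE (homle.trans h1) hst hom homle hfl
  · obtain ⟨om₂, g0, g1, g2⟩ := H mu
    exact ⟨om₂, g0, fun M l hst hfl _ =>
      g2 _ _ _ rfl rfl rfl hκ₀ hL₁ hE (homle.trans h1) hst g0 le_rfl hfl⟩

end Crest.Agent.R234.FL10_567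
end
end

-- ▼ part R234/F11d_188
section

/-!
# Row 234, (F8) START, F11d (helper188): the pre-state case

`mkPre` : if `Λ` of the selected reference has grown by `6/5`, its rotation to the tangent plane at
the foot of the base point is a pre-state with `Λ = 23/20 L`.
-/

set_option autoImplicit false
set_option linter.unusedVariables false

open MeasureTheory Filter Topology Set
open scoped ENNReal NNReal ContDiff
open Crest.GeometryTopology.Submanifold Crest.Agent.R234.Vf_884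
open Crest.Agent.R234.Main_456 (Frame Msys hgt NearQ)
open Crest.Agent.R234.AS_456 (hp vp)
open Crest.Agent.R234.MG_570 (MG SelP3)
open Crest.Agent.R234.F10a_188 Crest.Agent.R234.F10b_188
open Crest.Agent.R234.Top_395 Crest.Agent.R234.Stp_518
open Crest.Agent.R234.F10t_188 Crest.Agent.R234.F10w_188 Crest.Agent.R234.F10y_188
open Crest.Agent.R234.F10z_188 Crest.Agent.R234.F11a_188 Crest.Agent.R234.F11b_188
open Crest.Agent.R234.F11c_188
open Crest.Agent.R234.Grot_842 (Rt rπ rρ)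

noncomputable section

namespace Crest.Agent.R234.F11d_188

variable {m n k : ℕ}

/-- the rotated reference. -/
def rotM (M' : Mo m n k) (u' : Euc m → Euc n) (q : Euc m →L[ℝ] Euc n) (H : Euc m →L[ℝ] Euc m)
    (H' : Euc n →L[ℝ] Euc n) (B Lb : ℝ) : Mo m n k :=
  { π := rπ M'.π M'.ρ q H, ρ := rρ M'.π M'.ρ q H', lb := M'.lb, u := u', κ := M'.κ + B, K := M'.K,
    Lb := Lb, Kb := M'.Kb, Pb := M'.Pb }

/-- the relation in the form of `RotI`. -/
theorem rel_of {N : ℕ} {u u' : Euc m → Euc n} {X0 : Euc m} {q : Euc m →L[ℝ] Euc n}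
    {H : Euc m →L[ℝ] Euc m} {H' : Euc n →L[ℝ] Euc n} {κ' R e B r : ℝ}
    (h : RotO N u u' X0 q H H' κ' R e B) (hu : ∀ X, ‖u X‖ ≤ 1) (hr : r + B < R)
    (hr' : r + B < (1 - e) * R) : ∀ a ∈ Metric.ball (0 : Euc m) r,
      u' (H (a + ContinuousLinearMap.adjoint q (u a))) = H' (u a - q a) := by
  intro a ha
  rw [mem_ball_zero_iff] at ha
  have hq := h.q_le
  have hX := h.X_le
  have e1 : X0 + (a - X0) = a := by abel
  have e2 : a - X0 + ContinuousLinearMap.adjoint q (u (X0 + (a - X0)) - u X0) =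
      a + ContinuousLinearMap.adjoint q (u a) := by
    rw [e1, map_sub]
    have := h.foot
    have e3 : a - X0 + (ContinuousLinearMap.adjoint q (u a) - ContinuousLinearMap.adjoint q (u X0)) =
        a + ContinuousLinearMap.adjoint q (u a) - (X0 + ContinuousLinearMap.adjoint q (u X0)) := by
      abel
    rw [e3, this, sub_zero]
  have h1 := h.fwd (a - X0) (by
    rw [mem_ball_zero_iff]
    refine (norm_sub_le _ _).trans_lt ?_
    linarith) (H (a + ContinuousLinearMap.adjoint q (u a))) (by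
    rw [mem_ball_zero_iff]
    refine (h.rt.le _).trans_lt ((norm_add_le _ _).trans_lt ?_)
    have h2 : ‖ContinuousLinearMap.adjoint q (u a)‖ ≤ B * 1 := by
      refine (ContinuousLinearMap.le_opNorm _ _).trans ?_
      rw [LinearIsometryEquiv.norm_map]
      exact mul_le_mul hq (hu a) (norm_nonneg _) ((norm_nonneg _).trans hq)
    linarith) (by rw [e2])
  rw [e1, sub_eq_iff_eq_add] at h1
  rw [h1, ← map_add]
  congr 1
  rw [map_sub]
  abel

theorem I_num {I' I'' : ℝ → ℝ} {l e L CR : ℝ} (he : 0 < e) (he1 : e ≤ 1 / 80) (hCR : 0 < CR)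
    (hIpos : 0 < I' (l - 11 * e)) (hlam : 6 / 5 * L ≤ lam I' (l - 11 * e))
    (q2 : 3 * CR / e ^ 2 ≤ Real.exp (1 / 20 * L))
    (hI : I'' (l - 11 * e - e) ≤ CR / e ^ 2 * I' (l - 11 * e)) :
    I'' (l - 12 * e) ≤ Real.exp (2 * (l - 12 * e) - 23 / 20 * L) := by
  have he2 : 0 < e ^ 2 := by positivity
  have e12 : l - 11 * e - e = l - 12 * e := by ring
  rw [e12, I_eq_exp hIpos] at hI
  refine hI.trans ?_
  have h1 : Real.exp (2 * (l - 11 * e) - lam I' (l - 11 * e)) ≤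
      Real.exp (2 * (l - 12 * e) - 23 / 20 * L) * (Real.exp (2 * e) * Real.exp (-(1 / 20 * L))) := by
    rw [← Real.exp_add, ← Real.exp_add]
    exact Real.exp_le_exp.2 (by linarith)
  have h2 : Real.exp (2 * e) ≤ 3 := by
    have h3 : Real.exp (2 * e) ≤ Real.exp 1 := Real.exp_le_exp.2 (by linarith)
    have h4 := Real.exp_one_lt_d9
    linarith
  have h3 : 3 * CR * Real.exp (-(1 / 20 * L)) ≤ e ^ 2 := exp_small he2 q2
  have h4 : CR / e ^ 2 * (Real.exp (2 * e) * Real.exp (-(1 / 20 * L))) ≤ 1 := by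
    rw [div_mul_eq_mul_div, div_le_one he2]
    refine le_trans ?_ h3
    have h5 := Real.exp_pos (-(1 / 20 * L))
    calc CR * (Real.exp (2 * e) * Real.exp (-(1 / 20 * L))) ≤
        CR * (3 * Real.exp (-(1 / 20 * L))) := by gcongr
      _ = 3 * CR * Real.exp (-(1 / 20 * L)) := by ring
  calc CR / e ^ 2 * Real.exp (2 * (l - 11 * e) - lam I' (l - 11 * e)) ≤
      CR / e ^ 2 * (Real.exp (2 * (l - 12 * e) - 23 / 20 * L) *
        (Real.exp (2 * e) * Real.exp (-(1 / 20 * L)))) := by gcongr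
    _ = Real.exp (2 * (l - 12 * e) - 23 / 20 * L) *
        (CR / e ^ 2 * (Real.exp (2 * e) * Real.exp (-(1 / 20 * L)))) := by ring
    _ ≤ Real.exp (2 * (l - 12 * e) - 23 / 20 * L) * 1 :=
        mul_le_mul_of_nonneg_left h4 (Real.exp_pos _).le
    _ = _ := mul_one _

theorem S_le8 {lb l e : ℝ} (h : lb ≤ l - 11 * e + 2) :
    Real.exp lb ≤ 8 * Real.exp (l - 11 * e) := by
  have h1 : Real.exp lb ≤ Real.exp 2 * Real.exp (l - 11 * e) := by
    rw [← Real.exp_add]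
    exact Real.exp_le_exp.2 (by linarith)
  have h2 : Real.exp 2 ≤ 8 := by
    have h4 := Real.exp_one_lt_d9
    have h5 : Real.exp 2 = Real.exp 1 * Real.exp 1 := by rw [← Real.exp_add]; norm_num
    rw [h5]
    have h6 := Real.exp_pos (1:ℝ)
    nlinarith
  exact h1.trans (mul_le_mul_of_nonneg_right h2 (Real.exp_pos _).le)

/-- small numbers. -/
theorem small_num {A κm e b : ℝ} (hκm : 0 < κm) (hA : A = 10000 * (1 + 1 / κm)) (he : 0 < e)
    (he1 : e ≤ 1 / 80) (hb : 0 ≤ b) (h : A * b ≤ e ^ 2) :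
    10000 * b ≤ e ^ 2 ∧ 10000 * b ≤ κm ∧ 10000 * b ≤ e := by
  have hi : 0 < 1 / κm := by positivity
  have hAκ : A * κm = 10000 * κm + 10000 := by rw [hA]; field_simp
  have h1 : 10000 * b ≤ A * b := mul_le_mul_of_nonneg_right (by rw [hA]; linarith) hb
  have h2 : e ^ 2 ≤ e * (1 / 80) := by nlinarith
  have h3 : A * κm * b = A * b * κm := by ring
  have h4 : A * b * κm ≤ e ^ 2 * κm := mul_le_mul_of_nonneg_right h hκm.le
  have h5 : e ^ 2 * κm ≤ 1 * κm := mul_le_mul_of_nonneg_right (by nlinarith) hκm.le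
  refine ⟨h1.trans h, ?_, by linarith⟩
  have h6 : 0 ≤ κm * b := by positivity
  rw [hAκ] at h3
  nlinarith

theorem two_tau {L : ℝ} (hL : 100 ≤ L) :
    2 * Real.exp (-(399 / 800 * L)) ≤ Real.exp (-(23 / 20 * L / 4)) := by
  have h3 : (2:ℝ) ≤ Real.exp 1 := by have := Real.add_one_le_exp (1:ℝ); linarith
  calc 2 * Real.exp (-(399 / 800 * L)) ≤ Real.exp 1 * Real.exp (-(399 / 800 * L)) :=
        mul_le_mul_of_nonneg_right h3 (Real.exp_pos _).le
    _ = Real.exp (1 + -(399 / 800 * L)) := by rw [Real.exp_add]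
    _ ≤ _ := Real.exp_le_exp.2 (by linarith)

theorem supLe_of {M M'' : Mo m n k} {x : Euc k} {V : Measure (Euc k × L k)} {R R' η τ : ℝ}
    (hS : M''.S = M.S) (hR : M''.S * R = R' * M.S) (h2 : 2 * τ ≤ η)
    (h : ∀ᵐ p ∂V, p.1 ∈ F10u_188.Cyl M''.π M''.ρ x (R' * M.S) M.S →
      ‖hgt M''.π M''.ρ x M.S M''.u p.1‖ ≤ 2 * τ * M.S) : SupLe M'' x V R η := by
  unfold SupLe
  rw [hR, hS]
  filter_upwards [h] with p hp g1 g2
  refine (hp ⟨g1, g2⟩).trans ?_
  rw [mul_comm]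
  exact mul_le_mul_of_nonneg_left h2 M.S_pos.le

set_option maxHeartbeats 2000000 in
theorem mkPre (hRot : RotI) (m n N Q k : ℕ) (Λ : ℝ) (hm : 1 ≤ m) (hN : 2 ≤ N) : ∃ κ₁ ε₁ : ℝ,
    0 < κ₁ ∧ 0 < ε₁ ∧ ∀ (c : Cn) (κm : ℝ), c.N = N → 0 < κm → κm ≤ κ₁ → 2 * κm ≤ c.κ₀ →
    ∃ L₂ : ℝ, 100 ≤ L₂ ∧ ∀ (Ks : ℕ) (U : Set (Euc k)) (D : VarifoldData m k) (x : Euc k) (ε₀ : ℝ)
      (M M' : Mo m n k) (l L : ℝ), Bk N U D Q x ε₀ Λ M l → M.κ ≤ κm → ε₀ ≤ ε₁ → L₂ ≤ L →
      M.lb - 5 / 4 ≤ l → ‖fderiv ℝ M.u 0‖ ≤ 0 → Sel1 N Ks D x M M' l L →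
      (∀ (π' : Euc k →L[ℝ] Euc m) (ρ' : Euc k →L[ℝ] Euc n), Frame π' ρ' →
        ‖hp π' - hp M.π‖ ≤ 1 / L → FlatPack D x Q M.S ε₀ Λ π' ρ') →
      0 < M'.I x (VD D) (l - 11 * eps L) →
      6 / 5 * L ≤ lam (M'.I x (VD D)) (l - 11 * eps L) →
      ∃ M'' : Mo m n k, M''.lb = M.lb ∧ M''.Lb = 23 / 20 * L ∧
        Ps c (VD D) x M'' (l - 12 * eps L) ∧ M''.κ + ‖hp M''.π - hp M.π‖ ≤ M.κ + 1 / L := by
  obtain ⟨κR, εR, CR, hκR, hεR, hCR, HR⟩ := hRot m n k N Q Λ hm hN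
  obtain ⟨κo, hκo, hκo1, HO⟩ := rotO m n N hm hN
  obtain ⟨κg, Cg, hκg, hCg, hCκg, Hgr⟩ := gr_of m n N hN
  refine ⟨min (min κR κo) κg / 2, min 1 εR, by positivity, by positivity, ?_⟩
  intro c κm hcN hκm hκ₁ hcκ
  have k1 : 2 * κm ≤ κR := by
    have := (min_le_left (min κR κo) κg).trans (min_le_left _ _)
    linarith
  have k2 : 2 * κm ≤ κo := by
    have := (min_le_left (min κR κo) κg).trans (min_le_right _ _)
    linarith
  have k3 : 2 * κm ≤ κg := by
    have := min_le_right (min κR κo) κg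
    linarith
  obtain ⟨A, hA⟩ : ∃ A : ℝ, A = 10000 * (1 + 1 / κm) := ⟨_, rfl⟩
  have hA1 : 10000 ≤ A := by
    rw [hA]
    have : 0 < 1 / κm := by positivity
    linarith
  obtain ⟨Lo, hLo, HO⟩ := HO A (by linarith)
  obtain ⟨L1, hL1, p1⟩ := poly A 2 (show (0:ℝ) < 399 / 800 by norm_num)
  obtain ⟨L2, hL2, p2⟩ := poly (3 * CR) 2 (show (0:ℝ) < 1 / 20 by norm_num)
  refine ⟨max Lo (max L1 L2), hLo.trans (le_max_left _ _), ?_⟩
  intro Ks U D x ε₀ M M' l L hB hκ hε hL hl hdu hsel hFP hIpos hlam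
  simp only [max_le_iff] at hL
  obtain ⟨lo, l1, l2⟩ := hL
  have q1 := p1 L l1
  have q2 := p2 L l2
  have hL100 : 100 ≤ L := hLo.trans lo
  have hL0 : 0 < L := by linarith
  have he := eps_pos hL0
  have he1 := eps_le hL100
  have hesq := eps_sq hL0
  have hmg := hsel.mg
  have hsupS := hsel.sup
  have hbk := Sel1.bk hsel hB he.le (s := l - 11 * eps L) (by linarith) (by linarith)
  obtain ⟨e, hedef⟩ : ∃ e, e = eps L := ⟨_, rfl⟩
  rw [← hedef] at q1 q2 he he1 hesq hmg hsupS hbk hIpos hlam ⊢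
  have hlb := hB.hi
  have hS := M.S_pos
  have hlb' : M'.lb = M.lb := hsel.hlb
  have hS' : M'.S = M.S := by unfold Mo.S; rw [hlb']
  have hdu' := Sel1.du hsel hdu
  obtain ⟨τ, hτ⟩ : ∃ τ, τ = Real.exp (-(399 / 800 * L)) := ⟨_, rfl⟩
  have hκ' : M'.κ = M.κ + τ := by rw [hτ]; exact hsel.hκ
  rw [← hτ] at hdu' hsupS
  have hτ0 : 0 < τ := by rw [hτ]; exact Real.exp_pos _
  have he2 : 0 < e ^ 2 := by positivity
  have hAτ : A * τ ≤ e ^ 2 := by rw [hτ]; exact exp_small he2 q1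
  obtain ⟨hτe, hτκ, hτe1⟩ := small_num hκm hA he he1 hτ0.le hAτ
  have hκ'0 : 0 ≤ M'.κ := by rw [hκ']; linarith [hB.κ0]
  have hκ'1 : M'.κ ≤ 2 * κm := by rw [hκ']; linarith
  have hgr' := Hgr k M' _ hκ'0 (hκ'1.trans k3) hmg
  have hb' : Cg * M'.κ ≤ 1 / 8 :=
    (mul_le_mul_of_nonneg_left (hκ'1.trans k3) hCg.le).trans hCκg
  have hgr1 := GrB.gr1 hgr' hb'
  have hV := stat_VD hB.int hB.st
  have hTh : 1 ≤ Th m (VD D) x := by rw [hB.Th]; exact_mod_cast hB.Q1
  have hu0 : ‖M'.u 0‖ ≤ τ := by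
    refine u0_le (A := Real.exp (l - e)) hV hm hS (Real.exp_pos _)
      ((Metric.closedBall_subset_closedBall (by linarith)).trans hB.sub) hTh hgr'.cu.continuous hsupS
  obtain ⟨r1, r2, r3⟩ := radii (s := l - M.lb) he he1 (by linarith)
  have eR : l - 2 * e - M.lb = l - M.lb - 2 * e := by ring
  rw [eR] at hmg
  obtain ⟨R, hR⟩ : ∃ R, R = Real.exp (l - M.lb - 2 * e) := ⟨_, rfl⟩
  rw [← hR] at hmg r2 r3
  have hR1 : R ≤ 1 := by rw [hR]; exact Real.exp_le_one_iff.2 (by linarith)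
  have hf : Frame M'.π M'.ρ := by rw [hsel.hπ, hsel.hρ]; exact hB.pack.frame
  obtain ⟨B, u', X0, q, H, H', hB0, hAB, hO⟩ := HO L R M'.κ M'.u k M'.π M'.ρ lo hf r3 hR1 hκ'0
    (hκ'1.trans k2) hmg hgr1 (by rw [← hτ]; exact hu0) (by rw [← hτ]; exact hdu')
  rw [← hedef] at hAB hO
  obtain ⟨hBe, hBκ, hBe1⟩ := small_num hκm hA he he1 hB0 hAB
  have hBL : 100 * (τ + B) ≤ 1 / L := by
    have h1 : 1 / (64 * L) = 1 / L / 64 := by field_simp
    have h2 : 0 < 1 / L := by positivity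
    rw [hesq, h1] at hBe hτe
    linarith
  have hq := hO.q_le
  have hX := hO.X_le
  have hq0 := norm_nonneg q
  have hq1 : ‖q‖ ≤ 1 := by nlinarith
  have hRp : (1 - e) * R ≤ R := by
    have : 0 ≤ R := by rw [hR]; positivity
    nlinarith
  obtain ⟨M'', hM''⟩ : ∃ M'' : Mo m n k, M'' = rotM M' u' q H H' B (23 / 20 * L) := ⟨_, rfl⟩
  have f1 : M''.π = rπ M'.π M'.ρ q H := by rw [hM'']; rfl
  have f2 : M''.ρ = rρ M'.π M'.ρ q H' := by rw [hM'']; rfl
  have f3 : M''.lb = M'.lb := by rw [hM'']; rfl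
  have f4 : M''.u = u' := by rw [hM'']; rfl
  have f5 : M''.κ = M'.κ + B := by rw [hM'']; rfl
  have f6 : M''.Lb = 23 / 20 * L := by rw [hM'']; rfl
  have f7 : M''.S = M.S := by unfold Mo.S; rw [f3, hlb']
  have hf'' : Frame M''.π M''.ρ := by rw [f1, f2]; exact Grot_842.frame_rot hf hO.rt
  have hang : ‖hp M''.π - hp M.π‖ ≤ 4 * B := by
    rw [← hsel.hπ, f1]
    exact (hp_rot_le hf hO.rt hq1).trans (by linarith)
  have hκ''0 : 0 ≤ M''.κ := by rw [f5]; linarith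
  have hκ''1 : M''.κ ≤ 2 * κm := by rw [f5, hκ']; linarith
  have hmg'' : MG N M''.κ ((1 - e) * R) M''.u := by rw [f4, f5]; exact hO.mg
  have hgr'' := Hgr k M'' _ hκ''0 (hκ''1.trans k3) hmg''
  have hb'' : Cg * M''.κ ≤ 1 / 8 :=
    (mul_le_mul_of_nonneg_left (hκ''1.trans k3) hCg.le).trans hCκg
  have hgr1'' := GrB.gr1 hgr'' hb''
  have hFP'' : FlatPack D x Q M'.S ε₀ Λ M''.π M''.ρ := by
    rw [hS']
    exact hFP _ _ hf'' (hang.trans (by linarith))
  have hder : fderiv ℝ M''.u 0 = 0 := by rw [f4]; exact hO.der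
  have hr12 : Real.exp (l - M.lb - 12 * e) ≤ Real.exp (l - M.lb - 23 / 2 * e) :=
    Real.exp_le_exp.2 (by linarith)
  -- `I`
  have hS8 : M.S ≤ 8 * Real.exp (l - 11 * e) := S_le8 (by linarith)
  have hsupM' : ∀ᵐ p ∂(VD D), ‖M'.π (p.1 - x)‖ ≤ Real.exp (l - 11 * e) →
      ‖M'.ρ (p.1 - x)‖ ≤ M'.S →
      ‖hgt M'.π M'.ρ x M'.S M'.u p.1‖ ≤ e / 8 * Real.exp (l - 11 * e) := by
    rw [hS', hsel.hπ, hsel.hρ]
    filter_upwards [hsupS] with p hp g1 g2
    refine (hp (g1.trans (Real.exp_le_exp.2 (by linarith))) g2).trans ?_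
    have h1 := mul_le_mul_of_nonneg_right hS8 hτ0.le
    have h2 := Real.exp_pos (l - 11 * e)
    have h3 : 8 * Real.exp (l - 11 * e) * τ = (8 * τ) * Real.exp (l - 11 * e) := by ring
    rw [h3] at h1
    refine h1.trans (mul_le_mul_of_nonneg_right ?_ h2.le)
    linarith
  have hI := HR U D x ε₀ M' M'' (l - 11 * e) e B q H H' hbk (hκ'1.trans k1)
    (hε.trans (min_le_right _ _)) hO.rt f1 f2 f3 hFP''
    (hmg''.mono (hκ''1.trans k1) (by
      have : 0 ≤ R := by rw [hR]; positivity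
      exact mul_nonneg (by linarith) this)) he (by linarith) (by linarith) (by linarith) (by
      rw [hder, norm_zero]; linarith) (by rw [hlb']; linarith) (by
      rw [f4]
      refine rel_of hO (fun X => (hgr'.b0 X).trans (by linarith)) ?_ ?_
      · have e3 : l - 11 * e - e / 2 - M'.lb = l - M.lb - 23 / 2 * e := by rw [hlb']; ring
        rw [e3]
        linarith
      · have e3 : l - 11 * e - e / 2 - M'.lb = l - M.lb - 23 / 2 * e := by rw [hlb']; ring
        rw [e3]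
        linarith) (by rw [f4]; exact hO.d0) (by rw [f4]; exact hO.d1) (by linarith) hsupM'
  have hI2 := I_num he he1 hCR hIpos hlam q2 hI
  -- sup
  have hsup2 := F10v_188.rot_sup (V := VD D) (t := M.S) (x := x) (u := M'.u) (u' := u')
    (r := R) (R' := (1 - e) * R) (r' := Real.exp (l - M.lb - 12 * e)) (hh := τ)
    (c := H' (M'.u X0 - q X0)) hf hO.rt hS hO.foot rfl (fun y y' => by
      have h1 := hgr1''.lip y y'
      rw [f4] at h1
      have := norm_nonneg (y - y')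
      linarith) hq1 hO.fwd (by linarith) (Real.exp_pos _).le (by linarith) (by
      have h1 : ‖q‖ * τ ≤ 1 * τ := mul_le_mul_of_nonneg_right hq1 hτ0.le
      linarith) (by
      rw [hsel.hρ]
      filter_upwards [hB.pack.supae] with p hp g1
      refine (hp g1).trans ?_
      have : ε₀ * M.S ≤ 1 * M.S :=
        mul_le_mul_of_nonneg_right (hε.trans (min_le_left _ _)) hS.le
      linarith) (by
      rw [hsel.hπ, hsel.hρ]
      filter_upwards [hsupS] with p hp g1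
      rw [mul_comm τ M.S]
      refine hp (g1.1.trans ?_) g1.2
      have h1 : R * M.S = Real.exp (l - 2 * e) := by
        rw [hR, mul_comm]
        unfold Mo.S
        rw [← Real.exp_add]; congr 1; ring
      rw [h1]
      exact Real.exp_le_exp.2 (by linarith))
  rw [← f1, ← f2, ← f4] at hsup2
  have hsup3 : SupLe M'' x (VD D) (Real.exp (l - 12 * e - M''.lb)) (Real.exp (-(M''.Lb / 4))) := by
    refine supLe_of f7 ?_ ?_ hsup2
    · rw [f7, f3, hlb', mul_comm]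
      congr 2
      ring
    · rw [f6, hτ]
      exact two_tau hL100
  refine ⟨M'', by rw [f3, hlb'], f6, ⟨⟨hf'', hκ''0, hκ''1.trans hcκ, ?_, ?_⟩, ?_, ?_⟩, ?_⟩
  · rw [hcN]
    refine hmg''.mono le_rfl ?_
    have e3 : l - 12 * e - M''.lb = l - M.lb - 12 * e := by rw [f3, hlb']; ring
    rw [e3]
    linarith
  · rw [hder, norm_zero]
  · rw [f6]; exact hI2
  · exact hsup3
  · rw [f5, hκ']
    linarith

end Crest.Agent.R234.F11d_188
end
end

-- ▼ part R234/Top1_456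
section

/-!
# Row 234, (F8) START (helper456): `top` = the flat plane as a pre-state at the level `S`

* `mg_zero`, `plS_spec`, `plane_of_flat`
* `exists_pst` : the plane is a pre-state when the excess is small
* **`topAll`** : field `top` of `Thy` in the prefix `Ev` of `Thya1_685`
-/

set_option autoImplicit false
set_option linter.unusedVariables false

open MeasureTheory Filter Topology Set
open scoped ENNReal NNReal ContDiff InnerProductSpace
open Crest.GeometryTopology.Submanifold Crest.Agent.R234.Vf_884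
open Crest.Agent.R234.Main_456 (Frame Msys hgt)
open Crest.Agent.R234.AS_456 (hp vp)
open Crest.Agent.R234.MG_570 (MG)
open Crest.Agent.R234.Gi_456
open Crest.Agent.R234.GL_394 (Ok On VK II)
open Crest.Agent.R234.GI_640 (g3 g31)
open Crest.Agent.R234.Stp_518 Crest.Agent.R234.F10w_188
open Crest.Agent.R234.F10a_188 Crest.Agent.R234.F10b_188 Crest.Agent.R234.F10d_188
open Crest.Agent.R234.Top_395
open Crest.Agent.R234.Lvs_214
open Crest.Agent.R234.End_395 (Cmp cmp_ch ig)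

noncomputable section

namespace Crest.Agent.R234.Up_456

variable {m n k : ℕ}

theorem mg_zero (m n N : ℕ) (R : ℝ) : MG (m := m) (n := n) N 0 R (fun _ => 0) := by
  refine ⟨0, fun α => by simp, by simp, fun x α => ?_, fun z hz => ?_⟩
  · simp [Mx1_397.ev_zero]
  · show Msys (fun _ => (0 : Euc n)) z = 0
    unfold Msys
    have e1 : fderiv ℝ (fun _ : Euc m => (0 : Euc n)) = 0 := by
      ext1 y; simp
    rw [e1]
    simp

/-- the plane chosen by `plS` -/
theorem plS_spec {V : Measure (Euc k × L k)} {x : Euc k} {om r : ℝ}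
    (h : ∃ P ∈ G m k, pex m V P x r ≤ om) :
    plS m V x om r ∈ G m k ∧ pex m V (plS m V x om r) x r ≤ om := by
  unfold plS
  rw [dif_pos h]
  exact h.choose_spec

/-- flatness at the scale `e^(S + c₀)` gives a plane at the scale `8 e^(S + 1/8)` -/
theorem plane_of_flat {U : Set (Euc k)} {V : Measure (Euc k × L k)} {x : Euc k} {om c₀ r₁ S : ℝ}
    (hV : Stat m k U V) (hU : Metric.closedBall x r₁ ⊆ U) (hc₀ : 4 ≤ c₀) (hom : 0 ≤ om)
    (h : flatL m V x om c₀ r₁ S) :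
    8 * Real.exp (S + 1 / 8) ≤ r₁ ∧
      ∃ P ∈ G m k, pex m V P x (8 * Real.exp (S + 1 / 8)) ≤ om * Real.exp ((m + 2) * c₀) := by
  obtain ⟨h1, P, hP, h2⟩ := h
  have hE := Real.exp_pos S
  have e8 : (8 : ℝ) ≤ Real.exp 3 := by
    have h1 : Real.exp 3 = Real.exp 1 ^ 3 := by rw [← Real.exp_nat_mul]; norm_num
    rw [h1]
    have h2 : (2.7182818283 : ℝ) < Real.exp 1 := Real.exp_one_gt_d9
    calc (8 : ℝ) ≤ 2.7182818283 ^ 3 := by norm_num
      _ ≤ Real.exp 1 ^ 3 := pow_le_pow_left₀ (by norm_num) h2.le 3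
  have h3 : 8 * Real.exp (S + 1 / 8) ≤ Real.exp (S + c₀) := by
    calc 8 * Real.exp (S + 1 / 8) ≤ Real.exp 3 * Real.exp (S + 1 / 8) :=
          mul_le_mul_of_nonneg_right e8 (Real.exp_pos _).le
      _ = Real.exp (S + 1 / 8 + 3) := by rw [← Real.exp_add]; congr 1; ring
      _ ≤ Real.exp (S + c₀) := Real.exp_le_exp.2 (by linarith)
  refine ⟨h3.trans h1, P, hP, ?_⟩
  have hp : 0 < 8 * Real.exp (S + 1 / 8) := by positivity
  have h4 := pex_mono (P := P) hV hp h3 ((Metric.closedBall_subset_closedBall h1).trans hU)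
  have h5 : Real.exp (S + c₀) ^ (m + 2) * pex m V P x (Real.exp (S + c₀)) ≤
      Real.exp (S + c₀) ^ (m + 2) * om := mul_le_mul_of_nonneg_left h2 (by positivity)
  have h6 : Real.exp (S + c₀) ^ (m + 2) ≤
      (8 * Real.exp (S + 1 / 8)) ^ (m + 2) * Real.exp ((m + 2) * c₀) := by
    have e1 : Real.exp ((m + 2) * c₀) = Real.exp c₀ ^ (m + 2) := by
      rw [← Real.exp_nat_mul]; push_cast; rfl
    rw [e1, ← mul_pow]
    refine pow_le_pow_left₀ (Real.exp_pos _).le ?_ _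
    have e2 : Real.exp (S + c₀) = Real.exp S * Real.exp c₀ := Real.exp_add _ _
    have e3 : Real.exp S ≤ Real.exp (S + 1 / 8) := Real.exp_le_exp.2 (by linarith)
    rw [e2]
    refine mul_le_mul_of_nonneg_right ?_ (Real.exp_pos _).le
    have := Real.exp_pos (S + 1 / 8)
    linarith
  have h7 : Real.exp (S + c₀) ^ (m + 2) * om ≤
      (8 * Real.exp (S + 1 / 8)) ^ (m + 2) * Real.exp ((m + 2) * c₀) * om :=
    mul_le_mul_of_nonneg_right h6 hom
  have h8 : (8 * Real.exp (S + 1 / 8)) ^ (m + 2) * pex m V P x (8 * Real.exp (S + 1 / 8)) ≤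
      (8 * Real.exp (S + 1 / 8)) ^ (m + 2) * (om * Real.exp ((m + 2) * c₀)) := by
    calc _ ≤ _ := h4.trans (h5.trans h7)
      _ = _ := by ring
  exact le_of_mul_le_mul_left h8 (by positivity)

/-- `I` from a bound of the heights -/
theorem I_le_of_hgt {Q : ℕ} {U : Set (Euc k)} {D : VarifoldData m k} {x : Euc k}
    (hD : IsIntegralVarifoldIn U D) (hst : IsStationaryIn U D) {M : Mo m n k} {a ε l : ℝ}
    (h : Wb M a) (hf : Frame M.π M.ρ) (hU : Metric.closedBall x (8 * M.S) ⊆ U)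
    (hrat : rat m (VD D) x (4 * M.S) ≤ ENNReal.ofReal (Q + 1)) (hl : l ≤ M.lb) (hε : 0 ≤ ε)
    (hh : ∀ᵐ p ∂(VD D), p.1 ∈ Metric.ball x (4 * M.S) →
      ‖hgt M.π M.ρ x M.S M.u p.1‖ ≤ ε * M.S) :
    M.I x (VD D) l ≤ Real.exp (-m * l) *
      (27 / 2 * (ε * M.S) ^ 2 * ((Q + 1) * (ome m * (4 * M.S) ^ m))) := by
  have hS := M.S_pos
  have hV := stat_VD hD hst
  have hfin8 : (VD D) (Metric.closedBall x (8 * M.S) ×ˢ univ) < ⊤ :=
    hV.fin _ (isCompact_closedBall _ _) hU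
  have hreg4 : M.reg x ⊆ Metric.ball x (4 * M.S) := reg_sub_ball4 h hf
  have hfin : (VD D) (M.reg x ×ˢ univ) < ⊤ :=
    lt_of_le_of_lt (measure_mono (Set.prod_mono (h.reg_sub_ball hf) le_rfl)) hfin8
  have hint := int_ig (h.ok hf (x := x)) hfin l
  have hm1 : MeasurableSet (M.reg x ×ˢ (univ : Set (L k))) :=
    (h.measurableSet_reg x).prod MeasurableSet.univ
  have hcM := h.cmp hf hl (x := x)
  have hfm : IsFiniteMeasure ((VD D).restrict (M.reg x ×ˢ univ)) := ⟨by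
    rw [Measure.restrict_apply_univ]; exact hfin⟩
  have hle : ∀ᵐ p ∂((VD D).restrict (M.reg x ×ˢ univ)),
      ig (M.ch x) g31 l p ≤ 27 / 2 * (ε * M.S) ^ 2 := by
    filter_upwards [ae_restrict_of_ae hh, ae_restrict_mem hm1] with p hp1 hp2
    by_cases hx : ‖(M.ch x).x p.1‖ ≤ Real.exp l
    · have e1 := hp1 (hreg4 hp2.1)
      have e2 : ‖hgt M.π M.ρ x M.S M.u p.1‖ ^ 2 ≤ (ε * M.S) ^ 2 :=
        pow_le_pow_left₀ (norm_nonneg _) e1 2
      have e3 := hcM.f1 p.1 hp2.1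
      have e4 := (hcM.mu p.1 hp2.1 hx).2
      have e5 := (Wb.mu_pos M x ((M.ch x).x p.1)).le
      have e6 := ker_up (Real.exp (-2 * l) * ‖(M.ch x).x p.1‖ ^ 2) (by positivity)
      have e7 : 0 ≤ -4 * g31 (Real.exp (-2 * l) * ‖(M.ch x).x p.1‖ ^ 2) := by
        have := GI_640.g31_nonpos (Real.exp (-2 * l) * ‖(M.ch x).x p.1‖ ^ 2)
        linarith
      have e8 := Wb.f_nonneg M x p.1
      show ((M.ch x).f p.1 * (M.ch x).mu ((M.ch x).x p.1)) *
        (-4 * g31 (Real.exp (-2 * l) * ‖(M.ch x).x p.1‖ ^ 2)) ≤ _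
      have e9 : (M.ch x).f p.1 * (M.ch x).mu ((M.ch x).x p.1) ≤ (M.ch x).f p.1 * (3 / 2) :=
        mul_le_mul_of_nonneg_left e4 e8
      calc _ ≤ ((M.ch x).f p.1 * (3 / 2)) * 12 := mul_le_mul e9 e6 e7 (by positivity)
        _ = 9 * (2 * (M.ch x).f p.1) := by ring
        _ ≤ 9 * (3 / 2 * ‖hgt M.π M.ρ x M.S M.u p.1‖ ^ 2) := by gcongr
        _ ≤ 9 * (3 / 2 * (ε * M.S) ^ 2) := by gcongr
        _ = _ := by ring
    · rw [ig_zero (M.ch x) hx]
      positivity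
  have hmass : (VD D).real (M.reg x ×ˢ univ) ≤ (Q + 1) * (ome m * (4 * M.S) ^ m) := by
    refine le_trans ?_ (real_ball_le (V := VD D) (x := x) (by positivity) (by positivity) hrat)
    refine ENNReal.toReal_mono ?_ (measure_mono (Set.prod_mono hreg4 le_rfl))
    refine (lt_of_le_of_lt (measure_mono (Set.prod_mono ?_ le_rfl)) hfin8).ne
    exact Metric.ball_subset_closedBall.trans (Metric.closedBall_subset_closedBall (by linarith))
  show Real.exp (-m * l) * ∫ p in M.reg x ×ˢ univ, ig (M.ch x) g31 l p ∂(VD D) ≤ _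
  refine mul_le_mul_of_nonneg_left ?_ (Real.exp_pos _).le
  calc ∫ p in M.reg x ×ˢ univ, ig (M.ch x) g31 l p ∂(VD D)
      ≤ ∫ p in M.reg x ×ˢ univ, 27 / 2 * (ε * M.S) ^ 2 ∂(VD D) :=
        integral_mono_ae hint (integrable_const _) hle
    _ = 27 / 2 * (ε * M.S) ^ 2 * (VD D).real (M.reg x ×ˢ univ) := by
        rw [integral_const, smul_eq_mul, measureReal_restrict_apply_univ, mul_comm]
    _ ≤ _ := mul_le_mul_of_nonneg_left hmass (by positivity)

/-- **the plane is a pre-state** -/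
theorem exists_pst (m n Q : ℕ) (hm : 1 ≤ m) (hQ : 1 ≤ Q) (Lb : ℝ) : ∃ wz : ℝ, 0 < wz ∧ wz ≤ 1 ∧
    ∀ (c : Cn), 2 ≤ c.N → 0 ≤ c.κ₀ → ∀ (U : Set (Euc (m + n))) (D : VarifoldData m (m + n))
      (x : Euc (m + n)) (S : ℝ) (P : L (m + n)), IsOpen U → IsIntegralVarifoldIn U D →
        IsStationaryIn U D → Metric.closedBall x (8 * Real.exp (S + 1 / 8)) ⊆ U →
        Th m (VD D) x = (Q : ℝ≥0∞) →
        rat m (VD D) x (8 * Real.exp (S + 1 / 8)) ≤ (Q : ℝ≥0∞) + ENNReal.ofReal wz →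
        P ∈ G m (m + n) → pex m (VD D) P x (8 * Real.exp (S + 1 / 8)) ≤ wz →
        ∃ M : Mo m n (m + n), M.lb = S + 1 / 8 ∧ M.Lb = Lb ∧ M.κ = 0 ∧ hp M.π = P ∧
          Pst c (VD D) x M S := by
  have ho := ome_pos m
  set C₁ : ℝ := 27 / 2 * ((Q + 1) * (ome m * 4 ^ m)) * Real.exp ((m + 2) * (1 / 8)) with hC₁
  have hC₁0 : 0 < C₁ := by positivity
  set ε : ℝ := Real.exp (-(|Lb| / 2)) / (16 * (1 + C₁)) with hε
  have hE0 : 0 < Real.exp (-(|Lb| / 2)) := Real.exp_pos _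
  have hE1 : Real.exp (-(|Lb| / 2)) ≤ 1 := Real.exp_le_one_iff.2 (by have := abs_nonneg Lb; linarith)
  have hε0 : 0 < ε := by positivity
  have hεE : ε ≤ Real.exp (-(|Lb| / 2)) / 16 := by
    rw [hε]
    exact div_le_div_of_nonneg_left hE0.le (by norm_num) (by linarith)
  have hε1 : ε < 1 := by linarith
  have hε2 : C₁ * ε ^ 2 ≤ Real.exp (-Lb) := by
    have e1 : ε ^ 2 = Real.exp (-|Lb|) / (256 * (1 + C₁) ^ 2) := by
      rw [hε, div_pow, ← Real.exp_nat_mul, mul_pow]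
      congr 1
      · congr 1; push_cast; ring
      · norm_num
    rw [e1]
    have e2 : Real.exp (-|Lb|) ≤ Real.exp (-Lb) := Real.exp_le_exp.2 (by
      have := le_abs_self Lb; linarith)
    have e3 : C₁ * (Real.exp (-|Lb|) / (256 * (1 + C₁) ^ 2)) =
        (C₁ / (256 * (1 + C₁) ^ 2)) * Real.exp (-|Lb|) := by ring
    rw [e3]
    have e4 : C₁ / (256 * (1 + C₁) ^ 2) ≤ 1 := by
      rw [div_le_one (by positivity)]
      nlinarith
    have e5 := Real.exp_pos (-|Lb|)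
    calc _ ≤ 1 * Real.exp (-|Lb|) := mul_le_mul_of_nonneg_right e4 e5.le
      _ ≤ _ := by linarith
  have hε3 : ε ≤ Real.exp (-(Lb / 4)) := by
    have e1 : Real.exp (-(|Lb| / 2)) ≤ Real.exp (-(Lb / 4)) := Real.exp_le_exp.2 (by
      have := le_abs_self Lb; have := abs_nonneg Lb; linarith)
    linarith
  obtain ⟨Λ, hΛ, H⟩ := flatPack_of (m := m) (n := n) (k := m + n) hm Q hQ
  obtain ⟨wz, hwz, hwz1, H⟩ := H ε hε0 hε1
  refine ⟨wz, hwz, hwz1, ?_⟩
  intro c hN hκ₀ U D x S P hU hD hst hxU hTh hrat hP hpex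
  obtain ⟨π, ρ, hf, hhp⟩ := exists_frame (n := n) (k := m + n) rfl hP
  have ht : 0 < Real.exp (S + 1 / 8) := Real.exp_pos _
  have pk := H hU hD hst ht hxU hTh hrat π ρ hf (by rw [hhp]; exact hpex)
  set M : Mo m n (m + n) := ⟨π, ρ, S + 1 / 8, fun _ => 0, 0, 32, Lb, 0, 0⟩ with hM
  have hMS : M.S = Real.exp (S + 1 / 8) := rfl
  have hh : ∀ z, hgt M.π M.ρ x M.S M.u z = ρ (z - x) := by
    intro z
    show ρ (z - x) - M.S • (0 : Euc n) = _
    rw [smul_zero, sub_zero]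
  obtain ⟨Cw, hCw, HC⟩ := exists_wb m n (N := c.N) hN
  have hW : Wb M (Cw * 0) := HC (M := M) (κ := 0) (r := 0) le_rfl (by simp) (mg_zero m n c.N 0)
  refine ⟨M, rfl, rfl, rfl, hhp, ⟨⟨hf, le_rfl, hκ₀, mg_zero m n c.N _, ?_⟩, ?_, ?_⟩⟩
  · show ‖fderiv ℝ (fun _ : Euc m => (0 : Euc n)) 0‖ ≤ 0
    simp
  · have hrat4 : rat m (VD D) x (4 * M.S) ≤ ENNReal.ofReal (Q + 1) := by
      refine pk.near.2.2.trans ?_
      rw [ENNReal.ofReal_add (by positivity) (by norm_num), ENNReal.ofReal_natCast]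
      exact add_le_add le_rfl (ENNReal.ofReal_le_ofReal hε1.le)
    have h1 := I_le_of_hgt (Q := Q) (x := x) (M := M) (ε := ε) (l := S) hD hst hW hf hxU hrat4
      (show S ≤ S + 1 / 8 by linarith) hε0.le (by
        filter_upwards [pk.supae] with p hp h2
        rw [hh]
        exact hp h2)
    refine h1.trans ?_
    have e1 : Real.exp (-m * S) * (27 / 2 * (ε * M.S) ^ 2 * ((Q + 1) * (ome m * (4 * M.S) ^ m))) =
        (C₁ * ε ^ 2) * Real.exp (2 * S) := by
      rw [hC₁, hMS]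
      have e2 : Real.exp (-m * S) * (Real.exp (S + 1 / 8) ^ 2 * Real.exp (S + 1 / 8) ^ m) =
          Real.exp ((m + 2) * (1 / 8)) * Real.exp (2 * S) := by
        rw [← Real.exp_nat_mul, ← Real.exp_nat_mul, ← Real.exp_add, ← Real.exp_add,
          ← Real.exp_add]
        congr 1
        push_cast
        ring
      calc _ = (27 / 2 * ((Q + 1) * (ome m * 4 ^ m)) * ε ^ 2) *
            (Real.exp (-m * S) * (Real.exp (S + 1 / 8) ^ 2 * Real.exp (S + 1 / 8) ^ m)) := by ring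
        _ = _ := by rw [e2]; ring
    rw [e1]
    calc (C₁ * ε ^ 2) * Real.exp (2 * S) ≤ Real.exp (-Lb) * Real.exp (2 * S) :=
          mul_le_mul_of_nonneg_right hε2 (Real.exp_pos _).le
      _ = Real.exp (2 * S - M.Lb) := by
          rw [← Real.exp_add]; congr 1
          show -Lb + 2 * S = 2 * S - Lb
          ring
  · filter_upwards [pk.supae] with p hp h1 h2
    rw [hh]
    have h3 : ‖p.1 - x‖ < 4 * Real.exp (S + 1 / 8) := by
      have e1 : ‖p.1 - x‖ ^ 2 = ‖π (p.1 - x)‖ ^ 2 + ‖ρ (p.1 - x)‖ ^ 2 := by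
        rw [← norm_sq_frame hf, Frame.full_apply hf]
      have e2 : ‖π (p.1 - x)‖ ≤ 3 * Real.exp (S + 1 / 8) := h1
      have e3 : ‖ρ (p.1 - x)‖ ≤ Real.exp (S + 1 / 8) := h2
      have e4 := pow_le_pow_left₀ (norm_nonneg _) e2 2
      have e5 := pow_le_pow_left₀ (norm_nonneg _) e3 2
      refine abs_lt_of_sq_lt_sq' ?_ (by positivity) |>.2
      nlinarith [sq_nonneg (Real.exp (S + 1 / 8)), mul_pos ht ht]
    have h4 := hp (mem_ball_iff_norm.2 h3)
    have h5 : ε * Real.exp (S + 1 / 8) ≤ M.S * Real.exp (-(M.Lb / 4)) := by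
      rw [mul_comm]
      exact mul_le_mul_of_nonneg_left hε3 ht.le
    have h6 : 0 ≤ 1 / 8 * max 0 (‖M.π (p.1 - x)‖ - Real.exp S) := by positivity
    linarith

/-- the accuracy of the planes of the start -/
def om2 (m : ℕ) (d : Thya_685.Dt) : ℝ := d.om * Real.exp ((m + 2) * d.c₀)

/-- **field `top`** -/
theorem topAll (m n : ℕ) (hm : 1 ≤ m) : Thya_685.Ev fun _ Q d =>
    ∀ (U : Set (Euc (m + n))) (D : VarifoldData m (m + n)) (x : Euc (m + n)) (r₁ : ℝ),
      Env m U D Q x d.om r₁ → ∀ S, d.fl D x r₁ S →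
        ∃ M : Mo m n (m + n), (preW d.c (VD D) x (om2 m d) S).pre M S ∧
          d.Λ₀ ≤ (preW d.c (VD D) x (om2 m d) S).L M S ∧
          (preW d.c (VD D) x (om2 m d) S).κ M S ≤ d.κm / 2 := by
  refine ⟨0, fun Ks _ K _ Q hQ => ⟨2, fun N hN => ⟨0, fun T hT c₀ hc₀ G CK P K₀ k _ _ _ _ =>
    ⟨1, one_pos, fun κ₀ hκ0 hκ1 => ⟨0, fun L₁ hL₁ => ⟨0, fun Λ₀ hΛ₀ => ?_⟩⟩⟩⟩⟩⟩
  obtain ⟨wz, hwz, hwz1, H⟩ := exists_pst m n Q hm (by omega) Λ₀
  refine ⟨min wz (wz * Real.exp (-((m + 2) * c₀))), lt_min hwz (by positivity), ?_⟩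
  intro om hom0 hom U D x r₁ hE S hS
  have ho1 := hom.trans (min_le_left _ _)
  have ho2 : om * Real.exp ((m + 2) * c₀) ≤ wz := by
    have h1 := mul_le_mul_of_nonneg_right (hom.trans (min_le_right _ _))
      (Real.exp_pos ((m + 2) * c₀)).le
    rwa [mul_assoc, ← Real.exp_add, neg_add_cancel, Real.exp_zero, mul_one] at h1
  have hV := stat_VD hE.int hE.st
  obtain ⟨f1, f2⟩ := plane_of_flat hV hE.sub (by linarith) hom0.le hS
  obtain ⟨g1, g2⟩ := plS_spec f2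
  have hrat := (hE.drop (8 * Real.exp (S + 1 / 8)) (by positivity) f1).trans
    (add_le_add le_rfl (ENNReal.ofReal_le_ofReal ho1))
  obtain ⟨M, a1, a2, a3, a4, a5⟩ := H ⟨N, Ks, T, κ₀, L₁, G, CK⟩ hN hκ0.le U D x S _ hE.opn hE.int
    hE.st ((Metric.closedBall_subset_closedBall f1).trans hE.sub) hE.Th hrat g1 (g2.trans ho2)
  refine ⟨M, ⟨a1, a5⟩, ?_, ?_⟩
  · show Λ₀ ≤ M.Lb
    rw [a2]
  · show M.κ + ‖hp M.π - plS m (VD D) x (om * Real.exp ((m + 2) * c₀))
      (8 * Real.exp (S + 1 / 8))‖ ≤ κ₀ * Real.exp (-(4 / 5 * (T + 1))) / 2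
    rw [a3, a4, sub_self, norm_zero, add_zero]
    positivity

end Crest.Agent.R234.Up_456
end
end

-- ▼ part R234/Top2_456
section

/-!
# Row 234, (F8) START (helper456): `cmp`, `cmp'` = comparison of `exp (-Λ)` with the heights

* `Wb.c11`, `lowr_core`
* **`cmpAll`** : fields `cmp` and `cmp'` of `Thy` in the prefix `Ev` of `Thya1_685`
-/

set_option autoImplicit false
set_option linter.unusedVariables false

open MeasureTheory Filter Topology Set
open scoped ENNReal NNReal ContDiff InnerProductSpace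
open Crest.GeometryTopology.Submanifold Crest.Agent.R234.Vf_884
open Crest.Agent.R234.Main_456 (Frame Msys hgt)
open Crest.Agent.R234.AS_456 (hp vp)
open Crest.Agent.R234.MG_570 (MG)
open Crest.Agent.R234.Stp_518 Crest.Agent.R234.F10w_188
open Crest.Agent.R234.F10a_188 Crest.Agent.R234.F10b_188 Crest.Agent.R234.F10d_188
open Crest.Agent.R234.Top_395
open Crest.Agent.R234.Lvs_214

noncomputable section

namespace Crest.Agent.R234.Up_456

variable {m n k : ℕ}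

theorem c11_of_wb {M : Mo m n k} {a : ℝ} (h : Wb M a) (A : ℝ) :
    C11 (1 / 8) A M.u (fderiv ℝ M.u) where
  der := fun w _ => (h.cd.differentiable (by norm_num) w).hasFDerivAt
  zero := (h.b0 0).trans h.a8
  bd := fun w _ => (h.b1 w).trans h.a8
  lip := by
    intro w _ w' _
    have h0 : ContDiff ℝ 1 (fderiv ℝ M.u) := h.cd.fderiv_right (by norm_num)
    have h1 := convex_univ.norm_image_sub_le_of_norm_fderiv_le (𝕜 := ℝ) (f := fderiv ℝ M.u)
      (C := 1 / 8) (fun y _ => h0.differentiable (by norm_num) y)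
      (fun y _ => (h.b2 y).trans h.a8) (mem_univ w') (mem_univ w)
    exact h1

/-- `Lowr` from `LowV` -/
theorem lowr_core (m n N : ℕ) (T : ℝ) (hm : 1 ≤ m) (hN : 2 ≤ N) (hT : 0 ≤ T) : ∃ κ₁ C : ℝ,
    0 < κ₁ ∧ 0 < C ∧ ∀ (V : Measure (Euc (m + n) × L (m + n))) (x : Euc (m + n))
      (M : Mo m n (m + n)) (l Λ : ℝ), Frame M.π M.ρ → 0 ≤ M.κ → M.κ ≤ κ₁ → MG N M.κ 0 M.u →
        M.lb - T ≤ l → l ≤ M.lb → V (Metric.closedBall x (8 * M.S) ×ˢ univ) < ⊤ →
        Real.exp (-2 * l) * M.I x V l ≤ Real.exp (-Λ) →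
        Lowr m n V x (1 / 8) (T + 3) 3 C l Λ := by
  obtain ⟨Cw, hCw, HC⟩ := exists_wb m n hN
  obtain ⟨κ₁, C, hκ₁, hC, H⟩ := lowV m n (m + n) N T hm hN
  have hCw0 : 0 < Cw := by linarith
  refine ⟨min κ₁ (1 / (8 * Cw)), C, lt_min hκ₁ (by positivity), hC, ?_⟩
  intro V x M l Λ hf hκ0 hκ hmg h1 h2 h3 h4
  have hW : Wb M (Cw * M.κ) := HC hκ0 (by
    have := hκ.trans (min_le_right _ _)
    rw [le_div_iff₀ (by positivity)] at this
    linarith) hmg
  have h5 := H V x M l hf hκ0 (hκ.trans (min_le_left _ _)) hmg h1 h2 h3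
  refine ⟨M.π, M.ρ, hf, M.u, fderiv ℝ M.u, M.lb, 2, ?_, ?_, c11_of_wb hW 2, ?_⟩
  · rw [abs_le]; constructor <;> linarith
  · have e1 : Real.exp (l - 3 - M.lb) ≤ 1 := Real.exp_le_one_iff.2 (by linarith)
    linarith
  · exact h5.trans (mul_le_mul_of_nonneg_left h4 hC.le)

/-- the ball of the block lies in the environment -/
theorem block_le {l c₀ r₁ T lb : ℝ} (h : Real.exp (l + c₀) ≤ r₁) (hc₀ : T + 4 ≤ c₀)
    (hl : lb - T ≤ l) : 8 * Real.exp lb ≤ r₁ := by
  have e8 : (8 : ℝ) ≤ Real.exp 3 := by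
    have h1 : Real.exp 3 = Real.exp 1 ^ 3 := by rw [← Real.exp_nat_mul]; norm_num
    rw [h1]
    have h2 : (2.7182818283 : ℝ) < Real.exp 1 := Real.exp_one_gt_d9
    calc (8 : ℝ) ≤ 2.7182818283 ^ 3 := by norm_num
      _ ≤ Real.exp 1 ^ 3 := pow_le_pow_left₀ (by norm_num) h2.le 3
  calc 8 * Real.exp lb ≤ Real.exp 3 * Real.exp lb :=
        mul_le_mul_of_nonneg_right e8 (Real.exp_pos _).le
    _ = Real.exp (3 + lb) := by rw [← Real.exp_add]
    _ ≤ Real.exp (l + c₀) := Real.exp_le_exp.2 (by linarith)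
    _ ≤ r₁ := h

/-- **fields `cmp`, `cmp'`** -/
theorem cmpAll (m n : ℕ) (hm : 1 ≤ m) : Thya_685.Ev fun _ Q d => ∃ Cc : ℝ, 0 < Cc ∧
    ∀ (U : Set (Euc (m + n))) (D : VarifoldData m (m + n)) (x : Euc (m + n)) (r₁ : ℝ),
      Env m U D Q x d.om r₁ →
        (∀ M l, d.fl D x r₁ l → (d.W D Q x).st M l →
          Lowr m n (VD D) x (1 / 8) (d.T + 3) 3 Cc l ((d.W D Q x).L M l)) ∧
        ∀ (om' S : ℝ) (M : Mo m n (m + n)) (l : ℝ), S - 1 ≤ l → l ≤ S → d.fl D x r₁ l →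
          (preW d.c (VD D) x om' S).pre M l →
          Lowr m n (VD D) x (1 / 8) (d.T + 3) 3 Cc l ((preW d.c (VD D) x om' S).L M l) := by
  refine ⟨0, fun Ks _ K _ Q hQ => ⟨2, fun N hN => ⟨2, fun T hT c₀ hc₀ G CK P K₀ k _ _ _ _ => ?_⟩⟩⟩
  obtain ⟨κ₁, C, hκ₁, hC, H⟩ := lowr_core m n N T hm hN (by linarith)
  refine ⟨κ₁, hκ₁, fun κ₀ hκ0 hκ1 => ⟨0, fun L₁ hL₁ => ⟨0, fun Λ₀ hΛ₀ =>
    ⟨1, one_pos, fun om hom0 hom => ⟨C, hC, ?_⟩⟩⟩⟩⟩
  intro U D x r₁ hE
  have hV := stat_VD hE.int hE.st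
  have hfin : ∀ {s : ℝ}, s ≤ r₁ → (VD D) (Metric.closedBall x s ×ˢ univ) < ⊤ := fun hs =>
    hV.fin _ (isCompact_closedBall _ _) ((Metric.closedBall_subset_closedBall hs).trans hE.sub)
  constructor
  · intro M l hl hst
    have hl1 : M.lb - T ≤ l := hst.lo
    have hl2 : l ≤ M.lb := by have := hst.rcd.hl; linarith
    have hrad : 0 ≤ M.rad l := by
      have h1 := hst.K32
      unfold Mo.rad
      positivity
    refine H (VD D) x M l _ hst.cls.frame hst.cls.κ0 (hst.cls.κ1.trans hκ1)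
      (hst.cls.mg.mono le_rfl hrad) hl1 hl2 (hfin (block_le hl.1 hc₀ hl1)) (le_of_eq ?_)
    show Real.exp (-2 * l) * M.I x (VD D) l = Real.exp (-(2 * l - Real.log (M.I x (VD D) l)))
    rw [show -(2 * l - Real.log (M.I x (VD D) l)) = -2 * l + Real.log (M.I x (VD D) l) by ring,
      Real.exp_add, Real.exp_log hst.pos]
  · rintro om' S M l h1 h2 hl ⟨h3, h4⟩
    have hl1 : M.lb - T ≤ l := by rw [h3]; linarith
    have hl2 : l ≤ M.lb := by rw [h3]; linarith
    refine H (VD D) x M l _ h4.cls.frame h4.cls.κ0 (h4.cls.κ1.trans hκ1)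
      (h4.cls.mg.mono le_rfl (Real.exp_pos _).le) hl1 hl2 (hfin (block_le hl.1 hc₀ hl1)) ?_
    show _ ≤ Real.exp (-M.Lb)
    calc Real.exp (-2 * l) * M.I x (VD D) l ≤ Real.exp (-2 * l) * Real.exp (2 * l - M.Lb) :=
          mul_le_mul_of_nonneg_left h4.I_le (Real.exp_pos _).le
      _ = Real.exp (-M.Lb) := by rw [← Real.exp_add]; congr 1; ring

end Crest.Agent.R234.Up_456
end
end

-- ▼ part R234/F11e_188
section

/-!
# Row 234, (F8) START, F11e (helper188): the pre-world and its first properties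

* `preP` : the pre-world of the start (pre-states `Ps`).
* `topP`, `cmpP` : fields `top`, `cmp`, `cmp'` of `Thy` for it.
* `flat_shrink`, `plane_at` : flatness at nearby levels.
-/

set_option autoImplicit false
set_option linter.unusedVariables false

open MeasureTheory Filter Topology Set
open scoped ENNReal NNReal ContDiff
open Crest.GeometryTopology.Submanifold Crest.Agent.R234.Vf_884
open Crest.Agent.R234.Main_456 (Frame Msys hgt NearQ)
open Crest.Agent.R234.AS_456 (hp vp)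
open Crest.Agent.R234.MG_570 (MG SelP3)
open Crest.Agent.R234.F10a_188 Crest.Agent.R234.F10b_188 Crest.Agent.R234.F10d_188
open Crest.Agent.R234.Top_395 Crest.Agent.R234.Stp_518
open Crest.Agent.R234.F10t_188 Crest.Agent.R234.F10w_188 Crest.Agent.R234.F10y_188
open Crest.Agent.R234.F10z_188 Crest.Agent.R234.F11a_188 Crest.Agent.R234.F11b_188
open Crest.Agent.R234.F11c_188 Crest.Agent.R234.F11d_188
open Crest.Agent.R234.Up_456 (om2 topAll cmpAll lowr_core block_le plS_spec)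

noncomputable section

namespace Crest.Agent.R234.F11e_188

variable {m n k : ℕ}

/-- the pre-world at the starting level `S`. -/
def preP (c : Cn) (V : Measure (Euc k × L k)) (x : Euc k) (om S : ℝ) : Pre (Mo m n k) where
  pre := fun M l => M.lb = S + 1 / 8 ∧ Ps c V x M l
  L := fun M _ => M.Lb
  κ := fun M _ => M.κ + ‖hp M.π - plS m V x om (8 * Real.exp (S + 1 / 8))‖

theorem Ps.of_Pst {c : Cn} {V : Measure (Euc k × L k)} {x : Euc k} {M : Mo m n k} {l : ℝ}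
    (h : Pst c V x M l) (hl : l ≤ M.lb) : Ps c V x M l := by
  refine ⟨h.cls, h.I_le, ?_⟩
  unfold SupLe
  rw [S_mul_exp]
  filter_upwards [h.cone] with p hp g1 g2
  have hS := M.S_pos
  have h1 : Real.exp l ≤ M.S := Real.exp_le_exp.2 hl
  have h2 := hp (g1.trans (by linarith)) g2
  have h3 : max 0 (‖M.π (p.1 - x)‖ - Real.exp l) = 0 := max_eq_left (by linarith)
  rwa [h3, mul_zero, add_zero] at h2

theorem Sel1.mono_Ks {N Ks Ks' : ℕ} {D : VarifoldData m k} {x : Euc k} {M M' : Mo m n k} {l L : ℝ}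
    (h : Sel1 N Ks D x M M' l L) (hK : Ks ≤ Ks') : Sel1 N Ks' D x M M' l L :=
  ⟨h.hπ, h.hρ, h.hlb, h.hκ, h.mg, h.d0, h.d1,
    fun ζ h1 h2 h3 => h.mean ζ h1 h2 fun j hj => h3 j (hj.trans hK), h.sup⟩

theorem pex_at {U : Set (Euc k)} {V : Measure (Euc k × L k)} {x : Euc k} {P : L k} {σ R om : ℝ}
    (hV : Stat m k U V) (hU : Metric.closedBall x R ⊆ U) (hσ : 0 < σ) (hσR : σ ≤ R)
    (h : pex m V P x R ≤ om) : pex m V P x σ ≤ (R / σ) ^ (m + 2) * om := by
  have h4 := pex_mono (P := P) hV hσ hσR hU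
  have hR : 0 < R := hσ.trans_le hσR
  have h5 : R ^ (m + 2) * pex m V P x R ≤ R ^ (m + 2) * om :=
    mul_le_mul_of_nonneg_left h (by positivity)
  have h6 : σ ^ (m + 2) * pex m V P x σ ≤ σ ^ (m + 2) * ((R / σ) ^ (m + 2) * om) := by
    refine (h4.trans h5).trans (le_of_eq ?_)
    rw [div_pow]; field_simp
  exact le_of_mul_le_mul_left h6 (by positivity)

theorem flat_shrink {U : Set (Euc k)} {V : Measure (Euc k × L k)} {x : Euc k} {om c₀ r₁ l l' : ℝ}
    (hV : Stat m k U V) (hU : Metric.closedBall x r₁ ⊆ U) (hom : 0 ≤ om)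
    (h : flatL m V x om c₀ r₁ l) (h1 : l - 1 ≤ l') (h2 : l' ≤ l) :
    flatL m V x (Real.exp (m + 2) * om) c₀ r₁ l' := by
  obtain ⟨h3, P, hP, h4⟩ := h
  have h5 : Real.exp (l' + c₀) ≤ Real.exp (l + c₀) := Real.exp_le_exp.2 (by linarith)
  refine ⟨h5.trans h3, P, hP, ?_⟩
  refine (pex_at hV ((Metric.closedBall_subset_closedBall h3).trans hU) (Real.exp_pos _) h5
    h4).trans ?_
  refine mul_le_mul_of_nonneg_right ?_ hom
  rw [← Real.exp_sub, ← Real.exp_nat_mul]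
  refine Real.exp_le_exp.2 ?_
  push_cast
  have : (0:ℝ) ≤ (m:ℝ) + 2 := by positivity
  nlinarith

theorem plane_at {U : Set (Euc k)} {V : Measure (Euc k × L k)} {x : Euc k}
    {om c₀ r₁ l S : ℝ} (hV : Stat m k U V) (hU : Metric.closedBall x r₁ ⊆ U) (hc₀ : 5 ≤ c₀)
    (hom : 0 ≤ om) (h : flatL m V x om c₀ r₁ l) (h1 : S - 1 ≤ l) (h2 : l ≤ S) :
    8 * Real.exp (S + 1 / 8) ≤ r₁ ∧
      ∃ P ∈ G m k, pex m V P x (8 * Real.exp (S + 1 / 8)) ≤ om * Real.exp ((m + 2) * c₀) := by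
  obtain ⟨h3, P, hP, h4⟩ := h
  have e8 : (8 : ℝ) ≤ Real.exp 3 := by
    have h1 : Real.exp 3 = Real.exp 1 ^ 3 := by rw [← Real.exp_nat_mul]; norm_num
    rw [h1]
    have h2 : (2.7182818283 : ℝ) < Real.exp 1 := Real.exp_one_gt_d9
    calc (8 : ℝ) ≤ 2.7182818283 ^ 3 := by norm_num
      _ ≤ Real.exp 1 ^ 3 := pow_le_pow_left₀ (by norm_num) h2.le 3
  have h5 : 8 * Real.exp (S + 1 / 8) ≤ Real.exp (l + c₀) := by
    calc 8 * Real.exp (S + 1 / 8) ≤ Real.exp 3 * Real.exp (S + 1 / 8) :=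
          mul_le_mul_of_nonneg_right e8 (Real.exp_pos _).le
      _ = Real.exp (S + 1 / 8 + 3) := by rw [← Real.exp_add]; congr 1; ring
      _ ≤ Real.exp (l + c₀) := Real.exp_le_exp.2 (by linarith)
  refine ⟨h5.trans h3, P, hP, ?_⟩
  refine (pex_at hV ((Metric.closedBall_subset_closedBall h3).trans hU) (by positivity) h5
    h4).trans ?_
  rw [mul_comm]
  refine mul_le_mul_of_nonneg_left ?_ hom
  have e1 : Real.exp ((m + 2) * c₀) = Real.exp c₀ ^ (m + 2) := by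
    rw [← Real.exp_nat_mul]; push_cast; rfl
  rw [e1]
  refine pow_le_pow_left₀ (by positivity) ?_ _
  rw [div_le_iff₀ (by positivity)]
  have h6 : Real.exp (l + c₀) ≤ Real.exp c₀ * Real.exp (S + 1 / 8) := by
    rw [← Real.exp_add]
    exact Real.exp_le_exp.2 (by linarith)
  have h7 : 0 < Real.exp c₀ * Real.exp (S + 1 / 8) := by positivity
  linarith

theorem topP (m n : ℕ) (hm : 1 ≤ m) : Thya_685.Ev fun _ Q d =>
    ∀ (U : Set (Euc (m + n))) (D : VarifoldData m (m + n)) (x : Euc (m + n)) (r₁ : ℝ),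
      Env m U D Q x d.om r₁ → ∀ S, d.fl D x r₁ S →
        ∃ M : Mo m n (m + n), (preP d.c (VD D) x (om2 m d) S).pre M S ∧
          d.Λ₀ ≤ (preP (n := n) d.c (VD D) x (om2 m d) S).L M S ∧
          (preP d.c (VD D) x (om2 m d) S).κ M S ≤ d.κm / 2 := by
  obtain ⟨Ks₀, H⟩ := topAll m n hm
  refine ⟨Ks₀, fun Ks hKs K hK Q hQ => ?_⟩
  obtain ⟨N₀, H⟩ := H Ks hKs K hK Q hQ
  refine ⟨N₀, fun N hN => ?_⟩
  obtain ⟨T₀, H⟩ := H N hN
  refine ⟨T₀, fun T hT c₀ hc₀ G CK P K₀ k a1 a2 a3 a4 => ?_⟩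
  obtain ⟨κs, hκs, H⟩ := H T hT c₀ hc₀ G CK P K₀ k a1 a2 a3 a4
  refine ⟨κs, hκs, fun κ₀ h0 hκ => ?_⟩
  obtain ⟨Ls, H⟩ := H κ₀ h0 hκ
  refine ⟨Ls, fun L₁ hL₁ => ?_⟩
  obtain ⟨Λs, H⟩ := H L₁ hL₁
  refine ⟨Λs, fun Λ₀ hΛ => ?_⟩
  obtain ⟨oms, homs, H⟩ := H Λ₀ hΛ
  refine ⟨oms, homs, fun om ho1 ho2 U D x r₁ hE S hS => ?_⟩
  obtain ⟨M, ⟨g1, g2⟩, g3, g4⟩ := H om ho1 ho2 U D x r₁ hE S hS
  exact ⟨M, ⟨g1, Ps.of_Pst g2 (by rw [g1]; linarith)⟩, g3, g4⟩

theorem cmpP (m n : ℕ) (hm : 1 ≤ m) : Thya_685.Ev fun _ Q d => ∃ Cc : ℝ, 0 < Cc ∧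
    ∀ (U : Set (Euc (m + n))) (D : VarifoldData m (m + n)) (x : Euc (m + n)) (r₁ : ℝ),
      Env m U D Q x d.om r₁ →
        ∀ (om' S : ℝ) (M : Mo m n (m + n)) (l : ℝ), S - 1 ≤ l → l ≤ S → d.fl D x r₁ l →
          (preP d.c (VD D) x om' S).pre M l →
          Lowr m n (VD D) x (1 / 8) (d.T + 3) 3 Cc l ((preP d.c (VD D) x om' S).L M l) := by
  refine ⟨0, fun Ks _ K _ Q hQ => ⟨2, fun N hN => ⟨2, fun T hT c₀ hc₀ G CK P K₀ k _ _ _ _ => ?_⟩⟩⟩
  obtain ⟨κ₁, C, hκ₁, hC, H⟩ := lowr_core m n N T hm hN (by linarith)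
  refine ⟨κ₁, hκ₁, fun κ₀ hκ0 hκ1 => ⟨0, fun L₁ hL₁ => ⟨0, fun Λ₀ hΛ₀ =>
    ⟨1, one_pos, fun om hom0 hom => ⟨C, hC, ?_⟩⟩⟩⟩⟩
  intro U D x r₁ hE
  have hV := stat_VD hE.int hE.st
  have hfin : ∀ {s : ℝ}, s ≤ r₁ → (VD D) (Metric.closedBall x s ×ˢ univ) < ⊤ := fun hs =>
    hV.fin _ (isCompact_closedBall _ _) ((Metric.closedBall_subset_closedBall hs).trans hE.sub)
  rintro om' S M l h1 h2 hl ⟨h3, h4⟩
  have hl1 : M.lb - T ≤ l := by rw [h3]; linarith
  have hl2 : l ≤ M.lb := by rw [h3]; linarith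
  refine H (VD D) x M l _ h4.cls.frame h4.cls.κ0 (h4.cls.κ1.trans hκ1)
    (h4.cls.mg.mono le_rfl (Real.exp_pos _).le) hl1 hl2 (hfin (block_le hl.1 hc₀ hl1)) ?_
  show _ ≤ Real.exp (-M.Lb)
  calc Real.exp (-2 * l) * M.I x (VD D) l ≤ Real.exp (-2 * l) * Real.exp (2 * l - M.Lb) :=
        mul_le_mul_of_nonneg_left h4.I_le (Real.exp_pos _).le
    _ = Real.exp (-M.Lb) := by rw [← Real.exp_add]; congr 1; ring

end Crest.Agent.R234.F11e_188
end
end

-- ▼ part R234/F10x_188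
section

/-!
# Row 234, (F8) START, part x (helper188): the flat package for a frame close to the flat plane

`fp_near` : `pex P0 (8 t) ≤ ω`, `‖hp π - P0‖ ≤ ω` ⟹ `FlatPack D x Q t ε₀ Λ π ρ`.
-/

set_option autoImplicit false
set_option linter.unusedVariables false

open MeasureTheory Filter Topology Set
open scoped ENNReal NNReal
open Crest.GeometryTopology.Submanifold Crest.Agent.R234.Vf_884
open Crest.Agent.R234.Main_456 (Frame Msys hgt)
open Crest.Agent.R234.AS_456 (hp vp)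
open Crest.Agent.R234.Top_395

noncomputable section

namespace Crest.Agent.R234.F10x_188

variable {m n k : ℕ} {U : Set (Euc k)} {V : Measure (Euc k × L k)} {x : Euc k} {R : ℝ} {P P' : L k}

/-- planar excess of a nearby plane. -/
theorem pex_near (hV : Stat m k U V) (hR : 0 < R) (hU : Metric.closedBall x R ⊆ U) {Q : ℕ} {ε : ℝ}
    (hε : ε ≤ 1) (hrat : rat m V x R ≤ (Q : ℝ≥0∞) + ENNReal.ofReal ε) :
    pex m V P' x R ≤ 2 * pex m V P x R + 2 * ‖P' - P‖ ^ 2 * ((Q + 1) * ome m) := by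
  have hfin : V (Metric.ball x R ×ˢ univ) < ⊤ := by
    rw [Top_395.prod_eq]; exact fin_ball hV hU Metric.ball_subset_closedBall
  have hm := Nr_884.mass_of_near hR hε hrat
  have i1 : ∀ A : L k, IntegrableOn (fun p : Euc k × L k => ‖A (p.1 - x)‖ ^ 2)
      (Metric.ball x R ×ˢ univ) V := fun A =>
    Strat3_842.integrableOn_of_bdd hV.conc hfin (by fun_prop)
  unfold pex ex
  rw [← Top_395.prod_eq]
  have h1 : ∫ p in Metric.ball x R ×ˢ univ,
      ‖(ContinuousLinearMap.id ℝ (Euc k) - P') (p.1 - x)‖ ^ 2 ∂V ≤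
      ∫ p in Metric.ball x R ×ˢ univ,
        (2 * ‖(ContinuousLinearMap.id ℝ (Euc k) - P) (p.1 - x)‖ ^ 2 +
          2 * ‖P' - P‖ ^ 2 * R ^ 2) ∂V := by
    refine setIntegral_mono_on (i1 _) (((i1 _).const_mul 2).add
      (integrableOn_const hfin.ne)) (measurableSet_ball.prod MeasurableSet.univ) ?_
    rintro p ⟨hp, -⟩
    rw [Metric.mem_ball, dist_eq_norm] at hp
    have e1 : (ContinuousLinearMap.id ℝ (Euc k) - P') (p.1 - x) =
        (ContinuousLinearMap.id ℝ (Euc k) - P) (p.1 - x) - (P' - P) (p.1 - x) := by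
      simp
    have h2 : ‖(P' - P) (p.1 - x)‖ ≤ ‖P' - P‖ * R :=
      ((P' - P).le_opNorm _).trans (mul_le_mul_of_nonneg_left hp.le (norm_nonneg _))
    have h3 := norm_sub_le ((ContinuousLinearMap.id ℝ (Euc k) - P) (p.1 - x)) ((P' - P) (p.1 - x))
    rw [← e1] at h3
    have h4 := norm_nonneg ((ContinuousLinearMap.id ℝ (Euc k) - P') (p.1 - x))
    have h5 := norm_nonneg ((ContinuousLinearMap.id ℝ (Euc k) - P) (p.1 - x))
    have h6 : 0 ≤ ‖P' - P‖ * R := by positivity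
    set A := ‖(ContinuousLinearMap.id ℝ (Euc k) - P) (p.1 - x)‖
    set B := ‖P' - P‖ * R with hB
    have h7 : ‖(ContinuousLinearMap.id ℝ (Euc k) - P') (p.1 - x)‖ ≤ A + B := by linarith
    have h8 : ‖(ContinuousLinearMap.id ℝ (Euc k) - P') (p.1 - x)‖ ^ 2 ≤ (A + B) ^ 2 :=
      pow_le_pow_left₀ h4 h7 2
    have h9 : 2 * ‖P' - P‖ ^ 2 * R ^ 2 = 2 * B ^ 2 := by rw [hB]; ring
    show _ ≤ 2 * A ^ 2 + 2 * ‖P' - P‖ ^ 2 * R ^ 2
    rw [h9]
    nlinarith [sq_nonneg (A - B)]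
  rw [integral_add ((i1 _).const_mul 2) (integrableOn_const hfin.ne), integral_const_mul,
    setIntegral_const, smul_eq_mul] at h1
  rw [inv_mul_le_iff₀ (by positivity)]
  have h2 : V.real (Metric.ball x R ×ˢ univ) * (2 * ‖P' - P‖ ^ 2 * R ^ 2) ≤
      (Q + 1) * (ome m * R ^ m) * (2 * ‖P' - P‖ ^ 2 * R ^ 2) :=
    mul_le_mul_of_nonneg_right hm (by positivity)
  calc _ ≤ 2 * (∫ p in Metric.ball x R ×ˢ univ,
        ‖(ContinuousLinearMap.id ℝ (Euc k) - P) (p.1 - x)‖ ^ 2 ∂V) +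
          V.real (Metric.ball x R ×ˢ univ) * (2 * ‖P' - P‖ ^ 2 * R ^ 2) := h1
    _ ≤ 2 * (∫ p in Metric.ball x R ×ˢ univ,
        ‖(ContinuousLinearMap.id ℝ (Euc k) - P) (p.1 - x)‖ ^ 2 ∂V) +
          (Q + 1) * (ome m * R ^ m) * (2 * ‖P' - P‖ ^ 2 * R ^ 2) := by linarith
    _ = _ := by
      rw [pow_add]
      field_simp

/-- **the flat package for frames close to the flat plane.** -/
theorem fp_near {m n k : ℕ} (hm : 1 ≤ m) (Q : ℕ) (hQ : 1 ≤ Q) : ∃ Λ : ℝ, 1 ≤ Λ ∧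
    ∀ ε : ℝ, 0 < ε → ε < 1 → ∃ ω : ℝ, 0 < ω ∧ ω ≤ 1 ∧
      ∀ {U : Set (Euc k)} {D : VarifoldData m k}, IsOpen U →
        IsIntegralVarifoldIn U D → IsStationaryIn U D → ∀ {x : Euc k} {t : ℝ}, 0 < t →
          Metric.closedBall x (8 * t) ⊆ U → Th m (VD D) x = (Q : ℝ≥0∞) →
          rat m (VD D) x (8 * t) ≤ (Q : ℝ≥0∞) + ENNReal.ofReal ω →
          ∀ (π : Euc k →L[ℝ] Euc m) (ρ : Euc k →L[ℝ] Euc n), Frame π ρ →
            ∀ P0 : L k, pex m (VD D) P0 x (8 * t) ≤ ω → ‖hp π - P0‖ ≤ ω →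
              FlatPack D x Q t ε Λ π ρ := by
  obtain ⟨Λ, hΛ, H⟩ := flatPack_of (n := n) (k := k) hm Q hQ
  refine ⟨Λ, hΛ, ?_⟩
  intro ε hε hε1
  obtain ⟨ω, hω, hω1, H⟩ := H ε hε hε1
  have ho := ome_pos m
  have hden : (0:ℝ) < 2 + 2 * ((Q + 1) * ome m) := by positivity
  refine ⟨ω / (2 + 2 * ((Q + 1) * ome m)), by positivity, ?_, ?_⟩
  · rw [div_le_one hden]
    have : (0:ℝ) < (Q + 1) * ome m := by positivity
    linarith
  intro U D hU hD hst x t ht hUx hTh hrat π ρ hf P0 h1 h2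
  have hV := stat_VD hD hst
  set ω' := ω / (2 + 2 * ((Q + 1) * ome m)) with hω'
  have hω'0 : 0 < ω' := by positivity
  have hω'1 : ω' ≤ 1 := by
    rw [hω', div_le_one hden]
    have : (0:ℝ) < (Q + 1) * ome m := by positivity
    linarith
  have hω'ω : ω' ≤ ω := by
    rw [hω', div_le_iff₀ hden]
    have : (0:ℝ) < (Q + 1) * ome m := by positivity
    nlinarith
  refine H hU hD hst ht hUx hTh (hrat.trans (by gcongr)) π ρ hf ?_
  have h3 := pex_near (P := P0) (P' := hp π) hV (by positivity : (0:ℝ) < 8 * t) hUx hω'1 hrat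
  have h4 : ‖hp π - P0‖ ^ 2 ≤ ω' := by
    calc ‖hp π - P0‖ ^ 2 ≤ ω' ^ 2 := pow_le_pow_left₀ (norm_nonneg _) h2 2
      _ ≤ ω' := by nlinarith
  have h5 : 2 * ‖hp π - P0‖ ^ 2 * ((Q + 1) * ome m) ≤ 2 * ω' * ((Q + 1) * ome m) := by gcongr
  have h6 : 2 * ω' + 2 * ω' * ((Q + 1) * ome m) = ω := by
    rw [hω']; field_simp
  linarith

end Crest.Agent.R234.F10x_188
end
end

-- ▼ part R234/Pos1_395

/-!
# Row 234 (helper395): `PosV` of the START from `LowV`

At a singular point the heights over a reference are not all zero (`Top_395.sep_pos`, 947's `f9c`),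
so `LowV` gives `0 < I`.
-/

set_option autoImplicit false

open MeasureTheory Filter Topology Set
open scoped ENNReal NNReal
open Crest.GeometryTopology.Submanifold Crest.Agent.R234.Vf_884
open Crest.Agent.R234.Main_456 Crest.Agent.R234.Top_395 Crest.Agent.R234.Stp_518
open Crest.Agent.R234.F10w_188

noncomputable section

namespace Crest.Agent.R234.End_395

/-- **`PosV`**. -/
theorem posV_of (hL : LowV) : PosV := by
  intro m n k N Q Λ hm hN
  obtain ⟨κ₁, C, hκ₁, hC, H⟩ := hL m n k N 3 hm hN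
  obtain ⟨C', hC', HC⟩ := C11.of_MG Mx17_397.bdP m n N
  refine ⟨κ₁, 1, hκ₁, one_pos, ?_⟩
  intro U D x ε₀ M l hB hκ _ hx
  have hS := M.S_pos
  have hV := stat_VD hB.int hB.st
  have hcb : IsCompact (Metric.closedBall x (8 * M.S)) := isCompact_closedBall x _
  have hlS : Real.exp l ≤ M.S := Real.exp_le_exp.2 (by linarith [hB.hi])
  have h1 := H (VD D) x M l hB.pack.frame hB.κ0 hκ (hB.mg.mono le_rfl (Real.exp_pos _).le)
    hB.lo (by linarith [hB.hi]) (hV.fin _ hcb hB.sub)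
  set r := Real.exp (l - 3) with hr
  have hr0 : 0 < r := Real.exp_pos _
  have hrS : r ≤ M.S := (Real.exp_le_exp.2 (by linarith)).trans hlS
  set t := r / M.S with ht
  have ht0 : 0 < t := by positivity
  have ht1 : t ≤ 1 := by rw [ht, div_le_one hS]; exact hrS
  have hMC := HC M.κ (Real.exp (l - M.lb)) 1 M.u one_pos hB.mg
  have hCκ : 0 ≤ C' * M.κ := mul_nonneg hC' hB.κ0
  have hle : C' * M.κ ≤ C' * M.κ / t := by
    rw [le_div_iff₀ ht0]
    nlinarith
  have hMC' := hMC.rescale hCκ ht0 ht1 (κ' := C' * M.κ / t) hle (by nlinarith) le_rfl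
  have hball : Metric.closedBall x r ⊆ U :=
    (Metric.closedBall_subset_closedBall (by linarith)).trans hB.sub
  obtain ⟨c, hc, Hc⟩ := sep_pos (F9c_947.f9c hm) (n := n) hB.opn hm hB.int hB.st hx hB.Q1 hB.Th
    hr0 hball (κ := C' * M.κ / t) (by positivity)
  have h2 := Hc M.π M.ρ hB.pack.frame _ _ hMC'.der hMC'.zero hMC'.bd hMC'.lip
  have h3 : hgt M.π M.ρ x r (fun w => t⁻¹ • M.u (t • w)) = hgt M.π M.ρ x M.S M.u := by
    have h4 : r = M.S * t := by rw [ht]; field_simp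
    have h5 := hgt_rescale (π := M.π) (ρ := M.ρ) (x := x) hS.ne' ht0.ne' M.u
    rw [← h4] at h5
    exact h5
  rw [h3] at h2
  have h4 : 0 < C * (Real.exp (-2 * l) * M.I x (VD D) l) := by
    refine lt_of_lt_of_le ?_ h1
    exact mul_pos (Real.exp_pos _) (hc.trans_le h2)
  have h5 : 0 < Real.exp (-2 * l) * M.I x (VD D) l := pos_of_mul_pos_right h4 hC.le
  exact pos_of_mul_pos_right h5 (Real.exp_pos _).le

end Crest.Agent.R234.End_395
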