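import Crest.Agent.R234.MgDefs3_570
import Crest.Agent.R234.Mx10_397
import Crest.Agent.R234.Sel5_570
import Crest.Agent.R234.Cto_161
import Crest.Agent.R234.MgDefs5_570
import Crest.Agent.R234.Jr2_186
import Crest.Agent.R234.MgDefs2_570
import Crest.Agent.R234.Ibp2_937

-- ▼ part R234/Sel6_570
section

/-!
Row 234, VF-SEL (helper570), file 6: the operator `Lop`: linearity, bounds in all seminorms,
commutator with a cut-off, a priori estimate, Hahn-Banach.
-/

set_option autoImplicit false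
set_option linter.unusedSectionVars false

open MeasureTheory Complex Filter Real
open scoped ContDiff Topology InnerProductSpace ENNReal NNReal

noncomputable section

namespace Crest.Agent.R234.Sel6_570

open Crest.Agent.R086.Wie Crest.Agent.R234.Mx1_397 Crest.Agent.R234.Mx2_397
  Crest.Agent.R234.Mx3_397 Crest.Agent.R234.Mx4_397 Crest.Agent.R234.Mx6_397
  Crest.Agent.R234.Sel5_570
open Crest.Agent.R234.MG_570 (Cf Lop i0)

variable {F : Type} [NormedAddCommGroup F] [InnerProductSpace ℝ F] [FiniteDimensional ℝ F]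
  [MeasurableSpace F] [BorelSpace F] {ι κ : Type*} [Fintype ι] [Fintype κ]

/-- the Laplacian. -/
def Lap (e : OrthonormalBasis ι ℝ F) (b : κ → X F 2) : κ → X F 0 :=
  fun β => ∑ i, D (e i) (D (e i) (b β))

/-- the perturbation. -/
def Pop {t : ℕ} (e : OrthonormalBasis ι ℝ F) (c : Cf F ι κ t) (b : κ → X F 2) : κ → X F 0 :=
  fun β => ∑ i, ∑ j, i0 (c.A i j) * D (e i) (D (e j) (b β))
    + ∑ i, ∑ α, i0 (c.B i β α) * i0 (D (e i) (b α)) + ∑ α, i0 (c.Z β α) * i0 (b α)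

theorem Lop_eq {t : ℕ} (e : OrthonormalBasis ι ℝ F) (c : Cf F ι κ t) (b : κ → X F 2) :
    Lop e c b = Lap e b + Pop e c b := by
  funext β
  show _ = Lap e b β + Pop e c b β
  unfold Lop Lap Pop
  abel



theorem smul_mul_X (r : ℂ) (a b : X F 0) : a * (r • b) = r • (a * b) := mul_smul_comm r a b

theorem Lop_add {t : ℕ} (e : OrthonormalBasis ι ℝ F) (c : Cf F ι κ t) (a b : κ → X F 2) :
    Lop e c (a + b) = Lop e c a + Lop e c b := by
  funext β
  show _ = Lop e c a β + Lop e c b β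
  unfold Lop
  simp only [Pi.add_apply, map_add, mul_add, Finset.sum_add_distrib]
  abel

theorem Lop_smul {t : ℕ} (e : OrthonormalBasis ι ℝ F) (c : Cf F ι κ t) (r : ℂ) (b : κ → X F 2) :
    Lop e c (r • b) = r • Lop e c b := by
  funext β
  show _ = r • Lop e c b β
  unfold Lop
  simp only [Pi.smul_apply, map_smul, smul_mul_X, Finset.smul_sum, smul_add]

/-- `Lop` as a linear map. -/
def LopL {t : ℕ} (e : OrthonormalBasis ι ℝ F) (c : Cf F ι κ t) :
    (κ → X F 2) →ₗ[ℂ] (κ → X F 0) where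
  toFun := Lop e c
  map_add' := Lop_add e c
  map_smul' r b := Lop_smul e c r b

theorem two_pi_ge : (1 : ℝ) ≤ 2 * π := by linarith [Real.pi_gt_three]

theorem norm_D1_le (e : OrthonormalBasis ι ℝ F) (i : ι) {N : ℕ} (a : X F (N + 1)) :
    ‖D (e i) a‖ ≤ 2 * π * ‖a‖ := by
  refine (norm_D_le _ _).trans ?_
  rw [e.norm_eq_one, mul_one]

theorem norm_D2_le (e : OrthonormalBasis ι ℝ F) (i j : ι) {N : ℕ} (a : X F (N + 2)) :
    ‖D (e i) (D (e j) a)‖ ≤ (2 * π) ^ 2 * ‖a‖ := by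
  have h1 := norm_D1_le e i (D (e j) a)
  have h2 := norm_D1_le e j a
  have hp := Real.pi_pos
  calc _ ≤ 2 * π * ‖D (e j) a‖ := h1
    _ ≤ 2 * π * (2 * π * ‖a‖) := by gcongr
    _ = _ := by ring

/-- bound of the perturbation. -/
theorem norm_Pop_le {t : ℕ} (e : OrthonormalBasis ι ℝ F) (c : Cf F ι κ t) (b : κ → X F 2) :
    ‖Pop e c b‖ ≤ (2 * π) ^ 2 * c.sz * ‖b‖ := by
  have hp := two_pi_ge
  have hsz : 0 ≤ c.sz := by unfold Cf.sz; positivity
  refine (pi_norm_le_iff_of_nonneg (by positivity)).2 fun β => ?_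
  have hb : ∀ α, ‖b α‖ ≤ ‖b‖ := fun α => norm_le_pi_norm b α
  have hi0 : ∀ {N : ℕ} (a : X F N), ‖i0 a‖ ≤ ‖a‖ := fun a => norm_inclV_le _ a
  have h1 : ‖∑ i, ∑ j, i0 (c.A i j) * D (e i) (D (e j) (b β))‖
      ≤ (∑ i, ∑ j, ‖c.A i j‖) * ((2 * π) ^ 2 * ‖b‖) := by
    rw [Finset.sum_mul]
    refine (norm_sum_le _ _).trans (Finset.sum_le_sum fun i _ => ?_)
    rw [Finset.sum_mul]
    refine (norm_sum_le _ _).trans (Finset.sum_le_sum fun j _ => ?_)
    refine (norm_mul_le _ _).trans ?_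
    have := norm_D2_le e i j (b β)
    have := hb β
    have h3 : (2 * π) ^ 2 * ‖b β‖ ≤ (2 * π) ^ 2 * ‖b‖ := by gcongr
    exact mul_le_mul (hi0 _) (le_trans (norm_D2_le e i j (b β)) h3) (norm_nonneg _) (norm_nonneg _)
  have h2 : ‖∑ i, ∑ α, i0 (c.B i β α) * i0 (D (e i) (b α))‖
      ≤ (∑ i, ∑ α, ‖c.B i β α‖) * ((2 * π) ^ 2 * ‖b‖) := by
    rw [Finset.sum_mul]
    refine (norm_sum_le _ _).trans (Finset.sum_le_sum fun i _ => ?_)
    rw [Finset.sum_mul]
    refine (norm_sum_le _ _).trans (Finset.sum_le_sum fun α _ => ?_)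
    refine (norm_mul_le _ _).trans ?_
    have h3 : ‖i0 (D (e i) (b α))‖ ≤ (2 * π) ^ 2 * ‖b‖ := by
      refine (hi0 _).trans ((norm_D1_le e i (b α)).trans ?_)
      have := hb α
      have h4 : 2 * π * ‖b α‖ ≤ 2 * π * ‖b‖ := by gcongr
      nlinarith [norm_nonneg b, mul_nonneg (sub_nonneg.2 hp) (norm_nonneg b)]
    exact mul_le_mul (hi0 _) h3 (norm_nonneg _) (norm_nonneg _)
  have h3 : ‖∑ α, i0 (c.Z β α) * i0 (b α)‖ ≤ (∑ α, ‖c.Z β α‖) * ((2 * π) ^ 2 * ‖b‖) := by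
    rw [Finset.sum_mul]
    refine (norm_sum_le _ _).trans (Finset.sum_le_sum fun α _ => ?_)
    refine (norm_mul_le _ _).trans ?_
    have h3 : ‖i0 (b α)‖ ≤ (2 * π) ^ 2 * ‖b‖ := by
      refine (hi0 _).trans ?_
      have := hb α
      nlinarith [norm_nonneg b, mul_nonneg (sub_nonneg.2 hp) (norm_nonneg b),
        mul_nonneg (mul_nonneg (sub_nonneg.2 hp) (sub_nonneg.2 hp)) (norm_nonneg b)]
    exact mul_le_mul (hi0 _) h3 (norm_nonneg _) (norm_nonneg _)
  have h4 : ∑ i, ∑ α, ‖c.B i β α‖ ≤ ∑ i, ∑ β, ∑ α, ‖c.B i β α‖ :=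
    Finset.sum_le_sum fun i _ => Finset.single_le_sum (f := fun β => ∑ α, ‖c.B i β α‖)
      (fun β _ => Finset.sum_nonneg fun α _ => norm_nonneg _) (Finset.mem_univ β)
  have h5 : ∑ α, ‖c.Z β α‖ ≤ ∑ β, ∑ α, ‖c.Z β α‖ :=
    Finset.single_le_sum (f := fun β => ∑ α, ‖c.Z β α‖)
      (fun β _ => Finset.sum_nonneg fun α _ => norm_nonneg _) (Finset.mem_univ β)
  unfold Pop
  refine (norm_add_le _ _).trans ((add_le_add (norm_add_le _ _) le_rfl).trans ?_)
  have h6 : 0 ≤ (2 * π) ^ 2 * ‖b‖ := by positivity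
  unfold Cf.sz
  nlinarith [mul_le_mul_of_nonneg_right h4 h6, mul_le_mul_of_nonneg_right h5 h6]

/-! ### vector seminorms -/

/-- sum of the seminorms. -/
def nv {N : ℕ} (s : ℤ) (b : κ → X F N) : ℝ≥0∞ := ∑ β, ns s (b β)

theorem ns_le_nv {N : ℕ} (s : ℤ) (b : κ → X F N) (β : κ) : ns s (b β) ≤ nv s b :=
  Finset.single_le_sum (f := fun β => ns s (b β)) (fun _ _ => zero_le) (Finset.mem_univ β)

theorem nv_mono {N : ℕ} {s t : ℤ} (h : s ≤ t) (b : κ → X F N) : nv s b ≤ nv t b :=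
  Finset.sum_le_sum fun β _ => ns_mono h (b β)


theorem norm_le_nv (b : κ → X F 0) : ENNReal.ofReal ‖b‖ ≤ nv 0 b := by
  have h1 : ∀ β, ENNReal.ofReal ‖b β‖ ≤ nv 0 b := fun β => by
    rw [← ns_nat (b β)]
    exact ns_le_nv _ b β
  by_cases htop : nv 0 b = ⊤
  · rw [htop]; exact le_top
  refine ENNReal.ofReal_le_of_le_toReal ?_
  refine (pi_norm_le_iff_of_nonneg ENNReal.toReal_nonneg).2 fun β => ?_
  exact (ENNReal.ofReal_le_iff_le_toReal htop).1 (h1 β)


theorem ns_D1 (e : OrthonormalBasis ι ℝ F) (i : ι) {N : ℕ} (s : ℤ) (a : X F (N + 1)) :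
    ns s (D (e i) a) ≤ ENNReal.ofReal (2 * π) * ns (s + 1) a := by
  have := ns_D s (e i) a
  rwa [e.norm_eq_one, mul_one] at this

theorem ns_D2 (e : OrthonormalBasis ι ℝ F) (i j : ι) {N : ℕ} (s : ℤ) (a : X F (N + 2)) :
    ns s (D (e i) (D (e j) a)) ≤ ENNReal.ofReal ((2 * π) ^ 2) * ns (s + 2) a := by
  have h1 := ns_D1 e i s (D (e j) a)
  have h2 := ns_D1 e j (s + 1) a
  have hp := Real.pi_pos
  calc _ ≤ ENNReal.ofReal (2 * π) * ns (s + 1) (D (e j) a) := h1
    _ ≤ ENNReal.ofReal (2 * π) * (ENNReal.ofReal (2 * π) * ns (s + 1 + 1) a) := by gcongr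
    _ = _ := by
        rw [← mul_assoc, ← ENNReal.ofReal_mul (by positivity), show s + 1 + 1 = s + 2 by ring,
          show 2 * π * (2 * π) = (2 * π) ^ 2 by ring]

theorem one_le_tp : (1 : ℝ≥0∞) ≤ ENNReal.ofReal ((2 * π) ^ 2) := by
  rw [← ENNReal.ofReal_one]
  exact ENNReal.ofReal_le_ofReal (one_le_pow₀ two_pi_ge)

theorem tp_le : ENNReal.ofReal (2 * π) ≤ ENNReal.ofReal ((2 * π) ^ 2) := by
  refine ENNReal.ofReal_le_ofReal ?_
  have := two_pi_ge
  nlinarith

theorem ofReal_sum2 {ι' κ' : Type*} [Fintype ι'] [Fintype κ'] (f : ι' → κ' → ℝ)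
    (hf : ∀ i j, 0 ≤ f i j) :
    ∑ i, ∑ j, ENNReal.ofReal (f i j) = ENNReal.ofReal (∑ i, ∑ j, f i j) := by
  rw [ENNReal.ofReal_sum_of_nonneg fun i _ => Finset.sum_nonneg fun j _ => hf i j]
  exact Finset.sum_congr rfl fun i _ => (ENNReal.ofReal_sum_of_nonneg fun j _ => hf i j).symm

/-- **bound of the perturbation in the seminorms of order `≥ -t`**. -/
theorem nv_Pop_le {t : ℕ} (e : OrthonormalBasis ι ℝ F) (c : Cf F ι κ t) (b : κ → X F 2) {s : ℤ}
    (hs : s.natAbs ≤ t) :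
    nv s (Pop e c b) ≤ ENNReal.ofReal ((2 * π) ^ 2 * c.sz) * nv (s + 2) b := by
  set M : ℝ≥0∞ := ENNReal.ofReal ((2 * π) ^ 2) with hM
  have key : ∀ β, ns s (Pop e c b β) ≤ (∑ i, ∑ j, ENNReal.ofReal ‖c.A i j‖) * (M * ns (s + 2) (b β))
      + (∑ i, ∑ α, ENNReal.ofReal ‖c.B i β α‖) * (M * nv (s + 2) b)
      + (∑ α, ENNReal.ofReal ‖c.Z β α‖) * (M * nv (s + 2) b) := fun β => by
    unfold Pop
    refine (ns_add_le _ _ _).trans (add_le_add ((ns_add_le _ _ _).trans (add_le_add ?_ ?_)) ?_)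
    · rw [Finset.sum_mul]
      refine (ns_sum_le _ _ _).trans (Finset.sum_le_sum fun i _ => ?_)
      rw [Finset.sum_mul]
      refine (ns_sum_le _ _ _).trans (Finset.sum_le_sum fun j _ => ?_)
      refine (ns_mul hs (c.A i j) _).trans ?_
      gcongr
      exact ns_D2 e i j s (b β)
    · rw [Finset.sum_mul]
      refine (ns_sum_le _ _ _).trans (Finset.sum_le_sum fun i _ => ?_)
      rw [Finset.sum_mul]
      refine (ns_sum_le _ _ _).trans (Finset.sum_le_sum fun α _ => ?_)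
      refine (ns_mul hs (c.B i β α) _).trans ?_
      gcongr
      rw [ns_inclV]
      refine (ns_D1 e i s (b α)).trans ?_
      have h1 : ns (s + 1) (b α) ≤ nv (s + 2) b :=
        (ns_mono (by linarith) (b α)).trans (ns_le_nv _ b α)
      exact mul_le_mul' tp_le h1
    · rw [Finset.sum_mul]
      refine (ns_sum_le _ _ _).trans (Finset.sum_le_sum fun α _ => ?_)
      refine (ns_mul hs (c.Z β α) _).trans ?_
      gcongr
      rw [ns_inclV]
      have h1 : ns s (b α) ≤ nv (s + 2) b :=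
        (ns_mono (by linarith) (b α)).trans (ns_le_nv _ b α)
      calc ns s (b α) ≤ 1 * nv (s + 2) b := by rw [one_mul]; exact h1
        _ ≤ _ := mul_le_mul' one_le_tp le_rfl
  have hA : ∑ i, ∑ j, ENNReal.ofReal ‖c.A i j‖ = ENNReal.ofReal (∑ i, ∑ j, ‖c.A i j‖) :=
    ofReal_sum2 _ fun i j => norm_nonneg _
  have hZ : ∑ β, ∑ α, ENNReal.ofReal ‖c.Z β α‖ = ENNReal.ofReal (∑ β, ∑ α, ‖c.Z β α‖) :=
    ofReal_sum2 _ fun i j => norm_nonneg _
  have hB : ∑ β, ∑ i, ∑ α, ENNReal.ofReal ‖c.B i β α‖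
      = ENNReal.ofReal (∑ i, ∑ β, ∑ α, ‖c.B i β α‖) := by
    rw [Finset.sum_comm, ENNReal.ofReal_sum_of_nonneg fun i _ => Finset.sum_nonneg fun j _ =>
      Finset.sum_nonneg fun α _ => norm_nonneg _]
    exact Finset.sum_congr rfl fun i _ => ofReal_sum2 _ fun i j => norm_nonneg _
  calc nv s (Pop e c b) ≤ ∑ β, ((∑ i, ∑ j, ENNReal.ofReal ‖c.A i j‖) * (M * ns (s + 2) (b β))
      + (∑ i, ∑ α, ENNReal.ofReal ‖c.B i β α‖) * (M * nv (s + 2) b)
      + (∑ α, ENNReal.ofReal ‖c.Z β α‖) * (M * nv (s + 2) b)) := Finset.sum_le_sum fun β _ => key β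
    _ = (∑ i, ∑ j, ENNReal.ofReal ‖c.A i j‖) * (M * nv (s + 2) b)
      + (∑ β, ∑ i, ∑ α, ENNReal.ofReal ‖c.B i β α‖) * (M * nv (s + 2) b)
      + (∑ β, ∑ α, ENNReal.ofReal ‖c.Z β α‖) * (M * nv (s + 2) b) := by
        rw [Finset.sum_add_distrib, Finset.sum_add_distrib, ← Finset.mul_sum, ← Finset.mul_sum,
          ← Finset.sum_mul, ← Finset.sum_mul]
        rfl
    _ = ENNReal.ofReal ((2 * π) ^ 2 * c.sz) * nv (s + 2) b := by
        rw [hA, hB, hZ, ← add_mul, ← add_mul, ← ENNReal.ofReal_add (by positivity) (by positivity),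
          ← ENNReal.ofReal_add (by positivity) (by positivity), ← mul_assoc, hM,
          ← ENNReal.ofReal_mul (by positivity)]
        congr 2
        unfold Cf.sz
        ring

/-! ### a priori estimate -/

/-- fixed cut-off, one on `closedBall 0 (7/4)`. -/
def nbX (N : ℕ) : X F N := toX N (toS _ (Mx5_397.isCut_nb (F := F)).compact
  (Mx5_397.isCut_nb (F := F)).smooth)

theorem ev_nbX (N : ℕ) (x : F) : ev (nbX N : X F N) x = (Mx5_397.nb F x : ℂ) := by
  unfold nbX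
  rw [ev_toX, toS_apply]

theorem ev_Ps {c : F} {M N : ℕ} (a : X F N) (x : F) :
    ev (Mx10_397.Ps c a : X F M) x
      = ∫ y, (psi c y : ℂ) * ((ev a (x + y) + ev a (x - y)) / 2) := by
  rw [← ev_ph, ev_eq]
  refine integral_congr_ae ((Mx10_397.den_Ps (M := M) c a).mono fun ξ hξ => ?_)
  show chr x ξ * _ = _
  rw [hξ]

/-- **a priori estimate for compactly supported elements**. -/
theorem apriori {c : F} (hc : ‖c‖ = 11 / 2) (e : OrthonormalBasis ι ℝ F) (b : κ → X F 2)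
    (hb : ∀ β x, 7 / 4 ≤ ‖x‖ → ev (b β) x = 0) :
    ‖b‖ ≤ ‖(nbX 2 : X F 2)‖ * 72 * ‖Lap e b‖ := by
  refine (pi_norm_le_iff_of_nonneg (by positivity)).2 fun β => ?_
  have h1 := Mx10_397.G_lap hc e (b β)
  have h2 : b β = nbX 2 * G hc (Lap e b β) := by
    refine ev_inj fun x => ?_
    rw [ev_mul, ev_nbX]
    by_cases hx : 7 / 4 ≤ ‖x‖
    · rw [hb β x hx]
      by_cases hx2 : 2 ≤ ‖x‖
      · rw [(Mx5_397.isCut_nb (F := F)).zero hx2, Complex.ofReal_zero, zero_mul]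
      · have h3 : ev (b β) x = ev (G hc (Lap e b β)) x + ev (Mx10_397.Ps c (b β) : X F 2) x := by
          conv_lhs => rw [h1]
          rw [ev_add]; rfl
        have h4 : ev (Mx10_397.Ps c (b β) : X F 2) x = 0 := by
          rw [ev_Ps, ← integral_zero F ℂ]
          refine integral_congr_ae (Eventually.of_forall fun y => ?_)
          simp only
          by_cases h : psi c y = 0
          · rw [h, Complex.ofReal_zero, zero_mul]
          · have h8 := (psi_ne hc h).1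
            have h9 : 7 / 4 ≤ ‖x + y‖ := by
              have := norm_sub_le (x + y) x
              rw [add_sub_cancel_left] at this
              linarith
            have h10 : 7 / 4 ≤ ‖x - y‖ := by
              have := norm_sub_le x (x - y)
              rw [sub_sub_cancel] at this
              linarith
            rw [hb _ _ h9, hb _ _ h10]
            simp
        rw [h4, add_zero, hb β x hx] at h3
        rw [← h3, mul_zero]
    · have hx' : ‖x‖ ≤ 7 / 4 := (not_le.1 hx).le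
      rw [Mx5_397.nb_one hx', Complex.ofReal_one, one_mul]
      have h3 : ev (b β) x = ev (G hc (Lap e b β)) x + ev (Mx10_397.Ps c (b β) : X F 2) x := by
        conv_lhs => rw [h1]
        rw [ev_add]; rfl
      have h4 : ev (Mx10_397.Ps c (b β) : X F 2) x = 0 := by
        rw [ev_Ps, ← integral_zero F ℂ]
        refine integral_congr_ae (Eventually.of_forall fun y => ?_)
        simp only
        by_cases h : psi c y = 0
        · rw [h, Complex.ofReal_zero, zero_mul]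
        · have h8 := (psi_ne hc h).1
          have h9 : 7 / 4 ≤ ‖x + y‖ := by
            have := norm_sub_le (x + y) x
            rw [add_sub_cancel_left] at this
            linarith
          have h10 : 7 / 4 ≤ ‖x - y‖ := by
            have := norm_sub_le x (x - y)
            rw [sub_sub_cancel] at this
            linarith
          rw [hb _ _ h9, hb _ _ h10]
          simp
      rw [h3, h4, add_zero]
  rw [h2]
  calc ‖nbX 2 * G hc (Lap e b β)‖ ≤ ‖(nbX 2 : X F 2)‖ * ‖G hc (Lap e b β)‖ := norm_mul_le _ _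
    _ ≤ ‖(nbX 2 : X F 2)‖ * (72 * ‖Lap e b β‖) := by
        gcongr
        exact norm_G_le hc _
    _ ≤ ‖(nbX 2 : X F 2)‖ * (72 * ‖Lap e b‖) := by
        gcongr
        exact norm_le_pi_norm (Lap e b) β
    _ = _ := by ring

theorem apriori_L {c : F} (hc : ‖c‖ = 11 / 2) (e : OrthonormalBasis ι ℝ F) {t : ℕ}
    (cf : Cf F ι κ t)
    (hs : ‖(nbX 2 : X F 2)‖ * 72 * ((2 * π) ^ 2 * cf.sz) ≤ 1 / 2) (b : κ → X F 2)
    (hb : ∀ β x, 7 / 4 ≤ ‖x‖ → ev (b β) x = 0) :
    ‖b‖ ≤ 2 * (‖(nbX 2 : X F 2)‖ * 72) * ‖Lop e cf b‖ := by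
  have h1 := apriori hc e b hb
  have h2 : Lap e b = Lop e cf b - Pop e cf b := by rw [Lop_eq]; abel
  have h3 : ‖Lap e b‖ ≤ ‖Lop e cf b‖ + ‖Pop e cf b‖ := by rw [h2]; exact norm_sub_le _ _
  have h4 := norm_Pop_le e cf b
  have hC : 0 ≤ ‖(nbX 2 : X F 2)‖ * 72 := by positivity
  have h5 : ‖(nbX 2 : X F 2)‖ * 72 * ‖Pop e cf b‖ ≤ 1 / 2 * ‖b‖ := by
    calc _ ≤ ‖(nbX 2 : X F 2)‖ * 72 * ((2 * π) ^ 2 * cf.sz * ‖b‖) := by gcongr
      _ = ‖(nbX 2 : X F 2)‖ * 72 * ((2 * π) ^ 2 * cf.sz) * ‖b‖ := by ring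
      _ ≤ _ := mul_le_mul_of_nonneg_right hs (norm_nonneg _)
  nlinarith [mul_le_mul_of_nonneg_left h3 hC]

/-! ### Hahn-Banach -/

variable (F κ) in
/-- elements supported in `ball 0 R`. -/
def Sp (R : ℝ) : Submodule ℂ (κ → X F 2) where
  carrier := {b | ∀ β x, R ≤ ‖x‖ → ev (b β) x = 0}
  add_mem' := fun {a b} ha hb β x hx => by
    rw [Pi.add_apply, ev_add, ha β x hx, hb β x hx, add_zero]
  zero_mem' := fun β x _ => by rw [Pi.zero_apply, ev_zero]
  smul_mem' := fun r b hb β x hx => by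
    rw [Pi.smul_apply, ev_smul, hb β x hx, mul_zero]


/-- **the annihilating part**: a functional which is small on `{L φ : supp φ ⊆ B_R}` is the sum of
a functional annihilating this space and a small functional. -/
theorem exists_ann {c : F} (hc : ‖c‖ = 11 / 2) (e : OrthonormalBasis ι ℝ F) {t : ℕ}
    (cf : Cf F ι κ t) (hs : ‖(nbX 2 : X F 2)‖ * 72 * ((2 * π) ^ 2 * cf.sz) ≤ 1 / 2)
    {R : ℝ} (hR : R ≤ 7 / 4) (β : (κ → X F 0) →L[ℂ] ℂ) {η : ℝ} (hη : 0 ≤ η)
    (hβ : ∀ φ ∈ Sp F κ R, ‖β (Lop e cf φ)‖ ≤ η * ‖φ‖) :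
    ∃ J : (κ → X F 0) →L[ℂ] ℂ, (∀ φ ∈ Sp F κ R, J (Lop e cf φ) = 0) ∧
      ‖β - J‖ ≤ η * (2 * (‖(nbX 2 : X F 2)‖ * 72)) := by
  set C : ℝ := 2 * (‖(nbX 2 : X F 2)‖ * 72) with hC
  have hC0 : 0 ≤ C := by positivity
  set p : Submodule ℂ (κ → X F 0) := (Sp F κ R).map (LopL e cf) with hp
  set f : p →ₗ[ℂ] ℂ := β.toLinearMap.domRestrict p with hf
  have hb : ∀ x : p, ‖f x‖ ≤ η * C * ‖x‖ := by
    rintro ⟨x, hx⟩
    obtain ⟨φ, hφ, rfl⟩ := hx
    show ‖β (Lop e cf φ)‖ ≤ η * C * ‖Lop e cf φ‖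
    have h1 := hβ φ hφ
    have h2 := apriori_L hc e cf hs φ fun β x hx => hφ β x (hR.trans hx)
    calc _ ≤ η * ‖φ‖ := h1
      _ ≤ η * (C * ‖Lop e cf φ‖) := by gcongr
      _ = _ := by ring
  obtain ⟨g, hg, hgn⟩ := exists_extension_norm_eq p (f.mkContinuous (η * C) hb)
  refine ⟨β - g, fun φ hφ => ?_, ?_⟩
  · have h1 : g (Lop e cf φ) = β (Lop e cf φ) := by
      have := hg ⟨Lop e cf φ, ⟨φ, hφ, rfl⟩⟩
      rw [this]
      rfl
    rw [sub_apply, h1, sub_self]
  · rw [sub_sub_cancel, hgn]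
    exact LinearMap.mkContinuous_norm_le _ (by positivity) _

end Crest.Agent.R234.Sel6_570
end
end

-- ▼ part R234/Sel7_570
section

/-!
Row 234, VF-SEL (helper570), file 7: commutator with a cut-off and the iteration in negative norms:
a functional on `X 0` annihilating `{L φ : supp φ ⊆ B_R}` has arbitrary decay off the boundary.
-/

set_option autoImplicit false
set_option linter.unusedSectionVars false

open MeasureTheory Complex Filter Real
open scoped ContDiff Topology InnerProductSpace ENNReal NNReal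

noncomputable section

namespace Crest.Agent.R234.Sel6_570

open Crest.Agent.R086.Wie Crest.Agent.R234.Mx1_397 Crest.Agent.R234.Mx2_397
  Crest.Agent.R234.Mx3_397 Crest.Agent.R234.Mx4_397 Crest.Agent.R234.Mx6_397
  Crest.Agent.R234.Sel5_570
open Crest.Agent.R234.MG_570 (Cf Lop i0)

variable {F : Type} [NormedAddCommGroup F] [InnerProductSpace ℝ F] [FiniteDimensional ℝ F]
  [MeasurableSpace F] [BorelSpace F] {ι κ : Type*} [Fintype ι] [Fintype κ] {t : ℕ}

/-- multiplication of a vector by a cut-off. -/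
def cm {N M : ℕ} (h : N ≤ M) (χ : X F M) (b : κ → X F N) : κ → X F N := fun β => inclV h χ * b β

/-- inclusion of vectors. -/
def iv {N : ℕ} (b : κ → X F N) : κ → X F 0 := fun β => i0 (b β)

/-- first order coefficient of the commutator. -/
def C1 (e : OrthonormalBasis ι ℝ F) (c : Cf F ι κ t) (χ : X F (t + 2)) (i : ι) : X F t :=
  (2 : ℂ) • inclV (Nat.le_succ t) (D (e i) χ)
    + ∑ j, (c.A i j + c.A j i) * inclV (Nat.le_succ t) (D (e j) χ)

/-- zeroth order coefficient of the commutator. -/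
def C0 (e : OrthonormalBasis ι ℝ F) (c : Cf F ι κ t) (χ : X F (t + 2)) : X F t :=
  ∑ i, D (e i) (D (e i) χ) + ∑ i, ∑ j, c.A i j * D (e i) (D (e j) χ)

/-- zeroth order coefficient of the commutator, mixed. -/
def CW (e : OrthonormalBasis ι ℝ F) (c : Cf F ι κ t) (χ : X F (t + 2)) (β α : κ) : X F t :=
  ∑ i, c.B i β α * inclV (Nat.le_succ t) (D (e i) χ)

/-- the commutator. -/
def comm (e : OrthonormalBasis ι ℝ F) (c : Cf F ι κ t) (χ : X F (t + 2)) (b : κ → X F 2) :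
    κ → X F 0 := fun β =>
  ∑ i, i0 (C1 e c χ i) * i0 (D (e i) (b β)) + i0 (C0 e c χ) * i0 (b β)
    + ∑ α, i0 (CW e c χ β α) * i0 (b α)

theorem ev_i0 {N : ℕ} (a : X F N) (x : F) : ev (i0 a) x = ev a x := ev_inclV _ a x

theorem ev_C1 (e : OrthonormalBasis ι ℝ F) (c : Cf F ι κ t) (χ : X F (t + 2)) (i : ι) (x : F) :
    ev (C1 e c χ i) x = 2 * ev (D (e i) χ) x
      + ∑ j, (ev (c.A i j) x + ev (c.A j i) x) * ev (D (e j) χ) x := by
  unfold C1
  rw [ev_add, ev_smul, ev_inclV, ev_sum]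
  congr 1
  refine Finset.sum_congr rfl fun j _ => ?_
  rw [ev_mul, ev_add, ev_inclV]

theorem ev_C0 (e : OrthonormalBasis ι ℝ F) (c : Cf F ι κ t) (χ : X F (t + 2)) (x : F) :
    ev (C0 e c χ) x = ∑ i, ev (D (e i) (D (e i) χ)) x
      + ∑ i, ∑ j, ev (c.A i j) x * ev (D (e i) (D (e j) χ)) x := by
  unfold C0
  rw [ev_add, ev_sum, ev_sum]
  congr 1
  refine Finset.sum_congr rfl fun i _ => ?_
  rw [ev_sum]
  exact Finset.sum_congr rfl fun j _ => ev_mul _ _ x

theorem ev_CW (e : OrthonormalBasis ι ℝ F) (c : Cf F ι κ t) (χ : X F (t + 2)) (β α : κ) (x : F) :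
    ev (CW e c χ β α) x = ∑ i, ev (c.B i β α) x * ev (D (e i) χ) x := by
  unfold CW
  rw [ev_sum]
  refine Finset.sum_congr rfl fun i _ => ?_
  rw [ev_mul, ev_inclV]

theorem ev_comm (e : OrthonormalBasis ι ℝ F) (c : Cf F ι κ t) (χ : X F (t + 2)) (b : κ → X F 2)
    (β : κ) (x : F) :
    ev (comm e c χ b β) x = ∑ i, ev (C1 e c χ i) x * ev (D (e i) (b β)) x
      + ev (C0 e c χ) x * ev (b β) x + ∑ α, ev (CW e c χ β α) x * ev (b α) x := by
  unfold comm
  rw [ev_add, ev_add, ev_sum, ev_mul, ev_i0, ev_i0, ev_sum]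
  congr 1
  · congr 1
    refine Finset.sum_congr rfl fun i _ => ?_
    rw [ev_mul, ev_i0, ev_i0]
  · refine Finset.sum_congr rfl fun i _ => ?_
    rw [ev_mul, ev_i0, ev_i0]

theorem ev_Lop (e : OrthonormalBasis ι ℝ F) (c : Cf F ι κ t) (b : κ → X F 2) (β : κ) (x : F) :
    ev (Lop e c b β) x = ∑ i, ev (D (e i) (D (e i) (b β))) x
      + ∑ i, ∑ j, ev (c.A i j) x * ev (D (e i) (D (e j) (b β))) x
      + ∑ i, ∑ α, ev (c.B i β α) x * ev (D (e i) (b α)) x
      + ∑ α, ev (c.Z β α) x * ev (b α) x := by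
  unfold Lop
  rw [ev_add, ev_add, ev_add, ev_sum, ev_sum, ev_sum, ev_sum]
  congr 1
  · congr 1
    · congr 1
      refine Finset.sum_congr rfl fun i _ => ?_
      rw [ev_sum]
      refine Finset.sum_congr rfl fun j _ => ?_
      rw [ev_mul, ev_i0]
    · refine Finset.sum_congr rfl fun i _ => ?_
      rw [ev_sum]
      refine Finset.sum_congr rfl fun j _ => ?_
      rw [ev_mul, ev_i0, ev_i0]
  · refine Finset.sum_congr rfl fun j _ => ?_
    rw [ev_mul, ev_i0, ev_i0]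

theorem ev_D_incl2 (v : F) (χ : X F (t + 2)) (x : F) :
    ev (D v (inclV (Nat.le_add_left 2 t) χ)) x = ev (D v χ) x := by
  have h1 : ev (inclV (Nat.le_add_left 2 t) χ) = ev χ := funext fun y => ev_inclV _ χ y
  rw [← fderiv_ev, ← fderiv_ev, h1]

theorem ev_DD_incl2 (v w : F) (χ : X F (t + 2)) (x : F) :
    ev (D v (D w (inclV (Nat.le_add_left 2 t) χ))) x = ev (D v (D w χ)) x := by
  have h1 : ev (D w (inclV (Nat.le_add_left 2 t) χ)) = ev (D w χ) :=
    funext fun y => ev_D_incl2 w χ y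
  rw [← fderiv_ev, ← fderiv_ev, h1]

/-- **the commutator identity**. -/
theorem Lop_cm (e : OrthonormalBasis ι ℝ F) (c : Cf F ι κ t) (χ : X F (t + 2)) (b : κ → X F 2) :
    Lop e c (cm (Nat.le_add_left 2 t) χ b)
      = cm (Nat.zero_le _) χ (Lop e c b) + comm e c χ b := by
  funext β
  refine ev_inj fun x => ?_
  show _ = ev (i0 χ * Lop e c b β + comm e c χ b β) x
  rw [ev_add, ev_mul, ev_i0, ev_comm, ev_Lop, ev_Lop, ev_C0]
  simp only [ev_C1, ev_CW]
  have h2 : ∀ i j (γ : κ), ev (D (e i) (D (e j) (cm (Nat.le_add_left 2 t) χ b γ))) x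
      = ev (D (e i) (D (e j) χ)) x * ev (b γ) x + ev (D (e j) χ) x * ev (D (e i) (b γ)) x
      + ev (D (e i) χ) x * ev (D (e j) (b γ)) x + ev χ x * ev (D (e i) (D (e j) (b γ))) x :=
    fun i j γ => by
      have := Sel5_570.ev_DD_mul (e i) (e j) (inclV (Nat.le_add_left 2 t) χ) (b γ) x
      rw [ev_DD_incl2, ev_D_incl2, ev_D_incl2, ev_inclV] at this
      exact this
  have h1 : ∀ i (γ : κ), ev (D (e i) (cm (Nat.le_add_left 2 t) χ b γ)) x
      = ev (D (e i) χ) x * ev (b γ) x + ev χ x * ev (D (e i) (b γ)) x := fun i γ => by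
    have := Sel5_570.ev_D_mul (e i) (inclV (Nat.le_add_left 2 t) χ) (b γ) x
    rw [ev_D_incl2, ev_inclV] at this
    exact this
  have h0 : ∀ γ : κ, ev (cm (Nat.le_add_left 2 t) χ b γ) x = ev χ x * ev (b γ) x := fun γ => by
    show ev (inclV (Nat.le_add_left 2 t) χ * b γ) x = _
    rw [ev_mul, ev_inclV]
  simp only [h2, h1, h0]
  -- algebra
  have s1 : ∑ i, ∑ j, ev (c.A i j) x * (ev (D (e i) (D (e j) χ)) x * ev (b β) x
      + ev (D (e j) χ) x * ev (D (e i) (b β)) x + ev (D (e i) χ) x * ev (D (e j) (b β)) x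
      + ev χ x * ev (D (e i) (D (e j) (b β))) x)
      = (∑ i, ∑ j, ev (c.A i j) x * ev (D (e i) (D (e j) χ)) x) * ev (b β) x
        + ∑ i, (∑ j, (ev (c.A i j) x + ev (c.A j i) x) * ev (D (e j) χ) x)
          * ev (D (e i) (b β)) x
        + ev χ x * ∑ i, ∑ j, ev (c.A i j) x * ev (D (e i) (D (e j) (b β))) x := by
    have a1 : ∑ i, (∑ j, (ev (c.A i j) x + ev (c.A j i) x) * ev (D (e j) χ) x)
          * ev (D (e i) (b β)) x
        = ∑ i, ∑ j, ev (c.A i j) x * ev (D (e j) χ) x * ev (D (e i) (b β)) x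
          + ∑ i, ∑ j, ev (c.A i j) x * ev (D (e i) χ) x * ev (D (e j) (b β)) x := by
      rw [Finset.sum_comm (f := fun i j => ev (c.A i j) x * ev (D (e i) χ) x
        * ev (D (e j) (b β)) x), ← Finset.sum_add_distrib]
      refine Finset.sum_congr rfl fun i _ => ?_
      rw [Finset.sum_mul, ← Finset.sum_add_distrib]
      exact Finset.sum_congr rfl fun j _ => by ring
    rw [a1, Finset.sum_mul, Finset.mul_sum, ← Finset.sum_add_distrib, ← Finset.sum_add_distrib,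
      ← Finset.sum_add_distrib]
    refine Finset.sum_congr rfl fun i _ => ?_
    rw [Finset.sum_mul, Finset.mul_sum, ← Finset.sum_add_distrib, ← Finset.sum_add_distrib,
      ← Finset.sum_add_distrib]
    exact Finset.sum_congr rfl fun j _ => by ring
  have s2 : ∑ i, ∑ α, ev (c.B i β α) x * (ev (D (e i) χ) x * ev (b α) x
      + ev χ x * ev (D (e i) (b α)) x)
      = (∑ α, (∑ i, ev (c.B i β α) x * ev (D (e i) χ) x) * ev (b α) x)
        + ev χ x * ∑ i, ∑ α, ev (c.B i β α) x * ev (D (e i) (b α)) x := by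
    have a1 : ev χ x * ∑ i, ∑ α, ev (c.B i β α) x * ev (D (e i) (b α)) x
        = ∑ α, ∑ i, ev χ x * (ev (c.B i β α) x * ev (D (e i) (b α)) x) := by
      rw [Finset.sum_comm, Finset.mul_sum]
      exact Finset.sum_congr rfl fun i _ => by rw [Finset.mul_sum]
    rw [a1, Finset.sum_comm, ← Finset.sum_add_distrib]
    refine Finset.sum_congr rfl fun α _ => ?_
    rw [Finset.sum_mul, ← Finset.sum_add_distrib]
    exact Finset.sum_congr rfl fun i _ => by ring
  have s3 : ∑ i, (ev (D (e i) (D (e i) χ)) x * ev (b β) x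
      + ev (D (e i) χ) x * ev (D (e i) (b β)) x + ev (D (e i) χ) x * ev (D (e i) (b β)) x
      + ev χ x * ev (D (e i) (D (e i) (b β))) x)
      = (∑ i, ev (D (e i) (D (e i) χ)) x) * ev (b β) x
        + ∑ i, 2 * ev (D (e i) χ) x * ev (D (e i) (b β)) x
        + ev χ x * ∑ i, ev (D (e i) (D (e i) (b β))) x := by
    rw [Finset.sum_mul, Finset.mul_sum, ← Finset.sum_add_distrib, ← Finset.sum_add_distrib]
    exact Finset.sum_congr rfl fun i _ => by ring
  have s4 : ∑ α, ev (c.Z β α) x * (ev χ x * ev (b α) x)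
      = ev χ x * ∑ α, ev (c.Z β α) x * ev (b α) x := by
    rw [Finset.mul_sum]
    exact Finset.sum_congr rfl fun i _ => by ring
  have s5 : ∑ i, (2 * ev (D (e i) χ) x + ∑ j, (ev (c.A i j) x + ev (c.A j i) x)
        * ev (D (e j) χ) x) * ev (D (e i) (b β)) x
      = ∑ i, 2 * ev (D (e i) χ) x * ev (D (e i) (b β)) x
        + ∑ i, (∑ j, (ev (c.A i j) x + ev (c.A j i) x) * ev (D (e j) χ) x)
          * ev (D (e i) (b β)) x := by
    rw [← Finset.sum_add_distrib]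
    exact Finset.sum_congr rfl fun i _ => by rw [add_mul]
  rw [s1, s2, s3, s4, s5]
  ring

/-- the commutator lives where the cut-off is not locally constant. -/
theorem cm_comm (e : OrthonormalBasis ι ℝ F) (c : Cf F ι κ t) {M : ℕ} (χ' : X F M)
    (χ : X F (t + 2)) (b : κ → X F 2)
    (h : ∀ x, ev χ' x = 1 ∨ ((∀ i, ev (D (e i) χ) x = 0) ∧
      ∀ i j, ev (D (e i) (D (e j) χ)) x = 0)) :
    cm (Nat.zero_le M) χ' (comm e c χ b) = comm e c χ b := by
  funext β
  refine ev_inj fun x => ?_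
  show ev (i0 χ' * comm e c χ b β) x = _
  rw [ev_mul, ev_i0]
  rcases h x with h1 | ⟨h1, h2⟩
  · rw [h1, one_mul]
  · have h3 : ev (comm e c χ b β) x = 0 := by
      rw [ev_comm, ev_C0]
      simp only [ev_C1, ev_CW, h1, h2, mul_zero, Finset.sum_const_zero, add_zero, zero_mul]
    rw [h3, mul_zero]

/-- size of the commutator coefficients. -/
def cmB (c : Cf F ι κ t) (χ : X F (t + 2)) : ℝ :=
  (Fintype.card ι + 1) * (1 + c.sz) * (4 * (2 * π) ^ 2) * ‖χ‖

theorem sz_nonneg (c : Cf F ι κ t) : 0 ≤ c.sz := by unfold Cf.sz; positivity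

set_option maxHeartbeats 1000000 in
theorem cmB_bound (e : OrthonormalBasis ι ℝ F) (c : Cf F ι κ t) (χ : X F (t + 2)) :
    ∑ i, ‖C1 e c χ i‖ + ‖C0 e c χ‖ + ∑ β, ∑ α, ‖CW e c χ β α‖ ≤ cmB c χ := by
  classical
  have hp := two_pi_ge
  have hsz := sz_nonneg c
  have hD1 : ∀ i, ‖(inclV (Nat.le_succ t) (D (e i) χ) : X F t)‖ ≤ 2 * π * ‖χ‖ := fun i =>
    (norm_inclV_le _ _).trans (norm_D1_le e i χ)
  have hD2 : ∀ i j, ‖D (e i) (D (e j) χ)‖ ≤ (2 * π) ^ 2 * ‖χ‖ := fun i j => norm_D2_le e i j χ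
  -- the coefficient bounds
  have b1 : ∑ i, ‖C1 e c χ i‖ ≤ (Fintype.card ι) * (2 * (2 * π * ‖χ‖))
      + 2 * (∑ i, ∑ j, ‖c.A i j‖) * (2 * π * ‖χ‖) := by
    have h1 : ∀ i, ‖C1 e c χ i‖ ≤ 2 * (2 * π * ‖χ‖)
        + ∑ j, (‖c.A i j‖ + ‖c.A j i‖) * (2 * π * ‖χ‖) := fun i => by
      unfold C1
      refine (norm_add_le _ _).trans (add_le_add ?_ ?_)
      · rw [norm_smul, Complex.norm_two]
        gcongr
        exact hD1 i
      · refine (norm_sum_le _ _).trans (Finset.sum_le_sum fun j _ => ?_)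
        refine (norm_mul_le _ _).trans ?_
        exact mul_le_mul (norm_add_le _ _) (hD1 j) (norm_nonneg _) (by positivity)
    refine (Finset.sum_le_sum fun i _ => h1 i).trans (le_of_eq ?_)
    rw [Finset.sum_add_distrib, Finset.sum_const, Finset.card_univ, nsmul_eq_mul]
    congr 1
    have : ∑ i, ∑ j, (‖c.A i j‖ + ‖c.A j i‖) * (2 * π * ‖χ‖)
        = (∑ i, ∑ j, ‖c.A i j‖ + ∑ i, ∑ j, ‖c.A j i‖) * (2 * π * ‖χ‖) := by
      rw [← Finset.sum_add_distrib, Finset.sum_mul]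
      refine Finset.sum_congr rfl fun i _ => ?_
      rw [← Finset.sum_add_distrib, Finset.sum_mul]
    rw [this, Finset.sum_comm (f := fun i j => ‖c.A j i‖)]
    ring
  have b0 : ‖C0 e c χ‖ ≤ (Fintype.card ι) * ((2 * π) ^ 2 * ‖χ‖)
      + (∑ i, ∑ j, ‖c.A i j‖) * ((2 * π) ^ 2 * ‖χ‖) := by
    unfold C0
    refine (norm_add_le _ _).trans (add_le_add ?_ ?_)
    · refine (norm_sum_le _ _).trans ((Finset.sum_le_sum fun i _ => hD2 i i).trans ?_)
      rw [Finset.sum_const, Finset.card_univ, nsmul_eq_mul]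
    · rw [Finset.sum_mul]
      refine (norm_sum_le _ _).trans (Finset.sum_le_sum fun i _ => ?_)
      rw [Finset.sum_mul]
      refine (norm_sum_le _ _).trans (Finset.sum_le_sum fun j _ => ?_)
      exact (norm_mul_le _ _).trans (mul_le_mul_of_nonneg_left (hD2 i j) (norm_nonneg _))
  have bw : ∑ β, ∑ α, ‖CW e c χ β α‖ ≤ (∑ i, ∑ β, ∑ α, ‖c.B i β α‖) * (2 * π * ‖χ‖) := by
    have h1 : ∀ β α, ‖CW e c χ β α‖ ≤ ∑ i, ‖c.B i β α‖ * (2 * π * ‖χ‖) := fun β α => by
      unfold CW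
      refine (norm_sum_le _ _).trans (Finset.sum_le_sum fun i _ => ?_)
      exact (norm_mul_le _ _).trans (mul_le_mul_of_nonneg_left (hD1 i) (norm_nonneg _))
    refine (Finset.sum_le_sum fun β _ => Finset.sum_le_sum fun α _ => h1 β α).trans (le_of_eq ?_)
    rw [Finset.sum_mul, Finset.sum_comm]
    have : ∀ β, ∑ α, ∑ i, ‖c.B i β α‖ * (2 * π * ‖χ‖)
        = ∑ i, (∑ α, ‖c.B i β α‖) * (2 * π * ‖χ‖) := fun β => by
      rw [Finset.sum_comm]
      exact Finset.sum_congr rfl fun i _ => by rw [Finset.sum_mul]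
    rw [Finset.sum_comm (f := fun α β => ∑ i, ‖c.B i β α‖ * (2 * π * ‖χ‖)),
      Finset.sum_congr rfl fun β _ => this β, Finset.sum_comm]
    exact Finset.sum_congr rfl fun i _ => by rw [Finset.sum_mul]
  refine (add_le_add (add_le_add b1 b0) bw).trans ?_
  clear b1 b0 bw hD1 hD2
  have ha0 : 0 ≤ ∑ i, ∑ j, ‖c.A i j‖ := by positivity
  have hw0 : 0 ≤ ∑ i, ∑ β, ∑ α, ‖c.B i β α‖ := by positivity
  have hz : ∑ i, ∑ j, ‖c.A i j‖ + ∑ i, ∑ β, ∑ α, ‖c.B i β α‖ ≤ c.sz := by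
    unfold Cf.sz
    have : 0 ≤ ∑ β, ∑ α, ‖c.Z β α‖ := by positivity
    linarith
  unfold cmB
  generalize (∑ i, ∑ j, ‖c.A i j‖) = a at *
  generalize (∑ i, ∑ β, ∑ α, ‖c.B i β α‖) = w at *
  generalize c.sz = z at *
  have hn : (0 : ℝ) ≤ Fintype.card ι := Nat.cast_nonneg _
  generalize (Fintype.card ι : ℝ) = ν at *
  have hX := norm_nonneg χ
  generalize ‖χ‖ = y at *
  generalize 2 * π = P at *
  have hq : P ≤ P ^ 2 := by nlinarith
  have hq' : P * y ≤ P ^ 2 * y := by gcongr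
  have hq0 : 0 ≤ P * y := by positivity
  have hq1 : 0 ≤ P ^ 2 * y := hq0.trans hq'
  calc ν * (2 * (P * y)) + 2 * a * (P * y) + (ν * (P ^ 2 * y) + a * (P ^ 2 * y)) + w * (P * y)
      ≤ ν * (2 * (P ^ 2 * y)) + 2 * a * (P ^ 2 * y) + (ν * (P ^ 2 * y) + a * (P ^ 2 * y))
        + w * (P ^ 2 * y) := by gcongr
    _ = (3 * ν + 3 * a + w) * (P ^ 2 * y) := by ring
    _ ≤ ((ν + 1) * (1 + z) * 4) * (P ^ 2 * y) := by
        refine mul_le_mul_of_nonneg_right ?_ hq1
        nlinarith [mul_nonneg hn hsz]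
    _ = _ := by ring

set_option maxHeartbeats 1000000 in
theorem nv_comm_le (e : OrthonormalBasis ι ℝ F) (c : Cf F ι κ t) (χ : X F (t + 2))
    (b : κ → X F 2) {s : ℤ} (hs : s.natAbs ≤ t) :
    nv s (comm e c χ b) ≤ ENNReal.ofReal ((2 * π) ^ 2 * cmB c χ) * nv (s + 1) b := by
  classical
  have btot := cmB_bound e c χ
  set M : ℝ≥0∞ := ENNReal.ofReal ((2 * π) ^ 2) with hM
  have key : ∀ β, ns s (comm e c χ b β)
      ≤ (∑ i, ENNReal.ofReal ‖C1 e c χ i‖) * (M * ns (s + 1) (b β))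
        + ENNReal.ofReal ‖C0 e c χ‖ * (M * ns (s + 1) (b β))
        + (∑ α, ENNReal.ofReal ‖CW e c χ β α‖) * (M * nv (s + 1) b) := fun β => by
    unfold comm
    refine (ns_add_le _ _ _).trans (add_le_add ((ns_add_le _ _ _).trans (add_le_add ?_ ?_)) ?_)
    · rw [Finset.sum_mul]
      refine (ns_sum_le _ _ _).trans (Finset.sum_le_sum fun i _ => ?_)
      refine (ns_mul hs (C1 e c χ i) _).trans ?_
      gcongr
      rw [ns_inclV]
      exact (ns_D1 e i s (b β)).trans (mul_le_mul' tp_le le_rfl)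
    · refine (ns_mul hs (C0 e c χ) _).trans ?_
      gcongr
      rw [ns_inclV]
      calc ns s (b β) ≤ 1 * ns (s + 1) (b β) := by rw [one_mul]; exact ns_mono (by linarith) _
        _ ≤ _ := mul_le_mul' one_le_tp le_rfl
    · rw [Finset.sum_mul]
      refine (ns_sum_le _ _ _).trans (Finset.sum_le_sum fun α _ => ?_)
      refine (ns_mul hs (CW e c χ β α) _).trans ?_
      gcongr
      rw [ns_inclV]
      have h1 : ns s (b α) ≤ nv (s + 1) b :=
        (ns_mono (by linarith) (b α)).trans (ns_le_nv _ b α)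
      calc ns s (b α) ≤ 1 * nv (s + 1) b := by rw [one_mul]; exact h1
        _ ≤ _ := mul_le_mul' one_le_tp le_rfl
  have h1' : ∑ i, ENNReal.ofReal ‖C1 e c χ i‖ = ENNReal.ofReal (∑ i, ‖C1 e c χ i‖) :=
    (ENNReal.ofReal_sum_of_nonneg fun i _ => norm_nonneg _).symm
  have hW' : ∑ β, ∑ α, ENNReal.ofReal ‖CW e c χ β α‖
      = ENNReal.ofReal (∑ β, ∑ α, ‖CW e c χ β α‖) := ofReal_sum2 _ fun i j => norm_nonneg _
  calc nv s (comm e c χ b) ≤ ∑ β, ((∑ i, ENNReal.ofReal ‖C1 e c χ i‖) * (M * ns (s + 1) (b β))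
        + ENNReal.ofReal ‖C0 e c χ‖ * (M * ns (s + 1) (b β))
        + (∑ α, ENNReal.ofReal ‖CW e c χ β α‖) * (M * nv (s + 1) b)) :=
        Finset.sum_le_sum fun β _ => key β
    _ = (∑ i, ENNReal.ofReal ‖C1 e c χ i‖) * (M * nv (s + 1) b)
        + ENNReal.ofReal ‖C0 e c χ‖ * (M * nv (s + 1) b)
        + (∑ β, ∑ α, ENNReal.ofReal ‖CW e c χ β α‖) * (M * nv (s + 1) b) := by
        rw [Finset.sum_add_distrib, Finset.sum_add_distrib, ← Finset.mul_sum, ← Finset.mul_sum,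
          ← Finset.mul_sum, ← Finset.mul_sum, ← Finset.sum_mul]
        rfl
    _ = ENNReal.ofReal ((2 * π) ^ 2 * (∑ i, ‖C1 e c χ i‖ + ‖C0 e c χ‖
          + ∑ β, ∑ α, ‖CW e c χ β α‖)) * nv (s + 1) b := by
        rw [h1', hW', ← add_mul, ← add_mul, ← ENNReal.ofReal_add (by positivity) (by positivity),
          ← ENNReal.ofReal_add (by positivity) (by positivity), ← mul_assoc, hM,
          ← ENNReal.ofReal_mul (by positivity)]
        congr 2
        ring
    _ ≤ _ := by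
        gcongr

end Crest.Agent.R234.Sel6_570
end
end

-- ▼ part R234/Sel8_570
section

/-!
Row 234, VF-SEL (helper570), file 8: the iteration in negative norms.
-/

set_option autoImplicit false
set_option linter.unusedSectionVars false

open MeasureTheory Complex Filter Real
open scoped ContDiff Topology InnerProductSpace ENNReal NNReal

noncomputable section

namespace Crest.Agent.R234.Sel6_570

open Crest.Agent.R086.Wie Crest.Agent.R234.Mx1_397 Crest.Agent.R234.Mx2_397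
  Crest.Agent.R234.Mx3_397 Crest.Agent.R234.Mx4_397 Crest.Agent.R234.Mx6_397
  Crest.Agent.R234.Sel5_570
open Crest.Agent.R234.MG_570 (Cf Lop i0)

variable {F : Type} [NormedAddCommGroup F] [InnerProductSpace ℝ F] [FiniteDimensional ℝ F]
  [MeasurableSpace F] [BorelSpace F] {ι κ : Type*} [Fintype ι] [Fintype κ] {t : ℕ}

/-- abstract recursion. -/
theorem recursion {E : Type*} (T : E → E) (f n q : E → ℝ≥0∞) {A B : ℝ≥0∞} (hB : B ≠ ⊤)
    (h1 : ∀ a, f a ≤ A * n a + f (T a)) (h2 : ∀ a, n (T a) ≤ 2⁻¹ * n a)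
    (h3 : ∀ a, f a ≤ B * q a) (h4 : ∀ a, q (T a) ≤ 2⁻¹ * q a) (hq : ∀ a, q a ≠ ⊤) (a : E) :
    f a ≤ 2 * A * n a := by
  have hstep : ∀ i : ℕ, ∀ a, f a ≤ 2 * A * n a + B * ((2⁻¹) ^ i * q a) := by
    intro i
    induction i with
    | zero =>
      intro a
      rw [pow_zero, one_mul]
      exact (h3 a).trans le_add_self
    | succ i ih =>
      intro a
      refine (h1 a).trans ?_
      have h5 := ih (T a)
      calc A * n a + f (T a) ≤ A * n a + (2 * A * n (T a) + B * ((2⁻¹) ^ i * q (T a))) := by gcongr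
        _ ≤ A * n a + (2 * A * (2⁻¹ * n a) + B * ((2⁻¹) ^ i * (2⁻¹ * q a))) := by
            gcongr
            · exact h2 a
            · exact h4 a
        _ = 2 * A * n a + B * ((2⁻¹) ^ (i + 1) * q a) := by
            have h6 : (2 : ℝ≥0∞) * A * (2⁻¹ * n a) = A * n a := by
              calc (2 : ℝ≥0∞) * A * (2⁻¹ * n a) = (2 * 2⁻¹) * (A * n a) := by ring
                _ = A * n a := by
                    rw [ENNReal.mul_inv_cancel (by norm_num) (by norm_num), one_mul]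
            rw [h6, pow_succ]
            ring
  have hlim : Tendsto (fun i : ℕ => 2 * A * n a + B * ((2⁻¹ : ℝ≥0∞) ^ i * q a)) atTop
      (𝓝 (2 * A * n a + B * (0 * q a))) := by
    refine Tendsto.const_add _ (ENNReal.Tendsto.const_mul ?_ (Or.inr hB))
    refine ENNReal.Tendsto.mul_const ?_ (Or.inr (hq a))
    exact ENNReal.tendsto_pow_atTop_nhds_zero_of_lt_one (by norm_num)
  have := ge_of_tendsto' hlim fun i => hstep i a
  rwa [zero_mul, mul_zero, add_zero] at this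

/-- resolvent of vectors. -/
def RV (a : κ → X F 0) : κ → X F 2 := fun β => Rs (a β)

theorem norm_RV_le (a : κ → X F 0) : ‖RV a‖ ≤ 2 * ‖a‖ :=
  (pi_norm_le_iff_of_nonneg (by positivity)).2 fun β =>
    (norm_Rs_le (a β)).trans (mul_le_mul_of_nonneg_left (norm_le_pi_norm a β) (by norm_num))

theorem nv_RV_le (s : ℤ) (a : κ → X F 0) : nv (s + 2) (RV a) ≤ 2 * nv s a := by
  unfold nv
  rw [Finset.mul_sum]
  exact Finset.sum_le_sum fun β _ => ns_Rs s (a β)


/-- decomposition of `χ a` by the resolvent. -/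
theorem cm_split (e : OrthonormalBasis ι ℝ F) (c : Cf F ι κ t) (χ : X F (t + 2)) (a : κ → X F 0) :
    cm (Nat.zero_le _) χ a = iv (cm (Nat.le_add_left 2 t) χ (RV a))
      - Lop e c (cm (Nat.le_add_left 2 t) χ (RV a)) + comm e c χ (RV a)
      + cm (Nat.zero_le _) χ (Pop e c (RV a)) := by
  have h1 : a = iv (RV a) - Lap e (RV a) := by
    funext β
    exact (Rs_eq e (a β)).symm
  have h2 : Lap e (RV a) = Lop e c (RV a) - Pop e c (RV a) := by rw [Lop_eq]; abel
  rw [Lop_cm]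
  funext β
  show i0 χ * a β = i0 (inclV (Nat.le_add_left 2 t) χ * RV a β)
    - (i0 χ * Lop e c (RV a) β + comm e c χ (RV a) β) + comm e c χ (RV a) β
    + i0 χ * Pop e c (RV a) β
  have h3 : a β = i0 (RV a β) - (Lop e c (RV a) β - Pop e c (RV a) β) := by
    conv_lhs => rw [h1, h2]
    rfl
  have h4 : i0 (inclV (Nat.le_add_left 2 t) χ * RV a β) = i0 χ * i0 (RV a β) := by
    rw [i0, Sel5_570.inclV_mul, inclV_inclV]
  rw [h4]
  conv_lhs => rw [h3]
  rw [mul_sub, mul_sub]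
  abel

theorem nv_cm_le {M : ℕ} (χ : X F M) (a : κ → X F 0) {s : ℤ} (hs : s.natAbs ≤ M) :
    nv s (cm (Nat.zero_le M) χ a) ≤ ENNReal.ofReal ‖χ‖ * nv s a := by
  unfold nv
  rw [Finset.mul_sum]
  exact Finset.sum_le_sum fun β _ => ns_mul hs χ (a β)

theorem nv_iv {N : ℕ} (s : ℤ) (b : κ → X F N) : nv s (iv b) = nv s b := by
  unfold nv iv
  exact Finset.sum_congr rfl fun β _ => ns_inclV _ s (b β)

/-- nested cut-offs. -/
structure Nest (e : OrthonormalBasis ι ℝ F) (R : ℝ) (P : ℝ) (χ : ℕ → X F (t + 2)) : Prop where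
  bd : ∀ k, ‖χ k‖ ≤ P
  zero : ∀ k x, R ≤ ‖x‖ → ev (χ k) x = 0
  nest : ∀ k < t, ∀ x, ev (χ k) x = 1 ∨ (ev (χ (k + 1)) x = 0 ∧ (∀ i, ev (D (e i) (χ (k + 1))) x = 0) ∧
      ∀ i j, ev (D (e i) (D (e j) (χ (k + 1)))) x = 0)

theorem Nest.mul {e : OrthonormalBasis ι ℝ F} {R P : ℝ} {χ : ℕ → X F (t + 2)}
    (h : Nest e R P χ) {k : ℕ} (hk : k < t) (a : κ → X F 0) :
    cm (Nat.zero_le _) (χ k) (cm (Nat.zero_le _) (χ (k + 1)) a)
      = cm (Nat.zero_le _) (χ (k + 1)) a := by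
  funext β
  refine ev_inj fun x => ?_
  show ev (i0 (χ k) * (i0 (χ (k + 1)) * a β)) x = ev (i0 (χ (k + 1)) * a β) x
  rw [ev_mul, ev_mul, ev_i0, ev_i0]
  rcases h.nest k hk x with h1 | ⟨h1, _⟩
  · rw [h1, one_mul]
  · rw [h1]; ring

/-- constant of one step of the iteration. -/
def cK (ι : Type*) [Fintype ι] (P : ℝ) : ℝ :=
  4 * (P + (2 * π) ^ 2 * ((Fintype.card ι + 1) * 2 * (4 * (2 * π) ^ 2) * P))

theorem cK_nonneg {P : ℝ} (hP : 0 ≤ P) : 0 ≤ cK ι P := by unfold cK; positivity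

theorem cmB_le {c : Cf F ι κ t} {P : ℝ} (hsz : c.sz ≤ 1) (χ : X F (t + 2)) (hχ : ‖χ‖ ≤ P) :
    cmB c χ ≤ (Fintype.card ι + 1) * 2 * (4 * (2 * π) ^ 2) * P := by
  unfold cmB
  have h0 := sz_nonneg c
  have hP : 0 ≤ P := (norm_nonneg χ).trans hχ
  gcongr
  linarith

/-- **the iteration**: decay of an annihilating functional. -/
theorem decay (e : OrthonormalBasis ι ℝ F) (c : Cf F ι κ t)
    (hs : (2 * π) ^ 2 * c.sz ≤ 1 / 4) {R P H : ℝ} (hH : 0 ≤ H) {χ : ℕ → X F (t + 2)}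
    (h : Nest e R P χ) (J : (κ → X F 0) →L[ℂ] ℂ) (hJ : ‖J‖ ≤ H)
    (hann : ∀ φ ∈ Sp F κ R, J (Lop e c φ) = 0) :
    ∀ k ≤ t, ∀ a : κ → X F 0, ENNReal.ofReal ‖J (cm (Nat.zero_le _) (χ k) a)‖
      ≤ ENNReal.ofReal (H * P * (cK ι P) ^ k) * nv (-(k : ℤ)) a := by
  have hP : 0 ≤ P := (norm_nonneg (χ 0)).trans (h.bd 0)
  have hsz1 : c.sz ≤ 1 := by
    have h0 := sz_nonneg c
    have h1 : (1 : ℝ) ≤ (2 * π) ^ 2 := one_le_pow₀ two_pi_ge
    nlinarith
  have hbase : ∀ k, ∀ a : κ → X F 0, ENNReal.ofReal ‖J (cm (Nat.zero_le _) (χ k) a)‖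
      ≤ ENNReal.ofReal (H * P) * ENNReal.ofReal ‖a‖ := fun k a => by
    rw [← ENNReal.ofReal_mul (by positivity)]
    refine ENNReal.ofReal_le_ofReal ?_
    have h1 : ‖cm (Nat.zero_le _) (χ k) a‖ ≤ P * ‖a‖ := by
      refine (pi_norm_le_iff_of_nonneg (by positivity)).2 fun β => ?_
      refine (norm_mul_le _ _).trans ?_
      exact mul_le_mul ((norm_inclV_le _ _).trans (h.bd k)) (norm_le_pi_norm a β) (norm_nonneg _) hP
    calc _ ≤ ‖J‖ * ‖cm (Nat.zero_le _) (χ k) a‖ := J.le_opNorm _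
      _ ≤ H * (P * ‖a‖) := by gcongr
      _ = _ := by ring
  intro k
  induction k with
  | zero =>
    intro _ a
    refine (hbase 0 a).trans ?_
    rw [pow_zero, mul_one]
    gcongr
    simpa using norm_le_nv a
  | succ k ih =>
    intro hk a
    have ih' := ih (by omega)
    set Kk : ℝ≥0∞ := ENNReal.ofReal (H * P * (cK ι P) ^ k) with hKk
    set B : ℝ := (Fintype.card ι + 1) * 2 * (4 * (2 * π) ^ 2) * P with hB
    have hB0 : 0 ≤ B := by positivity
    have key := recursion (fun a : κ → X F 0 => Pop e c (RV a))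
      (fun a => ENNReal.ofReal ‖J (cm (Nat.zero_le _) (χ (k + 1)) a)‖)
      (fun a => nv (-((k + 1 : ℕ) : ℤ)) a) (fun a => ENNReal.ofReal ‖a‖)
      (A := Kk * ENNReal.ofReal (2 * (P + (2 * π) ^ 2 * B)))
      (B := ENNReal.ofReal (H * P)) ENNReal.ofReal_ne_top
      (fun a => ?_) (fun a => ?_) (fun a => hbase (k + 1) a) (fun a => ?_)
      (fun a => ENNReal.ofReal_ne_top) a
    · refine key.trans (le_of_eq ?_)
      congr 1
      rw [hKk, ← ENNReal.ofReal_mul (by have := cK_nonneg (ι := ι) hP; positivity)]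
      rw [show (2 : ℝ≥0∞) = ENNReal.ofReal 2 by norm_num, ← ENNReal.ofReal_mul (by norm_num)]
      congr 1
      rw [pow_succ, cK, ← hB]
      ring
    · -- one step
      rw [cm_split e c (χ (k + 1)) a]
      have hmem : cm (Nat.le_add_left 2 t) (χ (k + 1)) (RV a) ∈ Sp F κ R := fun β x hx => by
        show ev (inclV (Nat.le_add_left 2 t) (χ (k + 1)) * RV a β) x = 0
        rw [ev_mul, ev_inclV, h.zero _ x hx, zero_mul]
      rw [map_add, map_add, map_sub, hann _ hmem, sub_zero]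
      have t1 : ENNReal.ofReal ‖J (iv (cm (Nat.le_add_left 2 t) (χ (k + 1)) (RV a)))‖
          ≤ Kk * (ENNReal.ofReal P * (2 * nv (-((k + 1 : ℕ) : ℤ)) a)) := by
        have e1 : iv (cm (Nat.le_add_left 2 t) (χ (k + 1)) (RV a))
            = cm (Nat.zero_le _) (χ k) (cm (Nat.zero_le _) (χ (k + 1)) (iv (RV a))) := by
          rw [h.mul (by omega)]
          funext β
          show i0 (inclV (Nat.le_add_left 2 t) (χ (k + 1)) * RV a β) = i0 (χ (k + 1)) * i0 (RV a β)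
          rw [i0, Sel5_570.inclV_mul, inclV_inclV]
        rw [e1]
        refine (ih' _).trans ?_
        gcongr
        refine (nv_cm_le _ _ (s := -(k : ℤ)) (by simp; omega)).trans ?_
        gcongr
        · exact h.bd _
        · rw [nv_iv]
          refine le_trans (nv_mono (t := -((k + 1 : ℕ) : ℤ) + 2) (by push_cast; linarith) _)
            (nv_RV_le _ a)
      have t2 : ENNReal.ofReal ‖J (comm e c (χ (k + 1)) (RV a))‖
          ≤ Kk * (ENNReal.ofReal ((2 * π) ^ 2 * B) * (2 * nv (-((k + 1 : ℕ) : ℤ)) a)) := by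
        rw [← cm_comm e c (χ k) (χ (k + 1)) (RV a) fun x => (h.nest k (by omega) x).imp id fun h => h.2]
        refine (ih' _).trans ?_
        gcongr
        refine (nv_comm_le e c _ _ (s := -(k : ℤ)) (by simp; omega)).trans ?_
        have e2 : -(k : ℤ) + 1 = -((k + 1 : ℕ) : ℤ) + 2 := by push_cast; ring
        rw [e2]
        gcongr
        · exact cmB_le hsz1 _ (h.bd _)
        · exact nv_RV_le _ a
      refine (ENNReal.ofReal_le_ofReal (norm_add_le _ _)).trans ?_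
      rw [ENNReal.ofReal_add (norm_nonneg _) (norm_nonneg _)]
      refine add_le_add ?_ le_rfl
      refine (ENNReal.ofReal_le_ofReal (norm_add_le _ _)).trans ?_
      rw [ENNReal.ofReal_add (norm_nonneg _) (norm_nonneg _)]
      refine (add_le_add t1 t2).trans (le_of_eq ?_)
      rw [ENNReal.ofReal_mul (p := 2) (by norm_num), ENNReal.ofReal_add hP (by positivity)]
      rw [show ENNReal.ofReal 2 = (2 : ℝ≥0∞) by norm_num]
      ring
    · -- contraction of the seminorm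
      refine (nv_Pop_le e c (RV a) (s := -((k + 1 : ℕ) : ℤ)) (by simp; omega)).trans ?_
      calc _ ≤ ENNReal.ofReal (1 / 4) * (2 * nv (-((k + 1 : ℕ) : ℤ)) a) := by
            gcongr
            exact nv_RV_le _ a
        _ = 2⁻¹ * nv (-((k + 1 : ℕ) : ℤ)) a := by
            rw [← mul_assoc]
            congr 1
            rw [show (2 : ℝ≥0∞) = ENNReal.ofReal 2 by norm_num, ← ENNReal.ofReal_mul (by norm_num),
              ← ENNReal.ofReal_inv_of_pos (by norm_num)]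
            norm_num
    · have h1 := norm_Pop_le e c (RV a)
      have h2 := norm_RV_le a
      have h3 : ‖Pop e c (RV a)‖ ≤ 1 / 2 * ‖a‖ := by
        calc _ ≤ 1 / 4 * (2 * ‖a‖) := h1.trans (by gcongr)
          _ = _ := by ring
      refine (ENNReal.ofReal_le_ofReal h3).trans (le_of_eq ?_)
      rw [ENNReal.ofReal_mul (by norm_num)]
      congr 1
      rw [show (2 : ℝ≥0∞) = ENNReal.ofReal 2 by norm_num, ← ENNReal.ofReal_inv_of_pos (by norm_num)]
      norm_num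

end Crest.Agent.R234.Sel6_570
end
end

-- ▼ part R234/Rep_681
section

/-!
# Row 234, node F2-REP (helper681), part 1: functionals with decay on the Wiener algebra

`rep` : `T (χ a) = T a`, `‖T a‖ ≤ K ns(-k) a`, `k = s + m + 1`, `m = dim F` imply
`T a = ∫ ev J · ev a` with `J ∈ X s`.
-/

set_option autoImplicit false
set_option linter.unusedSectionVars false

open MeasureTheory Complex Filter Real
open scoped ContDiff Topology InnerProductSpace ENNReal NNReal FourierTransform SchwartzMap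

noncomputable section

namespace Crest.Agent.R234.Rep_681

open Crest.Agent.R086.Wie Crest.Agent.R234.Mx1_397 Crest.Agent.R234.Mx2_397
  Crest.Agent.R234.Mx3_397 Crest.Agent.R234.Mx6_397 Crest.Agent.R234.Sel5_570

variable {F : Type*} [NormedAddCommGroup F] [InnerProductSpace ℝ F] [FiniteDimensional ℝ F]
  [MeasurableSpace F] [BorelSpace F]

/-! ### translations of a Schwartz density -/

theorem wt_zero (ξ : F) : wt 0 ξ = 1 := by unfold wt; rw [pow_zero]

theorem wint_tr (h : 𝓢(F, ℂ)) (ξ : F) : WInt 0 (fun η => h (η - ξ)) := by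
  have h1 : Integrable (fun η : F => h (η - ξ)) := h.integrable.comp_sub_right ξ
  refine h1.congr (Eventually.of_forall fun η => ?_)
  simp only [wtV_apply, wt_zero, one_smul]

/-- translation of the density `h` -/
def Mo (h : 𝓢(F, ℂ)) (ξ : F) : X F 0 := XG.mk (fun η => h (η - ξ)) (wint_tr h ξ)

theorem den_Mo (h : 𝓢(F, ℂ)) (ξ : F) : XG.den (Mo h ξ) =ᵐ[volume] fun η => h (η - ξ) :=
  XG.den_mk _

theorem norm_Mo (h : 𝓢(F, ℂ)) (ξ : F) : ‖Mo h ξ‖ = ∫ η, ‖h η‖ := by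
  unfold Mo
  rw [XG.norm_mk]
  simp only [wtV_apply, wt_zero, one_mul]
  exact integral_sub_right_eq_self (fun η => ‖h η‖) ξ

theorem norm_Mo_sub (h : 𝓢(F, ℂ)) (ξ ξ₀ : F) :
    ‖Mo h ξ - Mo h ξ₀‖ = ∫ η, ‖h (η - ξ) - h (η - ξ₀)‖ := by
  rw [XG.norm_eq]
  simp only [wtV_apply, wt_zero, one_mul]
  refine integral_congr_ae ?_
  filter_upwards [XG.den_sub (Mo h ξ) (Mo h ξ₀), den_Mo h ξ, den_Mo h ξ₀] with η h1 h2 h3
  rw [h1, h2, h3]

theorem exists_decay (h : 𝓢(F, ℂ)) : ∃ (n : ℕ) (A : ℝ), 0 ≤ A ∧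
    Integrable (fun x : F => (1 + ‖x‖) ^ (-(n : ℝ))) ∧
    ∀ x : F, ‖h x‖ ≤ A * (1 + ‖x‖) ^ (-(n : ℝ)) := by
  obtain ⟨n, hn⟩ := exists_pow (F := F)
  refine ⟨n, 2 ^ (0 + n) * ((Finset.Iic (0 + n, 0)).sup
      (schwartzSeminormFamily ℂ F ℂ) h), by positivity, hn, fun x => ?_⟩
  have := wt_mul_le 0 n h x
  rwa [wt_zero, one_mul] at this

theorem decay_shift (n : ℕ) {x y : F} (hxy : ‖x - y‖ ≤ 1) :
    (1 + ‖x‖) ^ (-(n : ℝ)) ≤ 2 ^ n * (1 + ‖y‖) ^ (-(n : ℝ)) := by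
  have h1 : 1 + ‖y‖ ≤ 2 * (1 + ‖x‖) := by
    have : ‖y‖ ≤ ‖x‖ + ‖x - y‖ := by
      have := norm_sub_le x (x - y)
      rwa [sub_sub_cancel] at this
    linarith [norm_nonneg x]
  have hx : (0 : ℝ) < 1 + ‖x‖ := by positivity
  have hy : (0 : ℝ) < 1 + ‖y‖ := by positivity
  rw [rpow_neg hx.le, rpow_neg hy.le, rpow_natCast, rpow_natCast, ← div_eq_mul_inv,
    le_div_iff₀ (pow_pos hy n), inv_mul_le_iff₀ (pow_pos hx n)]
  calc (1 + ‖y‖) ^ n ≤ (2 * (1 + ‖x‖)) ^ n := pow_le_pow_left₀ hy.le h1 n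
    _ = _ := by rw [mul_pow]; ring

theorem continuous_Mo (h : 𝓢(F, ℂ)) : Continuous (Mo h) := by
  refine continuous_iff_continuousAt.2 fun ξ₀ => ?_
  rw [ContinuousAt, tendsto_iff_norm_sub_tendsto_zero]
  simp only [norm_Mo_sub]
  obtain ⟨n, A, hA, hn, hd⟩ := exists_decay h
  have hlim : ∫ _η : F, (0 : ℝ) = 0 := integral_zero F ℝ
  rw [← hlim]
  refine tendsto_integral_filter_of_dominated_convergence
    (fun η => (A * 2 ^ n + A) * (1 + ‖η - ξ₀‖) ^ (-(n : ℝ)))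
    (Eventually.of_forall fun ξ => ?_) ?_ ((hn.comp_sub_right ξ₀).const_mul _)
    (Eventually.of_forall fun η => ?_)
  · exact (((h.continuous.comp (continuous_id.sub continuous_const)).sub
      (h.continuous.comp (continuous_id.sub continuous_const))).norm).aestronglyMeasurable
  · filter_upwards [Metric.closedBall_mem_nhds ξ₀ zero_lt_one] with ξ hξ
    refine Eventually.of_forall fun η => ?_
    rw [norm_norm]
    have h1 : ‖(η - ξ) - (η - ξ₀)‖ ≤ 1 := by
      rw [sub_sub_sub_cancel_left, ← dist_eq_norm, dist_comm]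
      exact hξ
    have h2 := decay_shift n h1
    calc ‖h (η - ξ) - h (η - ξ₀)‖ ≤ ‖h (η - ξ)‖ + ‖h (η - ξ₀)‖ := norm_sub_le _ _
      _ ≤ A * (2 ^ n * (1 + ‖η - ξ₀‖) ^ (-(n : ℝ))) + A * (1 + ‖η - ξ₀‖) ^ (-(n : ℝ)) := by
          refine add_le_add ((hd _).trans ?_) (hd _)
          gcongr
      _ = _ := by ring
  · have h1 : Continuous fun ξ : F => ‖h (η - ξ) - h (η - ξ₀)‖ :=
      ((h.continuous.comp (continuous_const.sub continuous_id)).sub continuous_const).norm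
    have h2 := h1.tendsto ξ₀
    rwa [sub_self, norm_zero] at h2

theorem ev_Mo (h : 𝓢(F, ℂ)) (ξ x : F) : ev (Mo h ξ) x = chr x ξ * ∫ η, chr x η * h η := by
  rw [ev_eq]
  have h1 : ∫ η, chr x η * XG.den (Mo h ξ) η = ∫ η, chr x η * h (η - ξ) :=
    integral_congr_ae ((den_Mo h ξ).mono fun η hη => by simp only [hη])
  rw [h1, ← integral_add_right_eq_self (fun η => chr x η * h (η - ξ)) ξ, ← integral_const_mul]
  refine integral_congr_ae (Eventually.of_forall fun η => ?_)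
  simp only [add_sub_cancel_right, chr_add]
  ring

theorem ev_Mo_fourier (g : 𝓢(F, ℂ)) (ξ x : F) :
    ev (Mo (𝓕 g) ξ) x = chr x ξ * ev (toX 0 g) x := by
  rw [ev_Mo, ev_eq]
  congr 1
  exact integral_congr_ae ((den_toX 0 g).mono fun η hη => by
    simp only [hη, SchwartzMap.fourier_coe])

/-- evaluation as a continuous functional -/
def evC (x : F) : X F 0 →L[ℂ] ℂ :=
  (evL (N := 0) x).mkContinuous 1 fun a => by
    rw [one_mul]
    exact norm_ev_le a x

theorem evC_apply (x : F) (a : X F 0) : evC x a = ev a x := rfl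

theorem integrable_Mo (h : 𝓢(F, ℂ)) (a : X F 0) :
    Integrable fun ξ => XG.den a ξ • Mo h ξ := by
  have hm : AEStronglyMeasurable (fun ξ => XG.den a ξ • Mo h ξ) (volume : Measure F) :=
    (XG.integrable_den a).aestronglyMeasurable.smul (continuous_Mo h).aestronglyMeasurable
  refine ((XG.integrable_den a).norm.mul_const (∫ η, ‖h η‖)).mono' hm
    (Eventually.of_forall fun ξ => ?_)
  rw [norm_smul, norm_Mo]

theorem mul_eq_integral (g : 𝓢(F, ℂ)) (a : X F 0) :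
    toX 0 g * a = ∫ ξ, XG.den a ξ • Mo (𝓕 g) ξ := by
  refine ev_inj fun x => ?_
  rw [← evC_apply x (∫ ξ, XG.den a ξ • Mo (𝓕 g) ξ),
    ← (evC x).integral_comp_comm (integrable_Mo (𝓕 g) a), ev_mul, ev_eq a, ← integral_const_mul]
  refine integral_congr_ae (Eventually.of_forall fun ξ => ?_)
  simp only [map_smul, evC_apply, ev_Mo_fourier, smul_eq_mul]
  ring

theorem T_mul_eq (T : X F 0 →L[ℂ] ℂ) (g : 𝓢(F, ℂ)) (a : X F 0) :
    T (toX 0 g * a) = ∫ ξ, XG.den a ξ * T (Mo (𝓕 g) ξ) := by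
  rw [mul_eq_integral, ← T.integral_comp_comm (integrable_Mo (𝓕 g) a)]
  simp only [map_smul, smul_eq_mul]

/-! ### decay -/

theorem wz_neg (s : ℤ) (ξ : F) : wz s (-ξ) = wz s ξ := by unfold wz; rw [norm_neg]

theorem ns_Mo_le (g : 𝓢(F, ℂ)) (k : ℕ) (ξ : F) :
    ns (-(k : ℤ)) (Mo (𝓕 g) ξ)
      ≤ ENNReal.ofReal ‖toX k g‖ * ENNReal.ofReal (wz (-(k : ℤ)) ξ) := by
  have e1 : ns (-(k : ℤ)) (Mo (𝓕 g) ξ)
      = ∫⁻ η, ‖(𝓕 g) (η - ξ)‖ₑ * ENNReal.ofReal (wz (-(k : ℤ)) η) :=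
    lintegral_congr_ae ((den_Mo (𝓕 g) ξ).mono fun η hη => by simp only [hη])
  have hc : Continuous fun η : F => (𝓕 g) (η - ξ) :=
    (𝓕 g).continuous.comp (continuous_id.sub continuous_const)
  have hm : Measurable fun η : F => ‖(𝓕 g) (η - ξ)‖ₑ * ENNReal.ofReal (wt k (η - ξ)) :=
    hc.measurable.enorm.mul ((continuous_wt k).comp
      (continuous_id.sub continuous_const)).measurable.ennreal_ofReal
  have e2 : ∫⁻ η, ‖(𝓕 g) (η - ξ)‖ₑ * ENNReal.ofReal (wt k (η - ξ))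
      = ENNReal.ofReal ‖toX k g‖ := by
    have e3 := lintegral_sub_right_eq_self (μ := (volume : Measure F))
      (fun η : F => ‖(𝓕 g) η‖ₑ * ENNReal.ofReal (wt k η)) ξ
    refine e3.trans ?_
    rw [← ns_nat]
    unfold ns
    refine lintegral_congr_ae ((den_toX k g).mono fun η hη => ?_)
    simp only [hη, SchwartzMap.fourier_coe, wz_nat]
  rw [e1, ← e2, ← lintegral_mul_const _ hm]
  refine lintegral_mono fun η => ?_
  have h1 : wz (-(k : ℤ)) η ≤ wt k (η - ξ) * wz (-(k : ℤ)) ξ := by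
    have := wz_peetre (s := -(k : ℤ)) (N := k) (by simp) η (η - ξ)
    rwa [sub_sub_cancel] at this
  calc ‖(𝓕 g) (η - ξ)‖ₑ * ENNReal.ofReal (wz (-(k : ℤ)) η)
      ≤ ‖(𝓕 g) (η - ξ)‖ₑ * ENNReal.ofReal (wt k (η - ξ) * wz (-(k : ℤ)) ξ) := by gcongr
    _ = _ := by rw [ENNReal.ofReal_mul (wt_nonneg k _), mul_assoc]

theorem norm_T_Mo_le {T : X F 0 →L[ℂ] ℂ} {g : 𝓢(F, ℂ)} {k : ℕ} {K : ℝ} (hK : 0 ≤ K)
    (hT : ∀ a : X F 0, ENNReal.ofReal ‖T a‖ ≤ ENNReal.ofReal K * ns (-(k : ℤ)) a) (ξ : F) :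
    ‖T (Mo (𝓕 g) ξ)‖ ≤ K * ‖toX k g‖ * wz (-(k : ℤ)) ξ := by
  have h1 : ENNReal.ofReal ‖T (Mo (𝓕 g) ξ)‖
      ≤ ENNReal.ofReal (K * ‖toX k g‖ * wz (-(k : ℤ)) ξ) := by
    refine (hT _).trans ?_
    rw [ENNReal.ofReal_mul (by positivity), ENNReal.ofReal_mul hK, mul_assoc]
    gcongr
    exact ns_Mo_le g k ξ
  exact (ENNReal.ofReal_le_ofReal_iff
    (mul_nonneg (mul_nonneg hK (norm_nonneg _)) (wz_nonneg _ _))).1 h1

theorem wt_mul_wz (s r : ℕ) (ξ : F) :
    wt s ξ * wz (-((s + r : ℕ) : ℤ)) ξ = (1 + ‖ξ‖) ^ (-(r : ℝ)) := by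
  have h0 : (0 : ℝ) < 1 + ‖ξ‖ := one_add_pos ξ
  rw [← wz_nat, ← wz_add]
  unfold wz
  have : ((s : ℤ) + -((s + r : ℕ) : ℤ)) = -(r : ℤ) := by push_cast; ring
  rw [this, ← Real.rpow_intCast]
  congr 1
  push_cast
  ring

/-! ### the Fourier inversion -/

theorem continuous_chr2 : Continuous fun z : F × F => chr z.1 z.2 := by
  unfold chr
  exact continuous_subtype_val.comp (Real.continuous_fourierChar.comp
    (continuous_snd.inner continuous_fst))


theorem integral_schwartz_mul_ev (φ : 𝓢(F, ℂ)) (a : X F 0) :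
    ∫ x, φ x * ev a x = ∫ ξ, 𝓕⁻ (φ : F → ℂ) ξ * XG.den a ξ := by
  have h3 : ∀ x, φ x * ev a x = ∫ ξ, φ x * (chr x ξ * XG.den a ξ) := fun x => by
    rw [integral_const_mul, ← ev_eq]
  have hint : Integrable (Function.uncurry fun (x ξ : F) => φ x * (chr x ξ * XG.den a ξ))
      (volume.prod volume) := by
    have a1 : Integrable (fun z : F × F => φ z.1 * XG.den a z.2) (volume.prod volume) :=
      φ.integrable.mul_prod (XG.integrable_den a)
    have a2 : Integrable (fun z : F × F => chr z.1 z.2 * (φ z.1 * XG.den a z.2))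
        (volume.prod volume) :=
      a1.bdd_mul (c := 1) continuous_chr2.aestronglyMeasurable
        (Eventually.of_forall fun z => (norm_chr _ _).le)
    refine a2.congr (Eventually.of_forall fun z => ?_)
    simp only [Function.uncurry]
    ring
  rw [integral_congr_ae (Eventually.of_forall h3), integral_integral_swap hint]
  refine integral_congr_ae (Eventually.of_forall fun ξ => ?_)
  simp only
  rw [Real.fourierInv_eq, ← integral_mul_const]
  refine integral_congr_ae (Eventually.of_forall fun x => ?_)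
  simp only
  rw [Circle.smul_def, smul_eq_mul]
  unfold chr
  rw [real_inner_comm]
  ring

/-- **inversion**: the density is the Fourier transform of the synthesis when the latter is
integrable. -/
theorem den_eq {a : X F 0} (ha : Integrable (ev a)) :
    (fun ξ => ∫ x, chr x (-ξ) * ev a x) =ᵐ[volume] XG.den a := by
  have hcont : Continuous fun ξ : F => ∫ x, chr x (-ξ) * ev a x := by
    refine continuous_of_dominated (bound := fun x => ‖ev a x‖) (fun ξ => ?_) (fun ξ => ?_)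
      ha.norm (Eventually.of_forall fun x => ?_)
    · refine AEStronglyMeasurable.mul ?_ ha.aestronglyMeasurable
      exact (continuous_chr2.comp (continuous_id.prodMk continuous_const)).aestronglyMeasurable
    · refine Eventually.of_forall fun x => ?_
      rw [norm_mul, norm_chr, one_mul]
    · exact ((continuous_chr x).comp continuous_neg).mul continuous_const
  refine ae_eq_of_integral_contDiff_smul_eq hcont.locallyIntegrable
    (XG.integrable_den a).locallyIntegrable fun g hg hs => ?_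
  set φ : 𝓢(F, ℂ) := 𝓕 (toS g hs hg) with hφ
  have h4 : ∀ ξ, 𝓕⁻ (φ : F → ℂ) ξ = (g ξ : ℂ) := fun ξ => by
    rw [← SchwartzMap.fourierInv_coe, hφ, FourierTransform.fourierInv_fourier_eq, toS_apply]
  have h5 : ∀ x, φ x = ∫ ξ, (g ξ : ℂ) * chr x (-ξ) := fun x => by
    rw [hφ, SchwartzMap.fourier_coe, Real.fourier_eq]
    refine integral_congr_ae (Eventually.of_forall fun ξ => ?_)
    simp only
    rw [Circle.smul_def, smul_eq_mul, toS_apply, mul_comm]
    unfold chr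
    rw [inner_neg_left]
  have h6 : ∫ ξ, g ξ • XG.den a ξ = ∫ x, φ x * ev a x := by
    rw [integral_schwartz_mul_ev]
    refine integral_congr_ae (Eventually.of_forall fun ξ => ?_)
    simp only [h4, Complex.real_smul]
  rw [h6]
  have hgi : Integrable (fun ξ : F => (g ξ : ℂ)) := (toS g hs hg).integrable
  have hint : Integrable (Function.uncurry fun (ξ x : F) => (g ξ : ℂ) * (chr x (-ξ) * ev a x))
      (volume.prod volume) := by
    have a1 : Integrable (fun z : F × F => (g z.1 : ℂ) * ev a z.2) (volume.prod volume) :=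
      hgi.mul_prod ha
    have a2 : Integrable (fun z : F × F => chr z.2 (-z.1) * ((g z.1 : ℂ) * ev a z.2))
        (volume.prod volume) := by
      refine a1.bdd_mul (c := 1) ?_ (Eventually.of_forall fun z => (norm_chr _ _).le)
      exact (continuous_chr2.comp (continuous_snd.prodMk continuous_fst.neg)).aestronglyMeasurable
    refine a2.congr (Eventually.of_forall fun z => ?_)
    simp only [Function.uncurry]
    ring
  have e1 : ∫ ξ, g ξ • ∫ x, chr x (-ξ) * ev a x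
      = ∫ ξ, ∫ x, (g ξ : ℂ) * (chr x (-ξ) * ev a x) := by
    refine integral_congr_ae (Eventually.of_forall fun ξ => ?_)
    simp only [integral_const_mul, Complex.real_smul]
  rw [e1, integral_integral_swap hint]
  refine integral_congr_ae (Eventually.of_forall fun x => ?_)
  simp only
  rw [h5, ← integral_mul_const]
  refine integral_congr_ae (Eventually.of_forall fun ξ => ?_)
  simp only
  ring

theorem integral_ev_mul_ev {s : ℕ} (J : X F s) {a : X F 0} (ha : Integrable (ev a)) :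
    ∫ x, ev J x * ev a x = ∫ ξ, XG.den J (-ξ) * XG.den a ξ := by
  have hJ : Integrable (XG.den J) := XG.integrable_den J
  have hint : Integrable (Function.uncurry fun (x ξ : F) => chr x ξ * XG.den J ξ * ev a x)
      (volume.prod volume) := by
    have a1 : Integrable (fun z : F × F => ev a z.1 * XG.den J z.2) (volume.prod volume) :=
      ha.mul_prod hJ
    have a2 : Integrable (fun z : F × F => chr z.1 z.2 * (ev a z.1 * XG.den J z.2))
        (volume.prod volume) :=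
      a1.bdd_mul (c := 1) continuous_chr2.aestronglyMeasurable
        (Eventually.of_forall fun z => (norm_chr _ _).le)
    refine a2.congr (Eventually.of_forall fun z => ?_)
    simp only [Function.uncurry]
    ring
  have e1 : ∫ x, ev J x * ev a x = ∫ x, ∫ ξ, chr x ξ * XG.den J ξ * ev a x := by
    refine integral_congr_ae (Eventually.of_forall fun x => ?_)
    simp only [integral_mul_const, ev_eq J]
  rw [e1, integral_integral_swap hint, ← integral_neg_eq_self]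
  refine integral_congr_ae ?_
  filter_upwards [den_eq ha] with ξ hξ
  rw [← hξ, ← integral_const_mul]
  refine integral_congr_ae (Eventually.of_forall fun x => ?_)
  simp only
  ring

/-! ### the representation -/

/-- **representation** of functionals with decay. -/
theorem rep (s r : ℕ) (hr : (Module.finrank ℝ F : ℝ) < r) (T : X F 0 →L[ℂ] ℂ) (g : 𝓢(F, ℂ))
    (K : ℝ) (hK : 0 ≤ K) (hg : ∀ a : X F 0, T (toX 0 g * a) = T a)
    (hT : ∀ a : X F 0, ENNReal.ofReal ‖T a‖ ≤ ENNReal.ofReal K * ns (-((s + r : ℕ) : ℤ)) a) :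
    ∃ J : X F s, ‖J‖ ≤ (∫ ξ : F, (1 + ‖ξ‖) ^ (-(r : ℝ))) * K * ‖toX (s + r) g‖ ∧
      ∀ a : X F 0, Integrable (ev a) → T a = ∫ x, ev J x * ev a x := by
  have hint : Integrable fun ξ : F => (1 + ‖ξ‖) ^ (-(r : ℝ)) := integrable_one_add_norm hr
  set j : F → ℂ := fun ξ => T (Mo (𝓕 g) (-ξ)) with hj
  have hjc : Continuous j := T.continuous.comp ((continuous_Mo (𝓕 g)).comp continuous_neg)
  have hjb : ∀ ξ, wt s ξ * ‖j ξ‖ ≤ K * ‖toX (s + r) g‖ * (1 + ‖ξ‖) ^ (-(r : ℝ)) := fun ξ => by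
    have h1 := norm_T_Mo_le hK hT (g := g) (-ξ)
    rw [wz_neg] at h1
    rw [← wt_mul_wz s r ξ]
    calc wt s ξ * ‖j ξ‖ ≤ wt s ξ * (K * ‖toX (s + r) g‖ * wz (-((s + r : ℕ) : ℤ)) ξ) :=
          mul_le_mul_of_nonneg_left h1 (wt_nonneg s ξ)
      _ = _ := by ring
  have hjw : Integrable fun ξ : F => wt s ξ * ‖j ξ‖ := by
    refine (hint.const_mul (K * ‖toX (s + r) g‖)).mono'
      ((continuous_wt s).mul hjc.norm).aestronglyMeasurable (Eventually.of_forall fun ξ => ?_)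
    rw [Real.norm_of_nonneg (mul_nonneg (wt_nonneg s ξ) (norm_nonneg _))]
    exact hjb ξ
  have hw : WInt s j := (gint_iff hjc.aestronglyMeasurable).2 hjw
  refine ⟨XG.mk j hw, ?_, fun a ha => ?_⟩
  · rw [XG.norm_mk]
    calc ∫ ξ, (wtV F s) ξ * ‖j ξ‖
        ≤ ∫ ξ : F, K * ‖toX (s + r) g‖ * (1 + ‖ξ‖) ^ (-(r : ℝ)) :=
          integral_mono hjw (hint.const_mul _) hjb
      _ = _ := by rw [integral_const_mul]; ring
  · rw [← hg a, T_mul_eq, integral_ev_mul_ev _ ha]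
    refine integral_congr_ae ?_
    filter_upwards [XG.ae_neg (XG.den_mk hw)] with ξ hξ
    rw [hξ, hj]
    simp only [neg_neg]
    ring

end Crest.Agent.R234.Rep_681
end
end

-- ▼ part R234/Rep2_681
section

/-!
# Row 234, node F2-REP (helper681), part 2: the literal `RepP` of `MgDefs3_570`
-/

set_option autoImplicit false

open MeasureTheory
open Crest.GeometryTopology.Submanifold

noncomputable section

namespace Crest.Agent.R234.Rep_681

/-- node F2-REP, literal form. -/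
theorem repP : MG_570.RepP := by
  intro m s
  have hd : (Module.finrank ℝ (Euc m) : ℝ) < ((m + 1 : ℕ) : ℝ) := by
    rw [finrank_euclideanSpace_fin]
    exact_mod_cast Nat.lt_succ_self m
  refine ⟨(∫ ξ : Euc m, (1 + ‖ξ‖) ^ (-((m + 1 : ℕ) : ℝ))) + 1,
    add_pos_of_nonneg_of_pos (integral_nonneg fun ξ => by positivity) one_pos,
    fun T g K hK hg hT => ?_⟩
  obtain ⟨J, hJ, hJ'⟩ := rep s (m + 1) hd T g K hK hg hT
  refine ⟨J, hJ.trans ?_, hJ'⟩
  have h0 : 0 ≤ ‖Mx3_397.toX (s + m + 1) g‖ := norm_nonneg _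
  show _ ≤ _ * K * ‖Mx3_397.toX (s + m + 1) g‖
  gcongr
  · linarith
  · exact le_rfl

end Crest.Agent.R234.Rep_681
end
end

-- ▼ part R234/Sel9_570
section

/-!
Row 234, VF-SEL (helper570), file 9: the abstract selection step `S2P`.
-/

set_option autoImplicit false
set_option linter.unusedSectionVars false

open MeasureTheory Complex Filter Real
open scoped ContDiff Topology InnerProductSpace ENNReal NNReal SchwartzMap

noncomputable section

namespace Crest.Agent.R234.Sel6_570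

open Crest.Agent.R086.Wie Crest.Agent.R234.Mx1_397 Crest.Agent.R234.Mx2_397
  Crest.Agent.R234.Mx3_397 Crest.Agent.R234.Mx4_397 Crest.Agent.R234.Mx6_397
  Crest.Agent.R234.Sel5_570
open Crest.Agent.R234.MG_570 (Cf Lop i0)

variable {F : Type} [NormedAddCommGroup F] [InnerProductSpace ℝ F] [FiniteDimensional ℝ F]
  [MeasurableSpace F] [BorelSpace F] {ι κ : Type*} [Fintype ι] [Fintype κ] {t : ℕ}

theorem ev_D_zero {N : ℕ} {s : Set F} (hs : IsOpen s) (a : X F (N + 1))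
    (h : ∀ x ∈ s, ev a x = 0) (v : F) : ∀ x ∈ s, ev (D v a) x = 0 := fun x hx => by
  rw [← fderiv_ev]
  have h1 : ev a =ᶠ[𝓝 x] fun _ => (0 : ℂ) := eventually_of_mem (hs.mem_nhds hx) h
  rw [h1.fderiv_eq]
  simp

theorem ev_Lop_zero (e : OrthonormalBasis ι ℝ F) (c : Cf F ι κ t) (b : κ → X F 2) {s : Set F}
    (hs : IsOpen s) (h : ∀ γ, ∀ x ∈ s, ev (b γ) x = 0) (β : κ) :
    ∀ x ∈ s, ev (Lop e c b β) x = 0 := fun x hx => by
  have h1 : ∀ γ i, ev (D (e i) (b γ)) x = 0 := fun γ i => ev_D_zero hs (b γ) (h γ) (e i) x hx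
  have h2 : ∀ γ i j, ev (D (e i) (D (e j) (b γ))) x = 0 := fun γ i j =>
    ev_D_zero hs _ (ev_D_zero hs (b γ) (h γ) (e j)) (e i) x hx
  rw [ev_Lop]
  simp only [h1, h2, h _ x hx, mul_zero, Finset.sum_const_zero, add_zero]

/-- the `γ`-component of a cut-off functional. -/
def Tc (J : (κ → X F 0) →L[ℂ] ℂ) (χ : X F (t + 2)) (γ : κ) : X F 0 →L[ℂ] ℂ :=
  haveI := Classical.decEq κ
  J.comp ((ContinuousLinearMap.single ℂ (fun _ : κ => X F 0) γ).comp
    (ContinuousLinearMap.mul ℂ (X F 0) (i0 χ)))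

open Classical in
theorem Tc_apply (J : (κ → X F 0) →L[ℂ] ℂ) (χ : X F (t + 2)) (γ : κ) (a : X F 0) :
    Tc J χ γ a = J (cm (Nat.zero_le _) χ (Pi.single γ a)) := by
  show J (Pi.single γ (i0 χ * a)) = _
  congr 1
  funext β
  by_cases h : β = γ
  · subst h
    simp [cm, Pi.single_eq_same]
  · simp [cm, Pi.single_eq_of_ne h]

open Classical in
theorem Tc_congr (J : (κ → X F 0) →L[ℂ] ℂ) (χ : X F (t + 2)) (γ : κ) {a b : X F 0}
    (h : i0 χ * a = i0 χ * b) : Tc J χ γ a = Tc J χ γ b := by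
  show J (Pi.single γ (i0 χ * a)) = J (Pi.single γ (i0 χ * b))
  rw [h]

open Classical in
theorem nv_single (s : ℤ) (γ : κ) (a : X F 0) : nv s (Pi.single γ a : κ → X F 0) = ns s a := by
  unfold nv
  rw [Finset.sum_eq_single γ, Pi.single_eq_same]
  · intro β _ hβ
    rw [Pi.single_eq_of_ne hβ]
    exact ns_zero s
  · intro h
    exact absurd (Finset.mem_univ γ) h

open Classical in
theorem sum_Tc (J : (κ → X F 0) →L[ℂ] ℂ) (χ : X F (t + 2)) (a : κ → X F 0) :
    ∑ γ, Tc J χ γ (a γ) = J (cm (Nat.zero_le _) χ a) := by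
  simp_rw [Tc_apply]
  rw [← map_sum]
  congr 1
  funext β
  rw [Finset.sum_apply]
  rw [Finset.sum_eq_single β]
  · simp [cm, Pi.single_eq_same]
  · intro γ _ hγ
    simp [cm, Pi.single_eq_of_ne (Ne.symm hγ)]
  · intro h
    exact absurd (Finset.mem_univ β) h

/-- `χ a = a` when `a` vanishes where `χ ≠ 1`. -/
theorem cm_eq_self {M : ℕ} (χ : X F M) (a : κ → X F 0)
    (h : ∀ x, ev χ x = 1 ∨ ∀ γ, ev (a γ) x = 0) : cm (Nat.zero_le _) χ a = a := by
  funext β
  refine ev_inj fun x => ?_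
  show ev (i0 χ * a β) x = _
  rw [ev_mul, ev_i0]
  rcases h x with h1 | h1
  · rw [h1, one_mul]
  · rw [h1 β, mul_zero]

/-- radii. -/
def rk (r R : ℝ) (t k : ℕ) : ℝ := R - (R - r) * ((min k t : ℕ) : ℝ) / ((t : ℝ) + 2)

def dk (r R : ℝ) (t : ℕ) : ℝ := (R - r) / ((t : ℝ) + 2)

theorem dk_pos {r R : ℝ} (h : r < R) (t : ℕ) : 0 < dk r R t := by
  unfold dk
  have : 0 < R - r := by linarith
  positivity

theorem rk_le {r R : ℝ} (h : r < R) (t k : ℕ) : rk r R t k ≤ R := by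
  unfold rk
  have : 0 < R - r := by linarith
  have : 0 ≤ (R - r) * ((min k t : ℕ) : ℝ) / ((t : ℝ) + 2) := by positivity
  linarith

theorem lt_rk_sub {r R : ℝ} (h : r < R) (t k : ℕ) : r < rk r R t k - dk r R t := by
  unfold rk dk
  have h1 : 0 < R - r := by linarith
  have h2 : ((min k t : ℕ) : ℝ) ≤ t := by exact_mod_cast min_le_right k t
  have h3 : (0 : ℝ) < (t : ℝ) + 2 := by positivity
  have h4 : (R - r) * ((min k t : ℕ) : ℝ) / ((t : ℝ) + 2) + (R - r) / ((t : ℝ) + 2)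
      = (R - r) * (((min k t : ℕ) : ℝ) + 1) / ((t : ℝ) + 2) := by ring
  have h5 : (R - r) * (((min k t : ℕ) : ℝ) + 1) / ((t : ℝ) + 2) < R - r := by
    rw [div_lt_iff₀ h3]
    nlinarith
  linarith

theorem rk_succ {r R : ℝ} {t k : ℕ} (hk : k < t) : rk r R t (k + 1) = rk r R t k - dk r R t := by
  unfold rk dk
  rw [min_eq_left (by omega : k + 1 ≤ t), min_eq_left hk.le]
  push_cast
  ring

/-- the nested family. -/
theorem exists_nest (t : ℕ) : ∃ C : ℝ, 1 ≤ C ∧ ∃ p : ℕ, ∀ (e : OrthonormalBasis ι ℝ F) (r R : ℝ),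
    0 < r → r < R → R ≤ 7 / 4 → ∃ χ : ℕ → X F (t + 2), Nest e R (C / (R - r) ^ p) χ ∧
      ∀ k x, ‖x‖ ≤ r → ev (χ k) x = 1 := by
  obtain ⟨C, hC1, p, hC⟩ := Cto_161.cX_bound (F := F) (t + 2)
  refine ⟨C * ((t : ℝ) + 2) ^ p, ?_, p, fun e r R hr hrR hR => ?_⟩
  · have h1 : (1 : ℝ) ≤ ((t : ℝ) + 2) ^ p := one_le_pow₀ (by linarith [(Nat.cast_nonneg t : (0:ℝ) ≤ t)])
    nlinarith
  have hd := dk_pos hrR t
  have hs : ∀ k, 0 ≤ rk r R t k - dk r R t := fun k => (hr.trans (lt_rk_sub hrR t k)).le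
  have hlt : ∀ k, rk r R t k - dk r R t < rk r R t k := fun k => by linarith
  have h2 : ∀ k, rk r R t k < 2 := fun k => (rk_le hrR t k).trans_lt (by linarith)
  refine ⟨fun k => Cto_161.cX (t + 2) (hs k) (hlt k) (h2 k), ⟨fun k => ?_, fun k x hx => ?_,
    fun k hk x => ?_⟩, fun k x hx => ?_⟩
  · refine (hC _ _ (hs k) (hlt k) (h2 k)).trans (le_of_eq ?_)
    have h3 : rk r R t k - (rk r R t k - dk r R t) = (R - r) / ((t : ℝ) + 2) := by
      rw [sub_sub_cancel]; rfl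
    rw [h3, div_pow, div_div_eq_mul_div]
  · rw [Cto_161.ev_cX, Cto_161.ct_zero (hs k) (hlt k) ((rk_le hrR t k).trans hx), ofReal_zero]
  · by_cases hx : ‖x‖ ≤ rk r R t k - dk r R t
    · left
      rw [Cto_161.ev_cX, Cto_161.ct_one (hs k) (hlt k) hx, ofReal_one]
    · right
      have hopen : IsOpen {y : F | rk r R t (k + 1) < ‖y‖} :=
        isOpen_lt continuous_const continuous_norm
      have hz : ∀ y ∈ {y : F | rk r R t (k + 1) < ‖y‖},
          ev (Cto_161.cX (F := F) (t + 2) (hs (k + 1)) (hlt (k + 1)) (h2 (k + 1))) y = 0 :=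
        fun y hy => by
          rw [Cto_161.ev_cX, Cto_161.ct_zero (hs (k + 1)) (hlt (k + 1)) (le_of_lt hy), ofReal_zero]
      have hx' : x ∈ {y : F | rk r R t (k + 1) < ‖y‖} := by
        show rk r R t (k + 1) < ‖x‖
        rw [rk_succ hk]
        exact not_le.1 hx
      exact ⟨hz x hx', fun i => ev_D_zero hopen _ hz (e i) x hx', fun i j =>
        ev_D_zero hopen _ (ev_D_zero hopen _ hz (e j)) (e i) x hx'⟩
  · rw [Cto_161.ev_cX, Cto_161.ct_one (hs k) (hlt k) (hx.trans (lt_rk_sub hrR t k).le), ofReal_one]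

end Crest.Agent.R234.Sel6_570
end
end

-- ▼ part R234/Sel10_570
section

/-!
Row 234, VF-SEL (helper570), file 10: the abstract selection step, literal `S2P`.
-/

set_option autoImplicit false
set_option linter.unusedSectionVars false

open MeasureTheory Complex Filter Real
open scoped ContDiff Topology InnerProductSpace ENNReal NNReal SchwartzMap

noncomputable section

namespace Crest.Agent.R234.Sel6_570

open Crest.GeometryTopology.Submanifold Crest.Agent.R234.Vf_884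
open Crest.Agent.R086.Wie Crest.Agent.R234.Mx1_397 Crest.Agent.R234.Mx2_397
  Crest.Agent.R234.Mx3_397 Crest.Agent.R234.Mx4_397 Crest.Agent.R234.Mx6_397
  Crest.Agent.R234.Sel5_570
open Crest.Agent.R234.MG_570 (Cf Lop i0)

/-- the outer cut-off (a fixed function). -/
def gS (m : ℕ) : 𝓢(Euc m, ℂ) := toS (Cto_161.ct (7 / 4) (15 / 8) : Euc m → ℝ)
  (Cto_161.ct_isCut (by norm_num) (by norm_num) (by norm_num)).compact (Cto_161.ct_smooth _ _)

theorem gS_one {m : ℕ} {x : Euc m} (hx : ‖x‖ ≤ 7 / 4) : gS m x = 1 := by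
  unfold gS
  rw [toS_apply, Cto_161.ct_one (by norm_num) (by norm_num) hx, ofReal_one]

theorem exists_dir {m : ℕ} (hm : 1 ≤ m) : ∃ c : Euc m, ‖c‖ = 11 / 2 := by
  obtain ⟨i⟩ : Nonempty (Fin m) := ⟨⟨0, hm⟩⟩
  refine ⟨EuclideanSpace.single i (11 / 2), ?_⟩
  rw [PiLp.norm_single]
  norm_num

theorem s2P : MG_570.S2P := by
  intro m n s hm
  obtain ⟨c₀, hc₀⟩ := exists_dir hm
  obtain ⟨CR, hCR, hrep⟩ := Rep_681.repP m s
  obtain ⟨C₁, hC₁, p₁, hnest⟩ := exists_nest (F := Euc m)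
    (ι := Fin (Module.finrank ℝ (Euc m))) (s + m + 1)
  obtain ⟨Q, hQ0, hQ⟩ : ∃ Q : ℝ, 0 ≤ Q ∧ ‖(nbX 2 : X (Euc m) 2)‖ * 72 = Q :=
    ⟨_, mul_nonneg (norm_nonneg _) (by norm_num), rfl⟩
  obtain ⟨c₂, hc₂0, hcK⟩ : ∃ c₂ : ℝ, 0 ≤ c₂ ∧
      ∀ P : ℝ, cK (Fin (Module.finrank ℝ (Euc m))) P = c₂ * P :=
    ⟨cK (Fin (Module.finrank ℝ (Euc m))) 1, cK_nonneg zero_le_one, fun P => by unfold cK; ring⟩
  obtain ⟨gn, hgn0, hgn⟩ : ∃ gn : ℝ, 0 ≤ gn ∧ ‖toX (s + m + 1) (gS m)‖ = gn :=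
    ⟨_, norm_nonneg _, rfl⟩
  obtain ⟨C₃, hC₃0, hC₃⟩ : ∃ C₃ : ℝ, 0 ≤ C₃ ∧
      C₃ = CR * (c₂ ^ (s + m + 1) * C₁ ^ (s + m + 1 + 1)) * gn * (1 + 2 * Q) :=
    ⟨_, mul_nonneg (mul_nonneg (mul_nonneg hCR.le (mul_nonneg (pow_nonneg hc₂0 _)
      (pow_nonneg (by linarith) _))) hgn0) (by linarith), rfl⟩
  refine ⟨1 / (4 * (2 * π) ^ 2 * (1 + Q)), 1 + 2 * Q + C₃, by positivity, by positivity,
    p₁ * (s + m + 1 + 1), ?_⟩
  intro c hc β r R H η hr hrR hR hH hη hβ hsm
  have hsz0 := sz_nonneg c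
  have hpi : 0 < (2 * π) ^ 2 := by positivity
  have hsz : (2 * π) ^ 2 * c.sz * (1 + Q) ≤ 1 / 4 := by
    rw [le_div_iff₀ (by positivity)] at hc
    linarith
  have hs4 : (2 * π) ^ 2 * c.sz ≤ 1 / 4 := by nlinarith [mul_nonneg hpi.le hsz0]
  have hs2 : Q * ((2 * π) ^ 2 * c.sz) ≤ 1 / 2 := by nlinarith [mul_nonneg hpi.le hsz0]
  obtain ⟨J, hJann, hJβ⟩ := exists_ann hc₀ (stdOrthonormalBasis ℝ (Euc m)) c
    (by rw [hQ]; exact hs2) hR β hη (fun φ hφ => hsm φ hφ)
  rw [hQ] at hJβ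
  obtain ⟨χ, hχ, hχ1⟩ := hnest (stdOrthonormalBasis ℝ (Euc m)) r R hr hrR hR
  have hRr : 0 < R - r := by linarith
  set P : ℝ := C₁ / (R - r) ^ p₁ with hP
  have hP0 : 0 ≤ P := by positivity
  set H' : ℝ := H + η * (2 * Q) with hH'
  have hH'0 : 0 ≤ H' := by positivity
  have hJn : ‖J‖ ≤ H' := by
    calc ‖J‖ = ‖β - (β - J)‖ := by rw [sub_sub_cancel]
      _ ≤ ‖β‖ + ‖β - J‖ := norm_sub_le _ _
      _ ≤ _ := add_le_add hβ hJβ
  have hdec := decay (stdOrthonormalBasis ℝ (Euc m)) c hs4 hH'0 hχ J hJn hJann (s + m + 1) le_rfl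
  set Kd : ℝ := H' * P * cK (Fin (Module.finrank ℝ (Euc m))) P ^ (s + m + 1) with hKd
  have hKd0 : 0 ≤ Kd := by rw [hKd, hcK]; positivity
  have hRP : R - r ≤ 2 := by linarith
  -- representation of the components
  have hT : ∀ γ : Fin n, ∃ j : X (Euc m) s, ‖j‖ ≤ CR * Kd * gn ∧
      ∀ a : X (Euc m) 0, Integrable (ev a) → Tc J (χ (s + m + 1)) γ a = ∫ x, ev j x * ev a x := fun γ => by
    rw [← hgn]
    refine hrep (Tc J (χ (s + m + 1)) γ) (gS m) Kd hKd0 (fun a => ?_) (fun a => ?_)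
    · refine Tc_congr J _ γ (ev_inj fun x => ?_)
      rw [ev_mul, ev_mul, ev_mul, ev_i0, ev_toX]
      by_cases hx : ‖x‖ ≤ 7 / 4
      · rw [gS_one hx, one_mul]
      · rw [hχ.zero _ x (hR.trans (not_le.1 hx).le), zero_mul, zero_mul]
    · classical
      rw [Tc_apply]
      refine (hdec _).trans ?_
      have := nv_single (-((s + m + 1 : ℕ) : ℤ)) γ a
      rw [this]
  choose j hj1 hj2 using hT
  have hsum : ∀ a : Fin n → X (Euc m) 0, (∀ γ x, r < ‖x‖ → ev (a γ) x = 0) →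
      ∑ γ, ∫ x, ev (j γ) x * ev (a γ) x = J a := fun a ha => by
    have h1 : ∀ γ, Integrable (ev (a γ)) := fun γ => by
      refine (contDiff_ev (a γ)).continuous.integrable_of_hasCompactSupport ?_
      refine HasCompactSupport.intro (isCompact_closedBall (0 : Euc m) r) fun x hx => ?_
      exact ha γ x (by simpa using hx)
    have h2 : ∑ γ, ∫ x, ev (j γ) x * ev (a γ) x = ∑ γ, Tc J (χ (s + m + 1)) γ (a γ) :=
      Finset.sum_congr rfl fun γ _ => (hj2 γ (a γ) (h1 γ)).symm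
    rw [h2, sum_Tc, cm_eq_self]
    intro x
    by_cases hx : ‖x‖ ≤ r
    · exact Or.inl (hχ1 _ x hx)
    · exact Or.inr fun γ => ha γ x (not_le.1 hx)
  refine ⟨j, ?_, fun φ hφ => ?_, fun ζ hζ => ?_⟩
  · refine (pi_norm_le_iff_of_nonneg (by positivity)).2 fun γ => (hj1 γ).trans ?_
    have e1 : Kd = H' * (c₂ ^ (s + m + 1) * C₁ ^ (s + m + 1 + 1)) / (R - r) ^ (p₁ * (s + m + 1 + 1)) := by
      rw [hKd, hcK, hP, mul_pow, div_pow, pow_mul]
      field_simp
      ring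
    rw [e1]
    have e2 : H' ≤ (1 + 2 * Q) * (H + η) := by rw [hH']; nlinarith [mul_nonneg hQ0 hH]
    have e3 : CR * (H' * (c₂ ^ (s + m + 1) * C₁ ^ (s + m + 1 + 1)) / (R - r) ^ (p₁ * (s + m + 1 + 1))) * gn
        = CR * (c₂ ^ (s + m + 1) * C₁ ^ (s + m + 1 + 1)) * gn * H' / (R - r) ^ (p₁ * (s + m + 1 + 1)) := by ring
    rw [e3]
    refine div_le_div_of_nonneg_right ?_ (by positivity)
    calc CR * (c₂ ^ (s + m + 1) * C₁ ^ (s + m + 1 + 1)) * gn * H'
        ≤ CR * (c₂ ^ (s + m + 1) * C₁ ^ (s + m + 1 + 1)) * gn * ((1 + 2 * Q) * (H + η)) := by gcongr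
      _ = C₃ * (H + η) := by rw [hC₃]; ring
      _ ≤ (1 + 2 * Q + C₃) * (H + η) := by
          gcongr
          linarith
  · have hopen : IsOpen {x : Euc m | r < ‖x‖} := isOpen_lt continuous_const continuous_norm
    have h1 := hsum (Lop (stdOrthonormalBasis ℝ (Euc m)) c φ) fun γ x hx =>
      ev_Lop_zero _ c φ hopen (fun γ y hy => hφ γ y (le_of_lt hy)) γ x hx
    rw [h1]
    exact hJann φ fun γ x hx => hφ γ x (hrR.le.trans hx)
  · rw [hsum ζ fun γ x hx => hζ γ x hx.le]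
    calc ‖β ζ - J ζ‖ = ‖(β - J) ζ‖ := by rw [sub_apply]
      _ ≤ ‖β - J‖ * ‖ζ‖ := ContinuousLinearMap.le_opNorm _ _
      _ ≤ η * (2 * Q) * ‖ζ‖ := by gcongr
      _ ≤ (1 + 2 * Q + C₃) * η * ‖ζ‖ := by
          refine mul_le_mul_of_nonneg_right ?_ (norm_nonneg _)
          nlinarith [mul_nonneg hC₃0 hη]

end Crest.Agent.R234.Sel6_570
end
end

-- ▼ part R234/Jr3_186
section

/-!
# Row 234, node F2-JREG part 3 (helper186)

`jreg`: interior regularity of Jacobi fields; `jRegP : JRegP` (570's `MgDefs2_570`, literally).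
-/

set_option autoImplicit false
set_option linter.unusedSectionVars false

open MeasureTheory Complex Filter Real
open scoped ContDiff Topology InnerProductSpace

noncomputable section

namespace Crest.Agent.R234.Jr_186

open Crest.Agent.R086.Wie Crest.Agent.R234.Mx1_397 Crest.Agent.R234.Mx2_397
  Crest.Agent.R234.Mx3_397 Crest.Agent.R234.Mx4_397 Crest.Agent.R234.Mx5_397
  Crest.Agent.R234.Mx6_397 Crest.Agent.R234.Mx8_397 Crest.Agent.R234.Mx9_397
  Crest.Agent.R234.Mx10_397 Crest.Agent.R234.Mx11_397 Crest.Agent.R234.Ell1_3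

section step

variable {F V : Type} [NormedAddCommGroup F] [InnerProductSpace ℝ F] [FiniteDimensional ℝ F]
  [MeasurableSpace F] [BorelSpace F]
  [NormedAddCommGroup V] [InnerProductSpace ℝ V] [FiniteDimensional ℝ V]
variable {κ : Type*} [Fintype κ]

theorem norm_aux {a b w C₁ C₂ C₃ δ : ℝ} {p q : ℕ} {L : ℝ} (hδ : 0 < δ) (hC₁ : 0 ≤ C₁)
    (hC₃ : 0 ≤ C₃) (hw : 0 ≤ w) (h1 : b ≤ C₁ * L * w) (hL : L ≤ C₂ / (δ / 2) ^ p)
    (h2 : a ≤ C₃ / (δ / 2) ^ q * b) :
    a ≤ C₃ * C₁ * C₂ * 2 ^ (p + q) / δ ^ (p + q) * w := by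
  have h3 : b ≤ C₁ * (C₂ / (δ / 2) ^ p) * w := by
    refine h1.trans ?_
    gcongr
  have h4 : a ≤ C₃ / (δ / 2) ^ q * (C₁ * (C₂ / (δ / 2) ^ p) * w) := by
    refine h2.trans ?_
    gcongr
  refine h4.trans (le_of_eq ?_)
  rw [div_pow, div_pow, pow_add, pow_add]
  field_simp

/-- **interior regularity of Jacobi fields** -/
theorem jreg {c : F} (hc : ‖c‖ = 11 / 2) (b : OrthonormalBasis κ ℝ V) (j : ℕ) :
    ∀ (N M L : ℕ), M ≤ N + 2 + j → N + 2 + j ≤ L →
      ∃ (ε C : ℝ) (p : ℕ), 0 < ε ∧ 0 ≤ C ∧ ∀ (U : κ → X F L) (w : κ → X F (N + 2)) (r' ρ : ℝ),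
        (∀ α, star (U α) = U α) → (∀ α, star (w α) = w α) → ‖U‖ ≤ ε → 0 < r' → r' < ρ → ρ ≤ 2 →
        ρ - r' ≤ 1 → (∀ x, ‖x‖ < ρ → lop (syn b U) (syn b w) x = 0) →
        ∃ z : κ → X F M, (∀ α, star (z α) = z α) ∧ ‖z‖ ≤ C / (ρ - r') ^ p * ‖w‖ ∧
          ∀ α x, ‖x‖ ≤ r' → ev (z α) x = ev (w α) x := by
  induction j with
  | zero =>
    intro N M L hM hL
    refine ⟨1, 1, 0, one_pos, zero_le_one, fun U w r' ρ hU hw _ _ _ _ _ _ =>
      ⟨fun α => inclV hM (w α), fun α => ?_, ?_, fun α x _ => ev_inclV _ _ x⟩⟩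
    · rw [star_inclV, hw]
    · rw [pow_zero, div_one, one_mul]
      refine (pi_norm_le_iff_of_nonneg (norm_nonneg _)).2 fun α => ?_
      exact (norm_inclV_le _ _).trans (norm_le_pi_norm w α)
  | succ j ih =>
    intro N M L hM hL
    have hNL : N + 1 + 2 ≤ L := by omega
    obtain ⟨ε₁, C₁, he₁, hC₁, G₁⟩ := gainL hc b N
    obtain ⟨C₂, p, hC₂, G₂⟩ := exists_cutB (F := F) (N + 3)
    obtain ⟨ε₃, C₃, q, he₃, hC₃, G₃⟩ := ih (N + 1) M L (by omega) (by omega)
    refine ⟨min ε₁ ε₃, C₃ * C₁ * C₂ * 2 ^ (p + q), p + q, by positivity, by positivity,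
      fun U w r' ρ hUs hws hU h0 h1 h2 h3 hM' => ?_⟩
    have e1 : r' < (r' + ρ) / 2 := by linarith
    have e2 : (r' + ρ) / 2 < ρ := by linarith
    have e3 : ρ - (r' + ρ) / 2 = (ρ - r') / 2 := by ring
    have e4 : (r' + ρ) / 2 - r' = (ρ - r') / 2 := by ring
    obtain ⟨χ, hχ, hχ1, hχ2, hχn⟩ := G₂ ((r' + ρ) / 2) ρ (h0.trans e1) e2 h2 (by rw [e3]; linarith)
    rw [e3] at hχn
    have hsyn : syn b (fun α => inclV hNL (U α)) = syn b U := by
      funext x
      unfold syn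
      exact Finset.sum_congr rfl fun α _ => by rw [ev_inclV]
    have hUn : ‖fun α => inclV hNL (U α)‖ ≤ ‖U‖ := by
      refine (pi_norm_le_iff_of_nonneg (norm_nonneg _)).2 fun α => ?_
      exact (norm_inclV_le _ _).trans (norm_le_pi_norm U α)
    obtain ⟨z, hzs, hzn, hz⟩ := G₁ χ hχ (fun α => inclV hNL (U α)) w
      (fun α => by rw [star_inclV, hUs]) hws (hUn.trans (hU.trans (min_le_left _ _)))
      (fun x hx => by rw [hsyn]; exact hM' x (hχ2 x hx))
    have hzu : ∀ x, ‖x‖ < (r' + ρ) / 2 → syn b z =ᶠ[𝓝 x] syn b w := fun x hx => by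
      filter_upwards [(isOpen_lt continuous_norm continuous_const).mem_nhds hx] with y hy
      unfold syn
      refine Finset.sum_congr rfl fun α _ => ?_
      rw [hz, hχ1 y (le_of_lt hy), Complex.ofReal_one, one_mul]
    obtain ⟨z', hzs', hzn', hz'⟩ := G₃ U z r' ((r' + ρ) / 2) hUs hzs
      (hU.trans (min_le_right _ _)) h0 e1 (e2.le.trans h2) (by rw [e4]; linarith)
      fun x hx => by
        rw [lop_congr (Filter.EventuallyEq.refl _ _) (hzu x hx)]
        exact hM' x (hx.trans e2)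
    rw [e4] at hzn'
    refine ⟨z', hzs', norm_aux (by linarith) hC₁ hC₃ (norm_nonneg _) hzn hχn hzn', fun α x hx => ?_⟩
    rw [hz' α x hx, hz, hχ1 x (hx.trans e1.le), Complex.ofReal_one, one_mul]

end step

/-! ### the frozen form -/

open Crest.GeometryTopology.Submanifold Crest.Agent.R234.MG_570

variable {m n : ℕ}

theorem syn_apply {N : ℕ} (a : XV m n N) (x : Euc m) (α : Fin n) :
    syn (EuclideanSpace.basisFun (Fin n) ℝ) a x α = (ev (a α) x).re := by
  have h := inner_syn (EuclideanSpace.basisFun (Fin n) ℝ) a x α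
  rw [← h, EuclideanSpace.basisFun_apply, EuclideanSpace.inner_single_left]
  simp

theorem syn_rep {N : ℕ} {a : XV m n N} {u : Euc m → Euc n} (h : Rep a u) :
    syn (EuclideanSpace.basisFun (Fin n) ℝ) a = u := by
  funext x
  ext α
  rw [syn_apply, ← h x α, Complex.ofReal_re]

theorem rep_syn {N : ℕ} {a : XV m n N} (h : IsReal a) :
    Rep a (syn (EuclideanSpace.basisFun (Fin n) ℝ) a) := fun x α => by
  rw [syn_apply, ev_real (h α)]

theorem exists_c (hm : 1 ≤ m) : ∃ c : Euc m, ‖c‖ = 11 / 2 := by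
  refine ⟨EuclideanSpace.single (⟨0, hm⟩ : Fin m) (11 / 2 : ℝ), ?_⟩
  rw [PiLp.norm_single, Real.norm_of_nonneg (by norm_num)]

/-- **F2-JREG** -/
theorem jRegP : JRegP := by
  intro m n N
  rcases Nat.eq_zero_or_pos m with rfl | hm
  · obtain ⟨χ, hχ, hχ1, -⟩ := exists_cut (F := Euc 0) (r' := 1) (r := 2) one_pos (by norm_num) le_rfl
    refine ⟨1, one_pos, ‖cs (N + 2) hχ‖ + 1, by positivity, 0,
      fun r ε u j a a₂ _ _ _ _ _ _ _ hs hR _ => ?_⟩
    have hb : IsReal (fun α => ev (a₂ α) 0 • cs (N + 2) hχ : XV 0 n (N + 2)) := fun α => by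
      show star (ev (a₂ α) 0 • cs (N + 2) hχ) = _
      have h2 : star (ev (a₂ α) 0) = ev (a₂ α) 0 := by
        rw [← ev_real (hs α) 0]
        exact Complex.conj_ofReal _
      rw [star_smul, star_cs, h2]
    refine ⟨_, _, hb, rep_syn hb, ?_, fun x _ => ?_⟩
    · rw [pow_zero, div_one]
      refine (pi_norm_le_iff_of_nonneg (by positivity)).2 fun α => ?_
      rw [norm_smul]
      have h1 := norm_ev_le (a₂ α) 0
      have h2 := norm_le_pi_norm a₂ α
      have h3 := norm_nonneg (cs (N + 2) hχ)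
      have h4 := norm_nonneg a₂
      nlinarith [norm_nonneg (ev (a₂ α) 0)]
    · have hx : x = 0 := Subsingleton.elim _ _
      ext α
      rw [syn_apply, ev_smul, ev_cs, hx, hχ1 0 (by rw [norm_zero]; exact zero_le_one),
        Complex.ofReal_one, mul_one, ← hR 0 α, Complex.ofReal_re]
  · obtain ⟨c, hc⟩ := exists_c hm
    obtain ⟨κ₀, C, p, hκ₀, hC, H⟩ := jreg hc (EuclideanSpace.basisFun (Fin n) ℝ) N 0 (N + 2) (N + 2)
      (by omega) (by omega)
    refine ⟨κ₀, hκ₀, C + 1, by positivity, p, fun r ε u j a a₂ hr hε hε1 hrε has han hau ha₂s ha₂j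
      hJ => ?_⟩
    have e1 : r + ε - r = ε := by ring
    obtain ⟨z, hzs, hzn, hz⟩ := H a a₂ r (r + ε) has ha₂s han hr (by linarith) hrε
      (by rw [e1]; exact hε1) fun x hx => by
        rw [syn_rep hau, syn_rep ha₂j]
        exact hJ x (mem_ball_zero_iff.2 hx)
    rw [e1] at hzn
    refine ⟨z, _, hzs, rep_syn hzs, hzn.trans ?_, fun x hx => ?_⟩
    · rw [div_mul_eq_mul_div]
      gcongr
      linarith
    · ext α
      rw [syn_apply, hz α x (mem_ball_zero_iff.1 hx).le, ← ha₂j x α, Complex.ofReal_re]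

end Crest.Agent.R234.Jr_186
end
end

-- ▼ part R234/Sel11_570
section

/-!
Row 234, VF-SEL (helper570), file 11: real and imaginary parts, linearity of `lopT`, the
functional of the heights.
-/

set_option autoImplicit false
set_option linter.unusedSectionVars false

open MeasureTheory Complex Filter Real
open scoped ContDiff Topology InnerProductSpace ENNReal NNReal SchwartzMap

noncomputable section

namespace Crest.Agent.R234.Sel11_570

open Crest.GeometryTopology.Submanifold Crest.Agent.R234.Vf_884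
open Crest.Agent.R086.Wie Crest.Agent.R234.Mx1_397 Crest.Agent.R234.Mx2_397
  Crest.Agent.R234.Mx3_397 Crest.Agent.R234.Mx4_397 Crest.Agent.R234.Mx6_397
  Crest.Agent.R234.Sel5_570 Crest.Agent.R234.Sel6_570
open Crest.Agent.R234.MG_570 (Cf Lop i0 Rep IsReal XV lopT Psi)

section re

variable {F : Type} [NormedAddCommGroup F] [InnerProductSpace ℝ F] [FiniteDimensional ℝ F]
  [MeasurableSpace F] [BorelSpace F] {ι κ : Type*} [Fintype ι] [Fintype κ] {t : ℕ}

/-- real part. -/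
def rX {N : ℕ} (a : X F N) : X F N := (1 / 2 : ℂ) • (a + star a)

/-- imaginary part. -/
def iX {N : ℕ} (a : X F N) : X F N := (-(I / 2) : ℂ) • (a - star a)

theorem star_rX {N : ℕ} (a : X F N) : star (rX a) = rX a := by
  unfold rX
  rw [star_smul, star_add, star_star, add_comm]
  congr 1
  simp

theorem star_iX {N : ℕ} (a : X F N) : star (iX a) = iX a := by
  unfold iX
  rw [star_smul, star_sub, star_star, ← neg_sub a (star a), smul_neg, ← neg_smul]
  congr 1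
  simp [neg_div]

theorem rX_add_iX {N : ℕ} (a : X F N) : rX a + I • iX a = a := by
  unfold rX iX
  rw [smul_smul]
  have h1 : I * (-(I / 2)) = 1 / 2 := by
    rw [mul_neg, ← mul_div_assoc, I_mul_I]
    norm_num
  rw [h1, ← smul_add]
  have h2 : a + star a + (a - star a) = (2 : ℂ) • a := by
    rw [two_smul]; abel
  rw [h2, smul_smul]
  norm_num

theorem norm_rX_le {N : ℕ} (a : X F N) : ‖rX a‖ ≤ ‖a‖ := by
  unfold rX
  rw [norm_smul]
  have h1 : ‖a + star a‖ ≤ 2 * ‖a‖ := (norm_add_le _ _).trans (by rw [norm_star]; linarith)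
  have h2 : ‖(1 / 2 : ℂ)‖ = 1 / 2 := by norm_num
  rw [h2]
  linarith

theorem norm_iX_le {N : ℕ} (a : X F N) : ‖iX a‖ ≤ ‖a‖ := by
  unfold iX
  rw [norm_smul]
  have h1 : ‖a - star a‖ ≤ 2 * ‖a‖ := (norm_sub_le _ _).trans (by rw [norm_star]; linarith)
  have h2 : ‖(-(I / 2) : ℂ)‖ = 1 / 2 := by
    rw [norm_neg, norm_div, norm_I]; norm_num
  rw [h2]
  linarith

theorem ev_rX {N : ℕ} (a : X F N) (x : F) : ev (rX a) x = (((ev a x).re : ℝ) : ℂ) := by
  unfold rX
  rw [ev_smul, ev_add, ev_star, add_conj]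
  push_cast
  ring

theorem ev_iX {N : ℕ} (a : X F N) (x : F) : ev (iX a) x = (((ev a x).im : ℝ) : ℂ) := by
  have h1 : ev a x = ev (rX a) x + I * ev (iX a) x := by
    conv_lhs => rw [← rX_add_iX a]
    rw [ev_add, ev_smul]
  rw [ev_rX] at h1
  have h2 : I * ev (iX a) x = I * (((ev a x).im : ℝ) : ℂ) := by
    have h3 := re_add_im (ev a x)
    have h4 : I * ev (iX a) x = ev a x - (((ev a x).re : ℝ) : ℂ) := by
      rw [eq_sub_iff_add_eq, add_comm]; exact h1.symm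
    rw [h4]
    nth_rewrite 1 [← h3]
    ring
  exact mul_left_cancel₀ I_ne_zero h2

theorem i0_star {N : ℕ} (a : X F N) : i0 (star a) = star (i0 a) := (star_inclV _ a).symm

theorem star_Lop (e : OrthonormalBasis ι ℝ F) (c : Cf F ι κ t) (hc : c.Real) (b : κ → X F 2)
    (β : κ) : star (Lop e c b β) = Lop e c (fun γ => star (b γ)) β := by
  unfold Lop
  simp only [star_add, star_sum, star_mul', D_star, ← i0_star, hc.A, hc.B, hc.Z]

end re

variable {m n : ℕ}

/-- linearity of `lopT`. -/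
theorem lopT_lin {u φ : Euc m → Euc n} (hu : ContDiff ℝ 3 u) (hφ : ContDiff ℝ 2 φ) (x : Euc m) :
    IsLinearMap ℝ (lopT u φ x) := by
  have dA : HasFDerivAt (Ibp_937.Aop u) (fderiv ℝ (Ibp_937.Aop u) x) x :=
    (((Ibp_937.contDiff_Aop hu).differentiable one_ne_zero) x).hasFDerivAt
  have dφ : HasFDerivAt φ (fderiv ℝ φ x) x := ((hφ.differentiable two_ne_zero) x).hasFDerivAt
  have dP : ∀ y v, fderiv ℝ (fun x => Psi u φ x y) x v
      = fderiv ℝ (Ibp_937.Aop u) x v y (φ x) + Ibp_937.Aop u x y (fderiv ℝ φ x v) := by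
    intro y v
    have h1 : HasFDerivAt (fun x => Psi u φ x y) _ x :=
      (dA.clm_apply (hasFDerivAt_const y x)).clm_apply dφ
    rw [h1.fderiv]
    simp
    abel
  refine ⟨fun y y' => ?_, fun c y => ?_⟩
  · unfold lopT
    simp only [dP, map_add, add_apply, inner_add_left, inner_add_right, Finset.sum_add_distrib,
      mul_add]
    ring
  · unfold lopT
    simp only [dP, map_smul, smul_apply, inner_add_left, real_inner_smul_left,
      real_inner_smul_right, Finset.sum_add_distrib, ← Finset.mul_sum, smul_eq_mul]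
    ring

theorem lopT_sum {u φ : Euc m → Euc n} (hu : ContDiff ℝ 3 u) (hφ : ContDiff ℝ 2 φ) (x : Euc m)
    (y : Euc n) : lopT u φ x y = ∑ γ, y γ * lopT u φ x (EuclideanSpace.single γ 1) := by
  have h1 := lopT_lin hu hφ x
  have h2 : y = ∑ γ, y γ • EuclideanSpace.single γ (1 : ℝ) := by
    have := (EuclideanSpace.basisFun (Fin n) ℝ).sum_repr y
    simpa using this.symm
  set Lm : Euc n →ₗ[ℝ] ℝ := h1.mk' _ with hL
  have h3 : ∀ z, lopT u φ x z = Lm z := fun z => rfl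
  rw [h3]
  conv_lhs => rw [h2]
  rw [map_sum]
  exact Finset.sum_congr rfl fun γ _ => by rw [map_smul, smul_eq_mul, h3]

end Crest.Agent.R234.Sel11_570
end
end

-- ▼ part R234/Sel12_570
section

/-!
Row 234, VF-SEL (helper570), file 12: the functional of the heights.
-/

set_option autoImplicit false
set_option linter.unusedSectionVars false

open MeasureTheory Complex Filter
open scoped ContDiff Topology InnerProductSpace ENNReal NNReal SchwartzMap

noncomputable section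

namespace Crest.Agent.R234.Sel11_570

open Crest.GeometryTopology.Submanifold Crest.Agent.R234.Vf_884
open Crest.Agent.R086.Wie Crest.Agent.R234.Mx1_397 Crest.Agent.R234.Mx2_397
  Crest.Agent.R234.Mx3_397 Crest.Agent.R234.Mx4_397 Crest.Agent.R234.Mx6_397
  Crest.Agent.R234.Sel5_570 Crest.Agent.R234.Sel6_570
open Crest.Agent.R234.MG_570 (Cf Lop i0 Rep IsReal XV lopT Psi)

variable {m n k : ℕ} {W : Measure (Euc k × L k)} {π : Euc k →L[ℝ] Euc m}
  {ρ : Euc k →L[ℝ] Euc n} {u : Euc m → Euc n}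

/-- heights. -/
def hf (π : Euc k →L[ℝ] Euc m) (ρ : Euc k →L[ℝ] Euc n) (u : Euc m → Euc n)
    (p : Euc k × L k) : Euc n := ρ p.1 - u (π p.1)

theorem continuous_hf (hu : Continuous u) : Continuous (hf π ρ u) :=
  (ρ.continuous.comp continuous_fst).sub (hu.comp (π.continuous.comp continuous_fst))

/-- the integrand. -/
def bI (π : Euc k →L[ℝ] Euc m) (ρ : Euc k →L[ℝ] Euc n) (u : Euc m → Euc n)
    (ζ : Fin n → X (Euc m) 0) (p : Euc k × L k) : ℂ :=
  ∑ α, ev (ζ α) (π p.1) * ((hf π ρ u p α : ℝ) : ℂ)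

theorem continuous_bI (hu : Continuous u) (ζ : Fin n → X (Euc m) 0) :
    Continuous (bI π ρ u ζ) := by
  unfold bI
  refine continuous_finsetSum _ fun α _ => ?_
  refine (((contDiff_ev (ζ α)).continuous).comp (π.continuous.comp continuous_fst)).mul ?_
  exact continuous_ofReal.comp
    ((EuclideanSpace.proj (𝕜 := ℝ) α : Euc n →L[ℝ] ℝ).continuous.comp (continuous_hf hu))

theorem abs_apply_le (y : Euc n) (α : Fin n) : |y α| ≤ ‖y‖ := by
  rw [← Real.norm_eq_abs]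
  exact PiLp.norm_apply_le y α

theorem norm_bI_le (ζ : Fin n → X (Euc m) 0) {h : ℝ} {p : Euc k × L k} (hp : ‖hf π ρ u p‖ ≤ h) :
    ‖bI π ρ u ζ p‖ ≤ n * h * ‖ζ‖ := by
  unfold bI
  refine (norm_sum_le _ _).trans ?_
  have h0 : 0 ≤ h := (norm_nonneg _).trans hp
  calc ∑ α, ‖ev (ζ α) (π p.1) * ((hf π ρ u p α : ℝ) : ℂ)‖ ≤ ∑ _α : Fin n, ‖ζ‖ * h := by
        refine Finset.sum_le_sum fun α _ => ?_
        rw [norm_mul, norm_real, Real.norm_eq_abs]
        gcongr
        · exact (norm_ev_le _ _).trans (norm_le_pi_norm ζ α)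
        · exact (abs_apply_le _ α).trans hp
    _ = n * h * ‖ζ‖ := by rw [Finset.sum_const, Finset.card_univ, Fintype.card_fin, nsmul_eq_mul]; ring

theorem integrable_bI [IsFiniteMeasure W] (hu : Continuous u) {h : ℝ}
    (hh : ∀ᵐ q ∂W, ‖hf π ρ u q‖ ≤ h) (ζ : Fin n → X (Euc m) 0) :
    Integrable (bI π ρ u ζ) W :=
  Integrable.of_bound (continuous_bI hu ζ).aestronglyMeasurable (n * h * ‖ζ‖)
    (hh.mono fun _ hq => norm_bI_le ζ hq)

/-- **the functional of the heights**. -/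
theorem exists_beta [IsFiniteMeasure W] (hu : Continuous u) {h Λ : ℝ} (h0 : 0 ≤ h) (hΛ : 0 ≤ Λ)
    (hW : W Set.univ ≤ ENNReal.ofReal Λ) (hh : ∀ᵐ q ∂W, ‖hf π ρ u q‖ ≤ h) :
    ∃ β : (Fin n → X (Euc m) 0) →L[ℂ] ℂ, ‖β‖ ≤ n * h * Λ ∧
      ∀ ζ, β ζ = ∫ p, bI π ρ u ζ p ∂W := by
  have hreal : W.real Set.univ ≤ Λ := by
    unfold Measure.real
    exact ENNReal.toReal_le_of_le_ofReal hΛ hW
  set f : (Fin n → X (Euc m) 0) →ₗ[ℂ] ℂ :=
    { toFun := fun ζ => ∫ p, bI π ρ u ζ p ∂W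
      map_add' := fun ζ ζ' => by
        rw [← integral_add (integrable_bI hu hh ζ) (integrable_bI hu hh ζ')]
        refine integral_congr_ae (Eventually.of_forall fun p => ?_)
        simp only [bI, Pi.add_apply, ev_add, add_mul, Finset.sum_add_distrib]
      map_smul' := fun c ζ => by
        rw [RingHom.id_apply, smul_eq_mul, ← integral_const_mul]
        refine integral_congr_ae (Eventually.of_forall fun p => ?_)
        simp only [bI, Pi.smul_apply, ev_smul, Finset.mul_sum, mul_assoc] } with hf'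
  refine ⟨f.mkContinuous (n * h * Λ) fun ζ => ?_, f.mkContinuous_norm_le (by positivity) _,
    fun ζ => rfl⟩
  show ‖∫ p, bI π ρ u ζ p ∂W‖ ≤ _
  calc ‖∫ p, bI π ρ u ζ p ∂W‖ ≤ n * h * ‖ζ‖ * W.real Set.univ :=
        norm_integral_le_of_norm_le_const (hh.mono fun _ hq => norm_bI_le ζ hq)
    _ ≤ n * h * ‖ζ‖ * Λ := by gcongr
    _ = _ := by ring

/-- the functional on `Lop b`, real `b`. -/
theorem bI_Lop (hu : ContDiff ℝ 3 u) {t : ℕ}
    {c : Cf (Euc m) (Fin (Module.finrank ℝ (Euc m))) (Fin n) t}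
    (hc : ∀ (b : XV m n 2) (φ : Euc m → Euc n), IsReal b → Rep b φ → ∀ (x : Euc m) (β : Fin n),
      ev (Lop (stdOrthonormalBasis ℝ (Euc m)) c b β) x
        = ((lopT u φ x (EuclideanSpace.single β 1) : ℝ) : ℂ))
    {b : XV m n 2} {φ : Euc m → Euc n} (hb : IsReal b) (hφ : Rep b φ) (hφ2 : ContDiff ℝ 2 φ)
    (p : Euc k × L k) :
    bI π ρ u (Lop (stdOrthonormalBasis ℝ (Euc m)) c b) p
      = ((lopT u φ (π p.1) (hf π ρ u p) : ℝ) : ℂ) := by
  unfold bI
  rw [lopT_sum hu hφ2]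
  push_cast
  refine Finset.sum_congr rfl fun α _ => ?_
  rw [hc b φ hb hφ]
  ring

/-- **weak Jacobi inequality, complex test functions**. -/
theorem weak_complex [IsFiniteMeasure W] (hu : ContDiff ℝ 3 u) {h Λ : ℝ} {t : ℕ}
    {c : Cf (Euc m) (Fin (Module.finrank ℝ (Euc m))) (Fin n) t}
    (hc : ∀ (b : XV m n 2) (φ : Euc m → Euc n), IsReal b → Rep b φ → ∀ (x : Euc m) (β : Fin n),
      ev (Lop (stdOrthonormalBasis ℝ (Euc m)) c b β) x
        = ((lopT u φ x (EuclideanSpace.single β 1) : ℝ) : ℂ))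
    {β : (Fin n → X (Euc m) 0) →L[ℂ] ℂ} (hβ : ∀ ζ, β ζ = ∫ p, bI π ρ u ζ p ∂W) {r M : ℝ}
    (hw : ∀ (b : XV m n 2) (φ : Euc m → Euc n), IsReal b → Rep b φ → (∀ x, r ≤ ‖x‖ → φ x = 0) →
      |∫ p, lopT u φ (π p.1) (ρ p.1 - u (π p.1)) ∂W| ≤ M * ‖b‖) (hM : 0 ≤ M)
    (φ : Fin n → X (Euc m) 2) (hφ : ∀ γ x, r ≤ ‖x‖ → ev (φ γ) x = 0) :
    ‖β (Lop (stdOrthonormalBasis ℝ (Euc m)) c φ)‖ ≤ 2 * M * ‖φ‖ := by
  have key : ∀ b : XV m n 2, IsReal b → (∀ γ x, r ≤ ‖x‖ → ev (b γ) x = 0) →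
      ‖β (Lop (stdOrthonormalBasis ℝ (Euc m)) c b)‖ ≤ M * ‖b‖ := by
    intro b hb hz
    set ψ : Euc m → Euc n := Mx5_397.syn (EuclideanSpace.basisFun (Fin n) ℝ) b with hψ
    have hrep : Rep b ψ := Jr_186.rep_syn hb
    have hψ2 : ContDiff ℝ 2 ψ := Mx5_397.contDiff_syn _ b
    have hz' : ∀ x, r ≤ ‖x‖ → ψ x = 0 := fun x hx => by
      ext α
      have h1 := hrep x α
      rw [hz α x hx] at h1
      exact ofReal_eq_zero.1 h1
    have h2 := hw b ψ hb hrep hz'
    rw [hβ]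
    have h3 : ∫ p, bI π ρ u (Lop (stdOrthonormalBasis ℝ (Euc m)) c b) p ∂W
        = ((∫ p, lopT u ψ (π p.1) (ρ p.1 - u (π p.1)) ∂W : ℝ) : ℂ) := by
      refine Eq.trans ?_ integral_ofReal
      refine integral_congr_ae (Eventually.of_forall fun p => ?_)
      exact bI_Lop hu hc hb hrep hψ2 p
    rw [h3, norm_real, Real.norm_eq_abs]
    exact h2
  have e1 : Lop (stdOrthonormalBasis ℝ (Euc m)) c φ
      = Lop (stdOrthonormalBasis ℝ (Euc m)) c (fun γ => rX (φ γ))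
        + I • Lop (stdOrthonormalBasis ℝ (Euc m)) c (fun γ => iX (φ γ)) := by
    rw [← Lop_smul, ← Lop_add]
    congr 1
    funext γ
    exact (rX_add_iX (φ γ)).symm
  have b1 : ‖(fun γ => rX (φ γ) : Fin n → X (Euc m) 2)‖ ≤ ‖φ‖ :=
    (pi_norm_le_iff_of_nonneg (norm_nonneg _)).2 fun γ =>
      (norm_rX_le _).trans (norm_le_pi_norm φ γ)
  have b2 : ‖(fun γ => iX (φ γ) : Fin n → X (Euc m) 2)‖ ≤ ‖φ‖ :=
    (pi_norm_le_iff_of_nonneg (norm_nonneg _)).2 fun γ =>
      (norm_iX_le _).trans (norm_le_pi_norm φ γ)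
  have k1 := key (fun γ => rX (φ γ)) (fun γ => star_rX _) fun γ x hx => by
    rw [ev_rX, hφ γ x hx]; simp
  have k2 := key (fun γ => iX (φ γ)) (fun γ => star_iX _) fun γ x hx => by
    rw [ev_iX, hφ γ x hx]; simp
  rw [e1, map_add, map_smul]
  refine (norm_add_le _ _).trans ?_
  rw [norm_smul, norm_I, one_mul]
  calc _ ≤ M * ‖φ‖ + M * ‖φ‖ := by
        refine add_le_add (k1.trans ?_) (k2.trans ?_)
        · gcongr
        · gcongr
    _ = _ := by ring

end Crest.Agent.R234.Sel11_570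
end
end

-- ▼ part R234/Sel13_570

/-!
Row 234, VF-SEL (helper570), file 13: the real part of the represented functional.
-/

set_option autoImplicit false
set_option linter.unusedSectionVars false
set_option linter.unusedVariables false

open MeasureTheory Complex Filter
open scoped ContDiff Topology InnerProductSpace ENNReal NNReal SchwartzMap

noncomputable section

namespace Crest.Agent.R234.Sel11_570

open Crest.GeometryTopology.Submanifold Crest.Agent.R234.Vf_884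
open Crest.Agent.R086.Wie Crest.Agent.R234.Mx1_397 Crest.Agent.R234.Mx2_397
  Crest.Agent.R234.Mx3_397 Crest.Agent.R234.Mx4_397 Crest.Agent.R234.Mx6_397
  Crest.Agent.R234.Sel5_570 Crest.Agent.R234.Sel6_570
open Crest.Agent.R234.MG_570 (Cf Lop i0 Rep IsReal XV lopT Psi)

variable {m n k : ℕ}

theorem continuous_ev {N : ℕ} (a : X (Euc m) N) : Continuous (ev a) := (contDiff_ev a).continuous

theorem integrable_ev_mul {N M : ℕ} (a : X (Euc m) N) (b : X (Euc m) M) {r : ℝ}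
    (h : ∀ x, r < ‖x‖ → ev b x = 0) : Integrable fun x => ev a x * ev b x := by
  refine ((continuous_ev a).mul (continuous_ev b)).integrable_of_hasCompactSupport ?_
  refine HasCompactSupport.intro (isCompact_closedBall (0 : Euc m) r) fun x hx => ?_
  show ev a x * ev b x = 0
  rw [h x (by simpa using hx), mul_zero]

theorem ev_conj_of_real {N : ℕ} {a : X (Euc m) N} (h : star a = a) (x : Euc m) :
    (((ev a x).re : ℝ) : ℂ) = ev a x := ev_real h x

/-- the real part of an annihilating family is annihilating. -/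
theorem real_ann {t N : ℕ} {c : Cf (Euc m) (Fin (Module.finrank ℝ (Euc m))) (Fin n) t}
    (hc : c.Real) {J : Fin n → X (Euc m) N} {r : ℝ}
    (hJ : ∀ φ : Fin n → X (Euc m) 2, (∀ γ x, r ≤ ‖x‖ → ev (φ γ) x = 0) →
      ∑ γ, ∫ x, ev (J γ) x * ev (Lop (stdOrthonormalBasis ℝ (Euc m)) c φ γ) x = 0)
    (φ : Fin n → X (Euc m) 2) (hφ : ∀ γ x, r ≤ ‖x‖ → ev (φ γ) x = 0) :
    ∑ γ, ∫ x, ev (rX (J γ)) x * ev (Lop (stdOrthonormalBasis ℝ (Euc m)) c φ γ) x = 0 := by
  have hopen : IsOpen {x : Euc m | r < ‖x‖} := isOpen_lt continuous_const continuous_norm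
  have hz : ∀ φ : Fin n → X (Euc m) 2, (∀ γ x, r ≤ ‖x‖ → ev (φ γ) x = 0) → ∀ γ x, r < ‖x‖ →
      ev (Lop (stdOrthonormalBasis ℝ (Euc m)) c φ γ) x = 0 := fun φ hφ γ x hx =>
    ev_Lop_zero _ c φ hopen (fun γ y hy => hφ γ y (le_of_lt hy)) γ x hx
  have h1 := hJ φ hφ
  have h2 := hJ (fun γ => star (φ γ)) fun γ x hx => by rw [ev_star, hφ γ x hx, map_zero]
  have h3 : ∑ γ, ∫ x, ev (star (J γ)) x
      * ev (Lop (stdOrthonormalBasis ℝ (Euc m)) c φ γ) x = 0 := by
    have h4 : ∀ γ, ∫ x, ev (star (J γ)) x * ev (Lop (stdOrthonormalBasis ℝ (Euc m)) c φ γ) x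
        = (starRingEnd ℂ) (∫ x, ev (J γ) x
          * ev (Lop (stdOrthonormalBasis ℝ (Euc m)) c (fun γ => star (φ γ)) γ) x) := fun γ => by
      rw [← integral_conj]
      refine integral_congr_ae (Eventually.of_forall fun x => ?_)
      simp only [map_mul]
      rw [← star_Lop _ c hc, ev_star, ev_star, conj_conj]
    simp_rw [h4]
    rw [← map_sum, h2, map_zero]
  have h5 : ∀ γ, ∫ x, ev (rX (J γ)) x * ev (Lop (stdOrthonormalBasis ℝ (Euc m)) c φ γ) x
      = (1 / 2 : ℂ) * ((∫ x, ev (J γ) x * ev (Lop (stdOrthonormalBasis ℝ (Euc m)) c φ γ) x)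
        + ∫ x, ev (star (J γ)) x * ev (Lop (stdOrthonormalBasis ℝ (Euc m)) c φ γ) x) := fun γ => by
    rw [← integral_add (integrable_ev_mul _ _ (hz φ hφ γ)) (integrable_ev_mul _ _ (hz φ hφ γ)),
      ← integral_const_mul]
    refine integral_congr_ae (Eventually.of_forall fun x => ?_)
    simp only [rX, ev_smul, ev_add]
    ring
  simp_rw [h5]
  rw [← Finset.mul_sum, Finset.sum_add_distrib, h1, h3]
  simp

/-- the real part approximates a real functional on real functions. -/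
theorem real_approx {N : ℕ} {J : Fin n → X (Euc m) N} {r : ℝ} {ζ : Fin n → X (Euc m) 0}
    (hζ : ∀ γ, star (ζ γ) = ζ γ) (hz : ∀ γ x, r ≤ ‖x‖ → ev (ζ γ) x = 0) {B : ℂ} (hB : B.im = 0) :
    ‖B - ∑ γ, ∫ x, ev (rX (J γ)) x * ev (ζ γ) x‖ ≤ ‖B - ∑ γ, ∫ x, ev (J γ) x * ev (ζ γ) x‖ := by
  have h1 : ∀ γ, ∫ x, ev (rX (J γ)) x * ev (ζ γ) x
      = (((∫ x, ev (J γ) x * ev (ζ γ) x).re : ℝ) : ℂ) := fun γ => by
    have h2 := integral_re (μ := (volume : Measure (Euc m)))
      (integrable_ev_mul (J γ) (ζ γ) fun x hx => hz γ x hx.le)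
    have h3 : (∫ x, ev (J γ) x * ev (ζ γ) x).re = ∫ x, (ev (J γ) x * ev (ζ γ) x).re := h2.symm
    rw [h3]
    refine Eq.trans ?_ integral_ofReal
    refine integral_congr_ae (Eventually.of_forall fun x => ?_)
    show ev (rX (J γ)) x * ev (ζ γ) x = (((ev (J γ) x * ev (ζ γ) x).re : ℝ) : ℂ)
    rw [ev_rX, ← ev_conj_of_real (hζ γ) x]
    simp
  simp_rw [h1]
  rw [← ofReal_sum]
  have h4 : B - ((∑ γ, (∫ x, ev (J γ) x * ev (ζ γ) x).re : ℝ) : ℂ)
      = (((B - ∑ γ, ∫ x, ev (J γ) x * ev (ζ γ) x).re : ℝ) : ℂ) := by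
    apply Complex.ext
    · simp
    · simp [hB]
  rw [h4, norm_real, Real.norm_eq_abs]
  exact abs_re_le_norm _

/-- the functional is real on real functions. -/
theorem beta_real {W : Measure (Euc k × L k)} {π : Euc k →L[ℝ] Euc m}
    {ρ : Euc k →L[ℝ] Euc n} {u : Euc m → Euc n} {ζ : Fin n → X (Euc m) 0}
    {g : Fin n → Euc m → ℝ} (hg : ∀ γ x, ev (ζ γ) x = ((g γ x : ℝ) : ℂ)) :
    ∫ p, bI π ρ u ζ p ∂W = ((∫ p, ∑ α, g α (π p.1) * hf π ρ u p α ∂W : ℝ) : ℂ) := by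
  refine Eq.trans ?_ integral_ofReal
  refine integral_congr_ae (Eventually.of_forall fun p => ?_)
  show bI π ρ u ζ p = _
  unfold bI
  push_cast
  exact Finset.sum_congr rfl fun α _ => by rw [hg]; rfl

end Crest.Agent.R234.Sel11_570
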