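import Crest.Agent.R234.LT1_640
import Crest.Agent.R234.Sel13_570
import Crest.Agent.R234.Th3_186
import Crest.Agent.R234.Mx17_397

-- ▼ part R234/LT2_640
section

/-!
# Row 234, node F2-LT (helper640), part 2: the coefficients `cf` represent `lopT u`; `ltp : LTP`
-/

set_option autoImplicit false
set_option linter.unusedSectionVars false

open MeasureTheory Complex Filter Real
open scoped ContDiff Topology InnerProductSpace ENNReal NNReal

noncomputable section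

namespace Crest.Agent.R234.LT2_640

open Crest.GeometryTopology.Submanifold
open Crest.Agent.R086.Wie Crest.Agent.R234.Mx1_397 Crest.Agent.R234.Mx2_397
  Crest.Agent.R234.Mx3_397 Crest.Agent.R234.Mx4_397 Crest.Agent.R234.Mx5_397
  Crest.Agent.R234.MG_570 Crest.Agent.R234.Ell1_3 Crest.Agent.R234.LT1_640

/-- rearrangement of the sums. -/
theorem alg {ι κ : Type*} [Fintype ι] [Fintype κ] (k : ι → ι → ℝ) (S : ι → κ → ℝ)
    (T : ι → ι → κ → ℝ) (f : κ → ℝ) (g : ι → κ → ℝ) :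
    ∑ i, ∑ α, ((S i α + ∑ j, k i j * S j α) + (S i α + ∑ j, k i j * S j α)) * g i α
      + ∑ α, ((∑ i, T i i α + ∑ i, ∑ j, k i j * T i j α)
        + (∑ i, T i i α + ∑ i, ∑ j, k i j * T i j α)) * f α
      = 2 * ∑ i, (∑ α, (T i i α * f α + S i α * g i α)
        + ∑ l, k l i * ∑ α, (T l i α * f α + S i α * g l α)) := by
  have h1 : ∑ i, ∑ α, ((S i α + ∑ j, k i j * S j α) + (S i α + ∑ j, k i j * S j α)) * g i α
      = 2 * (∑ i, ∑ α, S i α * g i α + ∑ i, ∑ j, ∑ α, k i j * (S j α * g i α)) := by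
    rw [← Finset.sum_add_distrib, Finset.mul_sum]
    refine Finset.sum_congr rfl fun i _ => ?_
    rw [Finset.sum_comm (f := fun j α => k i j * (S j α * g i α)), ← Finset.sum_add_distrib,
      Finset.mul_sum]
    refine Finset.sum_congr rfl fun α _ => ?_
    have : ∑ j, k i j * (S j α * g i α) = (∑ j, k i j * S j α) * g i α := by
      rw [Finset.sum_mul]
      exact Finset.sum_congr rfl fun j _ => by ring
    rw [this]
    ring
  have h2 : ∑ α, ((∑ i, T i i α + ∑ i, ∑ j, k i j * T i j α)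
        + (∑ i, T i i α + ∑ i, ∑ j, k i j * T i j α)) * f α
      = 2 * (∑ i, ∑ α, T i i α * f α + ∑ i, ∑ j, ∑ α, k i j * (T i j α * f α)) := by
    have e1 : ∑ i, ∑ α, T i i α * f α = ∑ α, (∑ i, T i i α) * f α := by
      rw [Finset.sum_comm]
      exact Finset.sum_congr rfl fun α _ => by rw [Finset.sum_mul]
    have e2 : ∑ i, ∑ j, ∑ α, k i j * (T i j α * f α)
        = ∑ α, (∑ i, ∑ j, k i j * T i j α) * f α := by
      have : ∀ i, ∑ j, ∑ α, k i j * (T i j α * f α) = ∑ α, ∑ j, k i j * (T i j α * f α) :=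
        fun i => Finset.sum_comm
      rw [Finset.sum_congr rfl fun i _ => this i, Finset.sum_comm]
      refine Finset.sum_congr rfl fun α _ => ?_
      rw [Finset.sum_mul]
      refine Finset.sum_congr rfl fun i _ => ?_
      rw [Finset.sum_mul]
      exact Finset.sum_congr rfl fun j _ => by ring
    rw [e1, e2, ← Finset.sum_add_distrib, Finset.mul_sum]
    exact Finset.sum_congr rfl fun α _ => by ring
  have h3 : ∑ i, (∑ α, (T i i α * f α + S i α * g i α)
        + ∑ l, k l i * ∑ α, (T l i α * f α + S i α * g l α))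
      = (∑ i, ∑ α, T i i α * f α + ∑ i, ∑ α, S i α * g i α)
        + (∑ i, ∑ j, ∑ α, k i j * (T i j α * f α) + ∑ i, ∑ j, ∑ α, k i j * (S j α * g i α)) := by
    rw [Finset.sum_add_distrib]
    congr 1
    · rw [← Finset.sum_add_distrib]
      exact Finset.sum_congr rfl fun i _ => Finset.sum_add_distrib
    · rw [Finset.sum_comm, ← Finset.sum_add_distrib]
      refine Finset.sum_congr rfl fun i _ => ?_
      rw [← Finset.sum_add_distrib]
      refine Finset.sum_congr rfl fun j _ => ?_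
      rw [Finset.mul_sum, ← Finset.sum_add_distrib]
      exact Finset.sum_congr rfl fun α _ => by ring
  rw [h1, h2, h3]
  ring

theorem Rp.unique {F : Type*} [NormedAddCommGroup F] [InnerProductSpace ℝ F]
    [FiniteDimensional ℝ F] [MeasurableSpace F] [BorelSpace F] {N : ℕ} {a : X F N} {f g : F → ℝ}
    (h : Rp a f) (h' : Rp a g) (x : F) : f x = g x :=
  Complex.ofReal_injective ((h x).trans (h' x).symm)

section ev

variable {m n : ℕ}

theorem inner_bF (y : Euc n) (β : Fin n) : ⟪EuclideanSpace.basisFun (Fin n) ℝ β, y⟫_ℝ = y β := by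
  rw [EuclideanSpace.basisFun_apply, EuclideanSpace.inner_single_left]
  simp

theorem inner_sF (y : Euc n) (β : Fin n) : ⟪y, EuclideanSpace.single β (1 : ℝ)⟫_ℝ = y β := by
  rw [EuclideanSpace.inner_single_right]
  simp

theorem rep_syn {N : ℕ} {a : XV m n N} {u : Euc m → Euc n} (h : Rep a u) :
    u = syn (EuclideanSpace.basisFun (Fin n) ℝ) a := by
  funext x
  refine onb_ext (EuclideanSpace.basisFun (Fin n) ℝ) fun α => ?_
  rw [inner_syn, ← h x α, Complex.ofReal_re, inner_bF]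

theorem rp0 {N : ℕ} {a : XV m n N} {u : Euc m → Euc n} (h : Rep a u) (α : Fin n) :
    Rp (a α) (fun x => u x α) := fun x => h x α

theorem rp1 {N : ℕ} {a : XV m n (N + 1)} {u : Euc m → Euc n} (hs : IsReal a) (h : Rep a u)
    (v : Euc m) (α : Fin n) : Rp (D v (a α)) (fun x => fderiv ℝ u x v α) := fun x => by
  obtain rfl := rep_syn h
  have h1 : fderiv ℝ (syn (EuclideanSpace.basisFun (Fin n) ℝ) a) x v α
      = (ev (D v (a α)) x).re := by
    rw [← inner_bF, fderiv_syn, inner_syn]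
  show ((fderiv ℝ (syn (EuclideanSpace.basisFun (Fin n) ℝ) a) x v α : ℝ) : ℂ) = _
  rw [h1]
  exact ev_real (by rw [D_star, hs]) x

theorem rp2 {N : ℕ} {a : XV m n (N + 2)} {u : Euc m → Euc n} (hs : IsReal a) (h : Rep a u)
    (v v' : Euc m) (α : Fin n) :
    Rp (D v (D v' (a α))) (fun x => fderiv ℝ (fderiv ℝ u) x v v' α) := fun x => by
  obtain rfl := rep_syn h
  have h1 : fderiv ℝ (fderiv ℝ (syn (EuclideanSpace.basisFun (Fin n) ℝ) a)) x v v' α
      = (ev (D v (D v' (a α))) x).re := by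
    rw [← inner_bF, fderiv2_syn, inner_syn]
  show ((fderiv ℝ (fderiv ℝ (syn (EuclideanSpace.basisFun (Fin n) ℝ) a)) x v v' α : ℝ) : ℂ) = _
  rw [h1]
  exact ev_real (by rw [D_star, D_star, hs]) x

local notation "eF" => stdOrthonormalBasis ℝ (Euc m)

variable {t : ℕ} {U : Fin n → X (Euc m) (t + 1 + 2)} {u : Euc m → Euc n} {r : ℝ}

/-- the entries of `(1 + DuᵀDu)⁻¹ - 1`. -/
def kf (U : Fin n → X (Euc m) (t + 1 + 2)) (i j : Fin (Module.finrank ℝ (Euc m))) (x : Euc m) : ℝ :=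
  (ev (Kc (eF) U i j) x).re

theorem rpK (hr : Sm (Fin (Module.finrank ℝ (Euc m))) (Fin n) r) (hUr : ‖U‖ ≤ r)
    (hs : IsReal U) (i j : Fin (Module.finrank ℝ (Euc m))) :
    Rp (Kc (eF) U i j) (kf U i j) := fun x =>
  ev_real (star_Kc hr hUr hs i j) x

theorem rpP (hs : IsReal U) (h : Rep U u) (i : Fin (Module.finrank ℝ (Euc m))) (α : Fin n) :
    Rp (Pd (eF) U i α) (fun x => fderiv ℝ u x (eF i) α) := (rp1 hs h (eF i) α).incl _

theorem rpQ (hs : IsReal U) (h : Rep U u) (i j : Fin (Module.finrank ℝ (Euc m))) (α : Fin n) :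
    Rp (Qd (eF) U i j α) (fun x => fderiv ℝ (fderiv ℝ u) x (eF i) (eF j) α) :=
  rp2 hs h (eF i) (eF j) α

theorem ginv_e (hr : Sm (Fin (Module.finrank ℝ (Euc m))) (Fin n) r) (hUr : ‖U‖ ≤ r)
    (hs : IsReal U) (h : Rep U u) (j : Fin (Module.finrank ℝ (Euc m))) (x : Euc m) :
    ginv (fderiv ℝ u x) (eF j) = eF j + ∑ i, kf U i j x • eF i := by
  refine ginv_basis (eF) (EuclideanSpace.basisFun (Fin n) ℝ) (fderiv ℝ u x)
    (fun i j => kf U i j x) (fun i j => ?_) j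
  have h2 : Kc (eF) U i j = -Hm (eF) U i j - ∑ l, Hm (eF) U i l * Kc (eF) U l j :=
    congrFun (congrFun (qi_eq (hr.card_le (eF) hUr)) i) j
  have hH : ∀ i j, (ev (Hm (eF) U i j) x).re = ∑ α, ⟪EuclideanSpace.basisFun (Fin n) ℝ α,
      fderiv ℝ u x (eF i)⟫_ℝ * ⟪EuclideanSpace.basisFun (Fin n) ℝ α, fderiv ℝ u x (eF j)⟫_ℝ :=
    fun i j => by
      unfold Hm
      rw [re_ev_sum]
      refine Finset.sum_congr rfl fun α _ => ?_
      rw [re_ev_mul (star_Pd (eF) hs i α), (rpP hs h i α).re, (rpP hs h j α).re, inner_bF,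
        inner_bF]
  show (ev (Kc (eF) U i j) x).re = _
  conv_lhs => rw [h2]
  rw [ev_sub, Complex.sub_re, ev_neg, Complex.neg_re, hH, re_ev_sum]
  congr 1
  refine Finset.sum_congr rfl fun l _ => ?_
  rw [re_ev_mul (star_Hm (eF) hs i l), hH]
  rfl

/-- the components of `ginv (Du) Duᵀ b_β`. -/
def wf (U : Fin n → X (Euc m) (t + 1 + 2)) (u : Euc m → Euc n) (β : Fin n)
    (l : Fin (Module.finrank ℝ (Euc m))) (x : Euc m) : ℝ :=
  fderiv ℝ u x (eF l) β + ∑ p, kf U l p x * fderiv ℝ u x (eF p) β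

theorem rpW (hr : Sm (Fin (Module.finrank ℝ (Euc m))) (Fin n) r) (hUr : ‖U‖ ≤ r)
    (hs : IsReal U) (h : Rep U u) (β : Fin n) (l : Fin (Module.finrank ℝ (Euc m))) :
    Rp (Wc (eF) U β l) (wf U u β l) :=
  (rpP hs h l β).add (Rp.sum _ fun p => (rpK hr hUr hs l p).mul (rpP hs h p β))

theorem w_eq (hr : Sm (Fin (Module.finrank ℝ (Euc m))) (Fin n) r) (hUr : ‖U‖ ≤ r)
    (hs : IsReal U) (h : Rep U u) (β : Fin n) (x : Euc m) :
    ginv (fderiv ℝ u x) (ContinuousLinearMap.adjoint (fderiv ℝ u x)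
      (EuclideanSpace.single β (1 : ℝ))) = ∑ l, wf U u β l x • eF l := by
  have h1 : ContinuousLinearMap.adjoint (fderiv ℝ u x) (EuclideanSpace.single β (1 : ℝ))
      = ∑ p, fderiv ℝ u x (eF p) β • eF p := by
    refine onb_ext (eF) fun l => ?_
    rw [ContinuousLinearMap.adjoint_inner_right, inner_sF]
    have ho : ∀ n, ⟪eF l, eF n⟫_ℝ = if l = n then 1 else 0 :=
      fun n => (orthonormal_iff_ite.1 (eF).orthonormal) l n
    rw [inner_sum]
    simp only [inner_smul_right, ho]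
    simp
  rw [h1, map_sum]
  have h2 : ∀ p, ginv (fderiv ℝ u x) (fderiv ℝ u x (eF p) β • eF p)
      = fderiv ℝ u x (eF p) β • eF p + ∑ l, (kf U l p x * fderiv ℝ u x (eF p) β) • eF l :=
    fun p => by
      rw [map_smul, ginv_e hr hUr hs h, smul_add, Finset.smul_sum]
      congr 1
      exact Finset.sum_congr rfl fun l _ => by rw [smul_smul, mul_comm]
  rw [Finset.sum_congr rfl fun p _ => h2 p, Finset.sum_add_distrib, Finset.sum_comm,
    ← Finset.sum_add_distrib]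
  refine Finset.sum_congr rfl fun l _ => ?_
  unfold wf
  rw [add_smul, Finset.sum_smul]

/-- the coefficients of `Psi`. -/
def sf (U : Fin n → X (Euc m) (t + 1 + 2)) (u : Euc m → Euc n) (β : Fin n)
    (j : Fin (Module.finrank ℝ (Euc m))) (α : Fin n) (x : Euc m) : ℝ :=
  ∑ l, wf U u β l x * fderiv ℝ (fderiv ℝ u) x (eF l) (eF j) α

theorem rpS (hr : Sm (Fin (Module.finrank ℝ (Euc m))) (Fin n) r) (hUr : ‖U‖ ≤ r)
    (hs : IsReal U) (h : Rep U u) (β : Fin n) (j : Fin (Module.finrank ℝ (Euc m))) (α : Fin n) :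
    Rp (Sc (eF) U β j α) (sf U u β j α) :=
  Rp.sum _ fun l => (rpW hr hUr hs h β l).mul (rpQ hs h l j α)

theorem inner_psi (hr : Sm (Fin (Module.finrank ℝ (Euc m))) (Fin n) r) (hUr : ‖U‖ ≤ r)
    (hs : IsReal U) (h : Rep U u) (φ : Euc m → Euc n) (β : Fin n)
    (j : Fin (Module.finrank ℝ (Euc m))) (x : Euc m) :
    ⟪eF j, Psi u φ x (EuclideanSpace.single β 1)⟫_ℝ = ∑ α, sf U u β j α x * φ x α := by
  unfold Psi
  rw [ContinuousLinearMap.adjoint_inner_right, w_eq hr hUr hs h, map_sum, sum_apply, sum_inner]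
  have h1 : ∀ l, ⟪fderiv ℝ (fderiv ℝ u) x (wf U u β l x • eF l) (eF j), φ x⟫_ℝ
      = ∑ α, (wf U u β l x * fderiv ℝ (fderiv ℝ u) x (eF l) (eF j) α) * φ x α := fun l => by
    rw [map_smul, smul_apply, real_inner_smul_left, PiLp.inner_apply, Finset.mul_sum]
    refine Finset.sum_congr rfl fun α _ => ?_
    simp only [RCLike.inner_apply, conj_trivial]
    ring
  rw [Finset.sum_congr rfl fun l _ => h1 l, Finset.sum_comm]
  refine Finset.sum_congr rfl fun α _ => ?_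
  unfold sf
  rw [Finset.sum_mul]

theorem psi_eq (hr : Sm (Fin (Module.finrank ℝ (Euc m))) (Fin n) r) (hUr : ‖U‖ ≤ r)
    (hs : IsReal U) (h : Rep U u) (φ : Euc m → Euc n) (β : Fin n) (x : Euc m) :
    Psi u φ x (EuclideanSpace.single β 1) = ∑ j, (∑ α, sf U u β j α x * φ x α) • eF j := by
  rw [← (eF).sum_repr' (Psi u φ x (EuclideanSpace.single β 1))]
  exact Finset.sum_congr rfl fun j _ => by rw [inner_psi hr hUr hs h]

theorem inner_dpsi (hr : Sm (Fin (Module.finrank ℝ (Euc m))) (Fin n) r) (hUr : ‖U‖ ≤ r)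
    (hs : IsReal U) (h : Rep U u) {b : XV m n 2} {φ : Euc m → Euc n} (hb : IsReal b)
    (hφ : Rep b φ) (β : Fin n) (j : Fin (Module.finrank ℝ (Euc m))) (x v : Euc m) :
    ⟪fderiv ℝ (fun x => Psi u φ x (EuclideanSpace.single β 1)) x v, eF j⟫_ℝ
      = ∑ α, (fderiv ℝ (sf U u β j α) x v * φ x α + sf U u β j α x * fderiv ℝ φ x v α) := by
  have hd : ∀ j, HasFDerivAt (fun x => ∑ α, sf U u β j α x * φ x α)
      (∑ α, (sf U u β j α x • fderiv ℝ (fun x => φ x α) x
        + φ x α • fderiv ℝ (sf U u β j α) x)) x := fun j => by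
    refine HasFDerivAt.fun_sum fun α _ => ?_
    exact ((rpS hr hUr hs h β j α).diff x).hasFDerivAt.mul
      (((rp0 hφ α).diff (N := 1)) x).hasFDerivAt
  have he : (fun x => Psi u φ x (EuclideanSpace.single β 1))
      = fun x => ∑ j, (∑ α, sf U u β j α x * φ x α) • eF j := by
    funext x
    exact psi_eq hr hUr hs h φ β x
  have hD : HasFDerivAt (fun x => ∑ j, (∑ α, sf U u β j α x * φ x α) • eF j)
      (∑ j, (∑ α, (sf U u β j α x • fderiv ℝ (fun x => φ x α) x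
        + φ x α • fderiv ℝ (sf U u β j α) x)).smulRight (eF j)) x :=
    HasFDerivAt.fun_sum fun j _ => (hd j).smul_const (eF j)
  rw [he, hD.fderiv, sum_apply, sum_inner]
  have ho : ∀ l, ⟪eF l, eF j⟫_ℝ = if l = j then 1 else 0 :=
    fun l => (orthonormal_iff_ite.1 (eF).orthonormal) l j
  simp only [ContinuousLinearMap.smulRight_apply, real_inner_smul_left, ho]
  rw [Finset.sum_eq_single j (fun l _ hl => by rw [if_neg hl, mul_zero])
    (fun hj => absurd (Finset.mem_univ j) hj), if_pos rfl, mul_one, sum_apply]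
  refine Finset.sum_congr rfl fun α _ => ?_
  have h3 : fderiv ℝ (fun x => φ x α) x v = fderiv ℝ φ x v α :=
    Rp.unique ((rp0 hφ α).fd (N := 1) v) (rp1 (N := 1) hb hφ v α) x
  rw [add_apply, smul_apply, smul_apply, smul_eq_mul, smul_eq_mul, h3]
  ring

theorem lopT_eq (hr : Sm (Fin (Module.finrank ℝ (Euc m))) (Fin n) r) (hUr : ‖U‖ ≤ r)
    (hs : IsReal U) (h : Rep U u) {b : XV m n 2} {φ : Euc m → Euc n} (hb : IsReal b)
    (hφ : Rep b φ) (β : Fin n) (x : Euc m) :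
    lopT u φ x (EuclideanSpace.single β 1)
      = (∑ i, fderiv ℝ (fderiv ℝ φ) x (eF i) (eF i) β
        + ∑ i, ∑ j, kf U i j x * fderiv ℝ (fderiv ℝ φ) x (eF i) (eF j) β)
        + 2 * ∑ i, (∑ α, (fderiv ℝ (sf U u β i α) x (eF i) * φ x α
            + sf U u β i α x * fderiv ℝ φ x (eF i) α)
          + ∑ l, kf U l i x * ∑ α, (fderiv ℝ (sf U u β i α) x (eF l) * φ x α
            + sf U u β i α x * fderiv ℝ φ x (eF l) α)) := by
  unfold lopT
  congr 1
  · have h1 : ∀ j, ⟪fderiv ℝ (fderiv ℝ φ) x (ginv (fderiv ℝ u x) (eF j)) (eF j),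
        EuclideanSpace.single β (1 : ℝ)⟫_ℝ = fderiv ℝ (fderiv ℝ φ) x (eF j) (eF j) β
        + ∑ i, kf U i j x * fderiv ℝ (fderiv ℝ φ) x (eF i) (eF j) β := fun j => by
      rw [ginv_e hr hUr hs h, map_add, map_sum, add_apply, inner_add_left, inner_sF, sum_apply,
        sum_inner]
      congr 1
      refine Finset.sum_congr rfl fun i _ => ?_
      rw [map_smul, smul_apply, real_inner_smul_left, inner_sF]
    rw [Finset.sum_congr rfl fun j _ => h1 j, Finset.sum_add_distrib]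
    congr 1
    exact Finset.sum_comm
  · congr 1
    refine Finset.sum_congr rfl fun i _ => ?_
    rw [ginv_e hr hUr hs h, map_add, map_sum, inner_add_left, sum_inner,
      inner_dpsi hr hUr hs h hb hφ]
    congr 1
    refine Finset.sum_congr rfl fun l _ => ?_
    rw [map_smul, real_inner_smul_left, inner_dpsi hr hUr hs h hb hφ]

theorem rpL (hr : Sm (Fin (Module.finrank ℝ (Euc m))) (Fin n) r) (hUr : ‖U‖ ≤ r)
    (hs : IsReal U) (h : Rep U u) {b : XV m n 2} {φ : Euc m → Euc n} (hb : IsReal b)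
    (hφ : Rep b φ) (β : Fin n) :
    Rp (Lop (eF) (cf (eF) U) b β)
      (fun x => ∑ i, fderiv ℝ (fderiv ℝ φ) x (eF i) (eF i) β
        + ∑ i, ∑ j, kf U i j x * fderiv ℝ (fderiv ℝ φ) x (eF i) (eF j) β
        + ∑ i, ∑ α, ((sf U u β i α x + ∑ j, kf U i j x * sf U u β j α x)
          + (sf U u β i α x + ∑ j, kf U i j x * sf U u β j α x)) * fderiv ℝ φ x (eF i) α
        + ∑ α, ((∑ i, fderiv ℝ (sf U u β i α) x (eF i)
            + ∑ i, ∑ j, kf U i j x * fderiv ℝ (sf U u β j α) x (eF i))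
          + (∑ i, fderiv ℝ (sf U u β i α) x (eF i)
            + ∑ i, ∑ j, kf U i j x * fderiv ℝ (sf U u β j α) x (eF i))) * φ x α) := by
  have hS := rpS hr hUr hs h β
  have hK := rpK hr hUr hs
  have hB : ∀ i α, Rp (Bc (eF) U i β α)
      (fun x => sf U u β i α x + ∑ j, kf U i j x * sf U u β j α x) := fun i α =>
    (hS i α).add (Rp.sum _ fun j => (hK i j).mul (hS j α))
  have hZ : ∀ α, Rp (Zc (eF) U β α) (fun x => ∑ i, fderiv ℝ (sf U u β i α) x (eF i)
      + ∑ i, ∑ j, kf U i j x * fderiv ℝ (sf U u β j α) x (eF i)) := fun α =>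
    (Rp.sum _ fun i => (hS i α).fd (eF i)).add (Rp.sum _ fun i => Rp.sum _ fun j =>
      ((hK i j).incl _).mul ((hS j α).fd (eF i)))
  unfold Lop
  refine Rp.add (Rp.add (Rp.add ?_ ?_) ?_) ?_
  · exact Rp.sum _ fun i => rp2 (N := 0) hb hφ (eF i) (eF i) β
  · exact Rp.sum _ fun i => Rp.sum _ fun j =>
      (((hK i j).incl _).incl _).mul (rp2 (N := 0) hb hφ (eF i) (eF j) β)
  · exact Rp.sum _ fun i => Rp.sum _ fun α =>
      ((((hB i α).add (hB i α)).incl _).incl _).mul ((rp1 (N := 1) hb hφ (eF i) α).incl _)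
  · exact Rp.sum _ fun α => (((hZ α).add (hZ α)).incl _).mul ((rp0 hφ α).incl _)

/-- **F2-LT, pointwise**. -/
theorem ev_Lop (hr : Sm (Fin (Module.finrank ℝ (Euc m))) (Fin n) r) (hUr : ‖U‖ ≤ r)
    (hs : IsReal U) (h : Rep U u) {b : XV m n 2} {φ : Euc m → Euc n} (hb : IsReal b)
    (hφ : Rep b φ) (β : Fin n) (x : Euc m) :
    ev (Lop (eF) (cf (eF) U) b β) x
      = ((lopT u φ x (EuclideanSpace.single β 1) : ℝ) : ℂ) := by
  rw [← rpL hr hUr hs h hb hφ β x, lopT_eq hr hUr hs h hb hφ β x,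
    ← alg (fun i j => kf U i j x) (fun i α => sf U u β i α x)
      (fun i j α => fderiv ℝ (sf U u β j α) x (eF i)) (fun α => φ x α)
      (fun i α => fderiv ℝ φ x (eF i) α)]
  congr 1
  ring

end ev

/-- **node F2-LT**. -/
theorem ltp : LTP := by
  intro m n t
  obtain ⟨r, hr0, hr1, hr⟩ := exists_Sm (Fin (Module.finrank ℝ (Euc m))) (Fin n)
  have hc := cT_nonneg (ι := Fin (Module.finrank ℝ (Euc m))) (κ := Fin n)
  refine ⟨r, cT (Fin (Module.finrank ℝ (Euc m))) (Fin n) + 1, hr0, by linarith,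
    fun a u hs ha h => ?_⟩
  have h1 : ‖a‖ ≤ 1 := ha.trans hr1
  refine ⟨cf (t := t) (stdOrthonormalBasis ℝ (Euc m)) a, real_cf hr ha hs, ?_,
    fun b φ hb hφ x β => ev_Lop hr ha hs h hb hφ β x⟩
  refine (sz_cf_le hr ha h1).trans ?_
  exact mul_le_mul_of_nonneg_right (by linarith) (norm_nonneg _)

end Crest.Agent.R234.LT2_640
end
end

-- ▼ part R234/Sel14_570
section

/-!
Row 234, VF-SEL (helper570), file 14: the Jacobi field selected by the heights.
-/

set_option autoImplicit false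
set_option linter.unusedSectionVars false
set_option linter.unusedVariables false

open MeasureTheory Complex Filter
open scoped ContDiff Topology InnerProductSpace ENNReal NNReal SchwartzMap

noncomputable section

namespace Crest.Agent.R234.Sel11_570

open Crest.GeometryTopology.Submanifold Crest.Agent.R234.Vf_884
open Crest.Agent.R234.Ell1_3 (gop ginv dns)
open Crest.Agent.R234.Mx5_397 (msop)
open Crest.Agent.R234.Mx9_397 (lop)
open Crest.Agent.R234.Main_456 (Frame Msys)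
open Crest.Agent.R086.Wie Crest.Agent.R234.Mx1_397 Crest.Agent.R234.Mx2_397
  Crest.Agent.R234.Mx3_397 Crest.Agent.R234.Mx4_397 Crest.Agent.R234.Mx6_397
  Crest.Agent.R234.Sel5_570 Crest.Agent.R234.Sel6_570
open Crest.Agent.R234.MG_570

variable {m n k : ℕ}

/-- lowering the regularity. -/
def low {M N : ℕ} (h : M ≤ N) (a : XV m n N) : XV m n M := fun γ => inclV h (a γ)

theorem low_real {M N : ℕ} (h : M ≤ N) {a : XV m n N} (ha : IsReal a) : IsReal (low h a) :=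
  fun γ => by
    show star (inclV h (a γ)) = inclV h (a γ)
    rw [star_inclV, ha γ]

theorem low_rep {M N : ℕ} (h : M ≤ N) {a : XV m n N} {u : Euc m → Euc n} (ha : Rep a u) :
    Rep (low h a) u := fun x γ => by
  show _ = ev (inclV h (a γ)) x
  rw [ev_inclV]
  exact ha x γ

theorem low_norm {M N : ℕ} (h : M ≤ N) (a : XV m n N) : ‖low h a‖ ≤ ‖a‖ :=
  (pi_norm_le_iff_of_nonneg (norm_nonneg _)).2 fun γ =>
    (norm_inclV_le _ _).trans (norm_le_pi_norm a γ)

/-- derivative bounds in the form used here. -/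
theorem mg_bd (m n N : ℕ) (hN : 1 ≤ N) : ∃ C : ℝ, 0 < C ∧ ∀ (κ r : ℝ) (u : Euc m → Euc n),
    MG N κ r u → ContDiff ℝ 3 u ∧ (∀ x, ‖u x‖ ≤ C * κ) ∧ (∀ x, ‖fderiv ℝ u x‖ ≤ C * κ) ∧
      ∀ x, ‖fderiv ℝ (fderiv ℝ u) x‖ ≤ C * κ := by
  obtain ⟨C, hC0, hC⟩ := Mx17_397.bdP m n N
  refine ⟨C + 1, by linarith, fun κ r u h => ?_⟩
  have hκ : 0 ≤ κ := by
    obtain ⟨a, _, ha, _⟩ := h
    exact (norm_nonneg _).trans ha
  obtain ⟨h1, h2⟩ := hC κ r u h
  have h3 : C * κ ≤ (C + 1) * κ := by nlinarith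
  refine ⟨h1.of_le ?_, fun x => ?_, fun x => ?_, fun x => ?_⟩
  · have : (3 : ℕ) ≤ N + 2 := by omega
    exact WithTop.coe_le_coe.2 (ENat.natCast_le_natCast.2 this)
  · have := h2 0 (by omega) x
    rw [norm_iteratedFDeriv_zero] at this
    exact this.trans h3
  · have := h2 1 (by omega) x
    rw [norm_iteratedFDeriv_one] at this
    exact this.trans h3
  · have := h2 2 (by omega) x
    rw [← norm_iteratedFDeriv_fderiv, norm_iteratedFDeriv_one] at this
    exact this.trans h3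

/-- the output of the field step. -/
structure Fld (N P : ℕ) (C d h r : ℝ) (W : Measure (Euc k × L k)) (π : Euc k →L[ℝ] Euc m)
    (ρ : Euc k →L[ℝ] Euc n) (u : Euc m → Euc n) (b : XV m n (N + 2)) (v : Euc m → Euc n)
    (J : XV m n 2) (θ : ℝ) : Prop where
  real : IsReal b
  rep : Rep b v
  norm : ‖b‖ ≤ C * h / d ^ P
  jac : ∀ x ∈ Metric.ball (0 : Euc m) (r + d), lop u v x = 0
  app : ∀ ζ : Fin n → X (Euc m) 0, (∀ γ, star (ζ γ) = ζ γ) →
    (∀ γ x, r ≤ ‖x‖ → ev (ζ γ) x = 0) →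
    ‖(∫ p, bI π ρ u ζ p ∂W) - ∑ γ, ∫ x, ev (J γ) x * ev (ζ γ) x‖ ≤ C * h ^ 2 / d ^ P * ‖ζ‖
  val : ∀ x ∈ Metric.ball (0 : Euc m) r, ∀ γ,
    ev (J γ) x = ((θ * dns (fderiv ℝ u x) * v x γ : ℝ) : ℂ)
  area : ∀ ζ : Euc m → ℝ, ContDiff ℝ 1 ζ → (∀ x, r ≤ ‖x‖ → ζ x = 0) → (∀ x, |ζ x| ≤ 1) →
    (∀ x, ‖fderiv ℝ ζ x‖ ≤ 1) →
    |∫ p, ζ (π p.1) ∂W - θ * ∫ x, ζ x * dns (fderiv ℝ u x)| ≤ C * h / d ^ P

/-- the field step. -/
def FldP : Prop := ∀ (m n : ℕ), 1 ≤ m → ∃ N₀ : ℕ, ∀ N ≥ N₀, ∃ κ₀ : ℝ, 0 < κ₀ ∧ ∃ P : ℕ,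
  ∀ Λ r₀ : ℝ, 0 < Λ → 0 < r₀ → ∃ C : ℝ, 1 ≤ C ∧ ∀ (k : ℕ) (W : Measure (Euc k × L k))
    (π : Euc k →L[ℝ] Euc m) (ρ : Euc k →L[ℝ] Euc n) (κ h d r : ℝ) (u : Euc m → Euc n),
    κ ≤ κ₀ → 0 < d → 8 * d ≤ 1 / 2 → 8 * d ≤ r → r₀ ≤ r → r ≤ 1 → 0 < h →
    Cy_870.CylStat W π ρ 0 (r + 8 * d) 1 → W Set.univ ≤ ENNReal.ofReal Λ →
    ENNReal.ofReal Λ⁻¹ ≤ W ((fun p => π p.1) ⁻¹' Metric.ball 0 (r / 16)) →
    MG N κ (r + 8 * d) u → (∀ᵐ q ∂W, ‖ρ q.1 - u (π q.1)‖ ≤ h) → C * h ≤ d ^ P →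
    ∃ (b : XV m n (N + 2)) (v : Euc m → Euc n) (J : XV m n 2) (θ : ℝ),
      Fld N P C d h r W π ρ u b v J θ

/-- powers of `d ≤ 1`. -/
theorem div_pow_le {d : ℝ} (hd : 0 < d) (hd1 : d ≤ 1) {a b : ℝ} (hb : 0 ≤ b) (hab : a ≤ b)
    {p q : ℕ} (hpq : p ≤ q) : a / d ^ p ≤ b / d ^ q := by
  have h1 : d ^ q ≤ d ^ p := pow_le_pow_of_le_one hd.le hd1 hpq
  calc a / d ^ p ≤ b / d ^ p := by gcongr
    _ ≤ b / d ^ q := by gcongr

end Crest.Agent.R234.Sel11_570
end
end

-- ▼ part R234/Sel15_570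
section

/-!
Row 234, VF-SEL (helper570), file 15: the represented functional of the heights.
-/

set_option autoImplicit false
set_option linter.unusedSectionVars false
set_option linter.unusedVariables false

open MeasureTheory Complex Filter
open scoped ContDiff Topology InnerProductSpace ENNReal NNReal SchwartzMap

noncomputable section

namespace Crest.Agent.R234.Sel11_570

open Crest.GeometryTopology.Submanifold Crest.Agent.R234.Vf_884
open Crest.Agent.R234.Ell1_3 (gop ginv dns)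
open Crest.Agent.R234.Mx5_397 (msop)
open Crest.Agent.R234.Mx9_397 (lop)
open Crest.Agent.R234.Main_456 (Frame Msys)
open Crest.Agent.R086.Wie Crest.Agent.R234.Mx1_397 Crest.Agent.R234.Mx2_397
  Crest.Agent.R234.Mx3_397 Crest.Agent.R234.Mx4_397 Crest.Agent.R234.Mx6_397
  Crest.Agent.R234.Sel5_570 Crest.Agent.R234.Sel6_570
open Crest.Agent.R234.MG_570

variable {m n k : ℕ}

theorem norm_rV_le {N : ℕ} (J : Fin n → X (Euc m) N) : ‖(fun γ => rX (J γ) : XV m n N)‖ ≤ ‖J‖ :=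
  (pi_norm_le_iff_of_nonneg (norm_nonneg _)).2 fun γ =>
    (norm_rX_le _).trans (norm_le_pi_norm J γ)

/-- output of the functional step. -/
structure JS (C Λ d h r : ℝ) (p : ℕ) (W : Measure (Euc k × L k)) (π : Euc k →L[ℝ] Euc m)
    (ρ : Euc k →L[ℝ] Euc n) (u : Euc m → Euc n)
    (c : Cf (Euc m) (Fin (Module.finrank ℝ (Euc m))) (Fin n) (2 + m + 1)) (J : XV m n 2) : Prop where
  lt : ∀ (b : XV m n 2) (φ : Euc m → Euc n), IsReal b → Rep b φ → ∀ (x : Euc m) (β : Fin n),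
      ev (Lop (stdOrthonormalBasis ℝ (Euc m)) c b β) x
        = ((lopT u φ x (EuclideanSpace.single β 1) : ℝ) : ℂ)
  real : IsReal J
  norm : ‖J‖ ≤ C * (1 + Λ) * h / d ^ p
  ann : ∀ φ : XV m n 2, (∀ γ x, r + 6 * d ≤ ‖x‖ → ev (φ γ) x = 0) →
    ∑ γ, ∫ x, ev (J γ) x * ev (Lop (stdOrthonormalBasis ℝ (Euc m)) c φ γ) x = 0
  app : ∀ ζ : Fin n → X (Euc m) 0, (∀ γ, star (ζ γ) = ζ γ) →
    (∀ γ x, r + 6 * d ≤ ‖x‖ → ev (ζ γ) x = 0) →
    ‖(∫ p, bI π ρ u ζ p ∂W) - ∑ γ, ∫ x, ev (J γ) x * ev (ζ γ) x‖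
      ≤ C * (1 + Λ) * h ^ 2 / d ^ 2 * ‖ζ‖
  tilt : ∫ p in {p : Euc k × L k | ‖π p.1‖ < r + 7 * d}, ‖p.2 - TG π ρ u (π p.1)‖ ∂W
      ≤ C * (1 + Λ) * h / d ^ 2

theorem step_J (hWJ : WJP) (m n : ℕ) (hm : 1 ≤ m) : ∃ κ₁ C : ℝ, 0 < κ₁ ∧ 0 < C ∧ ∃ p : ℕ,
    ∀ (k : ℕ) (W : Measure (Euc k × L k)) (π : Euc k →L[ℝ] Euc m) (ρ : Euc k →L[ℝ] Euc n)
      (h Λ d r : ℝ) (u : Euc m → Euc n) (a : XV m n (2 + m + 1 + 3)), 0 < d → 8 * d ≤ 1 / 2 →
      0 < r → r ≤ 1 → 0 ≤ h → h ≤ 1 → 0 ≤ Λ → Cy_870.CylStat W π ρ 0 (r + 8 * d) 1 →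
      W Set.univ ≤ ENNReal.ofReal Λ → IsReal a → ‖a‖ ≤ κ₁ → Rep a u → ContDiff ℝ 3 u →
      (∀ x ∈ Metric.ball (0 : Euc m) (r + 8 * d), msop u x = 0) →
      (∀ᵐ q ∂W, ‖ρ q.1 - u (π q.1)‖ ≤ h) →
      ∃ (c : Cf (Euc m) (Fin (Module.finrank ℝ (Euc m))) (Fin n) (2 + m + 1)) (J : XV m n 2),
        JS C Λ d h r p W π ρ u c J := by
  obtain ⟨κW, CW, hκW, hCW, hW⟩ := hWJ m n hm
  obtain ⟨κS, CS, hκS, hCS, pS, hS⟩ := s2P m n 2 hm
  obtain ⟨κL, CL, hκL, hCL, hL⟩ := LT2_640.ltp m n (2 + m + 1)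
  refine ⟨min κW (min κL (κS / CL)), CW + CS * (n + 2 * CW) + 2 * CS * CW, by positivity,
    by positivity, pS + 2, ?_⟩
  intro k W π ρ h Λ d r u a hd hd8 hr hr1 h0 h1 hΛ hcyl hWΛ har ha harep hu3 hms hh
  have haW : ‖a‖ ≤ κW := ha.trans (min_le_left _ _)
  have haL : ‖a‖ ≤ κL := ha.trans ((min_le_right _ _).trans (min_le_left _ _))
  have haS : CL * ‖a‖ ≤ κS := by
    have h2 : ‖a‖ ≤ κS / CL := ha.trans ((min_le_right _ _).trans (min_le_right _ _))
    rwa [le_div_iff₀ hCL, mul_comm] at h2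
  obtain ⟨c, hcr, hcs, hc⟩ := hL a u har haL harep
  obtain ⟨hti, hwj⟩ := hW k W π ρ h Λ (r + 7 * d) (r + 8 * d) (low (by omega : 3 ≤ 2 + m + 1 + 3) a)
    u (by linarith) (by linarith) (by linarith) h0 hcyl hWΛ hΛ (low_real _ har)
    ((low_norm _ a).trans haW) (low_rep _ harep) hms hh
  have e78 : r + 8 * d - (r + 7 * d) = d := by ring
  rw [e78] at hti hwj
  have : IsFiniteMeasure W := ⟨hcyl.fin⟩
  obtain ⟨β, hβn, hβ⟩ := exists_beta (W := W) (π := π) (ρ := ρ) (u := u) hu3.continuous h0 hΛ hWΛ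
    (show ∀ᵐ q ∂W, ‖hf π ρ u q‖ ≤ h from hh)
  have hM0 : 0 ≤ CW * Λ * h ^ 2 / d ^ 2 := by positivity
  have hsm := weak_complex (W := W) (π := π) (ρ := ρ) (u := u) (h := h) (Λ := Λ) hu3 hc hβ hwj hM0
  obtain ⟨J₀, hJn, hJann, hJapp⟩ := hS c (hcs.trans haS) β (r + 6 * d) (r + 7 * d)
    (n * h * Λ) (2 * (CW * Λ * h ^ 2 / d ^ 2)) (by linarith) (by linarith) (by linarith)
    (by positivity) (by positivity) hβn hsm
  have e67 : r + 7 * d - (r + 6 * d) = d := by ring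
  rw [e67] at hJn
  have hd1 : d ≤ 1 := by linarith
  refine ⟨c, fun γ => rX (J₀ γ), hc, fun γ => star_rX _, ?_, ?_, ?_, ?_⟩
  · refine (norm_rV_le J₀).trans (hJn.trans ?_)
    have e1 : n * h * Λ + 2 * (CW * Λ * h ^ 2 / d ^ 2) ≤ (n + 2 * CW) * (1 + Λ) * h / d ^ 2 := by
      have hd2 : d ^ 2 ≤ 1 := pow_le_one₀ hd.le hd1
      rw [le_div_iff₀ (by positivity), add_mul]
      have e2 : 2 * (CW * Λ * h ^ 2 / d ^ 2) * d ^ 2 = 2 * (CW * Λ * h ^ 2) := by
        field_simp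
      rw [e2]
      have e3 : n * h * Λ * d ^ 2 ≤ n * h * Λ := mul_le_of_le_one_right (by positivity) hd2
      have e4 : h ^ 2 ≤ h := by nlinarith
      have e5 : CW * Λ * h ^ 2 ≤ CW * Λ * h := by gcongr
      have e6 : (0 : ℝ) ≤ n * h := by positivity
      have e7 : 0 ≤ CW * h := by positivity
      nlinarith
    calc CS * (n * h * Λ + 2 * (CW * Λ * h ^ 2 / d ^ 2)) / d ^ pS
        ≤ CS * ((n + 2 * CW) * (1 + Λ) * h / d ^ 2) / d ^ pS := by gcongr
      _ = CS * (n + 2 * CW) * (1 + Λ) * h / d ^ (pS + 2) := by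
          rw [pow_add]; field_simp
      _ ≤ _ := by
          gcongr
          have : 0 ≤ 2 * CS * CW := by positivity
          linarith
  · exact fun φ hφ => real_ann hcr hJann φ hφ
  · intro ζ hζ hζz
    have hre : (∫ p, bI π ρ u ζ p ∂W).im = 0 := by
      rw [beta_real (g := fun γ x => (ev (ζ γ) x).re) fun γ x => (ev_real (hζ γ) x).symm,
        ofReal_im]
    refine (real_approx hζ hζz hre).trans ?_
    rw [← hβ]
    refine (hJapp ζ hζz).trans ?_
    have e8 : CS * (2 * (CW * Λ * h ^ 2 / d ^ 2)) = 2 * CS * CW * Λ * h ^ 2 / d ^ 2 := by ring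
    rw [e8]
    have e9 : 2 * CS * CW * Λ ≤ (CW + CS * (n + 2 * CW) + 2 * CS * CW) * (1 + Λ) := by
      have : 0 ≤ CW + CS * (n + 2 * CW) := by positivity
      have h3 : 0 ≤ 2 * CS * CW := by positivity
      nlinarith
    gcongr
  · refine hti.trans ?_
    have : 0 ≤ CS * (n + 2 * CW) + 2 * CS * CW := by positivity
    gcongr
    linarith

end Crest.Agent.R234.Sel11_570
end
end

-- ▼ part R234/Sel16_570
section

/-!
Row 234, VF-SEL (helper570), file 16: the Jacobi field selected by the heights (`FldP`).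
-/

set_option autoImplicit false
set_option linter.unusedSectionVars false
set_option linter.unusedVariables false

open MeasureTheory Complex Filter
open scoped ContDiff Topology InnerProductSpace ENNReal NNReal SchwartzMap

noncomputable section

namespace Crest.Agent.R234.Sel11_570

open Crest.GeometryTopology.Submanifold Crest.Agent.R234.Vf_884
open Crest.Agent.R234.Ell1_3 (gop ginv dns)
open Crest.Agent.R234.Mx5_397 (msop)
open Crest.Agent.R234.Mx9_397 (lop)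
open Crest.Agent.R234.Main_456 (Frame Msys)
open Crest.Agent.R086.Wie Crest.Agent.R234.Mx1_397 Crest.Agent.R234.Mx2_397
  Crest.Agent.R234.Mx3_397 Crest.Agent.R234.Mx4_397 Crest.Agent.R234.Mx6_397
  Crest.Agent.R234.Sel5_570 Crest.Agent.R234.Sel6_570
open Crest.Agent.R234.MG_570

variable {m n k : ℕ}

/-- scaled family divided by the density. -/
def jD (θ : ℝ) (J : XV m n 2) (D : X (Euc m) 2) : XV m n 2 :=
  fun γ => (((θ⁻¹ : ℝ) : ℂ) • J γ) * D

theorem jD_real {θ : ℝ} {J : XV m n 2} {D : X (Euc m) 2} (hJ : IsReal J) (hD : star D = D) :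
    IsReal (jD θ J D) := fun γ => by
  show star ((((θ⁻¹ : ℝ) : ℂ) • J γ) * D) = _
  rw [star_mul', star_smul, hJ γ, hD]
  congr 2
  exact conj_ofReal _

theorem smul_real {θ : ℝ} {J : XV m n 2} (hJ : IsReal J) :
    IsReal (fun γ => ((θ⁻¹ : ℝ) : ℂ) • J γ : XV m n 2) := fun γ => by
  show star (((θ⁻¹ : ℝ) : ℂ) • J γ) = _
  rw [star_smul, hJ γ]
  congr 1
  exact conj_ofReal _

theorem norm_jD_le {θ : ℝ} (hθ : 0 < θ) (J : XV m n 2) (D : X (Euc m) 2) :
    ‖jD θ J D‖ ≤ θ⁻¹ * ‖J‖ * ‖D‖ := by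
  refine (pi_norm_le_iff_of_nonneg (by positivity)).2 fun γ => ?_
  refine (norm_mul_le _ _).trans ?_
  rw [norm_smul, norm_real, Real.norm_of_nonneg (by positivity)]
  gcongr
  exact norm_le_pi_norm J γ

theorem ann_smul {θ : ℝ} {t : ℕ} {c : Cf (Euc m) (Fin (Module.finrank ℝ (Euc m))) (Fin n) t}
    {J : XV m n 2} {φ : XV m n 2}
    (h : ∑ γ, ∫ x, ev (J γ) x * ev (Lop (stdOrthonormalBasis ℝ (Euc m)) c φ γ) x = 0) :
    ∑ γ, ∫ x, ev (((θ⁻¹ : ℝ) : ℂ) • J γ) x
      * ev (Lop (stdOrthonormalBasis ℝ (Euc m)) c φ γ) x = 0 := by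
  have h1 : ∀ γ, ∫ x, ev (((θ⁻¹ : ℝ) : ℂ) • J γ) x
      * ev (Lop (stdOrthonormalBasis ℝ (Euc m)) c φ γ) x
      = ((θ⁻¹ : ℝ) : ℂ) * ∫ x, ev (J γ) x
        * ev (Lop (stdOrthonormalBasis ℝ (Euc m)) c φ γ) x := fun γ => by
    rw [← integral_const_mul]
    refine integral_congr_ae (Eventually.of_forall fun x => ?_)
    simp only [ev_smul]
    ring
  simp_rw [h1]
  rw [← Finset.mul_sum, h, mul_zero]

/-- value of the field. -/
theorem jD_val {θ : ℝ} (hθ : 0 < θ) {J : XV m n 2} {D : X (Euc m) 2} {j : Euc m → Euc n}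
    (hj : Rep (jD θ J D) j) {x : Euc m} {w : ℝ} (hw : 0 < w)
    (hD : ev D x = ((w⁻¹ : ℝ) : ℂ)) (γ : Fin n) :
    ev (J γ) x = ((θ * w * j x γ : ℝ) : ℂ) := by
  have h1 := hj x γ
  rw [jD, ev_mul, ev_smul, hD] at h1
  push_cast
  rw [h1]
  push_cast
  have h2 : (θ : ℂ) ≠ 0 := ofReal_ne_zero.2 hθ.ne'
  have h3 : (w : ℂ) ≠ 0 := ofReal_ne_zero.2 hw.ne'
  field_simp

/-- lower bound of `θ`. -/
theorem theta_low (hTl : TlP) (m n : ℕ) (hm : 1 ≤ m) {Λ r₀ : ℝ} (hΛ : 0 < Λ) (hr₀ : 0 < r₀) :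
    ∃ c e₀ : ℝ, 0 < c ∧ 0 < e₀ ∧ ∀ (k : ℕ) (W : Measure (Euc k × L k)) (π : Euc k →L[ℝ] Euc m)
      (u : Euc m → Euc n) (r θ E : ℝ), r₀ ≤ r → r ≤ 2 → W Set.univ < ⊤ →
      ENNReal.ofReal Λ⁻¹ ≤ W ((fun p => π p.1) ⁻¹' Metric.ball 0 (r / 16)) →
      ContDiff ℝ 3 u → (∀ x, ‖fderiv ℝ u x‖ ≤ 1) → E ≤ e₀ →
      (∀ ζ : Euc m → ℝ, ContDiff ℝ 1 ζ → (∀ x, r ≤ ‖x‖ → ζ x = 0) → (∀ x, |ζ x| ≤ 1) →
        (∀ x, ‖fderiv ℝ ζ x‖ ≤ 1) →
        |∫ p, ζ (π p.1) ∂W - θ * ∫ x, ζ x * dns (fderiv ℝ u x)| ≤ E) → c ≤ θ := by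
  obtain ⟨Dn, hDn1, hDn⟩ := Th_186.exists_dns m n
  obtain ⟨c, e₀, hc, he₀, h⟩ := hTl m hm Λ r₀ hΛ hr₀
  have hDn0 : 0 < Dn := by linarith
  refine ⟨c * (2 / Dn), e₀, by positivity, he₀, fun k W π u r θ E hr hr2 hW hmass hu hu1 hE ht => ?_⟩
  have hcont : Continuous fun x => dns (fderiv ℝ u x) :=
    Ell1_3.dns_contDiff.continuous.comp (hu.continuous_fderiv (by norm_num))
  have key := h k W π (fun x => 2 / Dn * dns (fderiv ℝ u x)) r (θ * (Dn / 2)) E hr hr2 hW hmass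
    (continuous_const.mul hcont)
    (fun x => mul_nonneg (by positivity) (Ell1_3.dns_pos _).le)
    (fun x => by
      have h1 := (hDn _ (hu1 x)).2
      calc 2 / Dn * dns (fderiv ℝ u x) ≤ 2 / Dn * Dn := by gcongr
        _ = 2 := by field_simp)
    hE fun ζ hζ hz h1 h2 => by
      have h3 : ∫ x, ζ x * (2 / Dn * dns (fderiv ℝ u x))
          = 2 / Dn * ∫ x, ζ x * dns (fderiv ℝ u x) := by
        rw [← integral_const_mul]
        refine integral_congr_ae (Eventually.of_forall fun x => ?_)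
        simp only []
        ring
      have h4 : θ * (Dn / 2) * (2 / Dn * ∫ x, ζ x * dns (fderiv ℝ u x))
          = θ * ∫ x, ζ x * dns (fderiv ℝ u x) := by
        field_simp
      rw [h3, h4]
      exact ht ζ hζ hz h1 h2
  have h5 : θ = θ * (Dn / 2) * (2 / Dn) := by field_simp
  rw [h5]
  gcongr

end Crest.Agent.R234.Sel11_570
end
end

-- ▼ part R234/Sel17_570
section

/-!
Row 234, VF-SEL (helper570), file 17: the Jacobi field selected by the heights (`FldP`).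
-/

set_option autoImplicit false
set_option linter.unusedSectionVars false
set_option linter.unusedVariables false

open MeasureTheory Complex Filter
open scoped ContDiff Topology InnerProductSpace ENNReal NNReal SchwartzMap

noncomputable section

namespace Crest.Agent.R234.Sel11_570

open Crest.GeometryTopology.Submanifold Crest.Agent.R234.Vf_884
open Crest.Agent.R234.Ell1_3 (gop ginv dns)
open Crest.Agent.R234.Mx5_397 (msop)
open Crest.Agent.R234.Mx9_397 (lop)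
open Crest.Agent.R234.Main_456 (Frame Msys)
open Crest.Agent.R086.Wie Crest.Agent.R234.Mx1_397 Crest.Agent.R234.Mx2_397
  Crest.Agent.R234.Mx3_397 Crest.Agent.R234.Mx4_397 Crest.Agent.R234.Mx6_397
  Crest.Agent.R234.Sel5_570 Crest.Agent.R234.Sel6_570
open Crest.Agent.R234.MG_570

variable {m n k : ℕ}

/-- **the Jacobi field selected by the heights**. -/
theorem fldP_of (hWJ : WJP) (hDns : DnsP) (hJac : JacP) (hTl : TlP) : FldP := by
  intro m n hm
  obtain ⟨κJ, CJ, hκJ, hCJ, pJ, hJ⟩ := step_J hWJ m n hm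
  obtain ⟨ND, hND⟩ := hDns m n
  refine ⟨max ND (m + 4), fun N hN => ?_⟩
  obtain ⟨κD, CD, hκD, hCD, pD, hD⟩ := hND N (le_trans (le_max_left _ _) hN)
  have hNm : m + 4 ≤ N := le_trans (le_max_right _ _) hN
  obtain ⟨κR, hκR, CR, hCR, pR, hR⟩ := Jr_186.jRegP m n N
  obtain ⟨Cb, hCb, hb⟩ := mg_bd m n N (by omega)
  have hκ0 : 0 < min (min κJ κD) (min κR (1 / Cb)) := by positivity
  refine ⟨min (min κJ κD) (min κR (1 / Cb)), hκ0, pJ + pD + pR + 2, fun Λ r₀ hΛ hr₀ => ?_⟩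
  obtain ⟨CT, hCT, hT⟩ := Th_186.thP m n hm r₀ hr₀
  obtain ⟨cθ, e₀, hcθ, he₀, hθl⟩ := theta_low hTl m n hm hΛ hr₀
  obtain ⟨A₁, hA₁0, hA₁⟩ : ∃ A₁ : ℝ, 0 < A₁ ∧ A₁ = CJ * (1 + Λ) := ⟨_, by positivity, rfl⟩
  obtain ⟨A₂, hA₂0, hA₂⟩ : ∃ A₂ : ℝ, 0 < A₂ ∧ A₂ = CR * (cθ⁻¹ * A₁ * CD) :=
    ⟨_, by positivity, rfl⟩
  refine ⟨1 + CT * A₁ / e₀ + A₂ + A₁ + CT * A₁, ?_, ?_⟩
  · have : 0 ≤ CT * A₁ / e₀ + A₂ + A₁ + CT * A₁ := by positivity
    linarith
  intro k W π ρ κ h d r u hκ hd hd8 hdr hr₀r hr1 hh0 hcyl hWΛ hmass hMG hh hsmall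
  obtain ⟨C, hC⟩ : ∃ C : ℝ, C = 1 + CT * A₁ / e₀ + A₂ + A₁ + CT * A₁ := ⟨_, rfl⟩
  rw [← hC] at hsmall ⊢
  have hC1 : 1 ≤ C := by
    have : 0 ≤ CT * A₁ / e₀ + A₂ + A₁ + CT * A₁ := by positivity
    linarith
  have hCe : CT * A₁ / e₀ ≤ C := by
    have : 0 ≤ 1 + A₂ + A₁ + CT * A₁ := by positivity
    linarith
  have hCA₂ : A₂ ≤ C := by
    have : 0 ≤ 1 + CT * A₁ / e₀ + A₁ + CT * A₁ := by positivity
    linarith
  have hCA₁ : A₁ ≤ C := by
    have : 0 ≤ 1 + CT * A₁ / e₀ + A₂ + CT * A₁ := by positivity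
    linarith
  have hCT₁ : CT * A₁ ≤ C := by
    have : 0 ≤ 1 + CT * A₁ / e₀ + A₂ + A₁ := by positivity
    linarith
  clear hC
  have hd1 : d ≤ 1 := by linarith
  have hr : 0 < r := by linarith
  have hdP1 : d ^ (pJ + pD + pR + 2) ≤ 1 := pow_le_one₀ hd.le hd1
  have hdP2 : d ^ (pJ + pD + pR + 2) ≤ d ^ 2 := pow_le_pow_of_le_one hd.le hd1 (by omega)
  have hh1 : h ≤ 1 := by nlinarith
  obtain ⟨a, har, han, harep, hams⟩ := id hMG
  have hκJ' : κ ≤ κJ := hκ.trans ((min_le_left _ _).trans (min_le_left _ _))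
  have hκD' : κ ≤ κD := hκ.trans ((min_le_left _ _).trans (min_le_right _ _))
  have hκR' : κ ≤ κR := hκ.trans ((min_le_right _ _).trans (min_le_left _ _))
  have hκb : Cb * κ ≤ 1 := by
    have h2 : κ ≤ 1 / Cb := hκ.trans ((min_le_right _ _).trans (min_le_right _ _))
    rwa [le_div_iff₀ hCb, mul_comm] at h2
  obtain ⟨hu3, hub0, hub1, hub2⟩ := hb κ _ u hMG
  have hms : ∀ x ∈ Metric.ball (0 : Euc m) (r + 8 * d), msop u x = 0 := fun x hx => by
    rw [← Mx16_397.Msys_eq]; exact hams x hx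
  have hlow : 2 + m + 1 + 3 ≤ N + 2 := by omega
  obtain ⟨c, J, hJS⟩ := hJ k W π ρ h Λ d r u (low hlow a) hd hd8 hr hr1 hh0.le hh1 hΛ.le hcyl hWΛ
    (low_real _ har) ((low_norm _ a).trans (han.trans hκJ')) (low_rep _ harep) hu3 hms hh
  -- the constant
  obtain ⟨θ, hθ⟩ := hT k W π ρ u (r + 7 * d) (r + 8 * d) (CJ * (1 + Λ) * h / d ^ 2)
    (by linarith) (by linarith) (by linarith) hcyl (hu3.of_le (by norm_num))
    (fun x => (hub1 x).trans hκb) (fun x => (hub2 x).trans hκb) hJS.tilt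
  have hE : CT * (CJ * (1 + Λ) * h / d ^ 2) ≤ e₀ := by
    rw [← hA₁]
    have h3 : CT * A₁ / e₀ * h ≤ d ^ 2 := (mul_le_mul_of_nonneg_right hCe hh0.le).trans
      (hsmall.trans hdP2)
    rw [div_mul_eq_mul_div, div_le_iff₀ he₀] at h3
    rw [mul_div_assoc', div_le_iff₀ (by positivity)]
    linarith
  have hθ' : ∀ ζ : Euc m → ℝ, ContDiff ℝ 1 ζ → (∀ x, r ≤ ‖x‖ → ζ x = 0) → (∀ x, |ζ x| ≤ 1) →
      (∀ x, ‖fderiv ℝ ζ x‖ ≤ 1) →
      |∫ p, ζ (π p.1) ∂W - θ * ∫ x, ζ x * dns (fderiv ℝ u x)| ≤ CT * (CJ * (1 + Λ) * h / d ^ 2) :=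
    fun ζ h1 h2 h3 h4 => hθ ζ h1 (fun x hx => h2 x (by linarith)) h3 h4
  have hθc : cθ ≤ θ := hθl k W π u r θ _ hr₀r (by linarith) hcyl.fin hmass hu3
    (fun x => (hub1 x).trans hκb) hE hθ'
  have hθ0 : 0 < θ := hcθ.trans_le hθc
  -- the inverse density
  obtain ⟨D, hDs, hDn, hDv⟩ := hD κ (r + 8 * d) d u hκD' hd hd1 (by linarith) (by linarith) hMG
  have e87 : r + 8 * d - d = r + 7 * d := by ring
  rw [e87] at hDv
  -- the field
  set j : Euc m → Euc n := Mx5_397.syn (EuclideanSpace.basisFun (Fin n) ℝ) (jD θ J D) with hj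
  have hjrep : Rep (jD θ J D) j := Jr_186.rep_syn (jD_real hJS.real hDs)
  have hlop : ∀ x ∈ Metric.ball (0 : Euc m) (r + 6 * d), lop u j x = 0 :=
    hJac m n (2 + m + 1) (low hlow a) u c (fun γ => ((θ⁻¹ : ℝ) : ℂ) • J γ) D j (r + 6 * d)
      (low_real _ har) (low_rep _ harep) (smul_real hJS.real) hDs (by linarith)
      (fun x hx => hms x (Metric.ball_subset_ball (by linarith) hx)) hJS.lt
      (fun x hx => hDv x (Metric.ball_subset_ball (by linarith) hx))
      (fun φ hφ => ann_smul (hJS.ann φ hφ)) hjrep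
  have e56 : r + 6 * d = r + 5 * d + d := by ring
  rw [e56] at hlop
  obtain ⟨b, v, hbr, hbrep, hbn, hvj⟩ := hR (r + 5 * d) d u j a (jD θ J D) (by linarith) hd hd1
    (by linarith) har (han.trans hκR') harep (jD_real hJS.real hDs) hjrep hlop
  refine ⟨b, v, J, θ, hbr, hbrep, ?_, ?_, ?_, ?_, ?_⟩
  · -- norm
    have h4 : ‖jD θ J D‖ ≤ cθ⁻¹ * (A₁ * h / d ^ pJ) * (CD / d ^ pD) := by
      refine (norm_jD_le hθ0 J D).trans ?_
      have h5 := hJS.norm
      rw [← hA₁] at h5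
      have h6 : θ⁻¹ ≤ cθ⁻¹ := inv_anti₀ hcθ hθc
      have h7 : 0 ≤ A₁ * h / d ^ pJ := by positivity
      gcongr
    calc ‖b‖ ≤ CR * ‖jD θ J D‖ / d ^ pR := hbn
      _ ≤ CR * (cθ⁻¹ * (A₁ * h / d ^ pJ) * (CD / d ^ pD)) / d ^ pR := by gcongr
      _ = A₂ * h / d ^ (pJ + pD + pR) := by
          rw [hA₂, pow_add, pow_add]
          field_simp
      _ ≤ C * h / d ^ (pJ + pD + pR + 2) :=
          div_pow_le hd hd1 (by positivity) (by gcongr) (by omega)
  · -- Jacobi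
    intro x hx
    have hx5 : x ∈ Metric.ball (0 : Euc m) (r + 5 * d) :=
      Metric.ball_subset_ball (by linarith) hx
    have h8 : v =ᶠ[𝓝 x] j := by
      filter_upwards [Metric.isOpen_ball.mem_nhds hx5] with y hy
      exact hvj y hy
    rw [Mx9_397.lop_congr (EventuallyEq.refl _ _) h8]
    exact hlop x (Metric.ball_subset_ball (by linarith) hx)
  · -- approximation
    intro ζ hζ hζz
    refine (hJS.app ζ hζ fun γ x hx => hζz γ x (by linarith)).trans ?_
    refine mul_le_mul_of_nonneg_right ?_ (norm_nonneg _)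
    rw [← hA₁]
    exact div_pow_le hd hd1 (by positivity) (by gcongr) (by omega)
  · -- values
    intro x hx γ
    have h9 := jD_val hθ0 hjrep (Ell1_3.dns_pos (fderiv ℝ u x))
      (hDv x (Metric.ball_subset_ball (by linarith) hx)) γ
    rw [h9, hvj x (Metric.ball_subset_ball (by linarith) hx)]
  · -- area
    intro ζ h1 h2 h3 h4
    refine (hθ' ζ h1 h2 h3 h4).trans ?_
    rw [← hA₁, mul_div_assoc', ← mul_assoc]
    exact div_pow_le hd hd1 (by positivity) (by gcongr) (by omega)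

end Crest.Agent.R234.Sel11_570
end
end

-- ▼ part R234/Sel18_570
section

/-!
Row 234, VF-SEL (helper570), file 18: the mean of the new heights.
-/

set_option autoImplicit false
set_option linter.unusedSectionVars false
set_option linter.unusedVariables false

open MeasureTheory Complex Filter
open scoped ContDiff Topology InnerProductSpace ENNReal NNReal SchwartzMap

noncomputable section

namespace Crest.Agent.R234.Sel11_570

open Crest.GeometryTopology.Submanifold Crest.Agent.R234.Vf_884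
open Crest.Agent.R234.Ell1_3 (gop ginv dns)
open Crest.Agent.R234.Mx5_397 (msop)
open Crest.Agent.R234.Mx9_397 (lop)
open Crest.Agent.R234.Main_456 (Frame Msys)
open Crest.Agent.R086.Wie Crest.Agent.R234.Mx1_397 Crest.Agent.R234.Mx2_397
  Crest.Agent.R234.Mx3_397 Crest.Agent.R234.Mx4_397 Crest.Agent.R234.Mx6_397
  Crest.Agent.R234.Sel5_570 Crest.Agent.R234.Sel6_570
open Crest.Agent.R234.MG_570

variable {m n k : ℕ}

theorem norm_le_sum (y : Euc n) : ‖y‖ ≤ ∑ α, |y α| := by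
  have h2 : y = ∑ γ, y γ • EuclideanSpace.single γ (1 : ℝ) := by
    have := (EuclideanSpace.basisFun (Fin n) ℝ).sum_repr y
    simpa using this.symm
  conv_lhs => rw [h2]
  refine (norm_sum_le _ _).trans (le_of_eq (Finset.sum_congr rfl fun α _ => ?_))
  rw [norm_smul, PiLp.norm_single, norm_one, mul_one, Real.norm_eq_abs]

variable {N P : ℕ} {C d h r : ℝ} {W : Measure (Euc k × L k)} {π : Euc k →L[ℝ] Euc m}
  {ρ : Euc k →L[ℝ] Euc n} {u : Euc m → Euc n} {b : XV m n (N + 2)} {v : Euc m → Euc n}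
  {J : XV m n 2} {θ : ℝ}

/-- scaled area formula. -/
theorem Fld.area' (H : Fld N P C d h r W π ρ u b v J θ) {g : Euc m → ℝ} {M : ℝ} (hM : 0 < M)
    (hg : ContDiff ℝ 1 g) (hz : ∀ x, r ≤ ‖x‖ → g x = 0) (h0 : ∀ x, |g x| ≤ M)
    (h1 : ∀ x, ‖fderiv ℝ g x‖ ≤ M) :
    |∫ p, g (π p.1) ∂W - θ * ∫ x, g x * dns (fderiv ℝ u x)| ≤ M * (C * h / d ^ P) := by
  have key := H.area (fun x => M⁻¹ * g x) (contDiff_const.mul hg)
    (fun x hx => by simp only [hz x hx, mul_zero])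
    (fun x => by
      rw [abs_mul, abs_of_pos (inv_pos.2 hM), inv_mul_le_iff₀ hM, mul_one]; exact h0 x)
    (fun x => by
      have h2 : fderiv ℝ (fun x => M⁻¹ * g x) x = M⁻¹ • fderiv ℝ g x := by
        rw [fderiv_const_mul (hg.differentiable one_ne_zero x)]
      rw [h2, norm_smul, norm_inv, Real.norm_of_nonneg hM.le, inv_mul_le_iff₀ hM, mul_one]
      exact h1 x)
  have e1 : ∫ p, M⁻¹ * g (π p.1) ∂W = M⁻¹ * ∫ p, g (π p.1) ∂W := integral_const_mul _ _
  have e2 : ∫ x, M⁻¹ * g x * dns (fderiv ℝ u x) = M⁻¹ * ∫ x, g x * dns (fderiv ℝ u x) := by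
    rw [← integral_const_mul]
    refine integral_congr_ae (Eventually.of_forall fun x => ?_)
    simp only []
    ring
  rw [e1, e2] at key
  have e3 : ∫ p, g (π p.1) ∂W - θ * ∫ x, g x * dns (fderiv ℝ u x)
      = M * (M⁻¹ * ∫ p, g (π p.1) ∂W - θ * (M⁻¹ * ∫ x, g x * dns (fderiv ℝ u x))) := by
    field_simp
  rw [e3, abs_mul, abs_of_pos hM]
  gcongr

/-- the functional against one component. -/
theorem Fld.mean (H : Fld N P C d h r W π ρ u b v J θ) (hC : 0 ≤ C) (hd : 0 < d)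
    {ζ : Euc m → ℝ} (hζ : ContDiff ℝ ∞ ζ)
    (hc : HasCompactSupport ζ) (hz : ∀ x, r ≤ ‖x‖ → ζ x = 0) (α : Fin n) :
    |∫ p, ζ (π p.1) * hf π ρ u p α ∂W - θ * ∫ x, (ζ x * v x α) * dns (fderiv ℝ u x)|
      ≤ C * h ^ 2 / d ^ P * ‖toX (F := Euc m) 0 (toS ζ hc hζ)‖ := by
  set a : X (Euc m) 0 := toX 0 (toS ζ hc hζ) with ha
  have hev : ∀ x, ev a x = ((ζ x : ℝ) : ℂ) := fun x => by rw [ha, ev_toX, toS_apply]
  have hst : star a = a := star_toX_toS _ _ _ _
  have hsingle : ‖(Pi.single α a : Fin n → X (Euc m) 0)‖ ≤ ‖a‖ :=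
    (pi_norm_le_iff_of_nonneg (norm_nonneg _)).2 fun γ => by
      by_cases hγ : γ = α
      · subst hγ; rw [Pi.single_eq_same]
      · rw [Pi.single_eq_of_ne hγ, norm_zero]; exact norm_nonneg _
  have key := H.app (Pi.single α a) (fun γ => by
      by_cases hγ : γ = α
      · subst hγ; rw [Pi.single_eq_same, hst]
      · rw [Pi.single_eq_of_ne hγ, star_zero]) fun γ x hx => by
      by_cases hγ : γ = α
      · subst hγ; rw [Pi.single_eq_same, hev, hz x hx, ofReal_zero]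
      · rw [Pi.single_eq_of_ne hγ, ev_zero]
  have e1 : ∫ p, bI π ρ u (Pi.single α a) p ∂W
      = ((∫ p, ζ (π p.1) * hf π ρ u p α ∂W : ℝ) : ℂ) := by
    rw [beta_real (g := fun γ x => if γ = α then ζ x else 0) fun γ x => by
      by_cases hγ : γ = α
      · subst hγ; rw [Pi.single_eq_same, hev, if_pos rfl]
      · rw [Pi.single_eq_of_ne hγ, ev_zero, if_neg hγ, ofReal_zero]]
    congr 1
    refine integral_congr_ae (Eventually.of_forall fun p => ?_)
    simp only [ite_mul, zero_mul, Finset.sum_ite_eq', Finset.mem_univ, if_true]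
  have e2 : ∑ γ, ∫ x, ev (J γ) x * ev ((Pi.single α a : Fin n → X (Euc m) 0) γ) x
      = ((θ * ∫ x, (ζ x * v x α) * dns (fderiv ℝ u x) : ℝ) : ℂ) := by
    rw [Finset.sum_eq_single α]
    · rw [Pi.single_eq_same]
      push_cast
      have e3 : ((∫ x, (ζ x * v x α) * dns (fderiv ℝ u x) : ℝ) : ℂ)
          = ∫ x, (((ζ x * v x α) * dns (fderiv ℝ u x) : ℝ) : ℂ) := integral_ofReal.symm
      rw [e3, ← integral_const_mul]
      refine integral_congr_ae (Eventually.of_forall fun x => ?_)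
      simp only []
      rw [hev]
      by_cases hx : ‖x‖ < r
      · rw [H.val x (by simpa using hx) α]
        push_cast
        ring
      · rw [hz x (not_lt.1 hx)]
        simp
    · intro γ _ hγ
      rw [Pi.single_eq_of_ne hγ]
      simp [ev_zero]
    · intro h0
      exact absurd (Finset.mem_univ α) h0
  rw [e1, e2, ← ofReal_sub, norm_real, Real.norm_eq_abs] at key
  refine key.trans ?_
  gcongr

end Crest.Agent.R234.Sel11_570
end
end

-- ▼ part R234/Sel19_570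
section

/-!
Row 234, VF-SEL (helper570), file 19: the mean of the new heights, all components.
-/

set_option autoImplicit false
set_option linter.unusedSectionVars false
set_option linter.unusedVariables false

open MeasureTheory Complex Filter
open scoped ContDiff Topology InnerProductSpace ENNReal NNReal SchwartzMap

noncomputable section

namespace Crest.Agent.R234.Sel11_570

open Crest.GeometryTopology.Submanifold Crest.Agent.R234.Vf_884
open Crest.Agent.R234.Ell1_3 (gop ginv dns)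
open Crest.Agent.R234.Mx5_397 (msop)
open Crest.Agent.R234.Mx9_397 (lop)
open Crest.Agent.R234.Main_456 (Frame Msys)
open Crest.Agent.R086.Wie Crest.Agent.R234.Mx1_397 Crest.Agent.R234.Mx2_397
  Crest.Agent.R234.Mx3_397 Crest.Agent.R234.Mx4_397 Crest.Agent.R234.Mx6_397
  Crest.Agent.R234.Sel5_570 Crest.Agent.R234.Sel6_570
open Crest.Agent.R234.MG_570

variable {m n k N P : ℕ} {C d h r : ℝ} {W : Measure (Euc k × L k)} {π : Euc k →L[ℝ] Euc m}
  {ρ : Euc k →L[ℝ] Euc n} {u : Euc m → Euc n} {b : XV m n (N + 2)} {v : Euc m → Euc n}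
  {J : XV m n 2} {θ : ℝ}

theorem integrable_base [IsFiniteMeasure W] {g : Euc m → ℝ} (hg : Continuous g) {B : ℝ}
    (hB : ∀ x, |g x| ≤ B) : Integrable (fun p => g (π p.1)) W :=
  Integrable.of_bound (hg.comp (π.continuous.comp continuous_fst)).aestronglyMeasurable B
    (Eventually.of_forall fun p => by rw [Real.norm_eq_abs]; exact hB _)

theorem continuous_coord {f : Euc m → Euc n} (hf : Continuous f) (α : Fin n) :
    Continuous fun x => f x α :=
  (EuclideanSpace.proj (𝕜 := ℝ) α : Euc n →L[ℝ] ℝ).continuous.comp hf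

theorem integrable_hgt [IsFiniteMeasure W] (hu : Continuous u)
    (hh : ∀ᵐ q ∂W, ‖hf π ρ u q‖ ≤ h) {g : Euc m → ℝ} (hg : Continuous g)
    (hB : ∀ x, |g x| ≤ 1) (α : Fin n) : Integrable (fun p => g (π p.1) * hf π ρ u p α) W := by
  refine Integrable.of_bound (((hg.comp (π.continuous.comp continuous_fst))).mul
    ((EuclideanSpace.proj (𝕜 := ℝ) α : Euc n →L[ℝ] ℝ).continuous.comp
      (continuous_hf hu))).aestronglyMeasurable h (hh.mono fun p hp => ?_)
  rw [norm_mul, Real.norm_eq_abs]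
  calc |g (π p.1)| * ‖_‖ ≤ 1 * h := by
        refine mul_le_mul (hB _) ?_ (norm_nonneg _) zero_le_one
        rw [Real.norm_eq_abs]
        exact (abs_apply_le _ α).trans hp
    _ = h := one_mul h

/-- **the mean of the new heights**. -/
theorem Fld.total (H : Fld N P C d h r W π ρ u b v J θ) (hC : 0 ≤ C) (hd : 0 < d) {Λ : ℝ}
    (hΛ : 0 ≤ Λ) (hW : W Set.univ ≤ ENNReal.ofReal Λ) (hu : Continuous u)
    (hh : ∀ᵐ q ∂W, ‖hf π ρ u q‖ ≤ h) {w : Euc m → Euc n} {V Wb : ℝ} (hV : 0 < V)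
    (hv : ContDiff ℝ 1 v) (hv0 : ∀ x, ‖v x‖ ≤ V) (hv1 : ∀ x, ‖fderiv ℝ v x‖ ≤ V)
    (hw : Continuous w) (hw0 : ∀ x, ‖w x‖ ≤ Wb)
    {ζ : Euc m → ℝ} (hζ : ContDiff ℝ ∞ ζ)
    (hc : HasCompactSupport ζ) (hz : ∀ x, r ≤ ‖x‖ → ζ x = 0) (hζ0 : ∀ x, |ζ x| ≤ 1)
    (hζ1 : ∀ x, ‖fderiv ℝ ζ x‖ ≤ 1) :
    ‖bar W π ρ (fun x => u x + v x + w x) ζ‖
      ≤ n * (C * h ^ 2 / d ^ P * ‖toX (F := Euc m) 0 (toS ζ hc hζ)‖
        + 2 * V * (C * h / d ^ P) + Λ * Wb) := by
  have hfin : IsFiniteMeasure W := ⟨hW.trans_lt ENNReal.ofReal_lt_top⟩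
  have hreal : W.real Set.univ ≤ Λ := by
    unfold Measure.real
    exact ENNReal.toReal_le_of_le_ofReal hΛ hW
  have hWb : 0 ≤ Wb := (norm_nonneg _).trans (hw0 0)
  have cζ : Continuous ζ := hζ.continuous
  have cv : Continuous v := hv.continuous
  have i1 : ∀ α, Integrable (fun p => ζ (π p.1) * hf π ρ u p α) W := fun α =>
    integrable_hgt hu hh cζ hζ0 α
  have i2 : ∀ α, Integrable (fun p => ζ (π p.1) * v (π p.1) α) W := fun α =>
    integrable_base (g := fun x => ζ x * v x α) (cζ.mul (continuous_coord cv α)) (B := V)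
      fun x => by
        rw [abs_mul]
        calc |ζ x| * |v x α| ≤ 1 * V := mul_le_mul (hζ0 x) ((abs_apply_le _ α).trans (hv0 x))
              (abs_nonneg _) zero_le_one
          _ = V := one_mul V
  have i3 : ∀ α, Integrable (fun p => ζ (π p.1) * w (π p.1) α) W := fun α =>
    integrable_base (g := fun x => ζ x * w x α) (cζ.mul (continuous_coord hw α)) (B := Wb)
      fun x => by
        rw [abs_mul]
        calc |ζ x| * |w x α| ≤ 1 * Wb := mul_le_mul (hζ0 x) ((abs_apply_le _ α).trans (hw0 x))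
              (abs_nonneg _) zero_le_one
          _ = Wb := one_mul Wb
  have hint : Integrable (fun p => ζ (π p.1) • (ρ p.1 - (u (π p.1) + v (π p.1) + w (π p.1)))) W := by
    refine Integrable.of_bound ((cζ.comp (π.continuous.comp continuous_fst)).smul
      ((ρ.continuous.comp continuous_fst).sub (((hu.comp (π.continuous.comp continuous_fst)).add
        (cv.comp (π.continuous.comp continuous_fst))).add
        (hw.comp (π.continuous.comp continuous_fst))))).aestronglyMeasurable (h + V + Wb)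
      (hh.mono fun p hp => ?_)
    rw [norm_smul, Real.norm_eq_abs]
    have e1 : ρ p.1 - (u (π p.1) + v (π p.1) + w (π p.1))
        = hf π ρ u p - v (π p.1) - w (π p.1) := by unfold hf; abel
    rw [e1]
    have e2 : ‖hf π ρ u p - v (π p.1) - w (π p.1)‖ ≤ h + V + Wb :=
      (norm_sub_le _ _).trans (add_le_add ((norm_sub_le _ _).trans (add_le_add hp (hv0 _))) (hw0 _))
    calc _ ≤ 1 * (h + V + Wb) := mul_le_mul (hζ0 _) e2 (norm_nonneg _) zero_le_one
      _ = _ := one_mul _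
  have hcomp : ∀ α, bar W π ρ (fun x => u x + v x + w x) ζ α
      = ∫ p, ζ (π p.1) * hf π ρ u p α ∂W - ∫ p, ζ (π p.1) * v (π p.1) α ∂W
        - ∫ p, ζ (π p.1) * w (π p.1) α ∂W := fun α => by
    have e3 : bar W π ρ (fun x => u x + v x + w x) ζ α
        = (EuclideanSpace.proj (𝕜 := ℝ) α : Euc n →L[ℝ] ℝ)
          (∫ p, ζ (π p.1) • (ρ p.1 - (u (π p.1) + v (π p.1) + w (π p.1))) ∂W) := rfl
    have i12 : Integrable (fun p => ζ (π p.1) * hf π ρ u p α - ζ (π p.1) * v (π p.1) α) W :=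
      (i1 α).sub (i2 α)
    rw [e3, ← ContinuousLinearMap.integral_comp_comm _ hint, ← integral_sub (i1 α) (i2 α),
      ← integral_sub i12 (i3 α)]
    refine integral_congr_ae (Eventually.of_forall fun p => ?_)
    show (ζ (π p.1) • (ρ p.1 - (u (π p.1) + v (π p.1) + w (π p.1)))) α
      = ζ (π p.1) * hf π ρ u p α - ζ (π p.1) * v (π p.1) α - ζ (π p.1) * w (π p.1) α
    have e1 : ρ p.1 - (u (π p.1) + v (π p.1) + w (π p.1))
        = hf π ρ u p - v (π p.1) - w (π p.1) := by unfold hf; abel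
    rw [e1]
    simp only [PiLp.smul_apply, PiLp.sub_apply, smul_eq_mul]
    ring
  refine (norm_le_sum _).trans ?_
  calc ∑ α, |bar W π ρ (fun x => u x + v x + w x) ζ α|
      ≤ ∑ _α : Fin n, (C * h ^ 2 / d ^ P * ‖toX (F := Euc m) 0 (toS ζ hc hζ)‖
        + 2 * V * (C * h / d ^ P) + Λ * Wb) := by
        refine Finset.sum_le_sum fun α _ => ?_
        rw [hcomp]
        have k1 := H.mean hC hd hζ hc hz α
        have hcd : ContDiff ℝ 1 fun x => ζ x * v x α :=
          (hζ.of_le (by exact_mod_cast le_top)).mul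
            ((EuclideanSpace.proj (𝕜 := ℝ) α : Euc n →L[ℝ] ℝ).contDiff.comp hv)
        have k2 := H.area' (g := fun x => ζ x * v x α) (M := 2 * V) (by linarith) hcd
          (fun x hx => by simp only [hz x hx, zero_mul])
          (fun x => by
            rw [abs_mul]
            calc |ζ x| * |v x α| ≤ 1 * V := mul_le_mul (hζ0 x) ((abs_apply_le _ α).trans (hv0 x))
                  (abs_nonneg _) zero_le_one
              _ ≤ 2 * V := by linarith)
          (fun x => by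
            have d1 : HasFDerivAt ζ (fderiv ℝ ζ x) x :=
              (hζ.differentiable (by simp) x).hasFDerivAt
            have d2 : HasFDerivAt (fun x => v x α)
                ((EuclideanSpace.proj (𝕜 := ℝ) α : Euc n →L[ℝ] ℝ) ∘L fderiv ℝ v x) x :=
              (EuclideanSpace.proj (𝕜 := ℝ) α : Euc n →L[ℝ] ℝ).hasFDerivAt.comp x
                (hv.differentiable one_ne_zero x).hasFDerivAt
            have d3 : HasFDerivAt (fun x => ζ x * v x α) _ x := d1.mul d2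
            rw [d3.fderiv]
            refine (norm_add_le _ _).trans ?_
            rw [norm_smul, norm_smul, Real.norm_eq_abs, Real.norm_eq_abs]
            have d4 : ‖(EuclideanSpace.proj (𝕜 := ℝ) α : Euc n →L[ℝ] ℝ) ∘L fderiv ℝ v x‖ ≤ V := by
              refine ContinuousLinearMap.opNorm_le_bound _ hV.le fun y => ?_
              refine le_trans (b := ‖fderiv ℝ v x y‖) ?_ ?_
              · exact PiLp.norm_apply_le (fderiv ℝ v x y) α
              · exact (ContinuousLinearMap.le_opNorm _ _).trans (by gcongr; exact hv1 x)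
            calc |ζ x| * _ + |v x α| * ‖fderiv ℝ ζ x‖ ≤ 1 * V + V * 1 :=
                  add_le_add (mul_le_mul (hζ0 x) d4 (norm_nonneg _) zero_le_one)
                    (mul_le_mul ((abs_apply_le _ α).trans (hv0 x)) (hζ1 x) (norm_nonneg _) hV.le)
              _ = 2 * V := by ring)
        have k3 : |∫ p, ζ (π p.1) * w (π p.1) α ∂W| ≤ Λ * Wb := by
          rw [← Real.norm_eq_abs]
          calc _ ≤ Wb * W.real Set.univ := by
                refine norm_integral_le_of_norm_le_const (Eventually.of_forall fun p => ?_)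
                rw [norm_mul, Real.norm_eq_abs, Real.norm_eq_abs]
                calc |ζ (π p.1)| * |w (π p.1) α| ≤ 1 * Wb :=
                      mul_le_mul (hζ0 _) ((abs_apply_le _ α).trans (hw0 _)) (abs_nonneg _)
                        zero_le_one
                  _ = Wb := one_mul _
            _ ≤ Wb * Λ := by gcongr
            _ = Λ * Wb := mul_comm _ _
        have e4 : ∫ p, ζ (π p.1) * hf π ρ u p α ∂W - ∫ p, ζ (π p.1) * v (π p.1) α ∂W
            - ∫ p, ζ (π p.1) * w (π p.1) α ∂W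
            = (∫ p, ζ (π p.1) * hf π ρ u p α ∂W
                - θ * ∫ x, (ζ x * v x α) * dns (fderiv ℝ u x))
              - (∫ p, ζ (π p.1) * v (π p.1) α ∂W
                - θ * ∫ x, (ζ x * v x α) * dns (fderiv ℝ u x))
              - ∫ p, ζ (π p.1) * w (π p.1) α ∂W := by ring
        rw [e4]
        refine (abs_sub _ _).trans (add_le_add ((abs_sub _ _).trans (add_le_add k1 ?_)) k3)
        exact k2
    _ = _ := by rw [Finset.sum_const, Finset.card_univ, Fintype.card_fin, nsmul_eq_mul]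

end Crest.Agent.R234.Sel11_570
end
end

-- ▼ part R234/Sel20_570

/-!
Row 234, VF-SEL (helper570), file 20: **SELECTION** (`SelP3`) from its last leaves.
-/

set_option autoImplicit false
set_option linter.unusedSectionVars false
set_option linter.unusedVariables false

open MeasureTheory Complex Filter
open scoped ContDiff Topology InnerProductSpace ENNReal NNReal SchwartzMap

noncomputable section

namespace Crest.Agent.R234.Sel11_570

open Crest.GeometryTopology.Submanifold Crest.Agent.R234.Vf_884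
open Crest.Agent.R234.Ell1_3 (gop ginv dns)
open Crest.Agent.R234.Mx5_397 (msop)
open Crest.Agent.R234.Mx9_397 (lop)
open Crest.Agent.R234.Main_456 (Frame Msys)
open Crest.Agent.R086.Wie Crest.Agent.R234.Mx1_397 Crest.Agent.R234.Mx2_397
  Crest.Agent.R234.Mx3_397 Crest.Agent.R234.Mx4_397 Crest.Agent.R234.Mx6_397
  Crest.Agent.R234.Sel5_570 Crest.Agent.R234.Sel6_570
open Crest.Agent.R234.MG_570

variable {m n k : ℕ}

theorem MG_zero (m n N : ℕ) : MG (m := m) (n := n) N 0 0 (fun _ => 0) := by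
  refine ⟨0, fun α => by simp, by simp, fun x α => ?_, fun z hz => ?_⟩
  · simp [ev_zero]
  · simp at hz

theorem MG_of_rep {N : ℕ} {b : XV m n (N + 2)} {v : Euc m → Euc n} (hb : IsReal b)
    (hv : Rep b v) {κ : ℝ} (h : ‖b‖ ≤ κ) : MG N κ 0 v :=
  ⟨b, hb, h, hv, fun z hz => by simp at hz⟩

/-- the final sum. -/
theorem arith {C h d CK Cv Λ CN Xn hb : ℝ} {P pN q n : ℕ} (hd : 0 < d) (hd1 : d ≤ 1) (hC : 0 ≤ C)
    (hCK : 0 ≤ CK) (hCv : 0 ≤ Cv) (hΛ : 0 ≤ Λ) (hCN : 0 ≤ CN) (hh : 0 ≤ h) (hX : Xn ≤ CK)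
    (hhb : hb = C * h / d ^ P) (hq : q = 2 * P + pN) :
    n * (C * h ^ 2 / d ^ P * Xn + 2 * (Cv * hb) * (C * h / d ^ P)
      + Λ * (n * (CN * hb ^ 2 / d ^ pN)))
      ≤ n * (C * CK + 2 * (Cv * C) * C + Λ * (n * (CN * C ^ 2))) * h ^ 2 / d ^ q := by
  have t1 : C * h ^ 2 / d ^ P * Xn ≤ C * CK * h ^ 2 / d ^ q := by
    calc C * h ^ 2 / d ^ P * Xn ≤ C * h ^ 2 / d ^ P * CK := by gcongr
      _ = C * CK * h ^ 2 / d ^ P := by ring
      _ ≤ _ := div_pow_le hd hd1 (by positivity) le_rfl (by omega)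
  have t2 : 2 * (Cv * hb) * (C * h / d ^ P) ≤ 2 * (Cv * C) * C * h ^ 2 / d ^ q := by
    calc 2 * (Cv * hb) * (C * h / d ^ P) = 2 * (Cv * C) * C * h ^ 2 / d ^ (P + P) := by
          rw [hhb, pow_add]
          field_simp
      _ ≤ _ := div_pow_le hd hd1 (by positivity) le_rfl (by omega)
  have t3 : Λ * (n * (CN * hb ^ 2 / d ^ pN)) = Λ * (n * (CN * C ^ 2)) * h ^ 2 / d ^ q := by
    rw [hhb, hq, pow_add, two_mul, pow_add]
    field_simp
  rw [t3]
  calc _ ≤ n * (C * CK * h ^ 2 / d ^ q + 2 * (Cv * C) * C * h ^ 2 / d ^ q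
        + Λ * (n * (CN * C ^ 2)) * h ^ 2 / d ^ q) := by gcongr
    _ = _ := by ring

set_option maxHeartbeats 1600000 in
theorem selP3_of (hF : FldP) (hNw : NwP) : SelP3 := by
  intro m n hm
  obtain ⟨N₀, hF⟩ := hF m n hm
  obtain ⟨K, CK, hCK, hK⟩ := exists_toX_bound (F := Euc m) 0
  refine ⟨max 1 K, max N₀ 1, fun N hN => ?_⟩
  obtain ⟨κF, hκF, P, hF⟩ := hF N (le_trans (le_max_left _ _) hN)
  have hN1 : 1 ≤ N := le_trans (le_max_right _ _) hN
  obtain ⟨κN, CN, hκN, hCN, pN, hNw⟩ := hNw m n N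
  obtain ⟨Cv, hCv, hbv⟩ := mg_bd m n N hN1
  obtain ⟨q, hq⟩ : ∃ q : ℕ, q = 2 * P + pN := ⟨_, rfl⟩
  refine ⟨min κF κN, by positivity, q, fun Λ r₀ hΛ hr₀ => ?_⟩
  obtain ⟨C, hC1, hF⟩ := hF Λ r₀ hΛ hr₀
  have hC0 : 0 < C := by linarith
  obtain ⟨T, hT⟩ : ∃ T : ℝ, T = (8 / r₀) ^ q := ⟨_, rfl⟩
  have hT0 : 0 < T := by rw [hT]; positivity
  obtain ⟨B, hB⟩ : ∃ B : ℝ, B = n * (C * CK + 2 * (Cv * C) * C + Λ * (n * (CN * C ^ 2))) :=
    ⟨_, rfl⟩
  have hB0 : 0 ≤ B := by rw [hB]; positivity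
  obtain ⟨Cf, hCf⟩ : ∃ Cf : ℝ, Cf = T * (3 * C + CN * C + B) := ⟨_, rfl⟩
  have hCf0 : 0 < Cf := by rw [hCf]; positivity
  refine ⟨Cf, hCf0, ?_⟩
  intro k W π ρ κ h ε r u hκ hε hε2 hr₀r hr1 hh0 hcyl hWΛ hmass hMG hh hsmall
  have hr : 0 < r := hr₀.trans_le hr₀r
  have hκ0 : 0 ≤ κ := by
    obtain ⟨a, _, ha, _⟩ := hMG
    exact (norm_nonneg _).trans ha
  rcases hh0.eq_or_lt with h00 | hh00
  · -- `h = 0`
    subst h00
    refine ⟨u, hMG.mono (by simp) (by nlinarith), ?_, fun ζ _ _ _ => ?_⟩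
    · have : (fun x => u x - u x) = fun _ => (0 : Euc n) := by funext x; simp
      rw [this]
      simpa using MG_zero m n N
    · have h1 : bar W π ρ u ζ = 0 := by
        unfold bar
        rw [integral_eq_zero_of_ae]
        filter_upwards [hh] with p hp
        have h2 : ρ p.1 - u (π p.1) = 0 := norm_le_zero_iff.1 hp
        simp only [Pi.zero_apply]
        rw [h2, smul_zero]
      rw [h1]
      simp
  obtain ⟨d, hd⟩ : ∃ d : ℝ, d = r * ε / 8 := ⟨_, rfl⟩
  have hd0 : 0 < d := by rw [hd]; positivity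
  have e8 : r + 8 * d = r * (1 + ε) := by rw [hd]; ring
  have hd8 : 8 * d ≤ 1 / 2 := by rw [hd]; nlinarith
  have hdr : 8 * d ≤ r := by rw [hd]; nlinarith
  have hd1 : d ≤ 1 := by linarith
  -- comparison of powers
  have hεd : ε ^ q ≤ T * d ^ q := by
    rw [hT, ← mul_pow]
    refine pow_le_pow_left₀ hε.le ?_ q
    rw [hd]
    have : ε ≤ r / r₀ * ε := by
      have : 1 ≤ r / r₀ := by rwa [le_div_iff₀ hr₀, one_mul]
      nlinarith
    calc ε ≤ r / r₀ * ε := this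
      _ = 8 / r₀ * (r * ε / 8) := by ring
  have hdq : ∀ A : ℝ, 0 ≤ A → A / d ^ q ≤ T * A / ε ^ q := fun A hA => by
    rw [div_le_div_iff₀ (by positivity) (by positivity)]
    calc A * ε ^ q ≤ A * (T * d ^ q) := by gcongr
      _ = T * A * d ^ q := by ring
  have hsm : (3 * C + CN * C + B) * h ≤ d ^ q := by
    have h1 : T * (3 * C + CN * C + B) * h ≤ T * d ^ q := by
      rw [← hCf]; exact hsmall.trans hεd
    have h2 : T * ((3 * C + CN * C + B) * h) ≤ T * d ^ q := by linarith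
    exact le_of_mul_le_mul_left h2 hT0
  have hsm1 : C * h ≤ d ^ q := by
    refine le_trans ?_ hsm
    gcongr
    have : 0 ≤ 2 * C + CN * C + B := by positivity
    linarith
  have hsm2 : CN * C * h ≤ d ^ q := by
    refine le_trans ?_ hsm
    gcongr
    have : 0 ≤ 3 * C + B := by positivity
    linarith
  have hqP : d ^ q ≤ d ^ P := pow_le_pow_of_le_one hd0.le hd1 (by omega)
  have hqPN : d ^ q ≤ d ^ (P + pN) := pow_le_pow_of_le_one hd0.le hd1 (by omega)
  obtain ⟨b, v, J, θ, H⟩ := hF k W π ρ κ h d r u (hκ.trans (min_le_left _ _)) hd0 hd8 hdr hr₀r hr1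
    hh00 (by rw [e8]; exact hcyl) hWΛ hmass (by rw [e8]; exact hMG) hh (hsm1.trans hqP)
  -- Newton step
  obtain ⟨hb, hhb⟩ : ∃ hb : ℝ, hb = C * h / d ^ P := ⟨_, rfl⟩
  have hb0 : 0 < hb := by rw [hhb]; positivity
  have hNs : CN * hb ≤ d ^ pN := by
    rw [hhb, mul_div_assoc', div_le_iff₀ (by positivity), ← pow_add, add_comm pN P]
    calc CN * (C * h) = CN * C * h := by ring
      _ ≤ _ := hsm2.trans hqPN
  obtain ⟨w, c, hcr, hcrep, hcn, hMGn⟩ := hNw κ hb r d u v b (hκ.trans (min_le_right _ _)) hr hr1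
    hd0 (by linarith) (hMG.mono le_rfl (by rw [← e8]; linarith)) H.real H.rep
    (by rw [hhb]; exact H.norm) hNs H.jac
  have hcn2 : ‖c‖ ≤ hb := by
    refine hcn.trans ?_
    rw [div_le_iff₀ (by positivity)]
    nlinarith
  have hbq : 3 * hb ≤ Cf * h / ε ^ q := by
    have h1 : 3 * hb ≤ (3 * C * h) / d ^ q := by
      rw [hhb, mul_div_assoc']
      exact div_pow_le hd0 hd1 (by positivity) (le_of_eq (by ring)) (by omega)
    refine h1.trans ((hdq _ (by positivity)).trans ?_)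
    rw [hCf]
    refine div_le_div_of_nonneg_right ?_ (by positivity)
    have h2 : 0 ≤ CN * C + B := by positivity
    nlinarith [mul_nonneg (mul_nonneg hT0.le h2) hh0]
  refine ⟨fun x => u x + v x + w x, hMGn.mono (by linarith) le_rfl, ?_, ?_⟩
  · refine MG_of_rep (b := fun α => b α + c α) (fun α => ?_) (fun x α => ?_) ?_
    · show star (b α + c α) = b α + c α
      rw [star_add, H.real α, hcr α]
    · rw [ev_add, ← H.rep x α, ← hcrep x α]
      simp only [PiLp.sub_apply, PiLp.add_apply]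
      push_cast
      ring
    · refine (show ‖b + c‖ ≤ _ from ?_)
      have h3 : ‖b‖ ≤ hb := by rw [hhb]; exact H.norm
      exact (norm_add_le _ _).trans (by linarith)
  · intro ζ hζ hts hζK
    have hz : ∀ x, r ≤ ‖x‖ → ζ x = 0 := fun x hx => by
      by_contra hne
      have h1 := hts (subset_tsupport ζ (Function.mem_support.2 hne))
      rw [Metric.mem_ball, dist_zero_right] at h1
      linarith
    have hc : HasCompactSupport ζ := HasCompactSupport.intro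
      (isCompact_closedBall (0 : Euc m) r) fun x hx => hz x (by
        have : r < ‖x‖ := by simpa using hx
        exact this.le)
    have hζ0 : ∀ x, |ζ x| ≤ 1 := fun x => by
      have := hζK 0 (by omega) x
      rwa [norm_iteratedFDeriv_zero, Real.norm_eq_abs] at this
    have hζ1 : ∀ x, ‖fderiv ℝ ζ x‖ ≤ 1 := fun x => by
      have := hζK 1 (le_max_left _ _) x
      rwa [norm_iteratedFDeriv_one] at this
    have hnX : ‖toX (F := Euc m) 0 (toS ζ hc hζ)‖ ≤ CK := by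
      have := hK (toS ζ hc hζ) 1 zero_le_one (fun x hx => by
        rw [toS_apply, hz x (by linarith), ofReal_zero]) fun j hj x =>
          (norm_iteratedFDeriv_toS _ _ _ j x).trans (hζK j (hj.trans (le_max_right _ _)) x)
      rwa [mul_one] at this
    have h3 : ‖b‖ ≤ hb := by rw [hhb]; exact H.norm
    obtain ⟨hu3, -, -, -⟩ := hbv κ _ u hMG
    obtain ⟨hv3, hv0, hv1, _⟩ := hbv hb 0 v (MG_of_rep H.real H.rep h3)
    obtain ⟨hw3, -, -, -⟩ := hbv hb 0 w (MG_of_rep hcr hcrep hcn2)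
    have hw0 : ∀ x, ‖w x‖ ≤ n * ‖c‖ := fun x => by
      refine (norm_le_sum _).trans ?_
      calc ∑ α, |w x α| ≤ ∑ _α : Fin n, ‖c‖ := Finset.sum_le_sum fun α _ => by
            have h4 : |w x α| = ‖ev (c α) x‖ := by
              rw [← hcrep x α, norm_real, Real.norm_eq_abs]
            rw [h4]
            exact (norm_ev_le _ _).trans (norm_le_pi_norm c α)
        _ = n * ‖c‖ := by rw [Finset.sum_const, Finset.card_univ, Fintype.card_fin, nsmul_eq_mul]
    have hw0' : ∀ x, ‖w x‖ ≤ n * (CN * hb ^ 2 / d ^ pN) := fun x => (hw0 x).trans (by gcongr)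
    have key := H.total hC0.le hd0 hΛ.le hWΛ hu3.continuous hh (w := w) (V := Cv * hb)
      (by positivity) (hv3.of_le (by norm_num)) hv0 hv1 hw3.continuous hw0' hζ hc hz hζ0 hζ1
    refine key.trans ((arith hd0 hd1 hC0.le hCK hCv.le hΛ.le hCN.le hh0 hnX hhb hq).trans ?_)
    rw [← hB]
    refine (hdq _ (by positivity)).trans ?_
    have e9 : T * (B * h ^ 2) ≤ Cf * h ^ 2 := by
      rw [hCf]
      have h2 : 0 ≤ 3 * C + CN * C := by positivity
      nlinarith [mul_nonneg (mul_nonneg hT0.le h2) (sq_nonneg h)]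
    gcongr

end Crest.Agent.R234.Sel11_570
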