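import Crest.Agent.R234.Wj4_186
import Crest.Agent.R234.Cto_161
import Crest.Agent.R234.Mx17_397
import Crest.Agent.R234.Th3_186
import Crest.Agent.R234.MgDefs4_570
import Crest.Agent.R234.Jr2_186
import Crest.Agent.R234.MgDefs5_570
import Crest.Agent.R234.Mx16_397
import Crest.Agent.R234.Ibp2_937
import Crest.Agent.R234.Sel20_570
import Crest.Agent.R234.Pos1_395_Mg
import Crest.Agent.R234.Swb11_159
import Crest.Agent.R234.Mv1_504_Mg
import Crest.Agent.R234.Sp2_685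

-- ▼ part R234/Wj2_186
section

/-!
# Row 234, node F2-WJ (helper186), file 2: the Caccioppoli inequality with uniform constants
-/

set_option autoImplicit false
set_option maxSynthPendingDepth 3

open MeasureTheory Filter Topology Set
open scoped ENNReal NNReal ContDiff InnerProductSpace
open Crest.GeometryTopology.Submanifold Crest.Agent.R234.Vf_884
open Crest.Agent.R234.Cy_870 (Split tr_cyc CylStat)
open Crest.Agent.R234.MG_570 (TG)
open Crest.Agent.R234.Mx5_397 (msop)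
open Crest.Agent.R234.Sel1_570 Crest.Agent.R234.Sel2_570 Crest.Agent.R234.Th_186
open Crest.Agent.R234.Pt_615 (HStat HBase)
open Crest.Agent.R234.Cto_161 (ct ct_bound ct_one ct_zero ct_smooth ct_nonneg ct_le_one)

noncomputable section

namespace Crest.Agent.R234.Wj_186

variable {m n k : ℕ} {π : Euc k →L[ℝ] Euc m} {ρ : Euc k →L[ℝ] Euc n} {u φ : Euc m → Euc n}

local notation "adj" => ContinuousLinearMap.adjoint

/-! ### bounds of the normal frame -/

theorem norm_one_sub_Hp (h : Split π ρ) : ‖(1 : L k) - Hp π‖ ≤ 1 := by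
  refine ContinuousLinearMap.opNorm_le_bound _ zero_le_one fun z => ?_
  have e : ((1 : L k) - Hp π) z = adj ρ (ρ z) := by
    have : ((1 : L k) - Hp π) z = z - Hp π z := rfl
    rw [this, Hp_apply, sub_eq_iff_eq_add', sum_apply' h]
  rw [e, norm_adj_rho h, one_mul]
  exact norm_rho_le h z

theorem norm_nu_le (h : Split π ρ) {B : L k} (hB : ‖B‖ ≤ 1) : ‖nu (Hp π) B‖ ≤ 2 := by
  rw [nu]
  refine (_root_.norm_sub_le _ _).trans ?_
  have := norm_one_sub_Hp h
  rw [norm_star']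
  linarith

theorem norm_KK_le {B : L k} (hB : ‖B‖ ≤ 1) : ‖KK B‖ ≤ 2 := by
  rw [KK]
  refine (_root_.norm_sub_le _ _).trans ?_
  have h1 : ‖(1 : L k)‖ ≤ 1 := ContinuousLinearMap.norm_id_le
  have h2 : ‖B * gI B * star B‖ ≤ 1 * 1 * 1 := by
    refine (norm_mul_le _ _).trans ?_
    rw [norm_star']
    gcongr
    refine (norm_mul_le _ _).trans ?_
    gcongr
    exact norm_gI_le B
  linarith

theorem norm_KK_sub {B B' : L k} (h : ‖B‖ ≤ 1) (h' : ‖B'‖ ≤ 1) :
    ‖KK B - KK B'‖ ≤ 4 * ‖B - B'‖ := by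
  have e1 : KK B - KK B'
      = -((B - B') * gI B * star B + B' * (gI B - gI B') * star B + B' * gI B' * star (B - B')) := by
    rw [KK, KK, ssub]
    nr570
  rw [e1, norm_neg]
  have b4 : ‖gI B - gI B'‖ ≤ 2 * ‖B - B'‖ := norm_gI_sub h h'
  have c1 : ‖(B - B') * gI B * star B‖ ≤ ‖B - B'‖ * 1 * 1 := by
    refine (norm_mul_le _ _).trans ?_
    rw [norm_star']
    gcongr
    refine (norm_mul_le _ _).trans ?_
    gcongr
    exact norm_gI_le B
  have c2 : ‖B' * (gI B - gI B') * star B‖ ≤ 1 * (2 * ‖B - B'‖) * 1 := by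
    refine (norm_mul_le _ _).trans ?_
    rw [norm_star']
    gcongr
    refine (norm_mul_le _ _).trans ?_
    gcongr
  have c3 : ‖B' * gI B' * star (B - B')‖ ≤ 1 * 1 * ‖B - B'‖ := by
    refine (norm_mul_le _ _).trans ?_
    rw [norm_star']
    gcongr
    refine (norm_mul_le _ _).trans ?_
    gcongr
    exact norm_gI_le B'
  calc _ ≤ ‖(B - B') * gI B * star B‖ + ‖B' * (gI B - gI B') * star B‖
        + ‖B' * gI B' * star (B - B')‖ := norm_add₃_le
    _ ≤ ‖B - B'‖ * 1 * 1 + 1 * (2 * ‖B - B'‖) * 1 + 1 * 1 * ‖B - B'‖ := by gcongr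
    _ = _ := by ring

theorem norm_NN_le (h : Split π ρ) (hu : U3 u) (z : Euc k) :
    ‖NN (Hp π) (wg π ρ u) z‖ ≤ 4 := by
  have hB := norm_Bz_le h hu z
  calc ‖NN (Hp π) (wg π ρ u) z‖ ≤ ‖nu (Hp π) (Bz (wg π ρ u) z)‖ * ‖KK (Bz (wg π ρ u) z)‖ :=
        norm_mul_le _ _
    _ ≤ 2 * 2 := by
        gcongr
        · exact norm_nu_le h hB
        · exact norm_KK_le hB
    _ = 4 := by norm_num

theorem lip_NN (h : Split π ρ) (hu : U3 u) (z z' : Euc k) :
    ‖NN (Hp π) (wg π ρ u) z - NN (Hp π) (wg π ρ u) z'‖ ≤ 10 * ‖z - z'‖ := by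
  set B := Bz (wg π ρ u) z with hB
  set B' := Bz (wg π ρ u) z' with hB'
  have b1 : ‖B‖ ≤ 1 := norm_Bz_le h hu z
  have b2 : ‖B'‖ ≤ 1 := norm_Bz_le h hu z'
  have b3 : ‖B - B'‖ ≤ ‖z - z'‖ := lip_Bz h hu z z'
  have e1 : NN (Hp π) (wg π ρ u) z - NN (Hp π) (wg π ρ u) z'
      = (nu (Hp π) B - nu (Hp π) B') * KK B + nu (Hp π) B' * (KK B - KK B') := by
    show nu (Hp π) B * KK B - nu (Hp π) B' * KK B' = _
    nr570
  have b5 : ‖nu (Hp π) B - nu (Hp π) B'‖ ≤ ‖B - B'‖ := by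
    have e2 : nu (Hp π) B - nu (Hp π) B' = -star (B - B') := by
      rw [nu, nu, ssub]; abel
    rw [e2, norm_neg, norm_star']
  rw [e1]
  calc _ ≤ ‖(nu (Hp π) B - nu (Hp π) B') * KK B‖ + ‖nu (Hp π) B' * (KK B - KK B')‖ :=
        norm_add_le _ _
    _ ≤ ‖B - B'‖ * 2 + 2 * (4 * ‖B - B'‖) := by
        refine add_le_add ((norm_mul_le _ _).trans ?_) ((norm_mul_le _ _).trans ?_)
        · gcongr
          exact norm_KK_le b1
        · gcongr
          · exact norm_nu_le h b2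
          · exact norm_KK_sub b1 b2
    _ ≤ 10 * ‖z - z'‖ := by linarith

theorem norm_fderiv_NN_le (h : Split π ρ) (hu : U3 u) (z : Euc k) :
    ‖fderiv ℝ (NN (Hp π) (wg π ρ u)) z‖ ≤ 10 := by
  have h1 : LipschitzWith ⟨10, by norm_num⟩ (NN (Hp π) (wg π ρ u)) :=
    LipschitzWith.of_dist_le_mul fun z z' => by
      rw [dist_eq_norm, dist_eq_norm]
      exact lip_NN h hu z z'
  exact norm_fderiv_le_of_lipschitz ℝ h1

/-! ### the cut-off -/

/-- gradient of the cut-off -/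
def Gc (π : Euc k →L[ℝ] Euc m) (r R : ℝ) (z : Euc k) : Euc k :=
  adj π ((InnerProductSpace.toDual ℝ (Euc m)).symm (fderiv ℝ (ct r R : Euc m → ℝ) (π z)))

theorem cf (h : Split π ρ) {r R : ℝ} (hr : 0 ≤ r) (hR : r < R) :
    CF (Hp π) {y | ‖π y‖ < R} (fun z => ct r R (π z)) (Gc π r R) where
  der z := by
    have h1 : HasFDerivAt (ct r R : Euc m → ℝ) (fderiv ℝ (ct r R : Euc m → ℝ) (π z)) (π z) :=
      ((ct_smooth r R).differentiable (by simp) (π z)).hasFDerivAt
    refine (h1.comp z π.hasFDerivAt).congr_fderiv ?_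
    ext1 v
    rw [ContinuousLinearMap.comp_apply, innerSL_apply_apply, Gc,
      ContinuousLinearMap.adjoint_inner_left, InnerProductSpace.toDual_symm_apply]
  smooth := ((ct_smooth r R).of_le (by exact_mod_cast le_top)).comp π.contDiff
  zero z hz := by
    simp only [mem_ofPred_eq, not_lt, pi_Hp h] at hz
    exact ct_zero hr hR hz
  contG := by
    have h1 : Continuous fun x : Euc m => fderiv ℝ (ct r R : Euc m → ℝ) x :=
      (ct_smooth r R).continuous_fderiv (by simp)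
    exact (adj π).continuous.comp ((InnerProductSpace.toDual ℝ (Euc m)).symm.continuous.comp
      (h1.comp π.continuous))

theorem norm_Gc (h : Split π ρ) (r R : ℝ) (z : Euc k) :
    ‖Gc π r R z‖ = ‖iteratedFDeriv ℝ 1 (ct r R : Euc m → ℝ) (π z)‖ := by
  rw [Gc, norm_adj_pi h, LinearIsometryEquiv.norm_map, ← norm_iteratedFDeriv_fderiv (n := 0),
    norm_iteratedFDeriv_zero]

/-- **CACCIOPPOLI**, uniform constants -/
theorem cacc_tau (m n : ℕ) : ∃ C : ℝ, 0 < C ∧ ∀ (k : ℕ) (W : Measure (Euc k × L k))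
    (π : Euc k →L[ℝ] Euc m) (ρ : Euc k →L[ℝ] Euc n) (h Λ r R : ℝ) (u : Euc m → Euc n),
    0 < r → r < R → R ≤ 7 / 4 → 0 ≤ h → CylStat W π ρ 0 R 1 → W univ ≤ ENNReal.ofReal Λ → 0 ≤ Λ →
    U3 u → (∀ x ∈ Metric.ball (0 : Euc m) R, msop u x = 0) →
    (∀ᵐ q ∂W, ‖ρ q.1 - u (π q.1)‖ ≤ h) →
    ∃ et : Euc m → ℝ, Continuous et ∧ (∀ x, ‖x‖ ≤ r → et x = 1) ∧ (∀ x, 0 ≤ et x ∧ et x ≤ 1) ∧
      ∫ p, et (π p.1) ^ 2 * tau (TG π ρ u (π p.1)) p.2 ∂W ≤ C * Λ * h ^ 2 / (R - r) ^ 2 := by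
  obtain ⟨C1, hC1, hct⟩ := ct_bound (F := Euc m) 1
  refine ⟨256 * C1 ^ 2 + 1600 * (m + n) ^ 2, by positivity, ?_⟩
  intro k W π ρ h Λ r R u hr hR hR7 hh0 hW hΛ hΛ0 hu hmin hh
  have : IsFiniteMeasure W := ⟨hW.fin⟩
  have hs := hW.sp
  have hbase := (hstat hW).toHBase
  have hd : 0 < R - r := sub_pos.2 hR
  have hd2 : (R - r) ^ 2 ≤ 4 := by nlinarith
  have hη := cf hs hr.le hR
  have key := GD.cacc (gd hs hu.sm) (tr_H hs) (hstat hW) hη (fun z hz => min_of hs hu.sm (hmin _ (by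
    rw [mem_ball_zero_iff]
    by_contra hcon
    exact hz (ct_zero hr.le hR (not_lt.1 hcon)))))
  have hctc : Continuous (ct r R : Euc m → ℝ) := (ct_smooth r R).continuous
  refine ⟨ct r R, hctc, fun x hx => ct_one hr.le hR hx,
    fun x => ⟨ct_nonneg r R x, ct_le_one r R x⟩, ?_⟩
  have e1 : ∫ p, ct r R (π p.1) ^ 2 * tau (TG π ρ u (π p.1)) p.2 ∂W
      = ∫ p, ct r R (π p.1) ^ 2 * tau (TZ (Hp π) (wg π ρ u) p.1) p.2 ∂W := by
    simp only [TZ_eq hu.sm]
  rw [e1]
  refine key.trans ?_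
  have hWr : W.real univ ≤ Λ := by
    rw [Measure.real]
    exact ENNReal.toReal_le_of_le_ofReal hΛ0 hΛ
  set K := (256 * C1 ^ 2 + 400 * (m + n) ^ 2 * (R - r) ^ 2) / (R - r) ^ 2 * h ^ 2 with hK
  have cG : Continuous fun p : Euc k × L k => Gc π r R p.1 := hη.contG.comp continuous_fst
  have cη : Continuous fun p : Euc k × L k => ct r R (π p.1) :=
    hη.smooth.continuous.comp continuous_fst
  have cN : Continuous fun p : Euc k × L k => NN (Hp π) (wg π ρ u) p.1 :=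
    (gd hs hu.sm).contDiff_NN.continuous.comp continuous_fst
  have cD : Continuous fun p : Euc k × L k => fderiv ℝ (NN (Hp π) (wg π ρ u)) p.1 :=
    (gd hs hu.sm).continuous_DNN.comp continuous_fst
  have cf' : Continuous fun p : Euc k × L k => ht (Hp π) (wg π ρ u) p.1 :=
    (gd hs hu.sm).continuous_ht.comp continuous_fst
  have cDn : Continuous fun p : Euc k × L k => ‖fderiv ℝ (NN (Hp π) (wg π ρ u)) p.1‖ :=
    (continuous_norm (E := Euc k →L[ℝ] L k)).comp cD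
  have i3 : Integrable (fun p : Euc k × L k => (16 * ‖Gc π r R p.1‖ ^ 2 *
      ‖NN (Hp π) (wg π ρ u) p.1‖ ^ 2 + 4 * ct r R (π p.1) ^ 2 * k ^ 2 *
      ‖fderiv ℝ (NN (Hp π) (wg π ρ u)) p.1‖ ^ 2) * ‖ht (Hp π) (wg π ρ u) p.1‖ ^ 2) W := by
    refine integrable_of_cont' hbase ?_
    exact (((continuous_const.mul (cG.norm.pow 2)).mul (cN.norm.pow 2)).add
      (((continuous_const.mul (cη.pow 2)).mul continuous_const).mul (cDn.pow 2))).mul
      (cf'.norm.pow 2)
  calc ∫ p, (16 * ‖Gc π r R p.1‖ ^ 2 *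
      ‖NN (Hp π) (wg π ρ u) p.1‖ ^ 2 + 4 * ct r R (π p.1) ^ 2 * k ^ 2 *
      ‖fderiv ℝ (NN (Hp π) (wg π ρ u)) p.1‖ ^ 2) * ‖ht (Hp π) (wg π ρ u) p.1‖ ^ 2 ∂W
      ≤ ∫ _p, K ∂W := by
        refine integral_mono_ae i3 (integrable_const _) ?_
        filter_upwards [hh] with p hp
        have a1 : ‖Gc π r R p.1‖ ≤ C1 / (R - r) := by
          rw [norm_Gc hs]
          have := hct r R hr.le hR 1 le_rfl (π p.1)
          rwa [pow_one] at this
        have a2 : ‖NN (Hp π) (wg π ρ u) p.1‖ ≤ 4 := norm_NN_le hs hu _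
        have a3 : ‖fderiv ℝ (NN (Hp π) (wg π ρ u)) p.1‖ ≤ 10 := norm_fderiv_NN_le hs hu _
        have a4 : ct r R (π p.1) ^ 2 ≤ 1 := pow_le_one₀ (ct_nonneg _ _ _) (ct_le_one _ _ _)
        have a5 : ‖ht (Hp π) (wg π ρ u) p.1‖ ≤ h := by rw [norm_ht hs]; exact hp
        have a6 : 0 ≤ ‖fderiv ℝ (NN (Hp π) (wg π ρ u)) p.1‖ :=
          ContinuousLinearMap.opNorm_nonneg _
        have a7 : (k : ℝ) = m + n := k_eq hs
        calc (16 * ‖Gc π r R p.1‖ ^ 2 *
            ‖NN (Hp π) (wg π ρ u) p.1‖ ^ 2 + 4 * ct r R (π p.1) ^ 2 * k ^ 2 *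
            ‖fderiv ℝ (NN (Hp π) (wg π ρ u)) p.1‖ ^ 2) * ‖ht (Hp π) (wg π ρ u) p.1‖ ^ 2
            ≤ (16 * (C1 / (R - r)) ^ 2 * 4 ^ 2 + 4 * 1 * k ^ 2 * 10 ^ 2) * h ^ 2 := by
              gcongr
          _ = K := by
              rw [hK, a7]
              field_simp
              ring
    _ = W.real univ * K := by rw [integral_const, smul_eq_mul]
    _ ≤ Λ * K := by
        have : 0 ≤ K := by positivity
        gcongr
    _ ≤ Λ * ((256 * C1 ^ 2 + 1600 * (m + n) ^ 2) / (R - r) ^ 2 * h ^ 2) := by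
        rw [hK]
        have a8 : 256 * C1 ^ 2 + 400 * (m + n : ℝ) ^ 2 * (R - r) ^ 2
            ≤ 256 * C1 ^ 2 + 1600 * (m + n) ^ 2 := by
          have : 0 ≤ (m + n : ℝ) ^ 2 := by positivity
          nlinarith
        gcongr
    _ = _ := by ring

end Crest.Agent.R234.Wj_186
end
end

-- ▼ part R234/Wj5_186
section

/-!
# Row 234, node F2-WJ (helper186), file 5: bounds of represented functions
-/

set_option autoImplicit false
set_option maxSynthPendingDepth 3

open MeasureTheory Filter Topology Set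
open scoped ENNReal NNReal ContDiff InnerProductSpace
open Crest.GeometryTopology.Submanifold Crest.Agent.R234.Vf_884
open Crest.Agent.R234.Mx5_397 (msop syn contDiff_syn)
open Crest.Agent.R234.MG_570 (XV IsReal Rep)
open Crest.Agent.R234.Mx16_397 (rep_syn)
open Crest.Agent.R234.Mx6_397 (norm_iteratedFDeriv_syn_le)

noncomputable section

namespace Crest.Agent.R234.Wj_186

variable {m n k : ℕ} {u φ : Euc m → Euc n}

theorem norm_fderiv_eq1 {G : Type*} [NormedAddCommGroup G] [NormedSpace ℝ G] (f : Euc m → G)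
    (x : Euc m) : ‖fderiv ℝ f x‖ = ‖iteratedFDeriv ℝ 1 f x‖ := by
  rw [← norm_iteratedFDeriv_fderiv (n := 0), norm_iteratedFDeriv_zero]

theorem norm_fderiv_eq2 {G : Type*} [NormedAddCommGroup G] [NormedSpace ℝ G] (f : Euc m → G)
    (x : Euc m) : ‖fderiv ℝ (fderiv ℝ f) x‖ = ‖iteratedFDeriv ℝ 2 f x‖ := by
  rw [← norm_iteratedFDeriv_fderiv (n := 1), norm_fderiv_eq1]

theorem norm_fderiv_eq3 (f : Euc m → Euc n) (x : Euc m) :
    ‖fderiv ℝ (fderiv ℝ (fderiv ℝ f)) x‖ = ‖iteratedFDeriv ℝ 3 f x‖ := by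
  rw [← norm_iteratedFDeriv_fderiv (n := 2), norm_fderiv_eq2]

/-- the bound of the derivatives of a represented function -/
def Kb (n N : ℕ) : ℝ := (n + 1) * (2 * Real.pi) ^ N

theorem Kb_pos (n N : ℕ) : 0 < Kb n N := by unfold Kb; positivity

theorem rep_bound {N : ℕ} {a : XV m n N} (h : Rep a u) {j : ℕ} (hj : j ≤ N) (x : Euc m) :
    ‖iteratedFDeriv ℝ j u x‖ ≤ Kb n N * ‖a‖ := by
  rw [rep_syn h]
  refine (norm_iteratedFDeriv_syn_le _ a hj x).trans ?_
  rw [Fintype.card_fin, Kb, ← mul_assoc]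
  gcongr
  linarith

theorem rep_smooth {N : ℕ} {a : XV m n N} (h : Rep a u) : ContDiff ℝ N u := by
  rw [rep_syn h]
  exact contDiff_syn _ a

theorem u3_of {a : XV m n 3} (h : Rep a u) (ha : ‖a‖ ≤ (Kb n 3)⁻¹) : U3 u := by
  have hb : ∀ j ≤ 3, ∀ x, ‖iteratedFDeriv ℝ j u x‖ ≤ 1 := fun j hj x => by
    refine (rep_bound h hj x).trans ?_
    calc Kb n 3 * ‖a‖ ≤ Kb n 3 * (Kb n 3)⁻¹ := by gcongr; exact (Kb_pos n 3).le
      _ = 1 := mul_inv_cancel₀ (Kb_pos n 3).ne'
  exact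
  { sm := rep_smooth h
    d1 := fun x => by rw [norm_fderiv_eq1]; exact hb 1 (by norm_num) x
    d2 := fun x => by rw [norm_fderiv_eq2]; exact hb 2 (by norm_num) x
    d3 := fun x => by rw [norm_fderiv_eq3]; exact hb 3 (by norm_num) x }

theorem p2_of {b : XV m n 2} (h : Rep b φ) {r : ℝ} (hz : ∀ x, r ≤ ‖x‖ → φ x = 0) :
    P2 φ r (Kb n 2 * ‖b‖) where
  sm := rep_smooth h
  b0 x := by
    have := rep_bound h (j := 0) (by norm_num) x
    rwa [norm_iteratedFDeriv_zero] at this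
  b1 x := by rw [norm_fderiv_eq1]; exact rep_bound h (by norm_num) x
  b2 x := by rw [norm_fderiv_eq2]; exact rep_bound h (by norm_num) x
  z := hz

end Crest.Agent.R234.Wj_186
end
end

-- ▼ part R234/Wj6_186
section

/-!
# Row 234, node F2-WJ (helper186), file 6: `wjP : MG_570.WJP`
-/

set_option autoImplicit false
set_option maxSynthPendingDepth 3

open MeasureTheory Filter Topology Set
open scoped ENNReal NNReal ContDiff InnerProductSpace
open Crest.GeometryTopology.Submanifold Crest.Agent.R234.Vf_884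
open Crest.Agent.R234.Cy_870 (Split tr_cyc CylStat)
open Crest.Agent.R234.MG_570 (TG XV IsReal Rep lopT WJP)
open Crest.Agent.R234.Mx5_397 (msop)
open Crest.Agent.R234.Sel1_570 Crest.Agent.R234.Sel2_570 Crest.Agent.R234.Th_186

noncomputable section

namespace Crest.Agent.R234.Wj_186

variable {m n k : ℕ} {π : Euc k →L[ℝ] Euc m} {ρ : Euc k →L[ℝ] Euc n} {u φ : Euc m → Euc n}

/-- tilt, `h > 0` -/
theorem tilt_pos {W : Measure (Euc k × L k)} {C h Λ r R : ℝ} (hC : 0 ≤ C) (hR : r < R)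
    (hR7 : R ≤ 7 / 4) (hr : 0 < r) (hh0 : 0 < h) (hW : CylStat W π ρ 0 R 1)
    (hΛ : W univ ≤ ENNReal.ofReal Λ) (hΛ0 : 0 ≤ Λ) (hu : U3 u) {et : Euc m → ℝ}
    (hc : Continuous et) (h1 : ∀ x, ‖x‖ ≤ r → et x = 1)
    (hE : ∫ p, et (π p.1) ^ 2 * tau (TG π ρ u (π p.1)) p.2 ∂W ≤ C * Λ * h ^ 2 / (R - r) ^ 2) :
    ∫ p in {p : Euc k × L k | ‖π p.1‖ < r}, ‖p.2 - TG π ρ u (π p.1)‖ ∂W
      ≤ (C + 2) * (1 + Λ) * h / (R - r) ^ 2 := by
  have : IsFiniteMeasure W := ⟨hW.fin⟩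
  have hs := hW.sp
  have hbase := (hstat hW).toHBase
  have hd : 0 < R - r := sub_pos.2 hR
  have hd2 : (R - r) ^ 2 ≤ 4 := by nlinarith
  have hWr : W.real univ ≤ Λ := by
    rw [Measure.real]
    exact ENNReal.toReal_le_of_le_ofReal hΛ0 hΛ
  have hms : MeasurableSet {p : Euc k × L k | ‖π p.1‖ < r} :=
    (isOpen_lt (π.continuous.comp continuous_fst).norm continuous_const).measurableSet
  have hcn : Continuous fun p : Euc k × L k => ‖p.2 - TG π ρ u (π p.1)‖ :=
    (continuous_snd.sub (continuous_TG hs (hu.sm.of_le (by norm_num)))).norm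
  have i1 : Integrable (fun p : Euc k × L k => ‖p.2 - TG π ρ u (π p.1)‖) W :=
    integrable_of_cont' hbase hcn
  have i2 : Integrable (fun p : Euc k × L k =>
      et (π p.1) ^ 2 * tau (TG π ρ u (π p.1)) p.2) W := by
    have := integrable_of_cont' hbase ((((hc.comp π.continuous).comp continuous_fst).pow 2).mul
      (gd hs hu.sm).continuous_tau)
    refine this.congr (Eventually.of_forall fun p => ?_)
    show et (π p.1) ^ 2 * tau (TZ (Hp π) (wg π ρ u) p.1) p.2 = _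
    rw [TZ_eq hu.sm]
  have hpt : ∀ᵐ p ∂W, ({p : Euc k × L k | ‖π p.1‖ < r}.indicator
      (fun p => ‖p.2 - TG π ρ u (π p.1)‖)) p
      ≤ h⁻¹ * (et (π p.1) ^ 2 * tau (TG π ρ u (π p.1)) p.2) + h / 2 := by
    filter_upwards [hW.conc] with p hp
    have hT : TG π ρ u (π p.1) ∈ Vf_884.G m k := by
      rw [← TZ_eq hu.sm]
      exact ((gd hs hu.sm).gb p.1).TT_mem (tr_H hs)
    have hτ : 0 ≤ tau (TG π ρ u (π p.1)) p.2 := tau_nonneg hp hT
    by_cases hz : p ∈ {p : Euc k × L k | ‖π p.1‖ < r}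
    · rw [indicator_of_mem hz]
      have hz' : ‖π p.1‖ < r := hz
      rw [h1 _ hz'.le, one_pow, one_mul]
      have a1 : ‖p.2 - TG π ρ u (π p.1)‖ ^ 2 ≤ 2 * tau (TG π ρ u (π p.1)) p.2 :=
        norm_sub_sq_le hp hT
      have a2 : ‖p.2 - TG π ρ u (π p.1)‖ * h ≤ tau (TG π ρ u (π p.1)) p.2 + h ^ 2 / 2 := by
        nlinarith [sq_nonneg (‖p.2 - TG π ρ u (π p.1)‖ - h)]
      rw [← mul_le_mul_iff_left₀ hh0]
      calc ‖p.2 - TG π ρ u (π p.1)‖ * h ≤ tau (TG π ρ u (π p.1)) p.2 + h ^ 2 / 2 := a2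
        _ = (h⁻¹ * tau (TG π ρ u (π p.1)) p.2 + h / 2) * h := by field_simp
    · rw [indicator_of_notMem hz]
      positivity
  rw [← integral_indicator hms]
  calc ∫ p, ({p : Euc k × L k | ‖π p.1‖ < r}.indicator
      (fun p => ‖p.2 - TG π ρ u (π p.1)‖)) p ∂W
      ≤ ∫ p, (h⁻¹ * (et (π p.1) ^ 2 * tau (TG π ρ u (π p.1)) p.2) + h / 2) ∂W :=
        integral_mono_ae (i1.indicator hms) ((i2.const_mul _).add (integrable_const _)) hpt
    _ = h⁻¹ * ∫ p, et (π p.1) ^ 2 * tau (TG π ρ u (π p.1)) p.2 ∂W + W.real univ * (h / 2) := by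
        rw [integral_add (i2.const_mul _) (integrable_const _), integral_const_mul,
          integral_const, smul_eq_mul]
    _ ≤ h⁻¹ * (C * Λ * h ^ 2 / (R - r) ^ 2) + Λ * (h / 2) := by gcongr
    _ ≤ (C + 2) * (1 + Λ) * h / (R - r) ^ 2 := by
        rw [le_div_iff₀ (by positivity)]
        have e : (h⁻¹ * (C * Λ * h ^ 2 / (R - r) ^ 2) + Λ * (h / 2)) * (R - r) ^ 2
            = C * Λ * h + Λ * h / 2 * (R - r) ^ 2 := by field_simp
        rw [e]
        have b1 : 0 ≤ Λ * h := by positivity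
        have b2 : 0 ≤ C * h := by positivity
        nlinarith

/-- **F2-WJ** -/
theorem wjP : WJP := by
  intro m n hm
  obtain ⟨C1, hC1, hcacc⟩ := cacc_tau m n
  set C2 : ℝ := n * (15 * (m + n) * Kb n 2 * (4 + C1)) with hC2
  have hK2 := Kb_pos n 2
  have hC2n : 0 ≤ C2 := by positivity
  refine ⟨(Kb n 3)⁻¹, (C1 + 2) + C2, inv_pos.2 (Kb_pos n 3), by positivity, ?_⟩
  intro k W π ρ h Λ r R a u hr hR hR7 hh0 hW hΛ hΛ0 ha han hrep hmin hh
  have hu := u3_of hrep han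
  have hd : 0 < R - r := sub_pos.2 hR
  have hd2 : (R - r) ^ 2 ≤ 4 := by nlinarith
  refine ⟨?_, fun b φ hb hbφ hφz => ?_⟩
  · -- the tilt, by `h' → 0`
    have hall : ∀ h' : ℝ, 0 < h' → h ≤ h' →
        ∫ p in {p : Euc k × L k | ‖π p.1‖ < r}, ‖p.2 - TG π ρ u (π p.1)‖ ∂W
          ≤ (C1 + 2) * (1 + Λ) * h' / (R - r) ^ 2 := by
      intro h' hh' hle
      obtain ⟨et, hc, h1, -, hE⟩ := hcacc k W π ρ h' Λ r R u hr hR hR7 hh'.le hW hΛ hΛ0 hu hmin
        (hh.mono fun q hq => hq.trans hle)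
      exact tilt_pos hC1.le hR hR7 hr hh' hW hΛ hΛ0 hu hc h1 hE
    have hlim : ∫ p in {p : Euc k × L k | ‖π p.1‖ < r}, ‖p.2 - TG π ρ u (π p.1)‖ ∂W
        ≤ (C1 + 2) * (1 + Λ) * h / (R - r) ^ 2 := by
      have ht : Tendsto (fun h' : ℝ => (C1 + 2) * (1 + Λ) * h' / (R - r) ^ 2) (𝓝[>] h)
          (𝓝 ((C1 + 2) * (1 + Λ) * h / (R - r) ^ 2)) := by
        have : Continuous fun h' : ℝ => (C1 + 2) * (1 + Λ) * h' / (R - r) ^ 2 := by fun_prop
        exact (this.tendsto h).mono_left nhdsWithin_le_nhds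
      refine ge_of_tendsto ht ?_
      filter_upwards [self_mem_nhdsWithin] with h' hh'
      have hh'' : h < h' := hh'
      exact hall h' (hh0.trans_lt hh'') hh''.le
    refine hlim.trans (div_le_div_of_nonneg_right (mul_le_mul_of_nonneg_right
      (mul_le_mul_of_nonneg_right (by linarith) (by positivity)) hh0) (by positivity))
  · obtain ⟨et, hc, h1, h01, hE⟩ := hcacc k W π ρ h Λ r R u hr hR hR7 hh0 hW hΛ hΛ0 hu hmin hh
    have hφ := p2_of hbφ hφz
    refine (weak_lopT hr hR hW hΛ hΛ0 hu hφ hmin hh hc h1 h01 hE).trans ?_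
    rw [k_eq hW.sp]
    have b1 : Λ * h ^ 2 + C1 * Λ * h ^ 2 / (R - r) ^ 2 ≤ (4 + C1) * (Λ * h ^ 2 / (R - r) ^ 2) := by
      have c1 : Λ * h ^ 2 ≤ 4 * (Λ * h ^ 2 / (R - r) ^ 2) := by
        rw [mul_div_assoc', le_div_iff₀ (by positivity)]
        have : 0 ≤ Λ * h ^ 2 := by positivity
        nlinarith
      calc Λ * h ^ 2 + C1 * Λ * h ^ 2 / (R - r) ^ 2
          ≤ 4 * (Λ * h ^ 2 / (R - r) ^ 2) + C1 * Λ * h ^ 2 / (R - r) ^ 2 := by gcongr
        _ = _ := by ring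
    calc (n : ℝ) * (15 * (m + n) * (Kb n 2 * ‖b‖) *
          (Λ * h ^ 2 + C1 * Λ * h ^ 2 / (R - r) ^ 2))
        ≤ n * (15 * (m + n) * (Kb n 2 * ‖b‖) * ((4 + C1) * (Λ * h ^ 2 / (R - r) ^ 2))) := by
          gcongr
      _ = C2 * Λ * h ^ 2 / (R - r) ^ 2 * ‖b‖ := by rw [hC2]; ring
      _ ≤ ((C1 + 2) + C2) * Λ * h ^ 2 / (R - r) ^ 2 * ‖b‖ := by
          gcongr
          linarith

end Crest.Agent.R234.Wj_186
end
end

-- ▼ part R234/Mx18_397
section

/-!
# Row 234, VF-MINEX part 18 (helper397): node F2-DNS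

`exists_comp`: a smooth function of `Du`, `u` in the class `MG`, is on `closedBall 0 (7/4)` an
element of the Wiener space `X M` of bounded norm; `dnsP : DnsP`.
-/

set_option autoImplicit false
set_option linter.unusedSectionVars false

open MeasureTheory Complex Filter Real
open scoped ContDiff Topology InnerProductSpace

noncomputable section

namespace Crest.Agent.R234.Mx18_397

open Crest.Agent.R086.Wie Crest.Agent.R234.Mx1_397 Crest.Agent.R234.Mx3_397
  Crest.Agent.R234.Mx5_397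
  Crest.Agent.R234.Mx6_397 Crest.Agent.R234.Mx11_397 Crest.Agent.R234.Mx15_397
  Crest.Agent.R234.Mx16_397 Crest.Agent.R234.Mx17_397 Crest.Agent.R234.Ell1_3
open Crest.GeometryTopology.Submanifold Crest.Agent.R234.MG_570

/-- bounds of the derivatives of a smooth function on a compact set -/
theorem exists_bound_comp {E F : Type*} [NormedAddCommGroup E] [NormedSpace ℝ E]
    [NormedAddCommGroup F] [NormedSpace ℝ F] {G : E → F} (hG : ContDiff ℝ ∞ G) {S : Set E}
    (hS : IsCompact S) (K : ℕ) :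
    ∃ B : ℝ, 0 ≤ B ∧ ∀ i ≤ K, ∀ q ∈ S, ‖iteratedFDeriv ℝ i G q‖ ≤ B := by
  have h1 : ∀ i : ℕ, ∃ B : ℝ, 0 ≤ B ∧ ∀ q ∈ S, ‖iteratedFDeriv ℝ i G q‖ ≤ B := by
    intro i
    obtain ⟨B, hB⟩ := hS.exists_bound_of_continuousOn
      (hG.continuous_iteratedFDeriv (m := i) (by exact_mod_cast le_top)).continuousOn
    exact ⟨max B 0, le_max_right _ _, fun q hq => (hB q hq).trans (le_max_left _ _)⟩
  choose B hB0 hB using h1
  refine ⟨∑ i ∈ Finset.range (K + 1), B i, Finset.sum_nonneg fun i _ => hB0 i,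
    fun i hi q hq => (hB i q hq).trans ?_⟩
  exact Finset.single_le_sum (f := B) (fun i _ => hB0 i) (Finset.mem_range.2 (by omega))

/-- smooth functions of `Du` as elements of the Wiener space -/
theorem exists_comp (m n M N : ℕ) (hN : M + m ≤ N) {G : (Euc m →L[ℝ] Euc n) → ℝ}
    (hG : ContDiff ℝ ∞ G) : ∃ C : ℝ, 0 < C ∧ ∀ (κ r : ℝ) (u : Euc m → Euc n), κ ≤ 1 →
      MG N κ r u → ∃ D : X (Euc m) M, star D = D ∧ ‖D‖ ≤ C ∧
        ∀ x, ‖x‖ ≤ 7 / 4 → ev D x = ((G (fderiv ℝ u x) : ℝ) : ℂ) := by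
  obtain ⟨C1, hC1, h1⟩ := bdP m n N
  obtain ⟨χ, hχ, hχ1, -⟩ := exists_cut (F := Euc m) (r' := 7 / 4) (r := 2) (by norm_num)
    (by norm_num) le_rfl
  obtain ⟨C2, hC2, h2⟩ := exists_CK (F := Euc m) M
  set K := M + Module.finrank ℝ (Euc m) + 1 with hK
  have hfr : Module.finrank ℝ (Euc m) = m := finrank_euclideanSpace_fin
  have hKN : K ≤ N + 1 := by omega
  obtain ⟨C3, hC3, h3⟩ := IsCut.exists_mul_boundK hχ K
  obtain ⟨B, hB0, hB⟩ := exists_bound_comp hG
    (isCompact_closedBall (0 : Euc m →L[ℝ] Euc n) C1) K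
  set D0 := max 1 C1 with hD0
  have hD1 : 1 ≤ D0 := le_max_left _ _
  set A : ℝ := K.factorial * B * D0 ^ K with hA
  have hA0 : 0 ≤ A := by positivity
  refine ⟨C2 * (C3 * A) + 1, by positivity, fun κ r u hκ hMG => ?_⟩
  obtain ⟨hu, hub⟩ := h1 κ r u hMG
  have hκb : ∀ j ≤ N + 2, ∀ x, ‖iteratedFDeriv ℝ j u x‖ ≤ C1 := fun j hj x =>
    (hub j hj x).trans (by nlinarith)
  have hdu : ContDiff ℝ K (fderiv ℝ u) :=
    (hu.fderiv_right (m := (K : ℕ)) (by norm_cast; omega))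
  have hdub : ∀ i, 1 ≤ i → i ≤ K → ∀ x, ‖iteratedFDeriv ℝ i (fderiv ℝ u) x‖ ≤ D0 ^ i := by
    intro i hi1 hiK x
    rw [norm_iteratedFDeriv_fderiv]
    exact (hκb (i + 1) (by omega) x).trans ((le_max_right _ _).trans
      (le_self_pow₀ hD1 (by omega)))
  have hw : ContDiff ℝ K (G ∘ fderiv ℝ u) := (hG.of_le (by exact_mod_cast le_top)).comp hdu
  have hwb : ∀ j ≤ K, ∀ x, ‖iteratedFDeriv ℝ j (G ∘ fderiv ℝ u) x‖ ≤ A := by
    intro j hj x
    refine (norm_iteratedFDeriv_comp_le (N := (K : ℕ)) (hG.of_le (by exact_mod_cast le_top)) hdu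
      (by exact_mod_cast hj) x (C := B) (D := D0) (fun i hi => hB i (hi.trans hj) _ ?_)
      (fun i hi1 hi => hdub i hi1 (hi.trans hj) x)).trans ?_
    · rw [mem_closedBall_zero_iff, ← norm_iteratedFDeriv_one]
      exact hκb 1 (by omega) x
    · rw [hA]
      have h4 : (j.factorial : ℝ) ≤ K.factorial := by exact_mod_cast Nat.factorial_le hj
      have h5 : D0 ^ j ≤ D0 ^ K := pow_le_pow_right₀ hD1 hj
      gcongr
  obtain ⟨D, hDs, hDev, hDn⟩ := h2 (fun x => χ x * (G ∘ fderiv ℝ u) x) (C3 * A) (by positivity)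
    ((hχ.smooth.of_le (by exact_mod_cast le_top)).mul hw)
    (fun x hx => by rw [hχ.zero hx.le, zero_mul])
    (h3 _ A hA0 hw fun j hj x _ => hwb j hj x)
  refine ⟨D, hDs, by linarith, fun x hx => ?_⟩
  rw [hDev, hχ1 x hx, one_mul]
  rfl

/-- **node F2-DNS** -/
theorem dnsP : DnsP := by
  intro m n
  refine ⟨m + 2, fun N hN => ?_⟩
  obtain ⟨C, hC, h⟩ := exists_comp m n 2 N (by omega)
    (G := fun q => (dns q)⁻¹) (dns_contDiff.inv fun q => (dns_pos q).ne')
  refine ⟨1, C, one_pos, hC, 0, fun κ r ε u hκ hε _ _ hr hMG => ?_⟩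
  obtain ⟨D, h1, h2, h3⟩ := h κ r u hκ hMG
  refine ⟨D, h1, by simpa using h2, fun x hx => h3 x ?_⟩
  have := mem_ball_zero_iff.1 hx
  linarith

end Crest.Agent.R234.Mx18_397
end
end

-- ▼ part R234/Mx19_397
section

/-!
# Row 234, VF-MINEX part 19 (helper397): node F2-NW, the Newton step in `MG` form
-/

set_option autoImplicit false
set_option linter.unusedSectionVars false

open MeasureTheory Complex Filter Real
open scoped ContDiff Topology InnerProductSpace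

noncomputable section

namespace Crest.Agent.R234.Mx19_397

open Crest.Agent.R086.Wie Crest.Agent.R234.Mx1_397 Crest.Agent.R234.Mx3_397
  Crest.Agent.R234.Mx4_397 Crest.Agent.R234.Mx5_397
  Crest.Agent.R234.Mx6_397 Crest.Agent.R234.Mx8_397 Crest.Agent.R234.Mx9_397
  Crest.Agent.R234.Mx16_397 Crest.Agent.R234.Mx17_397
open Crest.GeometryTopology.Submanifold Crest.Agent.R234.MG_570
open Crest.Agent.R234.Main_456 (Msys)

theorem rep_add {m n N : ℕ} {a b : XV m n N} {u v : Euc m → Euc n} (ha : Rep a u)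
    (hb : Rep b v) : Rep (a + b) (fun x => u x + v x) := fun x α => by
  rw [Pi.add_apply, ev_add, ← ha x α, ← hb x α, PiLp.add_apply, Complex.ofReal_add]

theorem isReal_add {m n N : ℕ} {a b : XV m n N} (ha : IsReal a) (hb : IsReal b) :
    IsReal (a + b) := fun α => by
  rw [Pi.add_apply, star_add, ha, hb]

theorem isReal_sub {m n N : ℕ} {a b : XV m n N} (ha : IsReal a) (hb : IsReal b) :
    IsReal (a - b) := fun α => by
  rw [Pi.sub_apply, star_sub, ha, hb]

/-- **node F2-NW** -/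
theorem nwP : NwP := by
  intro m n N
  rcases Nat.eq_zero_or_pos m with rfl | hm
  · refine ⟨1, 1, one_pos, one_pos, 0, fun κ h r ε u v b _ _ _ _ _ hMG hb hrep hbh _ _ => ?_⟩
    obtain ⟨a, har, ha, hrepa, _⟩ := hMG
    have hh : 0 ≤ h := (norm_nonneg _).trans hbh
    refine ⟨fun _ => 0, 0, fun α => star_zero _, fun x α => ?_, ?_, a + b, isReal_add har hb, ?_, ?_,
      fun z _ => ?_⟩
    · rw [Pi.zero_apply, ev_zero]; simp
    · rw [norm_zero]; positivity
    · exact (norm_add_le _ _).trans (by linarith)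
    · have := rep_add hrepa hrep
      simpa using this
    · unfold Msys
      simp
  -- `m ≥ 1`
  have : Nonempty (Fin m) := ⟨⟨0, hm⟩⟩
  have hnt : Nontrivial (Euc m) := inferInstanceAs (Nontrivial (EuclideanSpace ℝ (Fin m)))
  obtain ⟨c₀, hc₀⟩ := exists_norm_eq (Euc m) (show (0 : ℝ) ≤ 11 / 2 by norm_num)
  set B := EuclideanSpace.basisFun (Fin n) ℝ with hB
  obtain ⟨e0, he0, hr, H⟩ := newton hc₀ B N
  obtain ⟨C1, hC1, p, hC⟩ := Cto_161.cX_bound (F := Euc m) N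
  have hcT := cT_nonneg (ι := Fin (Module.finrank ℝ (Euc m))) (κ := Fin n)
  set cc := cT (Fin (Module.finrank ℝ (Euc m))) (Fin n) with hcc
  set C : ℝ := 2 / e0 + 144 * cc * C1 + 1 with hCdef
  have hCpos : 0 < C := by positivity
  have h144 : 144 * cc * C1 ≤ C := by
    rw [hCdef]
    have : 0 ≤ 2 / e0 := by positivity
    linarith
  have h2e : 2 / e0 ≤ C := by
    rw [hCdef]
    have : 0 ≤ 144 * cc * C1 := by positivity
    linarith
  refine ⟨e0 / 2, C, by positivity, hCpos, p, fun κ h r ε u v b hκ hr0 hr1 hε hε1 hMG hb hrep hbh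
    hsm hlop => ?_⟩
  obtain ⟨a, har, ha, hrepa, hM⟩ := hMG
  have hh : 0 ≤ h := (norm_nonneg _).trans hbh
  have hεp : 0 < ε ^ p := by positivity
  have hεp1 : ε ^ p ≤ 1 := pow_le_one₀ hε.le (by linarith)
  have hhe : h ≤ e0 / 2 := by
    have h1 : 2 / e0 * h ≤ 1 := by nlinarith
    rw [div_mul_eq_mul_div, div_le_one he0] at h1
    linarith
  have hhp : C * h / ε ^ p ≤ 1 := (div_le_one hεp).2 hsm
  have hu : u = syn B a := rep_syn hrepa
  have hv : v = syn B b := rep_syn hrep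
  have hae : ‖a‖ ≤ e0 / 2 := ha.trans hκ
  have hab : ‖a + b‖ ≤ κ + h := (norm_add_le _ _).trans (by linarith)
  set χ : X (Euc m) N := Cto_161.cX N hr0.le (by linarith : r < r + ε) (by linarith) with hχ
  have hχs : star χ = χ := Cto_161.star_cX N _ _ _
  have hχn : ‖χ‖ ≤ C1 / ε ^ p := by
    refine (hC r (r + ε) hr0.le _ _).trans (le_of_eq ?_)
    rw [add_sub_cancel_left]
  have hχe : ∀ x, (ev χ x).re = Cto_161.ct r (r + ε) x := fun x => by
    rw [hχ, Cto_161.ev_cX, Complex.ofReal_re]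
  have hχ0 : ∀ x, (ev χ x).re ≠ 0 → ‖x‖ < r + ε := fun x hx => by
    by_contra h1
    exact hx (by rw [hχe, Cto_161.ct_zero hr0.le (by linarith) (not_lt.1 h1)])
  have hSm : Sm (Fin (Module.finrank ℝ (Euc m))) (Fin n) e0 := by
    refine le_trans ?_ hr
    have : e0 ≤ 145 * e0 := by linarith
    have hcH := cH_nonneg (κ := Fin n)
    gcongr
  have hLX : ∀ α, χ * LX (stdOrthonormalBasis ℝ (Euc m)) a b α = 0 := fun α => by
    refine ev_inj_re ?_ (star_zero _) fun x => ?_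
    · rw [star_mul, hχs, Jr_186.star_LX hSm _ (hae.trans (by linarith)) har hb, mul_comm]
    · rw [re_ev_mul hχs, ev_LX B hSm (hae.trans (by linarith)) har hb, ev_zero, Complex.zero_re]
      by_cases h1 : (ev χ x).re = 0
      · rw [h1, zero_mul]
      · rw [← hu, ← hv, hlop x (mem_ball_zero_iff.2 (hχ0 x h1)), inner_zero_right, mul_zero]
  have hdef : cc * ‖χ‖ * ‖b‖ ^ 2 ≤ cc * (C1 / ε ^ p) * h ^ 2 := by gcongr
  have hdef2 : 144 * (cc * (C1 / ε ^ p) * h ^ 2) ≤ C * h ^ 2 / ε ^ p := by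
    have : 144 * (cc * (C1 / ε ^ p) * h ^ 2) = 144 * cc * C1 * h ^ 2 / ε ^ p := by ring
    rw [this]
    gcongr
  have hq : C * h ^ 2 / ε ^ p ≤ h := by
    have : C * h ^ 2 / ε ^ p = C * h / ε ^ p * h := by ring
    rw [this]
    nlinarith
  obtain ⟨w₁, hw1, hw2, _, hw4⟩ := H a b χ (Metric.ball 0 r) 0 har hb hχs le_rfl
    (hae.trans (by linarith)) (hab.trans (by linarith))
    (fun x hx => by
      by_contra h1
      have := hχ0 x h1
      linarith)
    (fun x hx => by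
      rw [← hu, ← Msys_eq]
      exact hM x (mem_ball_zero_iff.2 (hχ0 x hx)))
    (fun x hx => by
      have := mem_ball_zero_iff.1 hx
      exact ⟨by linarith, by rw [hχe, Cto_161.ct_one hr0.le (by linarith) this.le]⟩)
    (fun α => by rw [hLX α, norm_zero])
    (by rw [zero_add]; linarith)
  rw [zero_add] at hw2
  have hwn : ‖w₁ - (a + b)‖ ≤ C * h ^ 2 / ε ^ p := hw2.trans (by linarith)
  have hcr : IsReal (w₁ - (a + b)) := isReal_sub hw1 (isReal_add har hb)
  have hrepc := syn_rep (m := m) (n := n) (N := N + 2) hcr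
  refine ⟨syn B (w₁ - (a + b)), w₁ - (a + b), hcr, hrepc, hwn, w₁, hw1, ?_, ?_, fun z hz => ?_⟩
  · have : w₁ = (a + b) + (w₁ - (a + b)) := by abel
    rw [this]
    exact (norm_add_le _ _).trans (by linarith)
  · have := rep_add (rep_add hrepa hrep) hrepc
    rwa [add_sub_cancel] at this
  · have h1 := rep_syn (rep_add (rep_add hrepa hrep) hrepc)
    rw [add_sub_cancel] at h1
    have h2 : (fun x => u x + v x + syn B (w₁ - (a + b)) x) = syn B w₁ := h1
    rw [h2, Msys_eq]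
    exact hw4 z hz

end Crest.Agent.R234.Mx19_397
end
end

-- ▼ part R234/Mx20_397
section

/-!
# Row 234, VF-MINEX part 20 (helper397): node F2-JAC (`JacP`)
-/

set_option autoImplicit false
set_option linter.unusedSectionVars false

open MeasureTheory Complex Filter Real
open scoped ContDiff Topology InnerProductSpace

noncomputable section

namespace Crest.Agent.R234.Mx20_397

open Crest.Agent.R086.Wie Crest.Agent.R234.Mx1_397 Crest.Agent.R234.Mx3_397
  Crest.Agent.R234.Mx5_397 Crest.Agent.R234.Mx6_397 Crest.Agent.R234.Mx9_397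
  Crest.Agent.R234.Mx16_397 Crest.Agent.R234.Ibp_937
open Crest.Agent.R234.Ell1_3 (gop ginv dns adjL)
open Crest.GeometryTopology.Submanifold Crest.Agent.R234.MG_570

variable {m n : ℕ}

theorem lopT_zero_of_notMem {u φ : Euc m → Euc n} {x : Euc m} (h : x ∉ tsupport φ) (y : Euc n) :
    lopT u φ x y = 0 := by
  have h1 : φ =ᶠ[𝓝 x] fun _ => 0 := notMem_tsupport_iff_eventuallyEq.1 h
  have h2 : fderiv ℝ (fderiv ℝ φ) x = 0 := by
    rw [h1.fderiv.fderiv_eq]; simp
  have h3 : (fun z => Psi u φ z y) =ᶠ[𝓝 x] fun _ => 0 := by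
    filter_upwards [h1] with z hz
    unfold Psi
    rw [hz, map_zero]
  unfold lopT
  rw [h2, h3.fderiv_eq]
  simp

/-- `lopT` is linear in the test vector. -/
theorem lopT_sum {u φ : Euc m → Euc n} (hu : ContDiff ℝ 3 u) (hφ : ContDiff ℝ 2 φ) (x : Euc m)
    (y : Euc n) : lopT u φ x y = ∑ γ, y γ * lopT u φ x (EuclideanSpace.single γ 1) := by
  have dφ : HasFDerivAt φ (fderiv ℝ φ x) x := ((hφ.differentiable two_ne_zero) x).hasFDerivAt
  have dA : HasFDerivAt (Aop u) (fderiv ℝ (Aop u) x) x :=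
    (((contDiff_Aop hu).differentiable one_ne_zero) x).hasFDerivAt
  have dP : ∀ y v, fderiv ℝ (fun x => Psi u φ x y) x v
      = (fderiv ℝ (Aop u) x v) y (φ x) + Aop u x y (fderiv ℝ φ x v) := fun y v => by
    have h : HasFDerivAt (fun x => Psi u φ x y) _ x :=
      (dA.clm_apply (hasFDerivAt_const y x)).clm_apply dφ
    rw [h.fderiv]
    simp [add_comm]
  have hlin : IsLinearMap ℝ (lopT u φ x) := by
    constructor
    · intro y z
      unfold lopT
      simp only [dP, map_add, add_apply, inner_add_right, inner_add_left,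
        Finset.sum_add_distrib]
      ring
    · intro c y
      unfold lopT
      simp only [dP, map_smul, smul_apply, ← smul_add, inner_smul_right,
        real_inner_smul_left, ← Finset.mul_sum, smul_eq_mul]
      ring
  have hy : y = ∑ γ, y γ • EuclideanSpace.single γ (1 : ℝ) := by
    have := (EuclideanSpace.basisFun (Fin n) ℝ).sum_repr y
    simpa [EuclideanSpace.basisFun_apply] using this.symm
  have h1 := congrArg (hlin.mk' (lopT u φ x)) hy
  rw [map_sum] at h1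
  rw [show lopT u φ x y = hlin.mk' (lopT u φ x) y from rfl, h1]
  refine Finset.sum_congr rfl fun γ _ => ?_
  rw [map_smul, smul_eq_mul]
  rfl

/-- **node F2-JAC** -/
theorem jacP : JacP := by
  intro m n t a u c J D j r har hrepa hJ hD hr hM hL hDe horth hj
  set B := EuclideanSpace.basisFun (Fin n) ℝ with hB
  have hu : ContDiff ℝ 3 u := by
    rw [rep_syn hrepa]
    exact (contDiff_syn _ a).of_le (by norm_cast; omega)
  have hj2 : ContDiff ℝ 2 j := by
    rw [rep_syn hj]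
    exact contDiff_syn _ _
  have hw : Continuous (fun x => dns (fderiv ℝ u x)) :=
    Ell1_3.dns_contDiff.continuous.comp (hu.continuous_fderiv (by norm_num))
  have hlc := continuous_lop hu hj2
  set U := Metric.ball (0 : Euc m) r with hU
  -- values of `j`
  have hjv : ∀ x ∈ U, ∀ γ, dns (fderiv ℝ u x) * j x γ = (ev (J γ) x).re := fun x hx γ => by
    have h1 := hj x γ
    rw [ev_mul, hDe x hx, ← ev_real (hJ γ) x] at h1
    have h2 : j x γ = (ev (J γ) x).re * (dns (fderiv ℝ u x))⁻¹ := by exact_mod_cast h1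
    have h3 := (Ell1_3.dns_pos (fderiv ℝ u x)).ne'
    rw [h2]
    field_simp
  -- the test identity
  have key : ∀ β : Fin n, ∀ ζ : Euc m → ℝ, ContDiff ℝ ∞ ζ → HasCompactSupport ζ →
      tsupport ζ ⊆ U → ∫ x, ζ x • (dns (fderiv ℝ u x) * lop u j x β) = 0 := by
    intro β ζ hζ hζc hζs
    set φ : Euc m → Euc n := fun x => ζ x • EuclideanSpace.single β (1 : ℝ) with hφdef
    set b : XV m n 2 := Pi.single β (toX 2 (toS ζ hζc hζ)) with hb
    have hbγ : ∀ γ x, ev (b γ) x = ((if γ = β then ζ x else 0 : ℝ) : ℂ) := fun γ x => by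
      by_cases h : γ = β
      · subst h
        rw [hb, Pi.single_eq_same, ev_toX, toS_apply, if_pos rfl]
      · rw [hb, Pi.single_eq_of_ne h, ev_zero, if_neg h, Complex.ofReal_zero]
    have hbr : IsReal b := fun γ => by
      by_cases h : γ = β
      · subst h
        rw [hb, Pi.single_eq_same, star_toX_toS]
      · rw [hb, Pi.single_eq_of_ne h, star_zero]
    have hbrep : Rep b φ := fun x γ => by
      rw [hbγ]
      congr 1
      simp [hφdef, PiLp.smul_apply]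
    have hφ2 : ContDiff ℝ 2 φ := by
      have : ContDiff ℝ ∞ φ := hζ.smul contDiff_const
      exact this.of_le (WithTop.coe_le_coe.2 le_top)
    have hφs : tsupport φ ⊆ U := (closure_mono (fun x hx => by
      rw [Function.mem_support] at hx ⊢
      exact fun h => hx (by simp [hφdef, h]))).trans hζs
    have hφc : HasCompactSupport φ := hζc.smul_right
    have h0 := horth b fun γ x hx => by
      have : ζ x = 0 := by
        by_contra h
        have := mem_ball_zero_iff.1 (hζs (subset_tsupport ζ h))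
        linarith
      rw [hbγ, this]
      simp
    -- real form
    have hcont : ∀ γ, Continuous fun x => (ev (J γ) x).re *
        lopT u φ x (EuclideanSpace.single γ 1) := fun γ => by
      have h1 : (fun x => lopT u φ x (EuclideanSpace.single γ 1))
          = fun x => (ev (Lop (stdOrthonormalBasis ℝ (Euc m)) c b γ) x).re := by
        funext x
        rw [hL b φ hbr hbrep x γ, Complex.ofReal_re]
      have h2 : ∀ {N : ℕ} (z : X (Euc m) N), Continuous fun x => (ev z x).re := fun z =>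
        Complex.continuous_re.comp (contDiff_ev z).continuous
      rw [show (fun x => (ev (J γ) x).re * lopT u φ x (EuclideanSpace.single γ 1))
        = fun x => (ev (J γ) x).re * (ev (Lop (stdOrthonormalBasis ℝ (Euc m)) c b γ) x).re from
        by funext x; rw [congrFun h1 x]]
      exact (h2 _).mul (h2 _)
    have hint : ∀ γ, Integrable fun x => (ev (J γ) x).re *
        lopT u φ x (EuclideanSpace.single γ 1) := fun γ => by
      refine (hcont γ).integrable_of_hasCompactSupport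
        (HasCompactSupport.of_support_subset_isCompact hφc fun x hx => ?_)
      by_contra h
      exact hx (by simp only [lopT_zero_of_notMem h, mul_zero])
    have h1 : ∑ γ, ∫ x, (ev (J γ) x).re * lopT u φ x (EuclideanSpace.single γ 1) = 0 := by
      have h2 : ∀ γ, (∫ x, ev (J γ) x * ev (Lop (stdOrthonormalBasis ℝ (Euc m)) c b γ) x)
          = ((∫ x, (ev (J γ) x).re * lopT u φ x (EuclideanSpace.single γ 1) : ℝ) : ℂ) :=
        fun γ => by
        rw [← integral_complex_ofReal]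
        refine integral_congr_ae (Eventually.of_forall fun x => ?_)
        beta_reduce
        rw [hL b φ hbr hbrep x γ, Complex.ofReal_mul, ev_real (hJ γ) x]
      simp only [h2] at h0
      exact_mod_cast h0
    rw [← integral_finsetSum _ fun γ _ => hint γ] at h1
    have h2 := ibpP m n u j φ r hu hM hj2 hφ2 hφs
    have h3 : ∀ x, dns (fderiv ℝ u x) * lopT u φ x (j x)
        = ∑ γ, (ev (J γ) x).re * lopT u φ x (EuclideanSpace.single γ 1) := fun x => by
      by_cases hx : x ∈ U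
      · rw [lopT_sum hu hφ2 x (j x), Finset.mul_sum]
        refine Finset.sum_congr rfl fun γ _ => ?_
        rw [← mul_assoc, hjv x hx γ]
      · have hx' : x ∉ tsupport φ := fun h => hx (hφs h)
        simp only [lopT_zero_of_notMem hx', mul_zero, Finset.sum_const_zero]
    have h4 : ∀ x, dns (fderiv ℝ u x) * ⟪lop u j x, φ x⟫_ℝ
        = ζ x • (dns (fderiv ℝ u x) * lop u j x β) := fun x => by
      rw [hφdef, inner_smul_right, EuclideanSpace.inner_single_right, smul_eq_mul]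
      simp
      ring
    simp only [h3, h4] at h2
    rw [← h2]
    exact h1
  -- conclusion
  have hfin : ∀ β : Fin n, ∀ x ∈ U, dns (fderiv ℝ u x) * lop u j x β = 0 := fun β => by
    have hc : Continuous fun x => dns (fderiv ℝ u x) * lop u j x β := by
      refine hw.mul ?_
      exact (EuclideanSpace.proj (𝕜 := ℝ) β).continuous.comp hlc
    have h1 := IsOpen.ae_eq_zero_of_integral_contDiff_smul_eq_zero (μ := volume)
      (Metric.isOpen_ball (x := (0 : Euc m)) (ε := r))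
      (f := fun x => dns (fderiv ℝ u x) * lop u j x β)
      (hc.locallyIntegrable.locallyIntegrableOn _) (key β)
    have h2 := Measure.eqOn_open_of_ae_eq (μ := (volume : Measure (Euc m)))
      (f := fun x => dns (fderiv ℝ u x) * lop u j x β) (g := fun _ => 0)
      ((ae_restrict_iff' Metric.isOpen_ball.measurableSet).2 h1) Metric.isOpen_ball
      hc.continuousOn continuousOn_const
    exact fun x hx => h2 hx
  intro x hx
  ext β
  have h1 := hfin β x hx
  have h3 := (Ell1_3.dns_pos (fderiv ℝ u x)).ne'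
  simpa [h3] using h1

end Crest.Agent.R234.Mx20_397
end
end

-- ▼ part R234/Tl_164
section

/-!
# Row 234, node F2-TL (helper164): lower bound of the constant `θ`

`tlP : MG_570.TlP`.  Test function `ζ x = s * χ (r⁻¹ • x)` with a fixed bump function `χ` on
`Euc m` (`= 1` on `closedBall 0 (1/16)`, `= 0` off `ball 0 (1/8)`), `s = min 1 (r₀ / K)`.
-/

set_option autoImplicit false
set_option linter.unusedVariables false

open MeasureTheory Filter Topology Set
open scoped ENNReal NNReal ContDiff InnerProductSpace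
open Crest.GeometryTopology.Submanifold Crest.Agent.R234.Vf_884

noncomputable section

namespace Crest.Agent.R234.Tl_164

/-- A bump function with bounded derivative. -/
theorem exists_bump (m : ℕ) : ∃ (χ : Euc m → ℝ) (K : ℝ), 0 < K ∧ ContDiff ℝ 1 χ ∧
    (∀ x, 0 ≤ χ x) ∧ (∀ x, χ x ≤ 1) ∧ (∀ x, ‖x‖ < 1 / 16 → χ x = 1) ∧
    (∀ x, 1 / 8 ≤ ‖x‖ → χ x = 0) ∧ ∀ x, ‖fderiv ℝ χ x‖ ≤ K := by
  let f : ContDiffBump (0 : Euc m) := ⟨1 / 16, 1 / 8, by norm_num, by norm_num⟩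
  have hf : ContDiff ℝ 1 (f : Euc m → ℝ) := f.contDiff
  have hc : HasCompactSupport (f : Euc m → ℝ) := f.hasCompactSupport
  obtain ⟨K, hK⟩ := (hf.continuous_fderiv (by norm_num)).bounded_above_of_compact_support
    (hc.fderiv ℝ)
  refine ⟨f, max K 1, by positivity, hf, fun x => f.nonneg, fun x => f.le_one, fun x hx => ?_,
    fun x hx => ?_, fun x => (hK x).trans (le_max_left _ _)⟩
  · apply f.one_of_mem_closedBall
    rw [Metric.mem_closedBall, dist_zero_right]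
    exact hx.le
  · apply f.zero_of_le_dist
    rw [dist_zero_right]
    exact hx

theorem tlP : MG_570.TlP := by
  intro m hm Λ r₀ hΛ hr₀
  obtain ⟨χ, K, hK, hχ, h0, h1, hin, hout, hd⟩ := exists_bump m
  set s : ℝ := min 1 (r₀ / K) with hs
  have hs0 : 0 < s := lt_min one_pos (div_pos hr₀ hK)
  have hs1 : s ≤ 1 := min_le_left _ _
  have hsK : s * K ≤ r₀ := by
    have := min_le_right 1 (r₀ / K)
    rw [le_div_iff₀ hK] at this
    exact this
  set V : ℝ := 2 * (volume : Measure (Euc m)).real (Metric.ball 0 1) + 1 with hV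
  have hV0 : 0 < V := by positivity
  refine ⟨Λ⁻¹ / (2 * V), s * Λ⁻¹ / 2, by positivity, by positivity, ?_⟩
  intro k W π g r θ E hr hr2 hW hWb hg hg0 hg2 hE hmean
  have hr0 : 0 < r := hr₀.trans_le hr
  have : IsFiniteMeasure W := ⟨hW⟩
  set ζ : Euc m → ℝ := fun x => s * χ (r⁻¹ • x) with hζ
  have hζc : ContDiff ℝ 1 ζ := contDiff_const.mul (hχ.comp (contDiff_const_smul r⁻¹))
  have hζ0 : ∀ x, 0 ≤ ζ x := fun x => mul_nonneg hs0.le (h0 _)
  have hζs : ∀ x, ζ x ≤ s := fun x => by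
    have := mul_le_mul_of_nonneg_left (h1 (r⁻¹ • x)) hs0.le
    simpa [hζ] using this
  have hnorm : ∀ x : Euc m, ‖r⁻¹ • x‖ = ‖x‖ / r := fun x => by
    rw [norm_smul, Real.norm_eq_abs, abs_of_pos (inv_pos.2 hr0)]
    ring
  have hζout : ∀ x, r / 8 ≤ ‖x‖ → ζ x = 0 := fun x hx => by
    have : χ (r⁻¹ • x) = 0 := hout _ (by
      rw [hnorm, le_div_iff₀ hr0]; linarith)
    simp [hζ, this]
  have hζin : ∀ x, ‖x‖ < r / 16 → ζ x = s := fun x hx => by
    have : χ (r⁻¹ • x) = 1 := hin _ (by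
      rw [hnorm, div_lt_iff₀ hr0]; linarith)
    simp [hζ, this]
  have hζd : ∀ x, ‖fderiv ℝ ζ x‖ ≤ 1 := fun x => by
    have hh : HasFDerivAt ζ (s • ((fderiv ℝ χ (r⁻¹ • x)).comp
        (r⁻¹ • ContinuousLinearMap.id ℝ (Euc m)))) x := by
      have h3 : HasFDerivAt (fun x : Euc m => r⁻¹ • x) (r⁻¹ • ContinuousLinearMap.id ℝ (Euc m)) x :=
        (hasFDerivAt_id x).const_smul r⁻¹
      have h4 := ((hχ.differentiable (by norm_num)) (r⁻¹ • x)).hasFDerivAt
      exact (h4.comp x h3).const_mul s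
    rw [hh.fderiv]
    have e : (fderiv ℝ χ (r⁻¹ • x)).comp (r⁻¹ • ContinuousLinearMap.id ℝ (Euc m))
        = r⁻¹ • fderiv ℝ χ (r⁻¹ • x) := by
      ext y; simp
    rw [e, smul_smul, norm_smul, Real.norm_eq_abs,
      abs_of_pos (mul_pos hs0 (inv_pos.2 hr0))]
    calc s * r⁻¹ * ‖fderiv ℝ χ (r⁻¹ • x)‖ ≤ s * r⁻¹ * K :=
          mul_le_mul_of_nonneg_left (hd _) (by positivity)
      _ = (s * K) / r := by ring
      _ ≤ 1 := by
        rw [div_le_one hr0]; exact hsK.trans hr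
  have key := hmean ζ hζc (fun x hx => hζout x (by linarith))
    (fun x => by rw [abs_of_nonneg (hζ0 x)]; exact (hζs x).trans hs1) hζd
  -- lower bound of the measure side
  have hcW : Continuous fun p : Euc k × L k => ζ (π p.1) :=
    hζc.continuous.comp (π.continuous.comp continuous_fst)
  have hiW : Integrable (fun p : Euc k × L k => ζ (π p.1)) W := by
    refine Integrable.mono' (integrable_const s) hcW.aestronglyMeasurable
      (Eventually.of_forall fun p => ?_)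
    rw [Real.norm_eq_abs, abs_of_nonneg (hζ0 _)]; exact hζs _
  have hlow : s * Λ⁻¹ ≤ ∫ p, ζ (π p.1) ∂W := by
    set S : Set (Euc k × L k) := (fun p => π p.1) ⁻¹' Metric.ball 0 (r / 16) with hS
    have hSm : MeasurableSet S :=
      (Metric.isOpen_ball.preimage (π.continuous.comp continuous_fst)).measurableSet
    have hSl : Λ⁻¹ ≤ W.real S := by
      have := ENNReal.toReal_mono (measure_ne_top W S) hWb
      rwa [ENNReal.toReal_ofReal (by positivity)] at this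
    calc s * Λ⁻¹ ≤ s * W.real S := mul_le_mul_of_nonneg_left hSl hs0.le
      _ = ∫ p in S, s ∂W := by
        rw [setIntegral_const, smul_eq_mul, mul_comm]
      _ = ∫ p in S, ζ (π p.1) ∂W := by
        refine setIntegral_congr_fun hSm fun p hp => ?_
        have : ‖π p.1‖ < r / 16 := by
          simpa [hS, Metric.mem_ball, dist_zero_right] using hp
        exact (hζin _ this).symm
      _ ≤ ∫ p, ζ (π p.1) ∂W :=
        setIntegral_le_integral hiW (Eventually.of_forall fun p => hζ0 _)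
  -- upper bound of the volume side
  have hI0 : 0 ≤ ∫ x, ζ x * g x := integral_nonneg fun x => mul_nonneg (hζ0 x) (hg0 x)
  have hI1 : ∫ x, ζ x * g x ≤ s * V := by
    have hle : ∀ x, ζ x * g x ≤ (Metric.ball (0 : Euc m) 1).indicator (fun _ => s * 2) x := by
      intro x
      by_cases hx : x ∈ Metric.ball (0 : Euc m) 1
      · rw [indicator_of_mem hx]
        exact mul_le_mul (hζs x) (hg2 x) (hg0 x) hs0.le
      · rw [indicator_of_notMem hx]
        have : 1 ≤ ‖x‖ := by simpa [Metric.mem_ball, dist_zero_right] using hx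
        rw [hζout x (by linarith), zero_mul]
    have hi : Integrable ((Metric.ball (0 : Euc m) 1).indicator fun _ => s * 2) volume := by
      rw [integrable_indicator_iff measurableSet_ball]
      exact integrableOn_const (measure_ball_lt_top.ne)
    calc ∫ x, ζ x * g x ≤ ∫ x, (Metric.ball (0 : Euc m) 1).indicator (fun _ => s * 2) x :=
          integral_mono_of_nonneg
            (Eventually.of_forall fun x => mul_nonneg (hζ0 x) (hg0 x)) hi
            (Eventually.of_forall hle)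
      _ = (volume : Measure (Euc m)).real (Metric.ball 0 1) * (s * 2) := by
        rw [integral_indicator measurableSet_ball, setIntegral_const, smul_eq_mul]
      _ ≤ s * V := by
        rw [hV]; nlinarith [hs0]
  have hkey : s * Λ⁻¹ / 2 ≤ θ * ∫ x, ζ x * g x := by
    have := (abs_le.1 key).2
    linarith
  have hpos : 0 < s * Λ⁻¹ / 2 := by positivity
  have hθ : 0 < θ := by
    by_contra hneg
    push Not at hneg
    have := mul_nonpos_of_nonpos_of_nonneg hneg hI0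
    linarith
  have h5 : s * Λ⁻¹ / 2 ≤ θ * (s * V) := hkey.trans (mul_le_mul_of_nonneg_left hI1 hθ.le)
  rw [div_le_iff₀ (by positivity)]
  have h6 : s * Λ⁻¹ ≤ s * (θ * (2 * V)) := by linarith
  exact le_of_mul_le_mul_left h6 hs0

end Crest.Agent.R234.Tl_164
end
end

-- ▼ part R234/Sel21_570
section

/-!
Row 234, node F2-SEL (helper570): **SELECTION**, `SelP3`.
Leaves: `WJP` (helper186), `DnsP`, `NwP`, `JacP` (helper397), `TlP` (helper164).
-/

set_option autoImplicit false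

namespace Crest.Agent.R234.MG_570

/-- **F2-SEL**. -/
theorem selP3 : SelP3 :=
  Sel11_570.selP3_of
    (Sel11_570.fldP_of Wj_186.wjP Mx18_397.dnsP Mx20_397.jacP Tl_164.tlP) Mx19_397.nwP

end Crest.Agent.R234.MG_570
end

-- ▼ part R234/F11f_188

/-!
# Row 234, (F8) START, F11f (helper188): the start step and `StartAll`

* `startP` : field `start` of `Thy` with `Wp := preP`, for all constants.
* `startAll` : `Thya_685.StartAll`, from 290's `GLP`.
-/

set_option autoImplicit false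
set_option linter.unusedVariables false

open MeasureTheory Filter Topology Set
open scoped ENNReal NNReal ContDiff
open Crest.GeometryTopology.Submanifold Crest.Agent.R234.Vf_884
open Crest.Agent.R234.Main_456 (Frame Msys hgt NearQ)
open Crest.Agent.R234.AS_456 (hp vp)
open Crest.Agent.R234.MG_570 (MG SelP3)
open Crest.Agent.R234.F10a_188 Crest.Agent.R234.F10b_188 Crest.Agent.R234.F10d_188
open Crest.Agent.R234.Top_395 Crest.Agent.R234.Stp_518
open Crest.Agent.R234.F10t_188 Crest.Agent.R234.F10w_188 Crest.Agent.R234.F10y_188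
open Crest.Agent.R234.F10z_188 Crest.Agent.R234.F11a_188 Crest.Agent.R234.F11b_188
open Crest.Agent.R234.F11c_188 Crest.Agent.R234.F11d_188 Crest.Agent.R234.F11e_188
open Crest.Agent.R234.Up_456 (om2 topAll cmpAll lowr_core block_le plS_spec)

noncomputable section

namespace Crest.Agent.R234.F11f_188

variable {m n : ℕ}

/-- bound of the new normalised curvature. -/
theorem km_le {T κ₀ : ℝ} (hT : 3 ≤ T) (h0 : 0 < κ₀) :
    2 * (κ₀ * Real.exp (-(4 / 5 * (T + 1)))) ≤ κ₀ := by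
  have h1 : Real.exp (-(4 / 5 * (T + 1))) ≤ 1 / 2 := by
    rw [Real.exp_neg, inv_le_comm₀ (Real.exp_pos _) (by norm_num)]
    have := Real.add_one_le_exp (4 / 5 * (T + 1))
    linarith
  nlinarith

/-- the conditions on the record. -/
theorem rec_num (k : Cst) {κm L₁ CK : ℝ} (hκm : 0 < κm) (hCK : 5 ≤ CK)
    (hb : 4 * (k.b + 1) * κm ≤ 1) (hL1 : 8 * k.A ≤ L₁) (hL2 : 96 * (1 + k.c) ≤ L₁) (hL3 : 1 ≤ L₁) :
    2 + Real.exp (2 * k.b * κm + 4 * k.A / L₁) ≤ CK ∧
      32 * Real.exp (k.base L₁ κm) ≤ L₁ ^ 2 := by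
  have hL0 : 0 < L₁ := by linarith
  have hb0 := k.hb
  have hA0 := k.A_nonneg
  have h1 : 4 * k.A / L₁ ≤ 1 / 2 := by
    rw [div_le_iff₀ hL0]; linarith
  have h2 : 2 * k.b * κm + 4 * k.A / L₁ ≤ 1 := by nlinarith
  have h3 : Real.exp (2 * k.b * κm + 4 * k.A / L₁) ≤ 3 := by
    have h4 := Real.exp_le_exp.2 h2
    have h5 := Real.exp_one_lt_d9
    linarith
  refine ⟨by linarith, ?_⟩
  have hc : 0 < 1 + k.c := by have := k.hc; linarith
  have h4 : Real.exp (k.base L₁ κm) ≤ (1 + k.c) * 3 := by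
    have e1 : k.base L₁ κm = Real.log (1 + k.c) + (2 * k.b * κm + 4 * k.A / L₁) := by
      unfold Cst.base; ring
    rw [e1, Real.exp_add, Real.exp_log hc]
    gcongr
  nlinarith

set_option maxHeartbeats 2000000 in
/-- **field `start`.** -/
theorem startP (hG : GLP) (m n : ℕ) (hm : 3 ≤ m) (hn : 1 ≤ n) : Thya_685.Ev fun _ Q d =>
    ∀ (U : Set (Euc (m + n))) (D : VarifoldData m (m + n)) (x : Euc (m + n)) (r₁ : ℝ),
      Env m U D Q x d.om r₁ → x ∈ singularSet m (m + n) U D →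
        ∀ S, StartH (d.W (n := n) D Q x) (preP d.c (VD D) x (om2 m d) S) (d.fl D x r₁) d.Λ₀ d.κm
          d.P' (3 / 2) (1 / 2) (23 / 20) S := by
  obtain ⟨Ks₀, NA, hNA2, HA⟩ := selA MG_570.selP3 Sp_685.supV m n (by omega)
  obtain ⟨KF, HF⟩ := FL10_567.flAll m n (by omega)
  refine ⟨max Ks₀ KF, fun Ks hKs K hK Q hQ => ?_⟩
  have hKs0 : Ks₀ ≤ Ks := (le_max_left _ _).trans hKs
  obtain ⟨NF, HF⟩ := HF Ks ((le_max_right _ _).trans hKs) K hK Q hQ
  obtain ⟨Nw, hNw2, HW⟩ := window Up_456.upV (End_395.posV_of Lvs_214.lowV) Mv_504.monV hG m n Q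
    hm hn (by omega)
  refine ⟨max (max NA NF) Nw, fun N hN => ?_⟩
  have hN1 : NA ≤ N := ((le_max_left _ _).trans (le_max_left _ _)).trans hN
  have hN2 : NF ≤ N := ((le_max_right _ _).trans (le_max_left _ _)).trans hN
  have hN3 : Nw ≤ N := (le_max_right _ _).trans hN
  have hN22 : 2 ≤ N := hNw2.trans hN3
  obtain ⟨TF, HF⟩ := HF N hN2
  refine ⟨max TF 3, fun T hT c₀ hc₀ G CK P K₀ k hG3 hCK hP hK₀ => ?_⟩
  have hT3 : 3 ≤ T := (le_max_right _ _).trans hT
  obtain ⟨Λ, hΛ1, HFP⟩ := F10x_188.fp_near (n := n) (k := m + n) (show 1 ≤ m by omega) Q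
    (show 1 ≤ Q by omega)
  obtain ⟨κA, εA, LA, hκA, hεA, hLA, HA⟩ := HA N hN1 (m + n) Q Λ
  obtain ⟨κw, εw, Lw, hκw, hεw, hLw, HW⟩ := HW N hN3 Λ
  obtain ⟨κp, εp, hκp, hεp, HP⟩ := mkPre Swb_159.rotI m n N Q (m + n) Λ (by omega) hN22
  obtain ⟨ε₀, hε₀, e1, e2, e3, e4⟩ : ∃ ε₀ : ℝ, 0 < ε₀ ∧ ε₀ < 1 ∧ ε₀ ≤ εA ∧ ε₀ ≤ εw ∧ ε₀ ≤ εp := by
    refine ⟨min (1 / 2) (min εA (min εw εp)), by positivity, ?_, ?_, ?_, ?_⟩
    · exact (min_le_left _ _).trans_lt (by norm_num)
    · exact (min_le_right _ _).trans (min_le_left _ _)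
    · exact (min_le_right _ _).trans ((min_le_right _ _).trans (min_le_left _ _))
    · exact (min_le_right _ _).trans ((min_le_right _ _).trans (min_le_right _ _))
  obtain ⟨wz, hwz0, hwz1, HFP⟩ := HFP ε₀ hε₀ e1
  obtain ⟨κF, hκF, HF⟩ := HF T ((le_max_left _ _).trans hT) c₀ hc₀ G CK P K₀ k hG3 hCK hP hK₀
  have hkb := k.hb
  obtain ⟨κs, hκs, s1, s2, s3, s4, s5, s6⟩ : ∃ κs : ℝ, 0 < κs ∧ κs ≤ κF ∧ κs ≤ κA ∧ κs ≤ κw ∧
      κs ≤ κp ∧ κs ≤ wz / 2 ∧ 4 * (k.b + 1) * κs ≤ 1 := by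
    refine ⟨min (min κF κA) (min (min κw κp) (min (wz / 2) (1 / (4 * (k.b + 1))))), ?_, ?_, ?_, ?_,
      ?_, ?_, ?_⟩
    · positivity
    · exact (min_le_left _ _).trans (min_le_left _ _)
    · exact (min_le_left _ _).trans (min_le_right _ _)
    · exact (min_le_right _ _).trans ((min_le_left _ _).trans (min_le_left _ _))
    · exact (min_le_right _ _).trans ((min_le_left _ _).trans (min_le_right _ _))
    · exact (min_le_right _ _).trans ((min_le_right _ _).trans (min_le_left _ _))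
    · have h1 : min (min κF κA) (min (min κw κp) (min (wz / 2) (1 / (4 * (k.b + 1))))) ≤
          1 / (4 * (k.b + 1)) :=
        (min_le_right _ _).trans ((min_le_right _ _).trans (min_le_right _ _))
      rwa [le_div_iff₀ (by positivity), mul_comm] at h1
  refine ⟨κs, hκs, fun κ₀ h0 hκ => ?_⟩
  obtain ⟨LF, HF⟩ := HF κ₀ h0 (hκ.trans s1)
  obtain ⟨κm, hκmdef⟩ : ∃ κm : ℝ, κm = κ₀ * Real.exp (-(4 / 5 * (T + 1))) := ⟨_, rfl⟩
  have hκm0 : 0 < κm := by rw [hκmdef]; positivity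
  have hκm2 : 2 * κm ≤ κ₀ := by rw [hκmdef]; exact km_le hT3 h0
  have hκms : κm ≤ κs := by linarith
  refine ⟨max LF (max 1 (max (8 * k.A) (96 * (1 + k.c)))), fun L₁ hL₁ => ?_⟩
  simp only [max_le_iff] at hL₁
  obtain ⟨hLF, hL1, hL8, hL96⟩ := hL₁
  obtain ⟨hCK2, hb2⟩ := rec_num k hκm0 hCK (by
    have : 4 * (k.b + 1) * κm ≤ 4 * (k.b + 1) * κs :=
      mul_le_mul_of_nonneg_left hκms (by positivity)
    linarith) hL8 hL96 hL1
  obtain ⟨ΛF, HF⟩ := HF L₁ hLF
  obtain ⟨c, hc⟩ : ∃ c : Cn, c = ⟨N, Ks, T, κ₀, L₁, G, CK⟩ := ⟨_, rfl⟩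
  have c1 : c.N = N := by rw [hc]
  have c2 : c.Ks = Ks := by rw [hc]
  have c3 : c.T = T := by rw [hc]
  have c4 : c.κ₀ = κ₀ := by rw [hc]
  have c5 : c.L₁ = L₁ := by rw [hc]
  have c6 : c.G = G := by rw [hc]
  have c7 : c.CK = CK := by rw [hc]
  obtain ⟨LS, hLS, HS⟩ := mkState (m := m) (n := n) (k := m + n) c k (κm := κm) (P := 3 * P)
    (by rw [c3]; exact hT3) (by rw [c6]; linarith) hκm0 (by rw [c4]; exact hκm2)
    (by rw [c5]; linarith) (by rw [c5, c7]; exact hCK2) (by rw [c5]; exact hb2) (by positivity)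
  obtain ⟨LP, hLP, HP⟩ := HP c κm c1 hκm0 (hκms.trans s4) (by rw [c4]; exact hκm2)
  refine ⟨max (max ΛF (max LA Lw)) (max (max LS LP) (max (2 / wz) (8 * k.A))), fun Λ₀ hΛ₀ => ?_⟩
  simp only [max_le_iff] at hΛ₀
  obtain ⟨⟨l1, l2, l3⟩, ⟨l4, l5⟩, l6, l7⟩ := hΛ₀
  have hΛ100 : 100 ≤ Λ₀ := hLA.trans l2
  obtain ⟨oF, hoF, HF⟩ := HF Λ₀ l1
  obtain ⟨oms, homs, o1, o2, o3⟩ : ∃ oms : ℝ, 0 < oms ∧ oms ≤ wz ∧
      oms * Real.exp ((m + 2) * c₀) ≤ wz ∧ Real.exp (m + 2) * oms ≤ oF := by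
    refine ⟨min wz (min (wz * Real.exp (-((m + 2) * c₀))) (oF * Real.exp (-((m:ℝ) + 2)))),
      by positivity, min_le_left _ _, ?_, ?_⟩
    · have h1 : min wz (min (wz * Real.exp (-((m + 2) * c₀))) (oF * Real.exp (-((m:ℝ) + 2)))) ≤
          wz * Real.exp (-((m + 2) * c₀)) := (min_le_right _ _).trans (min_le_left _ _)
      have h2 := mul_le_mul_of_nonneg_right h1 (Real.exp_pos ((m + 2) * c₀)).le
      rwa [mul_assoc wz, ← Real.exp_add, neg_add_cancel, Real.exp_zero, mul_one] at h2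
    · have h1 : min wz (min (wz * Real.exp (-((m + 2) * c₀))) (oF * Real.exp (-((m:ℝ) + 2)))) ≤
          oF * Real.exp (-((m:ℝ) + 2)) := (min_le_right _ _).trans (min_le_right _ _)
      have h2 := mul_le_mul_of_nonneg_left h1 (Real.exp_pos ((m:ℝ) + 2)).le
      have h3 : Real.exp ((m:ℝ) + 2) * (oF * Real.exp (-((m:ℝ) + 2))) =
          oF * (Real.exp ((m:ℝ) + 2) * Real.exp (-((m:ℝ) + 2))) := by ring
      rwa [h3, ← Real.exp_add, add_neg_cancel, Real.exp_zero, mul_one] at h2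
  refine ⟨oms, homs, fun om hom0 hom U D x r₁ hE hx S => ?_⟩
  have hV := stat_VD hE.int hE.st
  -- flatness bounds `Λ`
  have hE' : Env m U D Q x (Real.exp (m + 2) * om) r₁ := by
    refine ⟨hE.opn, hE.int, hE.st, hE.Q1, hE.Th, hE.r0, hE.sub, fun r h1 h2 => ?_⟩
    refine (hE.drop r h1 h2).trans (add_le_add le_rfl (ENNReal.ofReal_le_ofReal ?_))
    have h3 : (1:ℝ) ≤ Real.exp ((m:ℝ) + 2) := Real.one_le_exp (by positivity)
    exact le_mul_of_one_le_left hom0.le h3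
  have hfl : FlatH (world (m := m) (n := n) c k κm (VD D) Q x)
      (flatL m (VD D) x (Real.exp (m + 2) * om) c₀ r₁) Λ₀ κm := by
    rw [hc, hκmdef]
    exact (HF (Real.exp (m + 2) * om) (by positivity)
      ((mul_le_mul_of_nonneg_left hom (Real.exp_pos _).le).trans o3) U D x r₁ hE').1
  -- the step
  show StartH (world (m := m) (n := n) ⟨N, Ks, T, κ₀, L₁, G, CK⟩ k (κ₀ * Real.exp (-(4 / 5 * (T + 1)))) (VD D) Q x)
    (preP ⟨N, Ks, T, κ₀, L₁, G, CK⟩ (VD D) x (om * Real.exp ((m + 2) * c₀)) S)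
    (flatL m (VD D) x om c₀ r₁) Λ₀ (κ₀ * Real.exp (-(4 / 5 * (T + 1))))
    (P * Real.exp (2 * k.b * (κ₀ * Real.exp (-(4 / 5 * (T + 1)))) + 4 * k.A / Λ₀)) (3 / 2) (1 / 2)
    (23 / 20) S
  rw [← hc, ← hκmdef]
  rintro M l hl1 hl2 ⟨hMlb, hPs⟩ hflat hL hκ'
  change Λ₀ ≤ M.Lb at hL
  change M.κ + ‖hp M.π - plS m (VD D) x (om * Real.exp ((m + 2) * c₀))
    (8 * Real.exp (S + 1 / 8))‖ ≤ κm at hκ'
  obtain ⟨hr8, hpl⟩ := plane_at hV hE.sub (by linarith) hom0.le hflat hl1 hl2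
  obtain ⟨hP0G, hP0x⟩ := plS_spec hpl
  obtain ⟨P0, hP0⟩ : ∃ P0, P0 = plS m (VD D) x (om * Real.exp ((m + 2) * c₀))
    (8 * Real.exp (S + 1 / 8)) := ⟨_, rfl⟩
  rw [← hP0] at hκ' hP0G hP0x
  have hMS : M.S = Real.exp (S + 1 / 8) := by unfold Mo.S; rw [hMlb]
  have hsub8 : Metric.closedBall x (8 * Real.exp (S + 1 / 8)) ⊆ U :=
    (Metric.closedBall_subset_closedBall hr8).trans hE.sub
  have hrat := (hE.drop (8 * Real.exp (S + 1 / 8)) (by positivity) hr8).trans
    (add_le_add le_rfl (ENNReal.ofReal_le_ofReal (hom.trans o1)))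
  have ho2 : om * Real.exp ((m + 2) * c₀) ≤ wz :=
    (mul_le_mul_of_nonneg_right hom (Real.exp_pos _).le).trans o2
  have hFPall : ∀ (π' : Euc (m + n) →L[ℝ] Euc m) (ρ' : Euc (m + n) →L[ℝ] Euc n), Frame π' ρ' →
      ‖hp π' - P0‖ ≤ wz → FlatPack D x Q M.S ε₀ Λ π' ρ' := by
    intro π' ρ' hf' h1
    rw [hMS]
    exact HFP hE.opn hE.int hE.st (Real.exp_pos _) hsub8 hE.Th hrat π' ρ' hf' P0
      (hP0x.trans ho2) h1
  have hn0 := norm_nonneg (hp M.π - P0)
  have hκ0 := hPs.cls.κ0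
  have hMκ : M.κ ≤ κm := by linarith
  have hang : ‖hp M.π - P0‖ ≤ wz / 2 := by linarith
  have hmg := hPs.cls.mg
  rw [c1] at hmg
  have hbk : Bk N U D Q x ε₀ Λ M l :=
    ⟨hE.opn, hE.int, hE.st, hE.Q1, hE.Th, by rw [hMS]; exact hsub8,
      hFPall _ _ hPs.cls.frame (by linarith), hκ0, hmg, by linarith, by linarith⟩
  have hL0 : 0 < M.Lb := by linarith
  have hLinv : 1 / M.Lb ≤ wz / 2 := by
    rw [div_le_iff₀ hwz0] at l6
    rw [div_le_iff₀ hL0]
    have : wz * Λ₀ ≤ wz * M.Lb := mul_le_mul_of_nonneg_left hL hwz0.le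
    linarith
  have he := eps_pos hL0
  have he1 := eps_le (show 100 ≤ M.Lb by linarith)
  obtain ⟨M', hsel⟩ := HA U D x ε₀ M l M.Lb hbk (by linarith) e2 (by linarith) (by linarith)
    hPs.cls.du hPs.I_le hPs.sup
  have e8 : 12 * eps M.Lb = 3 / 2 * M.Lb ^ (-(1 / 2) : ℝ) := by
    unfold eps ww; ring
  rcases HW Ks₀ U D x ε₀ M M' l M.Lb hbk (by linarith) e3 (by linarith) (by linarith) hPs.I_le
    hPs.cls.du hx hsel with ⟨g1, g2⟩ | ⟨l', g1, g2, g3, g4, g5, g6, g7⟩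
  · obtain ⟨M'', q1, q2, q3, q4⟩ := HP Ks₀ U D x ε₀ M M' l M.Lb hbk hMκ e4 (by linarith)
      (by linarith) hPs.cls.du hsel (fun π' ρ' hf' h => hFPall π' ρ' hf' (by
        have h5 : ‖hp π' - P0‖ ≤ ‖hp π' - hp M.π‖ + ‖hp M.π - P0‖ := norm_sub_le_norm_sub_add_norm_sub _ _ _
        linarith)) g2 g1
    refine ⟨M'', l - 12 * eps M.Lb, ?_, by linarith, Or.inr ⟨⟨q1.trans hMlb, q3⟩, ?_, ?_⟩⟩
    · show l - 3 / 2 * M.Lb ^ (-(1 / 2) : ℝ) ≤ _
      rw [e8]
    · show 23 / 20 * M.Lb ≤ M''.Lb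
      rw [q2]
    · show M''.κ + ‖hp M''.π - plS m (VD D) x (om * Real.exp ((m + 2) * c₀))
        (8 * Real.exp (S + 1 / 8))‖ ≤ (M.κ + ‖hp M.π - plS m (VD D) x
          (om * Real.exp ((m + 2) * c₀)) (8 * Real.exp (S + 1 / 8))‖) + 1 / M.Lb
      rw [← hP0]
      have h5 : ‖hp M''.π - P0‖ ≤ ‖hp M''.π - hp M.π‖ + ‖hp M.π - P0‖ :=
        norm_sub_le_norm_sub_add_norm_sub _ _ _
      linarith
  · obtain ⟨M'', q1, q2, q3, q4⟩ := HS D x Q M M' l M.Lb l' (by linarith) hPs.cls.frame hκ0 hMκ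
      (by rw [hMlb]; linarith) (by rw [hMlb]; linarith) hPs.cls.du
      (by rw [c1, c2]; exact Sel1.mono_Ks hsel hKs0) g1 g2 g3 g4 g5 g6 g7
    have hqq := qq_pos hL0
    refine ⟨M'', l', ?_, by linarith, Or.inl ⟨q1, hfl M'' l' q1
      (flat_shrink hV hE.sub hom0.le hflat (by linarith) (by linarith)) q4, ?_, ?_⟩⟩
    · show l - 3 / 2 * M.Lb ^ (-(1 / 2) : ℝ) ≤ _
      rw [← e8]; linarith
    · refine le_trans (mul_le_mul_of_nonneg_right ?_ ?_) q2
      · have h5 : Real.exp (2 * k.b * κm + 4 * k.A / Λ₀) ≤ 3 := by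
          have h6 : 4 * k.A / Λ₀ ≤ 1 / 2 := by
            rw [div_le_iff₀ (by linarith)]; linarith
          have h7 : 4 * (k.b + 1) * κm ≤ 1 := by
            have : 4 * (k.b + 1) * κm ≤ 4 * (k.b + 1) * κs :=
              mul_le_mul_of_nonneg_left hκms (by positivity)
            linarith
          have h8 : 2 * k.b * κm + 4 * k.A / Λ₀ ≤ 1 := by nlinarith
          have h9 := Real.exp_le_exp.2 h8
          have h10 := Real.exp_one_lt_d9
          linarith
        have h6 := mul_le_mul_of_nonneg_left h5 hP.le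
        linarith
      · have := (world (m := m) (n := n) c k κm (VD D) Q x).f_gt M'' l' q1
        linarith
    · refine q3.trans ?_
      show M.κ + 1 / M.Lb ≤ (M.κ + ‖hp M.π - plS m (VD D) x
          (om * Real.exp ((m + 2) * c₀)) (8 * Real.exp (S + 1 / 8))‖) + 1 / M.Lb
      rw [← hP0]
      linarith

theorem lowr_mono {V : Measure (Euc (m + n) × L (m + n))} {x : Euc (m + n)}
    {κ A c₁ Cc Cc' l Λ : ℝ} (hC : Cc ≤ Cc') (h : Lowr m n V x κ A c₁ Cc l Λ) :
    Lowr m n V x κ A c₁ Cc' l Λ := by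
  obtain ⟨π, ρ, hf, u, g, s, A', h1, h2, h3, h4⟩ := h
  exact ⟨π, ρ, hf, u, g, s, A', h1, h2, h3,
    h4.trans (mul_le_mul_of_nonneg_right hC (Real.exp_pos _).le)⟩

/-- **`StartAll`** from `GLP`. -/
theorem startAll (hG : GLP) (m n : ℕ) (hm : 3 ≤ m) (hn : 1 ≤ n) : Thya_685.StartAll m n := by
  refine ⟨3 / 2, 1 / 2, 23 / 20, by norm_num, by norm_num, by norm_num, ?_⟩
  obtain ⟨Ks₀, H⟩ := (((startP hG m n hm hn).and (topP m n (by omega))).and
    (cmpP m n (by omega))).and (cmpAll m n (by omega))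
  refine ⟨Ks₀, fun Ks hKs K hK Q hQ => ?_⟩
  obtain ⟨N₀, H⟩ := H Ks hKs K hK Q hQ
  refine ⟨N₀, fun N hN => ?_⟩
  obtain ⟨T₀, H⟩ := H N hN
  refine ⟨max T₀ 0, fun T hT c₀ hc₀ G CK P K₀ k a1 a2 a3 a4 => ?_⟩
  have hT0 : 0 ≤ T := (le_max_right _ _).trans hT
  obtain ⟨κs, hκs, H⟩ := H T ((le_max_left _ _).trans hT) c₀ hc₀ G CK P K₀ k a1 a2 a3 a4
  refine ⟨κs, hκs, fun κ₀ h0 hκ => ?_⟩
  obtain ⟨Ls, H⟩ := H κ₀ h0 hκ
  refine ⟨Ls, fun L₁ hL₁ => ?_⟩
  obtain ⟨Λs, H⟩ := H L₁ hL₁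
  refine ⟨Λs, fun Λ₀ hΛ => ?_⟩
  obtain ⟨oms, homs, H⟩ := H Λ₀ hΛ
  refine ⟨oms, homs, fun om ho1 ho2 => ?_⟩
  obtain ⟨⟨⟨H1, H2⟩, Cp, hCp, H3⟩, Cc, hCc, H4⟩ := H om ho1 ho2
  intro U D x r₁ hE hx
  have H3 := H3 U D x r₁ hE
  obtain ⟨H4, -⟩ := H4 U D x r₁ hE
  refine ⟨preP _ (VD D) x (om2 m _), 1 / 8, T + 3, 3, max Cp Cc, by norm_num, by linarith,
    by norm_num, lt_max_of_lt_left hCp, H1 U D x r₁ hE hx, fun S hS => H2 U D x r₁ hE S hS, ?_, ?_⟩
  · intro M l h1 h2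
    exact lowr_mono (le_max_right _ _) (H4 M l h1 h2)
  · intro S M l h1 h2 h3 h4 _
    exact lowr_mono (le_max_left _ _) (H3 _ S M l h1 h2 h3 h4)

end Crest.Agent.R234.F11f_188
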