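import Crest.Agent.R234.Sw3_733

-- ▼ part R234/Sw4_733
section

/-! # Row 234, VF-F6 (helper733), part 4: pointwise comparison of the test functions -/

set_option autoImplicit false
set_option linter.unusedSectionVars false

open MeasureTheory Set Metric Filter Topology
open scoped ENNReal NNReal ContDiff
open Crest.Agent.R234.Ell1_3 Crest.Agent.R234.Fm_209

noncomputable section

namespace Crest.Agent.R234.Sw_733

variable {F V : Type} [NormedAddCommGroup F] [InnerProductSpace ℝ F] [FiniteDimensional ℝ F]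
  [NormedAddCommGroup V] [InnerProductSpace ℝ V] [FiniteDimensional ℝ V]

/-- a `C²` test function with explicit bounds. -/
structure Tst (χ : F → ℝ) (c : ℝ) : Prop where
  cd : ContDiff ℝ 2 χ
  c0 : 0 ≤ c
  b0 : ∀ v, |χ v| ≤ c
  b1 : ∀ v, ‖fderiv ℝ χ v‖ ≤ c
  b2 : ∀ v, ‖fderiv ℝ (fderiv ℝ χ) v‖ ≤ c

namespace Tst

variable {χ : F → ℝ} {c : ℝ}

theorem diff (h : Tst χ c) (v : F) : DifferentiableAt ℝ χ v :=
  (h.cd.differentiable (by norm_num)) v

theorem diff1 (h : Tst χ c) (v : F) : DifferentiableAt ℝ (fderiv ℝ χ) v :=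
  ((h.cd.fderiv_right (m := 1) (by norm_num)).differentiable one_ne_zero) v

theorem lip (h : Tst χ c) (v z : F) : |χ z - χ v| ≤ c * ‖z - v‖ := by
  have := convex_univ.norm_image_sub_le_of_norm_fderiv_le (𝕜 := ℝ) (f := χ) (C := c)
    (fun v _ => h.diff v) (fun v _ => h.b1 v) (mem_univ v) (mem_univ z)
  rwa [Real.norm_eq_abs] at this

theorem lip1 (h : Tst χ c) (v z : F) : ‖fderiv ℝ χ z - fderiv ℝ χ v‖ ≤ c * ‖z - v‖ :=
  convex_univ.norm_image_sub_le_of_norm_fderiv_le (𝕜 := ℝ)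
    (fun v _ => h.diff1 v) (fun v _ => h.b2 v) (mem_univ v) (mem_univ z)

theorem taylor (h : Tst χ c) (v z : F) : |χ z - χ v - fderiv ℝ χ v (z - v)| ≤ c * ‖z - v‖ ^ 2 := by
  have := taylor1 (f := χ) convex_univ h.c0 (fun v _ => h.diff v) (fun v _ z _ => h.lip1 v z)
    (mem_univ v) (mem_univ z)
  rwa [Real.norm_eq_abs] at this

end Tst

/-- derivative of `χ • w`. -/
theorem fderiv_test {χ : F → ℝ} {w : F → V} {a : F} (hχ : DifferentiableAt ℝ χ a)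
    (hw : DifferentiableAt ℝ w a) :
    fderiv ℝ (fun v => χ v • w v) a = χ a • fderiv ℝ w a + (fderiv ℝ χ a).smulRight (w a) :=
  (hχ.hasFDerivAt.smul hw.hasFDerivAt).fderiv

theorem trc_smulRight (ℓ : F →L[ℝ] ℝ) (w : V) (K : V →L[ℝ] F) :
    trc V ((ℓ.smulRight w) ∘L K) = ℓ (K w) := by
  have h1 : (ℓ.smulRight w) ∘L K = (ℓ ∘L K).smulRight w := by
    ext v; simp
  rw [h1, trc_apply]
  have h2 : ((ℓ ∘L K).smulRight w : V →L[ℝ] V) =
      (((ℓ ∘L K : V →L[ℝ] ℝ) : V →ₗ[ℝ] ℝ).smulRight w : V →ₗ[ℝ] V) := rfl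
  rw [h2, LinearMap.trace_smulRight]
  rfl

/-- **pointwise comparison of the test functions.** -/
theorem Cl.test_pt {u u' : F → V} {D : Set F} {κ τ : ℝ} (h : Cl u u' D κ τ) {χ : F → ℝ} {c : ℝ}
    (hχ : Tst χ c) {a : F} {b : V} {x x' : F} {y y' : V} {K : V →L[ℝ] F}
    (hf : Foot u a b x y) (hf' : Foot u' a b x' y') (ha : a ∈ D) (hx : x ∈ D) (hx' : x' ∈ D)
    (hy : ‖y‖ ≤ 1 / 4) (hK : ‖K‖ ≤ 1) :
    |χ x' - χ x + trc V (fderiv ℝ (fun v => χ v • (u' v - u v)) a ∘L K) -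
      χ x * trc F (KT (fderiv ℝ u x) ∘L (fderiv ℝ u' x - fderiv ℝ u x))| ≤
      (6 + 3 * ‖trc V‖) * c * (τ ^ 2 + τ * ‖y‖ + τ * ‖K - KT (fderiv ℝ u x)‖) := by
  obtain ⟨n1, n2, n3⟩ := h.foot_close hf hf' hx hx' hy
  have n4 := h.foot_expand hf hf' hx hx' hy
  have hκ0 := h.κ0
  have hκ1 := h.κ1
  have hτ0 := h.τ0
  have hτ1 := h.τ1
  have hc0 := hχ.c0
  have ht0 : 0 ≤ ‖trc V‖ := (trc V).opNorm_nonneg
  have hy0 : 0 ≤ ‖y‖ := norm_nonneg _
  have hk0 : 0 ≤ ‖K - KT (fderiv ℝ u x)‖ := norm_nonneg _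
  set q := fderiv ℝ u x with hq
  set w : F → V := fun v => u' v - u v with hw
  have hwd : ∀ v, HasFDerivAt w (fderiv ℝ u' v - fderiv ℝ u v) v := fun v =>
    (h.diff_u' v).hasFDerivAt.sub (h.diff_u v).hasFDerivAt
  have hwf : fderiv ℝ w a = fderiv ℝ u' a - fderiv ℝ u a := (hwd a).fderiv
  have hax : ‖a - x‖ ≤ ‖y‖ := by
    have h1 : a - x = -(adjL q y) := by rw [hf.1]; abel
    rw [h1, norm_neg]
    refine ((adjL q).le_opNorm _).trans ?_
    rw [norm_adjL]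
    exact mul_le_of_le_one_left hy0 ((h.d1 x hx).trans (by linarith))
  rw [fderiv_test (hχ.diff a) (hwd a).differentiableAt, hwf, ContinuousLinearMap.add_comp, map_add,
    trc_smulRight]
  have e0 : (χ a • (fderiv ℝ u' a - fderiv ℝ u a)) ∘L K =
      χ a • ((fderiv ℝ u' a - fderiv ℝ u a) ∘L K) := rfl
  rw [e0, map_smul, smul_eq_mul]
  set Wa := fderiv ℝ u' a - fderiv ℝ u a with hWa
  set Wx := fderiv ℝ u' x - q with hWx
  have e1 : trc F (KT q ∘L Wx) = trc V (Wx ∘L KT q) := trc_comp_comm _ _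
  rw [e1]
  set d := x' - x with hd
  -- the pieces
  have p1 : |χ x' - χ x - fderiv ℝ χ x d| ≤ c * τ ^ 2 := by
    refine (hχ.taylor x x').trans ?_
    exact mul_le_mul_of_nonneg_left (pow_le_pow_left₀ (norm_nonneg _) n1 2) hc0
  have p2 : |fderiv ℝ χ x (d + KT q (w x))| ≤ c * (5 * τ ^ 2 + 2 * τ * ‖y‖) := by
    rw [← Real.norm_eq_abs]
    refine ((fderiv ℝ χ x).le_opNorm _).trans ?_
    exact mul_le_mul (hχ.b1 x) n4 (norm_nonneg _) hc0
  have hwa : ‖w a‖ ≤ τ := h.w0 a ha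
  have hwx : ‖w x‖ ≤ τ := h.w0 x hx
  have hwax : ‖w a - w x‖ ≤ τ * ‖y‖ :=
    (h.w_lip hx ha).trans (mul_le_mul_of_nonneg_left hax hτ0)
  have hWax : ‖Wa - Wx‖ ≤ τ * ‖y‖ :=
    (h.dw_lip hx ha).trans (mul_le_mul_of_nonneg_left hax hτ0)
  have hWan : ‖Wa‖ ≤ τ := h.w1 a ha
  have hWxn : ‖Wx‖ ≤ τ := h.w1 x hx
  have p3 : |(fderiv ℝ χ a - fderiv ℝ χ x) (K (w a))| ≤ c * (τ * ‖y‖) := by
    rw [← Real.norm_eq_abs]
    refine ((fderiv ℝ χ a - fderiv ℝ χ x).le_opNorm _).trans ?_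
    have h1 : ‖K (w a)‖ ≤ τ := (K.le_opNorm _).trans ((mul_le_mul hK hwa (norm_nonneg _)
      zero_le_one).trans (by rw [one_mul]))
    calc ‖fderiv ℝ χ a - fderiv ℝ χ x‖ * ‖K (w a)‖ ≤ (c * ‖y‖) * τ :=
          mul_le_mul ((hχ.lip1 x a).trans (mul_le_mul_of_nonneg_left hax hc0)) h1
            (norm_nonneg _) (by positivity)
      _ = c * (τ * ‖y‖) := by ring
  have p4 : |fderiv ℝ χ x (K (w a - w x))| ≤ c * (τ * ‖y‖) := by
    rw [← Real.norm_eq_abs]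
    refine ((fderiv ℝ χ x).le_opNorm _).trans ?_
    refine mul_le_mul (hχ.b1 x) ?_ (norm_nonneg _) hc0
    exact (K.le_opNorm _).trans ((mul_le_mul hK hwax (norm_nonneg _) zero_le_one).trans
      (by rw [one_mul]))
  have p5 : |fderiv ℝ χ x ((K - KT q) (w x))| ≤ c * (τ * ‖K - KT q‖) := by
    rw [← Real.norm_eq_abs]
    refine ((fderiv ℝ χ x).le_opNorm _).trans ?_
    refine mul_le_mul (hχ.b1 x) ?_ (norm_nonneg _) hc0
    refine ((K - KT q).le_opNorm _).trans ?_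
    rw [mul_comm]
    exact mul_le_mul_of_nonneg_right hwx hk0
  have hcomp1 : ‖Wa ∘L K‖ ≤ τ := (ContinuousLinearMap.opNorm_comp_le _ _).trans
    ((mul_le_mul hWan hK (norm_nonneg _) hτ0).trans (by rw [mul_one]))
  have p6 : |(χ a - χ x) * trc V (Wa ∘L K)| ≤ ‖trc V‖ * c * (τ * ‖y‖) := by
    rw [abs_mul]
    calc |χ a - χ x| * |trc V (Wa ∘L K)| ≤ (c * ‖y‖) * (‖trc V‖ * τ) :=
          mul_le_mul ((hχ.lip x a).trans (mul_le_mul_of_nonneg_left hax hc0))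
            ((abs_trc_le _).trans (mul_le_mul_of_nonneg_left hcomp1 ht0)) (abs_nonneg _)
            (by positivity)
      _ = _ := by ring
  have p7 : |χ x * trc V ((Wa - Wx) ∘L K)| ≤ ‖trc V‖ * c * (τ * ‖y‖) := by
    rw [abs_mul]
    have h1 : ‖(Wa - Wx) ∘L K‖ ≤ τ * ‖y‖ := (ContinuousLinearMap.opNorm_comp_le _ _).trans
      ((mul_le_mul hWax hK (norm_nonneg _) (by positivity)).trans (by rw [mul_one]))
    calc |χ x| * |trc V ((Wa - Wx) ∘L K)| ≤ c * (‖trc V‖ * (τ * ‖y‖)) :=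
          mul_le_mul (hχ.b0 x) ((abs_trc_le _).trans (mul_le_mul_of_nonneg_left h1 ht0))
            (abs_nonneg _) hc0
      _ = _ := by ring
  have p8 : |χ x * trc V (Wx ∘L (K - KT q))| ≤ ‖trc V‖ * c * (τ * ‖K - KT q‖) := by
    rw [abs_mul]
    have h1 : ‖Wx ∘L (K - KT q)‖ ≤ τ * ‖K - KT q‖ :=
      (ContinuousLinearMap.opNorm_comp_le _ _).trans (mul_le_mul_of_nonneg_right hWxn hk0)
    calc |χ x| * |trc V (Wx ∘L (K - KT q))| ≤ c * (‖trc V‖ * (τ * ‖K - KT q‖)) :=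
          mul_le_mul (hχ.b0 x) ((abs_trc_le _).trans (mul_le_mul_of_nonneg_left h1 ht0))
            (abs_nonneg _) hc0
      _ = _ := by ring
  -- the identity
  have e2 : χ x' - χ x + (χ a * trc V (Wa ∘L K) + fderiv ℝ χ a (K (w a))) -
      χ x * trc V (Wx ∘L KT q) =
      (χ x' - χ x - fderiv ℝ χ x d) + fderiv ℝ χ x (d + KT q (w x)) +
      (fderiv ℝ χ a - fderiv ℝ χ x) (K (w a)) + fderiv ℝ χ x (K (w a - w x)) +
      fderiv ℝ χ x ((K - KT q) (w x)) + (χ a - χ x) * trc V (Wa ∘L K) +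
      χ x * trc V ((Wa - Wx) ∘L K) + χ x * trc V (Wx ∘L (K - KT q)) := by
    have f1 : trc V ((Wa - Wx) ∘L K) = trc V (Wa ∘L K) - trc V (Wx ∘L K) := by
      rw [ContinuousLinearMap.sub_comp, map_sub]
    have f2 : trc V (Wx ∘L (K - KT q)) = trc V (Wx ∘L K) - trc V (Wx ∘L KT q) := by
      rw [ContinuousLinearMap.comp_sub, map_sub]
    rw [f1, f2]
    simp only [map_add, map_sub, sub_apply]
    ring
  rw [e2]
  have t1 := abs_add_le ((χ x' - χ x - fderiv ℝ χ x d) + fderiv ℝ χ x (d + KT q (w x)) +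
      (fderiv ℝ χ a - fderiv ℝ χ x) (K (w a)) + fderiv ℝ χ x (K (w a - w x)) +
      fderiv ℝ χ x ((K - KT q) (w x)) + (χ a - χ x) * trc V (Wa ∘L K) +
      χ x * trc V ((Wa - Wx) ∘L K)) (χ x * trc V (Wx ∘L (K - KT q)))
  have t2 := abs_add_le ((χ x' - χ x - fderiv ℝ χ x d) + fderiv ℝ χ x (d + KT q (w x)) +
      (fderiv ℝ χ a - fderiv ℝ χ x) (K (w a)) + fderiv ℝ χ x (K (w a - w x)) +
      fderiv ℝ χ x ((K - KT q) (w x)) + (χ a - χ x) * trc V (Wa ∘L K))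
      (χ x * trc V ((Wa - Wx) ∘L K))
  have t3 := abs_add_le ((χ x' - χ x - fderiv ℝ χ x d) + fderiv ℝ χ x (d + KT q (w x)) +
      (fderiv ℝ χ a - fderiv ℝ χ x) (K (w a)) + fderiv ℝ χ x (K (w a - w x)) +
      fderiv ℝ χ x ((K - KT q) (w x))) ((χ a - χ x) * trc V (Wa ∘L K))
  have t4 := abs_add_le ((χ x' - χ x - fderiv ℝ χ x d) + fderiv ℝ χ x (d + KT q (w x)) +
      (fderiv ℝ χ a - fderiv ℝ χ x) (K (w a)) + fderiv ℝ χ x (K (w a - w x)))
      (fderiv ℝ χ x ((K - KT q) (w x)))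
  have t5 := abs_add_le ((χ x' - χ x - fderiv ℝ χ x d) + fderiv ℝ χ x (d + KT q (w x)) +
      (fderiv ℝ χ a - fderiv ℝ χ x) (K (w a))) (fderiv ℝ χ x (K (w a - w x)))
  have t6 := abs_add_le ((χ x' - χ x - fderiv ℝ χ x d) + fderiv ℝ χ x (d + KT q (w x)))
      ((fderiv ℝ χ a - fderiv ℝ χ x) (K (w a)))
  have t7 := abs_add_le (χ x' - χ x - fderiv ℝ χ x d) (fderiv ℝ χ x (d + KT q (w x)))
  have s1 : 0 ≤ c * (τ * ‖y‖) := by positivity
  have s2 : 0 ≤ c * (τ * ‖K - KT q‖) := by positivity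
  have s3 : 0 ≤ c * τ ^ 2 := by positivity
  have s4 : 0 ≤ ‖trc V‖ * (c * (τ * ‖y‖)) := by positivity
  have s5 : 0 ≤ ‖trc V‖ * (c * (τ * ‖K - KT q‖)) := by positivity
  have s6 : 0 ≤ ‖trc V‖ * (c * τ ^ 2) := by positivity
  have e4 : (6 + 3 * ‖trc V‖) * c * (τ ^ 2 + τ * ‖y‖ + τ * ‖K - KT q‖) =
      6 * (c * τ ^ 2) + 6 * (c * (τ * ‖y‖)) + 6 * (c * (τ * ‖K - KT q‖)) +
      3 * (‖trc V‖ * (c * τ ^ 2)) + 3 * (‖trc V‖ * (c * (τ * ‖y‖))) +
      3 * (‖trc V‖ * (c * (τ * ‖K - KT q‖))) := by ring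
  rw [e4]
  have e5 : c * (5 * τ ^ 2 + 2 * τ * ‖y‖) = 5 * (c * τ ^ 2) + 2 * (c * (τ * ‖y‖)) := by ring
  rw [e5] at p2
  have e6 : ∀ r : ℝ, ‖trc V‖ * c * r = ‖trc V‖ * (c * r) := fun r => by ring
  rw [e6] at p6 p7 p8
  linarith

end Crest.Agent.R234.Sw_733
end
end

-- ▼ part R234/Sw5_733

/-! # Row 234, VF-F6 (helper733), part 5: the excess changes little when the reference is switched -/

set_option autoImplicit false
set_option linter.unusedSectionVars false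

open MeasureTheory Set Metric Filter Topology
open scoped ENNReal NNReal ContDiff
open Crest.Agent.R234.Ell1_3 Crest.Agent.R234.Fm_209

noncomputable section

namespace Crest.Agent.R234.Sw_733

variable {F V : Type} [NormedAddCommGroup F] [InnerProductSpace ℝ F] [FiniteDimensional ℝ F]
  [NormedAddCommGroup V] [InnerProductSpace ℝ V] [FiniteDimensional ℝ V]
  [MeasurableSpace F] [BorelSpace F]

/-- the test function of the comparison, `χ · tr (g⁻¹ Duᵀ D(u' - u))`. -/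
def Xi (χ : F → ℝ) (u u' : F → V) (v : F) : ℝ :=
  χ v * trc F (KT (fderiv ℝ u v) ∘L (fderiv ℝ u' v - fderiv ℝ u v))

variable (F V) in
/-- quadratic expansion of the density, constant depending on the spaces only. -/
theorem exists_dns : ∃ C : ℝ, 0 ≤ C ∧ ∀ q q' : F →L[ℝ] V, ‖q‖ ≤ 1 / 4 → ‖q'‖ ≤ 1 / 4 →
    |dns q' - dns q - dns q * trc F (KT q ∘L (q' - q))| ≤ C * ‖q' - q‖ ^ 2 ∧
    |dns q' - dns q| ≤ C * ‖q' - q‖ ∧ |dns q| ≤ C := by
  obtain ⟨C, hC, hb⟩ := exists_taylor (f := (dns : (F →L[ℝ] V) → ℝ)) (dns_contDiff.of_le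
    (by norm_cast)) (1 / 4)
  refine ⟨C, hC, fun q q' hq hq' => ?_⟩
  obtain ⟨h1, -, h3, -, h5⟩ := hb q (mem_closedBall_zero_iff.2 hq) q' (mem_closedBall_zero_iff.2 hq')
  rw [(hasFDerivAt_dns q).fderiv, ddns_apply, Real.norm_eq_abs] at h1
  exact ⟨h1, by rwa [Real.norm_eq_abs] at h3, by rwa [Real.norm_eq_abs] at h5⟩

/-- the situation: heights and feet over two graphs. -/
structure Sit {Ω : Type*} [MeasurableSpace Ω] (μ : Measure Ω) (u u' : F → V) (D S : Set F)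
    (a : Ω → F) (b : Ω → V) (x x' : Ω → F) (y y' : Ω → V) (R : Set Ω) : Prop where
  mx : AEMeasurable x μ
  mx' : AEMeasurable x' μ
  mR : MeasurableSet R
  SD : S ⊆ D
  cS : IsCompact S
  inn : ∀ᵐ p ∂μ, p ∈ R → Foot u (a p) (b p) (x p) (y p) ∧ Foot u' (a p) (b p) (x' p) (y' p) ∧
    a p ∈ D ∧ x p ∈ D ∧ x' p ∈ D ∧ ‖y p‖ ≤ 1 / 4
  out : ∀ᵐ p ∂μ, p ∉ R → x p ∉ S ∧ x' p ∉ S ∧ a p ∉ S

theorem Cl.E_switch {Ω : Type*} [MeasurableSpace Ω] {μ : Measure Ω} [IsFiniteMeasure μ]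
    {u u' : F → V} {D S : Set F} {κ τ : ℝ} (h : Cl u u' D κ τ) {χ : F → ℝ} {c : ℝ}
    (hχ : Tst χ c) (hS : tsupport χ ⊆ S) {a : Ω → F} {b : Ω → V} {x x' : Ω → F} {y y' : Ω → V}
    {R : Set Ω} (hs : Sit μ u u' D S a b x x' y y' R) {K : Ω → V →L[ℝ] F}
    (hK : ∀ᵐ p ∂μ, ‖K p‖ ≤ 1)
    (hFi : Integrable (fun p => trc V (fderiv ℝ (fun v => χ v • (u' v - u v)) (a p) ∘L K p)) μ)
    (hFV : ∫ p, trc V (fderiv ℝ (fun v => χ v • (u' v - u v)) (a p) ∘L K p) ∂μ = 0)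
    (hyi : IntegrableOn (fun p => ‖y p‖) R μ)
    (hKi : IntegrableOn (fun p => ‖K p - KT (fderiv ℝ u (x p))‖) R μ)
    {Cd : ℝ} (hCd : 0 ≤ Cd) (hd : ∀ q q' : F →L[ℝ] V, ‖q‖ ≤ 1 / 4 → ‖q'‖ ≤ 1 / 4 →
      |dns q' - dns q - dns q * trc F (KT q ∘L (q' - q))| ≤ Cd * ‖q' - q‖ ^ 2 ∧
      |dns q' - dns q| ≤ Cd * ‖q' - q‖ ∧ |dns q| ≤ Cd) (Q : ℝ) :
    |(∫ p, χ (x' p) ∂μ - Q * ∫ v, χ v * dns (fderiv ℝ u' v)) -
      (∫ p, χ (x p) ∂μ - Q * ∫ v, χ v * dns (fderiv ℝ u v))| ≤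
      (6 + 3 * ‖trc V‖) * c * (τ ^ 2 * μ.real R + τ * ∫ p in R, ‖y p‖ ∂μ +
        τ * ∫ p in R, ‖K p - KT (fderiv ℝ u (x p))‖ ∂μ) +
      |Q| * (c * (Cd * τ ^ 2) * volume.real S) +
      |∫ p, Xi χ u u' (x p) ∂μ - Q * ∫ v, Xi χ u u' v * dns (fderiv ℝ u v)| := by
  have hχ0 : ∀ v ∉ S, χ v = 0 := fun v hv => image_eq_zero_of_notMem_tsupport fun hc => hv (hS hc)
  have hdχ0 : ∀ v ∉ S, fderiv ℝ χ v = 0 := fun v hv =>
    image_eq_zero_of_notMem_tsupport fun hc => hv (hS (tsupport_fderiv_subset ℝ hc))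
  have hcu1 : Continuous (fderiv ℝ u) := (h.cu.fderiv_right (m := 1) (by norm_num)).continuous
  have hcu1' : Continuous (fderiv ℝ u') := (h.cu'.fderiv_right (m := 1) (by norm_num)).continuous
  have hKTc : Continuous (KT : (F →L[ℝ] V) → (V →L[ℝ] F)) := by
    have h1 : Continuous (ginv : (F →L[ℝ] V) → (F →L[ℝ] F)) := ginv_contDiff.continuous
    have h2 : Continuous (fun q : F →L[ℝ] V => adjL q) := adjL.continuous
    exact h1.clm_comp h2
  have hXic : Continuous (Xi χ u u') := by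
    refine hχ.cd.continuous.mul ((trc F).continuous.comp ?_)
    exact (hKTc.comp hcu1).clm_comp (hcu1'.sub hcu1)
  have hXi0 : ∀ v ∉ S, Xi χ u u' v = 0 := fun v hv => by rw [Xi, hχ0 v hv, zero_mul]
  -- integrability
  have iχ : ∀ {x : Ω → F}, AEMeasurable x μ → Integrable (fun p => χ (x p)) μ := by
    intro x hx
    refine Integrable.mono' (integrable_const c)
      ((hχ.cd.continuous.measurable.comp_aemeasurable hx).aestronglyMeasurable) ?_
    filter_upwards with p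
    rw [Real.norm_eq_abs]; exact hχ.b0 _
  have iΞ : Integrable (fun p => Xi χ u u' (x p)) μ := by
    obtain ⟨C, hC⟩ := hs.cS.exists_bound_of_continuousOn hXic.continuousOn
    refine Integrable.mono' (integrable_const |C|)
      ((hXic.measurable.comp_aemeasurable hs.mx).aestronglyMeasurable) ?_
    filter_upwards with p
    by_cases h1 : x p ∈ S
    · exact (hC _ h1).trans (le_abs_self C)
    · rw [hXi0 _ h1, norm_zero]; exact abs_nonneg C
  have ix := iχ hs.mx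
  have ix' := iχ hs.mx'
  -- the varifold part
  have A1 : |(∫ p, χ (x' p) ∂μ - ∫ p, χ (x p) ∂μ) - ∫ p, Xi χ u u' (x p) ∂μ| ≤
      (6 + 3 * ‖trc V‖) * c * (τ ^ 2 * μ.real R + τ * ∫ p in R, ‖y p‖ ∂μ +
        τ * ∫ p in R, ‖K p - KT (fderiv ℝ u (x p))‖ ∂μ) := by
    have e1 : (∫ p, χ (x' p) ∂μ - ∫ p, χ (x p) ∂μ) - ∫ p, Xi χ u u' (x p) ∂μ =
        ∫ p, (χ (x' p) - χ (x p) +
          trc V (fderiv ℝ (fun v => χ v • (u' v - u v)) (a p) ∘L K p) -
          Xi χ u u' (x p)) ∂μ := by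
      have k1 : Integrable (fun p => χ (x' p) - χ (x p)) μ := ix'.sub ix
      have k2 : Integrable (fun p => χ (x' p) - χ (x p) +
          trc V (fderiv ℝ (fun v => χ v • (u' v - u v)) (a p) ∘L K p)) μ := k1.add hFi
      rw [integral_sub k2 iΞ, integral_add k1 hFi, integral_sub ix' ix, hFV, add_zero]
    have e2 : ∫ p, (χ (x' p) - χ (x p) +
          trc V (fderiv ℝ (fun v => χ v • (u' v - u v)) (a p) ∘L K p) -
          Xi χ u u' (x p)) ∂μ = ∫ p in R, (χ (x' p) - χ (x p) +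
          trc V (fderiv ℝ (fun v => χ v • (u' v - u v)) (a p) ∘L K p) -
          Xi χ u u' (x p)) ∂μ := by
      rw [← integral_indicator hs.mR]
      refine integral_congr_ae ?_
      filter_upwards [hs.out] with p hp
      by_cases hR : p ∈ R
      · rw [indicator_of_mem hR]
      · rw [indicator_of_notMem hR]
        obtain ⟨h1, h2, h3⟩ := hp hR
        have h4 : fderiv ℝ (fun v => χ v • (u' v - u v)) (a p) = _ :=
          fderiv_test (w := fun v => u' v - u v) (hχ.diff (a p))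
            ((h.diff_u' (a p)).sub (h.diff_u (a p)))
        rw [hχ0 _ h1, hχ0 _ h2, hXi0 _ h1, h4, hχ0 _ h3, hdχ0 _ h3]
        simp
    rw [e1, e2]
    have e3 : (6 + 3 * ‖trc V‖) * c * (τ ^ 2 * μ.real R + τ * ∫ p in R, ‖y p‖ ∂μ +
        τ * ∫ p in R, ‖K p - KT (fderiv ℝ u (x p))‖ ∂μ) =
        ∫ p in R, (6 + 3 * ‖trc V‖) * c * (τ ^ 2 + τ * ‖y p‖ +
          τ * ‖K p - KT (fderiv ℝ u (x p))‖) ∂μ := by
      rw [integral_const_mul, integral_add _ (hKi.const_mul τ), integral_add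
        (integrable_const _) (hyi.const_mul τ), integral_const_mul, integral_const_mul,
        setIntegral_const, smul_eq_mul, mul_comm (μ.real R)]
      exact (integrable_const _).add (hyi.const_mul τ)
    rw [e3, ← Real.norm_eq_abs]
    refine norm_integral_le_of_norm_le ?_ ?_
    · exact (((integrable_const _).add (hyi.const_mul τ)).add (hKi.const_mul τ)).const_mul _
    · rw [ae_restrict_iff' hs.mR]
      filter_upwards [hs.inn, hK] with p hp hKp hR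
      obtain ⟨h1, h2, h3, h4, h5, h6⟩ := hp hR
      rw [Real.norm_eq_abs]
      exact h.test_pt hχ h1 h2 h3 h4 h5 h6 hKp
  -- the smooth part
  have ic : ∀ {f : F → ℝ}, Continuous f → (∀ v ∉ S, f v = 0) → Integrable f := by
    intro f hf h0
    exact hf.integrable_of_hasCompactSupport (HasCompactSupport.intro hs.cS h0)
  have hdnsc : Continuous (dns : (F →L[ℝ] V) → ℝ) := dns_contDiff.continuous
  have j1 : Integrable (fun v => χ v * dns (fderiv ℝ u v)) :=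
    ic (hχ.cd.continuous.mul (hdnsc.comp hcu1)) fun v hv => by rw [hχ0 v hv, zero_mul]
  have j2 : Integrable (fun v => χ v * dns (fderiv ℝ u' v)) :=
    ic (hχ.cd.continuous.mul (hdnsc.comp hcu1')) fun v hv => by rw [hχ0 v hv, zero_mul]
  have j3 : Integrable (fun v => Xi χ u u' v * dns (fderiv ℝ u v)) :=
    ic (hXic.mul (hdnsc.comp hcu1)) fun v hv => by rw [hXi0 v hv, zero_mul]
  have A2 : |((∫ v, χ v * dns (fderiv ℝ u' v)) - ∫ v, χ v * dns (fderiv ℝ u v)) -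
      ∫ v, Xi χ u u' v * dns (fderiv ℝ u v)| ≤ c * (Cd * τ ^ 2) * volume.real S := by
    have k3 : Integrable (fun v => χ v * dns (fderiv ℝ u' v) - χ v * dns (fderiv ℝ u v)) :=
      j2.sub j1
    rw [← integral_sub j2 j1, ← integral_sub k3 j3]
    have e4 : ∫ v, (χ v * dns (fderiv ℝ u' v) - χ v * dns (fderiv ℝ u v) -
        Xi χ u u' v * dns (fderiv ℝ u v)) = ∫ v in S, (χ v * dns (fderiv ℝ u' v) -
        χ v * dns (fderiv ℝ u v) - Xi χ u u' v * dns (fderiv ℝ u v)) := by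
      rw [← integral_indicator hs.cS.measurableSet]
      congr 1
      funext v
      by_cases hv : v ∈ S
      · rw [indicator_of_mem hv]
      · rw [indicator_of_notMem hv, hχ0 v hv, hXi0 v hv]; ring
    rw [e4, ← Real.norm_eq_abs]
    refine norm_setIntegral_le_of_norm_le_const hs.cS.measure_lt_top fun v hv => ?_
    rw [Real.norm_eq_abs]
    have hvD := hs.SD hv
    obtain ⟨g1, -, -⟩ := hd (fderiv ℝ u v) (fderiv ℝ u' v) ((h.d1 v hvD).trans h.κ1)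
      ((h.d1' v hvD).trans h.κ1)
    have e5 : χ v * dns (fderiv ℝ u' v) - χ v * dns (fderiv ℝ u v) -
        Xi χ u u' v * dns (fderiv ℝ u v) = χ v * (dns (fderiv ℝ u' v) - dns (fderiv ℝ u v) -
        dns (fderiv ℝ u v) * trc F (KT (fderiv ℝ u v) ∘L (fderiv ℝ u' v - fderiv ℝ u v))) := by
      rw [Xi]; ring
    rw [e5, abs_mul]
    refine mul_le_mul (hχ.b0 v) (g1.trans ?_) (abs_nonneg _) hχ.c0
    exact mul_le_mul_of_nonneg_left (pow_le_pow_left₀ (norm_nonneg _) (h.w1 v hvD) 2) hCd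
  -- conclusion
  set I1 := ∫ p, χ (x' p) ∂μ
  set I2 := ∫ p, χ (x p) ∂μ
  set I3 := ∫ p, Xi χ u u' (x p) ∂μ
  set J1 := ∫ v, χ v * dns (fderiv ℝ u' v)
  set J2 := ∫ v, χ v * dns (fderiv ℝ u v)
  set J3 := ∫ v, Xi χ u u' v * dns (fderiv ℝ u v)
  have e6 : (I1 - Q * J1) - (I2 - Q * J2) = ((I1 - I2) - I3) + (-(Q * ((J1 - J2) - J3))) +
      (I3 - Q * J3) := by ring
  rw [e6]
  refine (abs_add_le _ _).trans (add_le_add ((abs_add_le _ _).trans (add_le_add A1 ?_)) le_rfl)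
  rw [abs_neg, abs_mul]
  exact mul_le_mul_of_nonneg_left A2 (abs_nonneg Q)

end Crest.Agent.R234.Sw_733
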