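import Crest.Agent.R234.Kern_567
import Crest.Agent.R234.Main2_456
import Crest.Agent.R234.Nrm2_842

-- ▼ part R234/Kern2_332
section

/-!
# Row 234 (helper332), node F3-KERN2: the kernel of the rotated charts

`u : F → G` with `‖Du‖ ≤ κ ≤ 1/4`, `Lip Du ≤ λ ≤ 1`, `g = 1 + Duᵀ Du`, `w x y = (y - x) + Du(x)ᵀ (u y - u x)`.
The base coordinate of the point `m_y = (y, u y)` of the graph in the frame tangent at `m_x` has norm
`⟪g(x)⁻¹ w, w⟫^{1/2}`.  The kernel `β x y = (1 - ⟪g(x)⁻¹ w, w⟫ / ρ²)₊` with the weight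
`√(det g(x)) / mass ρ` satisfies `F31_354.Kern` with `θ = C κ λ ρ` (over 567's ellipsoidal kernel).
-/

set_option autoImplicit false
set_option linter.unusedSectionVars false
set_option linter.unusedVariables false

open MeasureTheory Set Metric Function
open scoped ENNReal NNReal Topology InnerProductSpace

noncomputable section

namespace Crest.Agent.R234.Kern2_332

open Crest.Agent.R234.Loc1_290 Crest.Agent.R234.F31_354 Crest.Agent.R234.Kern_567
open ContinuousLinearMap (adjoint)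
open Crest.GeometryTopology.Submanifold (Euc)

variable {F : Type*} [NormedAddCommGroup F] [InnerProductSpace ℝ F] [FiniteDimensional ℝ F]
  [MeasurableSpace F] [BorelSpace F]
variable {G : Type*} [NormedAddCommGroup G] [InnerProductSpace ℝ G] [FiniteDimensional ℝ G]

/-- bounded measurable functions with bounded support are integrable -/
theorem integrable_of_ball {vol : Measure F} [vol.IsAddHaarMeasure] {f : F → ℝ} (hf : Measurable f)
    {C : ℝ} (hC : ∀ x, |f x| ≤ C) {y : F} {r : ℝ} (h0 : ∀ x, r < ‖x - y‖ → f x = 0) :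
    Integrable f vol := by
  have hi : Integrable (indicator (closedBall y r) fun _ : F => C) vol :=
    (integrable_indicator_iff measurableSet_closedBall).2
      (integrableOn_const (measure_closedBall_lt_top.ne))
  refine hi.mono hf.aestronglyMeasurable (Filter.Eventually.of_forall fun x => ?_)
  by_cases hx : x ∈ closedBall y r
  · rw [indicator_of_mem hx, Real.norm_eq_abs, Real.norm_eq_abs]
    exact (hC x).trans (le_abs_self _)
  · rw [mem_closedBall, dist_eq_norm, not_le] at hx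
    rw [h0 x hx, norm_zero]
    exact norm_nonneg _

/-- perturbation of a kernel -/
theorem perturb {vol : Measure F} [vol.IsAddHaarMeasure] {β β' : F → F → ℝ} {w : F → ℝ}
    {ρ θ W R c : ℝ} (h : Kern vol β w ρ θ W R) (hW : 0 ≤ W)
    (hm : Measurable (uncurry β')) (h0 : ∀ x y, 0 ≤ β' x y)
    (h1 : ∀ x y, β' x y ≤ 1) (hs : ∀ x y, 2 * ρ < ‖y - x‖ → β' x y = 0) (hc0 : 0 ≤ c)
    (hc : ∀ x y, ‖y - x‖ ≤ 2 * ρ → |β' x y - β x y| ≤ c) :
    Kern vol β' w ρ (θ + W * c * vol.real (closedBall 0 (2 * ρ))) W R where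
  meas := hm
  nonneg := h0
  le_one := h1
  supp := hs
  wmeas := h.wmeas
  wnonneg := h.wnonneg
  wle := h.wle
  mass := by
    intro y hy
    have hβ'i : Integrable (fun x => w x * β' x y) vol := by
      refine integrable_of_ball (C := W) (y := y) (r := 2 * ρ)
        (h.wmeas.mul (hm.comp (measurable_id.prodMk measurable_const))) (fun x => ?_) fun x hx => ?_
      · rw [abs_mul, abs_of_nonneg (h.wnonneg x), abs_of_nonneg (h0 x y)]
        calc w x * β' x y ≤ W * 1 :=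
              mul_le_mul (h.wle x) (h1 x y) (h0 x y) hW
          _ = W := mul_one _
      · rw [hs x y (by rw [norm_sub_rev]; exact hx), mul_zero]
    have hβi := h.integrable y
    have hdi : Integrable (fun x => w x * β' x y - w x * β x y) vol := hβ'i.sub hβi
    have hd : |∫ x, (w x * β' x y - w x * β x y) ∂vol| ≤
        W * c * vol.real (closedBall 0 (2 * ρ)) := by
      have hi : Integrable (indicator (closedBall y (2 * ρ)) fun _ : F => W * c) vol :=
        (integrable_indicator_iff measurableSet_closedBall).2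
          (integrableOn_const (measure_closedBall_lt_top.ne))
      calc |∫ x, (w x * β' x y - w x * β x y) ∂vol|
          ≤ ∫ x, |w x * β' x y - w x * β x y| ∂vol := abs_integral_le_integral_abs
        _ ≤ ∫ x, indicator (closedBall y (2 * ρ)) (fun _ : F => W * c) x ∂vol := by
            refine integral_mono hdi.abs hi fun x => ?_
            by_cases hx : x ∈ closedBall y (2 * ρ)
            · rw [indicator_of_mem hx, ← mul_sub, abs_mul, abs_of_nonneg (h.wnonneg x)]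
              refine mul_le_mul (h.wle x) (hc x y ?_) (abs_nonneg _) hW
              rw [mem_closedBall, dist_eq_norm] at hx
              rw [norm_sub_rev]; exact hx
            · rw [indicator_of_notMem hx]
              rw [mem_closedBall, dist_eq_norm, not_le] at hx
              have hx' : 2 * ρ < ‖y - x‖ := by rw [norm_sub_rev]; exact hx
              rw [hs x y hx', h.supp x y hx']
              simp
        _ = vol.real (closedBall y (2 * ρ)) * (W * c) := by
            rw [integral_indicator measurableSet_closedBall, setIntegral_const, smul_eq_mul]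
        _ = W * c * vol.real (closedBall 0 (2 * ρ)) := by
            rw [show vol.real (closedBall y (2 * ρ)) = vol.real (closedBall (0 : F) (2 * ρ)) by
              unfold Measure.real; rw [Measure.addHaar_closedBall_center], mul_comm]
    have he : ∫ x, w x * β' x y ∂vol - 1 =
        (∫ x, (w x * β' x y - w x * β x y) ∂vol) + (∫ x, w x * β x y ∂vol - 1) := by
      rw [integral_sub hβ'i hβi]; ring
    rw [he]
    calc _ ≤ |∫ x, (w x * β' x y - w x * β x y) ∂vol| + |∫ x, w x * β x y ∂vol - 1| := abs_add_le _ _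
      _ ≤ W * c * vol.real (closedBall 0 (2 * ρ)) + θ := add_le_add hd (h.mass y hy)
      _ = _ := by ring

/-! ### the metric of a graph -/

/-- `g = 1 + Dᵀ D` -/
def gm (D : F →L[ℝ] G) : F →L[ℝ] F := ContinuousLinearMap.id ℝ F + (adjoint D) ∘L D

/-- the inverse metric -/
def gi (D : F →L[ℝ] G) : F →L[ℝ] F := Ring.inverse (gm D)

theorem gm_apply (D : F →L[ℝ] G) (v : F) : gm D v = v + adjoint D (D v) := rfl

theorem inner_gm (D : F →L[ℝ] G) (v w : F) : ⟪gm D v, w⟫_ℝ = ⟪v, w⟫_ℝ + ⟪D v, D w⟫_ℝ := by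
  rw [gm_apply, inner_add_left, ContinuousLinearMap.adjoint_inner_left]

theorem inner_gm_self (D : F →L[ℝ] G) (v : F) : ⟪gm D v, v⟫_ℝ = ‖v‖ ^ 2 + ‖D v‖ ^ 2 := by
  rw [inner_gm, real_inner_self_eq_norm_sq, real_inner_self_eq_norm_sq]

theorem gm_symm (D : F →L[ℝ] G) (v w : F) : ⟪gm D v, w⟫_ℝ = ⟪v, gm D w⟫_ℝ := by
  rw [inner_gm, real_inner_comm (gm D w) v, inner_gm, real_inner_comm v w,
    real_inner_comm (D v) (D w)]

theorem isUnit_gm (D : F →L[ℝ] G) : IsUnit (gm D) := by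
  have hinj : Injective (gm D : F →ₗ[ℝ] F) := by
    refine (injective_iff_map_eq_zero _).2 fun v hv => ?_
    have h := inner_gm_self D v
    have hv' : gm D v = 0 := hv
    rw [hv', inner_zero_left] at h
    have h2 : ‖v‖ ^ 2 = 0 := by nlinarith [sq_nonneg ‖v‖, sq_nonneg ‖D v‖]
    exact norm_eq_zero.1 (pow_eq_zero_iff (two_ne_zero)|>.1 h2)
  let e : F ≃L[ℝ] F := (LinearEquiv.ofInjectiveEndo (gm D : F →ₗ[ℝ] F) hinj).toContinuousLinearEquiv
  refine ⟨(ContinuousLinearEquiv.unitsEquiv ℝ F).symm e, ?_⟩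
  ext v
  rfl

theorem gm_gi (D : F →L[ℝ] G) (v : F) : gm D (gi D v) = v := by
  have h := Ring.mul_inverse_cancel _ (isUnit_gm D)
  exact congrArg (fun T : F →L[ℝ] F => T v) h

theorem gi_gm (D : F →L[ℝ] G) (v : F) : gi D (gm D v) = v := by
  have h := Ring.inverse_mul_cancel _ (isUnit_gm D)
  exact congrArg (fun T : F →L[ℝ] F => T v) h



theorem inner_gi_nonneg (D : F →L[ℝ] G) (v : F) : 0 ≤ ⟪gi D v, v⟫_ℝ := by
  nth_rewrite 2 [← gm_gi D v]
  rw [← gm_symm, inner_gm_self]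
  positivity

theorem norm_gi_le (D : F →L[ℝ] G) (v : F) : ‖gi D v‖ ≤ ‖v‖ := by
  have h : ‖gi D v‖ ^ 2 ≤ ‖gi D v‖ * ‖v‖ := by
    have h1 : ‖gi D v‖ ^ 2 ≤ ⟪gm D (gi D v), gi D v⟫_ℝ := by
      rw [inner_gm_self]; nlinarith [sq_nonneg ‖D (gi D v)‖]
    rw [gm_gi] at h1
    exact h1.trans ((real_inner_le_norm _ _).trans (le_of_eq (mul_comm _ _)))
  rcases eq_or_lt_of_le (norm_nonneg (gi D v)) with h0 | h0
  · rw [← h0]; exact norm_nonneg _
  · rw [sq] at h
    exact le_of_mul_le_mul_left h h0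

theorem continuous_gm : Continuous (gm : (F →L[ℝ] G) → (F →L[ℝ] F)) := by
  unfold gm
  have h1 : Continuous fun D : F →L[ℝ] G => adjoint D :=
    (ContinuousLinearMap.adjoint : (F →L[ℝ] G) ≃ₗᵢ⋆[ℝ] (G →L[ℝ] F)).continuous
  exact continuous_const.add (h1.clm_comp continuous_id)

theorem continuous_gi : Continuous (gi : (F →L[ℝ] G) → (F →L[ℝ] F)) := by
  refine continuous_iff_continuousAt.2 fun D => ?_
  obtain ⟨x, hx⟩ := isUnit_gm D
  have h1 : ContinuousAt Ring.inverse (gm D) := by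
    rw [← hx]; exact NormedRing.inverse_continuousAt x
  exact h1.comp (continuous_gm.continuousAt)

/-! ### the kernel -/

/-- `w x y = (y - x) + Du(x)ᵀ (u y - u x)` -/
def wv (u : F → G) (D : F → F →L[ℝ] G) (x y : F) : F := (y - x) + adjoint (D x) (u y - u x)

/-- squared norm of the base coordinate of `m_y` in the frame tangent at `m_x`. -/
def ds (u : F → G) (D : F → F →L[ℝ] G) (x y : F) : ℝ := ⟪gi (D x) (wv u D x y), wv u D x y⟫_ℝ

theorem ds_nonneg (u : F → G) (D : F → F →L[ℝ] G) (x y : F) : 0 ≤ ds u D x y :=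
  inner_gi_nonneg _ _

theorem continuous_ds {u : F → G} {D : F → F →L[ℝ] G} (hu : Continuous u) (hD : Continuous D) :
    Continuous (uncurry (ds u D)) := by
  have h1 : Continuous fun p : F × F => adjoint (D p.1) :=
    (ContinuousLinearMap.adjoint : (F →L[ℝ] G) ≃ₗᵢ⋆[ℝ] (G →L[ℝ] F)).continuous.comp
      (hD.comp continuous_fst)
  have h2 : Continuous fun p : F × F => wv u D p.1 p.2 := by
    unfold wv
    exact (continuous_snd.sub continuous_fst).add
      (h1.clm_apply ((hu.comp continuous_snd).sub (hu.comp continuous_fst)))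
  have h3 : Continuous fun p : F × F => gi (D p.1) := continuous_gi.comp (hD.comp continuous_fst)
  exact (h3.clm_apply h2).inner h2

/-- the kernel -/
def beta (u : F → G) (D : F → F →L[ℝ] G) (ρ : ℝ) (x y : F) : ℝ := max 0 (1 - ds u D x y / ρ ^ 2)

/-- the hypotheses on the reference. -/
structure Dat (u : F → G) (D : F → F →L[ℝ] G) (κ l : ℝ) : Prop where
  hu : ∀ x, HasFDerivAt u (D x) x
  k0 : 0 ≤ κ
  k1 : κ ≤ 1 / 4
  hD : ∀ x, ‖D x‖ ≤ κ
  l0 : 0 ≤ l
  l1 : l ≤ 1
  hL : ∀ x y, ‖D x - D y‖ ≤ l * ‖x - y‖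

variable {u : F → G} {D : F → F →L[ℝ] G} {κ l : ℝ}

theorem Dat.cont (h : Dat u D κ l) : Continuous u :=
  continuous_iff_continuousAt.2 fun x => (h.hu x).continuousAt

theorem Dat.contD (h : Dat u D κ l) : Continuous D := by
  have : LipschitzWith ⟨l, h.l0⟩ D := LipschitzWith.of_dist_le_mul fun x y => by
    rw [dist_eq_norm, dist_eq_norm]; exact h.hL x y
  exact this.continuous

theorem Dat.lip (h : Dat u D κ l) (x y : F) : ‖u y - u x‖ ≤ κ * ‖y - x‖ :=
  Convex.norm_image_sub_le_of_norm_hasFDerivWithin_le (s := univ) (f' := D)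
    (fun z _ => (h.hu z).hasFDerivWithinAt) (fun z _ => h.hD z) convex_univ (mem_univ x) (mem_univ y)

theorem Dat.taylor (h : Dat u D κ l) (x y : F) :
    ‖u y - u x - D x (y - x)‖ ≤ l * ‖y - x‖ ^ 2 := by
  have h1 := Convex.norm_image_sub_le_of_norm_hasFDerivWithin_le' (s := closedBall x ‖y - x‖)
    (f := u) (f' := D) (φ := D x) (C := l * ‖y - x‖)
    (fun z _ => (h.hu z).hasFDerivWithinAt)
    (fun z hz => (h.hL z x).trans (mul_le_mul_of_nonneg_left
      (by rwa [mem_closedBall, dist_eq_norm] at hz) h.l0))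
    (convex_closedBall x _) (mem_closedBall_self (norm_nonneg _))
    (by rw [mem_closedBall, dist_eq_norm])
  calc _ ≤ l * ‖y - x‖ * ‖y - x‖ := h1
    _ = l * ‖y - x‖ ^ 2 := by ring

/-- comparison with the ellipsoid. -/
theorem Dat.ds_eq (h : Dat u D κ l) (x y : F) :
    ∃ e : F, ‖e‖ ≤ κ * (l * ‖y - x‖ ^ 2) ∧ ‖e‖ ≤ κ * (2 * κ * ‖y - x‖) ∧
      ds u D x y = ⟪gm (D x) (y - x), y - x⟫_ℝ + 2 * ⟪e, y - x⟫_ℝ + ⟪gi (D x) e, e⟫_ℝ := by
  set v := y - x with hv
  refine ⟨adjoint (D x) (u y - u x - D x v), ?_, ?_, ?_⟩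
  · calc _ ≤ ‖adjoint (D x)‖ * ‖u y - u x - D x v‖ := ContinuousLinearMap.le_opNorm _ _
      _ ≤ κ * (l * ‖v‖ ^ 2) := by
          rw [LinearIsometryEquiv.norm_map]
          exact mul_le_mul (h.hD x) (h.taylor x y) (norm_nonneg _) h.k0
  · calc _ ≤ ‖adjoint (D x)‖ * ‖u y - u x - D x v‖ := ContinuousLinearMap.le_opNorm _ _
      _ ≤ κ * (2 * κ * ‖v‖) := by
          rw [LinearIsometryEquiv.norm_map]
          refine mul_le_mul (h.hD x) ?_ (norm_nonneg _) h.k0
          have h1 := h.lip x y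
          have h2 : ‖D x v‖ ≤ κ * ‖v‖ :=
            (ContinuousLinearMap.le_opNorm _ _).trans
              (mul_le_mul_of_nonneg_right (h.hD x) (norm_nonneg _))
          have h3 := norm_sub_le (u y - u x) (D x v)
          rw [← hv] at h1
          linarith
  · set e := adjoint (D x) (u y - u x - D x v) with he
    have hw : wv u D x y = gm (D x) v + e := by
      have h0 : adjoint (D x) (u y - u x) = adjoint (D x) (D x v) + e := by
        rw [he, ← map_add]
        congr 1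
        abel
      unfold wv
      rw [← hv, h0, gm_apply, add_assoc]
    unfold ds
    rw [hw, map_add, gi_gm]
    have h4 : ⟪gi (D x) e, gm (D x) v⟫_ℝ = ⟪e, v⟫_ℝ := by rw [← gm_symm, gm_gi]
    rw [inner_add_left, inner_add_right, inner_add_right, h4, real_inner_comm e v,
      real_inner_comm (gm (D x) v) v]
    ring

/-- `|ds - ⟪g v, v⟫| ≤ 3 κ l |v|³` -/
theorem Dat.abs_ds_sub (h : Dat u D κ l) (x y : F) :
    |ds u D x y - ⟪gm (D x) (y - x), y - x⟫_ℝ| ≤ 3 * κ * l * ‖y - x‖ ^ 3 := by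
  obtain ⟨e, h1, h2, h3⟩ := h.ds_eq x y
  set t := ‖y - x‖ with ht
  have ht0 : 0 ≤ t := norm_nonneg _
  have he0 : 0 ≤ ‖e‖ := norm_nonneg _
  have a1 : |⟪e, y - x⟫_ℝ| ≤ ‖e‖ * t := abs_real_inner_le_norm _ _
  have a2 : ⟪gi (D x) e, e⟫_ℝ ≤ ‖e‖ * ‖e‖ :=
    (real_inner_le_norm _ _).trans (mul_le_mul_of_nonneg_right (norm_gi_le _ _) he0)
  have a3 := inner_gi_nonneg (D x) e
  rw [h3]
  have h4 : ‖e‖ ≤ t := by
    have : κ * (2 * κ * t) ≤ 1 * t := by
      have := h.k0; have := h.k1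
      nlinarith [mul_nonneg h.k0 ht0, mul_nonneg (mul_nonneg h.k0 h.k0) ht0]
    linarith
  have h5 : |2 * ⟪e, y - x⟫_ℝ + ⟪gi (D x) e, e⟫_ℝ| ≤ 3 * (‖e‖ * t) := by
    rw [abs_le] at a1 ⊢
    have : ‖e‖ * ‖e‖ ≤ ‖e‖ * t := mul_le_mul_of_nonneg_left h4 he0
    constructor <;> linarith [a1.1, a1.2]
  have h6 : ⟪gm (D x) (y - x), y - x⟫_ℝ + 2 * ⟪e, y - x⟫_ℝ + ⟪gi (D x) e, e⟫_ℝ
      - ⟪gm (D x) (y - x), y - x⟫_ℝ = 2 * ⟪e, y - x⟫_ℝ + ⟪gi (D x) e, e⟫_ℝ := by ring
  rw [h6]
  refine h5.trans ?_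
  have : ‖e‖ * t ≤ κ * (l * t ^ 2) * t := mul_le_mul_of_nonneg_right h1 ht0
  nlinarith

/-- `ds ≥ (3/4) |y - x|²` -/
theorem Dat.ds_ge (h : Dat u D κ l) (x y : F) : 3 / 4 * ‖y - x‖ ^ 2 ≤ ds u D x y := by
  obtain ⟨e, h1, h2, h3⟩ := h.ds_eq x y
  set t := ‖y - x‖ with ht
  have ht0 : 0 ≤ t := norm_nonneg _
  have a1 : |⟪e, y - x⟫_ℝ| ≤ ‖e‖ * t := abs_real_inner_le_norm _ _
  have a3 := inner_gi_nonneg (D x) e
  have a4 := inner_gm_self (D x) (y - x)
  have a5 : ‖e‖ * t ≤ κ * (2 * κ * t) * t := mul_le_mul_of_nonneg_right h2 ht0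
  have a6 : κ * (2 * κ * t) * t ≤ 1 / 8 * t ^ 2 := by
    have : κ * κ ≤ 1 / 16 := by nlinarith [h.k0, h.k1]
    nlinarith [sq_nonneg t]
  rw [h3, a4]
  rw [abs_le] at a1
  nlinarith [sq_nonneg ‖D x (y - x)‖, a1.1]

theorem beta_nonneg (u : F → G) (D : F → F →L[ℝ] G) (ρ : ℝ) (x y : F) : 0 ≤ beta u D ρ x y :=
  le_max_left _ _

theorem beta_le_one (u : F → G) (D : F → F →L[ℝ] G) (ρ : ℝ) (x y : F) : beta u D ρ x y ≤ 1 := by
  refine max_le zero_le_one ?_
  have := div_nonneg (ds_nonneg u D x y) (sq_nonneg ρ)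
  linarith

theorem Dat.beta_eq_zero (h : Dat u D κ l) {ρ : ℝ} (hρ : 0 < ρ) {x y : F} (hxy : 2 * ρ < ‖y - x‖) :
    beta u D ρ x y = 0 := by
  refine max_eq_left ?_
  have h1 := h.ds_ge x y
  have h2 : ρ ^ 2 ≤ ds u D x y := by nlinarith
  have h3 : 1 ≤ ds u D x y / ρ ^ 2 := by rwa [le_div_iff₀ (by positivity), one_mul]
  linarith

theorem Dat.beta_sub (h : Dat u D κ l) {ρ : ℝ} (hρ : 0 < ρ) {x y : F} (hxy : ‖y - x‖ ≤ 2 * ρ) :
    |beta u D ρ x y - max 0 (1 - ⟪gm (D x) (y - x), y - x⟫_ℝ / ρ ^ 2)| ≤ 24 * κ * l * ρ := by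
  unfold beta
  have h1 := h.abs_ds_sub x y
  have hkl : 0 ≤ κ * l := mul_nonneg h.k0 h.l0
  have h2 : ‖y - x‖ ^ 3 ≤ (2 * ρ) ^ 3 := pow_le_pow_left₀ (norm_nonneg _) hxy 3
  calc |max 0 (1 - ds u D x y / ρ ^ 2) - max 0 (1 - ⟪gm (D x) (y - x), y - x⟫_ℝ / ρ ^ 2)|
      ≤ |(1 - ds u D x y / ρ ^ 2) - (1 - ⟪gm (D x) (y - x), y - x⟫_ℝ / ρ ^ 2)| := by
        have := abs_max_sub_max_le_abs (1 - ds u D x y / ρ ^ 2)
          (1 - ⟪gm (D x) (y - x), y - x⟫_ℝ / ρ ^ 2) 0
        rwa [max_comm 0, max_comm 0]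
    _ = |ds u D x y - ⟪gm (D x) (y - x), y - x⟫_ℝ| / ρ ^ 2 := by
        rw [show (1 - ds u D x y / ρ ^ 2) - (1 - ⟪gm (D x) (y - x), y - x⟫_ℝ / ρ ^ 2) =
          -((ds u D x y - ⟪gm (D x) (y - x), y - x⟫_ℝ) / ρ ^ 2) by ring, abs_neg, abs_div,
          abs_of_pos (by positivity : (0 : ℝ) < ρ ^ 2)]
    _ ≤ (3 * κ * l * (2 * ρ) ^ 3) / ρ ^ 2 := by
        refine div_le_div_of_nonneg_right ?_ (by positivity)
        refine h1.trans ?_
        have : 0 ≤ 3 * κ * l := by linarith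
        exact mul_le_mul_of_nonneg_left h2 this
    _ = 24 * κ * l * ρ := by field_simp; ring

/-- the constant -/
def C2 (m : ℕ) : ℝ := CK m * (2 + 32 * 4 ^ m)

theorem C2_pos (m : ℕ) : 0 < C2 m := by
  unfold C2
  have := CK_pos m
  positivity

/-- **node F3-KERN2** -/
theorem Dat.kern (vol : Measure F) [vol.IsAddHaarMeasure] (h : Dat u D κ l) {ρ : ℝ} (hρ : 0 < ρ)
    (hρ1 : ρ ≤ 1) (R : ℝ) :
    Kern vol (beta u D ρ) (fun x => √(LinearMap.det (gm (D x) : F →ₗ[ℝ] F)) / mass vol ρ) ρ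
      (C2 (Module.finrank ℝ F) * κ * l * ρ) (CK (Module.finrank ℝ F) / mass vol ρ) R := by
  have hm := mass_pos vol hρ
  have hCK := CK_pos (Module.finrank ℝ F)
  have hkl : 0 ≤ κ * l := mul_nonneg h.k0 h.l0
  have h1 := Kern_567.kern vol (g := fun x => gm (D x)) (lg := 2 * κ * l)
    (fun x a b => gm_symm _ _ _)
    (fun x v => by rw [inner_gm_self]; nlinarith [sq_nonneg ‖v‖, sq_nonneg ‖D x v‖])
    (fun x => by
      refine ContinuousLinearMap.opNorm_le_bound _ (by norm_num) fun v => ?_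
      rw [gm_apply]
      have a1 : ‖adjoint (D x) (D x v)‖ ≤ κ * (κ * ‖v‖) :=
        calc _ ≤ ‖adjoint (D x)‖ * ‖D x v‖ := ContinuousLinearMap.le_opNorm _ _
          _ ≤ κ * (κ * ‖v‖) := by
              rw [LinearIsometryEquiv.norm_map]
              exact mul_le_mul (h.hD x) ((ContinuousLinearMap.le_opNorm _ _).trans
                (mul_le_mul_of_nonneg_right (h.hD x) (norm_nonneg _))) (norm_nonneg _) h.k0
      have a2 : κ * κ ≤ 1 := by nlinarith [h.k0, h.k1]
      calc _ ≤ ‖v‖ + ‖adjoint (D x) (D x v)‖ := norm_add_le _ _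
        _ ≤ 2 * ‖v‖ := by nlinarith [norm_nonneg v])
    (fun x y => by
      refine ContinuousLinearMap.opNorm_le_bound _ (by
        have := norm_nonneg (x - y); nlinarith [mul_nonneg hkl this]) fun v => ?_
      have e1 : (gm (D x) - gm (D y)) v =
          adjoint (D x) ((D x - D y) v) + (adjoint (D x - D y)) (D y v) := by
        rw [sub_apply, gm_apply, gm_apply, sub_apply,
          map_sub, map_sub, sub_apply]
        abel
      rw [e1]
      have b1 : ‖adjoint (D x) ((D x - D y) v)‖ ≤ κ * (l * ‖x - y‖ * ‖v‖) :=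
        calc _ ≤ ‖adjoint (D x)‖ * ‖(D x - D y) v‖ := ContinuousLinearMap.le_opNorm _ _
          _ ≤ κ * (l * ‖x - y‖ * ‖v‖) := by
              rw [LinearIsometryEquiv.norm_map]
              exact mul_le_mul (h.hD x) ((ContinuousLinearMap.le_opNorm _ _).trans
                (mul_le_mul_of_nonneg_right (h.hL x y) (norm_nonneg _))) (norm_nonneg _) h.k0
      have b2 : ‖adjoint (D x - D y) (D y v)‖ ≤ (l * ‖x - y‖) * (κ * ‖v‖) :=
        calc _ ≤ ‖adjoint (D x - D y)‖ * ‖D y v‖ := ContinuousLinearMap.le_opNorm _ _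
          _ ≤ (l * ‖x - y‖) * (κ * ‖v‖) := by
              rw [LinearIsometryEquiv.norm_map]
              exact mul_le_mul (h.hL x y) ((ContinuousLinearMap.le_opNorm _ _).trans
                (mul_le_mul_of_nonneg_right (h.hD y) (norm_nonneg _))) (norm_nonneg _)
                (mul_nonneg h.l0 (norm_nonneg _))
      refine (norm_add_le _ _).trans ((add_le_add b1 b2).trans (le_of_eq ?_))
      ring)
    (by linarith) (by nlinarith [h.k0, h.k1, h.l0, h.l1]) hρ hρ1 R
  have h2 := perturb h1 (β' := beta u D ρ) (c := 24 * κ * l * ρ) (by positivity)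
    ((by
      have := continuous_ds h.cont h.contD
      exact (continuous_const.max (continuous_const.sub (this.div_const _))).measurable))
    (fun x y => beta_nonneg u D ρ x y) (fun x y => beta_le_one u D ρ x y)
    (fun x y hxy => h.beta_eq_zero hρ hxy) (by nlinarith [mul_nonneg hkl hρ.le])
    (fun x y hxy => h.beta_sub hρ hxy)
  have h3 := vol_le_mass vol hρ (F := F)
  refine { h2 with mass := fun y hy => (h2.mass y hy).trans ?_ }
  have h4 : CK (Module.finrank ℝ F) / mass vol ρ * (24 * κ * l * ρ) *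
      vol.real (closedBall (0 : F) (2 * ρ)) ≤
      CK (Module.finrank ℝ F) * (24 * κ * l * ρ) * (4 / 3 * 4 ^ (Module.finrank ℝ F)) := by
    have h5 : 0 ≤ CK (Module.finrank ℝ F) / mass vol ρ * (24 * κ * l * ρ) := by
      have : 0 ≤ 24 * κ * l * ρ := by nlinarith [mul_nonneg hkl hρ.le]
      positivity
    calc _ ≤ CK (Module.finrank ℝ F) / mass vol ρ * (24 * κ * l * ρ) *
          (4 / 3 * 4 ^ (Module.finrank ℝ F) * mass vol ρ) := mul_le_mul_of_nonneg_left h3 h5
      _ = _ := by field_simp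
  unfold C2
  refine (add_le_add le_rfl h4).trans (le_of_eq ?_)
  ring

/-! ### the base coordinate in the rotated frame -/

section Frame

variable {E : Type*} [NormedAddCommGroup E] [InnerProductSpace ℝ E] [FiniteDimensional ℝ E]

/-- abstract form: `A : F → E` with `AᵀA = g`, `p : E → F` linear with `pᵀ p A = A`
(`p` = orthogonal coordinates of the plane `range A`): `|p ζ|² = ⟪g⁻¹ Aᵀ ζ, Aᵀ ζ⟫`. -/
theorem norm_coord (D : F →L[ℝ] G) (A : F →L[ℝ] E) (hA : (adjoint A) ∘L A = gm D)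
    (p : E →L[ℝ] F) (hp : ∀ v, adjoint p (p (A v)) = A v) (ζ : E) :
    ‖p ζ‖ ^ 2 = ⟪gi D (adjoint A ζ), adjoint A ζ⟫_ℝ := by
  have hA' : ∀ v, adjoint A (A v) = gm D v := fun v => congrArg (fun T : F →L[ℝ] F => T v) hA
  -- `B = p A` is bijective
  have hB : ∀ v, ‖p (A v)‖ ^ 2 = ⟪gm D v, v⟫_ℝ := by
    intro v
    rw [← real_inner_self_eq_norm_sq, ← ContinuousLinearMap.adjoint_inner_left, hp,
      ← ContinuousLinearMap.adjoint_inner_left, hA']
  have hinj : Injective ((p ∘L A : F →L[ℝ] F) : F →ₗ[ℝ] F) := by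
    refine (injective_iff_map_eq_zero _).2 fun v hv => ?_
    have hv' : p (A v) = 0 := hv
    have h := hB v
    rw [hv', inner_gm_self, norm_zero] at h
    have h2 : ‖v‖ ^ 2 = 0 := by nlinarith [sq_nonneg ‖v‖, sq_nonneg ‖D v‖]
    exact norm_eq_zero.1 ((pow_eq_zero_iff two_ne_zero).1 h2)
  obtain ⟨v, hv⟩ := (LinearMap.injective_iff_surjective.1 hinj) (p ζ)
  have hv' : p (A v) = p ζ := hv
  -- `Aᵀ ζ = g v`
  have h1 : adjoint A ζ = gm D v := by
    refine ext_inner_right ℝ fun w => ?_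
    rw [ContinuousLinearMap.adjoint_inner_left, ← hp w, ContinuousLinearMap.adjoint_inner_right,
      ← hv', ← ContinuousLinearMap.adjoint_inner_left, hp,
      ← ContinuousLinearMap.adjoint_inner_left, hA']
  rw [h1, gi_gm, ← hv', hB, real_inner_comm]

end Frame

/-- **in the language of `Main_456.Frame`**: `m_y - m_x = πᵀ (y - x) + ρᵀ (u y - u x)`, `(π', ρ')` a
frame tangent to the graph at `m_x`. -/
theorem norm_frame {m n k : ℕ} {π π' : Euc k →L[ℝ] Euc m} {ρ ρ' : Euc k →L[ℝ] Euc n}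
    (h : Main_456.Frame π ρ) (h' : Main_456.Frame π' ρ') (u : Euc m → Euc n)
    (D : Euc m → Euc m →L[ℝ] Euc n) (x y : Euc m)
    (ht : ρ' ∘L (adjoint π + adjoint ρ ∘L D x) = 0) :
    ‖π' (adjoint π (y - x) + adjoint ρ (u y - u x))‖ ^ 2 = ds u D x y := by
  have e1 : ∀ v, π (adjoint π v) = v := fun v => congrArg (fun T : Euc m →L[ℝ] Euc m => T v) h.coπ
  have e2 : ∀ v, ρ (adjoint ρ v) = v := fun v => congrArg (fun T : Euc n →L[ℝ] Euc n => T v) h.coρ
  have e3 : ∀ v, π (adjoint ρ v) = 0 := fun v => congrArg (fun T : Euc n →L[ℝ] Euc m => T v) h.orth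
  have e4 : ∀ v, ρ (adjoint π v) = 0 := by
    intro v
    refine ext_inner_right ℝ fun w => ?_
    rw [← ContinuousLinearMap.adjoint_inner_right, ContinuousLinearMap.adjoint_inner_left, e3]
    simp
  set A : Euc m →L[ℝ] Euc k := adjoint π + adjoint ρ ∘L D x with hA
  have hAT : ∀ ζ, adjoint A ζ = π ζ + adjoint (D x) (ρ ζ) := by
    intro ζ
    refine ext_inner_right ℝ fun w => ?_
    rw [ContinuousLinearMap.adjoint_inner_left, hA, inner_add_left,
      ContinuousLinearMap.adjoint_inner_left, ContinuousLinearMap.add_apply,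
      ContinuousLinearMap.comp_apply, inner_add_right, ContinuousLinearMap.adjoint_inner_right,
      ContinuousLinearMap.adjoint_inner_right]
  have hAv : ∀ v, A v = adjoint π v + adjoint ρ (D x v) := fun v => rfl
  have hg : (adjoint A) ∘L A = gm (D x) := by
    ext1 v
    rw [ContinuousLinearMap.comp_apply, hAT, hAv, map_add, map_add, e1, e3, e4, e2, add_zero,
      zero_add, gm_apply]
  have hp : ∀ v, adjoint π' (π' (A v)) = A v := by
    intro v
    have h1 := congrArg (fun T : Euc k →L[ℝ] Euc k => T (A v)) h'.full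
    have h2 : ρ' (A v) = 0 := congrArg (fun T : Euc m →L[ℝ] Euc n => T v) ht
    simp only [ContinuousLinearMap.add_apply, ContinuousLinearMap.comp_apply, h2, map_zero,
      add_zero, ContinuousLinearMap.id_apply] at h1
    exact h1
  rw [norm_coord (D x) A hg π' hp]
  have hw : adjoint A (adjoint π (y - x) + adjoint ρ (u y - u x)) = wv u D x y := by
    rw [hAT, map_add, map_add, e1, e3, e4, e2, add_zero, zero_add]
    rfl
  rw [hw]
  rfl

end Crest.Agent.R234.Kern2_332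
end
end

-- ▼ part R234/F35k_433

/-!
# Row 234 (helper433), node F3-KV: the kernel of KERN2 in the coordinate `v = ch.x`

`comp_lin`: linear change of variables of a kernel. `kern_ch`: the instance for a graph of class
`Gr 1 w`, with the weight `jB w X0 v / mass ρ`. `beta_zc`, `beta_ch`: the kernel is the profile
`max 0 (1 - |x''|²)` of the base coordinate of the normalised chart.
-/

set_option autoImplicit false
set_option linter.unusedSectionVars false

open MeasureTheory Set Metric Function Filter Topology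
open scoped ENNReal NNReal ContDiff RealInnerProductSpace
open Crest.GeometryTopology.Submanifold

noncomputable section

namespace Crest.Agent.R234.F35k_433

open Crest.Agent.R234.F31_354 (Kern)
open Crest.Agent.R234.Kern2_332 (gm gi wv ds beta Dat C2)
open Crest.Agent.R234.Loc1_290 (mass mass_pos)
open Crest.Agent.R234.Ell1_3 (dns gdet gop)
open Crest.Agent.R234.Main_456 Crest.Agent.R234.Grot_842 Crest.Agent.R234.Foot_842
open Crest.Agent.R234.Nrm_842
open Crest.Agent.R234.Gi_456 (Gr tube IsFoot foot Lo Loi Loi_Lo Lo_Loi ch jB det_Lo det_Lo_pos norm_Lo_sq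
  Loi_spec norm_Lo_le)

local notation "adj" => ContinuousLinearMap.adjoint

section Lin

variable {F : Type*} [NormedAddCommGroup F] [InnerProductSpace ℝ F] [FiniteDimensional ℝ F]
  [MeasurableSpace F] [BorelSpace F]

omit [MeasurableSpace F] [BorelSpace F] [FiniteDimensional ℝ F] in
theorem det_mul_det {A B : F →L[ℝ] F} (h : A ∘L B = ContinuousLinearMap.id ℝ F) :
    A.det * B.det = 1 := by
  have h1 : LinearMap.det ((A : F →ₗ[ℝ] F) ∘ₗ (B : F →ₗ[ℝ] F)) = 1 := by
    have h2 : (A : F →ₗ[ℝ] F) ∘ₗ (B : F →ₗ[ℝ] F) = LinearMap.id := by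
      ext v
      exact congrArg (fun T : F →L[ℝ] F => T v) h
    rw [h2, LinearMap.det_id]
  rwa [LinearMap.det_comp] at h1

/-- change of variables -/
theorem integral_comp_lin {vol : Measure F} [vol.IsAddHaarMeasure] {Li : F →L[ℝ] F}
    (hdet : Li.det ≠ 0) (f : F → ℝ) (X0 : F) :
    |Li.det| * ∫ v, f (X0 + Li v) ∂vol = ∫ x, f x ∂vol := by
  have hd : LinearMap.det (Li : F →ₗ[ℝ] F) ≠ 0 := hdet
  have e1 : ∫ v, f (X0 + Li v) ∂vol = ∫ y, f (X0 + y) ∂(Measure.map Li vol) := by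
    set e : F ≃L[ℝ] F := (LinearMap.equivOfDetNeZero (Li : F →ₗ[ℝ] F) hd).toContinuousLinearEquiv
      with he
    have h2 : (Li : F → F) = e := rfl
    have h3 : MeasurableEmbedding (e : F → F) := e.toHomeomorph.measurableEmbedding
    rw [h2, h3.integral_map]
  have e2 : Measure.map (Li : F → F) vol = Measure.map (Li : F →ₗ[ℝ] F) vol := rfl
  rw [e1, e2, Measure.map_linearMap_addHaar_eq_smul_addHaar vol hd, integral_smul_measure,
    ENNReal.toReal_ofReal (abs_nonneg _), abs_inv, smul_eq_mul, ← mul_assoc]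
  rw [show |Li.det| * |LinearMap.det (Li : F →ₗ[ℝ] F)|⁻¹ = 1 from
    mul_inv_cancel₀ (abs_ne_zero.2 hd), one_mul]
  exact integral_add_left_eq_self f X0

/-- linear change of variables of a kernel -/
theorem comp_lin {vol : Measure F} [vol.IsAddHaarMeasure] {β : F → F → ℝ} {w : F → ℝ}
    {ρ θ W R R' : ℝ} (h : Kern vol β w ρ θ W R') {L Li : F →L[ℝ] F}
    (h2 : ∀ v, L (Li v) = v) {a σ : ℝ} (hLi : ∀ v, ‖Li v‖ ≤ ‖v‖) (hL : ∀ v, ‖L v‖ ≤ a * ‖v‖)
    (ha : 0 ≤ a) (hσ : ∀ x y, σ < ‖y - x‖ → β x y = 0) (haσ : a * σ ≤ 2 * ρ) {X0 : F}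
    (hR : ‖X0‖ + R ≤ R') :
    Kern vol (fun v₁ v₂ => β (X0 + Li v₁) (X0 + Li v₂)) (fun v => w (X0 + Li v) * |Li.det|) ρ θ
      (W * |Li.det|) R := by
  have hc : Continuous fun v : F => X0 + Li v := continuous_const.add Li.continuous
  have hdet : Li.det ≠ 0 := by
    intro h0
    have e : L ∘L Li = ContinuousLinearMap.id ℝ F := ContinuousLinearMap.ext h2
    have e2 : L.det * Li.det = 1 := det_mul_det e
    rw [h0, mul_zero] at e2
    exact zero_ne_one e2
  refine ⟨?_, fun x y => h.nonneg _ _, fun x y => h.le_one _ _, ?_, ?_, ?_, ?_, ?_⟩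
  · exact h.meas.comp ((hc.comp continuous_fst).prodMk (hc.comp continuous_snd)).measurable
  · intro x y hxy
    refine hσ _ _ ?_
    by_contra hcon
    have e1 : X0 + Li y - (X0 + Li x) = Li (y - x) := by rw [map_sub]; abel
    rw [e1, not_lt] at hcon
    have e2 := hL (Li (y - x))
    rw [h2] at e2
    have e3 : a * ‖Li (y - x)‖ ≤ a * σ := mul_le_mul_of_nonneg_left hcon ha
    linarith
  · exact (h.wmeas.comp hc.measurable).mul_const _
  · exact fun x => mul_nonneg (h.wnonneg _) (abs_nonneg _)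
  · exact fun x => mul_le_mul_of_nonneg_right (h.wle _) (abs_nonneg _)
  · intro y hy
    have hy2 : X0 + Li y ∈ closedBall (0 : F) (R' + 2 * ρ) := by
      rw [mem_closedBall_zero_iff] at hy ⊢
      have := norm_add_le X0 (Li y)
      have := hLi y
      linarith
    refine le_trans (le_of_eq ?_) (h.mass _ hy2)
    congr 2
    have e := integral_comp_lin (vol := vol) hdet (fun x => w x * β x (X0 + Li y)) X0
    rw [← e, ← integral_const_mul]
    refine integral_congr_ae (Eventually.of_forall fun v => ?_)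
    simp only
    ring

end Lin

variable {m n k : ℕ}


theorem sqrt_det_gm (q : Euc m →L[ℝ] Euc n) :
    √(LinearMap.det (gm q : Euc m →ₗ[ℝ] Euc m)) = dns q := rfl

/-- the class of graphs supplies the data of KERN2 -/
theorem dat_gr {w : Euc m → Euc n} (h : Gr 1 w) : Dat w (fderiv ℝ w) (1 / 8) (1 / 8) where
  hu := fun x => (h.differentiable x).hasFDerivAt
  k0 := by norm_num
  k1 := by norm_num
  hD := h.d1
  l0 := by norm_num
  l1 := by norm_num
  hL := fun x y => by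
    have := h.lip' x y
    rwa [mul_one] at this

/-- the kernel in the coordinate of the chart -/
def bv (w : Euc m → Euc n) (Xc : Euc m) (ρ : ℝ) (v₁ v₂ : Euc m) : ℝ :=
  beta w (fderiv ℝ w) ρ (Gi_456.pt w Xc v₁) (Gi_456.pt w Xc v₂)

theorem abs_det_Loi (q : Euc m →L[ℝ] Euc n) : |(Loi q).det| = (dns q)⁻¹ := by
  have e : Lo q ∘L Loi q = ContinuousLinearMap.id ℝ (Euc m) := (Loi_spec q).2.1
  have e2 : (Lo q).det * (Loi q).det = 1 := det_mul_det e
  rw [det_Lo] at e2
  rw [eq_inv_of_mul_eq_one_right e2, abs_of_pos (inv_pos.2 (Ell1_3.dns_pos q))]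

/-- **node F3-KV**: the kernel in the coordinate `v = ch.x` -/
theorem kern_ch {w : Euc m → Euc n} (h : Gr 1 w) (Xc : Euc m) {ρ : ℝ} (hρ : 0 < ρ) (hρ1 : ρ ≤ 1)
    (R : ℝ) :
    Kern volume (bv w Xc ρ) (fun v => jB w Xc v / mass (volume : Measure (Euc m)) ρ) ρ (C2 m * ρ)
      (Kern_567.CK m / mass (volume : Measure (Euc m)) ρ) R := by
  have hm := mass_pos (volume : Measure (Euc m)) hρ
  have h1 := (dat_gr h).kern volume hρ hρ1 (‖Xc‖ + R)
  rw [finrank_euclideanSpace, Fintype.card_fin] at h1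
  have hq8 := h.d1 Xc
  have h2 := comp_lin h1 (L := Lo (fderiv ℝ w Xc)) (Li := Loi (fderiv ℝ w Xc)) (X0 := Xc) (R := R)
    (Lo_Loi _) (a := 65 / 64) (σ := 6 / 5 * ρ)
    (fun v => (ContinuousLinearMap.le_opNorm _ _).trans
      (mul_le_of_le_one_left (norm_nonneg _) (Loi_spec _).2.2))
    (fun v => norm_Lo_le hq8 v) (by norm_num)
    (fun x y hxy => by
      have h3 := (dat_gr h).ds_ge x y
      have h5 : (6 / 5 * ρ) ^ 2 ≤ ‖y - x‖ ^ 2 := pow_le_pow_left₀ (by positivity) hxy.le 2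
      have h4 : 1 ≤ ds w (fderiv ℝ w) x y / ρ ^ 2 := by
        rw [le_div_iff₀ (by positivity)]
        nlinarith [sq_nonneg ρ]
      exact max_eq_left (by linarith))
    (by linarith) le_rfl
  have hd1 : |(Loi (fderiv ℝ w Xc)).det| = (dns (fderiv ℝ w Xc))⁻¹ := abs_det_Loi _
  have hd2 : 1 ≤ dns (fderiv ℝ w Xc) := one_le_dns _
  refine ⟨h2.meas, h2.nonneg, h2.le_one, h2.supp, ?_, ?_, ?_, ?_⟩
  · exact (h.contDiff_j Xc).continuous.measurable.div_const _
  · exact fun v => div_nonneg (Gi_456.jB_pos _ _ _).le hm.le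
  · intro v
    have h3 := h2.wle v
    simp only [hd1, sqrt_det_gm] at h3
    have e1 : jB w Xc v / mass (volume : Measure (Euc m)) ρ = dns (fderiv ℝ w (Xc + Loi (fderiv ℝ w Xc) v)) /
        mass (volume : Measure (Euc m)) ρ * (dns (fderiv ℝ w Xc))⁻¹ := by
      rw [jB, det_Lo, Gi_456.pt]
      ring
    rw [e1]
    refine h3.trans ?_
    have h4 : (dns (fderiv ℝ w Xc))⁻¹ ≤ 1 := inv_le_one_of_one_le₀ hd2
    have h5 : 0 ≤ Kern_567.CK m / mass (volume : Measure (Euc m)) ρ := div_nonneg (Kern_567.CK_pos m).le hm.le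
    exact mul_le_of_le_one_right h5 h4
  · intro y hy
    have h3 := h2.mass y hy
    simp only [hd1, sqrt_det_gm] at h3
    have e1 : ∀ v, jB w Xc v / mass (volume : Measure (Euc m)) ρ * bv w Xc ρ v y =
        dns (fderiv ℝ w (Xc + Loi (fderiv ℝ w Xc) v)) / mass (volume : Measure (Euc m)) ρ *
          (dns (fderiv ℝ w Xc))⁻¹ * beta w (fderiv ℝ w) ρ (Xc + Loi (fderiv ℝ w Xc) v)
            (Xc + Loi (fderiv ℝ w Xc) y) := by
      intro v
      rw [jB, det_Lo, bv, Gi_456.pt, Gi_456.pt]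
      ring
    simp_rw [e1]
    refine h3.trans ?_
    have h4 : 0 ≤ C2 m * ρ := mul_nonneg (Kern2_332.C2_pos m).le hρ.le
    nlinarith

/-! ### the kernel is the profile of the normalised chart -/

theorem tangent {π : Euc k →L[ℝ] Euc m} {ρ : Euc k →L[ℝ] Euc n} (hf : Frame π ρ)
    (q : Euc m →L[ℝ] Euc n) (H' : Euc n →L[ℝ] Euc n) :
    rρ π ρ q H' ∘L (adj π + adj ρ ∘L q) = 0 := by
  refine ContinuousLinearMap.ext fun v => ?_
  show rρ π ρ q H' (adj π v + adj ρ (q v)) = 0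
  rw [rρ_apply, map_add, map_add, fr_ρπ hf, fr_ρρ hf, fr_ππ hf, fr_πρ hf, zero_add, add_zero,
    sub_self, map_zero]

theorem ds_eq {π : Euc k →L[ℝ] Euc m} {ρ : Euc k →L[ℝ] Euc n} (hf : Frame π ρ)
    {w : Euc m → Euc n} {X0 : Euc m} {H : Euc m →L[ℝ] Euc m} {H' : Euc n →L[ℝ] Euc n}
    (hR : Rt (fderiv ℝ w X0) H H') (X : Euc m) :
    ds w (fderiv ℝ w) X0 X = ‖chg (fderiv ℝ w X0) H (shf w X0) (X - X0)‖ ^ 2 := by
  have h1 := Kern2_332.norm_frame hf (frame_rot hf hR) w (fderiv ℝ w) X0 X (tangent hf _ H')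
  rw [← h1]
  congr 2
  rw [rπ_apply]
  simp only [map_add, fr_ππ hf, fr_πρ hf, fr_ρρ hf, fr_ρπ hf, add_zero, zero_add, chg, shf,
    add_sub_cancel]

/-- the kernel is the profile of the zoomed base coordinate -/
theorem beta_zc {π : Euc k →L[ℝ] Euc m} {ρ : Euc k →L[ℝ] Euc n} (hf : Frame π ρ)
    {w w' U : Euc m → Euc n} {X0 : Euc m} {K : ℕ} {C κ t : ℝ} {q : Euc m →L[ℝ] Euc n}
    {H : Euc m →L[ℝ] Euc m} {H' : Euc n →L[ℝ] Euc n} (h : Zm w X0 K C κ t q H H' w' U)
    (X : Euc m) :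
    beta w (fderiv ℝ w) t X0 X = max 0 (1 - ‖zc t q H w X0 X‖ ^ 2) := by
  have hq := h.qe
  have hR := h.rot.rt
  rw [hq] at hR
  rw [beta, ds_eq hf hR, zc, norm_smul, norm_inv, Real.norm_of_nonneg h.t0.le, mul_pow, inv_pow,
    ← hq, inv_mul_eq_div]



theorem pt_ch_x {π : Euc k →L[ℝ] Euc m} {ρ : Euc k →L[ℝ] Euc n} {x : Euc k} {r : ℝ}
    {w : Euc m → Euc n} (Xc : Euc m) (z : Euc k) :
    Gi_456.pt w Xc ((ch π ρ x r w Xc).x z) = foot π ρ x r w z := by
  show Xc + Loi _ (Lo _ (foot π ρ x r w z - Xc)) = _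
  rw [Loi_Lo, add_sub_cancel]

theorem pt_Lo (w : Euc m → Euc n) (Xc X0 : Euc m) :
    Gi_456.pt w Xc (Lo (fderiv ℝ w Xc) (X0 - Xc)) = X0 := by
  show Xc + Loi _ (Lo _ (X0 - Xc)) = _
  rw [Loi_Lo, add_sub_cancel]


/-- the kernel vanishes away from the base point -/
theorem bv_zero {w : Euc m → Euc n} (h : Gr 1 w) (Xc : Euc m) {ρ : ℝ} (hρ : 0 < ρ) {v₁ v₂ : Euc m}
    (hv : 2 * ρ < ‖Gi_456.pt w Xc v₂ - Gi_456.pt w Xc v₁‖) : bv w Xc ρ v₁ v₂ = 0 :=
  (dat_gr h).beta_eq_zero hρ hv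

end Crest.Agent.R234.F35k_433
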