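import Crest.Agent.R234.Ft3_209
import Crest.Agent.R234.Fm6_281
import Crest.Agent.R234.AS_456
import Crest.Agent.R234.Main2_456
import Crest.Agent.R234.Cy2_870

-- ▼ part R234/Ft6_209
section

/-!
# Row 234, VF-FERMI, part (T) transport of a varifold by a diffeomorphism, file 6 (helper209)

Constructors of `Dif k`: composition, affine isomorphisms, small perturbations of the identity.
-/

set_option autoImplicit false

open Function Set MeasureTheory Crest.GeometryTopology.Submanifold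
open scoped InnerProductSpace ENNReal NNReal

noncomputable section

namespace Crest.Agent.R234.Ft_209

open Crest.Agent.R234.Fm_209 Crest.Agent.R234.Vf_884 Crest.Agent.R234.Ar_870

variable {k : ℕ}

namespace Dif

/-- composition: `Φ = S.Φ ∘ T.Φ` -/
def comp (S T : Dif k) : Dif k where
  Φ := S.Φ ∘ T.Φ
  Ψ := T.Ψ ∘ S.Ψ
  cΦ := S.cΦ.comp T.cΦ
  cΨ := T.cΨ.comp S.cΨ
  left z := by
    change T.Ψ (S.Ψ (S.Φ (T.Φ z))) = z
    rw [S.left, T.left]
  right q := by
    change S.Φ (T.Φ (T.Ψ (S.Ψ q))) = q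
    rw [T.right, S.right]




/-- **perturbation of the identity** -/
theorem exists_pert {f : Euc k → Euc k} (hf : ContDiff ℝ 2 f)
    (hb : ∀ z, ‖fderiv ℝ f z‖ ≤ 1 / 2) :
    ∃ T : Dif k, (∀ z, T.Φ z = z + f z) := by
  have hfd : Differentiable ℝ f := hf.differentiable two_ne_zero
  have hlip : ∀ x y, ‖f x - f y‖ ≤ 1 / 2 * ‖x - y‖ := fun x y =>
    convex_univ.norm_image_sub_le_of_norm_fderiv_le (fun z _ => hfd z) (fun z _ => hb z)
      (mem_univ y) (mem_univ x)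
  have happ : ApproximatesLinearOn (fun z => z + f z)
      ((ContinuousLinearEquiv.refl ℝ (Euc k) : Euc k ≃L[ℝ] Euc k) : Euc k →L[ℝ] Euc k)
      univ (1 / 2 : ℝ≥0) := by
    intro x _ y _
    have h1 : (x + f x) - (y + f y) - (x - y) = f x - f y := by abel
    change ‖(x + f x) - (y + f y) - (x - y)‖ ≤ _
    rw [h1]
    simpa using hlip x y
  have hinjA : ∀ z, Injective (1 + fderiv ℝ f z : L k) := by
    intro z x y hxy
    have h1 : x - y = -(fderiv ℝ f z (x - y)) := by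
      have h2 : x + fderiv ℝ f z x = y + fderiv ℝ f z y := hxy
      rw [map_sub]
      have h3 : x - y = fderiv ℝ f z y - fderiv ℝ f z x := by
        rw [sub_eq_sub_iff_add_eq_add]
        rw [h2, add_comm]
      rw [h3]
      abel
    have h2 : ‖x - y‖ ≤ 1 / 2 * ‖x - y‖ := by
      conv_lhs => rw [h1, norm_neg]
      exact ((fderiv ℝ f z).le_opNorm _).trans (mul_le_mul_of_nonneg_right (hb z) (norm_nonneg _))
    have h3 : ‖x - y‖ = 0 := by linarith [norm_nonneg (x - y)]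
    exact sub_eq_zero.1 (norm_eq_zero.1 h3)
  have hder : ∀ z, HasFDerivAt (fun z => z + f z) (1 + fderiv ℝ f z : L k) z := fun z =>
    (hasFDerivAt_id z).add (hfd z).hasFDerivAt
  rcases subsingleton_or_nontrivial (Euc k) with hs | hs
  · refine ⟨⟨id, id, contDiff_id, contDiff_id, fun z => rfl, fun q => rfl⟩, fun z => ?_⟩
    exact Subsingleton.elim _ _
  · have hN : (1 / 2 : ℝ≥0) < ‖((ContinuousLinearEquiv.refl ℝ (Euc k)).symm :
        Euc k →L[ℝ] Euc k)‖₊⁻¹ := by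
      have h1 : ‖((ContinuousLinearEquiv.refl ℝ (Euc k)).symm : Euc k →L[ℝ] Euc k)‖₊ = 1 := by
        have : ‖(ContinuousLinearMap.id ℝ (Euc k))‖₊ = 1 := by
          ext
          simp
        exact this
      rw [h1, inv_one]
      exact NNReal.half_lt_self one_ne_zero
    set H := happ.toHomeomorph (fun z => z + f z) (Or.inr hN) with hH
    have hHf : ∀ z, H z = z + f z := fun z => rfl
    let e : ∀ z : Euc k, Euc k ≃L[ℝ] Euc k := fun z =>
      (LinearEquiv.ofInjectiveEndo ((1 + fderiv ℝ f z : L k) : Euc k →ₗ[ℝ] Euc k)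
        (hinjA z)).toContinuousLinearEquiv
    have he : ∀ z, ((e z : Euc k ≃L[ℝ] Euc k) : L k) = 1 + fderiv ℝ f z := by
      intro z
      ext1 v
      rfl
    have hc : ContDiff ℝ 2 (fun z => z + f z) := contDiff_id.add hf
    have hsy : ContDiff ℝ 2 (H.symm : Euc k → Euc k) :=
      H.contDiff_symm (f₀' := e) (fun z => by rw [he]; exact hder z) hc
    exact ⟨⟨H, H.symm, hc, hsy, H.symm_apply_apply, H.apply_symm_apply⟩, fun z => rfl⟩

/-- `id + f` as a diffeomorphism -/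
def ofPert (f : Euc k → Euc k) (hf : ContDiff ℝ 2 f) (hb : ∀ z, ‖fderiv ℝ f z‖ ≤ 1 / 2) : Dif k :=
  (exists_pert hf hb).choose

theorem ofPert_Φ {f : Euc k → Euc k} (hf : ContDiff ℝ 2 f) (hb : ∀ z, ‖fderiv ℝ f z‖ ≤ 1 / 2)
    (z : Euc k) : (ofPert f hf hb).Φ z = z + f z := (exists_pert hf hb).choose_spec z

theorem ofPert_A {f : Euc k → Euc k} (hf : ContDiff ℝ 2 f) (hb : ∀ z, ‖fderiv ℝ f z‖ ≤ 1 / 2)
    (z : Euc k) : (ofPert f hf hb).A z = 1 + fderiv ℝ f z := by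
  have h1 : (ofPert f hf hb).Φ = fun z => z + f z := funext (ofPert_Φ hf hb)
  have h2 : HasFDerivAt (fun z => z + f z) (1 + fderiv ℝ f z : L k) z :=
    (hasFDerivAt_id z).add (hf.differentiable two_ne_zero z).hasFDerivAt
  unfold A
  rw [h1]
  exact h2.fderiv



end Dif

end Crest.Agent.R234.Ft_209
end
end

-- ▼ part R234/Fc1_209
section

/-!
# Row 234, node FERMI-CHART (helper209), file 1: derivatives of the graph map

`uu z = κ† (u (π z))`, `P = D uu`, `P' = D P`, `P'' = D P'`, `hop z w v = (P' z v)† w`,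
`h z = hop z z`, `h1 z ζ = D_ζ h`.
-/

set_option autoImplicit false

open Function Set Filter Topology Crest.GeometryTopology.Submanifold
open Crest.Agent.R234.Vf_884 Crest.Agent.R234.Ar_870 Crest.Agent.R234.Fm_281
open Crest.Agent.R234.Cy_870 (Split)
open Crest.Agent.R234.AS_456 (hp vp)
open scoped InnerProductSpace

noncomputable section

namespace Crest.Agent.R234.Fc_209

variable {m n k : ℕ}

section Defs

variable (π : Euc k →L[ℝ] Euc m) (κ : Euc k →L[ℝ] Euc n) (u : Euc m → Euc n)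

/-- extension of an operator `ℝ^m → ℝ^n` to the ambient space -/
def Th : (Euc m →L[ℝ] Euc n) →L[ℝ] L k :=
  (ContinuousLinearMap.compL ℝ (Euc k) (Euc n) (Euc k) (ContinuousLinearMap.adjoint κ)) ∘L
    ((ContinuousLinearMap.compL ℝ (Euc k) (Euc m) (Euc n)).flip π)

theorem Th_apply (q : Euc m →L[ℝ] Euc n) (z : Euc k) :
    Th π κ q z = ContinuousLinearMap.adjoint κ (q (π z)) := rfl

/-- the graph map -/
def uu (z : Euc k) : Euc k := ContinuousLinearMap.adjoint κ (u (π z))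

/-- its derivative -/
def P (z : Euc k) : L k := fderiv ℝ (uu π κ u) z

/-- second derivative -/
def P' (z : Euc k) : Euc k →L[ℝ] L k := fderiv ℝ (P π κ u) z

/-- third derivative -/
def P'' (z : Euc k) : Euc k →L[ℝ] Euc k →L[ℝ] L k := fderiv ℝ (P' π κ u) z

/-- the adjoint as a continuous linear map -/
def adjL : L k →L[ℝ] L k :=
  (ContinuousLinearMap.adjoint (𝕜 := ℝ) (E := Euc k) (F := Euc k)).toContinuousLinearEquiv.toContinuousLinearMap

theorem adjL_apply (A : L k) : adjL A = star A := rfl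

/-- `v ↦ (P' z v)† w` -/
def hop (z w : Euc k) : L k := (adjL ∘L P' π κ u z).flip w

/-- `v ↦ (P' z v)† z` -/
def h (z : Euc k) : L k := hop π κ u z z

/-- derivative of `h` along `ζ` -/
def h1 (z ζ : Euc k) : L k := hop π κ u z ζ + (adjL ∘L P'' π κ u z ζ).flip z

theorem hop_apply (z w v : Euc k) : hop π κ u z w v = (star (P' π κ u z v)) w := rfl

theorem h1_apply (z ζ v : Euc k) :
    h1 π κ u z ζ v = (star (P' π κ u z v)) ζ + (star (P'' π κ u z ζ v)) z := rfl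

end Defs

section Deriv

variable {π : Euc k →L[ℝ] Euc m} {κ : Euc k →L[ℝ] Euc n} {u : Euc m → Euc n}


theorem contDiff_uu (hu : ContDiff ℝ 3 u) : ContDiff ℝ 3 (uu π κ u) :=
  (ContinuousLinearMap.adjoint κ).contDiff.comp (hu.comp π.contDiff)

theorem contDiff_P (hu : ContDiff ℝ 3 u) : ContDiff ℝ 2 (P π κ u) :=
  (contDiff_uu hu).fderiv_right (by norm_num)

theorem contDiff_P' (hu : ContDiff ℝ 3 u) : ContDiff ℝ 1 (P' π κ u) :=
  (contDiff_P hu).fderiv_right (by norm_num)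

theorem hasFDerivAt_P (hu : ContDiff ℝ 3 u) (z : Euc k) :
    HasFDerivAt (P π κ u) (P' π κ u z) z :=
  ((contDiff_P hu).differentiable (by norm_num) z).hasFDerivAt

theorem hasFDerivAt_P' (hu : ContDiff ℝ 3 u) (z : Euc k) :
    HasFDerivAt (P' π κ u) (P'' π κ u z) z :=
  ((contDiff_P' hu).differentiable (by norm_num) z).hasFDerivAt

theorem P_eq (hu : ContDiff ℝ 3 u) (z : Euc k) : P π κ u z = Th π κ (fderiv ℝ u (π z)) := by
  have h1 : HasFDerivAt u (fderiv ℝ u (π z)) (π z) :=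
    (hu.differentiable (by norm_num) (π z)).hasFDerivAt
  have h2 : HasFDerivAt (uu π κ u)
      (ContinuousLinearMap.adjoint κ ∘L (fderiv ℝ u (π z) ∘L π)) z :=
    (ContinuousLinearMap.adjoint κ).hasFDerivAt.comp z (h1.comp z π.hasFDerivAt)
  exact h2.fderiv

theorem P'_apply (hu : ContDiff ℝ 3 u) (z v : Euc k) :
    P' π κ u z v = Th π κ (fderiv ℝ (fderiv ℝ u) (π z) (π v)) := by
  have hu2 : ContDiff ℝ 2 (fderiv ℝ u) := hu.fderiv_right (by norm_num)
  have h1 : HasFDerivAt (fderiv ℝ u) (fderiv ℝ (fderiv ℝ u) (π z)) (π z) :=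
    (hu2.differentiable (by norm_num) (π z)).hasFDerivAt
  have h2 : HasFDerivAt (fun z => Th π κ (fderiv ℝ u (π z)))
      (Th π κ ∘L (fderiv ℝ (fderiv ℝ u) (π z) ∘L π)) z :=
    (Th π κ).hasFDerivAt.comp z (h1.comp z π.hasFDerivAt)
  have h3 : P π κ u = fun z => Th π κ (fderiv ℝ u (π z)) := funext fun z => P_eq hu z
  unfold P'
  rw [h3, h2.fderiv]
  rfl

theorem comp_aux3 {E F G H : Type*} [NormedAddCommGroup E] [NormedSpace ℝ E]
    [NormedAddCommGroup F]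
    [NormedSpace ℝ F] [NormedAddCommGroup G] [NormedSpace ℝ G] [NormedAddCommGroup H]
    [NormedSpace ℝ H] (D : F → (F →L[ℝ] G)) (T : G →L[ℝ] H) (π : E →L[ℝ] F)
    (hD : Differentiable ℝ D) {Q : E → (E →L[ℝ] H)} (hQ : ∀ z v, Q z v = T (D (π z) (π v)))
    (z ζ v : E) : fderiv ℝ Q z ζ v = T (fderiv ℝ D (π z) (π ζ) (π v)) := by
  obtain ⟨Ξ, hΞ⟩ : ∃ Ξ : (F →L[ℝ] G) →L[ℝ] (E →L[ℝ] H),
      ∀ B v, Ξ B v = T (B (π v)) :=
    ⟨(ContinuousLinearMap.compL ℝ E G H T) ∘L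
      ((ContinuousLinearMap.compL ℝ E F G).flip π), fun B v => rfl⟩
  have h2 : HasFDerivAt (fun z => Ξ (D (π z))) (Ξ ∘L (fderiv ℝ D (π z) ∘L π)) z :=
    Ξ.hasFDerivAt.comp z ((hD (π z)).hasFDerivAt.comp z π.hasFDerivAt)
  have h3 : Q = fun z => Ξ (D (π z)) := by
    funext z
    ext1 v
    rw [hΞ, hQ]
  rw [h3, h2.fderiv]
  exact hΞ _ _

theorem P''_apply (hu : ContDiff ℝ 3 u) (z ζ v : Euc k) :
    P'' π κ u z ζ v = Th π κ (fderiv ℝ (fderiv ℝ (fderiv ℝ u)) (π z) (π ζ) (π v)) := by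
  have hu2 : ContDiff ℝ 2 (fderiv ℝ u) := hu.fderiv_right (by norm_num)
  have hu1 : ContDiff ℝ 1 (fderiv ℝ (fderiv ℝ u)) := hu2.fderiv_right (by norm_num)
  exact comp_aux3 (fderiv ℝ (fderiv ℝ u)) (Th π κ) π (hu1.differentiable one_ne_zero)
    (fun z v => P'_apply hu z v) z ζ v

end Deriv

end Crest.Agent.R234.Fc_209
end
end

-- ▼ part R234/Fc2_209
section

/-!
# Row 234, node FERMI-CHART (helper209), file 2: block structure, symmetry and bounds
-/

set_option autoImplicit false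

open Function Set Filter Topology Crest.GeometryTopology.Submanifold
open Crest.Agent.R234.Vf_884 Crest.Agent.R234.Ar_870 Crest.Agent.R234.Fm_281
open Crest.Agent.R234.Cy_870 (Split)
open Crest.Agent.R234.AS_456 (hp vp)
open scoped InnerProductSpace

noncomputable section

namespace Crest.Agent.R234.Fc_209

variable {m n k : ℕ}

section Basic

variable {π : Euc k →L[ℝ] Euc m} {κ : Euc k →L[ℝ] Euc n}

theorem hp_apply (z : Euc k) : hp π z = ContinuousLinearMap.adjoint π (π z) := rfl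

theorem ππ' (hs : Split π κ) (x : Euc m) : π (ContinuousLinearMap.adjoint π x) = x :=
  congrArg (fun T : Euc m →L[ℝ] Euc m => T x) hs.hh

theorem κκ' (hs : Split π κ) (x : Euc n) : κ (ContinuousLinearMap.adjoint κ x) = x :=
  congrArg (fun T : Euc n →L[ℝ] Euc n => T x) hs.vv

theorem sum_apply (hs : Split π κ) (z : Euc k) :
    ContinuousLinearMap.adjoint π (π z) + ContinuousLinearMap.adjoint κ (κ z) = z :=
  congrArg (fun T : L k => T z) hs.sum

theorem vp_apply (hs : Split π κ) (z : Euc k) : vp π z = ContinuousLinearMap.adjoint κ (κ z) := by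
  change z - ContinuousLinearMap.adjoint π (π z) = _
  nth_rewrite 1 [← sum_apply hs z]
  abel

theorem norm_π_le (hs : Split π κ) (z : Euc k) : ‖π z‖ ≤ ‖z‖ := by
  have h := hs.norm_sq z
  refine abs_le_of_sq_le_sq' ?_ (norm_nonneg _) |>.2
  nlinarith [sq_nonneg ‖κ z‖]

theorem norm_κ_le (hs : Split π κ) (z : Euc k) : ‖κ z‖ ≤ ‖z‖ := by
  have h := hs.norm_sq z
  refine abs_le_of_sq_le_sq' ?_ (norm_nonneg _) |>.2
  nlinarith [sq_nonneg ‖π z‖]

theorem norm_π' (hs : Split π κ) (x : Euc m) : ‖ContinuousLinearMap.adjoint π x‖ = ‖x‖ := by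
  have h : ‖ContinuousLinearMap.adjoint π x‖ ^ 2 = ‖x‖ ^ 2 := by
    rw [← real_inner_self_eq_norm_sq, ContinuousLinearMap.adjoint_inner_left, ππ' hs,
      real_inner_self_eq_norm_sq]
  exact (sq_eq_sq₀ (norm_nonneg _) (norm_nonneg _)).1 h

theorem norm_κ' (hs : Split π κ) (x : Euc n) : ‖ContinuousLinearMap.adjoint κ x‖ = ‖x‖ := by
  have h : ‖ContinuousLinearMap.adjoint κ x‖ ^ 2 = ‖x‖ ^ 2 := by
    rw [← real_inner_self_eq_norm_sq, ContinuousLinearMap.adjoint_inner_left, κκ' hs,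
      real_inner_self_eq_norm_sq]
  exact (sq_eq_sq₀ (norm_nonneg _) (norm_nonneg _)).1 h

theorem norm_hp (hs : Split π κ) (z : Euc k) : ‖hp π z‖ = ‖π z‖ := norm_π' hs _

theorem norm_vp (hs : Split π κ) (z : Euc k) : ‖vp π z‖ = ‖κ z‖ := by
  rw [vp_apply hs, norm_κ' hs]

/-- mixed products vanish -/
theorem πκ' (hs : Split π κ) (x : Euc n) : π (ContinuousLinearMap.adjoint κ x) = 0 := by
  have h := hs.norm_sq (ContinuousLinearMap.adjoint κ x)
  rw [norm_κ' hs, κκ' hs] at h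
  have h2 : ‖π (ContinuousLinearMap.adjoint κ x)‖ ^ 2 = 0 := by linarith
  exact norm_eq_zero.1 (pow_eq_zero_iff two_ne_zero |>.1 h2)

theorem κπ' (hs : Split π κ) (x : Euc m) : κ (ContinuousLinearMap.adjoint π x) = 0 := by
  have h := hs.norm_sq (ContinuousLinearMap.adjoint π x)
  rw [norm_π' hs, ππ' hs] at h
  have h2 : ‖κ (ContinuousLinearMap.adjoint π x)‖ ^ 2 = 0 := by linarith
  exact norm_eq_zero.1 (pow_eq_zero_iff two_ne_zero |>.1 h2)

theorem hp_mem_G (hs : Split π κ) : hp π ∈ G m k := by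
  refine ⟨?_, ?_, ?_⟩
  · ext1 z
    change ContinuousLinearMap.adjoint π (π (ContinuousLinearMap.adjoint π (π z))) =
      ContinuousLinearMap.adjoint π (π z)
    rw [ππ' hs]
  · change star (hp π) = hp π
    rw [Fm_281.star_def]
    unfold hp
    rw [ContinuousLinearMap.adjoint_comp, ContinuousLinearMap.adjoint_adjoint]
  · have h1 : Fm_209.trc (Euc k) (ContinuousLinearMap.adjoint π ∘L π) =
        Fm_209.trc (Euc m) (π ∘L ContinuousLinearMap.adjoint π) := Fm_209.trc_comp_comm _ _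
    change Fm_209.trc (Euc k) (ContinuousLinearMap.adjoint π ∘L π) = m
    rw [h1, hs.hh]
    exact tr_one (k := m)

end Basic

end Crest.Agent.R234.Fc_209
end
end

-- ▼ part R234/Fc3_209
section

/-!
# Row 234, node FERMI-CHART (helper209), file 3: block structure, symmetry and bounds of the
pointwise data `P, P', h, h1`
-/

set_option autoImplicit false

open Function Set Filter Topology Crest.GeometryTopology.Submanifold
open Crest.Agent.R234.Vf_884 Crest.Agent.R234.Ar_870 Crest.Agent.R234.Fm_281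
open Crest.Agent.R234.Cy_870 (Split)
open Crest.Agent.R234.AS_456 (hp vp)
open scoped InnerProductSpace

noncomputable section

namespace Crest.Agent.R234.Fc_209

variable {m n k : ℕ}

section Blocks

variable {π : Euc k →L[ℝ] Euc m} {κ : Euc k →L[ℝ] Euc n} {u : Euc m → Euc n}

theorem Th_HV (hs : Split π κ) (q : Euc m →L[ℝ] Euc n) : HV (hp π) (Th π κ q) := by
  constructor
  ext1 z
  change ContinuousLinearMap.adjoint κ (q (π (ContinuousLinearMap.adjoint π (π z)))) -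
    ContinuousLinearMap.adjoint π (π (ContinuousLinearMap.adjoint κ
      (q (π (ContinuousLinearMap.adjoint π (π z)))))) = ContinuousLinearMap.adjoint κ (q (π z))
  rw [πκ' hs, ππ' hs, map_zero, sub_zero]

theorem star_Th_apply (q : Euc m →L[ℝ] Euc n) (w : Euc k) :
    (star (Th π κ q)) w = ContinuousLinearMap.adjoint π (ContinuousLinearMap.adjoint q (κ w)) := by
  refine ext_inner_right ℝ fun y => ?_
  rw [Fm_281.star_def, ContinuousLinearMap.adjoint_inner_left, Th_apply,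
    ContinuousLinearMap.adjoint_inner_right, ContinuousLinearMap.adjoint_inner_left,
    ContinuousLinearMap.adjoint_inner_left]

theorem norm_Th_le (hs : Split π κ) (q : Euc m →L[ℝ] Euc n) : ‖Th π κ q‖ ≤ ‖q‖ := by
  refine ContinuousLinearMap.opNorm_le_bound _ (norm_nonneg _) fun v => ?_
  rw [Th_apply, norm_κ' hs]
  exact (q.le_opNorm _).trans (mul_le_mul_of_nonneg_left (norm_π_le hs v) (norm_nonneg _))

/-- `w ↦ (Θ q)† w` is bounded by the vertical part of `w` -/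
theorem norm_star_Th_apply_le (hs : Split π κ) (q : Euc m →L[ℝ] Euc n) (w : Euc k) :
    ‖(star (Th π κ q)) w‖ ≤ ‖q‖ * ‖κ w‖ := by
  rw [star_Th_apply, norm_π' hs]
  refine ((ContinuousLinearMap.adjoint q).le_opNorm _).trans ?_
  rw [LinearIsometryEquiv.norm_map]

theorem hop_eq (hu : ContDiff ℝ 3 u) (z w v : Euc k) :
    hop π κ u z w v = ContinuousLinearMap.adjoint π
      (ContinuousLinearMap.adjoint (fderiv ℝ (fderiv ℝ u) (π z) (π v)) (κ w)) := by
  rw [hop_apply, P'_apply hu, star_Th_apply]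

theorem h1_eq (hu : ContDiff ℝ 3 u) (z ζ v : Euc k) :
    h1 π κ u z ζ v = ContinuousLinearMap.adjoint π
        (ContinuousLinearMap.adjoint (fderiv ℝ (fderiv ℝ u) (π z) (π v)) (κ ζ)) +
      ContinuousLinearMap.adjoint π
        (ContinuousLinearMap.adjoint (fderiv ℝ (fderiv ℝ (fderiv ℝ u)) (π z) (π ζ) (π v)) (κ z)) := by
  rw [h1_apply, P'_apply hu, P''_apply hu, star_Th_apply, star_Th_apply]

theorem hop_HH (hs : Split π κ) (hu : ContDiff ℝ 3 u) (z w : Euc k) :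
    HH (hp π) (hop π κ u z w) := by
  constructor
  ext1 v
  change ContinuousLinearMap.adjoint π (π (hop π κ u z w (ContinuousLinearMap.adjoint π (π v)))) =
    hop π κ u z w v
  rw [hop_eq hu, hop_eq hu, ππ' hs, ππ' hs]

theorem h_HH (hs : Split π κ) (hu : ContDiff ℝ 3 u) (z : Euc k) : HH (hp π) (h π κ u z) :=
  hop_HH hs hu z z

theorem h1_HH (hs : Split π κ) (hu : ContDiff ℝ 3 u) (z ζ : Euc k) :
    HH (hp π) (h1 π κ u z ζ) := by
  constructor
  ext1 v
  change ContinuousLinearMap.adjoint π (π (h1 π κ u z ζ (ContinuousLinearMap.adjoint π (π v)))) =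
    h1 π κ u z ζ v
  rw [h1_eq hu, h1_eq hu, map_add, map_add, ππ' hs, ππ' hs, ππ' hs]

theorem P_HV (hs : Split π κ) (hu : ContDiff ℝ 3 u) (z : Euc k) : HV (hp π) (P π κ u z) := by
  rw [P_eq hu]
  exact Th_HV hs _

theorem P'_HV (hs : Split π κ) (hu : ContDiff ℝ 3 u) (z ζ : Euc k) :
    HV (hp π) (P' π κ u z ζ) := by
  rw [P'_apply hu]
  exact Th_HV hs _

/-! ### symmetry -/

theorem P'_symm (hu : ContDiff ℝ 3 u) (z x y : Euc k) : P' π κ u z x y = P' π κ u z y x := by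
  have h : IsSymmSndFDerivAt ℝ (uu π κ u) z :=
    ((contDiff_uu (π := π) (κ := κ) hu).contDiffAt (x := z)).isSymmSndFDerivAt
      (by simp only [minSmoothness_of_isRCLikeNormedField]; norm_num)
  exact h.eq x y

theorem symm_aux {E F G : Type*} [NormedAddCommGroup E] [NormedSpace ℝ E]
    [NormedAddCommGroup F] [NormedSpace ℝ F] [NormedAddCommGroup G] [NormedSpace ℝ G]
    {Q : E → G} {Q' : E →L[ℝ] G} {z : E} (hQ : HasFDerivAt Q Q' z) (e₁ e₂ : G →L[ℝ] F)
    (hs : ∀ z, e₁ (Q z) = e₂ (Q z)) (ζ : E) : e₁ (Q' ζ) = e₂ (Q' ζ) := by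
  have h2 : HasFDerivAt (fun z => e₁ (Q z)) (e₁ ∘L Q') z := e₁.hasFDerivAt.comp z hQ
  have h3 : HasFDerivAt (fun z => e₂ (Q z)) (e₂ ∘L Q') z := e₂.hasFDerivAt.comp z hQ
  have h4 : (fun z => e₁ (Q z)) = fun z => e₂ (Q z) := funext hs
  rw [h4] at h2
  exact congrArg (fun T : E →L[ℝ] F => T ζ) (h2.unique h3)

theorem P''_symm (hu : ContDiff ℝ 3 u) (z ζ x y : Euc k) :
    P'' π κ u z ζ x y = P'' π κ u z ζ y x := by
  obtain ⟨ev, hev⟩ : ∃ ev : Euc k → Euc k → ((Euc k →L[ℝ] L k) →L[ℝ] Euc k),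
      ∀ x y B, ev x y B = B x y :=
    ⟨fun x y => (ContinuousLinearMap.apply ℝ (Euc k) y) ∘L (ContinuousLinearMap.apply ℝ (L k) x),
      fun x y B => rfl⟩
  have h := symm_aux (G := Euc k →L[ℝ] L k) (hasFDerivAt_P' (π := π) (κ := κ) hu z) (ev x y)
    (ev y x) (fun z => by rw [hev, hev]; exact P'_symm hu z x y) ζ
  rwa [hev, hev] at h

theorem star_hop (hu : ContDiff ℝ 3 u) (z w : Euc k) : star (hop π κ u z w) = hop π κ u z w := by
  ext1 x
  refine ext_inner_right ℝ fun y => ?_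
  rw [Fm_281.star_def, ContinuousLinearMap.adjoint_inner_left, hop_apply, hop_apply,
    Fm_281.star_def, Fm_281.star_def, ContinuousLinearMap.adjoint_inner_left,
    ContinuousLinearMap.adjoint_inner_right, P'_symm hu z x y, real_inner_comm]

theorem star_h (hu : ContDiff ℝ 3 u) (z : Euc k) : star (h π κ u z) = h π κ u z :=
  star_hop hu z z

theorem star_h1 (hu : ContDiff ℝ 3 u) (z ζ : Euc k) : star (h1 π κ u z ζ) = h1 π κ u z ζ := by
  ext1 x
  refine ext_inner_right ℝ fun y => ?_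
  rw [Fm_281.star_def, ContinuousLinearMap.adjoint_inner_left, h1_apply, h1_apply,
    inner_add_left, inner_add_right, Fm_281.star_def, Fm_281.star_def, Fm_281.star_def,
    Fm_281.star_def, ContinuousLinearMap.adjoint_inner_left,
    ContinuousLinearMap.adjoint_inner_right, ContinuousLinearMap.adjoint_inner_left,
    ContinuousLinearMap.adjoint_inner_right, P'_symm hu z x y, P''_symm hu z ζ x y,
    real_inner_comm, real_inner_comm z]

/-! ### bounds -/

/-- bounds of the first three derivatives -/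
structure Bd (u : Euc m → Euc n) (l : ℝ) : Prop where
  d1 : ∀ x a, ‖fderiv ℝ u x a‖ ≤ l * ‖a‖
  d2 : ∀ x a b, ‖fderiv ℝ (fderiv ℝ u) x a b‖ ≤ l * ‖a‖ * ‖b‖
  d3 : ∀ x a b c, ‖fderiv ℝ (fderiv ℝ (fderiv ℝ u)) x a b c‖ ≤ l * ‖a‖ * ‖b‖ * ‖c‖

variable {l : ℝ}

theorem norm_P_le (hs : Split π κ) (hu : ContDiff ℝ 3 u) (hl : 0 ≤ l) (hb : Bd u l) (z : Euc k) :
    ‖P π κ u z‖ ≤ l := by
  rw [P_eq hu]
  exact (norm_Th_le hs _).trans (ContinuousLinearMap.opNorm_le_bound _ hl fun v => hb.d1 _ v)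

theorem norm_P'_apply_le (hs : Split π κ) (hu : ContDiff ℝ 3 u) (hl : 0 ≤ l) (hb : Bd u l)
    (z ζ : Euc k) : ‖P' π κ u z ζ‖ ≤ l * ‖π ζ‖ := by
  rw [P'_apply hu]
  exact (norm_Th_le hs _).trans
    (ContinuousLinearMap.opNorm_le_bound _ (by positivity) fun v => hb.d2 _ _ v)

theorem norm_hop_le (hs : Split π κ) (hu : ContDiff ℝ 3 u) (hl : 0 ≤ l) (hb : Bd u l)
    (z w : Euc k) : ‖hop π κ u z w‖ ≤ l * ‖κ w‖ := by
  refine ContinuousLinearMap.opNorm_le_bound _ (by positivity) fun v => ?_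
  rw [hop_apply, P'_apply hu]
  refine (norm_star_Th_apply_le hs _ w).trans ?_
  have h1 : ‖fderiv ℝ (fderiv ℝ u) (π z) (π v)‖ ≤ l * ‖π v‖ :=
    ContinuousLinearMap.opNorm_le_bound _ (by positivity) fun v => hb.d2 _ _ v
  have h2 : ‖fderiv ℝ (fderiv ℝ u) (π z) (π v)‖ ≤ l * ‖v‖ :=
    h1.trans (mul_le_mul_of_nonneg_left (norm_π_le hs v) hl)
  calc ‖fderiv ℝ (fderiv ℝ u) (π z) (π v)‖ * ‖κ w‖
      ≤ (l * ‖v‖) * ‖κ w‖ := mul_le_mul_of_nonneg_right h2 (norm_nonneg _)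
    _ = l * ‖κ w‖ * ‖v‖ := by ring

theorem norm_h_le (hs : Split π κ) (hu : ContDiff ℝ 3 u) (hl : 0 ≤ l) (hb : Bd u l)
    (z : Euc k) : ‖h π κ u z‖ ≤ l * ‖κ z‖ := norm_hop_le hs hu hl hb z z

theorem norm_h1_le (hs : Split π κ) (hu : ContDiff ℝ 3 u) (hl : 0 ≤ l) (hb : Bd u l)
    (z ζ : Euc k) : ‖h1 π κ u z ζ‖ ≤ l * ‖κ ζ‖ + l * ‖κ z‖ * ‖π ζ‖ := by
  refine (norm_add_le _ _).trans (add_le_add (norm_hop_le hs hu hl hb z ζ) ?_)
  refine ContinuousLinearMap.opNorm_le_bound _ (by positivity) fun v => ?_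
  change ‖(star (P'' π κ u z ζ v)) z‖ ≤ _
  rw [P''_apply hu]
  refine (norm_star_Th_apply_le hs _ z).trans ?_
  have h1 : ‖fderiv ℝ (fderiv ℝ (fderiv ℝ u)) (π z) (π ζ) (π v)‖ ≤ l * ‖π ζ‖ * ‖π v‖ :=
    ContinuousLinearMap.opNorm_le_bound _ (by positivity) fun v => hb.d3 _ _ _ v
  have h3 : ‖fderiv ℝ (fderiv ℝ (fderiv ℝ u)) (π z) (π ζ) (π v)‖ ≤ l * ‖π ζ‖ * ‖v‖ :=
    h1.trans (mul_le_mul_of_nonneg_left (norm_π_le hs v) (by positivity))
  calc ‖fderiv ℝ (fderiv ℝ (fderiv ℝ u)) (π z) (π ζ) (π v)‖ * ‖κ z‖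
      ≤ (l * ‖π ζ‖ * ‖v‖) * ‖κ z‖ := mul_le_mul_of_nonneg_right h3 (norm_nonneg _)
    _ = l * ‖κ z‖ * ‖π ζ‖ * ‖v‖ := by ring

end Blocks

end Crest.Agent.R234.Fc_209
end
end

-- ▼ part R234/Fc4_209
section

/-!
# Row 234, node FERMI-CHART (helper209), file 4: minimality in the chart, `tr (g⁻¹ h) = 0` and its
derivative
-/

set_option autoImplicit false

open Function Set Filter Topology Crest.GeometryTopology.Submanifold
open Crest.Agent.R234.Vf_884 Crest.Agent.R234.Ar_870 Crest.Agent.R234.Fm_281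
open Crest.Agent.R234.Cy_870 (Split)
open Crest.Agent.R234.AS_456 (hp vp)
open scoped InnerProductSpace

noncomputable section

namespace Crest.Agent.R234.Fc_209

variable {m n k : ℕ}

section Min

variable {π : Euc k →L[ℝ] Euc m} {κ : Euc k →L[ℝ] Euc n} {u : Euc m → Euc n}

theorem gop_apply (q : Euc m →L[ℝ] Euc n) (x : Euc m) :
    Ell1_3.gop q x = x + ContinuousLinearMap.adjoint q (q x) := rfl

theorem gop_ginv_apply (q : Euc m →L[ℝ] Euc n) (x : Euc m) :
    Ell1_3.gop q (Ell1_3.ginv q x) = x :=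
  congrArg (fun T : Euc m →L[ℝ] Euc m => T x) (Ell1_3.gop_ginv q)

theorem ginv_gop_apply (q : Euc m →L[ℝ] Euc n) (x : Euc m) :
    Ell1_3.ginv q (Ell1_3.gop q x) = x :=
  congrArg (fun T : Euc m →L[ℝ] Euc m => T x) (Ell1_3.ginv_gop q)

theorem ginv_inner (q : Euc m →L[ℝ] Euc n) (x y : Euc m) :
    ⟪Ell1_3.ginv q x, y⟫_ℝ = ⟪x, Ell1_3.ginv q y⟫_ℝ := by
  have h1 := Ell1_3.gop_inner q (Ell1_3.ginv q x) (Ell1_3.ginv q y)
  have h2 := Ell1_3.gop_inner q (Ell1_3.ginv q y) (Ell1_3.ginv q x)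
  rw [gop_ginv_apply] at h1 h2
  have h3 : ⟪x, Ell1_3.ginv q y⟫_ℝ = ⟪Ell1_3.ginv q y, x⟫_ℝ := real_inner_comm _ _
  have h4 : ⟪Ell1_3.ginv q y, Ell1_3.ginv q x⟫_ℝ = ⟪Ell1_3.ginv q x, Ell1_3.ginv q y⟫_ℝ :=
    real_inner_comm _ _
  have h5 : ⟪q (Ell1_3.ginv q y), q (Ell1_3.ginv q x)⟫_ℝ =
    ⟪q (Ell1_3.ginv q x), q (Ell1_3.ginv q y)⟫_ℝ := real_inner_comm _ _
  rw [h1, h3, h2, h4, h5]

/-- the inverse of `1 + P† P` -/
def Rop (π : Euc k →L[ℝ] Euc m) (q : Euc m →L[ℝ] Euc n) : L k :=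
  ContinuousLinearMap.adjoint π ∘L Ell1_3.ginv q ∘L π + vp π

theorem Rop_apply (q : Euc m →L[ℝ] Euc n) (z : Euc k) :
    Rop π q z = ContinuousLinearMap.adjoint π (Ell1_3.ginv q (π z)) + vp π z := rfl

theorem star_mul_Th_apply (hs : Split π κ) (q : Euc m →L[ℝ] Euc n) (z : Euc k) :
    (1 + star (Th π κ q) * Th π κ q) z = ContinuousLinearMap.adjoint π (Ell1_3.gop q (π z)) +
      vp π z := by
  change z + (star (Th π κ q)) (Th π κ q z) = _
  rw [star_Th_apply, Th_apply, κκ' hs, gop_apply, map_add]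
  change _ = _ + (z - ContinuousLinearMap.adjoint π (π z))
  abel

theorem π_vp (hs : Split π κ) (z : Euc k) : π (vp π z) = 0 := by
  rw [vp_apply hs, πκ' hs]

theorem vp_π' (hs : Split π κ) (x : Euc m) : vp π (ContinuousLinearMap.adjoint π x) = 0 := by
  rw [vp_apply hs, κπ' hs, map_zero]

theorem vp_vp (hs : Split π κ) (z : Euc k) : vp π (vp π z) = vp π z := by
  rw [vp_apply hs (vp π z), vp_apply hs z, κκ' hs]

theorem π_aux (hs : Split π κ) (a : Euc m) (z : Euc k) :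
    π (ContinuousLinearMap.adjoint π a + vp π z) = a := by
  rw [map_add, ππ' hs, π_vp hs, add_zero]

theorem vp_aux (hs : Split π κ) (a : Euc m) (z : Euc k) :
    vp π (ContinuousLinearMap.adjoint π a + vp π z) = vp π z := by
  rw [map_add, vp_π' hs, vp_vp hs, zero_add]

theorem mul_Rop (hs : Split π κ) (q : Euc m →L[ℝ] Euc n) :
    (1 + star (Th π κ q) * Th π κ q) * Rop π q = 1 := by
  ext1 z
  change (1 + star (Th π κ q) * Th π κ q) (Rop π q z) = z
  rw [star_mul_Th_apply hs, Rop_apply, π_aux hs, vp_aux hs, gop_ginv_apply]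
  change ContinuousLinearMap.adjoint π (π z) + (z - ContinuousLinearMap.adjoint π (π z)) = z
  abel

theorem Rop_mul (hs : Split π κ) (q : Euc m →L[ℝ] Euc n) :
    Rop π q * (1 + star (Th π κ q) * Th π κ q) = 1 := by
  ext1 z
  change Rop π q ((1 + star (Th π κ q) * Th π κ q) z) = z
  rw [star_mul_Th_apply hs, Rop_apply, π_aux hs, vp_aux hs, ginv_gop_apply]
  change ContinuousLinearMap.adjoint π (π z) + (z - ContinuousLinearMap.adjoint π (π z)) = z
  abel

/-- as a unit -/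
def un (hs : Split π κ) (q : Euc m →L[ℝ] Euc n) : (L k)ˣ :=
  ⟨1 + star (Th π κ q) * Th π κ q, Rop π q, mul_Rop hs q, Rop_mul hs q⟩

theorem inverse_eq (hs : Split π κ) (q : Euc m →L[ℝ] Euc n) :
    Ring.inverse (1 + star (Th π κ q) * Th π κ q) = Rop π q := Ring.inverse_unit (un hs q)

/-- trace against the inverse metric -/
theorem tr_Rop_mul (hs : Split π κ) (q : Euc m →L[ℝ] Euc n) {h : L k} (hh : HH (hp π) h) :
    tr (Rop π q * h) = tr (Ell1_3.ginv q ∘L (π ∘L h ∘L ContinuousLinearMap.adjoint π)) := by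
  have e : Rop π q * h = ContinuousLinearMap.adjoint π ∘L (Ell1_3.ginv q ∘L (π ∘L h)) := by
    ext1 z
    change Rop π q (h z) = ContinuousLinearMap.adjoint π (Ell1_3.ginv q (π (h z)))
    have h2 : vp π (h z) = 0 := by
      have h3 := congrArg (fun T : L k => T z) (hh.e1 (isStar_of_G (hp_mem_G hs)))
      change hp π (h z) = h z at h3
      change h z - hp π (h z) = 0
      rw [h3, sub_self]
    rw [Rop_apply, h2, add_zero]
  rw [e]
  exact Fm_209.trc_comp_comm (ContinuousLinearMap.adjoint π) (Ell1_3.ginv q ∘L (π ∘L h))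

theorem D2_symm (hu : ContDiff ℝ 3 u) (x a b : Euc m) :
    fderiv ℝ (fderiv ℝ u) x a b = fderiv ℝ (fderiv ℝ u) x b a := by
  have h : IsSymmSndFDerivAt ℝ u x := (hu.contDiffAt (x := x)).isSymmSndFDerivAt
      (by simp only [minSmoothness_of_isRCLikeNormedField]; norm_num)
  exact h.eq a b

theorem tr_Rop_hop (hs : Split π κ) (hu : ContDiff ℝ 3 u) (z w : Euc k) :
    tr (Rop π (fderiv ℝ u (π z)) * hop π κ u z w) = ⟪κ w, Main_456.Msys u (π z)⟫_ℝ := by
  rw [tr_Rop_mul hs _ (hop_HH hs hu z w), tr_eq_sum]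
  unfold Main_456.Msys
  rw [inner_sum]
  refine Finset.sum_congr rfl fun i _ => ?_
  change ⟪stdVec m i, Ell1_3.ginv (fderiv ℝ u (π z)) (π (hop π κ u z w
    (ContinuousLinearMap.adjoint π (stdVec m i))))⟫_ℝ = _
  rw [← ginv_inner, hop_eq hu, ππ' hs, ππ' hs, ContinuousLinearMap.adjoint_inner_right,
    D2_symm hu, real_inner_comm]

/-- minimality -/
theorem min0 (hs : Split π κ) (hu : ContDiff ℝ 3 u) {z : Euc k}
    (hM : Main_456.Msys u (π z) = 0) :
    tr (Ring.inverse (1 + star (P π κ u z) * P π κ u z) * h π κ u z) = 0 := by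
  rw [P_eq hu, inverse_eq hs]
  change tr (Rop π (fderiv ℝ u (π z)) * hop π κ u z z) = 0
  rw [tr_Rop_hop hs hu, hM, inner_zero_right]

end Min

end Crest.Agent.R234.Fc_209
end
end

-- ▼ part R234/Fc5_209
section

/-!
# Row 234, node FERMI-CHART (helper209), file 5: the derivative of `tr (g⁻¹ h) = 0`
-/

set_option autoImplicit false

open Function Set Filter Topology Crest.GeometryTopology.Submanifold
open Crest.Agent.R234.Vf_884 Crest.Agent.R234.Ar_870 Crest.Agent.R234.Fm_281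
open Crest.Agent.R234.Cy_870 (Split)
open Crest.Agent.R234.AS_456 (hp vp)
open scoped InnerProductSpace

noncomputable section

namespace Crest.Agent.R234.Fc_209

variable {m n k : ℕ}

theorem chain (F E : Type*) [NormedAddCommGroup F] [NormedSpace ℝ F] [NormedAddCommGroup E]
    [NormedSpace ℝ E] {l : F → E} {l' : F →L[ℝ] E} {f : ℝ → F} {f' : F} {t : ℝ} {y : F}
    (hl : HasFDerivAt l l' y) (hf : HasDerivAt f f' t) (hy : f t = y) :
    HasDerivAt (fun t => l (f t)) (l' f') t := by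
  rw [← hy] at hl
  exact hl.comp_hasDerivAt t hf

theorem hasDerivAt_flip {E : Type*} [NormedAddCommGroup E] [NormedSpace ℝ E]
    (A : (E →L[ℝ] E) →L[ℝ] (E →L[ℝ] E)) {Q : ℝ → (E →L[ℝ] (E →L[ℝ] E))}
    {Q' : E →L[ℝ] (E →L[ℝ] E)} {γ : ℝ → E} {γ' : E} {t : ℝ} (hQ : HasDerivAt Q Q' t)
    (hγ : HasDerivAt γ γ' t) :
    HasDerivAt (fun t => (A ∘L Q t).flip (γ t))
      ((A ∘L Q t).flip γ' + (A ∘L Q').flip (γ t)) t := by
  obtain ⟨F, hF⟩ : ∃ F : (E →L[ℝ] (E →L[ℝ] E)) →L[ℝ] (E →L[ℝ] (E →L[ℝ] E)),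
      ∀ B, F B = (A ∘L B).flip :=
    ⟨(ContinuousLinearMap.flipₗᵢ ℝ E E E).toContinuousLinearEquiv.toContinuousLinearMap ∘L
      (ContinuousLinearMap.compL ℝ E (E →L[ℝ] E) (E →L[ℝ] E) A), fun B => rfl⟩
  have h1 : HasDerivAt (fun t => F (Q t)) (F Q') t :=
    chain (E →L[ℝ] (E →L[ℝ] E)) (E →L[ℝ] (E →L[ℝ] E)) F.hasFDerivAt hQ rfl
  have h2 := h1.clm_apply hγ
  simp only [hF] at h2
  rw [add_comm] at h2
  exact h2

theorem deriv_tr_aux {A : Type*} [NormedRing A] [NormedAlgebra ℝ A] [HasSummableGeomSeries A]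
    (τ : A →L[ℝ] ℝ) (u₀ : Aˣ) {G H : ℝ → A} {G' H' : A} (hG : HasDerivAt G G' 0)
    (hG0 : G 0 = u₀) (hH : HasDerivAt H H' 0)
    (h0 : ∀ᶠ t in 𝓝 (0:ℝ), τ (Ring.inverse (G t) * H t) = 0) :
    τ ((↑u₀⁻¹ : A) * H') = τ ((↑u₀⁻¹ : A) * G' * ((↑u₀⁻¹ : A) * H 0)) := by
  have h1 : HasFDerivAt Ring.inverse (-ContinuousLinearMap.mulLeftRight ℝ A ↑u₀⁻¹ ↑u₀⁻¹) (G 0) := by
    rw [hG0]
    exact hasFDerivAt_ringInverse u₀
  have h2 : HasDerivAt (fun t => Ring.inverse (G t))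
      ((-ContinuousLinearMap.mulLeftRight ℝ A ↑u₀⁻¹ ↑u₀⁻¹) G') 0 := h1.comp_hasDerivAt 0 hG
  have h3 := τ.hasFDerivAt.comp_hasDerivAt 0 (h2.mul hH)
  have h4 : HasDerivAt (fun _ : ℝ => (0:ℝ)) (0:ℝ) 0 := hasDerivAt_const _ _
  have h5 := h4.unique (h3.congr_of_eventuallyEq (by
    filter_upwards [h0] with t ht
    exact ht.symm))
  rw [map_add, hG0, Ring.inverse_unit] at h5
  have h6 : (-ContinuousLinearMap.mulLeftRight ℝ A ↑u₀⁻¹ ↑u₀⁻¹) G' = -(↑u₀⁻¹ * G' * ↑u₀⁻¹ : A) := rfl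
  rw [h6, neg_mul, map_neg, mul_assoc (↑u₀⁻¹ * G' : A)] at h5
  linarith

section Min

variable {π : Euc k →L[ℝ] Euc m} {κ : Euc k →L[ℝ] Euc n} {u : Euc m → Euc n}

/-- the derivative of the minimality relation -/
theorem min1 (hs : Split π κ) (hu : ContDiff ℝ 3 u) {r : ℝ}
    (hM : ∀ x ∈ Metric.ball (0 : Euc m) r, Main_456.Msys u x = 0) {z : Euc k}
    (hz : ‖π z‖ < r) (ζ : Euc k) :
    tr (Ring.inverse (1 + star (P π κ u z) * P π κ u z) * h1 π κ u z ζ) =
    tr (Ring.inverse (1 + star (P π κ u z) * P π κ u z) *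
      (star (P' π κ u z ζ) * P π κ u z + star (P π κ u z) * P' π κ u z ζ) *
      (Ring.inverse (1 + star (P π κ u z) * P π κ u z) * h π κ u z)) := by
  obtain ⟨γ, hγ⟩ : ∃ γ : ℝ → Euc k, γ = fun t => z + t • ζ := ⟨_, rfl⟩
  have hγ0 : γ 0 = z := by rw [hγ]; simp
  have hγd : HasDerivAt γ ζ 0 := by
    rw [hγ]
    have h1 : HasDerivAt (fun t : ℝ => t • ζ) ((1:ℝ) • ζ) 0 := (hasDerivAt_id (0:ℝ)).smul_const ζ
    rw [one_smul] at h1
    exact h1.const_add z
  have hP : HasDerivAt (fun t => P π κ u (γ t)) (P' π κ u z ζ) 0 :=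
    chain (Euc k) (L k) (hasFDerivAt_P hu z) hγd hγ0
  have hP' : HasDerivAt (fun t => P' π κ u (γ t)) (P'' π κ u z ζ) 0 :=
    chain (Euc k) (Euc k →L[ℝ] L k) (hasFDerivAt_P' hu z) hγd hγ0
  have hsP : HasDerivAt (fun t => star (P π κ u (γ t))) (star (P' π κ u z ζ)) 0 :=
    chain (L k) (L k) (adjL (k := k)).hasFDerivAt hP rfl
  have hG : HasDerivAt (fun t => 1 + star (P π κ u (γ t)) * P π κ u (γ t))
      (star (P' π κ u z ζ) * P π κ u z + star (P π κ u z) * P' π κ u z ζ) 0 := by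
    have h2 := (hsP.mul hP).const_add 1
    simp only [hγ0] at h2
    exact h2
  have hh : HasDerivAt (fun t => h π κ u (γ t)) (h1 π κ u z ζ) 0 := by
    have h2 := hasDerivAt_flip adjL hP' hγd
    rw [hγ0] at h2
    exact h2
  have hev : ∀ᶠ t in 𝓝 (0:ℝ), tr (Ring.inverse (1 + star (P π κ u (γ t)) * P π κ u (γ t)) *
      h π κ u (γ t)) = 0 := by
    have hc : ContinuousAt (fun t => ‖π (γ t)‖) 0 :=
      (π.continuous.continuousAt.comp hγd.continuousAt).norm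
    have h2 : ‖π (γ 0)‖ < r := by rw [hγ0]; exact hz
    filter_upwards [hc.eventually_lt_const h2] with t ht
    exact min0 hs hu (hM _ (mem_ball_zero_iff.2 ht))
  have hfin := deriv_tr_aux tr (un (π := π) (κ := κ) hs (fderiv ℝ u (π z))) hG (by
    rw [hγ0, P_eq hu]
    rfl) hh hev
  simp only [hγ0] at hfin
  have hun : (↑(un (π := π) (κ := κ) hs (fderiv ℝ u (π z)))⁻¹ : L k) =
      Ring.inverse (1 + star (P π κ u z) * P π κ u z) := by
    rw [P_eq hu, inverse_eq hs]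
    rfl
  rw [hun] at hfin
  exact hfin

/-- **the pointwise data of 281's estimates** -/
theorem pt {l : ℝ} (hs : Split π κ) (hu : ContDiff ℝ 3 u) (hl : 0 ≤ l) (hb : Bd u l) {r : ℝ}
    (hM : ∀ x ∈ Metric.ball (0 : Euc m) r, Main_456.Msys u x = 0) {z : Euc k}
    (hz : ‖π z‖ < r) (hz1 : ‖vp π z‖ ≤ 1) (ζ : Euc k) :
    Pt m (hp π) (P π κ u z) (P' π κ u z ζ) (h π κ u z) (h1 π κ u z ζ) l ‖vp π z‖ ‖hp π ζ‖
      ‖vp π ζ‖ where
  hH := hp_mem_G hs
  l0 := hl
  y0 := norm_nonneg _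
  y1 := hz1
  ξ0 := norm_nonneg _
  η0 := norm_nonneg _
  hP := P_HV hs hu z
  hP1 := P'_HV hs hu z ζ
  hh := h_HH hs hu z
  hh1 := h1_HH hs hu z ζ
  nP := norm_P_le hs hu hl hb z
  nP1 := by rw [norm_hp hs]; exact norm_P'_apply_le hs hu hl hb z ζ
  nh := by rw [norm_vp hs]; exact norm_h_le hs hu hl hb z
  nh1 := by rw [norm_hp hs, norm_vp hs, norm_vp hs]; exact norm_h1_le hs hu hl hb z ζ
  min0 := min0 hs hu (hM _ (mem_ball_zero_iff.2 hz))
  min1 := min1 hs hu hM hz ζ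

end Min

end Crest.Agent.R234.Fc_209
end
end

-- ▼ part R234/Fc6_209
section

/-!
# Row 234, node FERMI-CHART (helper209), file 6: the global chart

`Φ z = z + κ† u(π z) - π† (Du(π z)† κ z)` for `‖κ z‖ < 3`, cut off in the vertical direction, as a
global `C²` diffeomorphism `T : Dif k`, `‖DΦ - 1‖ ≤ C l`.
-/

set_option autoImplicit false

open Function Set Filter Topology Crest.GeometryTopology.Submanifold
open Crest.Agent.R234.Vf_884 Crest.Agent.R234.Ar_870 Crest.Agent.R234.Fm_281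
open Crest.Agent.R234.Cy_870 (Split)
open Crest.Agent.R234.AS_456 (hp vp)
open Crest.Agent.R234.Ft_209 (Dif)
open scoped InnerProductSpace

noncomputable section

namespace Crest.Agent.R234.Fc_209

variable {m n k : ℕ}

/-- cut-off of the fibre -/
def bmp (n : ℕ) : ContDiffBump (0 : Euc n) := ⟨3, 4, by norm_num, by norm_num⟩

/-- `w` near the closed ball of radius `3`, compactly supported -/
def gb (w : Euc n) : Euc n := bmp n w • w

theorem contDiff_gb : ContDiff ℝ 2 (gb (n := n)) := (bmp n).contDiff.smul contDiff_id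

theorem gb_eq {w : Euc n} (hw : ‖w‖ ≤ 3) : gb w = w := by
  unfold gb
  rw [(bmp n).one_of_mem_closedBall (by simpa [bmp] using hw), one_smul]

theorem fderiv_gb {w : Euc n} (hw : ‖w‖ < 3) :
    fderiv ℝ gb w = ContinuousLinearMap.id ℝ (Euc n) := by
  have h1 : gb =ᶠ[𝓝 w] (fun w => w) := by
    have h2 : {w : Euc n | ‖w‖ < 3} ∈ 𝓝 w :=
      (isOpen_lt continuous_norm continuous_const).mem_nhds hw
    filter_upwards [h2] with x hx
    exact gb_eq (le_of_lt hx)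
  rw [h1.fderiv_eq]
  exact fderiv_fun_id

theorem exists_gb (n : ℕ) : ∃ C : ℝ, 0 ≤ C ∧ (∀ w : Euc n, ‖gb w‖ ≤ C) ∧
    ∀ w : Euc n, ‖fderiv ℝ gb w‖ ≤ C := by
  have hs : HasCompactSupport (gb (n := n)) := (bmp n).hasCompactSupport.smul_right
  obtain ⟨C1, h1⟩ := hs.exists_bound_of_continuous contDiff_gb.continuous
  obtain ⟨C2, h2⟩ := (hs.fderiv (𝕜 := ℝ)).exists_bound_of_continuous
    (contDiff_gb.continuous_fderiv two_ne_zero)
  refine ⟨max 0 (max C1 C2), le_max_left _ _, fun w => (h1 w).trans ?_, fun w => (h2 w).trans ?_⟩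
  · exact (le_max_left _ _).trans (le_max_right _ _)
  · exact (le_max_right _ _).trans (le_max_right _ _)

section Chart

variable {π : Euc k →L[ℝ] Euc m} {κ : Euc k →L[ℝ] Euc n} {u : Euc m → Euc n}

/-- cut-off vertical part -/
def θ (κ : Euc k →L[ℝ] Euc n) (z : Euc k) : Euc k := ContinuousLinearMap.adjoint κ (gb (κ z))

/-- displacement -/
def disp (π : Euc k →L[ℝ] Euc m) (κ : Euc k →L[ℝ] Euc n) (u : Euc m → Euc n) (z : Euc k) : Euc k :=
  uu π κ u z - (adjL (P π κ u z)) (θ κ z)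

theorem contDiff_θ : ContDiff ℝ 2 (θ (k := k) κ) :=
  (ContinuousLinearMap.adjoint κ).contDiff.comp (contDiff_gb.comp κ.contDiff)

theorem contDiff_disp (hu : ContDiff ℝ 3 u) : ContDiff ℝ 2 (disp π κ u) :=
  ((contDiff_uu hu).of_le (by norm_num)).sub
    (((adjL (k := k)).contDiff.comp (contDiff_P hu)).clm_apply contDiff_θ)

theorem hasFDerivAt_θ (z : Euc k) : HasFDerivAt (θ (k := k) κ)
    (ContinuousLinearMap.adjoint κ ∘L (fderiv ℝ gb (κ z) ∘L κ)) z :=
  (ContinuousLinearMap.adjoint κ).hasFDerivAt.comp z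
    (((contDiff_gb.differentiable two_ne_zero) (κ z)).hasFDerivAt.comp z κ.hasFDerivAt)

theorem fderiv_disp_apply (hu : ContDiff ℝ 3 u) (z ζ : Euc k) :
    fderiv ℝ (disp π κ u) z ζ = P π κ u z ζ - ((star (P' π κ u z ζ)) (θ κ z) +
      (star (P π κ u z)) (ContinuousLinearMap.adjoint κ (fderiv ℝ gb (κ z) (κ ζ)))) := by
  obtain ⟨γ, hγ⟩ : ∃ γ : ℝ → Euc k, γ = fun t => z + t • ζ := ⟨_, rfl⟩
  have hγ0 : γ 0 = z := by rw [hγ]; simp
  have hγd : HasDerivAt γ ζ 0 := by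
    rw [hγ]
    have h1 : HasDerivAt (fun t : ℝ => t • ζ) ((1:ℝ) • ζ) 0 := (hasDerivAt_id (0:ℝ)).smul_const ζ
    rw [one_smul] at h1
    exact h1.const_add z
  have hd : HasDerivAt (fun t => disp π κ u (γ t)) (fderiv ℝ (disp π κ u) z ζ) 0 :=
    chain (Euc k) (Euc k)
      (((contDiff_disp hu).differentiable two_ne_zero) z).hasFDerivAt hγd hγ0
  have hP : HasDerivAt (fun t => P π κ u (γ t)) (P' π κ u z ζ) 0 :=
    chain (Euc k) (L k) (hasFDerivAt_P hu z) hγd hγ0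
  have hsP : HasDerivAt (fun t => adjL (P π κ u (γ t))) (adjL (P' π κ u z ζ)) 0 :=
    chain (L k) (L k) (adjL (k := k)).hasFDerivAt hP rfl
  have hθ : HasDerivAt (fun t => θ κ (γ t))
      (ContinuousLinearMap.adjoint κ (fderiv ℝ gb (κ z) (κ ζ))) 0 :=
    chain (Euc k) (Euc k) (hasFDerivAt_θ z) hγd hγ0
  have huu : HasDerivAt (fun t => uu π κ u (γ t)) (P π κ u z ζ) 0 :=
    chain (Euc k) (Euc k) (((contDiff_uu hu).differentiable (by norm_num)) z).hasFDerivAt hγd hγ0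
  have h2 := huu.sub (hsP.clm_apply hθ)
  rw [hγ0] at h2
  exact hd.unique h2

theorem norm_fderiv_disp_le {C l : ℝ} (hs : Split π κ) (hu : ContDiff ℝ 3 u) (hl : 0 ≤ l)
    (hb : Bd u l) (hC : 0 ≤ C) (hC1 : ∀ w : Euc n, ‖gb w‖ ≤ C)
    (hC2 : ∀ w : Euc n, ‖fderiv ℝ gb w‖ ≤ C) (z : Euc k) :
    ‖fderiv ℝ (disp π κ u) z‖ ≤ (1 + 2 * C) * l := by
  refine ContinuousLinearMap.opNorm_le_bound _ (by positivity) fun ζ => ?_
  rw [fderiv_disp_apply hu]
  have a1 : ‖P π κ u z ζ‖ ≤ l * ‖ζ‖ := (ContinuousLinearMap.le_opNorm _ _).trans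
    (mul_le_mul_of_nonneg_right (norm_P_le hs hu hl hb z) (norm_nonneg _))
  have a2 : ‖(star (P' π κ u z ζ)) (θ κ z)‖ ≤ (l * ‖ζ‖) * C := by
    refine (ContinuousLinearMap.le_opNorm _ _).trans ?_
    rw [norm_star']
    refine mul_le_mul ((norm_P'_apply_le hs hu hl hb z ζ).trans
      (mul_le_mul_of_nonneg_left (norm_π_le hs ζ) hl)) ?_ (norm_nonneg _) (by positivity)
    unfold θ
    rw [norm_κ' hs]
    exact hC1 _
  have a3 : ‖(star (P π κ u z)) (ContinuousLinearMap.adjoint κ (fderiv ℝ gb (κ z) (κ ζ)))‖ ≤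
      l * (C * ‖ζ‖) := by
    refine (ContinuousLinearMap.le_opNorm _ _).trans ?_
    rw [norm_star', norm_κ' hs]
    refine mul_le_mul (norm_P_le hs hu hl hb z) ?_ (norm_nonneg _) hl
    exact (ContinuousLinearMap.le_opNorm _ _).trans
      (mul_le_mul (hC2 _) (norm_κ_le hs ζ) (norm_nonneg _) hC)
  have a4 := norm_sub_le (P π κ u z ζ) ((star (P' π κ u z ζ)) (θ κ z) +
      (star (P π κ u z)) (ContinuousLinearMap.adjoint κ (fderiv ℝ gb (κ z) (κ ζ))))
  have a5 := norm_add_le ((star (P' π κ u z ζ)) (θ κ z))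
      ((star (P π κ u z)) (ContinuousLinearMap.adjoint κ (fderiv ℝ gb (κ z) (κ ζ))))
  calc _ ≤ l * ‖ζ‖ + ((l * ‖ζ‖) * C + l * (C * ‖ζ‖)) := by linarith
    _ = (1 + 2 * C) * l * ‖ζ‖ := by ring

theorem star_P_vp (hs : Split π κ) (hu : ContDiff ℝ 3 u) (z w : Euc k) :
    (star (P π κ u z)) (vp π w) = (star (P π κ u z)) w := by
  rw [P_eq hu, star_Th_apply, star_Th_apply, vp_apply hs, κκ' hs]

theorem star_P'_vp (hs : Split π κ) (hu : ContDiff ℝ 3 u) (z ζ w : Euc k) :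
    (star (P' π κ u z ζ)) (vp π w) = (star (P' π κ u z ζ)) w := by
  rw [P'_apply hu, star_Th_apply, star_Th_apply, vp_apply hs, κκ' hs]

theorem θ_eq (hs : Split π κ) {z : Euc k} (hz : ‖κ z‖ < 3) : θ κ z = vp π z := by
  unfold θ
  rw [gb_eq hz.le, vp_apply hs]

theorem disp_eq (hs : Split π κ) (hu : ContDiff ℝ 3 u) {z : Euc k} (hz : ‖κ z‖ < 3) :
    disp π κ u z = uu π κ u z - (star (P π κ u z)) z := by
  unfold disp
  rw [adjL_apply, θ_eq hs hz, star_P_vp hs hu]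

theorem fderiv_disp (hs : Split π κ) (hu : ContDiff ℝ 3 u) {z : Euc k} (hz : ‖κ z‖ < 3) :
    fderiv ℝ (disp π κ u) z = P π κ u z - star (P π κ u z) - h π κ u z := by
  ext1 ζ
  rw [fderiv_disp_apply hu, fderiv_gb hz, θ_eq hs hz, star_P'_vp hs hu]
  change P π κ u z ζ - ((star (P' π κ u z ζ)) z +
    (star (P π κ u z)) (ContinuousLinearMap.adjoint κ (κ ζ))) =
      P π κ u z ζ - (star (P π κ u z)) ζ - (star (P' π κ u z ζ)) z
  rw [← vp_apply hs, star_P_vp hs hu]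
  abel

end Chart

end Crest.Agent.R234.Fc_209
end
end

-- ▼ part R234/Fc7_209
section

/-!
# Row 234, node FERMI-CHART (helper209), file 7: existence of the chart

`exists_chart`: a global `C²` diffeomorphism with the Fermi formula for `‖κ z‖ < 3`.
-/

set_option autoImplicit false

open Function Set Filter Topology Crest.GeometryTopology.Submanifold
open Crest.Agent.R234.Vf_884 Crest.Agent.R234.Ar_870 Crest.Agent.R234.Fm_281
open Crest.Agent.R234.Cy_870 (Split)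
open Crest.Agent.R234.AS_456 (hp vp)
open Crest.Agent.R234.Ft_209 (Dif)
open scoped InnerProductSpace

noncomputable section

namespace Crest.Agent.R234.Fc_209

variable {m n k : ℕ}

/-- the properties of the chart -/
structure IsChart (T : Dif k) (π : Euc k →L[ℝ] Euc m) (κ : Euc k →L[ℝ] Euc n)
    (u : Euc m → Euc n) (e : ℝ) : Prop where
  Φ_eq : ∀ z, ‖κ z‖ < 3 → T.Φ z = z + uu π κ u z - (star (P π κ u z)) z
  near : ∀ z, ‖T.Φ z - z‖ ≤ ‖u (π z)‖ + e
  nA : ∀ z, ‖T.A z - 1‖ ≤ e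
  A_eq : ∀ z, ‖κ z‖ < 3 → T.A z = 1 + P π κ u z - star (P π κ u z) - h π κ u z
  dA_eq : ∀ z ζ, ‖κ z‖ < 3 →
    fderiv ℝ T.A z ζ = P' π κ u z ζ - star (P' π κ u z ζ) - h1 π κ u z ζ
  gm_eq : ∀ z, ‖κ z‖ < 3 → T.gm z = Fm_281.gm (P π κ u z) (h π κ u z)
  dGm_eq : ∀ z ζ, ‖κ z‖ < 3 → fderiv ℝ T.Gm z ζ =
    dgm (P π κ u z) (P' π κ u z ζ) (h π κ u z) (h1 π κ u z ζ)

/-- **the chart exists** -/
theorem exists_chart (n : ℕ) : ∃ c C : ℝ, 0 < c ∧ 0 ≤ C ∧ ∀ (m k : ℕ)
    (π : Euc k →L[ℝ] Euc m) (κ : Euc k →L[ℝ] Euc n) (u : Euc m → Euc n) (l : ℝ),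
    Split π κ → ContDiff ℝ 3 u → 0 ≤ l → l ≤ c → Bd u l →
      ∃ T : Dif k, IsChart T π κ u (C * l) := by
  obtain ⟨C, hC, hC1, hC2⟩ := exists_gb n
  refine ⟨1 / (2 * (1 + 2 * C)), 1 + 2 * C, by positivity, by positivity, ?_⟩
  intro m k π κ u l hs hu hl hlc hb
  have hlC : (1 + 2 * C) * l ≤ 1 / 2 := by
    have h1 : (1 + 2 * C) * l ≤ (1 + 2 * C) * (1 / (2 * (1 + 2 * C))) :=
      mul_le_mul_of_nonneg_left hlc (by positivity)
    have h2 : (1 + 2 * C) * (1 / (2 * (1 + 2 * C))) = 1 / 2 := by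
      have : (1 + 2 * C) ≠ 0 := by positivity
      field_simp
    linarith
  have hnd := norm_fderiv_disp_le (π := π) (κ := κ) hs hu hl hb hC hC1 hC2
  obtain ⟨f, hf⟩ : ∃ f, f = disp π κ u := ⟨_, rfl⟩
  have hfc : ContDiff ℝ 2 f := by rw [hf]; exact contDiff_disp hu
  have hfb : ∀ z, ‖fderiv ℝ f z‖ ≤ 1 / 2 := fun z => by rw [hf]; exact (hnd z).trans hlC
  obtain ⟨T, hT⟩ : ∃ T, T = Dif.ofPert f hfc hfb := ⟨_, rfl⟩
  have hTΦ : ∀ z, T.Φ z = z + f z := fun z => by rw [hT]; exact Dif.ofPert_Φ hfc hfb z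
  have hTA : ∀ z, T.A z = 1 + fderiv ℝ f z := fun z => by rw [hT]; exact Dif.ofPert_A hfc hfb z
  have hA : ∀ z, ‖κ z‖ < 3 →
      T.A z = 1 + P π κ u z - star (P π κ u z) - h π κ u z := by
    intro z hz
    rw [hTA, hf, fderiv_disp hs hu hz]
    ext1 v
    change v + (P π κ u z v - (star (P π κ u z)) v - h π κ u z v) =
      v + P π κ u z v - (star (P π κ u z)) v - h π κ u z v
    abel
  have hdA : ∀ z ζ, ‖κ z‖ < 3 →
      fderiv ℝ T.A z ζ = P' π κ u z ζ - star (P' π κ u z ζ) - h1 π κ u z ζ := by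
    intro z ζ hz
    obtain ⟨γ, hγ⟩ : ∃ γ : ℝ → Euc k, γ = fun t => z + t • ζ := ⟨_, rfl⟩
    have hγ0 : γ 0 = z := by rw [hγ]; simp
    have hγd : HasDerivAt γ ζ 0 := by
      rw [hγ]
      have h1 : HasDerivAt (fun t : ℝ => t • ζ) ((1:ℝ) • ζ) 0 :=
        (hasDerivAt_id (0:ℝ)).smul_const ζ
      rw [one_smul] at h1
      exact h1.const_add z
    have hd : HasDerivAt (fun t => T.A (γ t)) (fderiv ℝ T.A z ζ) 0 :=
      chain (Euc k) (L k) ((T.contA.differentiable one_ne_zero) z).hasFDerivAt hγd hγ0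
    have hP : HasDerivAt (fun t => P π κ u (γ t)) (P' π κ u z ζ) 0 :=
      chain (Euc k) (L k) (hasFDerivAt_P hu z) hγd hγ0
    have hP' : HasDerivAt (fun t => P' π κ u (γ t)) (P'' π κ u z ζ) 0 :=
      chain (Euc k) (Euc k →L[ℝ] L k) (hasFDerivAt_P' hu z) hγd hγ0
    have hsP : HasDerivAt (fun t => star (P π κ u (γ t))) (star (P' π κ u z ζ)) 0 :=
      chain (L k) (L k) (adjL (k := k)).hasFDerivAt hP rfl
    have hh : HasDerivAt (fun t => h π κ u (γ t)) (h1 π κ u z ζ) 0 := by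
      have h2 := hasDerivAt_flip adjL hP' hγd
      rw [hγ0] at h2
      exact h2
    have hall : HasDerivAt (fun t => 1 + P π κ u (γ t) - star (P π κ u (γ t)) - h π κ u (γ t))
        (P' π κ u z ζ - star (P' π κ u z ζ) - h1 π κ u z ζ) 0 :=
      ((hP.const_add 1).sub hsP).sub hh
    have hev : (fun t => T.A (γ t)) =ᶠ[𝓝 0]
        fun t => 1 + P π κ u (γ t) - star (P π κ u (γ t)) - h π κ u (γ t) := by
      have hc : ContinuousAt (fun t => ‖κ (γ t)‖) 0 :=
        (κ.continuous.continuousAt.comp hγd.continuousAt).norm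
      have h2 : ‖κ (γ 0)‖ < 3 := by rw [hγ0]; exact hz
      filter_upwards [hc.eventually_lt_const h2] with t ht
      exact hA _ ht
    exact hd.unique (hall.congr_of_eventuallyEq hev)
  have hH := isStar_of_G (hp_mem_G hs)
  refine ⟨T, ⟨fun z hz => ?_, fun z => ?_, fun z => ?_, hA, hdA, fun z hz => ?_, fun z ζ hz => ?_⟩⟩
  · rw [hTΦ, hf, disp_eq hs hu hz, add_sub_assoc]
  · rw [hTΦ, add_sub_cancel_left, hf]
    unfold disp
    refine (norm_sub_le _ _).trans (add_le_add ?_ ?_)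
    · unfold uu
      rw [norm_κ' hs]
    · refine (ContinuousLinearMap.le_opNorm _ _).trans ?_
      rw [adjL_apply, norm_star']
      unfold θ
      rw [norm_κ' hs]
      have a1 := mul_le_mul (norm_P_le (π := π) (κ := κ) hs hu hl hb z) (hC1 (κ z))
        (norm_nonneg _) hl
      have a2 : 0 ≤ C * l := mul_nonneg hC hl
      linarith
  · rw [hTA, add_sub_cancel_left, hf]
    exact hnd z
  · unfold Dif.gm
    rw [hA z hz, Ft_209.gam_eq]
    exact Fm_281.gm_eq hH (P_HV hs hu z) (h_HH hs hu z) (star_h hu z)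
  · rw [T.fderiv_Gm, hA z hz, hdA z ζ hz]
    exact Fm_281.dgm_eq hH (P_HV hs hu z) (P'_HV hs hu z ζ) (h_HH hs hu z) (h1_HH hs hu z ζ)
      (star_h hu z) (star_h1 hu z ζ)

end Crest.Agent.R234.Fc_209
end
end

-- ▼ part R234/Fc8_209

/-!
# Row 234, node FERMI-CHART (helper209), file 8: bounds from `iteratedFDeriv`, cut-off of the graph
function
-/

set_option autoImplicit false

open Function Set Filter Topology Metric Crest.GeometryTopology.Submanifold
open Crest.Agent.R234.Vf_884 Crest.Agent.R234.Ar_870 Crest.Agent.R234.Fm_281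
open Crest.Agent.R234.Cy_870 (Split)
open Crest.Agent.R234.AS_456 (hp vp)
open Crest.Agent.R234.Ft_209 (Dif)
open scoped InnerProductSpace ContDiff

noncomputable section

namespace Crest.Agent.R234.Fc_209

variable {m n k : ℕ}

theorem Bd.of_iter {u : Euc m → Euc n} {l : ℝ}
    (h : ∀ j ≤ 3, ∀ z, ‖iteratedFDeriv ℝ j u z‖ ≤ l) : Bd u l where
  d1 x a := by
    have h1 := (iteratedFDeriv ℝ 1 u x).le_opNorm ![a]
    rw [iteratedFDeriv_one_apply] at h1
    simp only [Matrix.cons_val_zero, Fin.prod_univ_one] at h1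
    exact h1.trans (mul_le_mul_of_nonneg_right (h 1 (by norm_num) x) (norm_nonneg _))
  d2 x a b := by
    have h1 := (iteratedFDeriv ℝ 2 u x).le_opNorm ![a, b]
    rw [iteratedFDeriv_two_apply] at h1
    simp only [Matrix.cons_val_zero, Matrix.cons_val_one, Fin.prod_univ_two] at h1
    refine h1.trans ?_
    rw [mul_assoc l]
    exact mul_le_mul_of_nonneg_right (h 2 (by norm_num) x) (by positivity)
  d3 x a b c := by
    have h1 := (iteratedFDeriv ℝ 3 u x).le_opNorm ![a, b, c]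
    rw [iteratedFDeriv_succ_apply_right, iteratedFDeriv_two_apply] at h1
    have e : ∏ i, ‖(![a, b, c] : Fin 3 → Euc m) i‖ = ‖a‖ * (‖b‖ * ‖c‖) := by
      rw [Fin.prod_univ_three]
      simp [mul_assoc]
    rw [e] at h1
    have h2 : ‖fderiv ℝ (fderiv ℝ (fderiv ℝ u)) x a b c‖ ≤
      ‖iteratedFDeriv ℝ 3 u x‖ * (‖a‖ * (‖b‖ * ‖c‖)) := h1
    refine h2.trans ?_
    rw [mul_assoc l, mul_assoc l, mul_assoc ‖a‖]
    exact mul_le_mul_of_nonneg_right (h 3 le_rfl x) (by positivity)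

/-- formula of the chart -/
theorem IsChart.Φ_eq' {T : Dif k} {π : Euc k →L[ℝ] Euc m} {κ : Euc k →L[ℝ] Euc n}
    {u : Euc m → Euc n} {e : ℝ} (h : IsChart T π κ u e) (hu : ContDiff ℝ 3 u) {z : Euc k}
    (hz : ‖κ z‖ < 3) :
    T.Φ z = z + ContinuousLinearMap.adjoint κ (u (π z)) -
      ContinuousLinearMap.adjoint π (ContinuousLinearMap.adjoint (fderiv ℝ u (π z)) (κ z)) := by
  rw [h.Φ_eq z hz, P_eq hu, star_Th_apply]
  rfl



end Crest.Agent.R234.Fc_209
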