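import Crest.Agent.R234.Ft3_209

-- ▼ part R234/Ft4_209
section

/-!
# Row 234, VF-FERMI, part (T) transport of a varifold by a diffeomorphism, file 4 (helper209)

The transported varifold `T.push V`, its integrals and the first variation identity.
-/

set_option autoImplicit false

open Function Set MeasureTheory Crest.GeometryTopology.Submanifold
open scoped InnerProductSpace ENNReal

noncomputable section

namespace Crest.Agent.R234.Ft_209

open Crest.Agent.R234.Fm_209 Crest.Agent.R234.Vf_884 Crest.Agent.R234.Ar_870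

variable {m k : ℕ}

theorem measurable_inverse : Measurable (Ring.inverse : L k → L k) := by
  classical
  have h1 : IsOpen {x : L k | IsUnit x} := Units.isOpen
  have h2 : ContinuousOn (Ring.inverse : L k → L k) {x : L k | IsUnit x} := by
    rintro x ⟨u, rfl⟩
    exact (NormedRing.inverse_continuousAt u).continuousWithinAt
  have h3 := h2.measurable_piecewise (g := fun _ => (0 : L k)) continuousOn_const h1.measurableSet
  have h4 : (Ring.inverse : L k → L k) =
      Set.piecewise {x : L k | IsUnit x} Ring.inverse (fun _ => (0 : L k)) := by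
    funext x
    by_cases hx : IsUnit x
    · exact (Set.piecewise_eq_of_mem {x : L k | IsUnit x} _ _ hx).symm
    · exact (Ring.inverse_non_unit x hx).trans
        (Set.piecewise_eq_of_notMem {x : L k | IsUnit x} Ring.inverse (fun _ => (0 : L k)) hx).symm
  rw [h4]
  exact h3

theorem measurable_comp {α : Type*} [MeasurableSpace α] {f g : α → L k} (hf : Measurable f)
    (hg : Measurable g) : Measurable fun a => f a ∘L g a := by
  have h : Continuous fun p : L k × L k => p.1 ∘L p.2 :=
    continuous_fst.clm_comp continuous_snd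
  exact h.measurable.comp (hf.prodMk hg)

theorem continuous_adjoint : Continuous fun A : L k => ContinuousLinearMap.adjoint A :=
  (ContinuousLinearMap.adjoint (𝕜 := ℝ) (E := Euc k) (F := Euc k)).continuous

theorem continuous_gam : Continuous (gam : L k → L k) :=
  (continuous_adjoint.clm_comp continuous_id).sub continuous_const

theorem measurable_Sig {α : Type*} [MeasurableSpace α] {f g : α → L k} (hf : Measurable f)
    (hg : Measurable g) : Measurable fun a => Sig (f a) (g a) := by
  have h1 : Measurable fun a => (1 : L k) + g a ∘L f a ∘L g a :=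
    (measurable_comp hg (measurable_comp hf hg)).const_add 1
  exact measurable_comp hg (measurable_comp (measurable_inverse.comp h1) hg)

theorem continuous_Jac : Continuous fun p : L k × L k => Jac p.1 p.2 :=
  (continuous_det.comp (continuous_const.add
    (continuous_snd.clm_comp (continuous_fst.clm_comp continuous_snd)))).sqrt

theorem measurable_prj {α : Type*} [MeasurableSpace α] {f g : α → L k} (hf : Measurable f)
    (hg : Measurable g) : Measurable fun a => prj (f a) (g a) :=
  measurable_comp hf (measurable_comp (measurable_Sig (continuous_gam.measurable.comp hf) hg)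
    (continuous_adjoint.measurable.comp hf))

namespace Dif

variable (T : Dif k)

/-- point and plane in the chart -/
def pm (p : Euc k × L k) : Euc k × L k := (T.Ψ p.1, prj (T.B p.1) p.2)

/-- the Jacobian of the chart on the plane -/
def J (p : Euc k × L k) : ℝ := Jac (T.gm p.1) p.2

/-- the transported varifold -/
def push (V : Measure (Euc k × L k)) : Measure (Euc k × L k) :=
  (V.withDensity fun p => ENNReal.ofReal (T.J (T.pm p))⁻¹).map T.pm

theorem measurable_pm : Measurable T.pm :=
  (T.continuousΨ.measurable.comp measurable_fst).prodMk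
    (measurable_prj (T.contB.continuous.measurable.comp measurable_fst) measurable_snd)

theorem continuous_J : Continuous T.J :=
  continuous_Jac.comp ((continuous_gam.comp (T.contA.continuous.comp continuous_fst)).prodMk
    continuous_snd)

theorem J_pos {p : Euc k × L k} (hp : p.2 ∈ G m k) : 0 < T.J p :=
  Jac_pos (isPj_of_G hp) (T.injA p.1)

theorem J_nonneg (p : Euc k × L k) : 0 ≤ T.J p := Jac_nonneg _ _

theorem pm_mem {p : Euc k × L k} (hp : p.2 ∈ G m k) : (T.pm p).2 ∈ G m k :=
  prj_mem_G hp (T.injB p.1)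

/-- inverse of `pm` on the Grassmannian -/
theorem symm_pm {p : Euc k × L k} (hp : p.2 ∈ G m k) : T.symm.pm (T.pm p) = p := by
  refine Prod.ext (T.right p.1) ?_
  change prj (T.A (T.Ψ p.1)) (prj (T.B p.1) p.2) = p.2
  exact prj_prj_G hp (T.AB p.1) (T.BA' p.1)

theorem prj_pm {p : Euc k × L k} (hp : p.2 ∈ G m k) :
    prj (T.A (T.pm p).1) (T.pm p).2 = p.2 := congrArg Prod.snd (T.symm_pm hp)

theorem measurable_wt : Measurable fun p => ENNReal.ofReal (T.J (T.pm p))⁻¹ :=
  ((T.continuous_J.measurable.comp T.measurable_pm).inv).ennreal_ofReal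

theorem lintegral_push (V : Measure (Euc k × L k)) {F : Euc k × L k → ℝ≥0∞} (hF : Measurable F) :
    ∫⁻ p, F p ∂(T.push V) = ∫⁻ p, ENNReal.ofReal (T.J (T.pm p))⁻¹ * F (T.pm p) ∂V := by
  unfold push
  rw [lintegral_map hF T.measurable_pm]
  exact lintegral_withDensity_eq_lintegral_mul _ T.measurable_wt (hF.comp T.measurable_pm)

theorem integral_push (V : Measure (Euc k × L k)) (F : Euc k × L k → ℝ)
    (hF : AEStronglyMeasurable F (T.push V)) :
    ∫ p, F p ∂(T.push V) = ∫ p, (T.J (T.pm p))⁻¹ * F (T.pm p) ∂V := by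
  unfold push
  rw [integral_map T.measurable_pm.aemeasurable hF,
    integral_withDensity_eq_integral_toReal_smul T.measurable_wt
      (Filter.Eventually.of_forall fun _ => ENNReal.ofReal_lt_top)]
  refine integral_congr_ae (Filter.Eventually.of_forall fun p => ?_)
  simp only [smul_eq_mul]
  rw [ENNReal.toReal_ofReal (inv_nonneg.2 (T.J_nonneg _))]

theorem push_ae {V : Measure (Euc k × L k)} {p : Euc k × L k → Prop}
    (hm : MeasurableSet {x | p x}) (h : ∀ᵐ x ∂V, p (T.pm x)) : ∀ᵐ x ∂(T.push V), p x := by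
  unfold push
  rw [ae_map_iff T.measurable_pm.aemeasurable hm]
  exact (withDensity_absolutelyContinuous V _).ae_le h

theorem push_conc {V : Measure (Euc k × L k)} (hV : ∀ᵐ p ∂V, p.2 ∈ G m k) :
    ∀ᵐ p ∂(T.push V), p.2 ∈ G m k :=
  T.push_ae (measurable_snd (measurableSet_G m k)) (by
    filter_upwards [hV] with p hp
    exact T.pm_mem hp)

/-- integrals against the Jacobian -/
theorem integral_J {V : Measure (Euc k × L k)} (hV : ∀ᵐ p ∂V, p.2 ∈ G m k)
    (F : Euc k × L k → ℝ) (hF : AEStronglyMeasurable F (T.push V)) :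
    ∫ p, T.J p * F p ∂(T.push V) = ∫ p, F (T.pm p) ∂V := by
  rw [T.integral_push V (fun p => T.J p * F p) (T.continuous_J.aestronglyMeasurable.mul hF)]
  refine integral_congr_ae ?_
  filter_upwards [hV] with p hp
  have h := (T.J_pos (T.pm_mem hp)).ne'
  rw [← mul_assoc, inv_mul_cancel₀ h, one_mul]

/-- the integrand of the first variation in the chart -/
def fvi (ζ : Euc k → Euc k) (p : Euc k × L k) : ℝ :=
  tr (Sig (T.gm p.1) p.2 ∘L
    (T.Gm p.1 ∘L fderiv ℝ ζ p.1 + (1 / 2 : ℝ) • fderiv ℝ T.Gm p.1 (ζ p.1)))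

theorem contDiff_Gm : ContDiff ℝ 1 T.Gm := by
  have h1 : ContDiff ℝ 1 fun z => ContinuousLinearMap.adjoint (T.A z) := by
    have h2 : ContDiff ℝ 1 (ContinuousLinearMap.adjoint (𝕜 := ℝ) (E := Euc k) (F := Euc k)) :=
      (ContinuousLinearMap.adjoint (𝕜 := ℝ) (E := Euc k) (F := Euc k)).toContinuousLinearEquiv.toContinuousLinearMap.contDiff
    exact h2.comp T.contA
  exact h1.clm_comp T.contA

theorem measurable_fvi {ζ : Euc k → Euc k} (hζ : ContDiff ℝ 1 ζ) : Measurable (T.fvi ζ) := by
  refine tr.continuous.measurable.comp (measurable_comp (measurable_Sig ?_ measurable_snd) ?_)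
  · exact (continuous_gam.comp T.contA.continuous).measurable.comp measurable_fst
  · have h : Continuous fun z : Euc k => T.Gm z ∘L fderiv ℝ ζ z +
        (1 / 2 : ℝ) • fderiv ℝ T.Gm z (ζ z) :=
      (T.contDiff_Gm.continuous.clm_comp (hζ.continuous_fderiv one_ne_zero)).add
        ((continuous_const_smul (1 / 2 : ℝ)).comp
          ((T.contDiff_Gm.continuous_fderiv one_ne_zero).clm_apply hζ.continuous))
    exact h.measurable.comp measurable_fst

/-- **the first variation identity in the chart**, general varifolds -/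
theorem stat_push {U : Set (Euc k)} {V : Measure (Euc k × L k)} (hV : Stat m k U V)
    {ζ : Euc k → Euc k} (hζ : ContDiff ℝ 1 ζ) (hc : HasCompactSupport ζ)
    (hs : tsupport ζ ⊆ T.Φ ⁻¹' U) :
    ∫ p, T.J p * T.fvi ζ p ∂(T.push V) = 0 := by
  rw [T.integral_J hV.conc _ (T.measurable_fvi hζ).aestronglyMeasurable]
  have h1 := hV.stat (T.fld ζ) (T.contDiff_fld hζ) (T.hasCompactSupport_fld hc)
    ((T.tsupport_fld ζ).trans (by
      rintro _ ⟨z, hz, rfl⟩
      exact hs hz))
  rw [← h1]
  refine integral_congr_ae ?_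
  filter_upwards [hV.conc] with p hp
  have h2 := T.tr_pt hζ (T.pm p).1 (T.pm_mem hp)
  have h3 : T.Φ (T.pm p).1 = p.1 := T.right p.1
  rw [T.prj_pm hp, h3] at h2
  exact h2.symm

end Dif

end Crest.Agent.R234.Ft_209
end
end

-- ▼ part R234/Ft5_209

/-!
# Row 234, VF-FERMI, part (T) transport of a varifold by a diffeomorphism, file 5 (helper209)

The transported frozen data `T.data D`: it is an integral varifold, `VD (T.data D) = T.push (VD D)`,
supports; local finiteness of `T.push V`.
-/

set_option autoImplicit false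

open Function Set MeasureTheory Crest.GeometryTopology.Submanifold
open scoped InnerProductSpace ENNReal

noncomputable section

namespace Crest.Agent.R234.Ft_209

open Crest.Agent.R234.Fm_209 Crest.Agent.R234.Vf_884 Crest.Agent.R234.Ar_870

variable {m k : ℕ}

theorem weight_apply (D : VarifoldData m k) (hc : ∀ i, ContDiff ℝ 1 (D.chart i)) {K : Set (Euc k)} (hK : MeasurableSet K) :
    weight D K = ∑' i, ∫⁻ a in D.dom i ∩ D.chart i ⁻¹' K,
      ENNReal.ofReal ((D.mult i a : ℝ) * jac (D.chart i) a) := by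
  unfold weight
  rw [Measure.sum_apply _ hK]
  refine tsum_congr fun i => ?_
  have h1 : MeasurableSet (D.chart i ⁻¹' K) := (hc i).continuous.measurable hK
  rw [Measure.map_apply (hc i).continuous.measurable hK, withDensity_apply _ h1,
    Measure.restrict_restrict h1, inter_comm]

namespace Dif

variable (T : Dif k)

theorem exists_J_ge (m : ℕ) {K : Set (Euc k)} (hK : IsCompact K) :
    ∃ c : ℝ, 0 < c ∧ ∀ z ∈ K, ∀ S ∈ G m k, c ≤ T.J (z, S) := by
  rcases (K ×ˢ G m k).eq_empty_or_nonempty with h | h
  · refine ⟨1, one_pos, fun z hz S hS => ?_⟩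
    have : (z, S) ∈ K ×ˢ G m k := ⟨hz, hS⟩
    rw [h] at this
    exact absurd this (notMem_empty _)
  · obtain ⟨p, hp, hmin⟩ := (hK.prod (isCompact_G m k)).exists_isMinOn h T.continuous_J.continuousOn
    exact ⟨T.J p, T.J_pos hp.2, fun z hz S hS => hmin ⟨hz, hS⟩⟩


/-- the transported data -/
def data (D : VarifoldData m k) : VarifoldData m k := ⟨fun i => T.Ψ ∘ D.chart i, D.dom, D.mult⟩

variable {U : Set (Euc k)} {D : VarifoldData m k}

theorem projF_data (hD : IsIntegralVarifoldIn U D) {i : ℕ} {a : Euc m} (ha : a ∈ D.dom i) :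
    projF ((T.data D).chart i) a = prj (T.B (D.chart i a)) (projF (D.chart i) a) :=
  projF_comp ((hD.contDiff i).differentiable one_ne_zero a) (T.dΨ _)
    (hD.injective_fderiv i a ha) (T.injB _)

theorem lift_data (hD : IsIntegralVarifoldIn U D) {i : ℕ} {a : Euc m} (ha : a ∈ D.dom i) :
    lift (T.data D) i a = T.pm (lift D i a) := Prod.ext rfl (T.projF_data hD ha)

theorem inj_data (hD : IsIntegralVarifoldIn U D) {i : ℕ} {a : Euc m} (ha : a ∈ D.dom i) :
    Injective (fderiv ℝ ((T.data D).chart i) a) := by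
  have h1 : fderiv ℝ ((T.data D).chart i) a = T.B (D.chart i a) ∘L fderiv ℝ (D.chart i) a :=
    fderiv_comp a (T.dΨ _) ((hD.contDiff i).differentiable one_ne_zero a)
  rw [h1]
  exact (T.injB _).comp (hD.injective_fderiv i a ha)

theorem contDiff_data (hD : IsIntegralVarifoldIn U D) (i : ℕ) :
    ContDiff ℝ 1 ((T.data D).chart i) := (T.cΨ.of_le one_le_two).comp (hD.contDiff i)

theorem jac_data (hD : IsIntegralVarifoldIn U D) {i : ℕ} {a : Euc m} (ha : a ∈ D.dom i) :
    jac ((T.data D).chart i) a * T.J (T.pm (lift D i a)) = jac (D.chart i) a := by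
  have h1 : T.Φ ∘ (T.data D).chart i = D.chart i := by
    funext b
    exact T.right _
  have h2 := jac_comp (Φ := T.Φ) ((T.contDiff_data hD i).differentiable one_ne_zero a) (T.dΦ _)
    (T.inj_data hD ha)
  rw [h1, T.projF_data hD ha] at h2
  exact h2.symm

theorem jac_data' (hD : IsIntegralVarifoldIn U D) {i : ℕ} {a : Euc m} (ha : a ∈ D.dom i) :
    jac ((T.data D).chart i) a = jac (D.chart i) a * (T.J (T.pm (lift D i a)))⁻¹ := by
  have h : 0 < T.J (T.pm (lift D i a)) :=
    T.J_pos (T.pm_mem (projF_mem_G (hD.injective_fderiv i a ha)))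
  rw [← T.jac_data hD ha, mul_assoc, mul_inv_cancel₀ h.ne', mul_one]

/-- **the transported data is an integral varifold** -/
theorem isIntegral (hD : IsIntegralVarifoldIn U D) :
    IsIntegralVarifoldIn (T.Φ ⁻¹' U) (T.data D) where
  measurableSet := hD.measurableSet
  contDiff := T.contDiff_data hD
  injOn i := T.injΨ.comp_injOn (hD.injOn i)
  injective_fderiv i a ha := T.inj_data hD ha
  disjoint i j hij := by
    have h1 : ∀ i, (T.data D).chart i '' (T.data D).dom i = T.Ψ '' (D.chart i '' D.dom i) :=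
      fun i => image_comp T.Ψ (D.chart i) (D.dom i)
    rw [h1, h1]
    exact (disjoint_image_iff T.injΨ).2 (hD.disjoint i j hij)
  subset i := by
    rintro _ ⟨a, ha, rfl⟩
    change T.Φ (T.Ψ (D.chart i a)) ∈ U
    rw [T.right]
    exact hD.subset i ⟨a, ha, rfl⟩
  measurable_mult := hD.measurable_mult
  mult_pos := hD.mult_pos
  locallyFinite K hK hKU := by
    obtain ⟨c, hc, hcJ⟩ := T.exists_J_ge m hK
    have hK' : IsCompact (T.Φ '' K) := hK.image T.continuousΦ
    have hfin : weight D (T.Φ '' K) < ⊤ := hD.locallyFinite _ hK' (by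
      rintro _ ⟨z, hz, rfl⟩
      exact hKU hz)
    rw [weight_apply (T.data D) (T.contDiff_data hD) hK.measurableSet]
    rw [weight_apply D hD.contDiff hK'.measurableSet] at hfin
    refine lt_of_le_of_lt ?_ (ENNReal.mul_lt_top (ENNReal.ofReal_lt_top (r := c⁻¹)) hfin)
    rw [← ENNReal.tsum_mul_left]
    refine ENNReal.tsum_le_tsum fun i => ?_
    have hset : (T.data D).dom i ∩ (T.data D).chart i ⁻¹' K =
        D.dom i ∩ D.chart i ⁻¹' (T.Φ '' K) := by
      rw [T.image_eq]
      rfl
    rw [hset, ← lintegral_const_mul' _ _ ENNReal.ofReal_ne_top]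
    refine setLIntegral_mono_ae' ?_ (Filter.Eventually.of_forall fun a ha => ?_)
    · exact (hD.measurableSet i).inter
        ((hD.contDiff i).continuous.measurable hK'.measurableSet)
    · have h1 : (T.Ψ (D.chart i a)) ∈ K := by
        have := ha.2
        rw [T.image_eq] at this
        exact this
      have h2 : c ≤ T.J (T.pm (lift D i a)) :=
        hcJ _ h1 _ (T.pm_mem (p := lift D i a) (projF_mem_G (hD.injective_fderiv i a ha.1)))
      rw [← ENNReal.ofReal_mul (inv_nonneg.2 hc.le), T.jac_data' hD ha.1]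
      refine ENNReal.ofReal_le_ofReal ?_
      have h3 : (T.J (T.pm (lift D i a)))⁻¹ ≤ c⁻¹ := inv_anti₀ hc h2
      have h4 : 0 ≤ jac (D.chart i) a := Real.sqrt_nonneg _
      calc (D.mult i a : ℝ) * (jac (D.chart i) a * (T.J (T.pm (lift D i a)))⁻¹)
          ≤ (D.mult i a : ℝ) * (jac (D.chart i) a * c⁻¹) := by gcongr
        _ = _ := by ring

/-- **the varifold of the transported data** -/
theorem VD_data (hD : IsIntegralVarifoldIn U D) : VD (T.data D) = T.push (VD D) := by
  refine Measure.ext_of_lintegral _ fun F hF => ?_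
  have hg : Measurable fun p => ENNReal.ofReal (T.J (T.pm p))⁻¹ * F (T.pm p) :=
    T.measurable_wt.mul (hF.comp T.measurable_pm)
  rw [lintegral_VD (T.isIntegral hD) hF, T.lintegral_push _ hF, lintegral_VD hD hg]
  refine tsum_congr fun i => setLIntegral_congr_fun (hD.measurableSet i) fun a ha => ?_
  have h4 : 0 ≤ jac (D.chart i) a := Real.sqrt_nonneg _
  have h5 : ENNReal.ofReal ((D.mult i a : ℝ) * (jac (D.chart i) a * (T.J (T.pm (lift D i a)))⁻¹)) =
      ENNReal.ofReal ((D.mult i a : ℝ) * jac (D.chart i) a) *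
        ENNReal.ofReal (T.J (T.pm (lift D i a)))⁻¹ := by
    rw [← mul_assoc, ENNReal.ofReal_mul (mul_nonneg (Nat.cast_nonneg _) h4)]
  have h6 : (T.data D).mult i a = D.mult i a := rfl
  rw [T.lift_data hD ha, T.jac_data' hD ha, h6, h5, mul_assoc]


theorem push_fin {V : Measure (Euc k × L k)} (hV : ∀ᵐ p ∂V, p.2 ∈ G m k)
    (hfin : ∀ K : Set (Euc k), IsCompact K → K ⊆ U → V (K ×ˢ Set.univ) < ⊤)
    {K : Set (Euc k)} (hK : IsCompact K) (hKU : K ⊆ T.Φ ⁻¹' U) :
    T.push V (K ×ˢ Set.univ) < ⊤ := by
  obtain ⟨c, hc, hcJ⟩ := T.exists_J_ge m hK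
  have hK' : IsCompact (T.Φ '' K) := hK.image T.continuousΦ
  have hf : V ((T.Φ '' K) ×ˢ Set.univ) < ⊤ := hfin _ hK' (by
    rintro _ ⟨z, hz, rfl⟩
    exact hKU hz)
  have hms : MeasurableSet (K ×ˢ (Set.univ : Set (L k))) :=
    hK.measurableSet.prod MeasurableSet.univ
  have hpre : T.pm ⁻¹' (K ×ˢ (Set.univ : Set (L k))) = (T.Φ '' K) ×ˢ Set.univ := by
    ext p
    rw [T.image_eq]
    simp [pm]
  unfold push
  rw [Measure.map_apply T.measurable_pm hms, hpre,
    withDensity_apply _ (hK'.measurableSet.prod MeasurableSet.univ)]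
  refine lt_of_le_of_lt ?_ (ENNReal.mul_lt_top (ENNReal.ofReal_lt_top (r := c⁻¹)) hf)
  rw [← setLIntegral_const]
  refine setLIntegral_mono_ae' (hK'.measurableSet.prod MeasurableSet.univ) ?_
  filter_upwards [hV] with p hp hpK
  refine ENNReal.ofReal_le_ofReal (inv_anti₀ hc ?_)
  have h1 : T.Ψ p.1 ∈ K := by
    have := hpK.1
    rw [T.image_eq] at this
    exact this
  exact hcJ _ h1 _ (T.pm_mem hp)


end Dif

end Crest.Agent.R234.Ft_209
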