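import Crest.Agent.R234.Fm6_281
import Crest.Agent.R234.AS_456
import Crest.Agent.R234.Ft5_209
import Crest.Agent.R234.Fc8_209
import Crest.Agent.R234.Al9_182
import Crest.Agent.R234.Ex8_46

-- ▼ part R234/Fm7_281
section

/-!
# Row 234, VF-FERMI (helper281), file 7: the real estimates of the pointwise inequality
-/

set_option autoImplicit false

noncomputable section

namespace Crest.Agent.R234.Fm_281

/-- real parameters: `l` bound of the derivatives of `u`, `y ≤ h0` height, `t² = τ` tilt,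
`q = l (l + h0)`. -/
structure RA (k l y h0 t τ q : ℝ) : Prop where
  hk : 0 ≤ k
  hl : 0 ≤ l
  hl1 : l ≤ 1
  hy : 0 ≤ y
  hyh : y ≤ h0
  hh : h0 ≤ 1
  ht : 0 ≤ t
  hτ : t * t = τ
  hτk : τ ≤ k
  hq : q = l * (l + h0)

namespace RA

variable {k l y h0 t τ q C1 : ℝ} (R : RA k l y h0 t τ q)

include R

theorem τ0 : 0 ≤ τ := by rw [← R.hτ]; exact mul_self_nonneg t

theorem y1 : y ≤ 1 := R.hyh.trans R.hh

theorem h00 : 0 ≤ h0 := R.hy.trans R.hyh

theorem tK : t ≤ k + 1 := by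
  by_contra hcon
  push Not at hcon
  have h1 : (k + 1) * (k + 1) < t * t := mul_self_lt_mul_self (by linarith [R.hk]) hcon
  have h2 := R.hτ
  have h3 := R.hτk
  have h4 := R.hk
  nlinarith

theorem q0 : 0 ≤ q := by
  rw [R.hq]; exact mul_nonneg R.hl (by linarith [R.hl, R.h00])

theorem ll : l ^ 2 ≤ q := by
  rw [R.hq]
  have := mul_nonneg R.hl R.h00
  nlinarith

theorem l1 : l ^ 2 ≤ 1 := by
  have h1 := R.hl
  have h2 := R.hl1
  nlinarith

theorem ly : l * y ≤ l * h0 := mul_le_mul_of_nonneg_left R.hyh R.hl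

theorem th : l ^ 2 + 3 * (l * y) ≤ 3 * q := by
  have h1 := R.ly
  have h2 := sq_nonneg l
  have h3 : 3 * q = 3 * l ^ 2 + 3 * (l * h0) := by rw [R.hq]; ring
  linarith


theorem yt0 : 0 ≤ y * t := mul_nonneg R.hy R.ht

theorem yt : 2 * (y * t) ≤ τ + y ^ 2 := by
  rw [← R.hτ]
  nlinarith [sq_nonneg (t - y)]

theorem yt' : y * t ≤ t := by
  have := mul_le_mul_of_nonneg_right R.y1 R.ht
  linarith

theorem y2 : y ^ 2 ≤ 1 := by
  have h1 := R.hy
  have h2 := R.y1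
  nlinarith

theorem τt : τ ≤ (k + 1) * t := by
  rw [← R.hτ]
  exact mul_le_mul_of_nonneg_right R.tK R.ht

theorem lly : l ^ 2 * y ^ 2 ≤ q := by
  have h1 := mul_le_mul R.ll R.y2 (sq_nonneg y) R.q0
  linarith

theorem ot : l ^ 2 * y * t ≤ q * (y * t) := by
  have := mul_le_mul_of_nonneg_right R.ll R.yt0
  linarith

theorem a1 (hC1 : 0 ≤ C1) : (l ^ 2 + 3 * (l * y)) * τ + l ^ 2 * y * t + C1 * (l ^ 2 * y ^ 2) ≤
    (4 + C1) * q * (τ + y ^ 2) := by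
  have q0 := R.q0
  have τ0 := R.τ0
  have e1 := mul_le_mul_of_nonneg_right R.th τ0
  have e2 := R.ot
  have e3 : q * (y * t) ≤ q * (τ + y ^ 2) :=
    mul_le_mul_of_nonneg_left (by linarith [R.yt, R.yt0]) q0
  have e4 : C1 * (l ^ 2 * y ^ 2) ≤ C1 * (q * y ^ 2) :=
    mul_le_mul_of_nonneg_left (mul_le_mul_of_nonneg_right R.ll (sq_nonneg y)) hC1
  have e5 : 0 ≤ C1 * (q * τ) := mul_nonneg hC1 (mul_nonneg q0 τ0)
  have e6 : 0 ≤ q * y ^ 2 := mul_nonneg q0 (sq_nonneg y)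
  have e7 : (4 + C1) * q * (τ + y ^ 2) = 4 * (q * τ) + 4 * (q * y ^ 2) + C1 * (q * τ) +
    C1 * (q * y ^ 2) := by ring
  have e8 : q * (τ + y ^ 2) = q * τ + q * y ^ 2 := by ring
  rw [e7]
  linarith

theorem e4t (hC1 : 0 ≤ C1) {s : ℝ} (hs : 0 ≤ s) : C1 * (l ^ 2 * y ^ 2) * s ≤ C1 * (q * s) := by
  have f2 : l ^ 2 * y ^ 2 * s ≤ q * s := mul_le_mul_of_nonneg_right R.lly hs
  have f3 := mul_le_mul_of_nonneg_left f2 hC1
  linarith

theorem a2 (hC1 : 0 ≤ C1) :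
    (l ^ 2 + 3 * (l * y)) * τ + l ^ 2 * y * t + C1 * (l ^ 2 * y ^ 2) * t ≤
    (3 * (k + 1) + 1 + C1) * q * (t + y) := by
  have q0 := R.q0
  have e1 := mul_le_mul_of_nonneg_right R.th R.τ0
  have e1' : 3 * q * τ ≤ 3 * q * ((k + 1) * t) :=
    mul_le_mul_of_nonneg_left R.τt (by linarith)
  have e2 := R.ot
  have e2' : q * (y * t) ≤ q * t := mul_le_mul_of_nonneg_left R.yt' q0
  have e4 := R.e4t hC1 R.ht
  have e5 : 0 ≤ (3 * (k + 1) + 1 + C1) * q * y := by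
    have := R.hk
    have := R.hy
    positivity
  linarith

theorem a3 (hC1 : 0 ≤ C1) :
    (l ^ 2 + 3 * (l * y)) * t + l ^ 2 * y + C1 * (l ^ 2 * y ^ 2) * t ≤
      (4 + C1) * q * (t + y) := by
  have q0 := R.q0
  have e1 := mul_le_mul_of_nonneg_right R.th R.ht
  have e2 : l ^ 2 * y ≤ q * y := mul_le_mul_of_nonneg_right R.ll R.hy
  have e4 := R.e4t hC1 R.ht
  have e5 : 0 ≤ C1 * (q * y) := mul_nonneg hC1 (mul_nonneg q0 R.hy)
  have e6 : 0 ≤ q * t := mul_nonneg q0 R.ht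
  have e7 : 0 ≤ q * y := mul_nonneg q0 R.hy
  have e8 : (4 + C1) * q * (t + y) = 4 * (q * t) + 4 * (q * y) + C1 * (q * t) +
    C1 * (q * y) := by ring
  rw [e8]
  linarith

theorem a4 (hC1 : 0 ≤ C1) :
    (l ^ 2 + 3 * (l * y)) * τ + l ^ 2 * y * t + C1 * (l ^ 2 * y ^ 2) * τ ≤
      (4 + C1) * q * (τ + y * t) := by
  have q0 := R.q0
  have e1 := mul_le_mul_of_nonneg_right R.th R.τ0
  have e2 := R.ot
  have e4 := R.e4t hC1 R.τ0
  have e5 : 0 ≤ C1 * (q * (y * t)) := mul_nonneg hC1 (mul_nonneg q0 R.yt0)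
  have e6 : 0 ≤ q * τ := mul_nonneg q0 R.τ0
  have e7 : 0 ≤ q * (y * t) := mul_nonneg q0 R.yt0
  have e8 : (4 + C1) * q * (τ + y * t) = 4 * (q * τ) + 4 * (q * (y * t)) + C1 * (q * τ) +
    C1 * (q * (y * t)) := by ring
  rw [e8]
  linarith

variable {u w ξ η : ℝ}

theorem c5 (hu : 0 ≤ u) (hw : 0 ≤ w) (hξ : ξ ≤ 2 * u) (hη : η ≤ 2 * w) :
    (τ + l ^ 2 * y * t) * (2 * l ^ 2 * ξ + 4 * (l * η + l * y * ξ)) ≤
      8 * l * τ * w + 8 * (q * (t + y) * w) + 12 * (q * (τ + y ^ 2) * u) := by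
  have hl := R.hl
  have hy := R.hy
  have ht := R.ht
  have q0 := R.q0
  have τ0 := R.τ0
  have hly0 : 0 ≤ l * y := mul_nonneg hl hy
  have g1 : 2 * l ^ 2 * ξ + 4 * (l * η + l * y * ξ) ≤ 8 * l * w + 8 * q * u := by
    have e1 : 2 * l ^ 2 * ξ ≤ 2 * l ^ 2 * (2 * u) :=
      mul_le_mul_of_nonneg_left hξ (by positivity)
    have e2 : l * η ≤ l * (2 * w) := mul_le_mul_of_nonneg_left hη hl
    have e3 : l * y * ξ ≤ l * y * (2 * u) := mul_le_mul_of_nonneg_left hξ hly0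
    have e4 : (4 * l ^ 2 + 8 * (l * y)) * u ≤ (8 * q) * u := by
      refine mul_le_mul_of_nonneg_right ?_ hu
      have h3 : 8 * q = 8 * l ^ 2 + 8 * (l * h0) := by rw [R.hq]; ring
      linarith [R.ly, sq_nonneg l]
    linarith
  have e0 : 0 ≤ l ^ 2 * y * t := by positivity
  have e1 := mul_le_mul_of_nonneg_left g1 (show 0 ≤ τ + l ^ 2 * y * t by linarith)
  have e2 : l ^ 2 * y * t * (8 * l * w) ≤ 8 * (q * t * w) := by
    have f0 : l ^ 2 * y * t ≤ q * t := by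
      have := mul_le_mul_of_nonneg_left R.yt' q0
      linarith [R.ot]
    have f1 : l ^ 2 * y * t * l ≤ q * t * 1 := mul_le_mul f0 R.hl1 hl (mul_nonneg q0 ht)
    have f4 : l ^ 2 * y * t * l * w ≤ q * t * 1 * w := mul_le_mul_of_nonneg_right f1 hw
    linarith
  have e3 : (τ + l ^ 2 * y * t) * (8 * q * u) ≤ 12 * (q * (τ + y ^ 2) * u) := by
    have f1 : l ^ 2 * y * t ≤ y * t := by
      have := mul_le_mul_of_nonneg_right R.l1 R.yt0
      linarith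
    have f2 : τ + l ^ 2 * y * t ≤ 3 / 2 * (τ + y ^ 2) := by
      linarith [R.yt, sq_nonneg y]
    have f3 := mul_le_mul_of_nonneg_right f2 (show 0 ≤ 8 * q * u by positivity)
    linarith
  have e4 : 0 ≤ q * y * w := by positivity
  linarith

theorem c6 (hu : 0 ≤ u) (hw : 0 ≤ w) (hξ0 : 0 ≤ ξ) (hη0 : 0 ≤ η) (hξ : ξ ≤ 2 * u)
    (hη : η ≤ 2 * w) : t * (l ^ 2 * η + 2 * (l ^ 2 * y * ξ)) ≤
      2 * (q * (t + y) * w) + 4 * (q * (τ + y ^ 2) * u) := by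
  have hy := R.hy
  have q0 := R.q0
  have e1 : l ^ 2 * η ≤ q * (2 * w) := mul_le_mul R.ll hη hη0 q0
  have e2 : l ^ 2 * y * ξ ≤ q * y * (2 * u) := by
    have : l ^ 2 * y ≤ q * y := mul_le_mul_of_nonneg_right R.ll hy
    exact mul_le_mul this hξ hξ0 (by positivity)
  have e3 : t * (l ^ 2 * η + 2 * (l ^ 2 * y * ξ)) ≤ t * (q * (2 * w) + 2 * (q * y * (2 * u))) :=
    mul_le_mul_of_nonneg_left (by linarith) R.ht
  have e4 : q * u * (2 * (y * t)) ≤ q * u * (τ + y ^ 2) :=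
    mul_le_mul_of_nonneg_left R.yt (by positivity)
  have e5 : 0 ≤ q * y * w := by positivity
  have e6 : 0 ≤ q * u * (τ + y ^ 2) := by
    have := R.τ0
    positivity
  linarith

theorem c7 (hu : 0 ≤ u) (hξ0 : 0 ≤ ξ) (hξ : ξ ≤ 2 * u) :
    τ * (2 * l ^ 2 * ξ) ≤ 4 * (q * (τ + y ^ 2) * u) := by
  have e1 : l ^ 2 * ξ ≤ q * (2 * u) := mul_le_mul R.ll hξ hξ0 R.q0
  have e2 := mul_le_mul_of_nonneg_left e1 R.τ0
  have e3 : 0 ≤ q * y ^ 2 * u := mul_nonneg (mul_nonneg R.q0 (sq_nonneg y)) hu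
  linarith

theorem c8 (hC1 : 0 ≤ C1) (hu : 0 ≤ u) (hw : 0 ≤ w) (hξ0 : 0 ≤ ξ) (hη0 : 0 ≤ η)
    (hξ : ξ ≤ 2 * u) (hη : η ≤ 2 * w) : C1 * (l ^ 2 * (y * η + y ^ 2 * ξ)) ≤
      2 * C1 * (q * (t + y) * w + q * (τ + y ^ 2) * u) := by
  have hy := R.hy
  have q0 := R.q0
  have ht := R.ht
  have τ0 := R.τ0
  have e1 : l ^ 2 * (y * η + y ^ 2 * ξ) ≤ q * (y * (2 * w) + y ^ 2 * (2 * u)) := by
    refine mul_le_mul R.ll ?_ (by positivity) q0
    have f1 := mul_le_mul_of_nonneg_left hη hy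
    have f2 := mul_le_mul_of_nonneg_left hξ (sq_nonneg y)
    linarith
  have e2 := mul_le_mul_of_nonneg_left e1 hC1
  have e3 : 0 ≤ C1 * (q * t * w) := by positivity
  have e4 : 0 ≤ C1 * (q * τ * u) := by positivity
  linarith

theorem c9 (hu : 0 ≤ u) (hw : 0 ≤ w) (hξ0 : 0 ≤ ξ) (hη0 : 0 ≤ η) (hξ : ξ ≤ 2 * u)
    (hη : η ≤ 2 * w) : 4 * k * l ^ 2 * (τ * ξ + t * η) ≤
      8 * k * (q * (t + y) * w + q * (τ + y ^ 2) * u) := by
  have hy := R.hy
  have q0 := R.q0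
  have ht := R.ht
  have τ0 := R.τ0
  have hk := R.hk
  have e1 : l ^ 2 * (τ * ξ + t * η) ≤ q * (τ * (2 * u) + t * (2 * w)) := by
    refine mul_le_mul R.ll ?_ (by positivity) q0
    have f1 := mul_le_mul_of_nonneg_left hξ τ0
    have f2 := mul_le_mul_of_nonneg_left hη ht
    linarith
  have e2 := mul_le_mul_of_nonneg_left e1 (show 0 ≤ 4 * k by linarith)
  have e3 : 0 ≤ k * (q * y * w) := by positivity
  have e4 : 0 ≤ k * (q * y ^ 2 * u) := by positivity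
  linarith

theorem b1 {α : ℝ} (hα : 0 ≤ α) (hu : 0 ≤ u) :
    2 * α + 16 * k * l ^ 2 * u ≤ (2 + 16 * k) * (α + u) := by
  have hk := R.hk
  have h1 : 16 * k * l ^ 2 ≤ 16 * k * 1 := mul_le_mul_of_nonneg_left R.l1 (by linarith)
  have e1 := mul_le_mul_of_nonneg_right h1 hu
  have e2 : 0 ≤ k * α := mul_nonneg hk hα
  linarith

end RA

/-- all real estimates of the pointwise inequality -/
theorem real_AS {C0 C1 k l y h0 t τ α β γ d u w ξ η q : ℝ} (R : RA k l y h0 t τ q)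
    (hC0 : 0 ≤ C0) (hC1 : 0 ≤ C1) (hα : 0 ≤ α) (hβ : 0 ≤ β) (hγ : 0 ≤ γ)
    (hd : 0 ≤ d) (hu : 0 ≤ u) (hw : 0 ≤ w) (hξ0 : 0 ≤ ξ) (hη0 : 0 ≤ η) (hξ : ξ ≤ 2 * u)
    (hη : η ≤ 2 * w) :
    C0 * (((l ^ 2 + 3 * (l * y)) * τ + l ^ 2 * y * t + C1 * (l ^ 2 * y ^ 2)) *
        (2 * α + 16 * k * l ^ 2 * u) +
      ((l ^ 2 + 3 * (l * y)) * τ + l ^ 2 * y * t + C1 * (l ^ 2 * y ^ 2) * t) * (2 * β) +
      ((l ^ 2 + 3 * (l * y)) * t + l ^ 2 * y + C1 * (l ^ 2 * y ^ 2) * t) *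
        (2 * γ + 16 * k * l ^ 2 * w) +
      ((l ^ 2 + 3 * (l * y)) * τ + l ^ 2 * y * t + C1 * (l ^ 2 * y ^ 2) * τ) * (2 * d) +
      (τ + l ^ 2 * y * t) * (2 * l ^ 2 * ξ + 4 * (l * η + l * y * ξ)) +
      t * (l ^ 2 * η + 2 * (l ^ 2 * y * ξ)) + τ * (2 * l ^ 2 * ξ)) +
      C1 * (l ^ 2 * (y * η + y ^ 2 * ξ)) + 4 * k * l ^ 2 * (τ * ξ + t * η) ≤
    (C0 * ((4 + C1) * (2 + 16 * k) + 2 * (3 * (k + 1) + 1 + C1) + 30) + 2 * C1 + 8 * k) * q *
      ((τ + y ^ 2) * (α + u) + (t + y) * (β + γ + w) + (τ + y * t) * d) +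
      C0 * (8 * l * τ * w) := by
  have hk := R.hk
  have hl := R.hl
  have hy := R.hy
  have ht := R.ht
  have q0 := R.q0
  have τ0 := R.τ0
  have c1 := mul_le_mul (R.a1 hC1) (R.b1 hα hu) (by positivity)
    (show 0 ≤ (4 + C1) * q * (τ + y ^ 2) by positivity)
  have c2 := mul_le_mul_of_nonneg_right (R.a2 hC1) (show 0 ≤ 2 * β by positivity)
  have c3 := mul_le_mul (R.a3 hC1) (R.b1 hγ hw) (by positivity)
    (show 0 ≤ (4 + C1) * q * (t + y) by positivity)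
  have c4 := mul_le_mul_of_nonneg_right (R.a4 hC1) (show 0 ≤ 2 * d by positivity)
  have c5 := R.c5 hu hw hξ hη
  have c6 := R.c6 hu hw hξ0 hη0 hξ hη
  have c7 := R.c7 hu hξ0 hξ
  have c8 := R.c8 hC1 hu hw hξ0 hη0 hξ hη
  have c9 := R.c9 hu hw hξ0 hη0 hξ hη
  obtain ⟨A, hA⟩ : ∃ A, A = q * (τ + y ^ 2) * (α + u) := ⟨_, rfl⟩
  obtain ⟨B, hB⟩ : ∃ B, B = q * (t + y) * (β + γ + w) := ⟨_, rfl⟩
  obtain ⟨D, hD⟩ : ∃ D, D = q * (τ + y * t) * d := ⟨_, rfl⟩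
  have hA0 : 0 ≤ A := by rw [hA]; positivity
  have hB0 : 0 ≤ B := by rw [hB]; positivity
  have hD0 : 0 ≤ D := by rw [hD]; positivity
  have hAu : q * (τ + y ^ 2) * u ≤ A := by
    rw [hA]
    exact mul_le_mul_of_nonneg_left (by linarith) (by positivity)
  have hBw : q * (t + y) * w ≤ B := by
    rw [hB]
    exact mul_le_mul_of_nonneg_left (by linarith) (by positivity)
  have hBβ : q * (t + y) * β ≤ B := by
    rw [hB]
    exact mul_le_mul_of_nonneg_left (by linarith) (by positivity)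
  have hBγ : q * (t + y) * (γ + w) ≤ B := by
    rw [hB]
    exact mul_le_mul_of_nonneg_left (by linarith) (by positivity)
  have c1' : (4 + C1) * q * (τ + y ^ 2) * ((2 + 16 * k) * (α + u)) = (4 + C1) * (2 + 16 * k) * A := by
    rw [hA]; ring
  have c2' : (3 * (k + 1) + 1 + C1) * q * (t + y) * (2 * β) ≤ 2 * (3 * (k + 1) + 1 + C1) * B := by
    have := mul_le_mul_of_nonneg_left hBβ (show 0 ≤ 2 * (3 * (k + 1) + 1 + C1) by positivity)
    linarith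
  have c3' : (4 + C1) * q * (t + y) * ((2 + 16 * k) * (γ + w)) ≤ (4 + C1) * (2 + 16 * k) * B := by
    have := mul_le_mul_of_nonneg_left hBγ (show 0 ≤ (4 + C1) * (2 + 16 * k) by positivity)
    linarith
  have c4' : (4 + C1) * q * (τ + y * t) * (2 * d) ≤ (4 + C1) * (2 + 16 * k) * D := by
    have e1 : (4 + C1) * q * (τ + y * t) * (2 * d) = (4 + C1) * 2 * D := by rw [hD]; ring
    rw [e1]
    refine mul_le_mul_of_nonneg_right ?_ hD0
    exact mul_le_mul_of_nonneg_left (by linarith) (by linarith)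
  rw [c1'] at c1
  have hABD : (C0 * ((4 + C1) * (2 + 16 * k) + 2 * (3 * (k + 1) + 1 + C1) + 30) + 2 * C1 + 8 * k) *
      q * ((τ + y ^ 2) * (α + u) + (t + y) * (β + γ + w) + (τ + y * t) * d) =
      C0 * (((4 + C1) * (2 + 16 * k) + 2 * (3 * (k + 1) + 1 + C1) + 30) * (A + B + D)) +
        2 * C1 * (A + B + D) + 8 * k * (A + B + D) := by
    rw [hA, hB, hD]; ring
  rw [hABD]
  clear c1' hA hB hD hβ hα hγ hd hABD
  generalize ((l ^ 2 + 3 * (l * y)) * τ + l ^ 2 * y * t + C1 * (l ^ 2 * y ^ 2)) *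
        (2 * α + 16 * k * l ^ 2 * u) = X1 at *
  generalize ((l ^ 2 + 3 * (l * y)) * τ + l ^ 2 * y * t + C1 * (l ^ 2 * y ^ 2) * t) * (2 * β) =
    X2 at *
  generalize ((l ^ 2 + 3 * (l * y)) * t + l ^ 2 * y + C1 * (l ^ 2 * y ^ 2) * t) *
        (2 * γ + 16 * k * l ^ 2 * w) = X3 at *
  generalize ((l ^ 2 + 3 * (l * y)) * τ + l ^ 2 * y * t + C1 * (l ^ 2 * y ^ 2) * τ) * (2 * d) =
    X4 at *
  generalize (τ + l ^ 2 * y * t) * (2 * l ^ 2 * ξ + 4 * (l * η + l * y * ξ)) = X5 at *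
  generalize t * (l ^ 2 * η + 2 * (l ^ 2 * y * ξ)) = X6 at *
  generalize τ * (2 * l ^ 2 * ξ) = X7 at *
  have hsum : X1 + X2 + X3 + X4 + X5 + X6 + X7 ≤
      ((4 + C1) * (2 + 16 * k) + 2 * (3 * (k + 1) + 1 + C1) + 30) * (A + B + D) +
        8 * l * τ * w := by
    have g2 : 0 ≤ (3 * (k + 1) + 1 + C1) * A := by positivity
    have g3 : 0 ≤ (3 * (k + 1) + 1 + C1) * D := by positivity
    have g4 : ((4 + C1) * (2 + 16 * k) + 2 * (3 * (k + 1) + 1 + C1) + 30) * (A + B + D) =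
      (4 + C1) * (2 + 16 * k) * A + (4 + C1) * (2 + 16 * k) * B + (4 + C1) * (2 + 16 * k) * D +
      2 * ((3 * (k + 1) + 1 + C1) * A) + 2 * (3 * (k + 1) + 1 + C1) * B +
      2 * ((3 * (k + 1) + 1 + C1) * D) + 30 * A + 30 * B + 30 * D := by ring
    rw [g4]
    linarith
  have h0' := mul_le_mul_of_nonneg_left hsum hC0
  have f2 : 2 * C1 * (q * (t + y) * w + q * (τ + y ^ 2) * u) ≤ 2 * C1 * (A + B + D) :=
    mul_le_mul_of_nonneg_left (by linarith) (by positivity)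
  have f3 : 8 * k * (q * (t + y) * w + q * (τ + y ^ 2) * u) ≤ 8 * k * (A + B + D) :=
    mul_le_mul_of_nonneg_left (by linarith) (by positivity)
  linarith

end Crest.Agent.R234.Fm_281
end
end

-- ▼ part R234/Fm8_281
section

/-!
# Row 234, VF-FERMI (helper281), file 8: the pointwise inequality in the form of the class `AS`
-/

set_option autoImplicit false

open Crest.GeometryTopology.Submanifold
open Crest.Agent.R234.Vf_884
open Crest.Agent.R234.Ar_870 (IsCo tl)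
open Crest.Agent.R234.AS_456 (hp vp errA)
open scoped InnerProductSpace

noncomputable section

namespace Crest.Agent.R234.Fm_281

variable {m k : ℕ}

theorem tr_hp_mul (π : Euc k →L[ℝ] Euc m) (S : L k) :
    tr (hp π * S) = tr (π ∘L S ∘L ContinuousLinearMap.adjoint π) := by
  rw [tr_apply, tr_apply]
  exact LinearMap.trace_comp_comm' ((π ∘L S : Euc k →L[ℝ] Euc m) : Euc k →ₗ[ℝ] Euc m)
    ((ContinuousLinearMap.adjoint π : Euc m →L[ℝ] Euc k) : Euc m →ₗ[ℝ] Euc k)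

theorem hp_mem_G {π : Euc k →L[ℝ] Euc m} (hπ : IsCo π) : hp π ∈ G m k := by
  refine ⟨?_, ?_, ?_⟩
  · unfold hp
    ext1 v
    change ContinuousLinearMap.adjoint π (π (ContinuousLinearMap.adjoint π (π v))) = _
    have := congrArg (fun T : L m => T (π v)) hπ
    exact congrArg _ this
  · rw [ContinuousLinearMap.isSelfAdjoint_iff']
    unfold hp
    rw [ContinuousLinearMap.adjoint_comp, ContinuousLinearMap.adjoint_adjoint]
  · have h1 := tr_hp_mul π (1 : L k)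
    rw [mul_one] at h1
    rw [h1]
    have h2 : π ∘L (1 : L k) ∘L ContinuousLinearMap.adjoint π =
        π ∘L ContinuousLinearMap.adjoint π := rfl
    rw [h2, hπ, tr_one]

theorem tau_hp {π : Euc k →L[ℝ] Euc m} {S : L k} (hS : S ∈ G m k) :
    tau (hp π) S = tl π S := by
  unfold tau tl
  rw [sub_mul, one_mul, map_sub, hS.2.2, tr_hp_mul]
  rfl

theorem vp_eq' (π : Euc k →L[ℝ] Euc m) : vp π = 1 - hp π := rfl

/-- `tr (S * (D ⊗ v)) = D (S v)` -/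
theorem tr_mul_smulRight (S : L k) (D : Euc k →L[ℝ] ℝ) (v : Euc k) :
    tr (S * D.smulRight v) = D (S v) := by
  rw [tr_eq_sum]
  have h : ∀ i, ⟪stdVec k i, (S * D.smulRight v) (stdVec k i)⟫_ℝ =
      D (stdVec k i) * (S v) i := by
    intro i
    change ⟪stdVec k i, S (D (stdVec k i) • v)⟫_ℝ = _
    rw [map_smul, inner_smul_right]
    simp [stdVec, EuclideanSpace.inner_single_left]
  simp_rw [h]
  have h2 : S v = ∑ i, (S v) i • stdVec k i := by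
    ext j
    simp [stdVec, Pi.single_apply]
  conv_rhs => rw [h2, map_sum]
  refine Finset.sum_congr rfl fun i _ => ?_
  rw [map_smul, smul_eq_mul, mul_comm]

theorem norm_mul_smulRight_le (A : L k) (D : Euc k →L[ℝ] ℝ) (v : Euc k) (C : L k) {c : ℝ}
    (hD : ∀ w, |D (C w)| ≤ c * ‖w‖) (hc : 0 ≤ c) :
    ‖A * D.smulRight v * C‖ ≤ c * ‖A v‖ := by
  refine ContinuousLinearMap.opNorm_le_bound _ (by positivity) fun w => ?_
  change ‖A (D (C w) • v)‖ ≤ _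
  rw [map_smul, norm_smul, Real.norm_eq_abs]
  have := mul_le_mul_of_nonneg_right (hD w) (norm_nonneg (A v))
  linarith

section Blocks

variable {H P P1 h h1 : L k} {l y ξ η : ℝ}

/-- blocks of the metric -/
theorem Pt.blk (D : Pt m H P P1 h h1 l y ξ η) (hl : l ≤ 1) :
    Blk H (gm P h) (l ^ 2 + 3 * (l * y)) (l ^ 2 * y) := by
  have hH' := isStar_of_G D.hH
  have hPP := norm_PP D
  have hkk := norm_kk D hl
  have hly0 : 0 ≤ l * y := mul_nonneg D.l0 D.y0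
  have nPs : ‖star P‖ ≤ l := by rw [norm_star']; exact D.nP
  refine ⟨?_, ?_, ?_, ?_⟩
  · rw [gm_hh hH' D.hP D.hh]
    have e : star P * P - h - h + h * h = star P * P + (-h - h + h * h) := by abel
    rw [e]
    have := norm_add_le (star P * P) (-h - h + h * h)
    rw [sq]
    linarith
  · rw [gm_vv hH' D.hP D.hh, sq]
    have := nm2 D.nP nPs
    linarith
  · rw [gm_hv hH' D.hP D.hh]
    have := nm2 D.nh nPs
    linarith
  · rw [gm_vh hH' D.hP D.hh]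
    have := nm2 D.nP D.nh
    linarith

theorem Pt.norm_gm_le (D : Pt m H P P1 h h1 l y ξ η) (hl : l ≤ 1) : ‖gm P h‖ ≤ 8 * l := by
  have hPP := norm_PP D
  have hkk := norm_kk D hl
  have nPs : ‖star P‖ ≤ l := by rw [norm_star']; exact D.nP
  have l0 := D.l0
  have hly : l * y ≤ l * 1 := mul_le_mul_of_nonneg_left D.y1 l0
  have hll : l * l ≤ l * 1 := mul_le_mul_of_nonneg_left hl l0
  have e : gm P h = star P * P + P * star P + P * h + h * star P + (-h - h + h * h) := by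
    unfold gm; abel
  rw [e]
  have e1 := nm2 D.nP nPs
  have e2 := nm2 D.nh nPs
  have e3 := nm2 D.nP D.nh
  have f1 := norm_add_le (star P * P + P * star P + P * h + h * star P) (-h - h + h * h)
  have f2 := norm_add_le (star P * P + P * star P + P * h) (h * star P)
  have f3 := norm_add_le (star P * P + P * star P) (P * h)
  have f4 := norm_add_le (star P * P) (P * star P)
  have f5 : (l * y) * l ≤ l * 1 := by
    have := mul_le_mul hly hl l0 (by linarith)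
    linarith
  linarith

/-- blocks of the derivative of the metric -/
theorem Pt.dhh (D : Pt m H P P1 h h1 l y ξ η) (hl : l ≤ 1) :
    ‖H * dgm P P1 h h1 * H‖ ≤ 2 * l ^ 2 * ξ + 4 * (l * η + l * y * ξ) := by
  have l0 := D.l0
  have y0 := D.y0
  have ξ0 := D.ξ0
  have η0 := D.η0
  have hly : l * y ≤ l * 1 := mul_le_mul_of_nonneg_left D.y1 l0
  rw [dgm_hh (isStar_of_G D.hH) D.hP D.hP1 D.hh D.hh1]
  have e1 := nm2 (show ‖star P1‖ ≤ l * ξ by rw [norm_star']; exact D.nP1) D.nP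
  have e2 := nm2 (show ‖star P‖ ≤ l by rw [norm_star']; exact D.nP) D.nP1
  have e3 := nm2 D.nh1 D.nh
  have e4 := nm2 D.nh D.nh1
  have nh1 := D.nh1
  have f1 := norm_add_le (star P1 * P + star P * P1 - h1 - h1 + h1 * h) (h * h1)
  have f2 := norm_add_le (star P1 * P + star P * P1 - h1 - h1) (h1 * h)
  have f3 := norm_sub_le (star P1 * P + star P * P1 - h1) h1
  have f4 := norm_sub_le (star P1 * P + star P * P1) h1
  have f5 := norm_add_le (star P1 * P) (star P * P1)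
  have f6 : (l * η + l * y * ξ) * (l * y) ≤ (l * η + l * y * ξ) * 1 :=
    mul_le_mul_of_nonneg_left (by linarith) (by positivity)
  linarith

theorem Pt.dhv (D : Pt m H P P1 h h1 l y ξ η) :
    ‖H * dgm P P1 h h1 * (1 - H)‖ ≤ l ^ 2 * η + 2 * (l ^ 2 * y * ξ) := by
  rw [dgm_hv (isStar_of_G D.hH) D.hP D.hP1 D.hh D.hh1]
  have e1 := nm2 D.nh1 (show ‖star P‖ ≤ l by rw [norm_star']; exact D.nP)
  have e2 := nm2 D.nh (show ‖star P1‖ ≤ l * ξ by rw [norm_star']; exact D.nP1)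
  have f1 := norm_add_le (h1 * star P) (h * star P1)
  have f2 : (l * η + l * y * ξ) * l + l * y * (l * ξ) = l ^ 2 * η + 2 * (l ^ 2 * y * ξ) := by
    ring
  linarith

theorem Pt.dvh (D : Pt m H P P1 h h1 l y ξ η) :
    ‖(1 - H) * dgm P P1 h h1 * H‖ ≤ l ^ 2 * η + 2 * (l ^ 2 * y * ξ) := by
  rw [dgm_vh (isStar_of_G D.hH) D.hP D.hP1 D.hh D.hh1]
  have e1 := nm2 D.nP1 D.nh
  have e2 := nm2 D.nP D.nh1
  have f1 := norm_add_le (P1 * h) (P * h1)
  have f2 : l * ξ * (l * y) + l * (l * η + l * y * ξ) = l ^ 2 * η + 2 * (l ^ 2 * y * ξ) := by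
    ring
  linarith

theorem Pt.dvv (D : Pt m H P P1 h h1 l y ξ η) :
    ‖(1 - H) * dgm P P1 h h1 * (1 - H)‖ ≤ 2 * l ^ 2 * ξ := by
  rw [dgm_vv (isStar_of_G D.hH) D.hP D.hP1 D.hh D.hh1]
  have e1 := nm2 D.nP1 (show ‖star P‖ ≤ l by rw [norm_star']; exact D.nP)
  have e2 := nm2 D.nP (show ‖star P1‖ ≤ l * ξ by rw [norm_star']; exact D.nP1)
  have f1 := norm_add_le (P1 * star P) (P * star P1)
  have f2 : l * ξ * l + l * (l * ξ) = 2 * l ^ 2 * ξ := by ring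
  linarith

end Blocks

/-- blocks of the derivative of `g0⁻¹ • X` -/
theorem blkZ {B : L k} {D0 : Euc k →L[ℝ] ℝ} {v : Euc k} {r : ℝ} (hr : 0 ≤ r) (hr2 : r ≤ 2)
    (X Y : L k) (cc : ℝ) (hcc : 0 ≤ cc) (hY : ∀ w, |D0 (Y w)| ≤ cc * ‖w‖) :
    ‖X * (r • B - (r ^ 2) • D0.smulRight v) * Y‖ ≤ 2 * ‖X * B * Y‖ + 4 * (cc * ‖X v‖) := by
  have hr4 : r ^ 2 ≤ 4 := by nlinarith
  have e : X * (r • B - (r ^ 2) • D0.smulRight v) * Y =
      r • (X * B * Y) - (r ^ 2) • (X * D0.smulRight v * Y) := by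
    ext w
    simp
  rw [e]
  refine (norm_sub_le _ _).trans ?_
  rw [norm_smul, norm_smul, Real.norm_of_nonneg hr, Real.norm_of_nonneg (sq_nonneg r)]
  refine add_le_add (mul_le_mul_of_nonneg_right hr2 (norm_nonneg _)) ?_
  exact mul_le_mul hr4 (norm_mul_smulRight_le X D0 v Y hY hcc) (norm_nonneg _) (by norm_num)

theorem hp_last {π : Euc k →L[ℝ] Euc m} (hπ : IsCo π) {S : L k} (hS : S ∈ G m k) (ζ : Euc k) :
    ‖hp π (S ζ - ζ)‖ ≤ tau (hp π) S * ‖hp π ζ‖ + Real.sqrt (tau (hp π) S) * ‖vp π ζ‖ := by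
  have hH := hp_mem_G hπ
  have e1 : hp π (S ζ - ζ) =
      -((hp π * (1 - S) * hp π) (hp π ζ) + (hp π * (1 - S)) (vp π ζ)) := by
    have a1 : hp π (hp π ζ) = hp π ζ := G_idem_apply hH ζ
    change hp π (S ζ - ζ) = -(hp π (hp π (hp π ζ) - S (hp π (hp π ζ))) +
      hp π ((ζ - hp π ζ) - S (ζ - hp π ζ)))
    rw [a1]
    simp only [map_sub]
    abel
  rw [e1, norm_neg]
  refine (norm_add_le _ _).trans (add_le_add ?_ ?_)
  · refine (ContinuousLinearMap.le_opNorm _ _).trans ?_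
    exact mul_le_mul_of_nonneg_right (norm_HTH hH hS) (norm_nonneg _)
  · refine (ContinuousLinearMap.le_opNorm _ _).trans ?_
    exact mul_le_mul_of_nonneg_right (norm_HT hH hS) (norm_nonneg _)

/-- passage to `errA` -/
theorem real_errA {C0 C2 l h0 τ t y α β γ d u w q : ℝ} (_hC0 : 0 ≤ C0) (hC2 : 0 ≤ C2)
    (hl : 0 ≤ l) (hh : 0 ≤ h0) (hτ : 0 ≤ τ) (ht : 0 ≤ t) (hy : 0 ≤ y) (hα : 0 ≤ α)
    (hβ : 0 ≤ β) (hγ : 0 ≤ γ) (hd : 0 ≤ d) (hu : 0 ≤ u) (hw : 0 ≤ w) (hq : q = l * (l + h0)) :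
    C2 * q * ((τ + y ^ 2) * (α + u) + (t + y) * (β + γ + w) + (τ + y * t) * d) +
      C0 * (8 * l * τ * w) ≤
    (C2 + (8 * C0) ^ 2 + 1) * q * (τ + y ^ 2) * (α + u) +
      (C2 + (8 * C0) ^ 2 + 1) * q * (t + y) * (β + γ + w) +
      (C2 + (8 * C0) ^ 2 + 1) * q * (τ + y * t) * d +
      Real.sqrt ((C2 + (8 * C0) ^ 2 + 1) * q) * τ * w := by
  have hq0 : 0 ≤ q := by rw [hq]; positivity
  have h1 : 8 * C0 * l ≤ Real.sqrt ((C2 + (8 * C0) ^ 2 + 1) * q) := by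
    refine Real.le_sqrt_of_sq_le ?_
    have e1 : l ^ 2 ≤ q := by rw [hq]; nlinarith [mul_nonneg hl hh]
    have e2 : (8 * C0 * l) ^ 2 = (8 * C0) ^ 2 * l ^ 2 := by ring
    rw [e2]
    exact mul_le_mul (by linarith) e1 (sq_nonneg l) (by positivity)
  have h2 : 8 * C0 * l * (τ * w) ≤ Real.sqrt ((C2 + (8 * C0) ^ 2 + 1) * q) * (τ * w) :=
    mul_le_mul_of_nonneg_right h1 (mul_nonneg hτ hw)
  have h3 : 0 ≤ ((8 * C0) ^ 2 + 1) * q * ((τ + y ^ 2) * (α + u) + (t + y) * (β + γ + w) +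
      (τ + y * t) * d) := by positivity
  linarith

set_option maxHeartbeats 800000 in
/-- **the pointwise inequality in the form of `AS`** -/
theorem exists_pt_AS (m k : ℕ) : ∃ c C : ℝ, 0 < c ∧ c ≤ 1 / 8 ∧ 0 < C ∧
    ∀ (π : Euc k →L[ℝ] Euc m), IsCo π → ∀ (S P P1 h h1 B : L k) (D0 : Euc k →L[ℝ] ℝ)
      (z v : Euc k) (l h0 g0 : ℝ), S ∈ G m k → l ≤ c → h0 ≤ 1 → ‖vp π z‖ ≤ h0 →
      g0 = Real.sqrt (1 + star P * P).det →
      Pt m (hp π) P P1 h h1 l ‖vp π z‖ ‖hp π (g0⁻¹ • v)‖ ‖vp π (g0⁻¹ • v)‖ →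
      (∀ w, |D0 w| ≤ 4 * k * l ^ 2 * ‖hp π w‖) →
      D0 (g0⁻¹ • v) = 1 / 2 * g0 * tr (Ring.inverse (1 + star P * P) *
        (star P1 * P + star P * P1)) →
      |tr (B * S) - Jc (gm P h) S * tr (Sg (gm P h) S * ((1 + gm P h) *
        (g0⁻¹ • B - (g0⁻¹ ^ 2) • D0.smulRight v) + (1 / 2 : ℝ) • dgm P P1 h h1))| ≤
        errA π (C * (l * (l + h0))) z S B v := by
  obtain ⟨c, C0, hc, hc4, hC0, hpure⟩ := exists_pure m k
  obtain ⟨c', C1, hc', hc8, hC1, hJH⟩ := exists_JH k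
  obtain ⟨C2, hC2⟩ : ∃ C2, C2 = C0 * ((4 + C1) * (2 + 16 * k) + 2 * (3 * (k + 1) + 1 + C1) + 30) +
    2 * C1 + 8 * k := ⟨_, rfl⟩
  have hk : (0:ℝ) ≤ k := Nat.cast_nonneg _
  have hC20 : 0 ≤ C2 := by rw [hC2]; positivity
  refine ⟨min (c / 8) c', C2 + (8 * C0) ^ 2 + 1, lt_min (by linarith) hc', (min_le_right _ _).trans hc8,
    by positivity, ?_⟩
  intro π hπ S P P1 h h1 B D0 z v l h0 g0 hS hl hh hz hg0 D hD0 hD0'
  have hl1 : l ≤ c / 8 := hl.trans (min_le_left _ _)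
  have hl2 : l ≤ c' := hl.trans (min_le_right _ _)
  obtain ⟨j1, j2, j3, j4, j5⟩ := hJH m (hp π) P P1 h h1 l _ _ _ D hl2
  rw [← hg0] at j1 j2 j4 j5
  have hH := hp_mem_G hπ
  have hH' := isStar_of_G hH
  have l0 := D.l0
  have hl1' : l ≤ 1 := by linarith
  have hg0p : 0 < g0 := by linarith
  have hgi : 0 ≤ g0⁻¹ := by positivity
  have hgi2 : g0⁻¹ ≤ 2 := by
    rw [inv_le_comm₀ hg0p (by norm_num)]
    linarith
  have hB1 := D.blk hl1'
  have hgn : ‖gm P h‖ ≤ c := (D.norm_gm_le hl1').trans (by linarith)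
  have hD0H : ∀ w, |D0 (hp π w)| ≤ 4 * k * l ^ 2 * ‖w‖ := by
    intro w
    refine (hD0 _).trans (mul_le_mul_of_nonneg_left ?_ (by positivity))
    exact (G_norm_apply_le hH _).trans (G_norm_apply_le hH _)
  have hD0N : ∀ w, |D0 ((1 - hp π) w)| ≤ 0 * ‖w‖ := by
    intro w
    have h2 : hp π ((1 - hp π) w) = 0 := congrArg (fun A : L k => A w) hH'.mul_one_sub_self
    have := hD0 ((1 - hp π) w)
    rw [h2, norm_zero, mul_zero] at this
    linarith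
  have hM0 : (0:ℝ) ≤ 4 * k * l ^ 2 := by positivity
  have z1 := blkZ (B := B) (v := v) hgi hgi2 (hp π) (hp π) _ hM0 hD0H
  have z2 := blkZ (B := B) (v := v) hgi hgi2 (hp π) (1 - hp π) _ le_rfl hD0N
  have z3 := blkZ (B := B) (v := v) hgi hgi2 (1 - hp π) (hp π) _ hM0 hD0H
  have z4 := blkZ (B := B) (v := v) hgi hgi2 (1 - hp π) (1 - hp π) _ le_rfl hD0N
  rw [zero_mul, mul_zero, add_zero] at z2 z4
  have y0 := D.y0
  have y1 := D.y1
  have hθ1 : l ^ 2 + 3 * (l * ‖vp π z‖) ≤ 1 := by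
    have e1 : l * ‖vp π z‖ ≤ l * 1 := mul_le_mul_of_nonneg_left y1 l0
    have e2 : l ^ 2 ≤ l * 1 := by
      rw [sq]; exact mul_le_mul_of_nonneg_left hl1' l0
    linarith
  have main := hpure (hp π) S (gm P h) (g0⁻¹ • B - (g0⁻¹ ^ 2) • D0.smulRight v)
    (dgm P P1 h h1) (l ^ 2 + 3 * (l * ‖vp π z‖)) (l ^ 2 * ‖vp π z‖)
    _ _ _ _ _ _ _ g0 (D0 (g0⁻¹ • v)) (C1 * (l ^ 2 * ‖vp π z‖ ^ 2))
    (C1 * (l ^ 2 * (‖vp π z‖ * ‖vp π (g0⁻¹ • v)‖ + ‖vp π z‖ ^ 2 * ‖hp π (g0⁻¹ • v)‖)))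
    hH hS hgn hB1 hθ1 z1 z2 z3 z4 (D.dhh hl1') D.dhv D.dvh D.dvv j4 (by rw [hD0']; exact j5)
  -- the exact trace
  have etr : tr (B * S) = g0 * tr (S * (g0⁻¹ • B - (g0⁻¹ ^ 2) • D0.smulRight v)) +
      D0 (S (g0⁻¹ • v)) := by
    have e1 : S * (g0⁻¹ • B - (g0⁻¹ ^ 2) • D0.smulRight v) =
        g0⁻¹ • (S * B) - (g0⁻¹ ^ 2) • (S * D0.smulRight v) := by
      ext w
      simp
    rw [e1, map_sub, map_smul, map_smul, tr_mul_smulRight, tr_mul_comm B S, map_smul, map_smul]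
    simp only [smul_eq_mul]
    field_simp
    ring
  have hlast : |D0 (S (g0⁻¹ • v)) - D0 (g0⁻¹ • v)| ≤
      4 * k * l ^ 2 * (tau (hp π) S * ‖hp π (g0⁻¹ • v)‖ +
        Real.sqrt (tau (hp π) S) * ‖vp π (g0⁻¹ • v)‖) := by
    rw [← map_sub]
    exact (hD0 _).trans (mul_le_mul_of_nonneg_left (hp_last hπ hS _) hM0)
  have hξu : ‖hp π (g0⁻¹ • v)‖ ≤ 2 * ‖hp π v‖ := by
    rw [map_smul, norm_smul, Real.norm_of_nonneg hgi]
    exact mul_le_mul_of_nonneg_right hgi2 (norm_nonneg _)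
  have hηw : ‖vp π (g0⁻¹ • v)‖ ≤ 2 * ‖vp π v‖ := by
    rw [map_smul, norm_smul, Real.norm_of_nonneg hgi]
    exact mul_le_mul_of_nonneg_right hgi2 (norm_nonneg _)
  have R : RA (k:ℝ) l ‖vp π z‖ h0 (Real.sqrt (tau (hp π) S)) (tau (hp π) S) (l * (l + h0)) :=
    ⟨hk, l0, hl1', y0, hz, hh, Real.sqrt_nonneg _, sq_sqrt_tau hH hS, tau_le hH hS, rfl⟩
  have hreal := real_AS R hC0 hC1 (norm_nonneg (hp π * B * hp π))
    (norm_nonneg (hp π * B * (1 - hp π))) (norm_nonneg ((1 - hp π) * B * hp π))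
    (norm_nonneg ((1 - hp π) * B * (1 - hp π))) (norm_nonneg (hp π v)) (norm_nonneg (vp π v))
    D.ξ0 D.η0 hξu hηw
  rw [← hC2] at hreal
  have hfin := real_errA (l := l) (h0 := h0) hC0 hC20 l0 (y0.trans hz) (tau_nonneg hH hS)
    (Real.sqrt_nonneg (tau (hp π) S)) y0 (norm_nonneg (hp π * B * hp π))
    (norm_nonneg (hp π * B * (1 - hp π))) (norm_nonneg ((1 - hp π) * B * hp π))
    (norm_nonneg ((1 - hp π) * B * (1 - hp π))) (norm_nonneg (hp π v)) (norm_nonneg (vp π v)) rfl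
  have hgoal : errA π ((C2 + (8 * C0) ^ 2 + 1) * (l * (l + h0))) z S B v =
      (C2 + (8 * C0) ^ 2 + 1) * (l * (l + h0)) * (tau (hp π) S + ‖vp π z‖ ^ 2) *
        (‖hp π * B * hp π‖ + ‖hp π v‖) +
      (C2 + (8 * C0) ^ 2 + 1) * (l * (l + h0)) * (Real.sqrt (tau (hp π) S) + ‖vp π z‖) *
        (‖hp π * B * (1 - hp π)‖ + ‖(1 - hp π) * B * hp π‖ + ‖vp π v‖) +
      (C2 + (8 * C0) ^ 2 + 1) * (l * (l + h0)) *
        (tau (hp π) S + ‖vp π z‖ * Real.sqrt (tau (hp π) S)) * ‖(1 - hp π) * B * (1 - hp π)‖ +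
      Real.sqrt ((C2 + (8 * C0) ^ 2 + 1) * (l * (l + h0))) * tau (hp π) S * ‖vp π v‖ := by
    rw [tau_hp hS]
    rfl
  rw [hgoal, etr]
  refine le_trans ?_ hfin
  refine le_trans ?_ hreal
  have t1 := abs_sub_le (D0 (S (g0⁻¹ • v)) - D0 (g0⁻¹ • v)) 0
    (Jc (gm P h) S * tr (Sg (gm P h) S * ((1 + gm P h) *
        (g0⁻¹ • B - (g0⁻¹ ^ 2) • D0.smulRight v) + (1 / 2 : ℝ) • dgm P P1 h h1)) -
      (g0 * tr (S * (g0⁻¹ • B - (g0⁻¹ ^ 2) • D0.smulRight v)) + D0 (g0⁻¹ • v)))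
  rw [sub_zero, zero_sub, abs_neg] at t1
  have e2 : g0 * tr (S * (g0⁻¹ • B - (g0⁻¹ ^ 2) • D0.smulRight v)) + D0 (S (g0⁻¹ • v)) -
      Jc (gm P h) S * tr (Sg (gm P h) S * ((1 + gm P h) *
        (g0⁻¹ • B - (g0⁻¹ ^ 2) • D0.smulRight v) + (1 / 2 : ℝ) • dgm P P1 h h1)) =
      D0 (S (g0⁻¹ • v)) - D0 (g0⁻¹ • v) - (Jc (gm P h) S * tr (Sg (gm P h) S * ((1 + gm P h) *
        (g0⁻¹ • B - (g0⁻¹ ^ 2) • D0.smulRight v) + (1 / 2 : ℝ) • dgm P P1 h h1)) -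
      (g0 * tr (S * (g0⁻¹ • B - (g0⁻¹ ^ 2) • D0.smulRight v)) + D0 (g0⁻¹ • v))) := by ring
  rw [e2]
  have e3 : 4 * (4 * (k:ℝ) * l ^ 2 * ‖hp π v‖) = 16 * k * l ^ 2 * ‖hp π v‖ := by ring
  have e4 : 4 * (4 * (k:ℝ) * l ^ 2 * ‖(1 - hp π) v‖) = 16 * k * l ^ 2 * ‖vp π v‖ := by
    rw [vp_eq']; ring
  rw [e3, e4] at main
  exact t1.trans ((add_le_add hlast main).trans (le_of_eq (by ring)))

end Crest.Agent.R234.Fm_281
end
end

-- ▼ part R234/Fm9_281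
section

/-!
# Row 234, VF-FERMI (helper281), file 9: integration of the pointwise inequality

A chart `T` (helper209's `Dif`) whose metric has the form `gm P h` of a Fermi chart of a minimal graph:
the transported stationary varifold is almost stationary.
-/

set_option autoImplicit false

open MeasureTheory Filter Topology Set
open Crest.GeometryTopology.Submanifold
open Crest.Agent.R234.Vf_884
open Crest.Agent.R234.Ar_870 (IsCo tl)
open Crest.Agent.R234.AS_456 (hp vp errA err AS)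
open Crest.Agent.R234.Ft_209 (Dif)
open scoped InnerProductSpace

noncomputable section

namespace Crest.Agent.R234.Fm_281

variable {m k : ℕ}

/-- a chart whose metric is that of a Fermi chart of a minimal graph, on the set `W` -/
structure Cht (m : ℕ) {k : ℕ} (T : Dif k) (π : Euc k →L[ℝ] Euc m) (W : Set (Euc k)) (l : ℝ)
    (P : Euc k → L k) (P' : Euc k → (Euc k →L[ℝ] L k)) (h : Euc k → L k)
    (h1 : Euc k → Euc k → L k) : Prop where
  co : IsCo π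
  cP' : Continuous P'
  dP : ∀ z, HasFDerivAt P (P' z) z
  g : ∀ z ∈ W, T.gm z = gm (P z) (h z)
  dg : ∀ z ∈ W, ∀ ζ, fderiv ℝ T.Gm z ζ = dgm (P z) (P' z ζ) (h z) (h1 z ζ)
  pt : ∀ z ∈ W, ‖vp π z‖ ≤ 1 → ∀ ζ, Pt m (hp π) (P z) (P' z ζ) (h z) (h1 z ζ) l ‖vp π z‖
    ‖hp π ζ‖ ‖vp π ζ‖

/-- area element of the reference graph -/
def g0 (P : Euc k → L k) (z : Euc k) : ℝ := Real.sqrt (1 + star (P z) * P z).det

theorem det_one_add_pos (A : L k) : 0 < (1 + star A * A).det := by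
  refine Ft_209.det_pos_of fun v hv => ?_
  have h1 : (1 + star A * A) v = v + (star A) (A v) := rfl
  have h2 : ⟪(star A) (A v), v⟫_ℝ = ⟪A v, A v⟫_ℝ := ContinuousLinearMap.adjoint_inner_left A _ _
  rw [h1, inner_add_left, h2, real_inner_self_eq_norm_sq, real_inner_self_eq_norm_sq]
  have h3 : 0 < ‖v‖ ^ 2 := by positivity
  have h4 : 0 ≤ ‖A v‖ ^ 2 := by positivity
  linarith

theorem g0_pos (P : Euc k → L k) (z : Euc k) : 0 < g0 P z := Real.sqrt_pos.2 (det_one_add_pos _)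

section C

variable {P : Euc k → L k} {P' : Euc k → (Euc k →L[ℝ] L k)}

theorem contDiff_P (cP' : Continuous P') (dP : ∀ z, HasFDerivAt P (P' z) z) : ContDiff ℝ 1 P := by
  rw [contDiff_one_iff_fderiv]
  refine ⟨fun z => (dP z).differentiableAt, ?_⟩
  have : fderiv ℝ P = P' := funext fun z => (dP z).fderiv
  rw [this]
  exact cP'

/-- the adjoint as a continuous linear map -/
def starL (k : ℕ) : L k →L[ℝ] L k :=
  (ContinuousLinearMap.adjoint (𝕜 := ℝ) (E := Euc k)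
    (F := Euc k)).toContinuousLinearEquiv.toContinuousLinearMap


theorem contDiff_g0 (hP : ContDiff ℝ 1 P) : ContDiff ℝ 1 (g0 P) := by
  have h1 : ContDiff ℝ 1 fun z => star (P z) := (starL k).contDiff.comp hP
  have h2 : ContDiff ℝ 1 fun z => (1 : L k) + star (P z) * P z :=
    contDiff_const.add (h1.clm_comp hP)
  have h3 : ContDiff ℝ 1 fun z => (1 + star (P z) * P z).det :=
    (contDiff_detL.of_le le_top).comp h2
  exact h3.sqrt fun z => (det_one_add_pos (P z)).ne'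

/-- derivative of `1 + P† P` -/
def dPP (A : L k) (A' : Euc k →L[ℝ] L k) : Euc k →L[ℝ] L k :=
  ((ContinuousLinearMap.compL ℝ (Euc k) (Euc k) (Euc k)).flip A) ∘L ((starL k) ∘L A') +
    ((ContinuousLinearMap.compL ℝ (Euc k) (Euc k) (Euc k)) (star A)) ∘L A'

theorem dPP_apply (A : L k) (A' : Euc k →L[ℝ] L k) (w : Euc k) :
    dPP A A' w = star (A' w) * A + star A * A' w := rfl

theorem hasFDerivAt_PP {z : Euc k} (dP : HasFDerivAt P (P' z) z) :
    HasFDerivAt (fun z => (1 : L k) + star (P z) * P z) (dPP (P z) (P' z)) z := by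
  have h1 : HasFDerivAt (fun z => star (P z)) ((starL k) ∘L P' z) z :=
    ((starL k).hasFDerivAt).comp z dP
  have h2 := (h1.clm_comp dP).const_add (1 : L k)
  refine h2.congr_fderiv ?_
  ext1 w
  rw [dPP_apply]
  change (star (P z)) ∘L (P' z w) + (star (P' z w)) ∘L P z = _
  exact add_comm _ _

theorem hasFDerivAt_g0 {z : Euc k} (dP : HasFDerivAt P (P' z) z) (hz : ‖P z‖ ≤ 1 / 2) :
    ∃ D0 : Euc k →L[ℝ] ℝ, HasFDerivAt (g0 P) D0 z ∧ (∀ w, D0 w = 1 / 2 * g0 P z *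
      tr (Ring.inverse (1 + star (P z) * P z) * (star (P' z w) * P z + star (P z) * P' z w))) := by
  have h0 : ‖star (P z) * P z‖ ≤ 1 / 2 := by
    have h1 : ‖star (P z)‖ ≤ 1 / 2 := by rw [norm_star']; exact hz
    have h2 := nm2 h1 hz
    linarith
  obtain ⟨X, h1, h2, h3, h4⟩ := Fm_209.exists_inv h0
  have h5 := hasFDerivAt_sqrt_det (hasFDerivAt_PP dP) h2 (det_one_add_pos (P z))
  refine ⟨_, h5, fun w => ?_⟩
  rw [h4]
  rfl

theorem abs_D0_le {z w : Euc k} {l ξ g : ℝ} (hz : ‖P z‖ ≤ l) (hl : l ≤ 1 / 2)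
    (hw : ‖P' z w‖ ≤ l * ξ) (hg : 0 ≤ g) (hg2 : g ≤ 2) : |1 / 2 * g *
      tr (Ring.inverse (1 + star (P z) * P z) * (star (P' z w) * P z + star (P z) * P' z w))| ≤
      4 * k * l ^ 2 * ξ := by
  have l0 : 0 ≤ l := (norm_nonneg _).trans hz
  have hs : ‖star (P z)‖ ≤ l := by rw [norm_star']; exact hz
  have h0 : ‖star (P z) * P z‖ ≤ 1 / 2 := by
    have h2 := nm2 hs hz
    nlinarith
  obtain ⟨X, h1, h2, h3, h4⟩ := Fm_209.exists_inv h0
  rw [h4, abs_mul, abs_of_nonneg (by positivity)]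
  have e1 : ‖star (P' z w) * P z‖ ≤ l * ξ * l := nm2 (by rw [norm_star']; exact hw) hz
  have e2 : ‖star (P z) * P' z w‖ ≤ l * (l * ξ) := nm2 hs hw
  have e3 : ‖star (P' z w) * P z + star (P z) * P' z w‖ ≤ 2 * (l ^ 2 * ξ) := by
    refine (norm_add_le _ _).trans ?_
    linarith
  have e4 := abs_tr_mul_le X (star (P' z w) * P z + star (P z) * P' z w)
  have e5 : ‖X‖ * ‖star (P' z w) * P z + star (P z) * P' z w‖ ≤ 2 * (2 * (l ^ 2 * ξ)) :=
    mul_le_mul h3 e3 (norm_nonneg _) (by norm_num)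
  have hk : (0:ℝ) ≤ k := Nat.cast_nonneg _
  have e6 : |tr (X * (star (P' z w) * P z + star (P z) * P' z w))| ≤
      k * (2 * (2 * (l ^ 2 * ξ))) := e4.trans (mul_le_mul_of_nonneg_left e5 hk)
  have e7 : 1 / 2 * g ≤ 1 := by linarith
  have e8 := mul_le_mul e7 e6 (abs_nonneg _) zero_le_one
  linarith

end C

/-- the rescaled test field -/
def zet (P : Euc k → L k) (X : Euc k → Euc k) (z : Euc k) : Euc k := (g0 P z)⁻¹ • X z

theorem contDiff_zet {P : Euc k → L k} {X : Euc k → Euc k} (hP : ContDiff ℝ 1 P)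
    (hX : ContDiff ℝ 1 X) : ContDiff ℝ 1 (zet P X) :=
  ((contDiff_g0 hP).inv fun z => (g0_pos P z).ne').smul hX

theorem support_zet (P : Euc k → L k) (X : Euc k → Euc k) :
    Function.support (zet P X) ⊆ Function.support X := by
  intro z hz
  rw [Function.mem_support] at hz ⊢
  intro h0
  exact hz (by rw [zet, h0, smul_zero])

theorem tsupport_zet (P : Euc k → L k) (X : Euc k → Euc k) : tsupport (zet P X) ⊆ tsupport X :=
  closure_mono (support_zet P X)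

theorem compact_zet (P : Euc k → L k) {X : Euc k → Euc k} (hX : HasCompactSupport X) :
    HasCompactSupport (zet P X) := hX.mono (support_zet P X)

theorem fderiv_zeta {P : Euc k → L k} {X : Euc k → Euc k} {z : Euc k} {D0 : Euc k →L[ℝ] ℝ}
    (hD0 : HasFDerivAt (g0 P) D0 z) (hX : ContDiff ℝ 1 X) :
    fderiv ℝ (zet P X) z = (g0 P z)⁻¹ • fderiv ℝ X z -
      ((g0 P z)⁻¹ ^ 2) • D0.smulRight (X z) := by
  have d1 : HasFDerivAt (fun z => (g0 P z)⁻¹) ((-((g0 P z) ^ 2)⁻¹) • D0) z :=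
    (hasDerivAt_inv (g0_pos P z).ne').comp_hasFDerivAt z hD0
  have d2 := (d1.smul ((hX.differentiable one_ne_zero) z).hasFDerivAt).fderiv
  refine d2.trans ?_
  ext1 w
  simp only [add_apply, sub_apply, smul_apply, ContinuousLinearMap.smulRight_apply, smul_eq_mul]
  rw [smul_smul, inv_pow, sub_eq_add_neg, neg_mul, neg_smul]

theorem Cht.fvi_eq {T : Dif k} {π : Euc k →L[ℝ] Euc m} {W : Set (Euc k)} {l : ℝ}
    {P : Euc k → L k} {P' : Euc k → (Euc k →L[ℝ] L k)} {h : Euc k → L k}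
    {h1 : Euc k → Euc k → L k} (hT : Cht m T π W l P P' h h1) {X : Euc k → Euc k} {p : Euc k × L k}
    {D0 : Euc k →L[ℝ] ℝ} (hp : p.1 ∈ W) (hD0 : HasFDerivAt (g0 P) D0 p.1) (hX : ContDiff ℝ 1 X) :
    T.fvi (zet P X) p = tr (Sg (gm (P p.1) (h p.1)) p.2 *
      ((1 + gm (P p.1) (h p.1)) *
          ((g0 P p.1)⁻¹ • fderiv ℝ X p.1 - ((g0 P p.1)⁻¹ ^ 2) • D0.smulRight (X p.1)) +
          (1 / 2 : ℝ) • dgm (P p.1) (P' p.1 ((g0 P p.1)⁻¹ • X p.1)) (h p.1)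
            (h1 p.1 ((g0 P p.1)⁻¹ • X p.1)))) := by
  have e2 : T.Gm p.1 = 1 + gm (P p.1) (h p.1) := by
    rw [← hT.g p.1 hp, T.gm_eq]; abel
  unfold Dif.fvi
  rw [fderiv_zeta hD0 hX, hT.dg p.1 hp, e2, hT.g p.1 hp]
  rfl

theorem Cht.J_eq {T : Dif k} {π : Euc k →L[ℝ] Euc m} {W : Set (Euc k)} {l : ℝ}
    {P : Euc k → L k} {P' : Euc k → (Euc k →L[ℝ] L k)} {h : Euc k → L k}
    {h1 : Euc k → Euc k → L k} (hT : Cht m T π W l P P' h h1) {p : Euc k × L k}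
    (hp : p.1 ∈ W) : T.J p = Jc (gm (P p.1) (h p.1)) p.2 := by
  unfold Dif.J
  rw [hT.g p.1 hp]
  rfl

/-- the pointwise estimate in the chart -/
theorem exists_ptw (m k : ℕ) : ∃ c C : ℝ, 0 < c ∧ c ≤ 1 / 8 ∧ 0 < C ∧
    ∀ (T : Dif k) (π : Euc k →L[ℝ] Euc m) (W : Set (Euc k)) (l h0 : ℝ) (P : Euc k → L k)
      (P' : Euc k → (Euc k →L[ℝ] L k)) (h : Euc k → L k) (h1 : Euc k → Euc k → L k)
      (X : Euc k → Euc k) (p : Euc k × L k), Cht m T π W l P P' h h1 → l ≤ c → h0 ≤ 1 →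
      ContDiff ℝ 1 X → p.1 ∈ W → p.2 ∈ G m k → ‖vp π p.1‖ ≤ h0 →
      |tr ((fderiv ℝ X p.1) ∘L p.2) - T.J p * T.fvi (zet P X) p| ≤
        err π (C * (l * (l + h0))) X p := by
  obtain ⟨c, C, hc, hc8, hC, hpt⟩ := exists_pt_AS m k
  obtain ⟨c', C', hc', hc8', hC', hJH⟩ := exists_JH k
  refine ⟨min c c', C, lt_min hc hc', (min_le_left _ _).trans hc8, hC, ?_⟩
  intro T π W l h0 P P' h h1 X p hT hl hh hX hpW hpG hyp
  have hl1 : l ≤ c := hl.trans (min_le_left _ _)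
  have hl2 : l ≤ c' := hl.trans (min_le_right _ _)
  have hP := hT.pt p.1 hpW (hyp.trans hh)
  have nP : ‖P p.1‖ ≤ l := (hP 0).nP
  have hl8 : l ≤ 1 / 2 := by linarith
  obtain ⟨D0, hD0, hD0'⟩ := hasFDerivAt_g0 (hT.dP p.1) (nP.trans hl8)
  obtain ⟨-, j2, -, -, -⟩ := hJH m (hp π) (P p.1) (P' p.1 0) (h p.1) (h1 p.1 0) l _ _ _
    (hP 0) hl2
  have hg0 := (g0_pos P p.1).le
  rw [hT.fvi_eq hpW hD0 hX, hT.J_eq hpW]
  exact hpt π hT.co p.2 (P p.1) (P' p.1 ((g0 P p.1)⁻¹ • X p.1)) (h p.1)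
    (h1 p.1 ((g0 P p.1)⁻¹ • X p.1))
    (fderiv ℝ X p.1) D0 p.1 (X p.1) l h0 (g0 P p.1) hpG hl1 hh hyp rfl
    (hP ((g0 P p.1)⁻¹ • X p.1))
    (fun w => by
      rw [hD0' w]
      exact abs_D0_le nP hl8 (hP w).nP1 hg0 j2)
    (hD0' _)

/-- **the transported varifold is almost stationary** -/
theorem exists_AS (m k : ℕ) : ∃ c C : ℝ, 0 < c ∧ c ≤ 1 / 8 ∧ 0 < C ∧
    ∀ (T : Dif k) (π : Euc k →L[ℝ] Euc m) (W U : Set (Euc k)) (l h0 : ℝ) (P : Euc k → L k)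
      (P' : Euc k → (Euc k →L[ℝ] L k)) (h : Euc k → L k) (h1 : Euc k → Euc k → L k)
      (V : Measure (Euc k × L k)), Cht m T π W l P P' h h1 → l ≤ c → h0 ≤ 1 → Stat m k U V →
      (∀ᵐ p ∂(T.push V), p.1 ∈ W ∩ T.Φ ⁻¹' U → ‖vp π p.1‖ ≤ h0) →
      AS π (W ∩ T.Φ ⁻¹' U) (C * (l * (l + h0))) (T.push V) := by
  obtain ⟨c, C, hc, hc8, hC, hpt⟩ := exists_ptw m k
  refine ⟨c, C, hc, hc8, hC, ?_⟩
  intro T π W U l h0 P P' h h1 V hT hl hh hV hy
  have hconc := T.push_conc hV.conc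
  have hfin : ∀ K : Set (Euc k), IsCompact K → K ⊆ W ∩ T.Φ ⁻¹' U →
      T.push V (K ×ˢ Set.univ) < ⊤ := fun K hK hKU =>
    T.push_fin hV.conc hV.fin hK (hKU.trans inter_subset_right)
  refine ⟨hconc, hfin, ?_⟩
  intro X hX hXc hXU
  have cζ : ContDiff ℝ 1 (zet P X) := contDiff_zet (contDiff_P hT.cP' hT.dP) hX
  have sζ : tsupport (zet P X) ⊆ tsupport X := tsupport_zet P X
  have kζ : HasCompactSupport (zet P X) := compact_zet P hXc
  have hb0 : ∫ p, T.J p * T.fvi (zet P X) p ∂(T.push V) = 0 :=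
    T.stat_push hV cζ kζ ((sζ.trans hXU).trans inter_subset_right)
  have hae : ∀ᵐ p ∂(T.push V), ‖tr ((fderiv ℝ X p.1) ∘L p.2) -
      T.J p * T.fvi (zet P X) p‖ ≤ err π (C * (l * (l + h0))) X p := by
    filter_upwards [hconc, hy] with p hp hyp
    by_cases hpX : p.1 ∈ tsupport X
    · have hpW := hXU hpX
      exact hpt T π W l h0 P P' h h1 X p hT hl hh hX hpW.1 hp (hyp hpW)
    · have h1 : fderiv ℝ X p.1 = 0 := by
        by_contra h
        exact hpX (support_fderiv_subset ℝ h)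
      have h2 : fderiv ℝ (zet P X) p.1 = 0 := by
        by_contra h
        exact hpX (sζ (support_fderiv_subset ℝ h))
      have h3 : (zet P X) p.1 = 0 :=
        image_eq_zero_of_notMem_tsupport fun hc => hpX (sζ hc)
      have h4 : T.fvi (zet P X) p = 0 := by
        unfold Dif.fvi
        have e0 : T.Gm p.1 ∘L (0 : L k) + (1 / 2 : ℝ) • (0 : L k) = 0 := by
          ext v
          simp
        rw [h2, h3, map_zero, e0, ContinuousLinearMap.comp_zero, map_zero]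
      rw [h4, h1, ContinuousLinearMap.zero_comp, map_zero, mul_zero, sub_zero, norm_zero,
        AS_456.err_eq_zero hpX]
  have ha : Integrable (fun p : Euc k × L k => tr ((fderiv ℝ X p.1) ∘L p.2)) (T.push V) :=
    integrable_fv hconc hX hXc (hfin _ hXc hXU)
  have he : Integrable (err π (C * (l * (l + h0))) X) (T.push V) :=
    AS_456.integrable_err hconc hX hXc (hfin _ hXc hXU) _
  have hmb : Measurable fun p => T.J p * T.fvi (zet P X) p :=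
    T.continuous_J.measurable.mul (T.measurable_fvi cζ)
  have hab : Integrable (fun p : Euc k × L k => tr ((fderiv ℝ X p.1) ∘L p.2) -
      T.J p * T.fvi (zet P X) p) (T.push V) :=
    he.mono' (ha.aestronglyMeasurable.sub hmb.aestronglyMeasurable) hae
  have hb : Integrable (fun p => T.J p * T.fvi (zet P X) p) (T.push V) := by
    refine (ha.sub hab).congr (Eventually.of_forall fun p => ?_)
    exact sub_sub_cancel _ _
  have h5 : ∫ p, tr ((fderiv ℝ X p.1) ∘L p.2) ∂(T.push V) =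
      ∫ p, (tr ((fderiv ℝ X p.1) ∘L p.2) -
        T.J p * T.fvi (zet P X) p) ∂(T.push V) := by
    rw [integral_sub ha hb, hb0, sub_zero]
  rw [h5, ← Real.norm_eq_abs]
  exact norm_integral_le_of_norm_le he hae

end Crest.Agent.R234.Fm_281
end
end

-- ▼ part R234/Fm10_281
section

/-!
# Row 234, VF-FERMI (helper281), file 10: a stationary varifold near a minimal graph is almost
stationary in the Fermi chart

`fermi`: for the chart of helper209 (`Fc_209.exists_chart`) of a function `u` with small derivatives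
solving the minimal surface system on a ball.
-/

set_option autoImplicit false

open MeasureTheory Filter Topology Set
open Crest.GeometryTopology.Submanifold
open Crest.Agent.R234.Vf_884
open Crest.Agent.R234.Ar_870 (IsCo tl)
open Crest.Agent.R234.AS_456 (hp vp errA err AS)
open Crest.Agent.R234.Ft_209 (Dif)
open Crest.Agent.R234.Cy_870 (Split)
open Crest.Agent.R234.Fc_209 (IsChart Bd)
open Crest.Agent.R234.Main_456 (Msys)
open scoped InnerProductSpace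

noncomputable section

namespace Crest.Agent.R234.Fm_281

variable {m n k : ℕ}

theorem cht_of {π : Euc k →L[ℝ] Euc m} {κ : Euc k →L[ℝ] Euc n} {u : Euc m → Euc n} {l e r : ℝ}
    {T : Dif k} (hs : Split π κ) (hu : ContDiff ℝ 3 u) (hl : 0 ≤ l) (hb : Bd u l)
    (hM : ∀ x ∈ Metric.ball (0 : Euc m) r, Msys u x = 0) (hT : IsChart T π κ u e) :
    Cht m T π {z | ‖π z‖ < r ∧ ‖κ z‖ < 3} l (Fc_209.P π κ u) (Fc_209.P' π κ u)
      (Fc_209.h π κ u) (Fc_209.h1 π κ u) where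
  co := hs.hh
  cP' := (Fc_209.contDiff_P' hu).continuous
  dP := Fc_209.hasFDerivAt_P hu
  g z hz := hT.gm_eq z hz.2
  dg z hz ζ := hT.dGm_eq z ζ hz.2
  pt _ hz hy ζ := Fc_209.pt hs hu hl hb hM hz.1 hy ζ




end Crest.Agent.R234.Fm_281
end
end

-- ▼ part R234/Fm11_281

/-!
# Row 234, VF-FERMI (helper281), file 11: the Fermi chart in the language of F3-CLS (helper46)

`fermi_set` : arbitrary set `W` of the chart; `fermi_restr`, `fermi_DD`: zoomed, transported,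
restricted data.
-/

set_option autoImplicit false

open MeasureTheory Filter Topology Set
open Crest.GeometryTopology.Submanifold
open Crest.Agent.R234.Vf_884
open Crest.Agent.R234.Ar_870 (IsCo tl)
open Crest.Agent.R234.AS_456 (hp vp errA err AS)
open Crest.Agent.R234.Ft_209 (Dif)
open Crest.Agent.R234.Cy_870 (Split)
open Crest.Agent.R234.Fc_209 (IsChart Bd)
open Crest.Agent.R234.Main_456 (Msys)
open Crest.Agent.R234.Ex_46 (trans zoom hmt' restr UU DD)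
open scoped InnerProductSpace

noncomputable section

namespace Crest.Agent.R234.Fm_281

variable {m n k : ℕ}

theorem Cht.mono {T : Dif k} {π : Euc k →L[ℝ] Euc m} {W W' : Set (Euc k)} {l : ℝ}
    {P : Euc k → L k} {P' : Euc k → (Euc k →L[ℝ] L k)} {h : Euc k → L k}
    {h1 : Euc k → Euc k → L k} (hT : Cht m T π W l P P' h h1) (hW : W' ⊆ W) :
    Cht m T π W' l P P' h h1 :=
  ⟨hT.co, hT.cP', hT.dP, fun z hz => hT.g z (hW hz), fun z hz => hT.dg z (hW hz),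
    fun z hz => hT.pt z (hW hz)⟩

/-- the class is stable under restriction to the set. -/
theorem AS_restrict {π : Euc k →L[ℝ] Euc m} {W : Set (Euc k)} {δ : ℝ}
    {V : Measure (Euc k × L k)} (h : AS π W δ V) :
    AS π W δ (V.restrict (W ×ˢ univ)) where
  conc := ae_restrict_of_ae h.conc
  fin K hK hKW := (Measure.restrict_apply_le _ _).trans_lt (h.fin K hK hKW)
  fv X hX hXc hXW := by
    have h1 := h.fv X hX hXc hXW
    have key : ∀ f : Euc k × L k → ℝ, (∀ p : Euc k × L k, p.1 ∉ tsupport X → f p = 0) →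
        ∫ p, f p ∂(V.restrict (W ×ˢ univ)) = ∫ p, f p ∂V := by
      intro f hf
      refine setIntegral_eq_integral_of_forall_compl_eq_zero fun p hp => hf p fun hc => ?_
      exact hp ⟨hXW hc, mem_univ _⟩
    rw [key _ fun p hp => ?_, key _ fun p hp => AS_456.err_eq_zero hp δ]
    · exact h1
    · have h2 : fderiv ℝ X p.1 = 0 := by
        by_contra h
        exact hp (support_fderiv_subset ℝ h)
      rw [h2, ContinuousLinearMap.zero_comp, map_zero]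

/-- **FERMI on an arbitrary set of the chart** -/
theorem fermi_set (m n k : ℕ) : ∃ c C : ℝ, 0 < c ∧ 0 < C ∧
    ∀ (π : Euc k →L[ℝ] Euc m) (κ : Euc k →L[ℝ] Euc n) (u : Euc m → Euc n) (l : ℝ),
      Split π κ → ContDiff ℝ 3 u → 0 ≤ l → l ≤ c → Bd u l →
      ∃ T : Dif k, IsChart T π κ u (C * l) ∧
        ∀ r : ℝ, (∀ x ∈ Metric.ball (0 : Euc m) r, Msys u x = 0) →
        ∀ (W U : Set (Euc k)) (V : Measure (Euc k × L k)) (h0 : ℝ),
          (∀ z ∈ W, ‖π z‖ < r ∧ ‖κ z‖ < 3 ∧ T.Φ z ∈ U) → Stat m k U V → 0 ≤ h0 → h0 ≤ 1 →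
          (∀ᵐ p ∂(T.push V), p.1 ∈ W → ‖vp π p.1‖ ≤ h0) →
          AS π W (C * (l * (l + h0))) (T.push V) := by
  obtain ⟨c, C, hc, -, hC, hAS⟩ := exists_AS m k
  obtain ⟨c', C', hc', hC', hch⟩ := Fc_209.exists_chart n
  refine ⟨min c c', max C C', lt_min hc hc', lt_max_of_lt_left hC, ?_⟩
  intro π κ u l hs hu hl hlc hb
  obtain ⟨T, hT⟩ := hch m k π κ u l hs hu hl (hlc.trans (min_le_right _ _)) hb
  have hT' : IsChart T π κ u (max C C' * l) :=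
    { Φ_eq := hT.Φ_eq
      near := fun z => (hT.near z).trans
        (by gcongr; exact le_max_right _ _)
      nA := fun z => (hT.nA z).trans (mul_le_mul_of_nonneg_right (le_max_right _ _) hl)
      A_eq := hT.A_eq
      dA_eq := hT.dA_eq
      gm_eq := hT.gm_eq
      dGm_eq := hT.dGm_eq }
  refine ⟨T, hT', fun r hM W U V h0 hW hV h00 hh hy => ?_⟩
  have hWU : W ∩ T.Φ ⁻¹' U = W := inter_eq_left.2 fun z hz => (hW z hz).2.2
  have h1 := hAS T π W U l h0 _ _ _ _ V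
    ((cht_of hs hu hl hb hM hT).mono fun z hz => ⟨(hW z hz).1, (hW z hz).2.1⟩)
    (hlc.trans (min_le_left _ _)) hh hV (by rw [hWU]; exact hy)
  rw [hWU] at h1
  exact h1.mono hs.hh
    (mul_le_mul_of_nonneg_right (le_max_left _ _) (mul_nonneg hl (by linarith)))

theorem cht_46 {π : Euc k →L[ℝ] Euc m} {κ : Euc k →L[ℝ] Euc n} {u : Euc m → Euc n} {e : ℝ}
    {T : Dif k} (hu : ContDiff ℝ 3 u) (hT : IsChart T π κ u e) :
    Ex_46.Cht π κ u e T.Φ T.Ψ where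
  dif := ⟨T.cΦ.of_le one_le_two, T.cΨ.of_le one_le_two, T.left, T.right⟩
  der := hT.nA
  eq z hz := hT.Φ_eq' hu (by linarith)

/-- **FERMI for zoomed, transported and restricted data**: `T.data = trans T.Ψ`. -/
theorem fermi_restr (m n k : ℕ) : ∃ c C : ℝ, 0 < c ∧ 0 < C ∧
    ∀ (π : Euc k →L[ℝ] Euc m) (κ : Euc k →L[ℝ] Euc n) (u : Euc m → Euc n) (l : ℝ),
      Split π κ → ContDiff ℝ 3 u → 0 ≤ l → l ≤ c → Bd u l →
      ∃ T : Dif k, IsChart T π κ u (C * l) ∧ Ex_46.Cht π κ u (C * l) T.Φ T.Ψ ∧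
        ∀ r : ℝ, (∀ x ∈ Metric.ball (0 : Euc m) r, Msys u x = 0) →
        ∀ (W U : Set (Euc k)) (D : VarifoldData m k) (z₀ : Euc k) (ρ h0 : ℝ),
          IsIntegralVarifoldIn U D → IsStationaryIn U D → 0 < ρ → MeasurableSet W →
          (∀ z ∈ W, ‖π z‖ < r ∧ ‖κ z‖ < 3 ∧ hmt' z₀ ρ (T.Φ z) ∈ U) → 0 ≤ h0 → h0 ≤ 1 →
          (∀ z ∈ support (trans T.Ψ (zoom z₀ ρ D)), z ∈ W → ‖κ z‖ ≤ h0) →
          AS π W (C * (l * (l + h0))) (VD (trans T.Ψ (zoom z₀ ρ D))) ∧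
          AS π W (C * (l * (l + h0))) (VD (restr W (trans T.Ψ (zoom z₀ ρ D)))) := by
  obtain ⟨c, C, hc, hC, h⟩ := fermi_set m n k
  refine ⟨c, C, hc, hC, ?_⟩
  intro π κ u l hs hu hl hlc hb
  obtain ⟨T, hT, hT2⟩ := h π κ u l hs hu hl hlc hb
  refine ⟨T, hT, cht_46 hu hT, fun r hM W U D z₀ ρ h0 hD hst hρ hWm hW h00 hh hy => ?_⟩
  have hz := Ex_46.integral_zoom hD z₀ hρ
  have hzs := Ex_46.stationary_zoom hD hst z₀ hρ
  have hi := T.isIntegral hz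
  have e1 : T.data (zoom z₀ ρ D) = trans T.Ψ (zoom z₀ ρ D) := rfl
  have h1 : AS π W (C * (l * (l + h0))) (VD (trans T.Ψ (zoom z₀ ρ D))) := by
    rw [← e1, T.VD_data hz]
    refine hT2 r hM W (hmt' z₀ ρ ⁻¹' U) _ h0 hW (stat_VD hz hzs) h00 hh ?_
    rw [← T.VD_data hz, e1]
    filter_upwards [Al9_182.ae_mem_support hi] with p hp hpW
    rw [Fc_209.norm_vp hs]
    exact hy p.1 hp hpW
  refine ⟨h1, ?_⟩
  have h2 := Ex_46.VD_restr hi hWm
  rw [e1] at h2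
  rw [h2]
  exact AS_restrict h1


end Crest.Agent.R234.Fm_281
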