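import Crest.Agent.R234.Fm1_209

-- ▼ part R234/Fm1_281
section

/-!
# Row 234, VF-FERMI (helper281), file 1: operator algebra

Two orthogonal projections `H` (horizontal) and `S` (tangent plane) of `ℝ^k` and the tilt
`tau H S = tr ((1 - H) * S)`: bounds of all blocks.
-/

set_option autoImplicit false

open Crest.GeometryTopology.Submanifold
open Crest.Agent.R234.Vf_884
open scoped InnerProductSpace

noncomputable section

namespace Crest.Agent.R234.Fm_281

variable {m k : ℕ}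

theorem tr_mul_comm (A B : L k) : tr (A * B) = tr (B * A) := tr_comm A B

theorem abs_tr_le (A : L k) : |tr A| ≤ k * ‖A‖ := by
  rw [tr_eq_sum]
  refine (Finset.abs_sum_le_sum_abs _ _).trans ?_
  have h : ∀ i ∈ (Finset.univ : Finset (Fin k)), |⟪stdVec k i, A (stdVec k i)⟫_ℝ| ≤ ‖A‖ := by
    intro i _
    have h1 : ‖stdVec k i‖ = 1 := by simp [stdVec]
    calc |⟪stdVec k i, A (stdVec k i)⟫_ℝ| ≤ ‖stdVec k i‖ * ‖A (stdVec k i)‖ :=
          abs_real_inner_le_norm _ _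
      _ ≤ 1 * (‖A‖ * 1) := by
          rw [h1]
          refine mul_le_mul_of_nonneg_left ?_ zero_le_one
          exact (A.le_opNorm _).trans (by rw [h1])
      _ = ‖A‖ := by ring
  refine (Finset.sum_le_sum h).trans ?_
  simp

theorem abs_tr_mul_le (A B : L k) : |tr (A * B)| ≤ k * (‖A‖ * ‖B‖) :=
  (abs_tr_le _).trans (mul_le_mul_of_nonneg_left (norm_mul_le A B) (Nat.cast_nonneg _))

theorem star_def (A : L k) : star A = ContinuousLinearMap.adjoint A := rfl

/-- the operator norm is bounded by the Hilbert-Schmidt norm -/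
theorem norm_sq_le_tr (B : L k) : ‖B‖ ^ 2 ≤ tr (star B * B) := by
  have h0 : tr (star B * B) = ∑ i, ‖B (stdVec k i)‖ ^ 2 := by
    rw [tr_eq_sum]
    refine Finset.sum_congr rfl fun i _ => ?_
    rw [← real_inner_self_eq_norm_sq]
    exact ContinuousLinearMap.adjoint_inner_right B _ _
  have hs : 0 ≤ tr (star B * B) := by
    rw [h0]; exact Finset.sum_nonneg fun i _ => sq_nonneg _
  have h1 : ‖B‖ ≤ Real.sqrt (tr (star B * B)) := by
    refine ContinuousLinearMap.opNorm_le_bound _ (Real.sqrt_nonneg _) fun x => ?_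
    have hx : x = ∑ i, x i • stdVec k i := by
      ext j
      simp [stdVec, Pi.single_apply]
    have h2 : ‖B x‖ ≤ ∑ i, |x i| * ‖B (stdVec k i)‖ := by
      conv_lhs => rw [hx, map_sum]
      refine (norm_sum_le _ _).trans (Finset.sum_le_sum fun i _ => ?_)
      rw [map_smul, norm_smul, Real.norm_eq_abs]
    have h3 : (∑ i, |x i| * ‖B (stdVec k i)‖) ^ 2 ≤
        (∑ i, |x i| ^ 2) * ∑ i, ‖B (stdVec k i)‖ ^ 2 := Finset.sum_mul_sq_le_sq_mul_sq _ _ _
    have h4 : ∑ i, |x i| ^ 2 = ‖x‖ ^ 2 := by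
      rw [EuclideanSpace.norm_sq_eq]
      exact Finset.sum_congr rfl fun i _ => by rw [Real.norm_eq_abs]
    refine h2.trans ?_
    rw [h4, ← h0] at h3
    refine (Real.le_sqrt (Finset.sum_nonneg fun i _ => mul_nonneg (abs_nonneg _)
      (norm_nonneg _)) ?_).2 h3 |>.trans ?_
    · exact mul_nonneg (sq_nonneg _) hs
    · rw [Real.sqrt_mul (sq_nonneg _), Real.sqrt_sq (norm_nonneg _), mul_comm]
  calc ‖B‖ ^ 2 ≤ Real.sqrt (tr (star B * B)) ^ 2 := by
        exact pow_le_pow_left₀ (norm_nonneg _) h1 2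
    _ = _ := Real.sq_sqrt hs

theorem norm_mul_sq_le {P Q : L k} (hP : IsStarProjection P) (hQ : IsStarProjection Q) :
    ‖P * Q‖ ^ 2 ≤ tr (P * Q) := by
  refine (norm_sq_le_tr _).trans (le_of_eq ?_)
  rw [star_mul, hP.2.star_eq, hQ.2.star_eq, mul_assoc, ← mul_assoc P P, hP.1.eq, tr_mul_comm,
    mul_assoc, hQ.1.eq]

theorem isStar_of_G {P : L k} (h : P ∈ G m k) : IsStarProjection P := ⟨h.1, h.2.1⟩

/-- the tilt of `S` against `H` -/
def tau (H S : L k) : ℝ := tr ((1 - H) * S)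


section Two

variable {H S : L k}

theorem tau_eq (hH : H ∈ G m k) (hS : S ∈ G m k) : tau H S = tr (H * (1 - S)) := by
  unfold tau
  rw [sub_mul, one_mul, mul_sub, mul_one, map_sub, map_sub, hH.2.2, hS.2.2]

theorem tau_nonneg (hH : H ∈ G m k) (hS : S ∈ G m k) : 0 ≤ tau H S :=
  (sq_nonneg _).trans (norm_mul_sq_le (isStar_of_G hH).one_sub (isStar_of_G hS))

theorem le_sqrt_of_sq_le {a b : ℝ} (h : a ^ 2 ≤ b) : a ≤ Real.sqrt b := Real.le_sqrt_of_sq_le h

theorem norm_NS (hH : H ∈ G m k) (hS : S ∈ G m k) : ‖(1 - H) * S‖ ≤ Real.sqrt (tau H S) :=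
  le_sqrt_of_sq_le (norm_mul_sq_le (isStar_of_G hH).one_sub (isStar_of_G hS))

theorem norm_SN (hH : H ∈ G m k) (hS : S ∈ G m k) : ‖S * (1 - H)‖ ≤ Real.sqrt (tau H S) := by
  refine le_sqrt_of_sq_le ((norm_mul_sq_le (isStar_of_G hS) (isStar_of_G hH).one_sub).trans ?_)
  rw [tr_mul_comm]; rfl

theorem norm_HT (hH : H ∈ G m k) (hS : S ∈ G m k) : ‖H * (1 - S)‖ ≤ Real.sqrt (tau H S) := by
  refine le_sqrt_of_sq_le ((norm_mul_sq_le (isStar_of_G hH) (isStar_of_G hS).one_sub).trans ?_)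
  rw [← tau_eq hH hS]

theorem norm_TH (hH : H ∈ G m k) (hS : S ∈ G m k) : ‖(1 - S) * H‖ ≤ Real.sqrt (tau H S) := by
  refine le_sqrt_of_sq_le ((norm_mul_sq_le (isStar_of_G hS).one_sub (isStar_of_G hH)).trans ?_)
  rw [tr_mul_comm, ← tau_eq hH hS]

theorem norm_one_sub_le {P : L k} (hP : IsStarProjection P) : ‖1 - P‖ ≤ 1 := hP.one_sub.norm_le

theorem sq_sqrt_tau (hH : H ∈ G m k) (hS : S ∈ G m k) :
    Real.sqrt (tau H S) * Real.sqrt (tau H S) = tau H S := Real.mul_self_sqrt (tau_nonneg hH hS)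

theorem norm_NSN (hH : H ∈ G m k) (hS : S ∈ G m k) : ‖(1 - H) * S * (1 - H)‖ ≤ tau H S := by
  have h1 : (1 - H) * S * (1 - H) = ((1 - H) * S) * (S * (1 - H)) := by
    have h2 : S * S = S := hS.1
    rw [mul_assoc ((1 - H)) S (S * (1 - H)), ← mul_assoc S S, h2, mul_assoc]
  rw [h1]
  refine (norm_mul_le _ _).trans ?_
  rw [← sq_sqrt_tau hH hS]
  exact mul_le_mul (norm_NS hH hS) (norm_SN hH hS) (norm_nonneg _) (Real.sqrt_nonneg _)

theorem norm_HTH (hH : H ∈ G m k) (hS : S ∈ G m k) : ‖H * (1 - S) * H‖ ≤ tau H S := by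
  have h1 : H * (1 - S) * H = (H * (1 - S)) * ((1 - S) * H) := by
    have h2 : (1 - S) * (1 - S) = 1 - S := (isStar_of_G hS).one_sub.1
    rw [mul_assoc H (1 - S) ((1 - S) * H), ← mul_assoc (1 - S) (1 - S), h2, mul_assoc]
  rw [h1]
  refine (norm_mul_le _ _).trans ?_
  rw [← sq_sqrt_tau hH hS]
  exact mul_le_mul (norm_HT hH hS) (norm_TH hH hS) (norm_nonneg _) (Real.sqrt_nonneg _)

theorem tau_le (hH : H ∈ G m k) (hS : S ∈ G m k) : tau H S ≤ k := by
  have h1 := abs_tr_mul_le (1 - H) S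
  have h2 : ‖1 - H‖ * ‖S‖ ≤ 1 * 1 := mul_le_mul (norm_one_sub_le (isStar_of_G hH))
    (G_norm_le hS) (norm_nonneg _) zero_le_one
  have h3 := le_abs_self (tr ((1 - H) * S))
  have hk : (0:ℝ) ≤ k := Nat.cast_nonneg _
  unfold tau
  nlinarith

end Two

/-- trace of a product in blocks -/
theorem tr_blocks {H : L k} (hH : IsStarProjection H) (A B : L k) :
    tr (A * B) = tr ((H * A * H) * (H * B * H)) + tr ((H * A * (1 - H)) * ((1 - H) * B * H)) +
      tr (((1 - H) * A * H) * (H * B * (1 - H))) +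
      tr (((1 - H) * A * (1 - H)) * ((1 - H) * B * (1 - H))) := by
  have h1 : H * H = H := hH.1
  have h2 : (1 - H) * (1 - H) = 1 - H := hH.one_sub.1
  have key : ∀ X Y A B : L k, X * X = X → Y * Y = Y →
      tr ((X * A * Y) * (Y * B * X)) = tr (X * A * Y * B) := by
    intro X Y A B hX hY
    have e1 : (X * A * Y) * (Y * B * X) = X * (A * (Y * Y) * B * X) := by noncomm_ring
    have e2 : X * A * Y * B = X * (A * Y * B) := by noncomm_ring
    rw [e1, tr_mul_comm, hY, e2, tr_mul_comm X (A * Y * B)]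
    congr 1
    rw [mul_assoc, hX]
  rw [key _ _ _ _ h1 h1, key _ _ _ _ h1 h2, key _ _ _ _ h2 h1, key _ _ _ _ h2 h2,
    ← map_add, ← map_add, ← map_add]
  congr 1
  simp only [mul_sub, sub_mul, mul_one, one_mul, mul_assoc]
  abel

theorem abs_tr_blocks_le {H : L k} (hH : IsStarProjection H) (A B : L k)
    {a₁ a₂ a₃ a₄ b₁ b₂ b₃ b₄ : ℝ} (ha₁ : ‖H * A * H‖ ≤ a₁) (ha₂ : ‖H * A * (1 - H)‖ ≤ a₂)
    (ha₃ : ‖(1 - H) * A * H‖ ≤ a₃) (ha₄ : ‖(1 - H) * A * (1 - H)‖ ≤ a₄)
    (hb₁ : ‖H * B * H‖ ≤ b₁) (hb₂ : ‖H * B * (1 - H)‖ ≤ b₂)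
    (hb₃ : ‖(1 - H) * B * H‖ ≤ b₃) (hb₄ : ‖(1 - H) * B * (1 - H)‖ ≤ b₄) :
    |tr (A * B)| ≤ k * (a₁ * b₁ + a₂ * b₃ + a₃ * b₂ + a₄ * b₄) := by
  have hk : (0:ℝ) ≤ k := Nat.cast_nonneg _
  have key : ∀ (X Y : L k) (a b : ℝ), ‖X‖ ≤ a → ‖Y‖ ≤ b → |tr (X * Y)| ≤ k * (a * b) := by
    intro X Y a b hX hY
    exact (abs_tr_mul_le X Y).trans (mul_le_mul_of_nonneg_left (mul_le_mul hX hY (norm_nonneg _)
      ((norm_nonneg _).trans hX)) hk)
  rw [tr_blocks hH]
  have e1 := key _ _ _ _ ha₁ hb₁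
  have e2 := key _ _ _ _ ha₂ hb₃
  have e3 := key _ _ _ _ ha₃ hb₂
  have e4 := key _ _ _ _ ha₄ hb₄
  have t1 := abs_add_le (tr ((H * A * H) * (H * B * H)) +
    tr ((H * A * (1 - H)) * ((1 - H) * B * H)) + tr (((1 - H) * A * H) * (H * B * (1 - H))))
    (tr (((1 - H) * A * (1 - H)) * ((1 - H) * B * (1 - H))))
  have t2 := abs_add_le (tr ((H * A * H) * (H * B * H)) +
    tr ((H * A * (1 - H)) * ((1 - H) * B * H))) (tr (((1 - H) * A * H) * (H * B * (1 - H))))
  have t3 := abs_add_le (tr ((H * A * H) * (H * B * H)))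
    (tr ((H * A * (1 - H)) * ((1 - H) * B * H)))
  linarith

end Crest.Agent.R234.Fm_281
end
end

-- ▼ part R234/Fm2_281
section

/-!
# Row 234, VF-FERMI (helper281), file 2: first variation in a metric `1 + g`

For every orthogonal projection `S` of rank `m` and every operator `g` near `0`:
`Sg g S = S (1 + S g S)⁻¹ S`, `Jc g S = √det (1 + S g S)`. The density of the first variation in the
metric `G = 1 + g` along a field with derivative `Z` and with `G' = D_ζ G` is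
`Jc g S * tr (Sg g S * ((1 + g) * Z + (1/2) • G'))`. It is compared with its value for `S = H`.
-/

set_option autoImplicit false

open Crest.GeometryTopology.Submanifold
open Crest.Agent.R234.Vf_884
open scoped InnerProductSpace

noncomputable section

namespace Crest.Agent.R234.Fm_281

variable {m k : ℕ}

/-- expansion in a noncommutative ring -/
local macro "nr" : tactic => `(tactic| (simp only [mul_sub, sub_mul, mul_add, add_mul, mul_one,
  one_mul, mul_assoc, mul_neg, neg_mul] <;> abel))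

/-- area factor -/
def Jc (g S : L k) : ℝ := Real.sqrt (1 + S * (g * S)).det

/-- `S (1 + S g S)⁻¹ S` -/
def Sg (g S : L k) : L k := S * (Ring.inverse (1 + S * (g * S)) * S)

theorem nm2 {A B : L k} {a b : ℝ} (hA : ‖A‖ ≤ a) (hB : ‖B‖ ≤ b) : ‖A * B‖ ≤ a * b :=
  (norm_mul_le A B).trans (mul_le_mul hA hB (norm_nonneg _) ((norm_nonneg _).trans hA))

theorem nm3 {A B C : L k} {a b c : ℝ} (hA : ‖A‖ ≤ a) (hB : ‖B‖ ≤ b) (hC : ‖C‖ ≤ c) :
    ‖A * B * C‖ ≤ a * b * c := nm2 (nm2 hA hB) hC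

theorem norm_conj_le {S g : L k} (hS : IsStarProjection S) : ‖S * (g * S)‖ ≤ ‖g‖ := by
  have h := nm2 hS.norm_le (nm2 (le_refl ‖g‖) hS.norm_le)
  linarith

/-- the algebra of `Sg` -/
theorem exists_Sg {S g : L k} (hS : IsStarProjection S) (hg : ‖g‖ ≤ 1 / 2) :
    ∃ X : L k, X * (1 + S * (g * S)) = 1 ∧ (1 + S * (g * S)) * X = 1 ∧ ‖X‖ ≤ 2 ∧
      Sg g S = X * S ∧ Sg g S = S * X ∧ Sg g S = S - S * g * Sg g S ∧
      Sg g S = S - Sg g S * g * S := by
  obtain ⟨X, h1, h2, h3, h4⟩ := Fm_209.exists_inv (A := S * (g * S)) ((norm_conj_le hS).trans hg)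
  have hSS : S * S = S := hS.1
  have hcomm : X * S = S * X := by
    have e1 : (1 + S * (g * S)) * S = S * (1 + S * (g * S)) := by
      have a1 : (1 + S * (g * S)) * S = S + S * g * (S * S) := by nr
      have a2 : S * (1 + S * (g * S)) = S + (S * S) * g * S := by nr
      rw [a1, a2, hSS]
    calc X * S = X * S * ((1 + S * (g * S)) * X) := by rw [h2, mul_one]
      _ = X * (S * (1 + S * (g * S))) * X := by nr
      _ = X * ((1 + S * (g * S)) * S) * X := by rw [e1]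
      _ = (X * (1 + S * (g * S))) * S * X := by nr
      _ = S * X := by rw [h1, one_mul]
  have hs1 : Sg g S = X * S := by
    unfold Sg
    rw [h4, hcomm, ← mul_assoc, hSS]
  have hs2 : Sg g S = S * X := by rw [hs1, hcomm]
  refine ⟨X, h1, h2, h3, hs1, hs2, ?_, ?_⟩
  · have e : S = (1 + S * (g * S)) * X * S := by rw [h2, one_mul]
    have e2 : (1 + S * (g * S)) * X * S = X * S + S * g * (S * X) * S := by nr
    have e3 : S * X * S = X * S := by rw [← hcomm, mul_assoc, hSS]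
    rw [eq_sub_iff_add_eq, hs1]
    conv_rhs => rw [e, e2]
    congr 1
    rw [mul_assoc (S * g) (S * X) S, e3]
  · have e : S = S * (X * (1 + S * (g * S))) := by rw [h1, mul_one]
    have e2 : S * (X * (1 + S * (g * S))) = S * X + (S * X * S) * g * S := by nr
    have e3 : S * X * S = S * X := by rw [mul_assoc, hcomm, ← mul_assoc, hSS]
    rw [eq_sub_iff_add_eq, hs2]
    conv_rhs => rw [e, e2, e3]

theorem norm_Sg_le {S g : L k} (hS : IsStarProjection S) (hg : ‖g‖ ≤ 1 / 2) : ‖Sg g S‖ ≤ 2 := by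
  obtain ⟨X, -, -, h3, h4, -, -, -⟩ := exists_Sg hS hg
  rw [h4]
  have := nm2 h3 hS.norm_le
  linarith

theorem Sg_left {S g : L k} (hS : IsStarProjection S) : S * Sg g S = Sg g S := by
  unfold Sg
  rw [← mul_assoc, hS.1.eq]

theorem Sg_right {S g : L k} (hS : IsStarProjection S) : Sg g S * S = Sg g S := by
  unfold Sg
  rw [mul_assoc, mul_assoc, hS.1.eq]

/-- `D = R - S`, `R = Sg g S * (1 + g)` the `G`-orthogonal projection -/
def Dg (g S : L k) : L k := Sg g S * g * (1 - S)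

theorem Sg_mul_eq {S g : L k} (hS : IsStarProjection S) (hg : ‖g‖ ≤ 1 / 2) :
    Sg g S * (1 + g) = S + Dg g S := by
  obtain ⟨X, -, -, -, -, -, -, h⟩ := exists_Sg hS hg
  unfold Dg
  have e : Sg g S * (1 + g) = Sg g S + Sg g S * g := by nr
  have e2 : S + Sg g S * g * (1 - S) = S - Sg g S * g * S + Sg g S * g := by nr
  rw [e, e2, ← h]

/-- bounds of the blocks of `g` -/
structure Blk (H g : L k) (θ o : ℝ) : Prop where
  hh : ‖H * g * H‖ ≤ θ
  vv : ‖(1 - H) * g * (1 - H)‖ ≤ θ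
  hv : ‖H * g * (1 - H)‖ ≤ o
  vh : ‖(1 - H) * g * H‖ ≤ o

section Main

variable {H S g : L k} {θ o : ℝ}

theorem Blk.θ_nonneg (h : Blk H g θ o) : 0 ≤ θ := (norm_nonneg _).trans h.hh

theorem Blk.o_nonneg (h : Blk H g θ o) : 0 ≤ o := (norm_nonneg _).trans h.hv

theorem split4 (hH : IsStarProjection H) (A g B : L k) :
    A * g * B = (A * H) * (H * g * H) * (H * B) +
      (A * H) * (H * g * (1 - H)) * ((1 - H) * B) +
      (A * (1 - H)) * ((1 - H) * g * H) * (H * B) +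
      (A * (1 - H)) * ((1 - H) * g * (1 - H)) * ((1 - H) * B) := by
  have h1 : H * H = H := hH.1
  have h2 : (1 - H) * (1 - H) = 1 - H := hH.one_sub.1
  have key : ∀ X Y : L k, X * X = X → Y * Y = Y →
      (A * X) * (X * g * Y) * (Y * B) = A * X * g * Y * B := by
    intro X Y hX hY
    have e1 : (A * X) * (X * g * Y) * (Y * B) = A * (X * X) * g * (Y * Y) * B := by nr
    rw [e1, hX, hY]
  rw [key _ _ h1 h1, key _ _ h1 h2, key _ _ h2 h1, key _ _ h2 h2]
  simp only [mul_sub, sub_mul, mul_one, mul_assoc]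
  abel

/-- the off-diagonal part of `g` with respect to `S` -/
theorem norm_SgT_le (hH : H ∈ G m k) (hS : S ∈ G m k) (hb : Blk H g θ o) :
    ‖S * g * (1 - S)‖ ≤ 2 * (θ * Real.sqrt (tau H S) + o) := by
  have hH' := isStar_of_G hH
  have hS' := isStar_of_G hS
  rw [split4 hH' S g (1 - S)]
  set t := Real.sqrt (tau H S) with ht
  have ht0 : 0 ≤ t := Real.sqrt_nonneg _
  have n1 : ‖S * H‖ ≤ 1 := by
    have := nm2 hS'.norm_le hH'.norm_le; linarith
  have n2 : ‖(1 - H) * (1 - S)‖ ≤ 1 := by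
    have := nm2 hH'.one_sub.norm_le hS'.one_sub.norm_le; linarith
  have a1 := nm3 n1 hb.hh (norm_HT hH hS)
  have a2 := nm3 n1 hb.hv n2
  have a3 := nm3 (norm_SN hH hS) hb.vh (norm_HT hH hS)
  have a3' : ‖S * (1 - H) * ((1 - H) * g * H) * (H * (1 - S))‖ ≤ 1 * o * 1 := by
    refine nm3 ?_ hb.vh ?_
    · have := nm2 hS'.norm_le hH'.one_sub.norm_le; linarith
    · have := nm2 hH'.norm_le hS'.one_sub.norm_le; linarith
  have a4 := nm3 (norm_SN hH hS) hb.vv n2
  have t1 := norm_add_le (S * H * (H * g * H) * (H * (1 - S)) +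
    S * H * (H * g * (1 - H)) * ((1 - H) * (1 - S)) +
    S * (1 - H) * ((1 - H) * g * H) * (H * (1 - S)))
    (S * (1 - H) * ((1 - H) * g * (1 - H)) * ((1 - H) * (1 - S)))
  have t2 := norm_add₃_le (a := S * H * (H * g * H) * (H * (1 - S)))
    (b := S * H * (H * g * (1 - H)) * ((1 - H) * (1 - S)))
    (c := S * (1 - H) * ((1 - H) * g * H) * (H * (1 - S)))
  rw [← ht] at a1 a4
  nlinarith [hb.θ_nonneg, hb.o_nonneg]

theorem norm_Dg_le (hH : H ∈ G m k) (hS : S ∈ G m k) (hg : ‖g‖ ≤ 1 / 2) (hb : Blk H g θ o) :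
    ‖Dg g S‖ ≤ 4 * (θ * Real.sqrt (tau H S) + o) := by
  obtain ⟨X, -, -, h3, h4, -, -, -⟩ := exists_Sg (isStar_of_G hS) hg
  have e : Dg g S = X * (S * g * (1 - S)) := by
    unfold Dg; rw [h4]; nr
  rw [e]
  have := nm2 h3 (norm_SgT_le hH hS hb)
  linarith

/-- the blocks of `D` -/
theorem Dg_blocks (hH : H ∈ G m k) (hS : S ∈ G m k) (hg : ‖g‖ ≤ 1 / 2) (hb : Blk H g θ o) :
    ‖H * Dg g S * H‖ ≤ 4 * (θ * tau H S + o * Real.sqrt (tau H S)) ∧
    ‖H * Dg g S * (1 - H)‖ ≤ 4 * (θ * Real.sqrt (tau H S) + o) ∧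
    ‖(1 - H) * Dg g S * H‖ ≤ 4 * (θ * tau H S + o * Real.sqrt (tau H S)) ∧
    ‖(1 - H) * Dg g S * (1 - H)‖ ≤ 4 * (θ * tau H S + o * Real.sqrt (tau H S)) := by
  have hH' := isStar_of_G hH
  have hS' := isStar_of_G hS
  have hD := norm_Dg_le hH hS hg hb
  have hsq := sq_sqrt_tau hH hS
  set t := Real.sqrt (tau H S) with ht
  have ht0 : 0 ≤ t := Real.sqrt_nonneg _
  have hval : 4 * (θ * tau H S + o * t) = 4 * (θ * t + o) * t := by rw [← hsq]; ring
  have hT : (1 - S) * (1 - S) = 1 - S := hS'.one_sub.1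
  have e1 : Dg g S * (1 - S) = Dg g S := by unfold Dg; rw [mul_assoc, hT]
  have e2 : S * Dg g S = Dg g S := by
    unfold Dg
    rw [← mul_assoc, ← mul_assoc, Sg_left hS']
  have hH1 : ‖H‖ ≤ 1 := hH'.norm_le
  have hN1 : ‖1 - H‖ ≤ 1 := hH'.one_sub.norm_le
  rw [hval]
  refine ⟨?_, ?_, ?_, ?_⟩
  · have e : H * Dg g S * H = H * Dg g S * ((1 - S) * H) := by
      rw [← mul_assoc, mul_assoc H _ (1 - S), e1]
    rw [e]
    have := nm3 hH1 hD (norm_TH hH hS)
    rw [← ht] at this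
    linarith
  · have := nm3 hH1 hD hN1
    linarith
  · have e : (1 - H) * Dg g S * H = ((1 - H) * S) * Dg g S * H := by
      rw [mul_assoc (1 - H) S, e2]
    rw [e]
    have := nm3 (norm_NS hH hS) hD hH1
    rw [← ht] at this
    linarith
  · have e : (1 - H) * Dg g S * (1 - H) = ((1 - H) * S) * Dg g S * (1 - H) := by
      rw [mul_assoc (1 - H) S, e2]
    rw [e]
    have := nm3 (norm_NS hH hS) hD hN1
    rw [← ht] at this
    linarith

/-- the vertical blocks of `Sg g S` -/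
theorem Sg_blocks (hH : H ∈ G m k) (hS : S ∈ G m k) (hg : ‖g‖ ≤ 1 / 2) :
    ‖(1 - H) * Sg g S‖ ≤ 2 * Real.sqrt (tau H S) ∧
    ‖Sg g S * (1 - H)‖ ≤ 2 * Real.sqrt (tau H S) ∧
    ‖(1 - H) * Sg g S * (1 - H)‖ ≤ 2 * tau H S := by
  have hS' := isStar_of_G hS
  obtain ⟨X, -, -, h3, h4, h5, -, -⟩ := exists_Sg hS' hg
  have hsq := sq_sqrt_tau hH hS
  refine ⟨?_, ?_, ?_⟩
  · rw [h5, ← mul_assoc]
    have := nm2 (norm_NS hH hS) h3
    linarith
  · rw [h4, mul_assoc]
    have := nm2 h3 (norm_SN hH hS)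
    linarith
  · have e : (1 - H) * Sg g S * (1 - H) = ((1 - H) * S) * X * (S * (1 - H)) := by
      have e1 : Sg g S = S * X * S := by
        rw [← h5, Sg_right hS']
      rw [e1]; nr
    rw [e]
    have := nm3 (norm_NS hH hS) h3 (norm_SN hH hS)
    rw [← hsq]
    linarith

/-- the horizontal block of `Sg g S` -/
theorem Sg_hh (hH : H ∈ G m k) (hS : S ∈ G m k) (hg : ‖g‖ ≤ 1 / 2) (hb : Blk H g θ o)
    (hθ : θ ≤ 1) :
    ‖H * Sg g S * H - Sg g H‖ ≤ 10 * tau H S + 8 * (o * Real.sqrt (tau H S)) := by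
  have hH' := isStar_of_G hH
  have hS' := isStar_of_G hS
  obtain ⟨X, hX1, hX2, hX3, hX4, hX5, hX6, hX7⟩ := exists_Sg hH' hg
  obtain ⟨Y, hY1, hY2, hY3, hY4, hY5, hY6, hY7⟩ := exists_Sg hS' hg
  have hsq := sq_sqrt_tau hH hS
  have hb3 := Sg_blocks hH hS hg
  have hnS := norm_Sg_le hS' hg
  set t := Real.sqrt (tau H S) with ht
  have ht0 : 0 ≤ t := Real.sqrt_nonneg _
  set K := H * (1 - S) * H with hK
  have hKn : ‖K‖ ≤ tau H S := norm_HTH hH hS
  set W := Sg g S with hW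
  set M := H * W * H with hM
  have hHH : H * H = H := hH'.1
  have hNN : (1 - H) * (1 - H) = 1 - H := hH'.one_sub.1
  have hH1 : ‖H‖ ≤ 1 := hH'.norm_le
  have hN1 : ‖1 - H‖ ≤ 1 := hH'.one_sub.norm_le
  have hS1 : ‖S‖ ≤ 1 := hS'.norm_le
  have hMn : ‖M‖ ≤ 2 := by
    have := nm3 hH1 hnS hH1; linarith
  have hNW : ‖(1 - H) * W * H‖ ≤ 2 * t := by
    have := nm2 hb3.1 hH1; linarith
  have hHSN : ‖H * S * (1 - H)‖ ≤ t := by
    rw [mul_assoc]
    have := nm2 hH1 (norm_SN hH hS); linarith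
  have hHSH : ‖H * S * H‖ ≤ 1 := by
    have := nm3 hH1 hS1 hH1; linarith
  -- the equation of `M`
  have hKe : H * S * H = H - K := by
    rw [hK]
    have e1 : H * (1 - S) * H = H * H - H * S * H := by nr
    rw [e1, hHH]; abel
  have hMeq : M = H - K - (H * S * H) * (H * g * H) * M
      - (H * S * H) * (H * g * (1 - H)) * ((1 - H) * W * H)
      - (H * S * (1 - H)) * ((1 - H) * g * H) * M
      - (H * S * (1 - H)) * ((1 - H) * g * (1 - H)) * ((1 - H) * W * H) := by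
    have e1 : M = H * S * H - (H * S) * g * (W * H) := by
      rw [hM]
      conv_lhs => rw [hY6]
      nr
    rw [split4 hH' (H * S) g (W * H)] at e1
    have f1 : H * (W * H) = M := by rw [hM, mul_assoc]
    have f2 : (1 - H) * (W * H) = (1 - H) * W * H := by rw [mul_assoc]
    rw [f1, f2] at e1
    refine e1.trans ?_
    rw [hKe]
    abel
  have hXeq : (1 + H * (g * H)) * Sg g H = H := by
    rw [hX4, ← mul_assoc, hX2, one_mul]
  have hE : (1 + H * (g * H)) * (M - Sg g H) = - K + K * (H * g * H) * M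
      - (H * S * H) * (H * g * (1 - H)) * ((1 - H) * W * H)
      - (H * S * (1 - H)) * ((1 - H) * g * H) * M
      - (H * S * (1 - H)) * ((1 - H) * g * (1 - H)) * ((1 - H) * W * H) := by
    rw [mul_sub, hXeq]
    have e2 : (1 + H * (g * H)) * M = M + H * g * H * M := by nr
    rw [e2]
    have e3 : (H * S * H) * (H * g * H) * M = H * g * H * M - K * (H * g * H) * M := by
      rw [hKe, sub_mul, sub_mul]
      congr 2
      have : H * (H * g * H) = (H * H) * g * H := by nr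
      rw [this, hHH]
    rw [e3] at hMeq
    calc M + H * g * H * M - H = (H - K - (H * g * H * M - K * (H * g * H) * M)
      - (H * S * H) * (H * g * (1 - H)) * ((1 - H) * W * H)
      - (H * S * (1 - H)) * ((1 - H) * g * H) * M
      - (H * S * (1 - H)) * ((1 - H) * g * (1 - H)) * ((1 - H) * W * H))
        + H * g * H * M - H := by rw [← hMeq]
      _ = _ := by abel
  have hfin : M - Sg g H = X * ((1 + H * (g * H)) * (M - Sg g H)) := by
    rw [← mul_assoc, hX1, one_mul]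
  rw [hfin]
  have hEn : ‖(1 + H * (g * H)) * (M - Sg g H)‖ ≤ 5 * tau H S + 4 * (o * t) := by
    rw [hE]
    have b1 := nm3 hKn hb.hh hMn
    have b2 := nm3 hHSH hb.hv hNW
    have b3 := nm3 hHSN hb.vh hMn
    have b4 := nm3 hHSN hb.vv hNW
    have c1 := norm_sub_le (- K + K * (H * g * H) * M
      - (H * S * H) * (H * g * (1 - H)) * ((1 - H) * W * H)
      - (H * S * (1 - H)) * ((1 - H) * g * H) * M)
      ((H * S * (1 - H)) * ((1 - H) * g * (1 - H)) * ((1 - H) * W * H))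
    have c2 := norm_sub_le (- K + K * (H * g * H) * M
      - (H * S * H) * (H * g * (1 - H)) * ((1 - H) * W * H))
      ((H * S * (1 - H)) * ((1 - H) * g * H) * M)
    have c3 := norm_sub_le (- K + K * (H * g * H) * M)
      ((H * S * H) * (H * g * (1 - H)) * ((1 - H) * W * H))
    have c4 := norm_add_le (-K) (K * (H * g * H) * M)
    rw [norm_neg] at c4
    have hθ0 := hb.θ_nonneg
    have hτ0 := tau_nonneg hH hS
    have q1 : tau H S * θ * 2 ≤ 2 * tau H S := by nlinarith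
    have q2 : t * θ * (2 * t) ≤ 2 * tau H S := by
      have : t * θ * (2 * t) = 2 * (tau H S * θ) := by rw [← hsq]; ring
      rw [this]; nlinarith
    linarith
  have := nm2 hX3 hEn
  linarith

/-- the area factor -/
theorem exists_Jc (m k : ℕ) : ∃ c C : ℝ, 0 < c ∧ c ≤ 1 / 4 ∧ 0 ≤ C ∧
    ∀ (H S g : L k) (θ o : ℝ), H ∈ G m k → S ∈ G m k → ‖g‖ ≤ c → Blk H g θ o →
      Jc g S ≤ 2 ∧ |Jc g S - Jc g H| ≤ C * (θ * tau H S + o * Real.sqrt (tau H S)) := by
  obtain ⟨c, C, hc, hc2, hC, hdet, hlip⟩ := Fm_209.exists_det (Euc k)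
  refine ⟨c / 2, 3 * C, by linarith, by linarith, by positivity, ?_⟩
  intro H S g θ o hH hS hg hb
  have hH' := isStar_of_G hH
  have hS' := isStar_of_G hS
  have hsq := sq_sqrt_tau hH hS
  have hH1 : ‖H‖ ≤ 1 := hH'.norm_le
  have hS1 : ‖S‖ ≤ 1 := hS'.norm_le
  have hτ0 := tau_nonneg hH hS
  have hθ0 := hb.θ_nonneg
  have ho0 := hb.o_nonneg
  refine ⟨?_, ?_⟩
  · have h1 := (hdet (S * (g * S)) ((norm_conj_le hS').trans (by linarith))).2
    unfold Jc
    rw [show (2:ℝ) = Real.sqrt 4 by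
      rw [show (4:ℝ) = 2 ^ 2 by norm_num, Real.sqrt_sq (by norm_num)]]
    exact Real.sqrt_le_sqrt h1
  set t := Real.sqrt (tau H S) with ht
  set g0 := H * g * H with hg0
  set K := H * (1 - S) * H with hK
  have hKn : ‖K‖ ≤ tau H S := norm_HTH hH hS
  have hg0n : ‖g0‖ ≤ c / 2 := by
    have := nm3 hH1 hg hH1; linarith
  -- step 1
  have s1 : ‖S * (g * S) - S * (g0 * S)‖ ≤ 2 * (o * t) + θ * tau H S := by
    have e : S * (g * S) - S * (g0 * S) = S * H * (H * g * (1 - H)) * ((1 - H) * S)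
        + S * (1 - H) * ((1 - H) * g * H) * (H * S)
        + S * (1 - H) * ((1 - H) * g * (1 - H)) * ((1 - H) * S) := by
      have e1 := split4 hH' S g S
      have e2 : (S * H) * (H * g * H) * (H * S) = S * (g0 * S) := by
        have hHH : H * H = H := hH'.1
        have : (S * H) * (H * g * H) * (H * S) = S * ((H * H) * g * (H * H) * S) := by
          nr
        rw [this, hHH]
      rw [e2] at e1
      rw [← mul_assoc S g S, e1]; abel
    rw [e]
    have n1 : ‖S * H‖ ≤ 1 := by have := nm2 hS1 hH1; linarith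
    have n2 : ‖H * S‖ ≤ 1 := by have := nm2 hH1 hS1; linarith
    have b1 := nm3 n1 hb.hv (norm_NS hH hS)
    have b2 := nm3 (norm_SN hH hS) hb.vh n2
    have b3 := nm3 (norm_SN hH hS) hb.vv (norm_NS hH hS)
    rw [← ht] at b1 b2 b3
    have b3' : t * θ * t = θ * tau H S := by rw [← hsq]; ring
    have t2 := norm_add₃_le (a := S * H * (H * g * (1 - H)) * ((1 - H) * S))
      (b := S * (1 - H) * ((1 - H) * g * H) * (H * S))
      (c := S * (1 - H) * ((1 - H) * g * (1 - H)) * ((1 - H) * S))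
    linarith
  -- step 2
  have s2 : (1 + S * (g0 * S)).det = (1 + (g0 - g0 * K)).det := by
    have e1 : (1 + S * (g0 * S)).det = (1 + (g0 * S) * S).det :=
      Fm_209.det_one_add_comm S (g0 * S)
    have e2 : (g0 * S) * S = H * (g0 * S) := by
      have hSS : S * S = S := hS'.1
      have hHg : H * g0 = g0 := by
        rw [hg0, ← mul_assoc, ← mul_assoc]
        have hHH : H * H = H := hH'.1
        rw [hHH]
      rw [mul_assoc, hSS, ← mul_assoc, hHg]
    have e3 : (1 + H * (g0 * S)).det = (1 + (g0 * S) * H).det :=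
      Fm_209.det_one_add_comm H (g0 * S)
    have e4 : (g0 * S) * H = g0 - g0 * K := by
      have hHH : H * H = H := hH'.1
      have hgH : g0 * H = g0 := by rw [hg0, mul_assoc, hHH]
      have f1 : g0 * K = (g0 * H) * H - (g0 * H) * S * H := by rw [hK]; nr
      rw [f1, hgH, hgH]; nr
    rw [e1, e2, e3, e4]
  have hK1 : ‖K‖ ≤ 1 := by
    have := nm3 hH1 hS'.one_sub.norm_le hH1; linarith
  have hgK : ‖g0 * K‖ ≤ θ * tau H S := nm2 hb.hh hKn
  have hgK' : ‖g0 * K‖ ≤ c / 2 := by have := nm2 hg0n hK1; linarith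
  have s3 := hlip (S * (g * S)) (S * (g0 * S)) ((norm_conj_le hS').trans (by linarith))
    ((norm_conj_le hS').trans (by linarith))
  have s4 := hlip (g0 - g0 * K) (H * (g * H))
    (by have := norm_sub_le g0 (g0 * K); linarith) ((norm_conj_le hH').trans (by linarith))
  have e5 : g0 - g0 * K - H * (g * H) = - (g0 * K) := by rw [hg0]; nr
  rw [e5, norm_neg] at s4
  rw [s2] at s3
  unfold Jc
  have t5 := abs_sub_le (Real.sqrt (1 + S * (g * S)).det) (Real.sqrt (1 + (g0 - g0 * K)).det)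
    (Real.sqrt (1 + H * (g * H)).det)
  have u1 : C * ‖S * (g * S) - S * (g0 * S)‖ ≤ C * (2 * (o * t) + θ * tau H S) :=
    mul_le_mul_of_nonneg_left s1 hC
  have u2 : C * ‖g0 * K‖ ≤ C * (θ * tau H S) := mul_le_mul_of_nonneg_left hgK hC
  have u3 : 0 ≤ C * (o * t) := by positivity
  have u4 : 0 ≤ C * (θ * tau H S) := by positivity
  nlinarith

end Main

end Crest.Agent.R234.Fm_281
end
end

-- ▼ part R234/Fm3_281
section

/-!
# Row 234, VF-FERMI (helper281), file 3: the pointwise inequality for one plane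

`Jc g S * tr (Sg g S * ((1 + g) * Z + (1/2) • G'))` (first variation density in the metric `1 + g`
along a field with derivative `Z`, `G' = D_ζ g`) is compared with `g0 * tr (S * Z) + δ`, where
`g0 ≈ Jc g H` and `δ ≈ (1/2) Jc g H * tr (Sg g H * G')`.
-/

set_option autoImplicit false

open Crest.GeometryTopology.Submanifold
open Crest.Agent.R234.Vf_884
open scoped InnerProductSpace

noncomputable section

namespace Crest.Agent.R234.Fm_281

variable {m k : ℕ}

/-- expansion in a noncommutative ring -/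
local macro "nr" : tactic => `(tactic| (simp only [mul_sub, sub_mul, mul_add, add_mul, mul_one,
  one_mul, mul_assoc, mul_neg, neg_mul] <;> abel))

theorem mul_smul' (A B : L k) (r : ℝ) : A * (r • B) = r • (A * B) :=
  ContinuousLinearMap.comp_smul A r B

section Main

variable {H S g Z G' : L k} {θ o a b c d a' b' d' : ℝ}

theorem abs_tr_SZ (hH : H ∈ G m k) (hS : S ∈ G m k) (ha : ‖H * Z * H‖ ≤ a)
    (hb : ‖H * Z * (1 - H)‖ ≤ b) (hc : ‖(1 - H) * Z * H‖ ≤ c)
    (hd : ‖(1 - H) * Z * (1 - H)‖ ≤ d) :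
    |tr (S * Z)| ≤ k * (a + Real.sqrt (tau H S) * c + Real.sqrt (tau H S) * b +
      tau H S * d) := by
  have hH' := isStar_of_G hH
  have hS' := isStar_of_G hS
  have hH1 : ‖H‖ ≤ 1 := hH'.norm_le
  have n1 : ‖H * S * H‖ ≤ 1 := by
    have := nm3 hH1 hS'.norm_le hH1; linarith
  have n2 : ‖H * S * (1 - H)‖ ≤ Real.sqrt (tau H S) := by
    rw [mul_assoc]
    have := nm2 hH1 (norm_SN hH hS); linarith
  have n3 : ‖(1 - H) * S * H‖ ≤ Real.sqrt (tau H S) := by
    have := nm2 (norm_NS hH hS) hH1; linarith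
  have h := abs_tr_blocks_le hH' S Z n1 n2 n3 (norm_NSN hH hS) ha hb hc hd
  rwa [one_mul] at h

theorem abs_tr_DZ (hH : H ∈ G m k) (hS : S ∈ G m k) (hg : ‖g‖ ≤ 1 / 2) (hB : Blk H g θ o)
    (ha : ‖H * Z * H‖ ≤ a)
    (hb : ‖H * Z * (1 - H)‖ ≤ b) (hc : ‖(1 - H) * Z * H‖ ≤ c)
    (hd : ‖(1 - H) * Z * (1 - H)‖ ≤ d) :
    |tr (Dg g S * Z)| ≤ k * (4 * ((θ * tau H S + o * Real.sqrt (tau H S)) * (a + b + d) +
      (θ * Real.sqrt (tau H S) + o) * c)) := by
  obtain ⟨n1, n2, n3, n4⟩ := Dg_blocks hH hS hg hB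
  have h := abs_tr_blocks_le (isStar_of_G hH) (Dg g S) Z n1 n2 n3 n4 ha hb hc hd
  refine h.trans (le_of_eq ?_)
  ring

theorem abs_tr_SgG (hH : H ∈ G m k) (hS : S ∈ G m k) (hg : ‖g‖ ≤ 1 / 2) (hB : Blk H g θ o)
    (hθ : θ ≤ 1) (ha : ‖H * G' * H‖ ≤ a')
    (hb : ‖H * G' * (1 - H)‖ ≤ b') (hc : ‖(1 - H) * G' * H‖ ≤ b')
    (hd : ‖(1 - H) * G' * (1 - H)‖ ≤ d') :
    |tr (Sg g S * G') - tr (Sg g H * G')| ≤ k * (10 * (tau H S + o * Real.sqrt (tau H S)) * a' +
      4 * Real.sqrt (tau H S) * b' + 2 * tau H S * d') := by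
  have hH' := isStar_of_G hH
  have hHH : H * H = H := hH'.1
  have hH1 : ‖H‖ ≤ 1 := hH'.norm_le
  have hN1 : ‖1 - H‖ ≤ 1 := hH'.one_sub.norm_le
  obtain ⟨s1, s2, s3⟩ := Sg_blocks hH hS hg
  have s4 := Sg_hh hH hS hg hB hθ
  have eL : H * Sg g H = Sg g H := Sg_left hH'
  have eR : Sg g H * H = Sg g H := Sg_right hH'
  have eN : (1 - H) * Sg g H = 0 := by rw [sub_mul, one_mul, eL, sub_self]
  have eN' : Sg g H * (1 - H) = 0 := by rw [mul_sub, mul_one, eR, sub_self]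
  have f1 : H * (Sg g S - Sg g H) * H = H * Sg g S * H - Sg g H := by
    rw [mul_sub, sub_mul, eL, eR]
  have f2 : H * (Sg g S - Sg g H) * (1 - H) = H * (Sg g S * (1 - H)) := by
    rw [mul_assoc, sub_mul, eN', sub_zero]
  have f3 : (1 - H) * (Sg g S - Sg g H) * H = (1 - H) * Sg g S * H := by
    rw [mul_sub, eN, sub_zero]
  have f4 : (1 - H) * (Sg g S - Sg g H) * (1 - H) = (1 - H) * Sg g S * (1 - H) := by
    rw [mul_sub (1 - H) (Sg g S) (Sg g H), eN, sub_zero]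
  rw [← map_sub, ← sub_mul]
  have g2 : ‖H * (Sg g S * (1 - H))‖ ≤ 2 * Real.sqrt (tau H S) := by
    have := nm2 hH1 s2; linarith
  have g3 : ‖(1 - H) * Sg g S * H‖ ≤ 2 * Real.sqrt (tau H S) := by
    have := nm2 s1 hH1; linarith
  rw [← f1] at s4
  rw [← f2] at g2
  rw [← f3] at g3
  rw [← f4] at s3
  have h := abs_tr_blocks_le hH' (Sg g S - Sg g H) G' s4 g2 g3 s3 ha hb hc hd
  refine h.trans (mul_le_mul_of_nonneg_left ?_ (Nat.cast_nonneg _))
  have ha0 : 0 ≤ a' := (norm_nonneg _).trans ha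
  have h1 : 0 ≤ o * Real.sqrt (tau H S) := mul_nonneg hB.o_nonneg (Real.sqrt_nonneg _)
  nlinarith [mul_nonneg h1 ha0]

theorem abs_tr_SgH (hH : H ∈ G m k) (hg : ‖g‖ ≤ 1 / 2) (ha : ‖H * G' * H‖ ≤ a') :
    |tr (Sg g H * G')| ≤ k * (2 * a') := by
  have hH' := isStar_of_G hH
  have eL : H * Sg g H = Sg g H := Sg_left hH'
  have eR : Sg g H * H = Sg g H := Sg_right hH'
  have e : tr (Sg g H * G') = tr (Sg g H * (H * G' * H)) := by
    have e1 : Sg g H * (H * G' * H) = (Sg g H * H) * G' * H := by nr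
    rw [e1, eR, tr_mul_comm _ H, ← mul_assoc, eL]
  rw [e]
  refine (abs_tr_mul_le _ _).trans (mul_le_mul_of_nonneg_left ?_ (Nat.cast_nonneg _))
  exact mul_le_mul (norm_Sg_le hH' hg) ha (norm_nonneg _) (by norm_num)

end Main

theorem real_coef {k C0 K M A B s ε : ℝ} (hk : 0 ≤ k) (hK1 : 1 ≤ K) (hkK : k ≤ K) (hC0 : 0 ≤ C0)
    (hM : M = K ^ 2 * (C0 + 1)) (hB : 0 ≤ B) (hs : 0 ≤ s) (hε : 0 ≤ ε)
    (hAs : A * s ≤ K * B) : (C0 * A + ε) * (k * s) + 8 * k * B ≤ 20 * M * (B + ε * s) := by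
  have h0 : 0 ≤ ε * s := mul_nonneg hε hs
  have hkk : k * K ≤ K ^ 2 := by nlinarith
  have hM0 : 0 ≤ M := by rw [hM]; positivity
  have e1 : C0 * k * (A * s) ≤ C0 * k * (K * B) :=
    mul_le_mul_of_nonneg_left hAs (mul_nonneg hC0 hk)
  have e2 : k * (ε * s) ≤ (k * K) * (ε * s) := by
    refine mul_le_mul_of_nonneg_right ?_ h0
    exact le_mul_of_one_le_right hk hK1
  have e3 : (k * K) * (C0 + 1) ≤ M := by
    rw [hM]; exact mul_le_mul_of_nonneg_right hkk (by linarith)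
  have e4 : (k * K) * (C0 + 1) * (B + ε * s) ≤ M * (B + ε * s) :=
    mul_le_mul_of_nonneg_right e3 (by linarith)
  have e5 : 0 ≤ k * K * B := by positivity
  have e6 : 0 ≤ k * K * C0 * (ε * s) := by positivity
  have e7 : (C0 * A + ε) * (k * s) ≤ (k * K) * (C0 + 1) * (B + ε * s) := by
    have f1 : (C0 * A + ε) * (k * s) = C0 * k * (A * s) + k * (ε * s) := by ring
    have f2 : (k * K) * (C0 + 1) * (B + ε * s) = C0 * k * (K * B) + k * K * B +
      k * K * C0 * (ε * s) + (k * K) * (ε * s) := by ring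
    rw [f1, f2]; linarith
  have e8 : k ≤ M := by
    have f1 : k ≤ k * K := le_mul_of_one_le_right hk hK1
    have f2 : k * K ≤ k * K * (C0 + 1) := le_mul_of_one_le_right (by positivity) (by linarith)
    linarith
  have e9 : k * B ≤ M * (B + ε * s) := mul_le_mul e8 (by linarith) hB hM0
  have e10 : 0 ≤ M * (B + ε * s) := by positivity
  linarith

theorem real_assembly {k C0 θ o t τ ε1 a b c d a' b' d' K : ℝ} (hk : 0 ≤ k) (hK : K = k + 1)
    (hC0 : 0 ≤ C0) (hθ : 0 ≤ θ) (hθ1 : θ ≤ 1) (ho : 0 ≤ o) (ht : 0 ≤ t) (hτ : t * t = τ)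
    (hτk : τ ≤ k) (hε : 0 ≤ ε1) (ha : 0 ≤ a) (hb : 0 ≤ b) (hc : 0 ≤ c) (hd : 0 ≤ d)
    (ha' : 0 ≤ a') (hb' : 0 ≤ b') (hd' : 0 ≤ d') :
    (C0 * (θ * τ + o * t) + ε1) * (k * (a + t * c + t * b + τ * d)) +
      2 * (k * (4 * ((θ * τ + o * t) * (a + b + d) + (θ * t + o) * c))) +
      (k * (10 * (τ + o * t) * a' + 4 * t * b' + 2 * τ * d')) +
      C0 * (θ * τ + o * t) * (k * (2 * a')) ≤
    20 * K ^ 2 * (C0 + 1) * ((θ * τ + o * t + ε1) * a + (θ * τ + o * t + ε1 * t) * b +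
      (θ * t + o + ε1 * t) * c + (θ * τ + o * t + ε1 * τ) * d + (τ + o * t) * a' + t * b' +
      τ * d') := by
  have hK1 : 1 ≤ K := by linarith
  have hkK : k ≤ K := by linarith
  have hτ0 : 0 ≤ τ := by rw [← hτ]; positivity
  have htK : t ≤ K := by
    by_contra hcon
    push Not at hcon
    have : K * K < t * t := mul_self_lt_mul_self (by linarith) hcon
    nlinarith
  have hτK : τ ≤ K := by linarith
  have hot : 0 ≤ o * t := mul_nonneg ho ht
  obtain ⟨A, hA⟩ : ∃ A, A = θ * τ + o * t := ⟨_, rfl⟩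
  obtain ⟨B, hB⟩ : ∃ B, B = θ * t + o := ⟨_, rfl⟩
  have hA1 : 0 ≤ A := by rw [hA]; positivity
  have hB1 : 0 ≤ B := by rw [hB]; positivity
  have hAt : A * t ≤ K * B := by
    have : A * t = τ * B := by rw [hA, hB, ← hτ]; ring
    rw [this]
    exact mul_le_mul_of_nonneg_right hτK hB1
  have hAτ : A ≤ τ + o * t := by
    rw [hA]
    have := mul_le_mul_of_nonneg_right hθ1 hτ0
    linarith
  rw [← hA, ← hB]
  obtain ⟨M, hM⟩ : ∃ M, M = K ^ 2 * (C0 + 1) := ⟨_, rfl⟩
  have e20 : 20 * K ^ 2 * (C0 + 1) = 20 * M := by rw [hM]; ring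
  rw [e20]
  have c1 := real_coef hk hK1 hkK hC0 hM hA1 zero_le_one hε
    (show A * 1 ≤ K * A by rw [mul_comm K]; exact mul_le_mul_of_nonneg_left hK1 hA1)
  have c2 := real_coef hk hK1 hkK hC0 hM hA1 ht hε
    (show A * t ≤ K * A by rw [mul_comm K]; exact mul_le_mul_of_nonneg_left htK hA1)
  have c3 := real_coef hk hK1 hkK hC0 hM hB1 ht hε hAt
  have c4 := real_coef hk hK1 hkK hC0 hM hA1 hτ0 hε
    (show A * τ ≤ K * A by rw [mul_comm K]; exact mul_le_mul_of_nonneg_left hτK hA1)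
  have hkM : k * (C0 + 1) ≤ M := by
    rw [hM]
    refine mul_le_mul_of_nonneg_right ?_ (by linarith)
    nlinarith
  have hkM' : k ≤ M := by
    have : k ≤ k * (C0 + 1) := le_mul_of_one_le_right hk (by linarith)
    linarith
  have hM0 : 0 ≤ M := by linarith
  have hot' : 0 ≤ τ + o * t := by linarith
  have c5 : 10 * k * (τ + o * t) + C0 * A * (k * 2) ≤ 20 * M * (τ + o * t) := by
    have e1 : (2 * (k * C0)) * A ≤ (2 * (k * C0)) * (τ + o * t) :=
      mul_le_mul_of_nonneg_left hAτ (by positivity)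
    have e2 : (10 * k + 2 * (k * C0)) * (τ + o * t) ≤ 20 * M * (τ + o * t) :=
      mul_le_mul_of_nonneg_right (by linarith) hot'
    linarith
  have c6 : 4 * k * t ≤ 20 * M * t := mul_le_mul_of_nonneg_right (by linarith) ht
  have c7 : 2 * k * τ ≤ 20 * M * τ := mul_le_mul_of_nonneg_right (by linarith) hτ0
  have d1 := mul_le_mul_of_nonneg_right c1 ha
  have d2 := mul_le_mul_of_nonneg_right c2 hb
  have d3 := mul_le_mul_of_nonneg_right c3 hc
  have d4 := mul_le_mul_of_nonneg_right c4 hd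
  have d5 := mul_le_mul_of_nonneg_right c5 ha'
  have d6 := mul_le_mul_of_nonneg_right c6 hb'
  have d7 := mul_le_mul_of_nonneg_right c7 hd'
  have f1 : (C0 * A + ε1) * (k * (a + t * c + t * b + τ * d)) +
      2 * (k * (4 * (A * (a + b + d) + B * c))) +
      (k * (10 * (τ + o * t) * a' + 4 * t * b' + 2 * τ * d')) +
      C0 * A * (k * (2 * a')) =
      ((C0 * A + ε1) * (k * 1) + 8 * k * A) * a + ((C0 * A + ε1) * (k * t) + 8 * k * A) * b +
      ((C0 * A + ε1) * (k * t) + 8 * k * B) * c + ((C0 * A + ε1) * (k * τ) + 8 * k * A) * d +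
      (10 * k * (τ + o * t) + C0 * A * (k * 2)) * a' + 4 * k * t * b' + 2 * k * τ * d' := by ring
  have f2 : 20 * M * ((A + ε1) * a + (A + ε1 * t) * b + (B + ε1 * t) * c + (A + ε1 * τ) * d +
      (τ + o * t) * a' + t * b' + τ * d') = 20 * M * (A + ε1 * 1) * a + 20 * M * (A + ε1 * t) * b +
      20 * M * (B + ε1 * t) * c + 20 * M * (A + ε1 * τ) * d + 20 * M * (τ + o * t) * a' +
      20 * M * t * b' + 20 * M * τ * d' := by ring
  rw [f1, f2]
  linarith

/-- **the pointwise inequality for one plane** -/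
theorem exists_pure (m k : ℕ) : ∃ c C : ℝ, 0 < c ∧ c ≤ 1 / 4 ∧ 0 ≤ C ∧
    ∀ (H S g Z G' : L k) (θ o a b c' d a' b' d' g0 δ ε1 ε2 : ℝ), H ∈ G m k → S ∈ G m k →
      ‖g‖ ≤ c → Blk H g θ o → θ ≤ 1 →
      ‖H * Z * H‖ ≤ a → ‖H * Z * (1 - H)‖ ≤ b → ‖(1 - H) * Z * H‖ ≤ c' →
      ‖(1 - H) * Z * (1 - H)‖ ≤ d →
      ‖H * G' * H‖ ≤ a' → ‖H * G' * (1 - H)‖ ≤ b' → ‖(1 - H) * G' * H‖ ≤ b' →
      ‖(1 - H) * G' * (1 - H)‖ ≤ d' →
      |Jc g H - g0| ≤ ε1 → |1 / 2 * Jc g H * tr (Sg g H * G') - δ| ≤ ε2 →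
      |Jc g S * tr (Sg g S * ((1 + g) * Z + (1 / 2 : ℝ) • G')) - (g0 * tr (S * Z) + δ)| ≤
        C * ((θ * tau H S + o * Real.sqrt (tau H S) + ε1) * a +
          (θ * tau H S + o * Real.sqrt (tau H S) + ε1 * Real.sqrt (tau H S)) * b +
          (θ * Real.sqrt (tau H S) + o + ε1 * Real.sqrt (tau H S)) * c' +
          (θ * tau H S + o * Real.sqrt (tau H S) + ε1 * tau H S) * d +
          (tau H S + o * Real.sqrt (tau H S)) * a' + Real.sqrt (tau H S) * b' +
          tau H S * d') + ε2 := by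
  obtain ⟨c, C0, hc, hc4, hC0, hJ⟩ := exists_Jc m k
  refine ⟨c, 20 * ((k : ℝ) + 1) ^ 2 * (C0 + 1), hc, hc4, by positivity, ?_⟩
  intro H S g Z G' θ o a b c' d a' b' d' g0 δ ε1 ε2 hH hS hg hB hθ ha hb hc' hd ha' hb' hb'' hd'
    hε1 hε2
  have hg2 : ‖g‖ ≤ 1 / 2 := by linarith
  obtain ⟨hJ2, hJd⟩ := hJ H S g θ o hH hS hg hB
  have hJ0 : 0 ≤ Jc g S := Real.sqrt_nonneg _
  have t1 := abs_tr_SZ hH hS ha hb hc' hd
  have t2 := abs_tr_DZ hH hS hg2 hB ha hb hc' hd
  have t3 := abs_tr_SgG hH hS hg2 hB hθ ha' hb' hb'' hd'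
  have t4 := abs_tr_SgH hH hg2 ha'
  have hsq := sq_sqrt_tau hH hS
  have hτk := tau_le hH hS
  have e1 : Sg g S * ((1 + g) * Z + (1 / 2 : ℝ) • G') = S * Z + Dg g S * Z +
      (1 / 2 : ℝ) • (Sg g S * G') := by
    rw [mul_add, ← mul_assoc, Sg_mul_eq (isStar_of_G hS) hg2, add_mul, mul_smul']
  rw [e1, map_add, map_add, map_smul, smul_eq_mul]
  set t := Real.sqrt (tau H S) with ht
  set τ := tau H S with hτ
  have ht0 : 0 ≤ t := Real.sqrt_nonneg _
  have hθ0 := hB.θ_nonneg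
  have ho0 := hB.o_nonneg
  have key : Jc g S * (tr (S * Z) + tr (Dg g S * Z) + 1 / 2 * tr (Sg g S * G')) -
      (g0 * tr (S * Z) + δ) = (Jc g S - g0) * tr (S * Z) + Jc g S * tr (Dg g S * Z) +
      1 / 2 * Jc g S * (tr (Sg g S * G') - tr (Sg g H * G')) +
      1 / 2 * (Jc g S - Jc g H) * tr (Sg g H * G') +
      (1 / 2 * Jc g H * tr (Sg g H * G') - δ) := by ring
  rw [key]
  have hε10 : 0 ≤ ε1 := (abs_nonneg _).trans hε1
  have b0 : |Jc g S - g0| ≤ C0 * (θ * τ + o * t) + ε1 := by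
    have := abs_sub_le (Jc g S) (Jc g H) g0
    linarith
  have b1 : |(Jc g S - g0) * tr (S * Z)| ≤ (C0 * (θ * τ + o * t) + ε1) *
      (k * (a + t * c' + t * b + τ * d)) := by
    rw [abs_mul]
    exact mul_le_mul b0 t1 (abs_nonneg _) ((abs_nonneg _).trans b0)
  have b2 : |Jc g S * tr (Dg g S * Z)| ≤ 2 * (k * (4 * ((θ * τ + o * t) * (a + b + d) +
      (θ * t + o) * c'))) := by
    rw [abs_mul, abs_of_nonneg hJ0]
    exact mul_le_mul hJ2 t2 (abs_nonneg _) (by norm_num)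
  have b3 : |1 / 2 * Jc g S * (tr (Sg g S * G') - tr (Sg g H * G'))| ≤
      k * (10 * (τ + o * t) * a' + 4 * t * b' + 2 * τ * d') := by
    rw [abs_mul, abs_of_nonneg (by positivity)]
    have h := mul_le_mul (show 1 / 2 * Jc g S ≤ 1 by linarith) t3 (abs_nonneg _) zero_le_one
    linarith
  have b4 : |1 / 2 * (Jc g S - Jc g H) * tr (Sg g H * G')| ≤
      C0 * (θ * τ + o * t) * (k * (2 * a')) := by
    rw [abs_mul]
    refine mul_le_mul ?_ t4 (abs_nonneg _) ?_
    · rw [abs_mul, abs_of_pos (by norm_num : (0:ℝ) < 1 / 2)]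
      have h1 := abs_nonneg (Jc g S - Jc g H)
      linarith
    · exact (abs_nonneg _).trans hJd
  have hfin := real_assembly (k := (k:ℝ)) (K := (k:ℝ) + 1) (Nat.cast_nonneg _) rfl hC0 hθ0 hθ ho0
    ht0 hsq hτk hε10 ((norm_nonneg _).trans ha) ((norm_nonneg _).trans hb)
    ((norm_nonneg _).trans hc') ((norm_nonneg _).trans hd) ((norm_nonneg _).trans ha')
    ((norm_nonneg _).trans hb') ((norm_nonneg _).trans hd')
  have a1 := abs_add_le ((Jc g S - g0) * tr (S * Z) + Jc g S * tr (Dg g S * Z) +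
      1 / 2 * Jc g S * (tr (Sg g S * G') - tr (Sg g H * G')) +
      1 / 2 * (Jc g S - Jc g H) * tr (Sg g H * G'))
      (1 / 2 * Jc g H * tr (Sg g H * G') - δ)
  have a2 := abs_add_le ((Jc g S - g0) * tr (S * Z) + Jc g S * tr (Dg g S * Z) +
      1 / 2 * Jc g S * (tr (Sg g S * G') - tr (Sg g H * G')))
      (1 / 2 * (Jc g S - Jc g H) * tr (Sg g H * G'))
  have a3 := abs_add_le ((Jc g S - g0) * tr (S * Z) + Jc g S * tr (Dg g S * Z))
      (1 / 2 * Jc g S * (tr (Sg g S * G') - tr (Sg g H * G')))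
  have a4 := abs_add_le ((Jc g S - g0) * tr (S * Z)) (Jc g S * tr (Dg g S * Z))
  linarith

end Crest.Agent.R234.Fm_281
end
end

-- ▼ part R234/Fm4_281

/-!
# Row 234, VF-FERMI (helper281), file 4: calculus of the determinant of operators
-/

set_option autoImplicit false

open Crest.GeometryTopology.Submanifold
open Crest.Agent.R234.Vf_884
open scoped InnerProductSpace

noncomputable section

namespace Crest.Agent.R234.Fm_281

variable {k : ℕ}

/-- matrix of an operator -/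
def mtx (A : L k) : Matrix (Fin k) (Fin k) ℝ :=
  LinearMap.toMatrix (EuclideanSpace.basisFun (Fin k) ℝ).toBasis
    (EuclideanSpace.basisFun (Fin k) ℝ).toBasis (A : Euc k →ₗ[ℝ] Euc k)

theorem det_mtx (A : L k) : (mtx A).det = A.det := LinearMap.det_toMatrix _ _

theorem trace_mtx (A : L k) : (mtx A).trace = tr A := by
  rw [tr_apply]
  exact (LinearMap.trace_eq_matrix_trace ℝ _ _).symm

theorem mtx_one_add (t : ℝ) (B : L k) : mtx (1 + t • B) = 1 + t • mtx B := by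
  unfold mtx
  have e1 : ((1 + t • B : L k) : Euc k →ₗ[ℝ] Euc k) =
      LinearMap.id + t • (B : Euc k →ₗ[ℝ] Euc k) := rfl
  rw [e1, map_add, map_smul, LinearMap.toMatrix_id]

theorem hasDerivAt_det_one (B : L k) :
    HasDerivAt (fun t : ℝ => (1 + t • B : L k).det) (tr B) 0 := by
  have h : ∀ t : ℝ, (1 + t • B : L k).det = 1 + tr B * t
      + (((1 : Matrix (Fin k) (Fin k) (Polynomial ℝ)) + (Polynomial.X : Polynomial ℝ) •
        (mtx B).map Polynomial.C).det.divX.divX.eval t) * t ^ 2 := by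
    intro t
    rw [← det_mtx, mtx_one_add, ← trace_mtx]
    exact Matrix.det_one_add_smul _ _
  simp only [h]
  have h1 := (Polynomial.hasDerivAt (((1 : Matrix (Fin k) (Fin k) (Polynomial ℝ)) +
    (Polynomial.X : Polynomial ℝ) • (mtx B).map Polynomial.C).det.divX.divX) (0:ℝ)).mul
    ((hasDerivAt_id (0:ℝ)).pow 2)
  have h2 := (((hasDerivAt_id (0:ℝ)).const_mul (tr B)).const_add 1).add h1
  refine h2.congr_deriv ?_
  simp

theorem contDiff_detL : ContDiff ℝ ⊤ (fun A : L k => A.det) := Fm_209.contDiff_det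

theorem det_mulL (A B : L k) : (A * B).det = A.det * B.det := by
  have := LinearMap.det_comp (A : Euc k →ₗ[ℝ] Euc k) (B : Euc k →ₗ[ℝ] Euc k)
  exact this

theorem det_oneL : (1 : L k).det = 1 := Fm_209.det_one

theorem fderiv_det {A X : L k} (h : A * X = 1) (B : L k) :
    fderiv ℝ (fun A : L k => A.det) A B = A.det * tr (X * B) := by
  have hd : HasFDerivAt (fun A : L k => A.det) (fderiv ℝ (fun A : L k => A.det) A) A :=
    ((contDiff_detL.differentiable (by simp)) A).hasFDerivAt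
  have hl : HasDerivAt (fun t : ℝ => A + t • B) B 0 := by
    have := ((hasDerivAt_id (0:ℝ)).smul_const B).const_add A
    simpa using this
  have h1 : HasDerivAt (fun t : ℝ => (A + t • B : L k).det)
      (fderiv ℝ (fun A : L k => A.det) A B) 0 := by
    have hd' : HasFDerivAt (fun A : L k => A.det) (fderiv ℝ (fun A : L k => A.det) A)
        (A + (0:ℝ) • B) := by
      have e : A + (0:ℝ) • B = A := by ext v; simp
      rw [e]; exact hd
    exact hd'.comp_hasDerivAt (0:ℝ) hl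
  have h2 : HasDerivAt (fun t : ℝ => (A + t • B : L k).det) (A.det * tr (X * B)) 0 := by
    have e : (fun t : ℝ => (A + t • B : L k).det) =
        fun t : ℝ => A.det * (1 + t • (X * B) : L k).det := by
      funext t
      rw [← det_mulL, mul_add, mul_one]
      congr 2
      rw [mul_smul', ← mul_assoc, h, one_mul]
    rw [e]
    exact (hasDerivAt_det_one (X * B)).const_mul _
  exact h1.unique h2

theorem fderiv_det_one (B : L k) : fderiv ℝ (fun A : L k => A.det) 1 B = tr B := by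
  rw [fderiv_det (one_mul (1 : L k)), det_oneL, one_mul, one_mul]

/-- second order expansion -/
theorem exists_taylor (k : ℕ) : ∃ C : ℝ, 0 ≤ C ∧ ∀ Y : L k, ‖Y‖ ≤ 1 →
    |(1 + Y).det - 1 - tr Y| ≤ C * ‖Y‖ ^ 2 := by
  set f : L k → ℝ := fun A => A.det with hf
  have hf2 : ContDiff ℝ 2 f := contDiff_detL.of_le le_top
  have hf1 : ContDiff ℝ 1 (fderiv ℝ f) := hf2.fderiv_right (by norm_num)
  obtain ⟨C, hC⟩ := (isCompact_closedBall (1 : L k) 1).exists_bound_of_continuousOn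
    (hf1.continuous_fderiv one_ne_zero).continuousOn
  have hC0 : 0 ≤ C := (norm_nonneg _).trans (hC 1 (Metric.mem_closedBall_self zero_le_one))
  have hlip : ∀ A ∈ Metric.closedBall (1 : L k) 1, ‖fderiv ℝ f A - fderiv ℝ f 1‖ ≤ C * ‖A - 1‖ :=
    fun A hA => (convex_closedBall (1 : L k) 1).norm_image_sub_le_of_norm_fderiv_le
      (fun x _ => (hf1.differentiable one_ne_zero) x) hC (Metric.mem_closedBall_self zero_le_one) hA
  refine ⟨C, hC0, fun Y hY => ?_⟩
  -- on the ball of radius ‖Y‖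
  have h1 : ∀ A ∈ Metric.closedBall (1 : L k) ‖Y‖, ‖fderiv ℝ f A - fderiv ℝ f 1‖ ≤ C * ‖Y‖ := by
    intro A hA
    refine (hlip A (Metric.closedBall_subset_closedBall hY hA)).trans ?_
    refine mul_le_mul_of_nonneg_left ?_ hC0
    rwa [mem_closedBall_iff_norm] at hA
  have h2 := (convex_closedBall (1 : L k) ‖Y‖).norm_image_sub_le_of_norm_hasFDerivWithin_le'
    (f := f) (f' := fderiv ℝ f) (φ := fderiv ℝ f 1) (C := C * ‖Y‖)
    (fun x _ => (((hf2.differentiable two_ne_zero) x).hasFDerivAt).hasFDerivWithinAt) h1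
    (Metric.mem_closedBall_self (norm_nonneg _))
    (show 1 + Y ∈ Metric.closedBall (1 : L k) ‖Y‖ by
      rw [mem_closedBall_iff_norm, add_sub_cancel_left])
  rw [add_sub_cancel_left, hf, fderiv_det_one, Real.norm_eq_abs] at h2
  change |(1 + Y).det - (1 : L k).det - tr Y| ≤ C * ‖Y‖ * ‖Y‖ at h2
  rw [det_oneL] at h2
  calc |(1 + Y).det - 1 - tr Y| ≤ C * ‖Y‖ * ‖Y‖ := h2
    _ = C * ‖Y‖ ^ 2 := by ring


/-- derivative of the square root of the determinant along a path of operators -/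
theorem hasFDerivAt_sqrt_det {F : Type*} [NormedAddCommGroup F] [NormedSpace ℝ F] {g : F → L k}
    {g' : F →L[ℝ] L k} {x : F} {X : L k} (hg : HasFDerivAt g g' x) (hX : g x * X = 1)
    (hpos : 0 < (g x).det) :
    HasFDerivAt (fun z => Real.sqrt (g z).det)
      ((1 / 2 * Real.sqrt (g x).det) •
        (tr ∘L ((ContinuousLinearMap.compL ℝ (Euc k) (Euc k) (Euc k) X) ∘L g'))) x := by
  have h1 : HasFDerivAt (fun A : L k => A.det) (fderiv ℝ (fun A : L k => A.det) (g x)) (g x) :=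
    ((contDiff_detL.differentiable (by simp)) (g x)).hasFDerivAt
  have h2 := (h1.comp x hg).sqrt hpos.ne'
  refine h2.congr_fderiv ?_
  ext v
  have h3 : fderiv ℝ (fun A : L k => A.det) (g x) (g' v) = (g x).det * tr (X * g' v) :=
    fderiv_det hX _
  have hs : Real.sqrt (g x).det ≠ 0 := (Real.sqrt_pos.2 hpos).ne'
  have hs2 : Real.sqrt (g x).det * Real.sqrt (g x).det = (g x).det := Real.mul_self_sqrt hpos.le
  have h4 : (ContinuousLinearMap.compL ℝ (Euc k) (Euc k) (Euc k) X) (g' v) = X * g' v := rfl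
  simp only [smul_apply, ContinuousLinearMap.coe_comp, Function.comp_apply, smul_eq_mul,
    h3, h4]
  field_simp
  rw [sq, hs2]

end Crest.Agent.R234.Fm_281
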