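import Crest.Agent.R234.F32_354
import Crest.Agent.R234.Fm6_281
import Crest.Agent.R234.Fm4_281
import Crest.Agent.R234.Ft5_209
import Crest.Agent.R234.Fm11_281
import Crest.Agent.R234.Nrm2_842

-- ▼ part R234/F32b_354
section

/-!
# Row 234 (helper354), node F3-MAT, part 2: expansion of the covariant tilt, the main inequality
-/

set_option autoImplicit false

open Crest.GeometryTopology.Submanifold
open Crest.Agent.R234.Vf_884
open scoped InnerProductSpace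

noncomputable section

namespace Crest.Agent.R234.F32_354

open Crest.Agent.R234.Fm_281

variable {m k : ℕ}

/-- expansion in a noncommutative ring -/
local macro "nr" : tactic => `(tactic| (simp only [mul_sub, sub_mul, mul_add, add_mul, mul_one,
  one_mul, mul_assoc, mul_neg, neg_mul] <;> abel))

theorem abs_tr_key {k : ℕ} (A B : L k) (a b : ℝ) (hA : ‖A‖ ≤ a) (hB : ‖B‖ ≤ b) :
    |tr (A * B)| ≤ k * (a * b) :=
  (abs_tr_mul_le A B).trans (mul_le_mul_of_nonneg_left (mul_le_mul hA hB (norm_nonneg _)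
    ((norm_nonneg _).trans hA)) (Nat.cast_nonneg _))

theorem aux3 {k : ℕ} {a b c d e : L k} (h1 : a = b - c) (h2 : b = d - e) : a - d = -e - c := by
  rw [h1, h2]; abel

theorem real_sqrt_ratio {D D' l r t o E k : ℝ} (hD : 1 / 4 ≤ D)
    (hD' : 0 ≤ D') (h : D' = D * (1 + l + r)) (hl : |l| ≤ 2 * k * (o * t)) (hE : 0 ≤ E)
    (hot : o * t * (o * t) ≤ E) {C : ℝ} (hC : 0 ≤ C) (hr : |r| ≤ C * E) {B : ℝ} (hB : E ≤ B) :
    ∃ r', |r'| ≤ (C + (4 * k ^ 2 + C ^ 2 * B)) * E ∧ √D' = √D * (1 + l / 2 + r') := by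
  have hD0 : 0 < D := by linarith
  have ha : 0 ≤ 1 + l + r := by
    by_contra hneg
    push Not at hneg
    nlinarith
  set a := 1 + l + r with hadef
  have hs : √D' = √D * √a := by rw [h, Real.sqrt_mul hD0.le]
  refine ⟨√a - 1 - l / 2, ?_, by rw [hs]; ring⟩
  have hsa : √a * √a = a := Real.mul_self_sqrt ha
  have hs0 : 0 ≤ √a := Real.sqrt_nonneg a
  -- √a - 1 - (a-1)/2 = -(√a - 1)²/2
  have e1 : √a - 1 - l / 2 = r / 2 - (√a - 1) ^ 2 / 2 := by
    have : (√a - 1) ^ 2 = a - 2 * √a + 1 := by nlinarith [hsa]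
    rw [this, hadef]; ring
  have e2 : (√a - 1) ^ 2 ≤ (l + r) ^ 2 := by
    have h1 : (√a - 1) * (√a + 1) = l + r := by
      have : (√a - 1) * (√a + 1) = √a * √a - 1 := by ring
      rw [this, hsa, hadef]; ring
    have h2 : (l + r) ^ 2 = (√a - 1) ^ 2 * (√a + 1) ^ 2 := by rw [← h1]; ring
    rw [h2]
    refine le_mul_of_one_le_right (sq_nonneg _) ?_
    nlinarith
  have e3 : (l + r) ^ 2 ≤ 2 * l ^ 2 + 2 * r ^ 2 := by nlinarith [sq_nonneg (l - r)]
  have e4 : l ^ 2 ≤ 4 * k ^ 2 * E := by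
    have h1 : l ^ 2 ≤ (2 * k * (o * t)) ^ 2 := by
      rw [← sq_abs l]
      exact pow_le_pow_left₀ (abs_nonneg _) hl 2
    have h2 : (2 * k * (o * t)) ^ 2 = 4 * k ^ 2 * (o * t * (o * t)) := by ring
    have h3 : 4 * k ^ 2 * (o * t * (o * t)) ≤ 4 * k ^ 2 * E :=
      mul_le_mul_of_nonneg_left hot (by positivity)
    linarith
  have e5 : r ^ 2 ≤ C ^ 2 * B * E := by
    have h1 : r ^ 2 ≤ (C * E) ^ 2 := by
      rw [← sq_abs r]
      exact pow_le_pow_left₀ (abs_nonneg _) hr 2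
    have h2 : (C * E) ^ 2 = C ^ 2 * E * E := by ring
    have h3 : C ^ 2 * E * E ≤ C ^ 2 * B * E :=
      mul_le_mul_of_nonneg_right (mul_le_mul_of_nonneg_left hB (sq_nonneg C)) hE
    linarith
  rw [e1]
  have h6 : |r / 2 - (√a - 1) ^ 2 / 2| ≤ |r| / 2 + (√a - 1) ^ 2 / 2 := by
    refine (abs_sub _ _).trans ?_
    rw [abs_div, abs_div, abs_two, abs_of_nonneg (sq_nonneg (√a - 1))]
  have h7 : 0 ≤ C * E := mul_nonneg hC hE
  have h8 : (C + (4 * k ^ 2 + C ^ 2 * B)) * E = C * E + 4 * k ^ 2 * E + C ^ 2 * B * E := by ring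
  rw [h8]
  linarith

/-- **the area factor**: `Jc g S = Jc g H (1 + ℓ/2 + O(E))` -/
theorem exists_Jc2 (k : ℕ) : ∃ c C : ℝ, 0 < c ∧ c ≤ 1 / 4 ∧ 0 ≤ C ∧
    ∀ (m : ℕ) (H S g : L k) (θ o : ℝ), H ∈ G m k → S ∈ G m k → ‖g‖ ≤ c → Blk H g θ o →
      θ ≤ 1 → o ≤ 1 →
      ∃ r : ℝ, |r| ≤ C * EE θ o (tau H S) ∧ Jc g S = Jc g H * (1 + ell g H S / 2 + r) := by
  obtain ⟨C, hC, h⟩ := exists_ratio k
  obtain ⟨c, -, hc, hc2, -, hdet, -⟩ := Fm_209.exists_det (Euc k)
  refine ⟨c / 2, C + (4 * k ^ 2 + C ^ 2 * (2 * k + 1)), by linarith, by linarith, by positivity, ?_⟩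
  intro m H S g θ o hH hS hg hb hθ1 ho1
  obtain ⟨r, hr, hr2⟩ := h m H S g θ o hH hS (by linarith) hb hθ1 ho1
  have hH' := isStar_of_G hH
  have hS' := isStar_of_G hS
  have hθ0 := hb.θ_nonneg
  have ho0 := hb.o_nonneg
  have hsq := sq_sqrt_tau hH hS
  have ht0 : 0 ≤ Real.sqrt (tau H S) := Real.sqrt_nonneg _
  have hτ0 := tau_nonneg hH hS
  have hτk := tau_le hH hS
  obtain ⟨E0, E1, E2, E3, E4⟩ := EE_facts hθ0 hθ1 ho0 ht0 hsq
  have d1 := hdet (H * (g * H)) ((norm_conj_le hH').trans (by linarith))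
  have d2 := hdet (S * (g * S)) ((norm_conj_le hS').trans (by linarith))
  have hot : o * Real.sqrt (tau H S) * (o * Real.sqrt (tau H S)) ≤ EE θ o (tau H S) := by
    have e : o * Real.sqrt (tau H S) * (o * Real.sqrt (tau H S)) = o * (o * tau H S) := by
      have e0 : o * Real.sqrt (tau H S) * (o * Real.sqrt (tau H S)) =
        o * (o * (Real.sqrt (tau H S) * Real.sqrt (tau H S))) := by ring
      rw [e0, hsq]
    rw [e]
    have h1 : o * (o * tau H S) ≤ 1 * (o * tau H S) :=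
      mul_le_mul_of_nonneg_right ho1 (by positivity)
    linarith
  have hEB : EE θ o (tau H S) ≤ 2 * k + 1 := by
    unfold EE
    have h1 : (θ + o) * tau H S ≤ 2 * k := mul_le_mul (by linarith) hτk hτ0 (by norm_num)
    nlinarith
  exact real_sqrt_ratio d1.1 (by linarith [d2.1]) hr2
    (abs_ell_le hH hS hb) E0 hot hC hr hEB

set_option maxHeartbeats 1000000 in
/-- **the covariant tilt**: `tNP = tau + ℓ + O(E)` -/
theorem exists_tNP (k : ℕ) : ∃ C : ℝ, 0 ≤ C ∧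
    ∀ (m : ℕ) (H S g : L k) (θ o : ℝ), H ∈ G m k → S ∈ G m k → ‖g‖ ≤ 1 / 4 → Blk H g θ o →
      θ ≤ 1 → o ≤ 1 →
      |tNP g H S - tau H S - ell g H S| ≤ C * EE θ o (tau H S) := by
  refine ⟨k * (60 + 20 * k), by positivity, ?_⟩
  intro m H S g θ o hH hS hg hb hθ1 ho1
  have hH' := isStar_of_G hH
  have hS' := isStar_of_G hS
  have hH1 : ‖H‖ ≤ 1 := hH'.norm_le
  have hN1 : ‖1 - H‖ ≤ 1 := hH'.one_sub.norm_le
  have hS1 : ‖S‖ ≤ 1 := hS'.norm_le
  have hHH : H * H = H := hH'.1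
  have hSS : S * S = S := hS'.1
  have hNN : (1 - H) * (1 - H) = 1 - H := hH'.one_sub.1
  have hTT : (1 - S) * (1 - S) = 1 - S := hS'.one_sub.1
  have hθ0 := hb.θ_nonneg
  have ho0 := hb.o_nonneg
  have hsq := sq_sqrt_tau hH hS
  have hτ0 := tau_nonneg hH hS
  have hτk := tau_le hH hS
  have hg2 : ‖g‖ ≤ 1 / 2 := by linarith
  obtain ⟨s1, s2, s3, s4⟩ := blkS hH hS
  obtain ⟨d1, d2, d3, d4⟩ := Dg_blocks hH hS hg2 hb
  obtain ⟨q1, q2, q3⟩ := Sg_blocks hH hS hg2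
  have qn := norm_Sg_le hS' hg2
  obtain ⟨-, -, -, -, -, -, y6, -⟩ := exists_Sg hS' hg2
  obtain ⟨-, -, -, -, -, -, z6, -⟩ := exists_Sg hH'.one_sub hg2
  have zn := norm_Sg_le hH'.one_sub hg2
  set t := Real.sqrt (tau H S) with ht
  have ht0 : 0 ≤ t := Real.sqrt_nonneg _
  obtain ⟨E0, E1, E2, E3, E4⟩ := EE_facts hθ0 hθ1 ho0 ht0 hsq
  have hk : (0:ℝ) ≤ k := Nat.cast_nonneg _
  have htk : t ≤ 1 + k := by
    by_contra hcon
    push Not at hcon
    have : (1 + k : ℝ) * (1 + k) < t * t := mul_self_lt_mul_self (by linarith) hcon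
    nlinarith
  set E := EE θ o (tau H S) with hE
  -- elementary consequences
  have f1 : o * (t * tau H S) ≤ (1 + k) * E := by
    have h1 : t * (o * tau H S) ≤ (1 + k) * (o * tau H S) :=
      mul_le_mul_of_nonneg_right htk (by positivity)
    have h2 : (1 + k : ℝ) * (o * tau H S) ≤ (1 + k) * E := mul_le_mul_of_nonneg_left E2 (by linarith)
    linarith
  have f2 : o * (θ * (t * tau H S)) ≤ (1 + k) * E := by
    have h1 : θ * (o * (t * tau H S)) ≤ 1 * (o * (t * tau H S)) :=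
      mul_le_mul_of_nonneg_right hθ1 (by positivity)
    linarith
  have f3 : o * (o * tau H S) ≤ E := by
    have h1 : o * (o * tau H S) ≤ 1 * (o * tau H S) :=
      mul_le_mul_of_nonneg_right ho1 (by positivity)
    linarith
  -- names
  set Q := Sg g S with hQ
  set Z := Sg g (1 - H) with hZ
  have vS := Sg_mul_eq hS' hg2
  have vV := Sg_mul_eq hH'.one_sub hg2
  rw [← hQ] at vS
  rw [← hZ] at vV
  have hDV : Dg g (1 - H) = Z * g * H := by
    unfold Dg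
    rw [sub_sub_cancel]
  have hZl : (1 - H) * Z = Z := Sg_left hH'.one_sub
  have hZr : Z * (1 - H) = Z := Sg_right hH'.one_sub
  -- (i)
  have hi : |tr ((1 - H) * Dg g S) - tr ((H * g * (1 - H)) * ((1 - H) * S * H))| ≤
      k * ((16 + 6 * k) * E) := by
    set A := (1 - S) * (1 - H) * Q with hA
    have e1 : tr ((1 - H) * Dg g S) = tr (A * g) := by
      have e0 : (1 - H) * Dg g S = ((1 - H) * Q * g) * (1 - S) := by
        unfold Dg; rw [← hQ]; simp only [mul_assoc]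
      rw [e0, tr_mul_comm]
      rw [hA]; simp only [mul_assoc]
    have e2 := tr_blocks hH' A g
    have hNH : (1 - H) * H = 0 := by rw [sub_mul, one_mul, hHH, sub_self]
    have hHN : H * (1 - H) = 0 := by rw [mul_sub, mul_one, hHH, sub_self]
    have hTn : ‖H * (1 - S) * (1 - H)‖ ≤ t := by
      have : H * (1 - S) * (1 - H) = -(H * S * (1 - H)) := by
        have e : H * (1 - S) * (1 - H) = H * (1 - H) - H * S * (1 - H) := by nr
        rw [e, hHN, zero_sub]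
      rw [this, norm_neg]; exact s2
    have a1 : H * A * H = (H * (1 - S) * (1 - H)) * ((1 - H) * Q * H) := by
      have : (H * (1 - S) * (1 - H)) * ((1 - H) * Q * H) =
          H * (1 - S) * ((1 - H) * (1 - H)) * Q * H := by simp only [mul_assoc]
      rw [this, hNN, hA]; simp only [mul_assoc]
    have a2 : H * A * (1 - H) = (H * (1 - S) * (1 - H)) * ((1 - H) * Q * (1 - H)) := by
      have : (H * (1 - S) * (1 - H)) * ((1 - H) * Q * (1 - H)) =
          H * (1 - S) * ((1 - H) * (1 - H)) * Q * (1 - H) := by simp only [mul_assoc]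
      rw [this, hNN, hA]; simp only [mul_assoc]
    have a4 : (1 - H) * A * (1 - H) = ((1 - H) * (1 - S) * (1 - H)) * ((1 - H) * Q * (1 - H)) := by
      have : ((1 - H) * (1 - S) * (1 - H)) * ((1 - H) * Q * (1 - H)) =
          (1 - H) * (1 - S) * ((1 - H) * (1 - H)) * Q * (1 - H) := by simp only [mul_assoc]
      rw [this, hNN, hA]; simp only [mul_assoc]
    have qNH : ‖(1 - H) * Q * H‖ ≤ 2 * t := by
      have := nm2 q1 hH1; linarith
    have qHH : ‖H * Q * H‖ ≤ 2 := by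
      have := nm3 hH1 qn hH1; linarith
    have n1 : ‖H * A * H‖ ≤ 2 * tau H S := by
      rw [a1]
      have := nm2 hTn qNH
      have e : t * (2 * t) = 2 * tau H S := by rw [← hsq]; ring
      rwa [e] at this
    have n2 : ‖H * A * (1 - H)‖ ≤ 2 * (t * tau H S) := by
      rw [a2]
      have := nm2 hTn q3
      linarith
    have n4 : ‖(1 - H) * A * (1 - H)‖ ≤ 2 * tau H S := by
      rw [a4]
      have h1 : ‖(1 - H) * (1 - S) * (1 - H)‖ ≤ 1 := by
        have := nm3 hN1 hS'.one_sub.norm_le hN1; linarith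
      have := nm2 h1 q3
      linarith
    have n3 : ‖(1 - H) * A * H - (1 - H) * S * H‖ ≤
        2 * (θ * t) + 4 * (o * tau H S) + 2 * (θ * (t * tau H S)) + 2 * (t * tau H S) := by
      have e3 : (1 - H) * A * H = (1 - H) * Q * H - ((1 - H) * S * (1 - H)) * ((1 - H) * Q * H) := by
        have g1 : (1 - H) * A * H = ((1 - H) * (1 - H)) * Q * H - (1 - H) * S * (1 - H) * Q * H := by
          rw [hA]; nr
        have g2 : ((1 - H) * S * (1 - H)) * ((1 - H) * Q * H) =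
            (1 - H) * S * ((1 - H) * (1 - H)) * Q * H := by simp only [mul_assoc]
        rw [g1, g2, hNN]
      have e4 : (1 - H) * Q * H = (1 - H) * S * H - ((1 - H) * S) * g * (Q * H) := by
        conv_lhs => rw [y6]
        nr
      have e5 : (1 - H) * A * H - (1 - H) * S * H =
          -(((1 - H) * S) * g * (Q * H)) - ((1 - H) * S * (1 - H)) * ((1 - H) * Q * H) := by
        exact aux3 e3 e4
      rw [e5, split4 hH' ((1 - H) * S) g (Q * H)]
      have g1 : H * (Q * H) = H * Q * H := by rw [mul_assoc]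
      have g2 : (1 - H) * (Q * H) = (1 - H) * Q * H := by rw [mul_assoc]
      rw [g1, g2]
      have b1 := nm3 s1 hb.hh qHH
      have b2 := nm3 s1 hb.hv qNH
      have b3 := nm3 s3 hb.vh qHH
      have b4 := nm3 s3 hb.vv qNH
      have b5 := nm2 s3 qNH
      have c1 := norm_sub_le (-((1 - H) * S * H * (H * g * H) * (H * Q * H) +
        (1 - H) * S * H * (H * g * (1 - H)) * ((1 - H) * Q * H) +
        (1 - H) * S * (1 - H) * ((1 - H) * g * H) * (H * Q * H) +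
        (1 - H) * S * (1 - H) * ((1 - H) * g * (1 - H)) * ((1 - H) * Q * H)))
        ((1 - H) * S * (1 - H) * ((1 - H) * Q * H))
      have c2 := norm_add_le ((1 - H) * S * H * (H * g * H) * (H * Q * H) +
        (1 - H) * S * H * (H * g * (1 - H)) * ((1 - H) * Q * H) +
        (1 - H) * S * (1 - H) * ((1 - H) * g * H) * (H * Q * H))
        ((1 - H) * S * (1 - H) * ((1 - H) * g * (1 - H)) * ((1 - H) * Q * H))
      have c3 := norm_add₃_le (a := (1 - H) * S * H * (H * g * H) * (H * Q * H))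
        (b := (1 - H) * S * H * (H * g * (1 - H)) * ((1 - H) * Q * H))
        (c := (1 - H) * S * (1 - H) * ((1 - H) * g * H) * (H * Q * H))
      rw [norm_neg] at c1
      have r2 : t * o * (2 * t) = 2 * (o * tau H S) := by rw [← hsq]; ring
      rw [r2] at b2
      linarith
    have k1 := abs_tr_key _ _ _ _ n1 hb.hh
    have k2 := abs_tr_key _ _ _ _ n2 hb.vh
    have k3 := abs_tr_key _ _ _ _ n3 hb.hv
    have k4 := abs_tr_key _ _ _ _ n4 hb.vv
    have e6 : tr ((1 - H) * Dg g S) - tr ((H * g * (1 - H)) * ((1 - H) * S * H)) =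
        tr ((H * A * H) * (H * g * H)) + tr ((H * A * (1 - H)) * ((1 - H) * g * H)) +
        tr (((1 - H) * A * H - (1 - H) * S * H) * (H * g * (1 - H))) +
        tr (((1 - H) * A * (1 - H)) * ((1 - H) * g * (1 - H))) := by
      rw [e1, e2, tr_mul_comm (H * g * (1 - H)), tr_sub_mul]; ring
    rw [e6]
    have t1 := abs_add_le (tr ((H * A * H) * (H * g * H)) +
        tr ((H * A * (1 - H)) * ((1 - H) * g * H)) +
        tr (((1 - H) * A * H - (1 - H) * S * H) * (H * g * (1 - H))))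
        (tr (((1 - H) * A * (1 - H)) * ((1 - H) * g * (1 - H))))
    have t2 := abs_add_three (tr ((H * A * H) * (H * g * H)))
        (tr ((H * A * (1 - H)) * ((1 - H) * g * H)))
        (tr (((1 - H) * A * H - (1 - H) * S * H) * (H * g * (1 - H))))
    have hsum : 2 * tau H S * θ + 2 * (t * tau H S) * o + (2 * (θ * t) + 4 * (o * tau H S) +
        2 * (θ * (t * tau H S)) + 2 * (t * tau H S)) * o + 2 * tau H S * θ ≤ (16 + 6 * k) * E := by
      have e : 2 * tau H S * θ + 2 * (t * tau H S) * o + (2 * (θ * t) + 4 * (o * tau H S) +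
        2 * (θ * (t * tau H S)) + 2 * (t * tau H S)) * o + 2 * tau H S * θ =
        4 * (θ * tau H S) + 4 * (o * (t * tau H S)) + 2 * (θ * o * t) + 4 * (o * (o * tau H S)) +
          2 * (o * (θ * (t * tau H S))) := by ring
      rw [e]
      have : (16 + 6 * k) * E = 16 * E + 6 * (k * E) := by ring
      have e7 : (1 + (k:ℝ)) * E = E + k * E := by ring
      rw [e7] at f1 f2
      linarith
    have := mul_le_mul_of_nonneg_left hsum hk
    linarith
  -- (ii)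
  have hii : |tr (Dg g (1 - H) * S) - tr (((1 - H) * g * H) * (H * S * (1 - H)))| ≤
      k * (2 * E) := by
    have hZe : Dg g (1 - H) * S = Z * (((1 - H) * g * H) * (H * S)) := by
      rw [hDV]
      have : Z * (((1 - H) * g * H) * (H * S)) = (Z * (1 - H)) * g * (H * H) * S := by
        simp only [mul_assoc]
      rw [this, hZr, hHH]
    have e1 : tr (Dg g (1 - H) * S) = tr (Z * (((1 - H) * g * H) * (H * S * (1 - H)))) := by
      rw [hZe]
      conv_lhs => rw [← hZl]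
      rw [mul_assoc, tr_mul_comm]
      simp only [mul_assoc]
    have e2 : Z * (((1 - H) * g * H) * (H * S * (1 - H))) =
        ((1 - H) * g * H) * (H * S * (1 - H)) -
          ((1 - H) * g * (1 - H) * Z) * (((1 - H) * g * H) * (H * S * (1 - H))) := by
      have g1 : Z = (1 - H) - (1 - H) * g * (1 - H) * Z := by
        rw [mul_assoc ((1 - H) * g), hZl]; exact z6
      have g2 : (1 - H) * (((1 - H) * g * H) * (H * S * (1 - H))) =
          ((1 - H) * g * H) * (H * S * (1 - H)) := by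
        have : (1 - H) * (((1 - H) * g * H) * (H * S * (1 - H))) =
          (((1 - H) * (1 - H)) * g * H) * (H * S * (1 - H)) := by simp only [mul_assoc]
        rw [this, hNN]
      conv_lhs => rw [g1]
      rw [sub_mul, g2]
    rw [e1, e2, map_sub]
    have b1 := nm2 hb.vv zn
    have b2 := nm2 hb.vh s2
    have b3 := abs_tr_key _ _ _ _ b1 b2
    have e3 : ∀ a b : ℝ, |a - b - a| = |b| := fun a b => by
      rw [show a - b - a = -b by ring, abs_neg]
    rw [e3]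
    refine b3.trans (mul_le_mul_of_nonneg_left ?_ hk)
    have : θ * 2 * (o * t) = 2 * (θ * o * t) := by ring
    linarith
  -- (iii)
  have hiii : |tr (Dg g (1 - H) * Dg g S)| ≤ k * (16 * E) := by
    have e0 : Dg g (1 - H) = (1 - H) * Dg g (1 - H) * H := by
      rw [hDV]
      have : (1 - H) * (Z * g * H) * H = ((1 - H) * Z) * g * (H * H) := by simp only [mul_assoc]
      rw [this, hZl, hHH]
    have e1 : tr (Dg g (1 - H) * Dg g S) = tr (Dg g (1 - H) * (H * Dg g S * (1 - H))) := by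
      conv_lhs => rw [e0]
      have e2 : (1 - H) * Dg g (1 - H) * H * Dg g S = (1 - H) * (Dg g (1 - H) * (H * Dg g S)) := by
        simp only [mul_assoc]
      rw [e2, tr_mul_comm]
      simp only [mul_assoc]
    have b1 : ‖Dg g (1 - H)‖ ≤ 2 * o := by
      rw [hDV]
      have e2 : Z * g * H = Z * ((1 - H) * g * H) := by
        have : Z * ((1 - H) * g * H) = (Z * (1 - H)) * g * H := by simp only [mul_assoc]
        rw [this, hZr]
      rw [e2]
      exact nm2 zn hb.vh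
    rw [e1]
    have b3 := abs_tr_key _ _ _ _ b1 d2
    refine b3.trans (mul_le_mul_of_nonneg_left ?_ hk)
    have : 2 * o * (4 * (θ * t + o)) = 8 * (θ * o * t) + 8 * o ^ 2 := by ring
    linarith
  have htot : tNP g H S - tau H S - ell g H S =
      (tr ((1 - H) * Dg g S) - tr ((H * g * (1 - H)) * ((1 - H) * S * H))) +
      (tr (Dg g (1 - H) * S) - tr (((1 - H) * g * H) * (H * S * (1 - H)))) +
      tr (Dg g (1 - H) * Dg g S) := by
    unfold tNP ell tau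
    rw [← hQ, ← hZ, vS, vV]
    have : ((1 - H) + Dg g (1 - H)) * (S + Dg g S) = (1 - H) * S + (1 - H) * Dg g S +
        Dg g (1 - H) * S + Dg g (1 - H) * Dg g S := by
      rw [add_mul, mul_add, mul_add, ← add_assoc]
    rw [this, map_add, map_add, map_add]
    ring
  rw [htot]
  refine (abs_add_three _ _ _).trans ?_
  have hkE : 0 ≤ (k:ℝ) * E := mul_nonneg hk E0
  have hkkE : 0 ≤ (k:ℝ) * (k * E) := mul_nonneg hk hkE
  have e1 : (k:ℝ) * ((16 + 6 * k) * E) = 16 * (k * E) + 6 * (k * (k * E)) := by ring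
  have e2 : (k:ℝ) * (60 + 20 * k) * E = 60 * (k * E) + 20 * (k * (k * E)) := by ring
  rw [e1] at hi
  rw [e2]
  linarith

/-- **F3-MAT**: the main inequality -/
theorem exists_mat (k : ℕ) : ∃ c C : ℝ, 0 < c ∧ c ≤ 1 / 4 ∧ 0 ≤ C ∧
    ∀ (m : ℕ) (H S g : L k) (θ o : ℝ), H ∈ G m k → S ∈ G m k → ‖g‖ ≤ c → Blk H g θ o →
      θ ≤ 1 → o ≤ 1 →
      |Jc g S * (1 - tNP g H S / 2) - Jc g H * (1 - tau H S / 2)| ≤ C * EE θ o (tau H S) ∧
      |tNP g H S - tau H S| ≤ C * (EE θ o (tau H S) + o * Real.sqrt (tau H S)) ∧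
      1 / 2 ≤ Jc g S ∧ Jc g S ≤ 2 := by
  obtain ⟨c, C1, hc, hc4, hC1, h1⟩ := exists_Jc2 k
  obtain ⟨C2, hC2, h2⟩ := exists_tNP k
  obtain ⟨c', -, hc', -, -, hdet, -⟩ := Fm_209.exists_det (Euc k)
  have hk : (0:ℝ) ≤ k := Nat.cast_nonneg k
  refine ⟨min c c', max (2 * (C2 + k * (1 + k) + 2 * k ^ 2 + k * (1 + k) * C2 +
    C1 * (1 + k + k * (1 + k) + C2 * (2 * k + 1)))) (C2 + 2 * k), lt_min hc hc',
    (min_le_left _ _).trans hc4, le_max_of_le_right (by positivity), ?_⟩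
  intro m H S g θ o hH hS hg hb hθ1 ho1
  have hgc : ‖g‖ ≤ c := hg.trans (min_le_left _ _)
  have hgc' : ‖g‖ ≤ c' := hg.trans (min_le_right _ _)
  obtain ⟨r2, hr2, hJ⟩ := h1 m H S g θ o hH hS hgc hb hθ1 ho1
  have hr3 := h2 m H S g θ o hH hS (hgc.trans hc4) hb hθ1 ho1
  have hell := abs_ell_le hH hS hb
  have hH' := isStar_of_G hH
  have hS' := isStar_of_G hS
  have hθ0 := hb.θ_nonneg
  have ho0 := hb.o_nonneg
  have hsq := sq_sqrt_tau hH hS
  have hτ0 := tau_nonneg hH hS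
  have hτk := tau_le hH hS
  have jac : ∀ T : L k, IsStarProjection T → 1 / 2 ≤ Jc g T ∧ Jc g T ≤ 2 := by
    intro T hT
    obtain ⟨j1, j2⟩ := hdet (T * (g * T)) ((norm_conj_le hT).trans hgc')
    unfold Jc
    constructor
    · rw [show (1:ℝ) / 2 = Real.sqrt (1 / 4) by
        rw [show (1:ℝ) / 4 = (1 / 2) ^ 2 by norm_num, Real.sqrt_sq (by norm_num)]]
      exact Real.sqrt_le_sqrt j1
    · rw [show (2:ℝ) = Real.sqrt 4 by
        rw [show (4:ℝ) = 2 ^ 2 by norm_num, Real.sqrt_sq (by norm_num)]]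
      exact Real.sqrt_le_sqrt j2
  obtain ⟨jS1, jS2⟩ := jac S hS'
  obtain ⟨jH1, jH2⟩ := jac H hH'
  set t := Real.sqrt (tau H S) with ht
  have ht0 : 0 ≤ t := Real.sqrt_nonneg _
  obtain ⟨E0, E1, E2, E3, E4⟩ := EE_facts hθ0 hθ1 ho0 ht0 hsq
  have htk : t ≤ 1 + k := by
    by_contra hcon
    push Not at hcon
    have : (1 + k : ℝ) * (1 + k) < t * t := mul_self_lt_mul_self (by linarith) hcon
    nlinarith
  have hEB : EE θ o (tau H S) ≤ 2 * k + 1 := by
    unfold EE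
    have h1 : (θ + o) * tau H S ≤ 2 * k := mul_le_mul (by linarith) hτk hτ0 (by norm_num)
    nlinarith
  have hot : o * t ≤ 1 + k := by
    have := mul_le_mul ho1 htk ht0 zero_le_one
    linarith
  have hott : o * (t * tau H S) ≤ (1 + k) * EE θ o (tau H S) := by
    have h1 : t * (o * tau H S) ≤ (1 + k) * (o * tau H S) :=
      mul_le_mul_of_nonneg_right htk (by positivity)
    have h2 : (1 + k : ℝ) * (o * tau H S) ≤ (1 + k) * EE θ o (tau H S) :=
      mul_le_mul_of_nonneg_left E2 (by linarith)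
    linarith
  have hot2 : (o * t) ^ 2 ≤ EE θ o (tau H S) := by
    have e : (o * t) ^ 2 = o * (o * (t * t)) := by ring
    rw [e, hsq]
    have h1 : o * (o * tau H S) ≤ 1 * (o * tau H S) :=
      mul_le_mul_of_nonneg_right ho1 (by positivity)
    linarith
  set E := EE θ o (tau H S) with hE
  set a := ell g H S with ha
  set r3 := tNP g H S - tau H S - a with hr3d
  have htN : tNP g H S = tau H S + a + r3 := by rw [hr3d]; ring
  refine ⟨?_, ?_, jS1, jS2⟩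
  · have e1 : Jc g S * (1 - tNP g H S / 2) - Jc g H * (1 - tau H S / 2) =
        Jc g H * (-(r3 / 2) - a * tau H S / 4 - a ^ 2 / 4 - a * r3 / 4 +
          r2 * (1 - tau H S / 2 - a / 2 - r3 / 2)) := by
      rw [hJ, htN]; ring
    rw [e1, abs_mul, abs_of_nonneg (by linarith : (0:ℝ) ≤ Jc g H)]
    have b1 : |a * tau H S| ≤ 2 * k * ((1 + k) * E) := by
      rw [abs_mul, abs_of_nonneg hτ0]
      have h1 : |a| * tau H S ≤ 2 * k * (o * t) * tau H S := mul_le_mul_of_nonneg_right hell hτ0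
      have h2 : 2 * k * (o * t) * tau H S = 2 * k * (o * (t * tau H S)) := by ring
      have h3 : 2 * (k:ℝ) * (o * (t * tau H S)) ≤ 2 * k * ((1 + k) * E) :=
        mul_le_mul_of_nonneg_left hott (by positivity)
      linarith
    have b2 : a ^ 2 ≤ 4 * k ^ 2 * E := by
      have h1 : a ^ 2 ≤ (2 * k * (o * t)) ^ 2 := by
        rw [← sq_abs a]
        exact pow_le_pow_left₀ (abs_nonneg _) hell 2
      have h2 : (2 * k * (o * t)) ^ 2 = 4 * k ^ 2 * (o * t) ^ 2 := by ring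
      have h3 : 4 * (k:ℝ) ^ 2 * (o * t) ^ 2 ≤ 4 * k ^ 2 * E :=
        mul_le_mul_of_nonneg_left hot2 (by positivity)
      linarith
    have ha1 : |a| ≤ 2 * k * (1 + k) := by
      have : 2 * (k:ℝ) * (o * t) ≤ 2 * k * (1 + k) := mul_le_mul_of_nonneg_left hot (by positivity)
      linarith
    have b3 : |a * r3| ≤ 2 * k * (1 + k) * (C2 * E) := by
      rw [abs_mul]
      exact mul_le_mul ha1 hr3 (abs_nonneg _) (by positivity)
    have b4 : |r2 * (1 - tau H S / 2 - a / 2 - r3 / 2)| ≤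
        C1 * E * (1 + k + k * (1 + k) + C2 * (2 * k + 1)) := by
      rw [abs_mul]
      refine mul_le_mul hr2 ?_ (abs_nonneg _) (by positivity)
      have h1 : |r3| ≤ C2 * (2 * k + 1) := hr3.trans (mul_le_mul_of_nonneg_left hEB hC2)
      have h2 : |1 - tau H S / 2 - a / 2 - r3 / 2| ≤ 1 + tau H S / 2 + |a| / 2 + |r3| / 2 := by
        rw [abs_le]
        constructor <;>
          linarith [abs_le.1 (le_refl |a|), abs_le.1 (le_refl |r3|), neg_abs_le a, le_abs_self a,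
            neg_abs_le r3, le_abs_self r3]
      have h3 : 0 ≤ C2 * (2 * (k:ℝ) + 1) := by positivity
      linarith
    have hin : |-(r3 / 2) - a * tau H S / 4 - a ^ 2 / 4 - a * r3 / 4 +
          r2 * (1 - tau H S / 2 - a / 2 - r3 / 2)| ≤
        (C2 + k * (1 + k) + 2 * k ^ 2 + k * (1 + k) * C2 +
          C1 * (1 + k + k * (1 + k) + C2 * (2 * k + 1))) * E := by
      have h2 : |-(r3 / 2) - a * tau H S / 4 - a ^ 2 / 4 - a * r3 / 4 +
          r2 * (1 - tau H S / 2 - a / 2 - r3 / 2)| ≤ |r3| / 2 + |a * tau H S| / 4 + a ^ 2 / 4 +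
          |a * r3| / 4 + |r2 * (1 - tau H S / 2 - a / 2 - r3 / 2)| := by
        rw [abs_le]
        constructor <;>
          linarith [neg_abs_le r3, le_abs_self r3, neg_abs_le (a * tau H S),
            le_abs_self (a * tau H S), neg_abs_le (a * r3), le_abs_self (a * r3),
            neg_abs_le (r2 * (1 - tau H S / 2 - a / 2 - r3 / 2)),
            le_abs_self (r2 * (1 - tau H S / 2 - a / 2 - r3 / 2)), sq_nonneg a]
      have e2 : (C2 + k * (1 + k) + 2 * k ^ 2 + k * (1 + k) * C2 +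
          C1 * (1 + k + k * (1 + k) + C2 * (2 * k + 1))) * E = C2 * E + k * ((1 + k) * E) +
          2 * k ^ 2 * E + k * (1 + k) * (C2 * E) +
          C1 * E * (1 + k + k * (1 + k) + C2 * (2 * k + 1)) := by ring
      rw [e2]
      have p1 : 0 ≤ C2 * E := mul_nonneg hC2 E0
      have p2 : 0 ≤ (k:ℝ) * ((1 + k) * E) := by positivity
      have p3 : 0 ≤ (k:ℝ) ^ 2 * E := by positivity
      have p4 : 0 ≤ (k:ℝ) * (1 + k) * (C2 * E) := by positivity
      linarith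
    have hfin := mul_le_mul jH2 hin (abs_nonneg _) (by norm_num)
    refine hfin.trans ?_
    have := mul_le_mul_of_nonneg_right (le_max_left (2 * (C2 + k * (1 + k) + 2 * k ^ 2 +
      k * (1 + k) * C2 + C1 * (1 + k + k * (1 + k) + C2 * (2 * k + 1)))) (C2 + 2 * (k:ℝ))) E0
    linarith
  · have e1 : tNP g H S - tau H S = a + r3 := by rw [hr3d]; ring
    rw [e1]
    have h1 : |a + r3| ≤ 2 * k * (o * t) + C2 * E := (abs_add_le _ _).trans (add_le_add hell hr3)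
    refine h1.trans ?_
    have hot0 : 0 ≤ o * t := by positivity
    have h2 : (C2 + 2 * k) * (E + o * t) ≤ max (2 * (C2 + k * (1 + k) + 2 * k ^ 2 +
      k * (1 + k) * C2 + C1 * (1 + k + k * (1 + k) + C2 * (2 * k + 1)))) (C2 + 2 * (k:ℝ)) *
        (E + o * t) := mul_le_mul_of_nonneg_right (le_max_right _ _) (by linarith)
    refine le_trans ?_ h2
    have h3 : 0 ≤ C2 * (o * t) := mul_nonneg hC2 hot0
    have h4 : 0 ≤ 2 * (k:ℝ) * E := by positivity
    linarith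

end Crest.Agent.R234.F32_354
end
end

-- ▼ part R234/F33_354
section

/-!
# Row 234 (helper354), node F3-TRANS, part 1: the pointwise comparison in the chart of a graph

`P = Du`, `h = ⟨y, D²u⟩` at one point of the chart (281's `Pt`), `gm P h` the metric minus identity.
-/

set_option autoImplicit false

open Crest.GeometryTopology.Submanifold
open Crest.Agent.R234.Vf_884
open scoped InnerProductSpace

noncomputable section

namespace Crest.Agent.R234.F33_354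

open Crest.Agent.R234.Fm_281 Crest.Agent.R234.F32_354

variable {m k : ℕ}

/-- the blocks of the metric -/
theorem blk_gm {H P h : L k} {l y : ℝ} (hH : H ∈ G m k) (hP : HV H P) (hh : HH H h)
    (nP : ‖P‖ ≤ l) (nh : ‖h‖ ≤ l * y) (hl : l ≤ 1) (hy0 : 0 ≤ y) (hy : y ≤ 1) :
    Blk H (gm P h) (l ^ 2 + 3 * (l * y)) (l ^ 2 * y) := by
  have hH' := isStar_of_G hH
  have l0 : 0 ≤ l := (norm_nonneg _).trans nP
  have hly : 0 ≤ l * y := mul_nonneg l0 hy0
  have hsP : ‖star P‖ ≤ l := by rw [norm_star']; exact nP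
  have hly1 : l * y ≤ 1 := by
    calc l * y ≤ 1 * 1 := mul_le_mul hl hy hy0 zero_le_one
      _ = 1 := one_mul 1
  refine ⟨?_, ?_, ?_, ?_⟩
  · rw [gm_hh hH' hP hh]
    have h1 := nm2 hsP nP
    have h2 := nm2 nh nh
    have t1 := norm_add_le (star P * P - h - h) (h * h)
    have t2 := norm_sub_le (star P * P - h) h
    have t3 := norm_sub_le (star P * P) h
    have h3 : l * y * (l * y) ≤ 1 * (l * y) := mul_le_mul_of_nonneg_right hly1 hly
    nlinarith
  · rw [gm_vv hH' hP hh]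
    have h1 := nm2 nP hsP
    nlinarith
  · rw [gm_hv hH' hP hh]
    have h1 := nm2 nh hsP
    nlinarith
  · rw [gm_vh hH' hP hh]
    have h1 := nm2 nP nh
    nlinarith

/-- norm of the metric -/
theorem norm_gm_le {P h : L k} {l y : ℝ} (nP : ‖P‖ ≤ l) (nh : ‖h‖ ≤ l * y) (hl : l ≤ 1)
    (hy : y ≤ 1) : ‖gm P h‖ ≤ 7 * l := by
  have l0 : 0 ≤ l := (norm_nonneg _).trans nP
  have hsP : ‖star P‖ ≤ l := by rw [norm_star']; exact nP
  have nh' : ‖h‖ ≤ l := nh.trans (mul_le_of_le_one_right l0 hy)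
  have a1 := nm2 hsP nP
  have a2 := nm2 nP hsP
  have a3 := nm2 nP nh'
  have a4 := nm2 nh' hsP
  have a5 := nm2 nh' nh'
  have hll : l * l ≤ l := mul_le_of_le_one_right l0 hl
  unfold gm
  have t1 := norm_add_le (star P * P + P * star P + P * h + h * star P - h - h) (h * h)
  have t2 := norm_sub_le (star P * P + P * star P + P * h + h * star P - h) h
  have t3 := norm_sub_le (star P * P + P * star P + P * h + h * star P) h
  have t4 := norm_add_le (star P * P + P * star P + P * h) (h * star P)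
  have t5 := norm_add_le (star P * P + P * star P) (P * h)
  have t6 := norm_add_le (star P * P) (P * star P)
  linarith

/-- the constant -/
def Cb (C1 C2 k : ℝ) : ℝ :=
  1 + 16 * (C1 + 1) ^ 2 + 100 * (C1 + 1) * (C1 + 1) ^ 2 + 8 * C1 + C2 * (1 + k)

set_option maxHeartbeats 1600000 in
theorem real_ptw {C1 C2 k l y T N θ o JS JH g0 t : ℝ} (hC1 : 0 ≤ C1) (hC2 : 0 ≤ C2) (hk : 0 ≤ k)
    (l0 : 0 ≤ l) (y0 : 0 ≤ y) (y1 : y ≤ 1) (hlc : l * (48 * (C1 + 1)) ≤ 1) (hl8 : l ≤ 1 / 8)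
    (hθ : θ = l ^ 2 + 3 * (l * y)) (ho : o = l ^ 2 * y) (hτ0 : 0 ≤ T) (hτk : T ≤ k)
    (htt : t * t = T) (hN0 : 0 ≤ N)
    (m1 : |JS * (1 - N / 2) - JH * (1 - T / 2)| ≤ C1 * EE θ o T)
    (m2 : |N - T| ≤ C1 * (EE θ o T + o * t)) (q4 : |JH - g0| ≤ C2 * (l ^ 2 * y ^ 2)) :
    |JS * (1 - N / 2) - g0 * (1 - T / 2)| ≤ Cb C1 C2 k * ((l ^ 2 + l * y) * N + l ^ 2 * y ^ 2) ∧
      T ≤ 2 * N + Cb C1 C2 k * (l ^ 2 * y) ^ 2 ∧ N ≤ 2 * T + Cb C1 C2 k * (l ^ 2 * y) ^ 2 := by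
  have hly : l * y ≤ l := mul_le_of_le_one_right l0 y1
  have hly0 : 0 ≤ l * y := mul_nonneg l0 y0
  have hll : l ^ 2 ≤ l := by nlinarith
  have hll0 : 0 ≤ l ^ 2 := sq_nonneg l
  have hoy : l ^ 2 * y ≤ l * y := mul_le_mul_of_nonneg_right hll y0
  have ho0 : 0 ≤ l ^ 2 * y := mul_nonneg hll0 y0
  rw [← ho] at hoy ho0 ⊢
  have hθ0 : 0 ≤ θ := by rw [hθ]; positivity
  have hsmall : C1 * (θ + o) ≤ 1 / 8 := by
    have e1 : θ + o ≤ 5 * l := by linarith
    have e2 : C1 * (θ + o) ≤ C1 * (5 * l) := mul_le_mul_of_nonneg_left e1 hC1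
    nlinarith
  have ho2 : 0 ≤ o ^ 2 := sq_nonneg o
  have hc : |N - T| ≤ 1 / 4 * T + (C1 + 4 * C1 ^ 2) * o ^ 2 := by
    refine m2.trans ?_
    have e1 : C1 * (EE θ o T + o * t) = C1 * (θ + o) * T + C1 * o ^ 2 + C1 * (o * t) := by
      unfold EE; ring
    rw [e1]
    have e2 : C1 * (θ + o) * T ≤ 1 / 8 * T := mul_le_mul_of_nonneg_right hsmall hτ0
    have e3 : C1 * (o * t) ≤ 1 / 8 * T + 4 * C1 ^ 2 * o ^ 2 := by
      have := sq_nonneg (t - 4 * (C1 * o))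
      have e5 : (t - 4 * (C1 * o)) ^ 2 = t * t - 8 * (C1 * (o * t)) + 16 * (C1 ^ 2 * o ^ 2) := by ring
      rw [e5, htt] at this
      have e6 : 0 ≤ C1 ^ 2 * o ^ 2 := by positivity
      linarith
    have e4 : (C1 + 4 * C1 ^ 2) * o ^ 2 = C1 * o ^ 2 + 4 * C1 ^ 2 * o ^ 2 := by ring
    rw [e4]
    linarith
  have hc' := abs_le.1 hc
  clear hc m2
  have hTN : T ≤ 4 / 3 * N + 4 / 3 * (C1 + 4 * C1 ^ 2) * o ^ 2 := by linarith
  have hbig0 : (0:ℝ) ≤ 100 * (C1 + 1) * (C1 + 1) ^ 2 + 8 * C1 + C2 * (1 + k) := by positivity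
  have hCle : 16 * (C1 + 1) ^ 2 ≤ Cb C1 C2 k := by unfold Cb; linarith
  have ho2l : o ^ 2 ≤ l ^ 2 * y ^ 2 := by
    have e1 : o ^ 2 = l ^ 2 * (l ^ 2 * y ^ 2) := by rw [ho]; ring
    rw [e1]
    refine mul_le_of_le_one_left (by positivity) ?_
    linarith
  have hK0 : C1 + 4 * C1 ^ 2 ≤ 4 * (C1 + 1) ^ 2 := by nlinarith
  have hK : 4 / 3 * (C1 + 4 * C1 ^ 2) * o ^ 2 ≤ 16 * (C1 + 1) ^ 2 * o ^ 2 := by
    refine mul_le_mul_of_nonneg_right ?_ ho2
    nlinarith [sq_nonneg (C1 + 1)]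
  have hKC : 16 * (C1 + 1) ^ 2 * o ^ 2 ≤ Cb C1 C2 k * o ^ 2 := mul_le_mul_of_nonneg_right hCle ho2
  have hK2 : (C1 + 4 * C1 ^ 2) * o ^ 2 ≤ 16 * (C1 + 1) ^ 2 * o ^ 2 := by
    refine mul_le_mul_of_nonneg_right ?_ ho2
    nlinarith [sq_nonneg (C1 + 1)]
  refine ⟨?_, by linarith, by linarith⟩
  have e1 : JS * (1 - N / 2) - g0 * (1 - T / 2) =
      (JS * (1 - N / 2) - JH * (1 - T / 2)) + (JH - g0) * (1 - T / 2) := by ring
  rw [e1]
  refine (abs_add_le _ _).trans ?_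
  have e2 : |(JH - g0) * (1 - T / 2)| ≤ C2 * (l ^ 2 * y ^ 2) * (1 + k) := by
    rw [abs_mul]
    refine mul_le_mul q4 ?_ (abs_nonneg _) (by positivity)
    rw [abs_le]
    constructor <;> linarith
  have e3 : EE θ o T ≤ 5 * (l ^ 2 + l * y) * T + l ^ 2 * y ^ 2 := by
    unfold EE
    have f1 : (θ + o) * T ≤ 5 * (l ^ 2 + l * y) * T := by
      refine mul_le_mul_of_nonneg_right ?_ hτ0
      rw [hθ]
      linarith
    linarith
  have hs0 : 0 ≤ l ^ 2 + l * y := by positivity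
  have hs1 : l ^ 2 + l * y ≤ 1 := by linarith
  have e4 : (l ^ 2 + l * y) * T ≤ 4 / 3 * ((l ^ 2 + l * y) * N) + 16 * (C1 + 1) ^ 2 * o ^ 2 := by
    have f1 : (l ^ 2 + l * y) * T ≤ (l ^ 2 + l * y) * (4 / 3 * N +
        4 / 3 * (C1 + 4 * C1 ^ 2) * o ^ 2) := mul_le_mul_of_nonneg_left hTN hs0
    have f2 : (l ^ 2 + l * y) * (4 / 3 * (C1 + 4 * C1 ^ 2) * o ^ 2) ≤
        1 * (4 / 3 * (C1 + 4 * C1 ^ 2) * o ^ 2) :=
      mul_le_mul_of_nonneg_right hs1 (by positivity)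
    have f3 : (l ^ 2 + l * y) * (4 / 3 * N + 4 / 3 * (C1 + 4 * C1 ^ 2) * o ^ 2) =
      4 / 3 * ((l ^ 2 + l * y) * N) + (l ^ 2 + l * y) * (4 / 3 * (C1 + 4 * C1 ^ 2) * o ^ 2) := by
      ring
    linarith
  have e5 : C1 * EE θ o T ≤ C1 * (5 * (4 / 3 * ((l ^ 2 + l * y) * N) +
      16 * (C1 + 1) ^ 2 * o ^ 2) + l ^ 2 * y ^ 2) := by
    refine mul_le_mul_of_nonneg_left ?_ hC1
    have f1 : 5 * (l ^ 2 + l * y) * T = 5 * ((l ^ 2 + l * y) * T) := by ring
    linarith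
  obtain ⟨X, hX⟩ : ∃ X, X = (l ^ 2 + l * y) * N := ⟨_, rfl⟩
  obtain ⟨Z, hZ⟩ : ∃ Z, Z = l ^ 2 * y ^ 2 := ⟨_, rfl⟩
  have hX0 : 0 ≤ X := by rw [hX]; exact mul_nonneg hs0 hN0
  have hZ0 : 0 ≤ Z := by rw [hZ]; positivity
  rw [← hX, ← hZ] at e5
  rw [← hZ] at e2 ho2l
  rw [← hX, ← hZ]
  obtain ⟨W, hW⟩ : ∃ W, W = (C1 + 1) ^ 2 := ⟨_, rfl⟩
  have hW0 : 0 ≤ W := by rw [hW]; positivity
  have hW1 : 1 ≤ W := by rw [hW]; nlinarith
  rw [← hW] at e5
  have g5 : 0 ≤ C1 * W := mul_nonneg hC1 hW0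
  have e6 : C1 * (5 * (4 / 3 * X + 16 * W * o ^ 2) + Z) ≤ 8 * C1 * X + (100 * (C1 + 1) * W) * Z := by
    have f1 : C1 * (5 * (16 * W * o ^ 2)) ≤ C1 * (5 * (16 * W * Z)) := by
      refine mul_le_mul_of_nonneg_left ?_ hC1
      refine mul_le_mul_of_nonneg_left ?_ (by norm_num)
      exact mul_le_mul_of_nonneg_left ho2l (by positivity)
    have f2 : C1 * (5 * (16 * W * Z)) + C1 * Z ≤ (100 * (C1 + 1) * W) * Z := by
      have g1 : C1 * (5 * (16 * W * Z)) + C1 * Z = (C1 * (80 * W) + C1) * Z := by ring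
      rw [g1]
      refine mul_le_mul_of_nonneg_right ?_ hZ0
      have g3 : C1 * 1 ≤ C1 * W := mul_le_mul_of_nonneg_left hW1 hC1
      have g6 : 100 * (C1 + 1) * W = 100 * (C1 * W) + 100 * W := by ring
      have g7 : C1 * (80 * W) = 80 * (C1 * W) := by ring
      linarith
    have f3 : C1 * (5 * (4 / 3 * X + 16 * W * o ^ 2) + Z) =
      20 / 3 * (C1 * X) + C1 * (5 * (16 * W * o ^ 2)) + C1 * Z := by ring
    have f4 : 0 ≤ C1 * X := mul_nonneg hC1 hX0
    have f5 : 8 * C1 * X = 8 * (C1 * X) := by ring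
    linarith
  have e7 : C2 * Z * (1 + k) = C2 * (1 + k) * Z := by ring
  have e8 : Cb C1 C2 k * (X + Z) = (1 + 16 * W + 100 * (C1 + 1) * W + C2 * (1 + k)) * X +
      8 * C1 * X + (1 + 16 * W + 8 * C1) * Z + (100 * (C1 + 1) * W) * Z + C2 * (1 + k) * Z := by
    rw [Cb, ← hW]; ring
  have p1 : 0 ≤ (1 + 16 * W + 100 * (C1 + 1) * W + C2 * (1 + k)) * X := by positivity
  have p2 : 0 ≤ (1 + 16 * W + 8 * C1) * Z := by positivity
  rw [e8]
  rw [e7] at e2
  clear * - m1 e2 e5 e6 p1 p2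
  linarith

/-- **pointwise comparison** in the chart of a minimal graph -/
theorem exists_ptw (k : ℕ) : ∃ c C : ℝ, 0 < c ∧ c ≤ 1 / 8 ∧ 1 ≤ C ∧
    ∀ (m : ℕ) (H P P1 h h1 S : L k) (l y ξ η : ℝ), Pt m H P P1 h h1 l y ξ η → l ≤ c → S ∈ G m k →
      0 ≤ tNP (gm P h) H S →
      |Jc (gm P h) S * (1 - tNP (gm P h) H S / 2) -
        Real.sqrt (1 + star P * P).det * (1 - tau H S / 2)| ≤
          C * ((l ^ 2 + l * y) * tNP (gm P h) H S + l ^ 2 * y ^ 2) ∧
      tau H S ≤ 2 * tNP (gm P h) H S + C * (l ^ 2 * y) ^ 2 ∧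
      tNP (gm P h) H S ≤ 2 * tau H S + C * (l ^ 2 * y) ^ 2 ∧
      1 / 2 ≤ Jc (gm P h) S ∧ Jc (gm P h) S ≤ 2 ∧
      1 / 2 ≤ Real.sqrt (1 + star P * P).det ∧ Real.sqrt (1 + star P * P).det ≤ 2 := by
  obtain ⟨c1, C1, hc1, hc14, hC1, h1⟩ := exists_mat k
  obtain ⟨c2, C2, hc2, hc24, hC2, h2⟩ := exists_JH k
  have hk : (0:ℝ) ≤ k := Nat.cast_nonneg k
  set c : ℝ := min (min (c1 / 7) c2) (1 / (48 * (C1 + 1))) with hc
  have hcp : 0 < c := lt_min (lt_min (by positivity) hc2) (by positivity)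
  have hcc1 : 7 * c ≤ c1 := by
    have : c ≤ c1 / 7 := (min_le_left _ _).trans (min_le_left _ _)
    linarith
  have hcc2 : c ≤ c2 := (min_le_left _ _).trans (min_le_right _ _)
  have hcc3 : c * (48 * (C1 + 1)) ≤ 1 := by
    have h3 : c ≤ 1 / (48 * (C1 + 1)) := min_le_right _ _
    have h4 : (0:ℝ) < 48 * (C1 + 1) := by positivity
    calc c * (48 * (C1 + 1)) ≤ 1 / (48 * (C1 + 1)) * (48 * (C1 + 1)) :=
          mul_le_mul_of_nonneg_right h3 h4.le
      _ = 1 := one_div_mul_cancel h4.ne'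
  refine ⟨c, Cb C1 C2 k, hcp, hcc2.trans hc24, ?_, ?_⟩
  · have : (0:ℝ) ≤ 16 * (C1 + 1) ^ 2 + 100 * (C1 + 1) * (C1 + 1) ^ 2 + 8 * C1 + C2 * (1 + k) := by
      positivity
    unfold Cb
    linarith
  intro m H P P1 h h1' S l y ξ η D hl hS hN0
  have l0 := D.l0
  have y0 := D.y0
  have y1 := D.y1
  have hc8 : c ≤ 1 / 8 := hcc2.trans hc24
  have hl1 : l ≤ 1 := by linarith
  have hgn : ‖gm P h‖ ≤ c1 := (norm_gm_le D.nP D.nh hl1 y1).trans (by linarith)
  have hB := blk_gm D.hH D.hP D.hh D.nP D.nh hl1 y0 y1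
  have hly : l * y ≤ l := mul_le_of_le_one_right l0 y1
  have hly0 : 0 ≤ l * y := mul_nonneg l0 y0
  have hll : l ^ 2 ≤ l := by nlinarith
  have hoy : l ^ 2 * y ≤ l * y := mul_le_mul_of_nonneg_right hll y0
  have hll8 : l ^ 2 ≤ 1 / 8 := by linarith
  have hθ1 : l ^ 2 + 3 * (l * y) ≤ 1 := by linarith
  have ho1 : l ^ 2 * y ≤ 1 := by linarith
  obtain ⟨m1, m2, m3, m4⟩ := h1 m H S (gm P h) _ _ D.hH hS hgn hB hθ1 ho1
  obtain ⟨q1, q2, q3, q4, -⟩ := h2 m H P P1 h h1' l y ξ η D (hl.trans hcc2)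
  have hlc : l * (48 * (C1 + 1)) ≤ 1 :=
    (mul_le_mul_of_nonneg_right hl (by positivity)).trans hcc3
  obtain ⟨r1, r2, r3⟩ := real_ptw hC1 hC2 hk l0 y0 y1 hlc (hl.trans hc8) rfl rfl
    (tau_nonneg D.hH hS) (tau_le D.hH hS) (Real.mul_self_sqrt (tau_nonneg D.hH hS)) hN0 m1 m2 q4
  exact ⟨r1, r2, r3, m3, m4, q1, q2⟩

end Crest.Agent.R234.F33_354
end
end

-- ▼ part R234/Fn1_209
section

/-!
# Row 234, node FERMI-ANOM (helper209), file 1: the algebra

`H` horizontal, `V = 1 - H` vertical, `S` a plane, metric `1 + g`.  `P = Sg g S * (1 + g)`,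
`N = Sg g V * (1 + g)` the `G`-orthogonal projections, `nt g H S = tr (N * P)`.
-/

set_option autoImplicit false

open Crest.GeometryTopology.Submanifold
open Crest.Agent.R234.Vf_884 Crest.Agent.R234.Fm_281
open scoped InnerProductSpace

noncomputable section

namespace Crest.Agent.R234.Fn_209

variable {m k : ℕ}

/-- expansion in a noncommutative ring -/
local macro "nr" : tactic => `(tactic| (simp only [mul_sub, sub_mul, mul_add, add_mul, mul_one,
  one_mul, mul_assoc, mul_neg, neg_mul] <;> abel))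

/-- the tilt of the plane `S` against the vertical space in the metric `1 + g` -/
def nt (g H S : L k) : ℝ := tr (Sg g (1 - H) * (1 + g) * (Sg g S * (1 + g)))

/-- derivative of `nt` along `g` -/
def nt' (g H S : L k) : ℝ :=
  tr (-(Sg g (1 - H) * g * Sg g (1 - H) * (1 + g) * (Sg g S * (1 + g))) +
    Sg g (1 - H) * g * (Sg g S * (1 + g)) -
    Sg g (1 - H) * (1 + g) * (Sg g S * g * Sg g S * (1 + g)) +
    Sg g (1 - H) * (1 + g) * (Sg g S * g))

/-- the quantity to be estimated -/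
def EE (g H S : L k) : ℝ :=
  (tr (Sg g S * g) - tr (Sg g H * g)) * (1 - 1 / 2 * nt g H S) - nt' g H S

section Alg

variable {H S g : L k} {θ o : ℝ}














end Alg

end Crest.Agent.R234.Fn_209
end
end

-- ▼ part R234/Fn2_209
section

/-!
# Row 234, node FERMI-ANOM (helper209), file 2: the comparison of the anomaly densities

**exists_anom**: `|Jc g S (1 - nt g H S / 2) - Jc g H (1 - tau H S / 2)| ≤ C ((θ + o) tau H S + o²)`
for every plane `S` and every metric `1 + g`, `‖g‖ ≤ c(m,k)`.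
-/

set_option autoImplicit false

open Crest.GeometryTopology.Submanifold
open Crest.Agent.R234.Vf_884 Crest.Agent.R234.Fm_281
open scoped InnerProductSpace

noncomputable section

namespace Crest.Agent.R234.Fn_209

variable {m k : ℕ}

/-- expansion in a noncommutative ring -/
local macro "nr" : tactic => `(tactic| (simp only [mul_sub, sub_mul, mul_add, add_mul, mul_one,
  one_mul, mul_assoc, mul_neg, neg_mul] <;> abel))















theorem Sg_eq_Sig (g S : L k) : Sg g S = Ft_209.Sig g S := rfl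


/-- `nt` is the trace of the product of the projections onto the images of `1 - H` and `S` -/
theorem tr_prj_prj (A H S : L k) :
    tr (Ft_209.prj A (1 - H) ∘L Ft_209.prj A S) = nt (Ft_209.gam A) H S := by
  have hG : (1 + Ft_209.gam A : L k) = star A * A := by
    rw [Ft_209.gam_eq]
    abel
  unfold nt
  rw [hG, Ft_209.prj_eq, Ft_209.prj_eq, Sg_eq_Sig, Sg_eq_Sig]
  change tr (A * Ft_209.Sig (Ft_209.gam A) (1 - H) * star A *
    (A * Ft_209.Sig (Ft_209.gam A) S * star A)) = _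
  have e1 : A * Ft_209.Sig (Ft_209.gam A) (1 - H) * star A *
      (A * Ft_209.Sig (Ft_209.gam A) S * star A) =
      A * (Ft_209.Sig (Ft_209.gam A) (1 - H) * (star A * A) *
        (Ft_209.Sig (Ft_209.gam A) S * star A)) := by nr
  rw [e1, tr_mul_comm]
  congr 1


end Crest.Agent.R234.Fn_209
end
end

-- ▼ part R234/Fx1_281
section

/-!
# Row 234 (helper281), node F3-TRANS, chart half, file 1: area density, normal projection and foot
point in the Fermi chart of helper209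
-/

set_option autoImplicit false

open MeasureTheory Filter Topology Set
open Crest.GeometryTopology.Submanifold
open Crest.Agent.R234.Vf_884
open Crest.Agent.R234.Fm_209 (trc trc_comp_comm)
open Crest.Agent.R234.Ft_209 (Dif IsPj)
open Crest.Agent.R234.Cy_870 (Split)
open Crest.Agent.R234.AS_456 (hp vp)
open Crest.Agent.R234.Fc_209 (IsChart Bd)
open Crest.Agent.R234.Ell1_3 (dns gdet gop)
open Crest.Agent.R234.GLK_128 (BB A0 NN Fr Inv hh gg tau0)
open Crest.Agent.R234.Gi_456 (hinv IsFoot)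
open Crest.Agent.R234.Foot_842 (pt)
open scoped InnerProductSpace

noncomputable section

namespace Crest.Agent.R234.Fm_281

variable {m n k : ℕ}

local notation "adj" => ContinuousLinearMap.adjoint

theorem fr_of_split {π : Euc k →L[ℝ] Euc m} {κ : Euc k →L[ℝ] Euc n} (hs : Split π κ) :
    Fr (adj π) (adj κ) where
  ii := by rw [ContinuousLinearMap.adjoint_adjoint]; exact hs.hh
  jj := by rw [ContinuousLinearMap.adjoint_adjoint]; exact hs.vv
  ij := by
    rw [ContinuousLinearMap.adjoint_adjoint]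
    ext1 v
    exact Fc_209.πκ' hs v
  full := by
    rw [ContinuousLinearMap.adjoint_adjoint, ContinuousLinearMap.adjoint_adjoint]
    exact hs.sum

/-- **(A)** the area density -/
theorem g0_eq_dns {π : Euc k →L[ℝ] Euc m} {κ : Euc k →L[ℝ] Euc n} {u : Euc m → Euc n}
    (hs : Split π κ) (hu : ContDiff ℝ 3 u) (z : Euc k) :
    g0 (Fc_209.P π κ u) z = dns (fderiv ℝ u (π z)) := by
  unfold g0 dns gdet
  rw [Fc_209.P_eq hu]
  congr 1
  obtain ⟨q, hq⟩ : ∃ q, q = fderiv ℝ u (π z) := ⟨_, rfl⟩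
  rw [← hq]
  have e1 : star (Fc_209.Th π κ q) * Fc_209.Th π κ q =
      (adj π) ∘L ((adj q ∘L q) ∘L π) := by
    ext1 v
    change (star (Fc_209.Th π κ q)) (Fc_209.Th π κ q v) = adj π (adj q (q (π v)))
    rw [Fc_209.star_Th_apply, Fc_209.Th_apply, Fc_209.κκ' hs]
  have e2 : ((adj q ∘L q) ∘L π) ∘L adj π = adj q ∘L q := by
    ext1 v
    change adj q (q (π (adj π v))) = adj q (q v)
    rw [Fc_209.ππ' hs]
  rw [e1, Fm_209.det_one_add_comm, e2]
  rfl

section NN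

variable {π : Euc k →L[ℝ] Euc m} {κ : Euc k →L[ℝ] Euc n} {u : Euc m → Euc n} {e : ℝ} {T : Dif k}

/-- the derivative of the chart on vertical vectors -/
theorem A_vert (hs : Split π κ) (hu : ContDiff ℝ 3 u) (hT : IsChart T π κ u e) {z : Euc k}
    (hz : ‖κ z‖ < 3) (v : Euc n) :
    T.A z (adj κ v) = BB (adj π) (adj κ) (fderiv ℝ u (π z)) v := by
  rw [hT.A_eq z hz]
  have e1 : Fc_209.P π κ u z (adj κ v) = 0 := by
    rw [Fc_209.P_eq hu, Fc_209.Th_apply, Fc_209.πκ' hs, map_zero, map_zero]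
  have e2 : (star (Fc_209.P π κ u z)) (adj κ v) = adj π (adj (fderiv ℝ u (π z)) v) := by
    rw [Fc_209.P_eq hu, Fc_209.star_Th_apply, Fc_209.κκ' hs]
  have e3 : Fc_209.h π κ u z (adj κ v) = 0 := by
    have h1 := (Fc_209.h_HH hs hu z).eq
    have h2 : hp π (adj κ v) = 0 := by
      rw [Fc_209.hp_apply, Fc_209.πκ' hs, map_zero]
    have h3 := congrArg (fun A : L k => A (adj κ v)) h1
    have h4 : hp π (Fc_209.h π κ u z (hp π (adj κ v))) = Fc_209.h π κ u z (adj κ v) := h3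
    rw [← h4, h2, map_zero, map_zero]
  change adj κ v + Fc_209.P π κ u z (adj κ v) - (star (Fc_209.P π κ u z)) (adj κ v) -
    Fc_209.h π κ u z (adj κ v) = adj κ v - adj π (adj (fderiv ℝ u (π z)) v)
  rw [e1, e2, e3]
  abel

theorem NN_isPj (hs : Split π κ) (q : Euc m →L[ℝ] Euc n) :
    IsPj (NN (adj π) (adj κ) q (hinv q)) :=
  ⟨GLK_128.NN_idem (fr_of_split hs) (Nrm_842.inv0 q), GLK_128.NN_adj (Nrm_842.inv0 q)⟩

theorem trc_NN (hs : Split π κ) (q : Euc m →L[ℝ] Euc n) :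
    trc (Euc k) (NN (adj π) (adj κ) q (hinv q)) = n := by
  have hfr := fr_of_split hs
  have H := Nrm_842.inv0 q
  have e : (hinv q ∘L adj (BB (adj π) (adj κ) q)) ∘L BB (adj π) (adj κ) q =
      ContinuousLinearMap.id ℝ (Euc n) := by
    rw [ContinuousLinearMap.comp_assoc, GLK_128.BB_BB hfr, H.h1]
  rw [NN, trc_comp_comm, e, GLK_128.trc_id]
  simp

theorem trc_vert (hs : Split π κ) : trc (Euc k) (1 - hp π : L k) = n := by
  have e1 : (1 - hp π : L k) = adj κ ∘L κ := by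
    ext1 v
    exact Fc_209.vp_apply hs v
  rw [e1, trc_comp_comm, hs.vv, GLK_128.trc_id]
  simp

/-- **(B)** the image of the vertical space -/
theorem prj_vert (hs : Split π κ) (hu : ContDiff ℝ 3 u) (hT : IsChart T π κ u e) {z : Euc k}
    (hz : ‖κ z‖ < 3) :
    Ft_209.prj (T.A z) (1 - hp π) =
      NN (adj π) (adj κ) (fderiv ℝ u (π z)) (hinv (fderiv ℝ u (π z))) := by
  obtain ⟨q, hq⟩ : ∃ q, q = fderiv ℝ u (π z) := ⟨_, rfl⟩
  rw [← hq]
  have hV : IsPj (1 - hp π : L k) := by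
    have h1 := (isStar_of_G (Fc_209.hp_mem_G hs)).one_sub
    exact ⟨h1.1, h1.2⟩
  have hA := T.injA z
  refine Ft_209.eq_of_mul (Ft_209.isPj_prj hV hA) (NN_isPj hs q) ?_ ?_
  · have h1 : ∀ v : Euc n, Ft_209.prj (T.A z) (1 - hp π) (BB (adj π) (adj κ) q v) =
        BB (adj π) (adj κ) q v := by
      intro v
      have h2 := congrArg (fun A : L k => A (adj κ v)) (Ft_209.prj_mul hV hA)
      have h3 : (1 - hp π : L k) (adj κ v) = adj κ v := by
        change adj κ v - hp π (adj κ v) = adj κ v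
        rw [Fc_209.hp_apply, Fc_209.πκ' hs, map_zero, sub_zero]
      have h4 : Ft_209.prj (T.A z) (1 - hp π) (T.A z ((1 - hp π : L k) (adj κ v))) =
        T.A z ((1 - hp π : L k) (adj κ v)) := h2
      rw [h3, A_vert hs hu hT hz, ← hq] at h4
      exact h4
    ext1 v
    exact h1 _
  · rw [Ft_209.trc_prj hV hA, trc_vert hs, trc_NN hs]

/-- the trace of the product of the projections is the metric tilt -/
theorem tau0_eq (hs : Split π κ) (hu : ContDiff ℝ 3 u) (hT : IsChart T π κ u e) {z : Euc k}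
    (hz : ‖κ z‖ < 3) (S : L k) :
    tau0 (adj π) (adj κ) (fderiv ℝ u (π z)) (hinv (fderiv ℝ u (π z))) (Ft_209.prj (T.A z) S) =
      F32_354.tNP (gm (Fc_209.P π κ u z) (Fc_209.h π κ u z)) (hp π) S := by
  have h1 := Fn_209.tr_prj_prj (T.A z) (hp π) S
  rw [prj_vert hs hu hT hz] at h1
  have h2 : Ft_209.gam (T.A z) = gm (Fc_209.P π κ u z) (Fc_209.h π κ u z) := hT.gm_eq z hz
  rw [h2] at h1
  exact h1

theorem pj_of_G {S : L k} (h : S ∈ G m k) : GLK_128.Pj (Euc m) S :=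
  ⟨h.1, h.2.1, by rw [← Ft_209.tr_eq_trc, h.2.2]; simp⟩

theorem tau0_nonneg' (hs : Split π κ) (q : Euc m →L[ℝ] Euc n) {S : L k} (h : S ∈ G m k) :
    0 ≤ tau0 (adj π) (adj κ) q (hinv q) S :=
  GLK_128.tau0_nonneg (fr_of_split hs) (Nrm_842.inv0 q) (pj_of_G h)

/-- **the foot point** -/
theorem chart_foot (hs : Split π κ) (hu : ContDiff ℝ 3 u) (hT : IsChart T π κ u e) {z : Euc k}
    (hz : ‖κ z‖ < 3) {r : ℝ} (hr : ‖κ z‖ ≤ 2 * r) :
    IsFoot π κ 0 r u (T.Φ z) (π z) ∧ κ (T.Φ z) - u (π z) = κ z ∧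
      T.Φ z - pt π κ 0 u (π z) = BB (adj π) (adj κ) (fderiv ℝ u (π z)) (κ z) ∧
      ‖T.Φ z - pt π κ 0 u (π z)‖ ^ 2 = ‖κ z‖ ^ 2 + ‖adj (fderiv ℝ u (π z)) (κ z)‖ ^ 2 := by
  have hΦ := hT.Φ_eq' hu hz
  have e1 : κ (T.Φ z) = κ z + u (π z) := by
    rw [hΦ]
    simp only [map_add, map_sub, Fc_209.κκ' hs, Fc_209.κπ' hs, sub_zero]
  have e2 : π (T.Φ z) = π z - adj (fderiv ℝ u (π z)) (κ z) := by
    rw [hΦ]
    simp only [map_add, map_sub, Fc_209.ππ' hs, Fc_209.πκ' hs, add_zero]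
  have e3 : κ (T.Φ z) - u (π z) = κ z := by rw [e1]; abel
  have e4 : T.Φ z - pt π κ 0 u (π z) = BB (adj π) (adj κ) (fderiv ℝ u (π z)) (κ z) := by
    change T.Φ z - (0 + adj π (π z) + adj κ (u (π z))) =
      adj κ (κ z) - adj π (adj (fderiv ℝ u (π z)) (κ z))
    have e5 := Fc_209.sum_apply hs z
    rw [hΦ]
    nth_rewrite 1 [← e5]
    abel
  refine ⟨⟨?_, ?_⟩, e3, e4, ?_⟩
  · rw [sub_zero, e3, e2]
    abel
  · rw [sub_zero, e3]
    exact hr
  · rw [e4]
    have e5 : adj (BB (adj π) (adj κ) (fderiv ℝ u (π z))) (BB (adj π) (adj κ)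
        (fderiv ℝ u (π z)) (κ z)) = hh (fderiv ℝ u (π z)) (κ z) :=
      congrArg (fun A : Euc n →L[ℝ] Euc n => A (κ z)) (GLK_128.BB_BB (fr_of_split hs))
    rw [← real_inner_self_eq_norm_sq, ← ContinuousLinearMap.adjoint_inner_left, e5,
      GLK_128.hh_inner]

end NN

end Crest.Agent.R234.Fm_281
end
end

-- ▼ part R234/Fx2_281
section

/-!
# Row 234 (helper281), node F3-TRANS, chart half, file 2: pointwise comparison in the chart
-/

set_option autoImplicit false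

open MeasureTheory Filter Topology Set
open Crest.GeometryTopology.Submanifold
open Crest.Agent.R234.Vf_884
open Crest.Agent.R234.Ar_870 (IsCo tl)
open Crest.Agent.R234.Ft_209 (Dif IsPj)
open Crest.Agent.R234.Cy_870 (Split)
open Crest.Agent.R234.AS_456 (hp vp)
open Crest.Agent.R234.Fc_209 (IsChart Bd)
open Crest.Agent.R234.Main_456 (Msys)
open Crest.Agent.R234.Ell1_3 (dns gdet gop)
open Crest.Agent.R234.GLK_128 (BB A0 NN Fr Inv hh gg tau0)
open Crest.Agent.R234.Gi_456 (hinv IsFoot)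
open scoped InnerProductSpace

noncomputable section

namespace Crest.Agent.R234.Fm_281

variable {m n k : ℕ}

local notation "adj" => ContinuousLinearMap.adjoint

/-- tilt of `S` relative to the tangent space of the graph of `u` at `x` -/
def Nt (π : Euc k →L[ℝ] Euc m) (κ : Euc k →L[ℝ] Euc n) (u : Euc m → Euc n) (x : Euc m)
    (S : L k) : ℝ := tau0 (adj π) (adj κ) (fderiv ℝ u x) (hinv (fderiv ℝ u x)) S

/-- comparison of the densities: `J`, `N` area factor and tilt in the physical space, `g`, `τ` area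
density and tilt in the chart -/
structure Cmp (J N g τ l y C : ℝ) : Prop where
  main : |J * (1 - N / 2) - g * (1 - τ / 2)| ≤ C * ((l ^ 2 + l * y) * N + l ^ 2 * y ^ 2)
  τN : τ ≤ 2 * N + C * (l ^ 2 * y) ^ 2
  Nτ : N ≤ 2 * τ + C * (l ^ 2 * y) ^ 2
  N0 : 0 ≤ N
  τ0 : 0 ≤ τ
  J1 : 1 / 2 ≤ J
  J2 : J ≤ 2
  g1 : 1 / 2 ≤ g
  g2 : g ≤ 2

/-- **pointwise comparison** -/
theorem exists_cmp (k : ℕ) : ∃ c C : ℝ, 0 < c ∧ c ≤ 1 / 8 ∧ 1 ≤ C ∧
    ∀ {m n : ℕ} {π : Euc k →L[ℝ] Euc m} {κ : Euc k →L[ℝ] Euc n} {u : Euc m → Euc n}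
      {l e r : ℝ} {T : Dif k},
      Split π κ → ContDiff ℝ 3 u → 0 ≤ l → l ≤ c → Bd u l →
      (∀ x ∈ Metric.ball (0 : Euc m) r, Msys u x = 0) → IsChart T π κ u e →
      ∀ {z : Euc k} {S : L k}, ‖π z‖ < r → ‖κ z‖ ≤ 1 → S ∈ G m k →
        Cmp (T.J (z, S)) (Nt π κ u (π z) (Ft_209.prj (T.A z) S)) (dns (fderiv ℝ u (π z)))
          (tl π S) l ‖κ z‖ C := by
  obtain ⟨c, C, hc, hc8, hC, h⟩ := F33_354.exists_ptw k
  refine ⟨c, C, hc, hc8, hC, ?_⟩
  intro m n π κ u l e r T hs hu hl hlc hb hM hT z S hz hy hS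
  have hy3 : ‖κ z‖ < 3 := by linarith
  have hpt := Fc_209.pt hs hu hl hb hM hz (by rw [Fc_209.norm_vp hs]; exact hy) (0 : Euc k)
  have e1 : Nt π κ u (π z) (Ft_209.prj (T.A z) S) =
    F32_354.tNP (gm (Fc_209.P π κ u z) (Fc_209.h π κ u z)) (hp π) S := tau0_eq hs hu hT hy3 S
  have hN0 : 0 ≤ Nt π κ u (π z) (Ft_209.prj (T.A z) S) :=
    tau0_nonneg' hs _ (Ft_209.prj_mem_G hS (T.injA z))
  have h1 := h m _ _ _ _ _ S l _ _ _ hpt hlc hS (by rw [← e1]; exact hN0)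
  have e2 : T.J (z, S) = Jc (gm (Fc_209.P π κ u z) (Fc_209.h π κ u z)) S := by
    unfold Dif.J
    rw [hT.gm_eq z hy3]
    rfl
  have e3 : Real.sqrt (1 + star (Fc_209.P π κ u z) * Fc_209.P π κ u z).det =
    dns (fderiv ℝ u (π z)) := g0_eq_dns hs hu z
  have e4 : tau (hp π) S = tl π S := tau_hp hS
  rw [← e1, ← e2, e3, e4, Fc_209.norm_vp hs] at h1
  obtain ⟨a1, a2, a3, a4, a5, a6, a7⟩ := h1
  refine ⟨a1, a2, a3, hN0, ?_, a4, a5, a6, a7⟩
  rw [← e4]
  exact tau_nonneg hpt.hH hS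

/-- the same at a point of the physical space -/
theorem Cmp_pm {C c : ℝ} (h : ∀ {m n : ℕ} {π : Euc k →L[ℝ] Euc m} {κ : Euc k →L[ℝ] Euc n}
      {u : Euc m → Euc n} {l e r : ℝ} {T : Dif k},
      Split π κ → ContDiff ℝ 3 u → 0 ≤ l → l ≤ c → Bd u l →
      (∀ x ∈ Metric.ball (0 : Euc m) r, Msys u x = 0) → IsChart T π κ u e →
      ∀ {z : Euc k} {S : L k}, ‖π z‖ < r → ‖κ z‖ ≤ 1 → S ∈ G m k →
        Cmp (T.J (z, S)) (Nt π κ u (π z) (Ft_209.prj (T.A z) S)) (dns (fderiv ℝ u (π z)))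
          (tl π S) l ‖κ z‖ C)
    {π : Euc k →L[ℝ] Euc m} {κ : Euc k →L[ℝ] Euc n}
    {u : Euc m → Euc n} {l e r : ℝ} {T : Dif k}
    (hs : Split π κ) (hu : ContDiff ℝ 3 u) (hl : 0 ≤ l) (hlc : l ≤ c) (hb : Bd u l)
    (hM : ∀ x ∈ Metric.ball (0 : Euc m) r, Msys u x = 0) (hT : IsChart T π κ u e)
    {p : Euc k × L k} (hz : ‖π (T.Ψ p.1)‖ < r) (hy : ‖κ (T.Ψ p.1)‖ ≤ 1) (hS : p.2 ∈ G m k) :
    Cmp (T.J (T.pm p)) (Nt π κ u (π (T.Ψ p.1)) p.2) (dns (fderiv ℝ u (π (T.Ψ p.1))))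
      (tl π (T.pm p).2) l ‖κ (T.Ψ p.1)‖ C := by
  have h1 := h hs hu hl hlc hb hM hT (z := (T.pm p).1) (S := (T.pm p).2) hz hy (T.pm_mem hS)
  have e1 : Ft_209.prj (T.A (T.pm p).1) (T.pm p).2 = p.2 := T.prj_pm hS
  rw [e1] at h1
  exact h1

end Crest.Agent.R234.Fm_281
end
end

-- ▼ part R234/Fx3_281
section

/-!
# Row 234 (helper281), node F3-TRANS, chart half, file 3: the integral comparison
-/

set_option autoImplicit false

open MeasureTheory Filter Topology Set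
open Crest.GeometryTopology.Submanifold
open Crest.Agent.R234.Vf_884
open Crest.Agent.R234.Ar_870 (IsCo tl)
open Crest.Agent.R234.Ft_209 (Dif IsPj)
open Crest.Agent.R234.Cy_870 (Split)
open Crest.Agent.R234.AS_456 (hp vp)
open Crest.Agent.R234.Fc_209 (IsChart Bd)
open Crest.Agent.R234.Main_456 (Msys)
open Crest.Agent.R234.Ell1_3 (dns gdet gop)
open Crest.Agent.R234.GLK_128 (BB A0 NN Fr Inv hh gg tau0)
open Crest.Agent.R234.Gi_456 (hinv IsFoot)
open Crest.Agent.R234.Ex_46 (trans zoom hmt' restr)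
open scoped InnerProductSpace ENNReal

noncomputable section

namespace Crest.Agent.R234.Fm_281

variable {m n k : ℕ}

local notation "adj" => ContinuousLinearMap.adjoint

theorem continuous_tl (π : Euc k →L[ℝ] Euc m) : Continuous fun S : L k => tl π S := by
  exact Ar_870.measurable_tl π

theorem measurable_Nt {π : Euc k →L[ℝ] Euc m} {κ : Euc k →L[ℝ] Euc n} {u : Euc m → Euc n}
    (hu : ContDiff ℝ 3 u) {α : Type*} [MeasurableSpace α] {f : α → Euc m} {S : α → L k}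
    (hf : Measurable f) (hS : Measurable S) : Measurable fun a => Nt π κ u (f a) (S a) := by
  have hq : Measurable fun a => fderiv ℝ u (f a) :=
    (hu.continuous_fderiv (by norm_num)).measurable.comp hf
  have hB : Measurable fun a => BB (adj π) (adj κ) (fderiv ℝ u (f a)) := by
    have h1 : Continuous fun q : Euc m →L[ℝ] Euc n => BB (adj π) (adj κ) q := by
      unfold GLK_128.BB
      exact continuous_const.sub (continuous_const.clm_comp
        (ContinuousLinearMap.adjoint (𝕜 := ℝ) (E := Euc m) (F := Euc n)).continuous)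
    exact h1.measurable.comp hq
  have hH : Measurable fun a => hinv (fderiv ℝ u (f a)) := by
    have h1 : Continuous fun q : Euc m →L[ℝ] Euc n => hh q := by
      unfold GLK_128.hh
      exact continuous_const.add (continuous_id.clm_comp
        (ContinuousLinearMap.adjoint (𝕜 := ℝ) (E := Euc m) (F := Euc n)).continuous)
    exact Ft_209.measurable_inverse.comp (h1.measurable.comp hq)
  have hBa : Measurable fun a => adj (BB (adj π) (adj κ) (fderiv ℝ u (f a))) :=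
    (ContinuousLinearMap.adjoint (𝕜 := ℝ) (E := Euc n) (F := Euc k)).continuous.measurable.comp hB
  have h2 : Measurable fun a => hinv (fderiv ℝ u (f a)) ∘L
      adj (BB (adj π) (adj κ) (fderiv ℝ u (f a))) := by
    have h : Continuous fun p : L n × (Euc k →L[ℝ] Euc n) => p.1 ∘L p.2 :=
      continuous_fst.clm_comp continuous_snd
    exact h.measurable.comp (hH.prodMk hBa)
  have h3 : Measurable fun a => NN (adj π) (adj κ) (fderiv ℝ u (f a))
      (hinv (fderiv ℝ u (f a))) := by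
    have h : Continuous fun p : (Euc n →L[ℝ] Euc k) × (Euc k →L[ℝ] Euc n) => p.1 ∘L p.2 :=
      continuous_fst.clm_comp continuous_snd
    exact h.measurable.comp (hB.prodMk h2)
  have h4 := Ft_209.measurable_comp h3 hS
  exact (Fm_209.trc (Euc k)).continuous.measurable.comp h4

section Push

variable (T : Dif k) {V : Measure (Euc k × L k)} {W : Set (Euc k)}

theorem measurableSet_pre (hW : MeasurableSet W) :
    MeasurableSet {p : Euc k × L k | T.Ψ p.1 ∈ W} :=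
  (T.continuousΨ.measurable.comp measurable_fst) hW

/-- integrals of the transported varifold over a set -/
theorem setIntegral_push (hW : MeasurableSet W) (F : Euc k × L k → ℝ) (hF : Measurable F) :
    ∫ p in W ×ˢ univ, F p ∂(T.push V) =
      ∫ p in {p | T.Ψ p.1 ∈ W}, (T.J (T.pm p))⁻¹ * F (T.pm p) ∂V := by
  have hWm : MeasurableSet (W ×ˢ (univ : Set (L k))) := hW.prod .univ
  rw [← integral_indicator hWm, T.integral_push V _ (hF.indicator hWm).aestronglyMeasurable,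
    ← integral_indicator (measurableSet_pre T hW)]
  refine integral_congr_ae (Filter.Eventually.of_forall fun p => ?_)
  by_cases hp : T.Ψ p.1 ∈ W
  · have h1 : T.pm p ∈ W ×ˢ (univ : Set (L k)) := ⟨hp, mem_univ _⟩
    have h2 : p ∈ {p : Euc k × L k | T.Ψ p.1 ∈ W} := hp
    simp only [indicator_of_mem h1, indicator_of_mem h2]
  · have h1 : T.pm p ∉ W ×ˢ (univ : Set (L k)) := fun h => hp h.1
    have h2 : p ∉ {p : Euc k × L k | T.Ψ p.1 ∈ W} := hp
    simp only [indicator_of_notMem h1, indicator_of_notMem h2, mul_zero]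

theorem setLIntegral_push (hW : MeasurableSet W) (F : Euc k × L k → ℝ≥0∞) (hF : Measurable F) :
    ∫⁻ p in W ×ˢ univ, F p ∂(T.push V) =
      ∫⁻ p in {p | T.Ψ p.1 ∈ W}, ENNReal.ofReal (T.J (T.pm p))⁻¹ * F (T.pm p) ∂V := by
  have hWm : MeasurableSet (W ×ˢ (univ : Set (L k))) := hW.prod .univ
  rw [← lintegral_indicator hWm, T.lintegral_push V (hF.indicator hWm),
    ← lintegral_indicator (measurableSet_pre T hW)]
  refine lintegral_congr fun p => ?_
  by_cases hp : T.Ψ p.1 ∈ W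
  · have h1 : T.pm p ∈ W ×ˢ (univ : Set (L k)) := ⟨hp, mem_univ _⟩
    have h2 : p ∈ {p : Euc k × L k | T.Ψ p.1 ∈ W} := hp
    simp only [indicator_of_mem h1, indicator_of_mem h2]
  · have h1 : T.pm p ∉ W ×ˢ (univ : Set (L k)) := fun h => hp h.1
    have h2 : p ∉ {p : Euc k × L k | T.Ψ p.1 ∈ W} := hp
    simp only [indicator_of_notMem h1, indicator_of_notMem h2, mul_zero]

/-- one-sided comparison for nonnegative functions -/
theorem push_le (hW : MeasurableSet W) {F G : Euc k × L k → ℝ} (hF : Measurable F)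
    (hF0 : ∀ p, 0 ≤ F p) (hG : IntegrableOn G {p | T.Ψ p.1 ∈ W} V)
    (h : ∀ᵐ p ∂V, T.Ψ p.1 ∈ W → F (T.pm p) ≤ G p ∧ 1 / 2 ≤ T.J (T.pm p)) :
    IntegrableOn F (W ×ˢ univ) (T.push V) ∧
      ∫ p in W ×ˢ univ, F p ∂(T.push V) ≤ 2 * ∫ p in {p | T.Ψ p.1 ∈ W}, G p ∂V := by
  have hm := measurableSet_pre T hW
  have hae : ∀ᵐ p ∂(V.restrict {p : Euc k × L k | T.Ψ p.1 ∈ W}),
      (T.J (T.pm p))⁻¹ * F (T.pm p) ≤ 2 * G p := by
    filter_upwards [ae_restrict_of_ae h, ae_restrict_mem hm] with p hp hpW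
    obtain ⟨h1, h2⟩ := hp hpW
    have h3 : (T.J (T.pm p))⁻¹ ≤ 2 := by
      rw [inv_le_comm₀ (by linarith) (by norm_num)]
      linarith
    exact mul_le_mul h3 h1 (hF0 _) (by norm_num)
  have h0 : ∀ p, 0 ≤ (T.J (T.pm p))⁻¹ * F (T.pm p) := fun p =>
    mul_nonneg (inv_nonneg.2 (T.J_nonneg _)) (hF0 _)
  have hmeas : Measurable fun p => (T.J (T.pm p))⁻¹ * F (T.pm p) :=
    ((T.continuous_J.measurable.comp T.measurable_pm).inv).mul (hF.comp T.measurable_pm)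
  have hint : IntegrableOn (fun p => (T.J (T.pm p))⁻¹ * F (T.pm p)) {p | T.Ψ p.1 ∈ W} V := by
    refine Integrable.mono' (hG.const_mul 2) hmeas.aestronglyMeasurable ?_
    filter_upwards [hae] with p hp
    rw [Real.norm_of_nonneg (h0 p)]
    exact hp
  refine ⟨⟨hF.aestronglyMeasurable, ?_⟩, ?_⟩
  · unfold HasFiniteIntegral
    have e1 : ∀ p, ‖F p‖ₑ = ENNReal.ofReal (F p) := fun p => by
      rw [← ofReal_norm, Real.norm_of_nonneg (hF0 p)]
    simp_rw [e1]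
    rw [setLIntegral_push T hW _ hF.ennreal_ofReal]
    have h2 := hint.2
    unfold HasFiniteIntegral at h2
    refine lt_of_le_of_lt (le_of_eq ?_) h2
    refine lintegral_congr fun p => ?_
    rw [← ENNReal.ofReal_mul (inv_nonneg.2 (T.J_nonneg _)), ← ofReal_norm,
      Real.norm_of_nonneg (h0 p)]
  · rw [setIntegral_push T hW F hF, ← integral_const_mul]
    exact integral_mono_ae hint (hG.const_mul 2) hae

end Push

/-- hypotheses of the comparison -/
structure Hyp (π : Euc k →L[ℝ] Euc m) (κ : Euc k →L[ℝ] Euc n) (u : Euc m → Euc n) (l e r : ℝ)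
    (T : Dif k) : Prop where
  hs : Split π κ
  hu : ContDiff ℝ 3 u
  hl : 0 ≤ l
  hb : Bd u l
  hM : ∀ x ∈ Metric.ball (0 : Euc m) r, Msys u x = 0
  hT : IsChart T π κ u e

theorem real_cmp {J N g τ l y C k : ℝ} (h : Cmp J N g τ l y C) (hC : 1 ≤ C) (hl : 0 ≤ l)
    (hl1 : l ≤ 1) (hy : 0 ≤ y) (hy1 : y ≤ 1) (hτ : τ ≤ k) :
    |1 - N / 2| ≤ 1 + k + C ∧ |J⁻¹ * (g * (1 - τ / 2))| ≤ 4 * (1 + k) ∧
      |(1 - N / 2) - J⁻¹ * (g * (1 - τ / 2))| ≤ 2 * C * ((l ^ 2 + l * y) * N + l ^ 2 * y ^ 2) ∧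
      |(l ^ 2 + l * y) * N + l ^ 2 * y ^ 2| ≤ 2 * (2 * k + C) + 1 := by
  obtain ⟨h1, h2, h3, h4, h5, h6, h7, h8, h9⟩ := h
  have hk : 0 ≤ k := h5.trans hτ
  have hll : l ^ 2 ≤ 1 := by
    rw [sq]; exact mul_le_one₀ hl1 hl hl1
  have hly : l * y ≤ 1 := mul_le_one₀ hl1 hy hy1
  have hlly : l ^ 2 * y ≤ 1 := mul_le_one₀ hll hy hy1
  have hlly0 : 0 ≤ l ^ 2 * y := by positivity
  have e1 : (l ^ 2 * y) ^ 2 ≤ 1 := pow_le_one₀ hlly0 hlly
  have hN : N ≤ 2 * k + C := by nlinarith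
  have hJ : J⁻¹ ≤ 2 := by
    rw [inv_le_comm₀ (by linarith) (by norm_num)]
    linarith
  have hJ0 : 0 < J := by linarith
  have hJi : 0 ≤ J⁻¹ := (inv_pos.2 hJ0).le
  have hτ2 : |1 - τ / 2| ≤ 1 + k := by
    rw [abs_le]
    constructor <;> linarith
  refine ⟨?_, ?_, ?_, ?_⟩
  · rw [abs_le]
    constructor <;> linarith
  · rw [abs_mul, abs_mul, abs_of_nonneg hJi, abs_of_nonneg (by linarith : (0:ℝ) ≤ g)]
    calc J⁻¹ * (g * |1 - τ / 2|) ≤ 2 * (2 * (1 + k)) := by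
          refine mul_le_mul hJ (mul_le_mul h9 hτ2 (abs_nonneg _) (by norm_num)) ?_ (by norm_num)
          exact mul_nonneg (by linarith) (abs_nonneg _)
      _ = _ := by ring
  · have e2 : (1 - N / 2) - J⁻¹ * (g * (1 - τ / 2)) =
        J⁻¹ * (J * (1 - N / 2) - g * (1 - τ / 2)) := by
      field_simp
    rw [e2, abs_mul, abs_of_nonneg hJi, mul_assoc]
    exact mul_le_mul hJ h1 (abs_nonneg _) (by norm_num)
  · rw [abs_of_nonneg (by positivity)]
    have e3 : (l ^ 2 + l * y) * N ≤ 2 * (2 * k + C) := by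
      refine mul_le_mul (by linarith) hN h4 (by norm_num)
    have e4 : l ^ 2 * y ^ 2 ≤ 1 := by
      have : y ^ 2 ≤ 1 := pow_le_one₀ hy hy1
      exact mul_le_one₀ hll (sq_nonneg y) this
    linarith

set_option maxHeartbeats 800000 in
/-- **integral comparison** -/
theorem exists_trans (k : ℕ) : ∃ c C : ℝ, 0 < c ∧ c ≤ 1 / 8 ∧ 1 ≤ C ∧
    (∀ {m n : ℕ} {π : Euc k →L[ℝ] Euc m} {κ : Euc k →L[ℝ] Euc n} {u : Euc m → Euc n}
      {l e r : ℝ} {T : Dif k}, Hyp π κ u l e r T → l ≤ c →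
      ∀ {p : Euc k × L k}, ‖π (T.Ψ p.1)‖ < r → ‖κ (T.Ψ p.1)‖ ≤ 1 → p.2 ∈ G m k →
        Cmp (T.J (T.pm p)) (Nt π κ u (π (T.Ψ p.1)) p.2) (dns (fderiv ℝ u (π (T.Ψ p.1))))
          (tl π (T.pm p).2) l ‖κ (T.Ψ p.1)‖ C) ∧
    ∀ {m n : ℕ} {π : Euc k →L[ℝ] Euc m} {κ : Euc k →L[ℝ] Euc n} {u : Euc m → Euc n}
      {l e r : ℝ} {T : Dif k}, Hyp π κ u l e r T → l ≤ c →
      ∀ {V : Measure (Euc k × L k)} {W : Set (Euc k)} {g : Euc k → ℝ},
        (∀ᵐ p ∂V, p.2 ∈ G m k) → MeasurableSet W → Measurable g →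
        IntegrableOn (fun p => g (T.Ψ p.1)) {p | T.Ψ p.1 ∈ W} V →
        (∀ᵐ p ∂V, T.Ψ p.1 ∈ W → ‖π (T.Ψ p.1)‖ < r ∧ ‖κ (T.Ψ p.1)‖ ≤ 1) →
        |∫ p in {p | T.Ψ p.1 ∈ W}, g (T.Ψ p.1) * (1 - Nt π κ u (π (T.Ψ p.1)) p.2 / 2) ∂V -
          ∫ p in W ×ˢ univ, g p.1 * (dns (fderiv ℝ u (π p.1)) * (1 - tl π p.2 / 2))
            ∂(T.push V)| ≤
        C * ∫ p in {p | T.Ψ p.1 ∈ W}, |g (T.Ψ p.1)| *
          ((l ^ 2 + l * ‖κ (T.Ψ p.1)‖) * Nt π κ u (π (T.Ψ p.1)) p.2 +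
            l ^ 2 * ‖κ (T.Ψ p.1)‖ ^ 2) ∂V := by
  obtain ⟨c, C, hc, hc8, hC, h⟩ := exists_cmp k
  have hpm : ∀ {m n : ℕ} {π : Euc k →L[ℝ] Euc m} {κ : Euc k →L[ℝ] Euc n} {u : Euc m → Euc n}
      {l e r : ℝ} {T : Dif k}, Hyp π κ u l e r T → l ≤ c →
      ∀ {p : Euc k × L k}, ‖π (T.Ψ p.1)‖ < r → ‖κ (T.Ψ p.1)‖ ≤ 1 → p.2 ∈ G m k →
        Cmp (T.J (T.pm p)) (Nt π κ u (π (T.Ψ p.1)) p.2) (dns (fderiv ℝ u (π (T.Ψ p.1))))
          (tl π (T.pm p).2) l ‖κ (T.Ψ p.1)‖ C := by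
    intro m n π κ u l e r T hh hlc p hz hy hS
    exact Cmp_pm h hh.hs hh.hu hh.hl hlc hh.hb hh.hM hh.hT hz hy hS
  have hC0 : 0 ≤ C := zero_le_one.trans hC
  refine ⟨c, 2 * C, hc, hc8, by linarith, ?_, ?_⟩
  · intro m n π κ u l e r T hh hlc p hz hy hS
    have h1 := hpm hh hlc hz hy hS
    have hl := hh.hl
    have hy0 : 0 ≤ ‖κ (T.Ψ p.1)‖ := norm_nonneg _
    have hN0 := h1.N0
    refine ⟨h1.main.trans ?_, h1.τN.trans ?_, h1.Nτ.trans ?_, h1.N0, h1.τ0, h1.J1, h1.J2, h1.g1,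
      h1.g2⟩
    · refine mul_le_mul_of_nonneg_right (by linarith) (by positivity)
    · have : C * (l ^ 2 * ‖κ (T.Ψ p.1)‖) ^ 2 ≤ 2 * C * (l ^ 2 * ‖κ (T.Ψ p.1)‖) ^ 2 :=
        mul_le_mul_of_nonneg_right (by linarith) (by positivity)
      linarith
    · have : C * (l ^ 2 * ‖κ (T.Ψ p.1)‖) ^ 2 ≤ 2 * C * (l ^ 2 * ‖κ (T.Ψ p.1)‖) ^ 2 :=
        mul_le_mul_of_nonneg_right (by linarith) (by positivity)
      linarith
  intro m n π κ u l e r T hh hlc V W g hV hW hg hgi hreg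
  have hl := hh.hl
  have hl1 : l ≤ 1 := by linarith
  have hm := measurableSet_pre T hW
  have hgm : Measurable fun p : Euc k × L k => g (T.Ψ p.1) :=
    hg.comp (T.continuousΨ.measurable.comp measurable_fst)
  have hx : Measurable fun p : Euc k × L k => π (T.Ψ p.1) :=
    π.continuous.measurable.comp (T.continuousΨ.measurable.comp measurable_fst)
  have hyM : Measurable fun p : Euc k × L k => ‖κ (T.Ψ p.1)‖ :=
    (κ.continuous.measurable.comp (T.continuousΨ.measurable.comp measurable_fst)).norm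
  have hNm : Measurable fun p : Euc k × L k => Nt π κ u (π (T.Ψ p.1)) p.2 :=
    measurable_Nt hh.hu hx measurable_snd
  have hdm : Measurable fun z : Euc k => dns (fderiv ℝ u (π z)) :=
    Ell1_3.dns_contDiff.continuous.measurable.comp
      (((hh.hu.continuous_fderiv (by norm_num)).comp π.continuous).measurable)
  have htm : Measurable fun S : L k => 1 - tl π S / 2 :=
    (continuous_const.sub ((continuous_tl π).div_const 2)).measurable
  have hFm : Measurable fun p : Euc k × L k =>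
      g p.1 * (dns (fderiv ℝ u (π p.1)) * (1 - tl π p.2 / 2)) :=
    (hg.comp measurable_fst).mul ((hdm.comp measurable_fst).mul (htm.comp measurable_snd))
  have hFm' : Measurable fun p : Euc k × L k => (T.J (T.pm p))⁻¹ *
      (g (T.pm p).1 * (dns (fderiv ℝ u (π (T.pm p).1)) * (1 - tl π (T.pm p).2 / 2))) :=
    ((T.continuous_J.measurable.comp T.measurable_pm).inv).mul (hFm.comp T.measurable_pm)
  rw [setIntegral_push T hW _ hFm]
  -- pointwise bounds
  have hpt : ∀ᵐ p ∂(V.restrict {p : Euc k × L k | T.Ψ p.1 ∈ W}),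
      |1 - Nt π κ u (π (T.Ψ p.1)) p.2 / 2| ≤ 1 + k + C ∧
      |(T.J (T.pm p))⁻¹ * (dns (fderiv ℝ u (π (T.pm p).1)) * (1 - tl π (T.pm p).2 / 2))| ≤
        4 * (1 + k) ∧
      |(1 - Nt π κ u (π (T.Ψ p.1)) p.2 / 2) -
        (T.J (T.pm p))⁻¹ * (dns (fderiv ℝ u (π (T.pm p).1)) * (1 - tl π (T.pm p).2 / 2))| ≤
        2 * C * ((l ^ 2 + l * ‖κ (T.Ψ p.1)‖) * Nt π κ u (π (T.Ψ p.1)) p.2 +
          l ^ 2 * ‖κ (T.Ψ p.1)‖ ^ 2) ∧
      |(l ^ 2 + l * ‖κ (T.Ψ p.1)‖) * Nt π κ u (π (T.Ψ p.1)) p.2 +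
          l ^ 2 * ‖κ (T.Ψ p.1)‖ ^ 2| ≤ 2 * (2 * k + C) + 1 := by
    filter_upwards [ae_restrict_of_ae hV, ae_restrict_of_ae hreg, ae_restrict_mem hm] with p h1 h2
      hpW
    obtain ⟨h3, h4⟩ := h2 hpW
    have h5 := hpm hh hlc h3 h4 h1
    refine real_cmp h5 hC hl hl1 (norm_nonneg _) h4 ?_
    rw [← tau_hp (T.pm_mem h1)]
    exact tau_le (Fc_209.hp_mem_G hh.hs) (T.pm_mem h1)
  have i1 : IntegrableOn (fun p : Euc k × L k => g (T.Ψ p.1) *
      (1 - Nt π κ u (π (T.Ψ p.1)) p.2 / 2)) {p | T.Ψ p.1 ∈ W} V := by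
    refine Integrable.mono' (hgi.norm.mul_const (1 + k + C))
      (hgm.mul (measurable_const.sub (hNm.div_const 2))).aestronglyMeasurable ?_
    filter_upwards [hpt] with p hp
    rw [norm_mul, Real.norm_eq_abs (1 - _)]
    exact mul_le_mul_of_nonneg_left hp.1 (norm_nonneg _)
  have i2 : IntegrableOn (fun p : Euc k × L k => (T.J (T.pm p))⁻¹ *
      (g (T.pm p).1 * (dns (fderiv ℝ u (π (T.pm p).1)) * (1 - tl π (T.pm p).2 / 2))))
      {p | T.Ψ p.1 ∈ W} V := by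
    refine Integrable.mono' (hgi.norm.mul_const (4 * (1 + k))) hFm'.aestronglyMeasurable ?_
    filter_upwards [hpt] with p hp
    have e1 : (T.J (T.pm p))⁻¹ *
      (g (T.pm p).1 * (dns (fderiv ℝ u (π (T.pm p).1)) * (1 - tl π (T.pm p).2 / 2))) =
      g (T.pm p).1 * ((T.J (T.pm p))⁻¹ *
        (dns (fderiv ℝ u (π (T.pm p).1)) * (1 - tl π (T.pm p).2 / 2))) := by ring
    rw [e1, norm_mul, Real.norm_eq_abs ((T.J (T.pm p))⁻¹ * _)]
    exact mul_le_mul_of_nonneg_left hp.2.1 (norm_nonneg _)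
  have i3 : IntegrableOn (fun p : Euc k × L k => 2 * C * (|g (T.Ψ p.1)| *
      ((l ^ 2 + l * ‖κ (T.Ψ p.1)‖) * Nt π κ u (π (T.Ψ p.1)) p.2 +
        l ^ 2 * ‖κ (T.Ψ p.1)‖ ^ 2))) {p | T.Ψ p.1 ∈ W} V := by
    refine Integrable.const_mul ?_ (2 * C)
    refine Integrable.mono' (hgi.norm.mul_const (2 * (2 * k + C) + 1)) ?_ ?_
    · refine Measurable.aestronglyMeasurable ?_
      exact hgm.abs.mul (((measurable_const.add (measurable_const.mul hyM)).mul hNm).add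
        (measurable_const.mul (hyM.pow_const 2)))
    filter_upwards [hpt] with p hp
    rw [norm_mul, Real.norm_eq_abs |g (T.Ψ p.1)|, abs_abs, Real.norm_eq_abs,
      Real.norm_eq_abs]
    exact mul_le_mul_of_nonneg_left hp.2.2.2 (abs_nonneg _)
  rw [← integral_sub i1 i2, ← integral_const_mul]
  refine (abs_integral_le_integral_abs).trans ?_
  refine integral_mono_ae (i1.sub i2).abs i3 ?_
  filter_upwards [hpt] with p hp
  have e1 : g (T.Ψ p.1) * (1 - Nt π κ u (π (T.Ψ p.1)) p.2 / 2) - (T.J (T.pm p))⁻¹ *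
      (g (T.pm p).1 * (dns (fderiv ℝ u (π (T.pm p).1)) * (1 - tl π (T.pm p).2 / 2))) =
      g (T.Ψ p.1) * ((1 - Nt π κ u (π (T.Ψ p.1)) p.2 / 2) - (T.J (T.pm p))⁻¹ *
        (dns (fderiv ℝ u (π (T.pm p).1)) * (1 - tl π (T.pm p).2 / 2))) := by
    have : g (T.pm p).1 = g (T.Ψ p.1) := rfl
    rw [this]; ring
  rw [e1, abs_mul]
  have e2 : 2 * C * (|g (T.Ψ p.1)| * ((l ^ 2 + l * ‖κ (T.Ψ p.1)‖) *
      Nt π κ u (π (T.Ψ p.1)) p.2 + l ^ 2 * ‖κ (T.Ψ p.1)‖ ^ 2)) =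
      |g (T.Ψ p.1)| * (2 * C * ((l ^ 2 + l * ‖κ (T.Ψ p.1)‖) *
      Nt π κ u (π (T.Ψ p.1)) p.2 + l ^ 2 * ‖κ (T.Ψ p.1)‖ ^ 2)) := by ring
  rw [e2]
  exact mul_le_mul_of_nonneg_left hp.2.2.1 (abs_nonneg _)

end Crest.Agent.R234.Fm_281
end
end

-- ▼ part R234/Fx4_281

/-!
# Row 234 (helper281), node F3-TRANS, file 4: physical foot point and point of the zoomed Fermi chart
-/

set_option autoImplicit false

open MeasureTheory Filter Topology Set
open Crest.GeometryTopology.Submanifold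
open Crest.Agent.R234.Vf_884
open Crest.Agent.R234.Ar_870 (IsCo tl)
open Crest.Agent.R234.Ft_209 (Dif IsPj)
open Crest.Agent.R234.Cy_870 (Split)
open Crest.Agent.R234.Fc_209 (IsChart Bd)
open Crest.Agent.R234.Main_456 (Msys Frame)
open Crest.Agent.R234.Ell1_3 (dns gdet gop)
open Crest.Agent.R234.GLK_128 (BB A0 NN Fr Inv hh gg tau0)
open Crest.Agent.R234.Gi_456 (hinv IsFoot)
open Crest.Agent.R234.Foot_842 (pt)
open Crest.Agent.R234.Nrm_842 (Zm zc)
open Crest.Agent.R234.Grot_842 (rπ rρ)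
open scoped InnerProductSpace

noncomputable section

namespace Crest.Agent.R234.Fm_281

variable {m n k : ℕ}

local notation "adj" => ContinuousLinearMap.adjoint

theorem split_of_frame' {π : Euc k →L[ℝ] Euc m} {ρ : Euc k →L[ℝ] Euc n} (h : Frame π ρ) :
    Split π ρ := ⟨h.coπ, h.coρ, h.full⟩

/-- the inverse of the chart -/
theorem chart_inv {π : Euc k →L[ℝ] Euc m} {κ : Euc k →L[ℝ] Euc n} {u : Euc m → Euc n} {e : ℝ}
    {T : Dif k} (hs : Split π κ) (hu : ContDiff ℝ 3 u) (hT : IsChart T π κ u e) {y : Euc k}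
    {X : Euc m} {r : ℝ} (hy : IsFoot π κ 0 r u y X) (h3 : ‖κ y - u X‖ < 3) :
    T.Ψ y = adj π X + adj κ (κ y - u X) ∧ π (T.Ψ y) = X ∧ κ (T.Ψ y) = κ y - u X := by
  obtain ⟨Y, hY⟩ : ∃ Y, Y = κ y - u X := ⟨_, rfl⟩
  rw [← hY] at h3 ⊢
  obtain ⟨z, hz⟩ : ∃ z, z = adj π X + adj κ Y := ⟨_, rfl⟩
  have e1 : π z = X := by
    rw [hz, map_add, Fc_209.ππ' hs, Fc_209.πκ' hs, add_zero]
  have e2 : κ z = Y := by
    rw [hz, map_add, Fc_209.κπ' hs, Fc_209.κκ' hs, zero_add]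
  have e3 : T.Φ z = y := by
    rw [hT.Φ_eq' hu (by rw [e2]; exact h3), e1, e2]
    have h1 := hy.1
    rw [sub_zero, ← hY] at h1
    have h4 : adj π X = adj π (π y) + adj π (adj (fderiv ℝ u X) Y) := by
      rw [← map_add, ← h1]
    have h5 : adj κ Y = adj κ (κ y) - adj κ (u X) := by rw [hY, map_sub]
    rw [hz, h4, h5]
    have h6 := Fc_209.sum_apply hs y
    nth_rewrite 3 [← h6]
    abel
  have e4 : T.Ψ y = z := by rw [← e3, T.left]
  rw [e4, ← hz]
  exact ⟨rfl, e1, e2⟩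

section Zm

variable {π : Euc k →L[ℝ] Euc m} {ρ : Euc k →L[ℝ] Euc n} {x : Euc k} {w w' U : Euc m → Euc n}
  {X0 : Euc m} {K : ℕ} {C κ t e : ℝ} {q : Euc m →L[ℝ] Euc n}
  {H : Euc m →L[ℝ] Euc m} {H' : Euc n →L[ℝ] Euc n} {T : Dif k}

/-- the zoomed point -/
def zy (π : Euc k →L[ℝ] Euc m) (ρ : Euc k →L[ℝ] Euc n) (x : Euc k) (w : Euc m → Euc n)
    (X0 : Euc m) (t : ℝ) (z : Euc k) : Euc k := t⁻¹ • (z - pt π ρ x w X0)

theorem cdU (h : Zm w X0 K C κ t q H H' w' U) : ContDiff ℝ 3 U :=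
  h.sm.of_le (by
    have h : ((3 : ℕ∞) : WithTop ℕ∞) ≤ ((⊤ : ℕ∞) : WithTop ℕ∞) := WithTop.coe_le_coe.2 le_top
    exact h)

theorem splitZ (h : Zm w X0 K C κ t q H H' w' U) (hf : Frame π ρ) :
    Split (rπ π ρ q H) (rρ π ρ q H') := split_of_frame' (h.rot.frame hf)

/-- **physical foot to chart** -/
theorem corr1 (h : Zm w X0 K C κ t q H H' w' U) (hf : Frame π ρ)
    (hT : IsChart T (rπ π ρ q H) (rρ π ρ q H') U e) {r : ℝ} {z : Euc k} {X : Euc m}
    (hX : ‖X - X0‖ ≤ 6 * t) (hz : IsFoot π ρ x r w z X) (hν : ‖z - pt π ρ x w X‖ < 3 * t) :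
    rπ π ρ q H (T.Ψ (zy π ρ x w X0 t z)) = zc t q H w X0 X ∧
      rρ π ρ q H' (T.Ψ (zy π ρ x w X0 t z)) = t⁻¹ • rρ π ρ q H' (z - pt π ρ x w X) ∧
      ‖rρ π ρ q H' (T.Ψ (zy π ρ x w X0 t z))‖ ≤ ‖z - pt π ρ x w X‖ / t := by
  have hs := splitZ h hf
  have hfr := h.rot.frame hf
  have ht := h.t0
  have h1 := h.isFoot hf (r' := 3 / 2) hX hz (by linarith)
  have h2 := (Foot_842.foot_normal hfr h1).2.1
  have h3 := h.normal_eq hf x z hX
  rw [sub_zero] at h2
  rw [h3] at h2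
  have h4 : ‖t⁻¹ • (z - pt π ρ x w X)‖ = ‖z - pt π ρ x w X‖ / t := by
    rw [norm_smul, norm_inv, Real.norm_of_nonneg ht.le, inv_mul_eq_div]
  have h5 : ‖rρ π ρ q H' (t⁻¹ • (z - pt π ρ x w X))‖ ≤ ‖z - pt π ρ x w X‖ / t := by
    rw [← h4]; exact Fc_209.norm_κ_le hs _
  have h6 : ‖z - pt π ρ x w X‖ / t < 3 := by rw [div_lt_iff₀ ht]; exact hν
  have h7 := chart_inv hs (cdU h) hT (y := zy π ρ x w X0 t z) h1 (by
    unfold zy
    rw [← h2]
    exact lt_of_le_of_lt h5 h6)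
  have h8 : rρ π ρ q H' (T.Ψ (zy π ρ x w X0 t z)) = t⁻¹ • rρ π ρ q H' (z - pt π ρ x w X) := by
    rw [h7.2.2]
    unfold zy
    rw [← h2, map_smul]
  refine ⟨h7.2.1, h8, ?_⟩
  rw [h8, ← map_smul]
  exact h5

/-- the normal vector in the chart -/
theorem chart_normal (h : Zm w X0 K C κ t q H H' w' U) (hf : Frame π ρ)
    (hT : IsChart T (rπ π ρ q H) (rρ π ρ q H') U e) {z : Euc k} {X : Euc m}
    (hX : ‖X - X0‖ ≤ 6 * t) (hzX : zc t q H w X0 X = rπ π ρ q H (T.Ψ (zy π ρ x w X0 t z)))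
    (hy : ‖rρ π ρ q H' (T.Ψ (zy π ρ x w X0 t z))‖ < 3) :
    z - pt π ρ x w X = t • BB (adj (rπ π ρ q H)) (adj (rρ π ρ q H'))
      (fderiv ℝ U (zc t q H w X0 X)) (rρ π ρ q H' (T.Ψ (zy π ρ x w X0 t z))) ∧
    ‖z - pt π ρ x w X‖ ^ 2 = t ^ 2 * (‖rρ π ρ q H' (T.Ψ (zy π ρ x w X0 t z))‖ ^ 2 +
      ‖adj (fderiv ℝ U (zc t q H w X0 X)) (rρ π ρ q H' (T.Ψ (zy π ρ x w X0 t z)))‖ ^ 2) := by
  have hs := splitZ h hf
  have ht := h.t0
  have h1 := chart_foot hs (cdU h) hT hy (r := 3) (by linarith)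
  rw [T.right, ← hzX] at h1
  have h3 := h.normal_eq hf x z hX
  have h4 : z - pt π ρ x w X = t • (zy π ρ x w X0 t z -
      pt (rπ π ρ q H) (rρ π ρ q H') 0 U (zc t q H w X0 X)) := by
    unfold zy
    rw [h3, smul_smul, mul_inv_cancel₀ ht.ne', one_smul]
  constructor
  · rw [h4, h1.2.2.1]
  · rw [h4, norm_smul, mul_pow, h1.2.2.2, Real.norm_of_nonneg ht.le]

/-- **chart to physical foot** -/
theorem corr2 (h : Zm w X0 K C κ t q H H' w' U) (hf : Frame π ρ)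
    (hT : IsChart T (rπ π ρ q H) (rρ π ρ q H') U e) {z : Euc k} {r : ℝ} (hr : 2 * t ≤ r)
    (h5 : ‖rπ π ρ q H (T.Ψ (zy π ρ x w X0 t z))‖ ≤ 5)
    (h2 : ‖rρ π ρ q H' (T.Ψ (zy π ρ x w X0 t z))‖ ≤ 2) :
    ∃ X, ‖X - X0‖ < 6 * t ∧ zc t q H w X0 X = rπ π ρ q H (T.Ψ (zy π ρ x w X0 t z)) ∧
      IsFoot π ρ x r w z X ∧ ‖z - pt π ρ x w X‖ ≤
        33 / 32 * (t * ‖rρ π ρ q H' (T.Ψ (zy π ρ x w X0 t z))‖) := by
  have hs := splitZ h hf
  have hs0 := split_of_frame' hf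
  have ht := h.t0
  obtain ⟨X, hX, hzX⟩ := h.zc_surj h5
  obtain ⟨h6, h7⟩ := chart_normal h hf hT hX.le hzX (x := x) (z := z) (by linarith)
  obtain ⟨Y, hY⟩ : ∃ Y, Y = rρ π ρ q H' (T.Ψ (zy π ρ x w X0 t z)) := ⟨_, rfl⟩
  rw [← hY] at h6 h7 h2 ⊢
  have h8 : ‖adj (fderiv ℝ U (zc t q H w X0 X)) Y‖ ≤ 1 / 64 * ‖Y‖ := by
    refine (ContinuousLinearMap.le_opNorm _ _).trans ?_
    rw [LinearIsometryEquiv.norm_map]
    exact mul_le_mul_of_nonneg_right ((h.norm_dU _).trans h.Cκt) (norm_nonneg _)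
  have h9 : ‖z - pt π ρ x w X‖ ≤ 33 / 32 * (t * ‖Y‖) := by
    refine (sq_le_sq₀ (norm_nonneg _) (by positivity)).1 ?_
    rw [h7]
    have h10 : ‖adj (fderiv ℝ U (zc t q H w X0 X)) Y‖ ^ 2 ≤ (1 / 64 * ‖Y‖) ^ 2 :=
      pow_le_pow_left₀ (norm_nonneg _) h8 2
    have h11 : 0 ≤ t ^ 2 * ‖Y‖ ^ 2 := by positivity
    have h12 : t ^ 2 * ‖adj (fderiv ℝ U (zc t q H w X0 X)) Y‖ ^ 2 ≤
        t ^ 2 * (1 / 64 * ‖Y‖) ^ 2 := mul_le_mul_of_nonneg_left h10 (sq_nonneg t)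
    nlinarith
  refine ⟨X, hX, hzX, ?_, h9⟩
  refine Foot_842.isFoot_of_normal hf ?_ ?_
  · -- the normal vector is in the range of the normal projection
    have e1 : NN (adj π) (adj ρ) (fderiv ℝ w X) (hinv (fderiv ℝ w X)) (z - pt π ρ x w X) =
        z - pt π ρ x w X := by
      rw [← h.NN_eq hf hX.le, h6, map_smul]
      congr 1
      exact congrArg (fun A : Euc n →L[ℝ] Euc k => A Y)
        (GLK_128.NN_BB (fr_of_split hs) (Nrm_842.inv0 (fderiv ℝ U (zc t q H w X0 X))))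
    have e2 : adj (A0 (adj π) (adj ρ) (fderiv ℝ w X)) (z - pt π ρ x w X) = 0 := by
      rw [← e1]
      exact congrArg (fun A : Euc n →L[ℝ] Euc m => A (hinv (fderiv ℝ w X)
        (adj (BB (adj π) (adj ρ) (fderiv ℝ w X)) (z - pt π ρ x w X))))
        (GLK_128.A0_BB (q := fderiv ℝ w X) (fr_of_split hs0))
    rw [GLK_128.adj_A0_apply, ContinuousLinearMap.adjoint_adjoint,
      ContinuousLinearMap.adjoint_adjoint] at e2
    exact e2
  · refine (Fc_209.norm_κ_le hs0 _).trans (h9.trans ?_)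
    nlinarith [norm_nonneg Y]

/-- the tilts agree -/
theorem Nt_eq (h : Zm w X0 K C κ t q H H' w' U) (hf : Frame π ρ) {X : Euc m}
    (hX : ‖X - X0‖ ≤ 6 * t) (S : L k) :
    Nt (rπ π ρ q H) (rρ π ρ q H') U (zc t q H w X0 X) S = Nt π ρ w X S := by
  unfold Nt GLK_128.tau0
  rw [h.NN_eq hf hX]

end Zm

end Crest.Agent.R234.Fm_281
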