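import Crest.Agent.R234.Supm3_685
import Crest.Agent.R234.Supm4_685
import Crest.Agent.R234.Gi2_456
import Crest.Agent.R234.GLK2_128

-- ▼ part R234/Gs1_685
section

/-!
R234 (helper685), GL-SUP part 1: the foot chart `z = q0 + πᵀ(x - Du(x)ᵀ y) + ρᵀ(u(x) + y)` against
the vertical height `hgt z = ρ(z - q0) - u(π(z - q0))` and the two tilts (pointwise).
-/

set_option autoImplicit false
set_option linter.unusedSectionVars false

open MeasureTheory Metric Set Filter Topology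
open scoped InnerProductSpace ContDiff

namespace Crest.Agent.R234.Gs_685

open Crest.Agent.R234.Cacc_113 (tr IsPr St)
open Crest.Agent.R234.Ell1_3 (gop ginv adjL)
open Crest.Agent.R234.Supm_685

noncomputable section

variable {E F W : Type} [NormedAddCommGroup E] [InnerProductSpace ℝ E] [FiniteDimensional ℝ E]
  [NormedAddCommGroup F] [InnerProductSpace ℝ F] [FiniteDimensional ℝ F]
  [NormedAddCommGroup W] [InnerProductSpace ℝ W] [FiniteDimensional ℝ W]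

/-- squared length of the normal vector `B y = ρᵀ y - πᵀ qᵀ y`, `= ⟨(1 + q qᵀ) y, y⟩` -/
def nsq (q : F →L[ℝ] W) (y : W) : ℝ := ‖y‖ ^ 2 + ‖ContinuousLinearMap.adjoint q y‖ ^ 2

theorem nsq_nonneg (q : F →L[ℝ] W) (y : W) : 0 ≤ nsq q y := by unfold nsq; positivity

theorem sq_le_nsq (q : F →L[ℝ] W) (y : W) : ‖y‖ ^ 2 ≤ nsq q y := by
  unfold nsq; nlinarith [sq_nonneg ‖ContinuousLinearMap.adjoint q y‖]

/-- the normal vector -/
def nv (π : E →L[ℝ] F) (ρ : E →L[ℝ] W) (q : F →L[ℝ] W) (y : W) : E :=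
  ContinuousLinearMap.adjoint ρ y - ContinuousLinearMap.adjoint π (ContinuousLinearMap.adjoint q y)

theorem norm_nv_sq {π : E →L[ℝ] F} {ρ : E →L[ℝ] W} (h : Fr π ρ) (q : F →L[ℝ] W) (y : W) :
    ‖nv π ρ q y‖ ^ 2 = nsq q y := by
  have h1 := h.norm_sq (nv π ρ q y)
  have h2 : π (nv π ρ q y) = -ContinuousLinearMap.adjoint q y := by
    simp [nv, h.pp, h.pr]
  have h3 : ρ (nv π ρ q y) = y := by
    simp [nv, h.rr, h.rp]
  rw [h2, h3, norm_neg] at h1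
  rw [← h1, nsq]
  ring

/-- the foot chart relation at `z` -/
structure Foot (π : E →L[ℝ] F) (ρ : E →L[ℝ] W) (q0 : E) (u : F → W) (z : E) (x : F) (y : W) :
    Prop where
  hp : π (z - q0) = x - ContinuousLinearMap.adjoint (fderiv ℝ u x) y
  hr : ρ (z - q0) = u x + y

/-- `‖Du‖ ≤ 1/4`, `‖D²u‖ ≤ κ` on the convex set `D` -/
structure Bd (u : F → W) (D : Set F) (κ : ℝ) : Prop where
  smooth : ContDiff ℝ 2 u
  conv : Convex ℝ D
  d1 : ∀ v ∈ D, ‖fderiv ℝ u v‖ ≤ 1 / 4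
  d2 : ∀ v ∈ D, ‖fderiv ℝ (fderiv ℝ u) v‖ ≤ κ

namespace Bd

variable {u : F → W} {D : Set F} {κ : ℝ}

theorem lip1 (hb : Bd u D κ) {v w : F} (hv : v ∈ D) (hw : w ∈ D) :
    ‖fderiv ℝ u w - fderiv ℝ u v‖ ≤ κ * ‖w - v‖ := by
  have h0 : ContDiff ℝ 1 (fderiv ℝ u) := hb.smooth.fderiv_right (by norm_num)
  exact hb.conv.norm_image_sub_le_of_norm_fderiv_le
    (fun x _ => h0.differentiable one_ne_zero x) hb.d2 hv hw

theorem taylor (hb : Bd u D κ) (hκ : 0 ≤ κ) {v w : F} (hv : v ∈ D) (hw : w ∈ D) :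
    ‖u w - u v - fderiv ℝ u v (w - v)‖ ≤ κ * ‖w - v‖ ^ 2 := by
  have hd : ∀ x, HasFDerivAt (fun ξ => u ξ - fderiv ℝ u v ξ) (fderiv ℝ u x - fderiv ℝ u v) x :=
    fun x => ((hb.smooth.differentiable (by norm_num) x).hasFDerivAt).sub
      (fderiv ℝ u v).hasFDerivAt
  have hseg : segment ℝ v w ⊆ D := hb.conv.segment_subset hv hw
  have h1 := (convex_segment v w).norm_image_sub_le_of_norm_hasFDerivWithin_le
    (f := fun ξ => u ξ - fderiv ℝ u v ξ) (f' := fun x => fderiv ℝ u x - fderiv ℝ u v)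
    (C := κ * ‖w - v‖) (fun x _ => (hd x).hasFDerivWithinAt) (fun x hx => by
      refine (hb.lip1 hv (hseg hx)).trans ?_
      gcongr
      obtain ⟨a, b, ha, hb', hab, rfl⟩ := hx
      have : a • v + b • w - v = b • (w - v) := by
        have : a = 1 - b := by linarith
        rw [this, smul_sub, sub_smul, one_smul]; abel
      rw [this, norm_smul, Real.norm_eq_abs, abs_of_nonneg hb']
      have hb1 : b ≤ 1 := by linarith
      nlinarith [norm_nonneg (w - v)])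
    (left_mem_segment ℝ v w) (right_mem_segment ℝ v w)
  have h2 : u w - u v - fderiv ℝ u v (w - v) =
      (u w - fderiv ℝ u v w) - (u v - fderiv ℝ u v v) := by
    rw [map_sub]; abel
  rw [h2]
  refine h1.trans (le_of_eq ?_)
  ring

end Bd

section pt

variable {π : E →L[ℝ] F} {ρ : E →L[ℝ] W} {q0 : E} {u : F → W} {D : Set F} {κ : ℝ}
  {z : E} {x : F} {y : W}

theorem norm_adj_le (q : F →L[ℝ] W) (hq : ‖q‖ ≤ 1 / 4) (y : W) :
    ‖ContinuousLinearMap.adjoint q y‖ ≤ 1 / 4 * ‖y‖ := by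
  refine (ContinuousLinearMap.le_opNorm _ _).trans ?_
  gcongr
  have : ‖ContinuousLinearMap.adjoint q‖ = ‖q‖ := LinearIsometryEquiv.norm_map _ _
  rw [this]; exact hq

theorem ht_eq_foot (hf : Foot π ρ q0 u z x y) :
    ht π ρ q0 1 u z = y + (u x - u (x - ContinuousLinearMap.adjoint (fderiv ℝ u x) y)) := by
  simp only [ht, inv_one, one_smul]
  rw [hf.hp, hf.hr]
  abel

theorem ht_sub_le (hb : Bd u D κ) (hκ : 0 ≤ κ) (hf : Foot π ρ q0 u z x y) (hx : x ∈ D)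
    (hz : π (z - q0) ∈ D) (hy : κ * ‖y‖ ≤ 1) :
    ‖ht π ρ q0 1 u z - (y + fderiv ℝ u x (ContinuousLinearMap.adjoint (fderiv ℝ u x) y))‖ ≤
      1 / 16 * ‖y‖ := by
  set v := ContinuousLinearMap.adjoint (fderiv ℝ u x) y with hv
  have h1 := hb.taylor hκ hx hz
  have h2 : π (z - q0) - x = -v := by rw [hf.hp]; abel
  rw [h2, map_neg, norm_neg] at h1
  rw [ht_eq_foot hf, ← hv]
  have h3 : y + (u x - u (x - v)) - (y + fderiv ℝ u x v) =
      -(u (π (z - q0)) - u x - -fderiv ℝ u x v) := by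
    rw [hf.hp, ← hv]; abel
  rw [h3, norm_neg]
  refine h1.trans ?_
  have h4 : ‖v‖ ≤ 1 / 4 * ‖y‖ := norm_adj_le _ (hb.d1 x hx) y
  have h5 : ‖v‖ ^ 2 ≤ 1 / 16 * ‖y‖ ^ 2 := by nlinarith [norm_nonneg v, norm_nonneg y]
  calc κ * ‖v‖ ^ 2 ≤ κ * (1 / 16 * ‖y‖ ^ 2) := by gcongr
    _ = 1 / 16 * (κ * ‖y‖) * ‖y‖ := by ring
    _ ≤ 1 / 16 * 1 * ‖y‖ := by gcongr
    _ = _ := by ring

/-- (P1) -/
theorem nsq_le_ht (hb : Bd u D κ) (hκ : 0 ≤ κ) (hf : Foot π ρ q0 u z x y) (hx : x ∈ D)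
    (hz : π (z - q0) ∈ D) (hy : κ * ‖y‖ ≤ 1) :
    nsq (fderiv ℝ u x) y ≤ 4 / 3 * ‖ht π ρ q0 1 u z‖ ^ 2 := by
  have h1 := ht_sub_le hb hκ hf hx hz hy
  have h4 : ‖ContinuousLinearMap.adjoint (fderiv ℝ u x) y‖ ≤ 1 / 4 * ‖y‖ :=
    norm_adj_le _ (hb.d1 x hx) y
  set g := y + fderiv ℝ u x (ContinuousLinearMap.adjoint (fderiv ℝ u x) y) with hg
  have h5 : ‖y‖ ≤ ‖g‖ := by
    have e1 : ⟪g, y⟫_ℝ = ‖y‖ ^ 2 + ‖ContinuousLinearMap.adjoint (fderiv ℝ u x) y‖ ^ 2 := by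
      rw [hg, inner_add_left, real_inner_self_eq_norm_sq, ← ContinuousLinearMap.adjoint_inner_right,
        real_inner_self_eq_norm_sq]
    have e2 := real_inner_le_norm g y
    rcases (norm_nonneg y).eq_or_lt with h0 | h0
    · rw [← h0]; positivity
    · nlinarith [sq_nonneg ‖ContinuousLinearMap.adjoint (fderiv ℝ u x) y‖]
  have h6 : ‖g‖ ≤ ‖ht π ρ q0 1 u z‖ + 1 / 16 * ‖y‖ := by
    have : g = ht π ρ q0 1 u z - (ht π ρ q0 1 u z - g) := by abel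
    calc ‖g‖ = ‖ht π ρ q0 1 u z - (ht π ρ q0 1 u z - g)‖ := by rw [← this]
      _ ≤ ‖ht π ρ q0 1 u z‖ + ‖ht π ρ q0 1 u z - g‖ := norm_sub_le _ _
      _ ≤ _ := by gcongr
  have h7 : 15 / 16 * ‖y‖ ≤ ‖ht π ρ q0 1 u z‖ := by linarith
  have h8 : nsq (fderiv ℝ u x) y ≤ 17 / 16 * ‖y‖ ^ 2 := by
    unfold nsq
    nlinarith [norm_nonneg (ContinuousLinearMap.adjoint (fderiv ℝ u x) y), norm_nonneg y]
  nlinarith [norm_nonneg y, norm_nonneg (ht π ρ q0 1 u z)]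

theorem ht_le_nsq (hb : Bd u D κ) (hκ : 0 ≤ κ) (hf : Foot π ρ q0 u z x y) (hx : x ∈ D)
    (hz : π (z - q0) ∈ D) (hy : κ * ‖y‖ ≤ 1) :
    ‖ht π ρ q0 1 u z‖ ^ 2 ≤ 4 / 3 * nsq (fderiv ℝ u x) y := by
  have h1 := ht_sub_le hb hκ hf hx hz hy
  have h4 : ‖ContinuousLinearMap.adjoint (fderiv ℝ u x) y‖ ≤ 1 / 4 * ‖y‖ :=
    norm_adj_le _ (hb.d1 x hx) y
  set g := y + fderiv ℝ u x (ContinuousLinearMap.adjoint (fderiv ℝ u x) y) with hg
  have h5 : ‖g‖ ≤ 17 / 16 * ‖y‖ := by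
    have e1 : ‖fderiv ℝ u x (ContinuousLinearMap.adjoint (fderiv ℝ u x) y)‖ ≤
        1 / 4 * (1 / 4 * ‖y‖) := by
      refine (ContinuousLinearMap.le_opNorm _ _).trans ?_
      have := hb.d1 x hx
      gcongr
    have e2 := norm_add_le y (fderiv ℝ u x (ContinuousLinearMap.adjoint (fderiv ℝ u x) y))
    rw [← hg] at e2
    linarith
  have h6 : ‖ht π ρ q0 1 u z‖ ≤ ‖g‖ + 1 / 16 * ‖y‖ := by
    have : ht π ρ q0 1 u z = g + (ht π ρ q0 1 u z - g) := by abel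
    calc ‖ht π ρ q0 1 u z‖ = ‖g + (ht π ρ q0 1 u z - g)‖ := by rw [← this]
      _ ≤ ‖g‖ + ‖ht π ρ q0 1 u z - g‖ := norm_add_le _ _
      _ ≤ _ := by gcongr
  have h7 : ‖ht π ρ q0 1 u z‖ ≤ 9 / 8 * ‖y‖ := by linarith
  have h8 := sq_le_nsq (fderiv ℝ u x) y
  nlinarith [norm_nonneg y, norm_nonneg (ht π ρ q0 1 u z)]

/-- change of the gradient in the relative tilt -/
theorem tau_change (h : Fr π ρ) (q q' : F →L[ℝ] W) {P : E →L[ℝ] E} (hP : IsPr P) :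
    tau (nf π ρ q') P ≤ 2 * tau (nf π ρ q) P + 2 * ‖q' - q‖ ^ 2 * tr P := by
  have h1 : tr P = ∑ j, ‖P (stdOrthonormalBasis ℝ E j)‖ ^ 2 := by
    rw [tr, LinearMap.trace_eq_sum_inner _ (stdOrthonormalBasis ℝ E)]
    refine Finset.sum_congr rfl fun i _ => ?_
    simp only [ContinuousLinearMap.coe_coe]
    rw [hP.inner_self]
  rw [h1, tau, tau, Finset.mul_sum, Finset.mul_sum, ← Finset.sum_add_distrib]
  refine Finset.sum_le_sum fun j _ => ?_
  set w := P (stdOrthonormalBasis ℝ E j)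
  have h2 : nf π ρ q' w = nf π ρ q w - (q' - q) (π w) := by
    simp only [nf, sub_apply, ContinuousLinearMap.comp_apply]; abel
  have h3 : ‖nf π ρ q' w‖ ≤ ‖nf π ρ q w‖ + ‖q' - q‖ * ‖w‖ := by
    rw [h2]
    refine (norm_sub_le _ _).trans ?_
    gcongr
    refine (ContinuousLinearMap.le_opNorm _ _).trans ?_
    gcongr
    exact h.norm_p_le w
  have h4 : ‖nf π ρ q' w‖ ^ 2 ≤ (‖nf π ρ q w‖ + ‖q' - q‖ * ‖w‖) ^ 2 := by gcongr
  nlinarith [sq_nonneg (‖nf π ρ q w‖ - ‖q' - q‖ * ‖w‖)]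

/-- (P2) the tilt relative to the graph at the foot -/
theorem tau_foot_le (h : Fr π ρ) (hb : Bd u D κ) (hκ : 0 ≤ κ) (hf : Foot π ρ q0 u z x y)
    (hx : x ∈ D) (hz : π (z - q0) ∈ D) {P : E →L[ℝ] E} (hP : IsPr P) :
    tau (nf π ρ (fderiv ℝ u x)) P ≤ 2 * tau (nz π ρ q0 1 u z) P +
      1 / 8 * κ ^ 2 * ‖y‖ ^ 2 * tr P := by
  have h1 := tau_change h (fderiv ℝ u (π (z - q0))) (fderiv ℝ u x) hP
  have h2 : nz π ρ q0 1 u z = nf π ρ (fderiv ℝ u (π (z - q0))) := by simp [nz]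
  rw [h2]
  refine h1.trans ?_
  have h3 := hb.lip1 hz hx
  have h4 : x - π (z - q0) = ContinuousLinearMap.adjoint (fderiv ℝ u x) y := by rw [hf.hp]; abel
  rw [h4] at h3
  have h5 := norm_adj_le _ (hb.d1 x hx) y
  have h6 : ‖fderiv ℝ u x - fderiv ℝ u (π (z - q0))‖ ≤ κ * (1 / 4 * ‖y‖) :=
    h3.trans (by gcongr)
  have h7 : ‖fderiv ℝ u x - fderiv ℝ u (π (z - q0))‖ ^ 2 ≤ (κ * (1 / 4 * ‖y‖)) ^ 2 := by
    gcongr
  have h8 : 0 ≤ tr P := by
    rw [tr, LinearMap.trace_eq_sum_inner _ (stdOrthonormalBasis ℝ E)]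
    refine Finset.sum_nonneg fun i _ => ?_
    simp only [ContinuousLinearMap.coe_coe]
    exact hP.inner_self_nonneg _
  have h9 := mul_le_mul_of_nonneg_right h7 h8
  nlinarith


/-- the foot and the base point -/
theorem norm_foot_sub_le (hb : Bd u D κ) (hf : Foot π ρ q0 u z x y) (hx : x ∈ D) :
    ‖x - π (z - q0)‖ ≤ 1 / 4 * ‖y‖ := by
  have h4 : x - π (z - q0) = ContinuousLinearMap.adjoint (fderiv ℝ u x) y := by rw [hf.hp]; abel
  rw [h4]
  exact norm_adj_le _ (hb.d1 x hx) y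

end pt

end

end Crest.Agent.R234.Gs_685
end

-- ▼ part R234/Gs2_685
section

/-!
R234 (helper685), GL-SUP part 2: cut-offs with explicit scales; sup bound and energy bound of a
stationary varifold relative to a minimal graph, in terms of the foot chart.
-/

set_option autoImplicit false
set_option linter.unusedSectionVars false

open MeasureTheory Metric Set Filter Topology
open scoped InnerProductSpace ContDiff

namespace Crest.Agent.R234.Gs_685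

open Crest.Agent.R234.Cacc_113 (tr IsPr St)
open Crest.Agent.R234.Ell1_3 (gop ginv adjL)
open Crest.Agent.R234.Supm_685

noncomputable section

/-- the derivative of `Real.smoothTransition` is bounded -/
theorem exists_st_bound : ∃ K : ℝ, 0 ≤ K ∧ ∀ t, |deriv Real.smoothTransition t| ≤ K := by
  have hc : Continuous (deriv Real.smoothTransition) :=
    (Real.smoothTransition.contDiff (n := 1)).continuous_deriv le_rfl
  obtain ⟨K, hK⟩ := (isCompact_Icc (a := (0:ℝ)) (b := 1)).exists_bound_of_continuousOn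
    hc.continuousOn
  refine ⟨max K 0, le_max_right _ _, fun t => ?_⟩
  by_cases ht : t ∈ Icc (0:ℝ) 1
  · exact (hK t ht).trans (le_max_left _ _)
  · refine le_trans (le_of_eq ?_) (le_max_right _ _)
    rw [mem_Icc, not_and_or, not_le, not_le] at ht
    rw [abs_eq_zero]
    rcases ht with ht | ht
    · have : Real.smoothTransition =ᶠ[𝓝 t] fun _ => (0:ℝ) := by
        filter_upwards [gt_mem_nhds ht] with s hs
        exact Real.smoothTransition.zero_of_nonpos hs.le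
      rw [this.deriv_eq, deriv_const]
    · have : Real.smoothTransition =ᶠ[𝓝 t] fun _ => (1:ℝ) := by
        filter_upwards [lt_mem_nhds ht] with s hs
        exact Real.smoothTransition.one_of_one_le hs.le
      rw [this.deriv_eq, deriv_const]

variable {E F W : Type} [NormedAddCommGroup E] [InnerProductSpace ℝ E] [FiniteDimensional ℝ E]
  [NormedAddCommGroup F] [InnerProductSpace ℝ F] [FiniteDimensional ℝ F]
  [NormedAddCommGroup W] [InnerProductSpace ℝ W] [FiniteDimensional ℝ W]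

/-- radial cut-off: `1` for `‖v‖ ≤ a`, `0` for `b ≤ ‖v‖` -/
def ct (a b : ℝ) (v : F) : ℝ := Real.smoothTransition ((b ^ 2 - ‖v‖ ^ 2) / (b ^ 2 - a ^ 2))

section ct

variable {a b : ℝ}

theorem ct_nonneg (v : F) : 0 ≤ ct a b v := Real.smoothTransition.nonneg _

theorem ct_le_one (v : F) : ct a b v ≤ 1 := Real.smoothTransition.le_one _

theorem contDiff_ct : ContDiff ℝ ∞ (ct a b : F → ℝ) := by
  have h1 : ContDiff ℝ ∞ fun v : F => (b ^ 2 - ‖v‖ ^ 2) / (b ^ 2 - a ^ 2) :=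
    (contDiff_const.sub (contDiff_id.norm_sq ℝ)).div_const _
  exact (Real.smoothTransition.contDiff (n := ⊤)).comp h1

theorem ct_one (ha : 0 ≤ a) (hab : a < b) {v : F} (hv : ‖v‖ ≤ a) : ct a b v = 1 := by
  have h0 : 0 < b ^ 2 - a ^ 2 := by nlinarith
  refine Real.smoothTransition.one_of_one_le ?_
  rw [le_div_iff₀ h0]
  nlinarith [norm_nonneg v]

theorem ct_zero (ha : 0 ≤ a) (hab : a < b) {v : F} (hv : b ≤ ‖v‖) : ct a b v = 0 := by
  have h0 : 0 < b ^ 2 - a ^ 2 := by nlinarith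
  refine Real.smoothTransition.zero_of_nonpos ?_
  refine div_nonpos_of_nonpos_of_nonneg ?_ h0.le
  nlinarith [norm_nonneg v]

theorem fderiv_ct_of_le (ha : 0 ≤ a) (hab : a < b) {v : F} (hv : ‖v‖ ≤ a) :
    fderiv ℝ (ct a b : F → ℝ) v = 0 := by
  refine IsLocalMax.fderiv_eq_zero ?_
  refine Eventually.of_forall fun w => ?_
  rw [ct_one ha hab hv]
  exact ct_le_one w

theorem norm_fderiv_ct_le {K : ℝ} (hK0 : 0 ≤ K)
    (hK : ∀ t, |deriv Real.smoothTransition t| ≤ K) (ha : 0 ≤ a) (hab : a < b) (v : F) :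
    ‖fderiv ℝ (ct a b : F → ℝ) v‖ ≤ 2 * K / (b - a) := by
  have h0 : 0 < b ^ 2 - a ^ 2 := by nlinarith
  have hba : 0 < b - a := by linarith
  rcases lt_or_ge b ‖v‖ with hv | hv
  · have : (ct a b : F → ℝ) =ᶠ[𝓝 v] fun _ => (0:ℝ) := by
      filter_upwards [(continuous_norm.tendsto v).eventually (lt_mem_nhds hv)] with w hw
      exact ct_zero ha hab hw.le
    rw [this.fderiv_eq]
    simp only [fderiv_fun_const, Pi.zero_apply, norm_zero]
    positivity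
  · have h1 : HasDerivAt Real.smoothTransition
        (deriv Real.smoothTransition ((b ^ 2 - ‖v‖ ^ 2) / (b ^ 2 - a ^ 2)))
        ((b ^ 2 - ‖v‖ ^ 2) / (b ^ 2 - a ^ 2)) :=
      (((Real.smoothTransition.contDiff (n := 1)).differentiable one_ne_zero) _).hasDerivAt
    have h2 : HasFDerivAt (fun v : F => (b ^ 2 - ‖v‖ ^ 2) / (b ^ 2 - a ^ 2))
        ((b ^ 2 - a ^ 2)⁻¹ • (-((2 : ℕ) • (innerSL ℝ v : F →L[ℝ] ℝ)))) v := by
      have h3 : HasFDerivAt (fun v : F => ‖v‖ ^ 2) ((2 : ℕ) • (innerSL ℝ v : F →L[ℝ] ℝ)) v := by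
        have := (hasFDerivAt_id v).norm_sq
        simpa using this
      have h4 := (h3.const_sub (b ^ 2)).const_mul ((b ^ 2 - a ^ 2)⁻¹)
      refine h4.congr_of_eventuallyEq (Eventually.of_forall fun w => ?_)
      simp only [div_eq_inv_mul]
    have h5 := h1.comp_hasFDerivAt v h2
    have h6 : HasFDerivAt (ct a b : F → ℝ) _ v := h5
    rw [h6.fderiv, norm_smul, norm_smul, norm_neg, Real.norm_eq_abs, norm_inv,
      Real.norm_of_nonneg h0.le]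
    have h7 : ‖(2 : ℕ) • (innerSL ℝ v : F →L[ℝ] ℝ)‖ ≤ 2 * b := by
      rw [two_nsmul]
      refine (norm_add_le _ _).trans ?_
      rw [innerSL_apply_norm]
      linarith
    calc |deriv Real.smoothTransition ((b ^ 2 - ‖v‖ ^ 2) / (b ^ 2 - a ^ 2))| *
          ((b ^ 2 - a ^ 2)⁻¹ * ‖(2 : ℕ) • (innerSL ℝ v : F →L[ℝ] ℝ)‖)
        ≤ K * ((b ^ 2 - a ^ 2)⁻¹ * (2 * b)) := by
          gcongr
          exact hK _
      _ ≤ K * (2 / (b - a)) := by
          gcongr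
          rw [inv_mul_le_iff₀ h0, show b ^ 2 - a ^ 2 = (b - a) * (b + a) by ring]
          rw [mul_div_assoc', le_div_iff₀ hba]
          nlinarith
      _ = _ := by ring

end ct

/-! ### the region and the standing hypotheses -/

variable {π : E →L[ℝ] F} {ρ : E →L[ℝ] W} {q0 : E} {u : F → W} {x : E → F} {y : E → W}
  {D : Set F} {κ h t s R : ℝ} {ι : Type} [Fintype ι] {e : OrthonormalBasis ι ℝ F}

/-- the cylinder `‖π(z - q0)‖ ≤ t`, `‖ρ(z - q0)‖ ≤ R` -/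
def cyl (π : E →L[ℝ] F) (ρ : E →L[ℝ] W) (q0 : E) (t R : ℝ) : Set E :=
  {z | ‖π (z - q0)‖ ≤ t ∧ ‖ρ (z - q0)‖ ≤ R}

/-- squared distance to the graph, `2 f` in the language of `GL` -/
def tf (u : F → W) (x : E → F) (y : E → W) (z : E) : ℝ := nsq (fderiv ℝ u (x z)) (y z)

theorem tf_nonneg (z : E) : 0 ≤ tf u x y z := nsq_nonneg _ _

theorem isClosed_cyl : IsClosed (cyl π ρ q0 t R) := by
  have h1 : IsClosed {z : E | ‖π (z - q0)‖ ≤ t} := isClosed_le (by fun_prop) continuous_const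
  have h2 : IsClosed {z : E | ‖ρ (z - q0)‖ ≤ R} := isClosed_le (by fun_prop) continuous_const
  exact h1.inter h2

theorem cyl_subset_closedBall (hf : Fr π ρ) : cyl π ρ q0 t R ⊆ closedBall q0 (t + R) := by
  rintro z ⟨h1, h2⟩
  rw [mem_closedBall, dist_eq_norm]
  have h3 := hf.norm_sq (z - q0)
  have h4 := norm_nonneg (π (z - q0))
  have h5 := norm_nonneg (ρ (z - q0))
  refine le_of_sq_le_sq ?_ (by linarith)
  nlinarith

theorem isCompact_cyl (hf : Fr π ρ) : IsCompact (cyl π ρ q0 t R) :=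
  (isCompact_closedBall q0 (t + R)).of_isClosed_subset isClosed_cyl (cyl_subset_closedBall hf)

theorem cyl_mono (hst : s ≤ t) : cyl π ρ q0 s R ⊆ cyl π ρ q0 t R := fun _ hz =>
  ⟨hz.1.trans hst, hz.2⟩

section integral

variable [MeasurableSpace E] [BorelSpace E] {U : Set E} {V : Measure (E × (E →L[ℝ] E))} {m : ℕ}

/-- `V` is near the graph of `u` over the cylinder, foot chart `(x, y)` -/
structure Nr (V : Measure (E × (E →L[ℝ] E))) (π : E →L[ℝ] F) (ρ : E →L[ℝ] W) (q0 : E) (u : F → W)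
    (x : E → F) (y : E → W) (e : OrthonormalBasis ι ℝ F) (D : Set F) (κ h t R : ℝ) : Prop where
  fr : Fr π ρ
  bd : Bd u D κ
  k0 : 0 ≤ κ
  kh : κ * h ≤ 1
  dD : closedBall (0 : F) t ⊆ D
  mn : ∀ v ∈ D, ∑ i, fderiv ℝ (fderiv ℝ u) v (ginv (fderiv ℝ u v) (e i)) (e i) = 0
  ae : ∀ᵐ p ∂V, p.1 ∈ cyl π ρ q0 t R → ‖ρ (p.1 - q0)‖ ≤ R / 2 ∧
    Foot π ρ q0 u p.1 (x p.1) (y p.1) ∧ x p.1 ∈ D ∧ ‖y p.1‖ ≤ h
  int : IntegrableOn (fun p : E × (E →L[ℝ] E) => tf u x y p.1) (Prod.fst ⁻¹' cyl π ρ q0 t R) V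

theorem Nr.base (H : Nr V π ρ q0 u x y e D κ h t R) {z : E} (hz : z ∈ cyl π ρ q0 t R) :
    π (z - q0) ∈ D := H.dD (mem_closedBall_zero_iff.2 hz.1)

theorem Nr.minAt (H : Nr V π ρ q0 u x y e D κ h t R) {z : E} (hz : z ∈ cyl π ρ q0 t R) :
    MinAt e π q0 1 u κ z := by
  have h1 := H.base hz
  refine ⟨?_, ?_⟩
  · simp only [bz, inv_one, one_smul]; exact H.bd.d2 _ h1
  · simp only [bz, inv_one, one_smul]; exact H.mn _ h1

theorem Nr.ht_le (H : Nr V π ρ q0 u x y e D κ h t R) :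
    ∀ᵐ p ∂V, p.1 ∈ cyl π ρ q0 t R → ‖ht π ρ q0 1 u p.1‖ ^ 2 ≤ 4 / 3 * tf u x y p.1 := by
  filter_upwards [H.ae] with p hp hpc
  obtain ⟨-, h2, h3, h4⟩ := hp hpc
  refine ht_le_nsq H.bd H.k0 h2 h3 (H.base hpc) ?_
  exact (mul_le_mul_of_nonneg_left h4 H.k0).trans H.kh

theorem Nr.int_ht (H : Nr V π ρ q0 u x y e D κ h t R) (hV : St U V)
    (hU : cyl π ρ q0 t R ⊆ U) {g : E → ℝ} (hg : Continuous g) :
    IntegrableOn (fun p : E × (E →L[ℝ] E) => g p.1) (Prod.fst ⁻¹' cyl π ρ q0 t R) V := by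
  obtain ⟨C, hC⟩ := (isCompact_cyl (q0 := q0) (t := t) (R := R) H.fr).exists_bound_of_continuousOn
    hg.continuousOn
  have hlt : V (Prod.fst ⁻¹' cyl π ρ q0 t R) < ⊤ := by
    have := hV.fin _ hU (isCompact_cyl H.fr)
    have h2 : (Prod.fst ⁻¹' cyl π ρ q0 t R : Set (E × (E →L[ℝ] E))) = cyl π ρ q0 t R ×ˢ univ := by
      ext p; simp
    rw [h2]; exact this
  refine Measure.integrableOn_of_bounded (M := C) hlt.ne
    (hg.comp continuous_fst).aestronglyMeasurable ?_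
  filter_upwards [ae_restrict_mem (isClosed_cyl.preimage continuous_fst).measurableSet] with p hp
  exact hC p.1 hp

theorem Nr.int_le (H : Nr V π ρ q0 u x y e D κ h t R) :
    ∫ p in Prod.fst ⁻¹' cyl π ρ q0 t R, ‖ht π ρ q0 1 u p.1‖ ^ 2 ∂V ≤
      4 / 3 * ∫ p in Prod.fst ⁻¹' cyl π ρ q0 t R, tf u x y p.1 ∂V := by
  rw [← integral_const_mul]
  refine integral_mono_of_nonneg (Eventually.of_forall fun p => by positivity)
    (H.int.const_mul _) ?_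
  filter_upwards [ae_restrict_of_ae H.ht_le,
    ae_restrict_mem (isClosed_cyl.preimage continuous_fst).measurableSet] with p hp hpc
  exact hp hpc

/-- (S1) **sup bound**: squared distance to `M` at one point of density `θ` -/
theorem sup_foot (hV : St U V) (hm : ∀ᵐ p ∂V, tr p.2 = m) (hF : Module.finrank ℝ F = m)
    (H : Nr V π ρ q0 u x y e D κ h t R) {z0 : E} {r : ℝ} (hr : 0 < r)
    (hU : closedBall z0 r ⊆ U) (hz0 : ball z0 r ⊆ cyl π ρ q0 t R)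
    (hf0 : Foot π ρ q0 u z0 (x z0) (y z0)) (hx0 : x z0 ∈ D) (hy0 : ‖y z0‖ ≤ h)
    (hκ : 64 * m * κ ^ 2 * r ^ 2 ≤ 1) {θ : ℝ} (hθ : 0 ≤ θ)
    (hdens : ∃ᶠ t in 𝓝[>] (0 : ℝ), θ * t ^ m ≤ (V (Prod.fst ⁻¹' ball z0 t)).toReal) :
    θ * tf u x y z0 ≤ 2 * ((r ^ m)⁻¹ * ∫ p in Prod.fst ⁻¹' cyl π ρ q0 t R, tf u x y p.1 ∂V) := by
  have h1 := height_graph hV hm hF H.fr one_pos H.bd.smooth hr hU
    (Eventually.of_forall fun p hp => H.minAt (hz0 hp)) (by simpa using hκ) hθ hdens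
  have h2 : tf u x y z0 ≤ 4 / 3 * ‖ht π ρ q0 1 u z0‖ ^ 2 :=
    nsq_le_ht H.bd H.k0 hf0 hx0 (H.base (hz0 (mem_ball_self hr)))
      ((mul_le_mul_of_nonneg_left hy0 H.k0).trans H.kh)
  -- integral over the ball
  have h3 : ∫ p in Prod.fst ⁻¹' ball z0 r, ‖ht π ρ q0 1 u p.1‖ ^ 2 ∂V ≤
      4 / 3 * ∫ p in Prod.fst ⁻¹' cyl π ρ q0 t R, tf u x y p.1 ∂V := by
    have e1 : ∫ p in Prod.fst ⁻¹' ball z0 r, ‖ht π ρ q0 1 u p.1‖ ^ 2 ∂V ≤
        ∫ p in Prod.fst ⁻¹' ball z0 r, 4 / 3 * tf u x y p.1 ∂V := by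
      refine integral_mono_of_nonneg (Eventually.of_forall fun p => by positivity)
        ((H.int.mono_set (preimage_mono hz0)).const_mul _) ?_
      filter_upwards [ae_restrict_of_ae H.ht_le,
        ae_restrict_mem (isOpen_ball.preimage continuous_fst).measurableSet] with p hp hpc
      exact hp (hz0 hpc)
    refine e1.trans ?_
    rw [integral_const_mul]
    refine mul_le_mul_of_nonneg_left ?_ (by norm_num)
    exact setIntegral_mono_set H.int (Eventually.of_forall fun p => tf_nonneg _)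
      (LE.le.eventuallyLE (preimage_mono hz0))
  calc θ * tf u x y z0 ≤ 4 / 3 * (θ * ‖ht π ρ q0 1 u z0‖ ^ 2) := by nlinarith
    _ ≤ 4 / 3 * (33 / 32 * ((r ^ m)⁻¹ *
        ∫ z in Prod.fst ⁻¹' ball z0 r, ‖ht π ρ q0 1 u z.1‖ ^ 2 ∂V)) := by gcongr
    _ ≤ 4 / 3 * (33 / 32 * ((r ^ m)⁻¹ *
        (4 / 3 * ∫ p in Prod.fst ⁻¹' cyl π ρ q0 t R, tf u x y p.1 ∂V))) := by gcongr
    _ = 11 / 6 * ((r ^ m)⁻¹ * ∫ p in Prod.fst ⁻¹' cyl π ρ q0 t R, tf u x y p.1 ∂V) := by ring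
    _ ≤ _ := by
        have : 0 ≤ (r ^ m)⁻¹ * ∫ p in Prod.fst ⁻¹' cyl π ρ q0 t R, tf u x y p.1 ∂V :=
          mul_nonneg (by positivity) (integral_nonneg fun p => tf_nonneg _)
        linarith

/-- the tilt relative to the graph at the foot point, `= ∑ ‖(ρ - Du(x) π) P b_j‖²` -/
def tft (π : E →L[ℝ] F) (ρ : E →L[ℝ] W) (u : F → W) (x : E → F) (p : E × (E →L[ℝ] E)) : ℝ :=
  tau (nf π ρ (fderiv ℝ u (x p.1))) p.2

theorem tft_nonneg (p : E × (E →L[ℝ] E)) : 0 ≤ tft π ρ u x p := tau_nonneg _ _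

/-- the cut-off of the cylinder -/
def cf (π : E →L[ℝ] F) (ρ : E →L[ℝ] W) (q0 : E) (s t R : ℝ) (z : E) : ℝ :=
  ct s t (π (z - q0)) * ct (R / 2) R (ρ (z - q0))

theorem contDiff_cf : ContDiff ℝ 1 (cf π ρ q0 s t R) := by
  have h1 : ContDiff ℝ 1 fun z : E => π (z - q0) := π.contDiff.comp (contDiff_id.sub contDiff_const)
  have h2 : ContDiff ℝ 1 fun z : E => ρ (z - q0) := ρ.contDiff.comp (contDiff_id.sub contDiff_const)
  exact ((contDiff_ct.of_le (by norm_cast)).comp h1).mul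
    ((contDiff_ct.of_le (by norm_cast)).comp h2)

theorem tsupport_cf (hs : 0 ≤ s) (hst : s < t) (hR : 0 < R) :
    tsupport (cf π ρ q0 s t R) ⊆ cyl π ρ q0 t R := by
  refine closure_minimal (fun z hz => ?_) isClosed_cyl
  rw [Function.mem_support] at hz
  refine ⟨?_, ?_⟩
  · by_contra hcon
    rw [not_le] at hcon
    exact hz (by rw [cf, ct_zero hs hst hcon.le, zero_mul])
  · by_contra hcon
    rw [not_le] at hcon
    exact hz (by rw [cf, ct_zero (by linarith) (by linarith) hcon.le, mul_zero])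

theorem hasCompactSupport_cf (hf : Fr π ρ) (hs : 0 ≤ s) (hst : s < t) (hR : 0 < R) :
    HasCompactSupport (cf π ρ q0 s t R) :=
  (isCompact_cyl hf).of_isClosed_subset (isClosed_tsupport _) (tsupport_cf hs hst hR)

theorem cf_one (hs : 0 ≤ s) (hst : s < t) (hR : 0 < R) {z : E} (h1 : ‖π (z - q0)‖ ≤ s)
    (h2 : ‖ρ (z - q0)‖ ≤ R / 2) : cf π ρ q0 s t R z = 1 := by
  rw [cf, ct_one hs hst h1, ct_one (by linarith) (by linarith) h2, one_mul]

theorem norm_fderiv_cf (hf : Fr π ρ) {K : ℝ} (hK0 : 0 ≤ K)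
    (hK : ∀ t, |deriv Real.smoothTransition t| ≤ K) (hs : 0 ≤ s) (hst : s < t) (hR : 0 < R)
    {z : E} (h2 : ‖ρ (z - q0)‖ ≤ R / 2) : ‖fderiv ℝ (cf π ρ q0 s t R) z‖ ≤ 2 * K / (t - s) := by
  have h3 : HasFDerivAt (fun z : E => π (z - q0)) π z := by
    have h4 : HasFDerivAt (fun z => π z - π q0) π z := π.hasFDerivAt.sub_const _
    simpa only [map_sub] using h4
  have h4 : HasFDerivAt (fun z : E => ρ (z - q0)) ρ z := by
    have h4 : HasFDerivAt (fun z => ρ z - ρ q0) ρ z := ρ.hasFDerivAt.sub_const _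
    simpa only [map_sub] using h4
  have h5 : HasFDerivAt (ct s t : F → ℝ) (fderiv ℝ (ct s t : F → ℝ) (π (z - q0))) (π (z - q0)) :=
    ((contDiff_ct.differentiable (by norm_num)) _).hasFDerivAt
  have h6 : HasFDerivAt (ct (R / 2) R : W → ℝ) (0 : W →L[ℝ] ℝ) (ρ (z - q0)) := by
    rw [← fderiv_ct_of_le (b := R) (by linarith) (by linarith) h2]
    exact ((contDiff_ct.differentiable (by norm_num)) _).hasFDerivAt
  have h7a := h5.comp z h3
  have h7b := h6.comp z h4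
  have h7 : HasFDerivAt (cf π ρ q0 s t R) _ z := h7a.mul h7b
  rw [h7.fderiv]
  have h8 : ct (R / 2) R (ρ (z - q0)) = 1 := ct_one (by linarith) (by linarith) h2
  simp only [ContinuousLinearMap.zero_comp, smul_zero, zero_add, Function.comp_apply, h8, one_smul]
  refine ContinuousLinearMap.opNorm_le_bound _ (by have : 0 < t - s := by linarith
                                                   positivity) fun v => ?_
  rw [ContinuousLinearMap.comp_apply]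
  refine (ContinuousLinearMap.le_opNorm _ _).trans ?_
  have h9 := norm_fderiv_ct_le hK0 hK hs hst (π (z - q0))
  have h10 := hf.norm_p_le v
  gcongr

end integral

end

end Crest.Agent.R234.Gs_685
end

-- ▼ part R234/Gs3_685
section

/-!
R234 (helper685), GL-SUP part 3: the energy bound relative to a minimal graph in the foot chart, and
the versions over the sets `{‖x(z)‖ ≤ s}`.
-/

set_option autoImplicit false
set_option linter.unusedSectionVars false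

open MeasureTheory Metric Set Filter Topology
open scoped InnerProductSpace ContDiff

namespace Crest.Agent.R234.Gs_685

open Crest.Agent.R234.Cacc_113 (tr IsPr St)
open Crest.Agent.R234.Ell1_3 (gop ginv adjL)
open Crest.Agent.R234.Supm_685

noncomputable section

/-- the absolute constant of the cut-offs -/
def Kst : ℝ := exists_st_bound.choose

theorem Kst_nonneg : 0 ≤ Kst := exists_st_bound.choose_spec.1

theorem Kst_bound (t : ℝ) : |deriv Real.smoothTransition t| ≤ Kst :=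
  exists_st_bound.choose_spec.2 t

/-- the constant of the energy bound -/
def Ken : ℝ := 200 * Kst ^ 2 + 12

theorem Ken_pos : 0 < Ken := by unfold Ken; positivity

variable {E F W : Type} [NormedAddCommGroup E] [InnerProductSpace ℝ E] [FiniteDimensional ℝ E]
  [NormedAddCommGroup F] [InnerProductSpace ℝ F] [FiniteDimensional ℝ F]
  [NormedAddCommGroup W] [InnerProductSpace ℝ W] [FiniteDimensional ℝ W]

variable {π : E →L[ℝ] F} {ρ : E →L[ℝ] W} {q0 : E} {u : F → W} {x : E → F} {y : E → W}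
  {D : Set F} {κ h t s R : ℝ} {ι : Type} [Fintype ι] {e : OrthonormalBasis ι ℝ F}
  [MeasurableSpace E] [BorelSpace E] {U : Set E} {V : Measure (E × (E →L[ℝ] E))} {m : ℕ}

theorem Nr.mono_set (H : Nr V π ρ q0 u x y e D κ h t R) {S : Set (E × (E →L[ℝ] E))}
    (hS : S ⊆ Prod.fst ⁻¹' cyl π ρ q0 t R) :
    ∫ p in S, tf u x y p.1 ∂V ≤ ∫ p in Prod.fst ⁻¹' cyl π ρ q0 t R, tf u x y p.1 ∂V :=
  setIntegral_mono_set H.int (Eventually.of_forall fun _ => tf_nonneg _)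
    (LE.le.eventuallyLE hS)

/-- (S2) **energy bound** relative to the graph, over any set `S` inside the smaller cylinder. -/
theorem energy_foot_set (hV : St U V) (hm : ∀ᵐ p ∂V, tr p.2 = m) (hF : Module.finrank ℝ F = m)
    (H : Nr V π ρ q0 u x y e D κ h t R) (hs : 0 ≤ s) (hst : s < t) (hR : 0 < R)
    (hU : cyl π ρ q0 t R ⊆ U) {S : Set (E × (E →L[ℝ] E))}
    (hS : S ≤ᵐ[V] (Prod.fst ⁻¹' cyl π ρ q0 s R)) :
    ∫ p in S, tft π ρ u x p ∂V ≤
      Ken * (((t - s) ^ 2)⁻¹ + (m + 1) ^ 2 * κ ^ 2) *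
        ∫ p in Prod.fst ⁻¹' cyl π ρ q0 t R, tf u x y p.1 ∂V := by
  set φ := cf π ρ q0 s t R with hφ
  have hφc : ContDiff ℝ 1 φ := contDiff_cf
  have hcs : HasCompactSupport φ := hasCompactSupport_cf H.fr hs hst hR
  have hts : tsupport φ ⊆ cyl π ρ q0 t R := tsupport_cf hs hst hR
  have hmc : MeasurableSet (Prod.fst ⁻¹' cyl π ρ q0 t R : Set (E × (E →L[ℝ] E))) :=
    (isClosed_cyl.preimage continuous_fst).measurableSet
  have hms : MeasurableSet (Prod.fst ⁻¹' cyl π ρ q0 s R : Set (E × (E →L[ℝ] E))) :=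
    (isClosed_cyl.preimage continuous_fst).measurableSet
  have h1 := cacc_graph hV hm hF H.fr one_pos H.bd.smooth hφc hcs (hts.trans hU)
    (Eventually.of_forall fun p hp => H.minAt (hts hp))
  have hst0 : 0 < t - s := by linarith
  have hκ := H.k0
  set I := ∫ p in Prod.fst ⁻¹' cyl π ρ q0 t R, ‖ht π ρ q0 1 u p.1‖ ^ 2 ∂V with hI
  have hI0 : 0 ≤ I := integral_nonneg fun p => by positivity
  have hcn : Continuous fun z => ‖ht π ρ q0 1 u z‖ ^ 2 := (contDiff_nsq H.bd.smooth).continuous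
  have hIint : IntegrableOn (fun p : E × (E →L[ℝ] E) => ‖ht π ρ q0 1 u p.1‖ ^ 2)
      (Prod.fst ⁻¹' cyl π ρ q0 t R) V := H.int_ht hV hU hcn
  -- the two right hand integrals
  have hB : ∫ p, φ p.1 ^ 2 * ‖ht π ρ q0 1 u p.1‖ ^ 2 ∂V ≤ I := by
    have e1 : ∫ p, φ p.1 ^ 2 * ‖ht π ρ q0 1 u p.1‖ ^ 2 ∂V =
        ∫ p in Prod.fst ⁻¹' cyl π ρ q0 t R, φ p.1 ^ 2 * ‖ht π ρ q0 1 u p.1‖ ^ 2 ∂V := by
      rw [setIntegral_eq_integral_of_forall_compl_eq_zero]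
      intro p hp
      rw [image_eq_zero_of_notMem_tsupport fun hc => hp (hts hc)]; simp
    rw [e1, hI]
    refine integral_mono_of_nonneg (Eventually.of_forall fun p => by positivity) hIint ?_
    refine Eventually.of_forall fun p => ?_
    have e2 : φ p.1 ^ 2 ≤ 1 := by
      have a1 : 0 ≤ φ p.1 := mul_nonneg (ct_nonneg _) (ct_nonneg _)
      have a2 : φ p.1 ≤ 1 := by
        rw [hφ, cf]
        exact mul_le_one₀ (ct_le_one _) (ct_nonneg _) (ct_le_one _)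
      nlinarith
    have e3 : 0 ≤ ‖ht π ρ q0 1 u p.1‖ ^ 2 := by positivity
    change φ p.1 ^ 2 * ‖ht π ρ q0 1 u p.1‖ ^ 2 ≤ ‖ht π ρ q0 1 u p.1‖ ^ 2
    nlinarith
  have hA : ∫ p, ‖fderiv ℝ φ p.1‖ ^ 2 * ‖ht π ρ q0 1 u p.1‖ ^ 2 ∂V ≤
      (2 * Kst / (t - s)) ^ 2 * I := by
    have e1 : ∫ p, ‖fderiv ℝ φ p.1‖ ^ 2 * ‖ht π ρ q0 1 u p.1‖ ^ 2 ∂V =
        ∫ p in Prod.fst ⁻¹' cyl π ρ q0 t R, ‖fderiv ℝ φ p.1‖ ^ 2 *
          ‖ht π ρ q0 1 u p.1‖ ^ 2 ∂V := by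
      rw [setIntegral_eq_integral_of_forall_compl_eq_zero]
      intro p hp
      have : fderiv ℝ φ p.1 = 0 := by
        by_contra hcon
        exact hp (hts (support_fderiv_subset ℝ hcon))
      rw [this]; simp
    rw [e1, hI, ← integral_const_mul]
    refine integral_mono_of_nonneg (Eventually.of_forall fun p => by positivity)
      (hIint.const_mul _) ?_
    filter_upwards [ae_restrict_of_ae H.ae, ae_restrict_mem hmc] with p hp hpc
    have e2 := norm_fderiv_cf (q0 := q0) H.fr Kst_nonneg Kst_bound hs hst hR (hp hpc).1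
    rw [← hφ] at e2
    gcongr
  -- the left hand side
  have hcnz : Continuous (nz π ρ q0 1 u) := (contDiff_nz H.bd.smooth).continuous
  have hctau : Continuous fun p : E × (E →L[ℝ] E) => tau (nz π ρ q0 1 u p.1) p.2 := by
    unfold tau
    refine continuous_finsetSum _ fun j _ => ?_
    exact (((hcnz.comp continuous_fst).clm_apply
      (continuous_snd.clm_apply continuous_const)).norm.pow 2)
  have hiA : Integrable (fun p : E × (E →L[ℝ] E) => φ p.1 ^ 2 * tau (nz π ρ q0 1 u p.1) p.2) V := by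
    refine hV.integrable (((hφc.continuous.comp continuous_fst).pow 2).mul hctau)
      hcs.isCompact (hts.trans hU) ?_
    intro p hp
    rw [image_eq_zero_of_notMem_tsupport hp]; simp
  have hSt : S ≤ᵐ[V] (Prod.fst ⁻¹' cyl π ρ q0 t R) :=
    hS.trans (LE.le.eventuallyLE (preimage_mono (cyl_mono hst.le)))
  have hae : ∀ᵐ p ∂(V.restrict S), p ∈ (Prod.fst ⁻¹' cyl π ρ q0 s R) :=
    (ae_restrict_mem hms).filter_mono (ae_mono (Measure.restrict_mono_ae hS))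
  have hL : ∫ p in S, tft π ρ u x p ∂V ≤
      2 * ∫ p, φ p.1 ^ 2 * tau (nz π ρ q0 1 u p.1) p.2 ∂V + 1 / 6 * κ ^ 2 * m * I := by
    have hIS := hIint.mono_set_ae hSt
    have e1 : ∫ p in S, tft π ρ u x p ∂V ≤
        ∫ p in S, (2 * (φ p.1 ^ 2 * tau (nz π ρ q0 1 u p.1) p.2) +
            1 / 6 * κ ^ 2 * m * ‖ht π ρ q0 1 u p.1‖ ^ 2) ∂V := by
      refine integral_mono_of_nonneg (Eventually.of_forall fun p => tft_nonneg _)
        ((hiA.integrableOn.const_mul _).add (hIS.const_mul _)) ?_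
      filter_upwards [ae_restrict_of_ae H.ae, ae_restrict_of_ae hm, ae_restrict_of_ae hV.pr,
        hae] with p hp hmp hpr hpc
      have hpt : p.1 ∈ cyl π ρ q0 t R := cyl_mono hst.le hpc
      obtain ⟨a1, a2, a3, a4⟩ := hp hpt
      have hky : κ * ‖y p.1‖ ≤ 1 := (mul_le_mul_of_nonneg_left a4 H.k0).trans H.kh
      have e2 := tau_foot_le H.fr H.bd H.k0 a2 a3 (H.base hpt) hpr
      have e3 := nsq_le_ht H.bd H.k0 a2 a3 (H.base hpt) hky
      have e4 := sq_le_nsq (fderiv ℝ u (x p.1)) (y p.1)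
      have e5 : φ p.1 = 1 := cf_one hs hst hR hpc.1 a1
      rw [hmp] at e2
      change tau (nf π ρ (fderiv ℝ u (x p.1))) p.2 ≤ 2 * (φ p.1 ^ 2 *
        tau (nz π ρ q0 1 u p.1) p.2) + 1 / 6 * κ ^ 2 * m * ‖ht π ρ q0 1 u p.1‖ ^ 2
      rw [e5, one_pow, one_mul]
      refine e2.trans ?_
      have e6 : 1 / 8 * κ ^ 2 * ‖y p.1‖ ^ 2 * m ≤
          1 / 8 * κ ^ 2 * (4 / 3 * ‖ht π ρ q0 1 u p.1‖ ^ 2) * m := by
        gcongr
        exact e4.trans e3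
      linarith
    refine e1.trans ?_
    rw [integral_add (hiA.integrableOn.const_mul _) (hIS.const_mul _), integral_const_mul,
      integral_const_mul]
    have e7 : ∫ p in S, φ p.1 ^ 2 * tau (nz π ρ q0 1 u p.1) p.2 ∂V ≤
        ∫ p, φ p.1 ^ 2 * tau (nz π ρ q0 1 u p.1) p.2 ∂V :=
      setIntegral_le_integral hiA (Eventually.of_forall fun p => by
        have := tau_nonneg (nz π ρ q0 1 u p.1) p.2
        positivity)
    have e8 : ∫ p in S, ‖ht π ρ q0 1 u p.1‖ ^ 2 ∂V ≤ I :=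
      setIntegral_mono_set hIint (Eventually.of_forall fun p => by positivity) hSt
    have e9 : 0 ≤ 1 / 6 * κ ^ 2 * m := by positivity
    have := mul_le_mul_of_nonneg_left e8 e9
    linarith
  have hJ := H.int_le
  rw [← hI] at hJ
  set J := ∫ p in Prod.fst ⁻¹' cyl π ρ q0 t R, tf u x y p.1 ∂V with hJdef
  have hJ0 : 0 ≤ J := integral_nonneg fun p => tf_nonneg _
  rw [div_one] at h1
  have h2 : ∫ p in S, tft π ρ u x p ∂V ≤
      (128 * Kst ^ 2 * ((t - s) ^ 2)⁻¹ + (8 * m ^ 2 + 1 / 6 * m) * κ ^ 2) * I := by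
    have e1 : (2 * Kst / (t - s)) ^ 2 = 4 * Kst ^ 2 * ((t - s) ^ 2)⁻¹ := by
      rw [div_pow]; ring
    rw [e1] at hA
    have e2 : 4 * (m * κ) ^ 2 * ∫ p, φ p.1 ^ 2 * ‖ht π ρ q0 1 u p.1‖ ^ 2 ∂V ≤
        4 * (m * κ) ^ 2 * I := by gcongr
    nlinarith
  refine h2.trans ?_
  have h3 : (128 * Kst ^ 2 * ((t - s) ^ 2)⁻¹ + (8 * m ^ 2 + 1 / 6 * m) * κ ^ 2) * I ≤
      (128 * Kst ^ 2 * ((t - s) ^ 2)⁻¹ + (8 * m ^ 2 + 1 / 6 * m) * κ ^ 2) * (4 / 3 * J) := by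
    gcongr
  refine h3.trans ?_
  have h4 : (128 * Kst ^ 2 * ((t - s) ^ 2)⁻¹ + (8 * m ^ 2 + 1 / 6 * m) * κ ^ 2) * (4 / 3 * J) =
      ((128 * Kst ^ 2 * ((t - s) ^ 2)⁻¹ + (8 * m ^ 2 + 1 / 6 * m) * κ ^ 2) * (4 / 3)) * J := by ring
  rw [h4]
  refine mul_le_mul_of_nonneg_right ?_ hJ0
  have hm0 : (0:ℝ) ≤ m := Nat.cast_nonneg _
  have e3 : 0 ≤ ((t - s) ^ 2)⁻¹ := by positivity
  have e4 : 128 * Kst ^ 2 * ((t - s) ^ 2)⁻¹ * (4 / 3) ≤ Ken * ((t - s) ^ 2)⁻¹ := by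
    unfold Ken; nlinarith [mul_nonneg (sq_nonneg Kst) e3]
  have e5 : (8 * m ^ 2 + 1 / 6 * m) * κ ^ 2 * (4 / 3) ≤ Ken * ((m + 1) ^ 2 * κ ^ 2) := by
    have a1 : (8 * m ^ 2 + 1 / 6 * m) * (4 / 3) ≤ 12 * ((m:ℝ) + 1) ^ 2 := by nlinarith
    have a2 : 12 * ((m:ℝ) + 1) ^ 2 ≤ Ken * ((m:ℝ) + 1) ^ 2 := by
      gcongr
      unfold Ken
      nlinarith [sq_nonneg Kst]
    have a3 := mul_le_mul_of_nonneg_right (a1.trans a2) (sq_nonneg κ)
    linarith
  linarith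


/-- (S2) over the sets `{‖x(z)‖ ≤ s}` (inside the cylinder). -/
theorem energy_foot_x (hV : St U V) (hm : ∀ᵐ p ∂V, tr p.2 = m) (hF : Module.finrank ℝ F = m)
    (H : Nr V π ρ q0 u x y e D κ h t R) (hs : 0 ≤ s) (hst : s + 2 * h < t) (hh : 0 ≤ h)
    (hR : 0 < R) (hU : cyl π ρ q0 t R ⊆ U) :
    ∫ p in {p | ‖x p.1‖ ≤ s ∧ p.1 ∈ cyl π ρ q0 t R}, tft π ρ u x p ∂V ≤
      4 * Ken * (((t - s) ^ 2)⁻¹ + (m + 1) ^ 2 * κ ^ 2) *
        ∫ p in Prod.fst ⁻¹' cyl π ρ q0 t R, tf u x y p.1 ∂V := by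
  have hs' : s + h < t := by linarith
  have hJ0 : 0 ≤ ∫ p in Prod.fst ⁻¹' cyl π ρ q0 t R, tf u x y p.1 ∂V :=
    integral_nonneg fun p => tf_nonneg _
  have h2 : ((t - (s + h)) ^ 2)⁻¹ ≤ 4 * ((t - s) ^ 2)⁻¹ := by
    have a0 : 0 < t - s := by linarith
    have a1 : (t - s) / 2 ≤ t - (s + h) := by linarith
    have a2 : ((t - (s + h)) ^ 2)⁻¹ ≤ (((t - s) / 2) ^ 2)⁻¹ := by
      gcongr
    refine a2.trans (le_of_eq ?_)
    field_simp
    norm_num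
  have h3 : Ken * (((t - (s + h)) ^ 2)⁻¹ + (m + 1) ^ 2 * κ ^ 2) ≤
      4 * Ken * (((t - s) ^ 2)⁻¹ + (m + 1) ^ 2 * κ ^ 2) := by
    have a1 : 0 ≤ ((m:ℝ) + 1) ^ 2 * κ ^ 2 := by positivity
    have a2 := Ken_pos
    nlinarith
  refine (energy_foot_set hV hm hF H (s := s + h) (by linarith) hs' hR hU ?_).trans
    (mul_le_mul_of_nonneg_right h3 hJ0)
  filter_upwards [H.ae] with p hp hpS
  obtain ⟨hx, hc⟩ := hpS
  obtain ⟨-, a2, a3, a4⟩ := hp hc
  refine ⟨?_, hc.2⟩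
  have a5 := norm_foot_sub_le H.bd a2 a3
  have a6 : π (p.1 - q0) = x p.1 - (x p.1 - π (p.1 - q0)) := by abel
  rw [a6]
  refine (norm_sub_le _ _).trans ?_
  linarith [norm_nonneg (y p.1)]

/-- (S1) at a point with `‖x(z0)‖ ≤ s`. -/
theorem sup_foot_x (hV : St U V) (hm : ∀ᵐ p ∂V, tr p.2 = m) (hF : Module.finrank ℝ F = m)
    (H : Nr V π ρ q0 u x y e D κ h t R) {z0 : E} {r : ℝ} (hr : 0 < r)
    (hU' : closedBall z0 r ⊆ U)
    (hf0 : Foot π ρ q0 u z0 (x z0) (y z0)) (hx0 : x z0 ∈ D) (hy0 : ‖y z0‖ ≤ h)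
    (hxs : ‖x z0‖ + h + r ≤ t) (hρ : ‖ρ (z0 - q0)‖ + r ≤ R)
    (hκ : 64 * m * κ ^ 2 * r ^ 2 ≤ 1) {θ : ℝ} (hθ : 0 ≤ θ)
    (hdens : ∃ᶠ t in 𝓝[>] (0 : ℝ), θ * t ^ m ≤ (V (Prod.fst ⁻¹' ball z0 t)).toReal) :
    θ * tf u x y z0 ≤ 2 * ((r ^ m)⁻¹ * ∫ p in Prod.fst ⁻¹' cyl π ρ q0 t R, tf u x y p.1 ∂V) := by
  refine sup_foot hV hm hF H hr hU' ?_ hf0 hx0 hy0 hκ hθ hdens
  intro z hz
  have h0 : ‖z - z0‖ < r := by rwa [mem_ball, dist_eq_norm] at hz
  have h1 : z - q0 = (z - z0) + (z0 - q0) := by abel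
  have h2 := norm_foot_sub_le H.bd hf0 hx0
  have h3 : ‖π (z0 - q0)‖ ≤ ‖x z0‖ + h := by
    have a6 : π (z0 - q0) = x z0 - (x z0 - π (z0 - q0)) := by abel
    rw [a6]
    refine (norm_sub_le _ _).trans ?_
    linarith [norm_nonneg (y z0)]
  refine ⟨?_, ?_⟩
  · rw [h1, map_add]
    have := norm_add_le (π (z - z0)) (π (z0 - q0))
    have := H.fr.norm_p_le (z - z0)
    linarith
  · rw [h1, map_add]
    have := norm_add_le (ρ (z - z0)) (ρ (z0 - q0))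
    have := H.fr.norm_r_le (z - z0)
    linarith



end

end Crest.Agent.R234.Gs_685
end

-- ▼ part R234/Gs4_685
section

/-!
R234 (helper685), GL-SUP part 4: the bounds of Gs2/Gs3 over the regions
`tcl = {‖L0 (π(z - q0) - X0)‖ ≤ t, |hgt z| ≤ r}` (456's normalised centre `X0`, `L0`, tube of radius
`r` around the graph).
-/

set_option autoImplicit false
set_option linter.unusedSectionVars false

open MeasureTheory Metric Set Filter Topology
open scoped InnerProductSpace ContDiff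

namespace Crest.Agent.R234.Gt_685

open Crest.Agent.R234.Cacc_113 (tr IsPr St)
open Crest.Agent.R234.Ell1_3 (gop ginv adjL)
open Crest.Agent.R234.Supm_685 Crest.Agent.R234.Gs_685

noncomputable section

variable {E F W : Type} [NormedAddCommGroup E] [InnerProductSpace ℝ E] [FiniteDimensional ℝ E]
  [NormedAddCommGroup F] [InnerProductSpace ℝ F] [FiniteDimensional ℝ F]
  [NormedAddCommGroup W] [InnerProductSpace ℝ W] [FiniteDimensional ℝ W]

/-! ### the region and the standing hypotheses -/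

variable {π : E →L[ℝ] F} {ρ : E →L[ℝ] W} {q0 : E} {u : F → W} {x : E → F} {y : E → W}
  {D : Set F} {κ h t s r : ℝ} {ι : Type} [Fintype ι] {e : OrthonormalBasis ι ℝ F}
  {L0 : F →L[ℝ] F} {X0 : F}

/-- the region `‖L0 (π(z - q0) - X0)‖ ≤ t`, `|hgt z| ≤ r` -/
def tcl (π : E →L[ℝ] F) (ρ : E →L[ℝ] W) (q0 : E) (u : F → W) (L0 : F →L[ℝ] F) (X0 : F)
    (t r : ℝ) : Set E :=
  {z | ‖L0 (π (z - q0) - X0)‖ ≤ t ∧ ‖ht π ρ q0 1 u z‖ ≤ r}

/-- normalisation of the centre -/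
structure Nm (L0 : F →L[ℝ] F) : Prop where
  le : ∀ v, ‖v‖ ≤ ‖L0 v‖
  norm : ‖L0‖ ≤ 2

theorem continuous_ht (hu : ContDiff ℝ 2 u) : Continuous (ht π ρ q0 1 u) :=
  (contDiff_ht hu).continuous

theorem isClosed_tcl (hu : ContDiff ℝ 2 u) : IsClosed (tcl π ρ q0 u L0 X0 t r) := by
  have h1 : IsClosed {z : E | ‖L0 (π (z - q0) - X0)‖ ≤ t} :=
    isClosed_le (by fun_prop) continuous_const
  have h2 : IsClosed {z : E | ‖ht π ρ q0 1 u z‖ ≤ r} :=
    isClosed_le (continuous_ht hu).norm continuous_const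
  exact h1.inter h2

theorem isCompact_tcl (hf : Fr π ρ) (hL : Nm L0) (hu : ContDiff ℝ 2 u) :
    IsCompact (tcl π ρ q0 u L0 X0 t r) := by
  obtain ⟨C, hC⟩ := (isCompact_closedBall X0 t).exists_bound_of_continuousOn
    hu.continuous.continuousOn
  refine (isCompact_closedBall q0 (t + ‖X0‖ + (r + C))).of_isClosed_subset (isClosed_tcl hu) ?_
  rintro z ⟨h1, h2⟩
  rw [mem_closedBall, dist_eq_norm]
  have h3 : ‖π (z - q0) - X0‖ ≤ t := (hL.le _).trans h1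
  have h4 : ‖π (z - q0)‖ ≤ t + ‖X0‖ := by
    have : π (z - q0) = (π (z - q0) - X0) + X0 := by abel
    rw [this]; exact (norm_add_le _ _).trans (by linarith)
  have h5 : ‖ρ (z - q0)‖ ≤ r + C := by
    have : ρ (z - q0) = ht π ρ q0 1 u z + u (π (z - q0)) := by simp [ht]
    rw [this]
    refine (norm_add_le _ _).trans (add_le_add h2 (hC _ ?_))
    rw [mem_closedBall, dist_eq_norm]; exact h3
  have h6 := hf.norm_sq (z - q0)
  have h7 := norm_nonneg (π (z - q0))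
  have h8 := norm_nonneg (ρ (z - q0))
  refine le_of_sq_le_sq ?_ (by linarith)
  nlinarith

theorem tcl_mono (hst : s ≤ t) : tcl π ρ q0 u L0 X0 s r ⊆ tcl π ρ q0 u L0 X0 t r := fun _ hz =>
  ⟨hz.1.trans hst, hz.2⟩


section integral

variable [MeasurableSpace E] [BorelSpace E] {U : Set E} {V : Measure (E × (E →L[ℝ] E))} {m : ℕ}

/-- `V` is near the graph of `u` over the region, foot chart `(x, y)` -/
structure Nt (V : Measure (E × (E →L[ℝ] E))) (π : E →L[ℝ] F) (ρ : E →L[ℝ] W) (q0 : E) (u : F → W)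
    (x : E → F) (y : E → W) (e : OrthonormalBasis ι ℝ F) (L0 : F →L[ℝ] F) (X0 : F) (D : Set F)
    (κ h t r : ℝ) : Prop where
  fr : Fr π ρ
  nm : Nm L0
  bd : Bd u D κ
  k0 : 0 ≤ κ
  kh : κ * h ≤ 1
  dD : ∀ v, ‖L0 (v - X0)‖ ≤ t → v ∈ D
  mn : ∀ v ∈ D, ∑ i, fderiv ℝ (fderiv ℝ u) v (ginv (fderiv ℝ u v) (e i)) (e i) = 0
  ae : ∀ᵐ p ∂V, p.1 ∈ tcl π ρ q0 u L0 X0 t r → ‖ht π ρ q0 1 u p.1‖ ≤ r / 2 ∧
    Foot π ρ q0 u p.1 (x p.1) (y p.1) ∧ x p.1 ∈ D ∧ ‖y p.1‖ ≤ h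
  int : IntegrableOn (fun p : E × (E →L[ℝ] E) => tf u x y p.1)
    (Prod.fst ⁻¹' tcl π ρ q0 u L0 X0 t r) V

theorem Nt.base (H : Nt V π ρ q0 u x y e L0 X0 D κ h t r) {z : E}
    (hz : z ∈ tcl π ρ q0 u L0 X0 t r) : π (z - q0) ∈ D := H.dD _ hz.1

theorem Nt.minAt (H : Nt V π ρ q0 u x y e L0 X0 D κ h t r) {z : E} (hz : z ∈ tcl π ρ q0 u L0 X0 t r) :
    MinAt e π q0 1 u κ z := by
  have h1 := H.base hz
  refine ⟨?_, ?_⟩
  · simp only [bz, inv_one, one_smul]; exact H.bd.d2 _ h1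
  · simp only [bz, inv_one, one_smul]; exact H.mn _ h1

theorem Nt.ht_le (H : Nt V π ρ q0 u x y e L0 X0 D κ h t r) :
    ∀ᵐ p ∂V, p.1 ∈ tcl π ρ q0 u L0 X0 t r → ‖ht π ρ q0 1 u p.1‖ ^ 2 ≤ 4 / 3 * tf u x y p.1 := by
  filter_upwards [H.ae] with p hp hpc
  obtain ⟨-, h2, h3, h4⟩ := hp hpc
  refine ht_le_nsq H.bd H.k0 h2 h3 (H.base hpc) ?_
  exact (mul_le_mul_of_nonneg_left h4 H.k0).trans H.kh

theorem Nt.int_ht (H : Nt V π ρ q0 u x y e L0 X0 D κ h t r) (hV : St U V)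
    (hU : tcl π ρ q0 u L0 X0 t r ⊆ U) {g : E → ℝ} (hg : Continuous g) :
    IntegrableOn (fun p : E × (E →L[ℝ] E) => g p.1) (Prod.fst ⁻¹' tcl π ρ q0 u L0 X0 t r) V := by
  obtain ⟨C, hC⟩ := (isCompact_tcl (q0 := q0) (t := t) (r := r) (X0 := X0) H.fr H.nm
    H.bd.smooth).exists_bound_of_continuousOn hg.continuousOn
  have hlt : V (Prod.fst ⁻¹' tcl π ρ q0 u L0 X0 t r) < ⊤ := by
    have := hV.fin _ hU (isCompact_tcl H.fr H.nm H.bd.smooth)
    have h2 : (Prod.fst ⁻¹' tcl π ρ q0 u L0 X0 t r : Set (E × (E →L[ℝ] E))) =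
        tcl π ρ q0 u L0 X0 t r ×ˢ univ := by
      ext p; simp
    rw [h2]; exact this
  refine Measure.integrableOn_of_bounded (M := C) hlt.ne
    (hg.comp continuous_fst).aestronglyMeasurable ?_
  filter_upwards [ae_restrict_mem ((isClosed_tcl H.bd.smooth).preimage continuous_fst).measurableSet] with p hp
  exact hC p.1 hp

theorem Nt.int_le (H : Nt V π ρ q0 u x y e L0 X0 D κ h t r) :
    ∫ p in Prod.fst ⁻¹' tcl π ρ q0 u L0 X0 t r, ‖ht π ρ q0 1 u p.1‖ ^ 2 ∂V ≤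
      4 / 3 * ∫ p in Prod.fst ⁻¹' tcl π ρ q0 u L0 X0 t r, tf u x y p.1 ∂V := by
  rw [← integral_const_mul]
  refine integral_mono_of_nonneg (Eventually.of_forall fun p => by positivity)
    (H.int.const_mul _) ?_
  filter_upwards [ae_restrict_of_ae H.ht_le,
    ae_restrict_mem ((isClosed_tcl H.bd.smooth).preimage continuous_fst).measurableSet] with p hp hpc
  exact hp hpc

/-- (S1) **sup bound**: squared distance to `M` at one point of density `θ` -/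
theorem sup_foot (hV : St U V) (hm : ∀ᵐ p ∂V, tr p.2 = m) (hF : Module.finrank ℝ F = m)
    (H : Nt V π ρ q0 u x y e L0 X0 D κ h t r) {z0 : E} {d : ℝ} (hd : 0 < d)
    (hU : closedBall z0 d ⊆ U) (hz0 : ball z0 d ⊆ tcl π ρ q0 u L0 X0 t r)
    (hf0 : Foot π ρ q0 u z0 (x z0) (y z0)) (hx0 : x z0 ∈ D) (hy0 : ‖y z0‖ ≤ h)
    (hκ : 64 * m * κ ^ 2 * d ^ 2 ≤ 1) {θ : ℝ} (hθ : 0 ≤ θ)
    (hdens : ∃ᶠ t in 𝓝[>] (0 : ℝ), θ * t ^ m ≤ (V (Prod.fst ⁻¹' ball z0 t)).toReal) :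
    θ * tf u x y z0 ≤
      2 * ((d ^ m)⁻¹ * ∫ p in Prod.fst ⁻¹' tcl π ρ q0 u L0 X0 t r, tf u x y p.1 ∂V) := by
  have h1 := height_graph hV hm hF H.fr one_pos H.bd.smooth hd hU
    (Eventually.of_forall fun p hp => H.minAt (hz0 hp)) (by simpa using hκ) hθ hdens
  have h2 : tf u x y z0 ≤ 4 / 3 * ‖ht π ρ q0 1 u z0‖ ^ 2 :=
    nsq_le_ht H.bd H.k0 hf0 hx0 (H.base (hz0 (mem_ball_self hd)))
      ((mul_le_mul_of_nonneg_left hy0 H.k0).trans H.kh)
  -- integral over the ball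
  have h3 : ∫ p in Prod.fst ⁻¹' ball z0 d, ‖ht π ρ q0 1 u p.1‖ ^ 2 ∂V ≤
      4 / 3 * ∫ p in Prod.fst ⁻¹' tcl π ρ q0 u L0 X0 t r, tf u x y p.1 ∂V := by
    have e1 : ∫ p in Prod.fst ⁻¹' ball z0 d, ‖ht π ρ q0 1 u p.1‖ ^ 2 ∂V ≤
        ∫ p in Prod.fst ⁻¹' ball z0 d, 4 / 3 * tf u x y p.1 ∂V := by
      refine integral_mono_of_nonneg (Eventually.of_forall fun p => by positivity)
        ((H.int.mono_set (preimage_mono hz0)).const_mul _) ?_
      filter_upwards [ae_restrict_of_ae H.ht_le,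
        ae_restrict_mem (isOpen_ball.preimage continuous_fst).measurableSet] with p hp hpc
      exact hp (hz0 hpc)
    refine e1.trans ?_
    rw [integral_const_mul]
    refine mul_le_mul_of_nonneg_left ?_ (by norm_num)
    exact setIntegral_mono_set H.int (Eventually.of_forall fun p => tf_nonneg _)
      (LE.le.eventuallyLE (preimage_mono hz0))
  have h5 : 0 ≤ (d ^ m)⁻¹ * ∫ p in Prod.fst ⁻¹' tcl π ρ q0 u L0 X0 t r, tf u x y p.1 ∂V :=
    mul_nonneg (by positivity) (integral_nonneg fun p => tf_nonneg _)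
  calc θ * tf u x y z0 ≤ 4 / 3 * (θ * ‖ht π ρ q0 1 u z0‖ ^ 2) := by nlinarith
    _ ≤ 4 / 3 * (33 / 32 * ((d ^ m)⁻¹ *
        ∫ z in Prod.fst ⁻¹' ball z0 d, ‖ht π ρ q0 1 u z.1‖ ^ 2 ∂V)) := by gcongr
    _ ≤ 4 / 3 * (33 / 32 * ((d ^ m)⁻¹ *
        (4 / 3 * ∫ p in Prod.fst ⁻¹' tcl π ρ q0 u L0 X0 t r, tf u x y p.1 ∂V))) := by gcongr
    _ = 11 / 6 * ((d ^ m)⁻¹ *
        ∫ p in Prod.fst ⁻¹' tcl π ρ q0 u L0 X0 t r, tf u x y p.1 ∂V) := by ring
    _ ≤ _ := by linarith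

/-- the cut-off of the region -/
def cg (π : E →L[ℝ] F) (ρ : E →L[ℝ] W) (q0 : E) (u : F → W) (L0 : F →L[ℝ] F) (X0 : F)
    (s t r : ℝ) (z : E) : ℝ :=
  ct s t (L0 (π (z - q0) - X0)) * ct (r / 2) r (ht π ρ q0 1 u z)

theorem contDiff_cg (hu : ContDiff ℝ 2 u) : ContDiff ℝ 1 (cg π ρ q0 u L0 X0 s t r) := by
  have h1 : ContDiff ℝ 1 fun z : E => L0 (π (z - q0) - X0) :=
    L0.contDiff.comp ((π.contDiff.comp (contDiff_id.sub contDiff_const)).sub contDiff_const)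
  have h2 : ContDiff ℝ 1 (ht π ρ q0 1 u) := (contDiff_ht hu).of_le (by norm_num)
  exact ((contDiff_ct.of_le (by norm_cast)).comp h1).mul
    ((contDiff_ct.of_le (by norm_cast)).comp h2)

theorem tsupport_cg (hu : ContDiff ℝ 2 u) (hs : 0 ≤ s) (hst : s < t) (hr : 0 < r) :
    tsupport (cg π ρ q0 u L0 X0 s t r) ⊆ tcl π ρ q0 u L0 X0 t r := by
  refine closure_minimal (fun z hz => ?_) (isClosed_tcl hu)
  rw [Function.mem_support] at hz
  refine ⟨?_, ?_⟩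
  · by_contra hcon
    rw [not_le] at hcon
    exact hz (by rw [cg, ct_zero hs hst hcon.le, zero_mul])
  · by_contra hcon
    rw [not_le] at hcon
    exact hz (by rw [cg, ct_zero (by linarith) (by linarith) hcon.le, mul_zero])

theorem hasCompactSupport_cg (hf : Fr π ρ) (hL : Nm L0) (hu : ContDiff ℝ 2 u) (hs : 0 ≤ s)
    (hst : s < t) (hr : 0 < r) : HasCompactSupport (cg π ρ q0 u L0 X0 s t r) :=
  (isCompact_tcl hf hL hu).of_isClosed_subset (isClosed_tsupport _) (tsupport_cg hu hs hst hr)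

theorem cg_one (hs : 0 ≤ s) (hst : s < t) (hr : 0 < r) {z : E}
    (h1 : ‖L0 (π (z - q0) - X0)‖ ≤ s) (h2 : ‖ht π ρ q0 1 u z‖ ≤ r / 2) :
    cg π ρ q0 u L0 X0 s t r z = 1 := by
  rw [cg, ct_one hs hst h1, ct_one (by linarith) (by linarith) h2, one_mul]

theorem norm_fderiv_cg (hf : Fr π ρ) (hL : Nm L0) (hu : ContDiff ℝ 2 u) (hs : 0 ≤ s)
    (hst : s < t) (hr : 0 < r) {z : E} (h2 : ‖ht π ρ q0 1 u z‖ ≤ r / 2) :
    ‖fderiv ℝ (cg π ρ q0 u L0 X0 s t r) z‖ ≤ 4 * Kst / (t - s) := by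
  have h3 : HasFDerivAt (fun z : E => L0 (π (z - q0) - X0)) (L0 ∘L π) z := by
    have h4 : HasFDerivAt (fun z => (L0 ∘L π) z - (L0 (π q0) + L0 X0)) (L0 ∘L π) z :=
      (L0 ∘L π).hasFDerivAt.sub_const _
    refine h4.congr_of_eventuallyEq (Eventually.of_forall fun w => ?_)
    simp only [map_sub, ContinuousLinearMap.comp_apply]
    abel
  have h4 : HasFDerivAt (ht π ρ q0 1 u) (nz π ρ q0 1 u z) z := hasFDerivAt_ht one_ne_zero hu z
  have h5 : HasFDerivAt (ct s t : F → ℝ) (fderiv ℝ (ct s t : F → ℝ) (L0 (π (z - q0) - X0)))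
      (L0 (π (z - q0) - X0)) := ((contDiff_ct.differentiable (by norm_num)) _).hasFDerivAt
  have h6 : HasFDerivAt (ct (r / 2) r : W → ℝ) (0 : W →L[ℝ] ℝ) (ht π ρ q0 1 u z) := by
    rw [← fderiv_ct_of_le (b := r) (by linarith) (by linarith) h2]
    exact ((contDiff_ct.differentiable (by norm_num)) _).hasFDerivAt
  have h7a := h5.comp z h3
  have h7b := h6.comp z h4
  have h7 : HasFDerivAt (cg π ρ q0 u L0 X0 s t r) _ z := h7a.mul h7b
  rw [h7.fderiv]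
  have h8 : ct (r / 2) r (ht π ρ q0 1 u z) = 1 := ct_one (by linarith) (by linarith) h2
  simp only [ContinuousLinearMap.zero_comp, smul_zero, zero_add, Function.comp_apply, h8, one_smul]
  have hts : 0 < t - s := by linarith
  have hK := Kst_nonneg
  refine ContinuousLinearMap.opNorm_le_bound _ (by positivity) fun v => ?_
  rw [ContinuousLinearMap.comp_apply]
  refine (ContinuousLinearMap.le_opNorm _ _).trans ?_
  have h9 := norm_fderiv_ct_le Kst_nonneg Kst_bound hs hst (L0 (π (z - q0) - X0))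
  have h10 : ‖(L0 ∘L π) v‖ ≤ 2 * ‖v‖ := by
    change ‖L0 (π v)‖ ≤ 2 * ‖v‖
    refine (L0.le_opNorm _).trans ?_
    exact mul_le_mul hL.norm (hf.norm_p_le v) (norm_nonneg _) (by norm_num)
  calc _ ≤ 2 * Kst / (t - s) * (2 * ‖v‖) := by gcongr
    _ = _ := by ring

/-- the constant of the energy bound -/
def Ket : ℝ := 800 * Kst ^ 2 + 12

theorem Ket_pos : 0 < Ket := by unfold Ket; positivity

theorem Nt.mono_set (H : Nt V π ρ q0 u x y e L0 X0 D κ h t r) {S : Set (E × (E →L[ℝ] E))}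
    (hS : S ⊆ Prod.fst ⁻¹' tcl π ρ q0 u L0 X0 t r) :
    ∫ p in S, tf u x y p.1 ∂V ≤ ∫ p in Prod.fst ⁻¹' tcl π ρ q0 u L0 X0 t r, tf u x y p.1 ∂V :=
  setIntegral_mono_set H.int (Eventually.of_forall fun _ => tf_nonneg _)
    (LE.le.eventuallyLE hS)

/-- (S2) **energy bound** relative to the graph, over any set `S` inside the smaller cylinder. -/
theorem energy_foot_set (hV : St U V) (hm : ∀ᵐ p ∂V, tr p.2 = m) (hF : Module.finrank ℝ F = m)
    (H : Nt V π ρ q0 u x y e L0 X0 D κ h t r) (hs : 0 ≤ s) (hst : s < t) (hr : 0 < r)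
    (hU : tcl π ρ q0 u L0 X0 t r ⊆ U) {S : Set (E × (E →L[ℝ] E))}
    (hS : S ≤ᵐ[V] (Prod.fst ⁻¹' tcl π ρ q0 u L0 X0 s r)) :
    ∫ p in S, tft π ρ u x p ∂V ≤
      Ket * (((t - s) ^ 2)⁻¹ + (m + 1) ^ 2 * κ ^ 2) *
        ∫ p in Prod.fst ⁻¹' tcl π ρ q0 u L0 X0 t r, tf u x y p.1 ∂V := by
  set φ := cg π ρ q0 u L0 X0 s t r with hφ
  have hφc : ContDiff ℝ 1 φ := contDiff_cg H.bd.smooth
  have hcs : HasCompactSupport φ := hasCompactSupport_cg H.fr H.nm H.bd.smooth hs hst hr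
  have hts : tsupport φ ⊆ tcl π ρ q0 u L0 X0 t r := tsupport_cg H.bd.smooth hs hst hr
  have hmc : MeasurableSet (Prod.fst ⁻¹' tcl π ρ q0 u L0 X0 t r : Set (E × (E →L[ℝ] E))) :=
    ((isClosed_tcl H.bd.smooth).preimage continuous_fst).measurableSet
  have hms : MeasurableSet (Prod.fst ⁻¹' tcl π ρ q0 u L0 X0 s r : Set (E × (E →L[ℝ] E))) :=
    ((isClosed_tcl H.bd.smooth).preimage continuous_fst).measurableSet
  have h1 := cacc_graph hV hm hF H.fr one_pos H.bd.smooth hφc hcs (hts.trans hU)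
    (Eventually.of_forall fun p hp => H.minAt (hts hp))
  have hst0 : 0 < t - s := by linarith
  have hκ := H.k0
  set I := ∫ p in Prod.fst ⁻¹' tcl π ρ q0 u L0 X0 t r, ‖ht π ρ q0 1 u p.1‖ ^ 2 ∂V with hI
  have hI0 : 0 ≤ I := integral_nonneg fun p => by positivity
  have hcn : Continuous fun z => ‖ht π ρ q0 1 u z‖ ^ 2 := (contDiff_nsq H.bd.smooth).continuous
  have hIint : IntegrableOn (fun p : E × (E →L[ℝ] E) => ‖ht π ρ q0 1 u p.1‖ ^ 2)
      (Prod.fst ⁻¹' tcl π ρ q0 u L0 X0 t r) V := H.int_ht hV hU hcn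
  -- the two right hand integrals
  have hB : ∫ p, φ p.1 ^ 2 * ‖ht π ρ q0 1 u p.1‖ ^ 2 ∂V ≤ I := by
    have e1 : ∫ p, φ p.1 ^ 2 * ‖ht π ρ q0 1 u p.1‖ ^ 2 ∂V =
        ∫ p in Prod.fst ⁻¹' tcl π ρ q0 u L0 X0 t r, φ p.1 ^ 2 * ‖ht π ρ q0 1 u p.1‖ ^ 2 ∂V := by
      rw [setIntegral_eq_integral_of_forall_compl_eq_zero]
      intro p hp
      rw [image_eq_zero_of_notMem_tsupport fun hc => hp (hts hc)]; simp
    rw [e1, hI]
    refine integral_mono_of_nonneg (Eventually.of_forall fun p => by positivity) hIint ?_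
    refine Eventually.of_forall fun p => ?_
    have e2 : φ p.1 ^ 2 ≤ 1 := by
      have a1 : 0 ≤ φ p.1 := mul_nonneg (ct_nonneg _) (ct_nonneg _)
      have a2 : φ p.1 ≤ 1 := by
        rw [hφ, cg]
        exact mul_le_one₀ (ct_le_one _) (ct_nonneg _) (ct_le_one _)
      nlinarith
    have e3 : 0 ≤ ‖ht π ρ q0 1 u p.1‖ ^ 2 := by positivity
    change φ p.1 ^ 2 * ‖ht π ρ q0 1 u p.1‖ ^ 2 ≤ ‖ht π ρ q0 1 u p.1‖ ^ 2
    nlinarith
  have hA : ∫ p, ‖fderiv ℝ φ p.1‖ ^ 2 * ‖ht π ρ q0 1 u p.1‖ ^ 2 ∂V ≤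
      (4 * Kst / (t - s)) ^ 2 * I := by
    have e1 : ∫ p, ‖fderiv ℝ φ p.1‖ ^ 2 * ‖ht π ρ q0 1 u p.1‖ ^ 2 ∂V =
        ∫ p in Prod.fst ⁻¹' tcl π ρ q0 u L0 X0 t r, ‖fderiv ℝ φ p.1‖ ^ 2 *
          ‖ht π ρ q0 1 u p.1‖ ^ 2 ∂V := by
      rw [setIntegral_eq_integral_of_forall_compl_eq_zero]
      intro p hp
      have : fderiv ℝ φ p.1 = 0 := by
        by_contra hcon
        exact hp (hts (support_fderiv_subset ℝ hcon))
      rw [this]; simp
    rw [e1, hI, ← integral_const_mul]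
    refine integral_mono_of_nonneg (Eventually.of_forall fun p => by positivity)
      (hIint.const_mul _) ?_
    filter_upwards [ae_restrict_of_ae H.ae, ae_restrict_mem hmc] with p hp hpc
    have e2 := norm_fderiv_cg (q0 := q0) (X0 := X0) H.fr H.nm H.bd.smooth hs hst hr (hp hpc).1
    rw [← hφ] at e2
    gcongr
  -- the left hand side
  have hcnz : Continuous (nz π ρ q0 1 u) := (contDiff_nz H.bd.smooth).continuous
  have hctau : Continuous fun p : E × (E →L[ℝ] E) => tau (nz π ρ q0 1 u p.1) p.2 := by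
    unfold tau
    refine continuous_finsetSum _ fun j _ => ?_
    exact (((hcnz.comp continuous_fst).clm_apply
      (continuous_snd.clm_apply continuous_const)).norm.pow 2)
  have hiA : Integrable (fun p : E × (E →L[ℝ] E) => φ p.1 ^ 2 * tau (nz π ρ q0 1 u p.1) p.2) V := by
    refine hV.integrable (((hφc.continuous.comp continuous_fst).pow 2).mul hctau)
      hcs.isCompact (hts.trans hU) ?_
    intro p hp
    rw [image_eq_zero_of_notMem_tsupport hp]; simp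
  have hSt : S ≤ᵐ[V] (Prod.fst ⁻¹' tcl π ρ q0 u L0 X0 t r) :=
    hS.trans (LE.le.eventuallyLE (preimage_mono (tcl_mono hst.le)))
  have hae : ∀ᵐ p ∂(V.restrict S), p ∈ (Prod.fst ⁻¹' tcl π ρ q0 u L0 X0 s r) :=
    (ae_restrict_mem hms).filter_mono (ae_mono (Measure.restrict_mono_ae hS))
  have hL : ∫ p in S, tft π ρ u x p ∂V ≤
      2 * ∫ p, φ p.1 ^ 2 * tau (nz π ρ q0 1 u p.1) p.2 ∂V + 1 / 6 * κ ^ 2 * m * I := by
    have hIS := hIint.mono_set_ae hSt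
    have e1 : ∫ p in S, tft π ρ u x p ∂V ≤
        ∫ p in S, (2 * (φ p.1 ^ 2 * tau (nz π ρ q0 1 u p.1) p.2) +
            1 / 6 * κ ^ 2 * m * ‖ht π ρ q0 1 u p.1‖ ^ 2) ∂V := by
      refine integral_mono_of_nonneg (Eventually.of_forall fun p => tft_nonneg _)
        ((hiA.integrableOn.const_mul _).add (hIS.const_mul _)) ?_
      filter_upwards [ae_restrict_of_ae H.ae, ae_restrict_of_ae hm, ae_restrict_of_ae hV.pr,
        hae] with p hp hmp hpr hpc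
      have hpt : p.1 ∈ tcl π ρ q0 u L0 X0 t r := tcl_mono hst.le hpc
      obtain ⟨a1, a2, a3, a4⟩ := hp hpt
      have hky : κ * ‖y p.1‖ ≤ 1 := (mul_le_mul_of_nonneg_left a4 H.k0).trans H.kh
      have e2 := tau_foot_le H.fr H.bd H.k0 a2 a3 (H.base hpt) hpr
      have e3 := nsq_le_ht H.bd H.k0 a2 a3 (H.base hpt) hky
      have e4 := sq_le_nsq (fderiv ℝ u (x p.1)) (y p.1)
      have e5 : φ p.1 = 1 := cg_one hs hst hr hpc.1 a1
      rw [hmp] at e2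
      change tau (nf π ρ (fderiv ℝ u (x p.1))) p.2 ≤ 2 * (φ p.1 ^ 2 *
        tau (nz π ρ q0 1 u p.1) p.2) + 1 / 6 * κ ^ 2 * m * ‖ht π ρ q0 1 u p.1‖ ^ 2
      rw [e5, one_pow, one_mul]
      refine e2.trans ?_
      have e6 : 1 / 8 * κ ^ 2 * ‖y p.1‖ ^ 2 * m ≤
          1 / 8 * κ ^ 2 * (4 / 3 * ‖ht π ρ q0 1 u p.1‖ ^ 2) * m := by
        gcongr
        exact e4.trans e3
      linarith
    refine e1.trans ?_
    rw [integral_add (hiA.integrableOn.const_mul _) (hIS.const_mul _), integral_const_mul,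
      integral_const_mul]
    have e7 : ∫ p in S, φ p.1 ^ 2 * tau (nz π ρ q0 1 u p.1) p.2 ∂V ≤
        ∫ p, φ p.1 ^ 2 * tau (nz π ρ q0 1 u p.1) p.2 ∂V :=
      setIntegral_le_integral hiA (Eventually.of_forall fun p => by
        have := tau_nonneg (nz π ρ q0 1 u p.1) p.2
        positivity)
    have e8 : ∫ p in S, ‖ht π ρ q0 1 u p.1‖ ^ 2 ∂V ≤ I :=
      setIntegral_mono_set hIint (Eventually.of_forall fun p => by positivity) hSt
    have e9 : 0 ≤ 1 / 6 * κ ^ 2 * m := by positivity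
    have := mul_le_mul_of_nonneg_left e8 e9
    linarith
  have hJ := H.int_le
  rw [← hI] at hJ
  set J := ∫ p in Prod.fst ⁻¹' tcl π ρ q0 u L0 X0 t r, tf u x y p.1 ∂V with hJdef
  have hJ0 : 0 ≤ J := integral_nonneg fun p => tf_nonneg _
  rw [div_one] at h1
  have h2 : ∫ p in S, tft π ρ u x p ∂V ≤
      (512 * Kst ^ 2 * ((t - s) ^ 2)⁻¹ + (8 * m ^ 2 + 1 / 6 * m) * κ ^ 2) * I := by
    have e1 : (4 * Kst / (t - s)) ^ 2 = 16 * Kst ^ 2 * ((t - s) ^ 2)⁻¹ := by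
      rw [div_pow]; ring
    rw [e1] at hA
    have e2 : 4 * (m * κ) ^ 2 * ∫ p, φ p.1 ^ 2 * ‖ht π ρ q0 1 u p.1‖ ^ 2 ∂V ≤
        4 * (m * κ) ^ 2 * I := by gcongr
    nlinarith
  refine h2.trans ?_
  have h3 : (512 * Kst ^ 2 * ((t - s) ^ 2)⁻¹ + (8 * m ^ 2 + 1 / 6 * m) * κ ^ 2) * I ≤
      (512 * Kst ^ 2 * ((t - s) ^ 2)⁻¹ + (8 * m ^ 2 + 1 / 6 * m) * κ ^ 2) * (4 / 3 * J) := by
    gcongr
  refine h3.trans ?_
  have h4 : (512 * Kst ^ 2 * ((t - s) ^ 2)⁻¹ + (8 * m ^ 2 + 1 / 6 * m) * κ ^ 2) * (4 / 3 * J) =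
      ((512 * Kst ^ 2 * ((t - s) ^ 2)⁻¹ + (8 * m ^ 2 + 1 / 6 * m) * κ ^ 2) * (4 / 3)) * J := by ring
  rw [h4]
  refine mul_le_mul_of_nonneg_right ?_ hJ0
  have hm0 : (0:ℝ) ≤ m := Nat.cast_nonneg _
  have e3 : 0 ≤ ((t - s) ^ 2)⁻¹ := by positivity
  have e4 : 512 * Kst ^ 2 * ((t - s) ^ 2)⁻¹ * (4 / 3) ≤ Ket * ((t - s) ^ 2)⁻¹ := by
    unfold Ket; nlinarith [mul_nonneg (sq_nonneg Kst) e3]
  have e5 : (8 * m ^ 2 + 1 / 6 * m) * κ ^ 2 * (4 / 3) ≤ Ket * ((m + 1) ^ 2 * κ ^ 2) := by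
    have a1 : (8 * m ^ 2 + 1 / 6 * m) * (4 / 3) ≤ 12 * ((m:ℝ) + 1) ^ 2 := by nlinarith
    have a2 : 12 * ((m:ℝ) + 1) ^ 2 ≤ Ket * ((m:ℝ) + 1) ^ 2 := by
      gcongr
      unfold Ket
      nlinarith [sq_nonneg Kst]
    have a3 := mul_le_mul_of_nonneg_right (a1.trans a2) (sq_nonneg κ)
    linarith
  linarith


/-- (S2) over the sets `{‖L0 (x(z) - X0)‖ ≤ s}` (inside the region). -/
theorem energy_foot_x (hV : St U V) (hm : ∀ᵐ p ∂V, tr p.2 = m) (hF : Module.finrank ℝ F = m)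
    (H : Nt V π ρ q0 u x y e L0 X0 D κ h t r) (hs : 0 ≤ s) (hst : s + 2 * h < t) (hh : 0 ≤ h)
    (hr : 0 < r) (hU : tcl π ρ q0 u L0 X0 t r ⊆ U) :
    ∫ p in {p | ‖L0 (x p.1 - X0)‖ ≤ s ∧ p.1 ∈ tcl π ρ q0 u L0 X0 t r}, tft π ρ u x p ∂V ≤
      4 * Ket * (((t - s) ^ 2)⁻¹ + (m + 1) ^ 2 * κ ^ 2) *
        ∫ p in Prod.fst ⁻¹' tcl π ρ q0 u L0 X0 t r, tf u x y p.1 ∂V := by
  have hs' : s + h < t := by linarith
  have hJ0 : 0 ≤ ∫ p in Prod.fst ⁻¹' tcl π ρ q0 u L0 X0 t r, tf u x y p.1 ∂V :=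
    integral_nonneg fun p => tf_nonneg _
  have h2 : ((t - (s + h)) ^ 2)⁻¹ ≤ 4 * ((t - s) ^ 2)⁻¹ := by
    have a0 : 0 < t - s := by linarith
    have a1 : (t - s) / 2 ≤ t - (s + h) := by linarith
    have a2 : ((t - (s + h)) ^ 2)⁻¹ ≤ (((t - s) / 2) ^ 2)⁻¹ := by
      gcongr
    refine a2.trans (le_of_eq ?_)
    field_simp
    norm_num
  have h3 : Ket * (((t - (s + h)) ^ 2)⁻¹ + (m + 1) ^ 2 * κ ^ 2) ≤
      4 * Ket * (((t - s) ^ 2)⁻¹ + (m + 1) ^ 2 * κ ^ 2) := by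
    have a1 : 0 ≤ ((m:ℝ) + 1) ^ 2 * κ ^ 2 := by positivity
    have a2 := Ket_pos
    nlinarith
  refine (energy_foot_set hV hm hF H (s := s + h) (by linarith) hs' hr hU ?_).trans
    (mul_le_mul_of_nonneg_right h3 hJ0)
  filter_upwards [H.ae] with p hp hpS
  obtain ⟨hx, hc⟩ := hpS
  obtain ⟨-, a2, a3, a4⟩ := hp hc
  refine ⟨?_, hc.2⟩
  have a5 := norm_foot_sub_le H.bd a2 a3
  have a6 : π (p.1 - q0) - X0 = (x p.1 - X0) - (x p.1 - π (p.1 - q0)) := by abel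
  rw [a6, map_sub]
  refine (norm_sub_le _ _).trans ?_
  have a7 : ‖L0 (x p.1 - π (p.1 - q0))‖ ≤ 2 * (1 / 4 * ‖y p.1‖) :=
    (L0.le_opNorm _).trans (by have := H.nm.norm; gcongr)
  linarith [norm_nonneg (y p.1)]

/-- (S1) at a point with `‖L0 (x(z0) - X0)‖ ≤ s`. -/
theorem sup_foot_x (hV : St U V) (hm : ∀ᵐ p ∂V, tr p.2 = m) (hF : Module.finrank ℝ F = m)
    (H : Nt V π ρ q0 u x y e L0 X0 D κ h t r) {z0 : E} {d : ℝ} (hd : 0 < d)
    (hU' : closedBall z0 d ⊆ U)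
    (hf0 : Foot π ρ q0 u z0 (x z0) (y z0)) (hx0 : x z0 ∈ D) (hy0 : ‖y z0‖ ≤ h)
    (hxs : ‖L0 (x z0 - X0)‖ + h + 2 * d ≤ t) (hρ : 2 * h + 2 * d ≤ r)
    (hκ : 64 * m * κ ^ 2 * d ^ 2 ≤ 1) {θ : ℝ} (hθ : 0 ≤ θ)
    (hdens : ∃ᶠ t in 𝓝[>] (0 : ℝ), θ * t ^ m ≤ (V (Prod.fst ⁻¹' ball z0 t)).toReal) :
    θ * tf u x y z0 ≤
      2 * ((d ^ m)⁻¹ * ∫ p in Prod.fst ⁻¹' tcl π ρ q0 u L0 X0 t r, tf u x y p.1 ∂V) := by
  refine sup_foot hV hm hF H hd hU' ?_ hf0 hx0 hy0 hκ hθ hdens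
  have h2 := norm_foot_sub_le H.bd hf0 hx0
  have h3 : ‖L0 (π (z0 - q0) - X0)‖ ≤ ‖L0 (x z0 - X0)‖ + h := by
    have a6 : π (z0 - q0) - X0 = (x z0 - X0) - (x z0 - π (z0 - q0)) := by abel
    rw [a6, map_sub]
    refine (norm_sub_le _ _).trans ?_
    have a7 : ‖L0 (x z0 - π (z0 - q0))‖ ≤ 2 * (1 / 4 * ‖y z0‖) :=
      (L0.le_opNorm _).trans (by have := H.nm.norm; gcongr)
    linarith [norm_nonneg (y z0)]
  have hz0D : π (z0 - q0) ∈ D := H.dD _ (h3.trans (by linarith))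
  have h4 : ‖ht π ρ q0 1 u z0‖ ≤ 2 * h := by
    have b1 := ht_le_nsq H.bd H.k0 hf0 hx0 hz0D
      ((mul_le_mul_of_nonneg_left hy0 H.k0).trans H.kh)
    have b2 : nsq (fderiv ℝ u (x z0)) (y z0) ≤ 17 / 16 * ‖y z0‖ ^ 2 := by
      have := norm_adj_le (fderiv ℝ u (x z0)) (H.bd.d1 _ hx0) (y z0)
      unfold nsq
      nlinarith [norm_nonneg (ContinuousLinearMap.adjoint (fderiv ℝ u (x z0)) (y z0)),
        norm_nonneg (y z0)]
    have hh : 0 ≤ h := (norm_nonneg _).trans hy0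
    refine le_of_sq_le_sq ?_ (by positivity)
    nlinarith [norm_nonneg (y z0)]
  intro z hz
  have h0 : ‖z - z0‖ < d := by rwa [mem_ball, dist_eq_norm] at hz
  have h5 : ‖L0 (π (z - q0) - X0)‖ ≤ t := by
    have h1 : π (z - q0) - X0 = π (z - z0) + (π (z0 - q0) - X0) := by
      rw [show z - q0 = (z - z0) + (z0 - q0) by abel, map_add]; abel
    rw [h1, map_add]
    refine (norm_add_le _ _).trans ?_
    have a7 : ‖L0 (π (z - z0))‖ ≤ 2 * ‖z - z0‖ :=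
      (L0.le_opNorm _).trans (by have := H.nm.norm; have := H.fr.norm_p_le (z - z0); gcongr)
    linarith
  refine ⟨h5, ?_⟩
  have hzD : π (z - q0) ∈ D := H.dD _ h5
  have h6 : ht π ρ q0 1 u z - ht π ρ q0 1 u z0 =
      ρ (z - z0) - (u (π (z - q0)) - u (π (z0 - q0))) := by
    simp only [ht, inv_one, one_smul]
    rw [show z - q0 = (z - z0) + (z0 - q0) by abel, map_add ρ]
    abel
  have h7 : ‖u (π (z - q0)) - u (π (z0 - q0))‖ ≤ 1 / 4 * ‖π (z - q0) - π (z0 - q0)‖ :=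
    H.bd.conv.norm_image_sub_le_of_norm_fderiv_le
      (fun v _ => H.bd.smooth.differentiable (by norm_num) v) H.bd.d1 hz0D hzD
  have h8 : π (z - q0) - π (z0 - q0) = π (z - z0) := by
    rw [← map_sub]; congr 1; abel
  rw [h8] at h7
  have h9 := H.fr.norm_p_le (z - z0)
  have h10 := H.fr.norm_r_le (z - z0)
  have h11 : ‖ht π ρ q0 1 u z - ht π ρ q0 1 u z0‖ ≤ 2 * d := by
    rw [h6]
    refine (norm_sub_le _ _).trans ?_
    linarith
  have h12 : ht π ρ q0 1 u z = ht π ρ q0 1 u z0 + (ht π ρ q0 1 u z - ht π ρ q0 1 u z0) := by abel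
  rw [h12]
  refine (norm_add_le _ _).trans ?_
  linarith


end integral

end

end Crest.Agent.R234.Gt_685
end

-- ▼ part R234/Gs5_685

/-!
R234 (helper685), GL-SUP part 5: (S1), (S2) in the language of 456's `GL-INST` (`Gr`, `tube`, `foot`,
`yy`, centre `X0`, normalisation `L0`) for `Stat m k U V` and for `VD D`.
-/

set_option autoImplicit false
set_option linter.unusedSectionVars false

open MeasureTheory Metric Set Filter Topology
open scoped InnerProductSpace ContDiff ENNReal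

namespace Crest.Agent.R234.Gu_685

open Crest.GeometryTopology.Submanifold Crest.Agent.R234.Vf_884
open Crest.Agent.R234.Main_456 Crest.Agent.R234.Gi_456
open Crest.Agent.R234.Supm_685 Crest.Agent.R234.Gs_685
open Crest.Agent.R234.Gt_685 (tcl Nm Nt Ket)
open Crest.Agent.R234.Ell1_3 (gop ginv)

noncomputable section

variable {m n k : ℕ} {U : Set (Euc k)} {V : Measure (Euc k × L k)}
  {π : Euc k →L[ℝ] Euc m} {ρ : Euc k →L[ℝ] Euc n} {x z0 : Euc k} {r : ℝ} {w : Euc m → Euc n}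
  {L0 : Euc m →L[ℝ] Euc m} {X0 : Euc m} {κ h t s : ℝ}

/-- the region `‖L0 (π(z - x) - X0)‖ ≤ t`, vertical height `≤ r` -/
def reg (π : Euc k →L[ℝ] Euc m) (ρ : Euc k →L[ℝ] Euc n) (x : Euc k) (w : Euc m → Euc n)
    (L0 : Euc m →L[ℝ] Euc m) (X0 : Euc m) (t r : ℝ) : Set (Euc k) :=
  {z | ‖L0 (π (z - x) - X0)‖ ≤ t ∧ ‖ρ (z - x) - w (π (z - x))‖ ≤ r}

theorem ht_eq (z : Euc k) : ht π ρ x 1 w z = ρ (z - x) - w (π (z - x)) := by simp [ht]

theorem reg_eq : reg π ρ x w L0 X0 t r = tcl π ρ x w L0 X0 t r := by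
  ext z
  simp only [reg, tcl, mem_ofPred_eq, ht_eq]

/-- squared distance to the graph, `2 f` -/
def dsq (π : Euc k →L[ℝ] Euc m) (ρ : Euc k →L[ℝ] Euc n) (x : Euc k) (r : ℝ) (w : Euc m → Euc n)
    (z : Euc k) : ℝ :=
  ‖yy π ρ x r w z‖ ^ 2 +
    ‖ContinuousLinearMap.adjoint (fderiv ℝ w (foot π ρ x r w z)) (yy π ρ x r w z)‖ ^ 2

theorem dsq_eq (z : Euc k) : dsq π ρ x r w z = tf w (foot π ρ x r w) (yy π ρ x r w) z := rfl

theorem dsq_nonneg (z : Euc k) : 0 ≤ dsq π ρ x r w z := by unfold dsq; positivity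

/-- `2 f = |B y|²` -/
theorem dsq_eq_norm (hf : Frame π ρ) (z : Euc k) :
    dsq π ρ x r w z = ‖Bt π ρ w (foot π ρ x r w z) (yy π ρ x r w z)‖ ^ 2 := by
  rw [dsq_eq, tf, ← norm_nv_sq (fr_of_frame hf)]
  congr 2

/-- tilt relative to the tangent plane of `M` at the foot, `∑ ‖(ρ - Dw π) P b_j‖²` -/
def tfoot (π : Euc k →L[ℝ] Euc m) (ρ : Euc k →L[ℝ] Euc n) (x : Euc k) (r : ℝ) (w : Euc m → Euc n)
    (p : Euc k × L k) : ℝ := tau (nf π ρ (fderiv ℝ w (foot π ρ x r w p.1))) p.2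


/-- the standing hypotheses -/
structure Hy (V : Measure (Euc k × L k)) (π : Euc k →L[ℝ] Euc m) (ρ : Euc k →L[ℝ] Euc n)
    (x : Euc k) (r : ℝ) (w : Euc m → Euc n) (L0 : Euc m →L[ℝ] Euc m) (X0 : Euc m)
    (κ h t : ℝ) : Prop where
  frame : Frame π ρ
  gr : Gr r w
  le : ∀ v, ‖v‖ ≤ ‖L0 v‖
  norm : ‖L0‖ ≤ 2
  k0 : 0 ≤ κ
  h0 : 0 ≤ h
  kh : κ * h ≤ 1 / 2
  hr : 2 * h ≤ r
  d2 : ∀ X, ‖L0 (X - X0)‖ ≤ t + h → ‖fderiv ℝ (fderiv ℝ w) X‖ ≤ κ
  mn : ∀ X, ‖L0 (X - X0)‖ ≤ t + h → Msys w X = 0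
  ae : ∀ᵐ p ∂V, p.1 ∈ reg π ρ x w L0 X0 t r → ‖ρ (p.1 - x) - w (π (p.1 - x))‖ ≤ h

/-- the base domain -/
def dom (L0 : Euc m →L[ℝ] Euc m) (X0 : Euc m) (T : ℝ) : Set (Euc m) := {X | ‖L0 (X - X0)‖ ≤ T}

theorem convex_dom (T : ℝ) : Convex ℝ (dom L0 X0 T) := by
  intro a ha b hb c d hc hd hcd
  have h1 : c • a + d • b - X0 = c • (a - X0) + d • (b - X0) := by
    have : X0 = c • X0 + d • X0 := by rw [← add_smul, hcd, one_smul]
    nth_rewrite 1 [this]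
    simp only [smul_sub]
    abel
  change ‖L0 (c • a + d • b - X0)‖ ≤ T
  rw [h1, map_add, map_smul, map_smul]
  refine (norm_add_le _ _).trans ?_
  rw [norm_smul, norm_smul, Real.norm_of_nonneg hc, Real.norm_of_nonneg hd]
  have ha' : ‖L0 (a - X0)‖ ≤ T := ha
  have hb' : ‖L0 (b - X0)‖ ≤ T := hb
  calc c * ‖L0 (a - X0)‖ + d * ‖L0 (b - X0)‖ ≤ c * T + d * T := by gcongr
    _ = T := by rw [← add_mul, hcd, one_mul]

namespace Hy

variable (H : Hy V π ρ x r w L0 X0 κ h t)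
include H

theorem bd : Bd w (dom L0 X0 (t + h)) κ where
  smooth := H.gr.cd.of_le (by norm_num)
  conv := convex_dom _
  d1 v _ := (H.gr.d1 v).trans (by norm_num)
  d2 v hv := H.d2 v hv

theorem mem_tube {z : Euc k} (hz : ‖ρ (z - x) - w (π (z - x))‖ ≤ h) : z ∈ tube π ρ x r w := by
  have h1 := H.hr
  have h2 := H.gr.pos
  have h3 := H.h0
  change ‖ρ (z - x) - w (π (z - x))‖ < r
  linarith

theorem foot' {z : Euc k} (hz : z ∈ tube π ρ x r w) :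
    Foot π ρ x w z (foot π ρ x r w z) (yy π ρ x r w z) where
  hp := by
    have h1 := H.gr.foot_fix hz
    nth_rewrite 1 [h1]
    abel
  hr := by simp [yy]

theorem norm_yy {z : Euc k} (hz : ‖ρ (z - x) - w (π (z - x))‖ ≤ h) :
    ‖yy π ρ x r w z‖ ≤ 2 * h := by
  have h1 := H.gr.norm_yy_le (H.mem_tube hz)
  have h2 := H.h0
  linarith

theorem foot_mem {z : Euc k} (hz : ‖ρ (z - x) - w (π (z - x))‖ ≤ h)
    (hz2 : ‖L0 (π (z - x) - X0)‖ ≤ t) : foot π ρ x r w z ∈ dom L0 X0 (t + h) := by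
  have h1 := H.gr.norm_foot_sub (H.mem_tube hz)
  have h2 : foot π ρ x r w z - X0 = (foot π ρ x r w z - π (z - x)) + (π (z - x) - X0) := by abel
  change ‖L0 (foot π ρ x r w z - X0)‖ ≤ t + h
  rw [h2, map_add]
  refine (norm_add_le _ _).trans ?_
  have h3 : ‖L0 (foot π ρ x r w z - π (z - x))‖ ≤ 2 * (1 / 4 * h) :=
    (L0.le_opNorm _).trans (mul_le_mul H.norm (h1.trans (by gcongr)) (norm_nonneg _) (by norm_num))
  have h4 := H.h0
  linarith

theorem isCompact_reg (t' r' : ℝ) : IsCompact (reg π ρ x w L0 X0 t' r') := by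
  rw [reg_eq]
  exact Gt_685.isCompact_tcl (fr_of_frame H.frame) ⟨H.le, H.norm⟩ H.bd.smooth

theorem reg_subset_tube : reg π ρ x w L0 X0 t (r / 2) ⊆ tube π ρ x r w := by
  intro z hz
  have h1 := hz.2
  have h2 := H.gr.pos
  change ‖ρ (z - x) - w (π (z - x))‖ < r
  linarith

theorem continuousOn_dsq : ContinuousOn (dsq π ρ x r w) (tube π ρ x r w) := by
  have h1 := H.gr.continuousOn_foot H.frame (x := x)
  have h2 := H.gr.continuousOn_yy H.frame (x := x)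
  have h3 : Continuous fun q : Euc m →L[ℝ] Euc n => ContinuousLinearMap.adjoint q :=
    (ContinuousLinearMap.adjoint (𝕜 := ℝ) (E := Euc m) (F := Euc n)).continuous
  have h4 : ContinuousOn (fun z => ContinuousLinearMap.adjoint
      (fderiv ℝ w (foot π ρ x r w z))) (tube π ρ x r w) :=
    h3.comp_continuousOn (H.gr.cd1.continuous.comp_continuousOn h1)
  exact (h2.norm.pow 2).add ((h4.clm_apply h2).norm.pow 2)

theorem reg_ae : (Prod.fst ⁻¹' reg π ρ x w L0 X0 t r : Set (Euc k × L k)) ≤ᵐ[V]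
    (Prod.fst ⁻¹' reg π ρ x w L0 X0 t (r / 2) : Set (Euc k × L k)) := by
  filter_upwards [H.ae] with p hp hpr
  exact ⟨hpr.1, (hp hpr).trans (by linarith [H.hr])⟩

theorem int (hV : Stat m k U V) (hU : reg π ρ x w L0 X0 t r ⊆ U) :
    IntegrableOn (fun p : Euc k × L k => dsq π ρ x r w p.1)
      (Prod.fst ⁻¹' reg π ρ x w L0 X0 t r) V := by
  have hr2 : r / 2 ≤ r := by have := H.gr.pos; linarith
  have hsub : reg π ρ x w L0 X0 t (r / 2) ⊆ reg π ρ x w L0 X0 t r := fun z hz =>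
    ⟨hz.1, hz.2.trans hr2⟩
  have hK := H.isCompact_reg t (r / 2)
  have hc : ContinuousOn (dsq π ρ x r w) (reg π ρ x w L0 X0 t (r / 2)) :=
    H.continuousOn_dsq.mono H.reg_subset_tube
  obtain ⟨C, hC⟩ := hK.exists_bound_of_continuousOn hc
  have hS : MeasurableSet (Prod.fst ⁻¹' reg π ρ x w L0 X0 t (r / 2) : Set (Euc k × L k)) :=
    (hK.isClosed.preimage continuous_fst).measurableSet
  have hlt : V (Prod.fst ⁻¹' reg π ρ x w L0 X0 t (r / 2)) < ⊤ := by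
    have h1 := hV.fin _ hK (hsub.trans hU)
    have h2 : (Prod.fst ⁻¹' reg π ρ x w L0 X0 t (r / 2) : Set (Euc k × L k)) =
        reg π ρ x w L0 X0 t (r / 2) ×ˢ univ := by ext p; simp
    rw [h2]; exact h1
  refine IntegrableOn.mono_set_ae ?_ H.reg_ae
  have hfin : IsFiniteMeasure (V.restrict (Prod.fst ⁻¹' reg π ρ x w L0 X0 t (r / 2))) :=
    ⟨by rw [Measure.restrict_apply_univ]; exact hlt⟩
  refine Integrable.mono' (integrable_const C) ?_ ?_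
  · have h3 : ContinuousOn (fun p : Euc k × L k => dsq π ρ x r w p.1)
        (Prod.fst ⁻¹' reg π ρ x w L0 X0 t (r / 2)) :=
      hc.comp continuousOn_fst (fun p hp => hp)
    exact h3.aestronglyMeasurable hS
  · filter_upwards [ae_restrict_mem hS] with p hp
    exact hC p.1 hp

theorem nt (hV : Stat m k U V) (hU : reg π ρ x w L0 X0 t r ⊆ U) :
    Nt V π ρ x w (foot π ρ x r w) (yy π ρ x r w) (EuclideanSpace.basisFun (Fin m) ℝ) L0 X0
      (dom L0 X0 (t + h)) κ (2 * h) t r where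
  fr := fr_of_frame H.frame
  nm := ⟨H.le, H.norm⟩
  bd := H.bd
  k0 := H.k0
  kh := by have := H.kh; linarith
  dD v hv := hv.trans (by linarith [H.h0])
  mn v hv := by
    have h4 : ∀ i, (EuclideanSpace.basisFun (Fin m) ℝ) i = stdVec m i := fun i => by
      simp [stdVec]
    simp only [h4]
    exact H.mn v hv
  ae := by
    filter_upwards [H.ae] with p hp hpt
    rw [← reg_eq] at hpt
    have h1 := hp hpt
    refine ⟨?_, H.foot' (H.mem_tube h1), H.foot_mem h1 hpt.1, H.norm_yy h1⟩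
    rw [ht_eq]
    exact h1.trans (by linarith [H.hr])
  int := by
    rw [← reg_eq]
    exact H.int hV hU

/-- (S2) **energy bound**: over `{‖L0 (foot - X0)‖ ≤ s}`. -/
theorem energy (hV : Stat m k U V) (hU : reg π ρ x w L0 X0 t r ⊆ U) (hs : 0 ≤ s)
    (hst : s + 4 * h < t) :
    ∫ p in {p | ‖L0 (foot π ρ x r w p.1 - X0)‖ ≤ s ∧ p.1 ∈ reg π ρ x w L0 X0 t r},
        tfoot π ρ x r w p ∂V ≤
      4 * Ket * (((t - s) ^ 2)⁻¹ + (m + 1) ^ 2 * κ ^ 2) *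
        ∫ p in Prod.fst ⁻¹' reg π ρ x w L0 X0 t r, dsq π ρ x r w p.1 ∂V := by
  have h1 := Gt_685.energy_foot_x (Al7_182.st_of_stat hV) (Al7_182.tr_ae hV) (by simp) (H.nt hV hU)
    hs (by linarith) (by linarith [H.h0]) H.gr.pos (by rw [← reg_eq]; exact hU)
  rw [← reg_eq] at h1
  exact h1

/-- (S1) **sup bound** at a point of density `≥ A`. -/
theorem sup (hV : Stat m k U V) (hm : 1 ≤ m) (hU : reg π ρ x w L0 X0 t r ⊆ U) {d : ℝ}
    (hd : 0 < d) (hU' : closedBall z0 d ⊆ U)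
    (hz0 : ‖ρ (z0 - x) - w (π (z0 - x))‖ ≤ h)
    (hxs : ‖L0 (foot π ρ x r w z0 - X0)‖ + 2 * h + 2 * d ≤ t) (hρ : 4 * h + 2 * d ≤ r)
    (hκ : 64 * m * κ ^ 2 * d ^ 2 ≤ 1) {A : ℝ} (hA0 : 0 ≤ A) (hA : ENNReal.ofReal A ≤ Th m V z0) :
    A * ome m * dsq π ρ x r w z0 ≤
      2 * ((d ^ m)⁻¹ * ∫ p in Prod.fst ⁻¹' reg π ρ x w L0 X0 t r, dsq π ρ x r w p.1 ∂V) := by
  have ht0 := H.mem_tube hz0
  have h1 := Gt_685.sup_foot_x (Al7_182.st_of_stat hV) (Al7_182.tr_ae hV) (by simp) (H.nt hV hU)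
    (z0 := z0) hd hU' (H.foot' ht0) ?_ (H.norm_yy hz0) hxs (by linarith) hκ
    (mul_nonneg hA0 (ome_pos m).le) (dens_of_Th hV hm hd hU' hA0 hA)
  · rw [← reg_eq] at h1
    exact h1
  · change ‖L0 (foot π ρ x r w z0 - X0)‖ ≤ t + h
    linarith [H.h0]


end Hy

/-! ### comparison of the tilts -/

/-- 128's normal projection is `1 - pg`. -/
theorem NN_eq (hf : Frame π ρ) {q : Euc m →L[ℝ] Euc n} {Y : Euc m →L[ℝ] Euc m}
    {hi : Euc n →L[ℝ] Euc n} {Li : Euc m →L[ℝ] Euc m} (H : GLK_128.Inv q Y (ginv q) hi Li) :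
    GLK_128.NN (ContinuousLinearMap.adjoint π) (ContinuousLinearMap.adjoint ρ) q hi =
      1 - pg π ρ q := by
  have h1 := H.decomp (frame_fr hf)
  have h2 : pg π ρ q = GLK_128.A0 (ContinuousLinearMap.adjoint π)
    (ContinuousLinearMap.adjoint ρ) q ∘L ginv q ∘L ContinuousLinearMap.adjoint
      (GLK_128.A0 (ContinuousLinearMap.adjoint π) (ContinuousLinearMap.adjoint ρ) q) := rfl
  rw [h2, eq_sub_iff_add_eq, add_comm]
  exact h1

theorem tau0_le_tfoot (hf : Frame π ρ) (hw : Gr r w) {p : Euc k × L k}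
    (hp : p.1 ∈ tube π ρ x r w) (hP : p.2 ∈ G m k) :
    GLK_128.tau0 (ContinuousLinearMap.adjoint π) (ContinuousLinearMap.adjoint ρ)
      (fderiv ℝ w (foot π ρ x r w p.1)) (hinv (fderiv ℝ w (foot π ρ x r w p.1))) p.2 ≤
      tfoot π ρ x r w p := by
  have h1 := hw.inv (foot π ρ x r w p.1) (Y := yy π ρ x r w p.1) (hw.norm_yy_lt hp).le
  rw [GLK_128.tau0, NN_eq hf h1]
  exact tr_compl_le (fr_of_frame hf) _ _ (Al7_182.isPr_of_G hP)

section VDS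

variable {D : VarifoldData m k}

/-- a.e. point of an integral stationary varifold lies in its support and has density `≥ 1` -/
theorem ae_one_le (hU : IsOpen U) (hD : IsIntegralVarifoldIn U D) (hst : IsStationaryIn U D)
    (hm : 1 ≤ m) : ∀ᵐ p ∂(VD D), p.1 ∈ U → p.1 ∈ support D ∧ 1 ≤ Th m (VD D) p.1 := by
  filter_upwards [Al7_182.ae_mem_spt (VD D)] with p hp hpU
  have h1 : p.1 ∈ support D := by
    intro ρ hρ
    have := hp ρ hρ
    rwa [mass_VD hD] at this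
  exact ⟨h1, one_le_Th hD hst hm hU hpU h1⟩

/-- (S1) for an integral stationary varifold, a.e. (and on the support, `Hy.sup`). -/
theorem Hy.sup_ae (hU0 : IsOpen U) (hD : IsIntegralVarifoldIn U D) (hst : IsStationaryIn U D)
    (hm : 1 ≤ m) (H : Hy (VD D) π ρ x r w L0 X0 κ h t) {d : ℝ} (hd : 0 < d)
    (hU : ∀ z ∈ reg π ρ x w L0 X0 t r, closedBall z d ⊆ U)
    (hρ : 4 * h + 2 * d ≤ r) (hκ : 64 * m * κ ^ 2 * d ^ 2 ≤ 1) :
    ∀ᵐ p ∂(VD D), p.1 ∈ reg π ρ x w L0 X0 t r →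
      ‖L0 (foot π ρ x r w p.1 - X0)‖ + 2 * h + 2 * d ≤ t →
      ome m * dsq π ρ x r w p.1 ≤ 2 * ((d ^ m)⁻¹ *
        ∫ p in Prod.fst ⁻¹' reg π ρ x w L0 X0 t r, dsq π ρ x r w p.1 ∂(VD D)) := by
  have hUr : reg π ρ x w L0 X0 t r ⊆ U := fun z hz => hU z hz (mem_closedBall_self hd.le)
  filter_upwards [ae_one_le hU0 hD hst hm, H.ae] with p h1 h2 hpr hps
  have h3 := H.sup (stat_VD hD hst) hm hUr hd (hU _ hpr) (h2 hpr) hps hρ hκ zero_le_one
    (by rw [ENNReal.ofReal_one]; exact (h1 (hUr hpr)).2)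
  rwa [one_mul] at h3

end VDS

end

end Crest.Agent.R234.Gu_685
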