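import Crest.Agent.R234.F3d_433
import Crest.Agent.R234.F3t_433

-- ▼ part R234/F3e_433
section

/-!
# Row 234 (helper433), F3: comparison of the charts of two graphs which agree on a ball

`w' = w` on `ball X0 R'`, `Gr S w`, `Gr s w'`, `s ≤ S`, `|w' - w| ≤ S - s`.
-/

set_option autoImplicit false
set_option linter.unusedSectionVars false

open MeasureTheory Set Metric Function Filter Topology
open scoped ENNReal NNReal ContDiff RealInnerProductSpace
open Crest.GeometryTopology.Submanifold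

noncomputable section

namespace Crest.Agent.R234.F3e_433

open Crest.Agent.R234.Vf_884 Crest.Agent.R234.Main_456
open Crest.Agent.R234.Gi_456 (Gr tube ch foot yy IsFoot Lo Loi Loi_spec Bt jB hinv norm_rho_le')
open Crest.Agent.R234.GL_394 (Ch Loc VK bb EE ee On)

local notation "adj" => ContinuousLinearMap.adjoint

variable {m n k : ℕ} {π : Euc k →L[ℝ] Euc m} {ρ : Euc k →L[ℝ] Euc n} {x : Euc k}
  {w w' : Euc m → Euc n} {X0 : Euc m} {S s R' : ℝ}

/-- two graphs which agree on a ball -/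
structure Two (w w' : Euc m → Euc n) (X0 : Euc m) (S s R' : ℝ) : Prop where
  gr : Gr S w
  gr' : Gr s w'
  sS : s ≤ S
  cl : ∀ Y, ‖w' Y - w Y‖ ≤ S - s
  R0 : 0 < R'
  eq : ∀ Y ∈ ball X0 R', w' Y = w Y

namespace Two

variable (h : Two w w' X0 S s R')
include h

theorem ev {X : Euc m} (hX : X ∈ ball X0 R') : w' =ᶠ[𝓝 X] w :=
  eventually_of_mem (isOpen_ball.mem_nhds hX) h.eq

theorem dw {X : Euc m} (hX : X ∈ ball X0 R') : fderiv ℝ w' X = fderiv ℝ w X :=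
  (h.ev hX).fderiv_eq

theorem dw0 : fderiv ℝ w' X0 = fderiv ℝ w X0 := h.dw (mem_ball_self h.R0)

theorem msys {X : Euc m} (hX : X ∈ ball X0 R') : Msys w' X = Msys w X := by
  unfold Msys
  rw [h.dw hX, ((h.ev hX).fderiv (𝕜 := ℝ)).fderiv_eq]

/-- from the chart of `w` to the chart of `w'` -/
theorem fwd {z : Euc k} (hz : z ∈ tube π ρ x S w) (hX : foot π ρ x S w z ∈ ball X0 R')
    (hy : ‖yy π ρ x S w z‖ ≤ s / 8) :
    z ∈ tube π ρ x s w' ∧ foot π ρ x s w' z = foot π ρ x S w z := by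
  have hs := h.gr'.pos
  have h1 := h.gr.foot_spec hz
  set X := foot π ρ x S w z with hXdef
  have hyy : yy π ρ x S w z = ρ (z - x) - w X := rfl
  rw [hyy] at hy
  have h2 : IsFoot π ρ x s w' z X := by
    refine ⟨?_, ?_⟩
    · rw [h.dw hX, h.eq X hX]; exact h1.1
    · rw [h.eq X hX]; linarith
  refine ⟨?_, h.gr'.foot_eq h2⟩
  show ‖ρ (z - x) - w' (π (z - x))‖ < s
  have e1 : ρ (z - x) - w' (π (z - x)) = (ρ (z - x) - w X) + (w' X - w' (π (z - x))) := by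
    rw [h.eq X hX]; abel
  have e2 : X - π (z - x) = adj (fderiv ℝ w' X) (ρ (z - x) - w' X) := by
    have := h2.1
    rw [sub_eq_iff_eq_add']; exact this
  have h3 : ‖X - π (z - x)‖ ≤ 1 / 8 * (s / 8) := by
    rw [e2]
    refine (ContinuousLinearMap.le_opNorm _ _).trans ?_
    rw [LinearIsometryEquiv.norm_map, h.eq X hX]
    exact mul_le_mul (h.gr'.d1 X) hy (norm_nonneg _) (by norm_num)
  have h4 := h.gr'.lip X (π (z - x))
  rw [e1]
  refine lt_of_le_of_lt (norm_add_le _ _) ?_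
  have h5 : 1 / 8 * ‖X - π (z - x)‖ ≤ 1 / 8 * (1 / 8 * (s / 8)) := by gcongr
  linarith

/-- from the chart of `w'` to the chart of `w` -/
theorem bwd {z : Euc k} (hz : z ∈ tube π ρ x s w') (hX : foot π ρ x s w' z ∈ ball X0 R') :
    z ∈ tube π ρ x S w ∧ foot π ρ x S w z = foot π ρ x s w' z := by
  have hs := h.gr'.pos
  have hS := h.sS
  have h1 := h.gr'.foot_spec hz
  have hz' : ‖ρ (z - x) - w' (π (z - x))‖ < s := hz
  set X := foot π ρ x s w' z with hXdef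
  have h2 : IsFoot π ρ x S w z X := by
    refine ⟨?_, ?_⟩
    · rw [← h.dw hX, ← h.eq X hX]; exact h1.1
    · rw [← h.eq X hX]
      have := h1.2
      linarith
  refine ⟨?_, h.gr.foot_eq h2⟩
  show ‖ρ (z - x) - w (π (z - x))‖ < S
  have e1 : ρ (z - x) - w (π (z - x)) =
      (ρ (z - x) - w' (π (z - x))) + (w' (π (z - x)) - w (π (z - x))) := by abel
  rw [e1]
  refine lt_of_le_of_lt (norm_add_le _ _) ?_
  have := h.cl (π (z - x))
  linarith

/-- the chart quantities agree where the feet agree -/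
theorem same {z : Euc k} (hX : foot π ρ x S w z ∈ ball X0 R')
    (he : foot π ρ x s w' z = foot π ρ x S w z) :
    (ch π ρ x s w' X0).x z = (ch π ρ x S w X0).x z ∧
    (ch π ρ x s w' X0).nu z = (ch π ρ x S w X0).nu z ∧
    (ch π ρ x s w' X0).f z = (ch π ρ x S w X0).f z ∧
    ∀ P : Vf_884.L k, (ch π ρ x s w' X0).tau z P = (ch π ρ x S w X0).tau z P := by
  have hy : yy π ρ x s w' z = yy π ρ x S w z := by
    unfold yy
    rw [he, h.eq _ hX]
  have hn : (ch π ρ x s w' X0).nu z = (ch π ρ x S w X0).nu z := by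
    show Bt π ρ w' (foot π ρ x s w' z) (yy π ρ x s w' z) =
      Bt π ρ w (foot π ρ x S w z) (yy π ρ x S w z)
    rw [he, hy]
    unfold Bt
    rw [h.dw hX]
  refine ⟨?_, hn, ?_, fun P => ?_⟩
  · show Lo (fderiv ℝ w' X0) (foot π ρ x s w' z - X0) = Lo (fderiv ℝ w X0) (foot π ρ x S w z - X0)
    rw [he, h.dw0]
  · show ‖(ch π ρ x s w' X0).nu z‖ ^ 2 / 2 = ‖(ch π ρ x S w X0).nu z‖ ^ 2 / 2
    rw [hn]
  · show tr (GLK_128.NN (adj π) (adj ρ) (fderiv ℝ w' (foot π ρ x s w' z))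
      (hinv (fderiv ℝ w' (foot π ρ x s w' z))) ∘L P) = tr (GLK_128.NN (adj π) (adj ρ)
      (fderiv ℝ w (foot π ρ x S w z)) (hinv (fderiv ℝ w (foot π ρ x S w z))) ∘L P)
    rw [he, h.dw hX]

theorem j_eq {v : Euc m} (hv : ‖v‖ < R') : (ch π ρ x s w' X0).j v = (ch π ρ x S w X0).j v := by
  show jB w' X0 v = jB w X0 v
  have e1 : Gi_456.pt w' X0 v = Gi_456.pt w X0 v := by
    unfold Gi_456.pt
    rw [h.dw0]
  have e2 : Gi_456.pt w X0 v ∈ ball X0 R' := by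
    rw [mem_ball_iff_norm]
    show ‖X0 + Loi (fderiv ℝ w X0) v - X0‖ < R'
    rw [add_sub_cancel_left]
    refine lt_of_le_of_lt ?_ hv
    exact (ContinuousLinearMap.le_opNorm _ _).trans
      (mul_le_of_le_one_left (norm_nonneg _) (Loi_spec _).2.2)
  unfold jB
  rw [e1, h.dw e2, h.dw0]

omit h in
theorem foot_of_x {r : ℝ} {w : Euc m → Euc n} {z : Euc k} :
    ‖foot π ρ x r w z - X0‖ ≤ ‖(ch π ρ x r w X0).x z‖ :=
  Gi_456.le_norm_Lo _ _

/-- `|yy| ≤ |nu|` -/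
theorem yy_le (hf : Frame π ρ) {z : Euc k} (hz : z ∈ tube π ρ x S w) :
    ‖yy π ρ x S w z‖ ≤ ‖(ch π ρ x S w X0).nu z‖ := by
  have h1 := (Foot_842.foot_normal hf (h.gr.foot_spec hz)).2.1
  have h2 : (ch π ρ x S w X0).nu z = z - Foot_842.pt π ρ x w (foot π ρ x S w z) :=
    h.gr.nu_eq hf hz
  have e : yy π ρ x S w z = ρ ((ch π ρ x S w X0).nu z) := by
    rw [h2, h1]
    rfl
  rw [e]
  exact norm_rho_le' hf _

end Two

end Crest.Agent.R234.F3e_433
end
end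

-- ▼ part R234/F3f_433
section

/-!
# Row 234 (helper433), F3: `f3P_of : SmP → F3Ps → F3P`
-/

set_option autoImplicit false
set_option linter.unusedSectionVars false

open MeasureTheory Set Metric Function Filter Topology
open scoped ENNReal NNReal ContDiff RealInnerProductSpace
open Crest.GeometryTopology.Submanifold

noncomputable section

namespace Crest.Agent.R234.F3f_433

open Crest.Agent.R234.Vf_884 Crest.Agent.R234.Main_456
open Crest.Agent.R234.Gi_456 (Gr tube ch foot yy)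
open Crest.Agent.R234.GL_394 (Ch Loc VK bb EE ee On Reg)
open Crest.Agent.R234.F3e_433

variable {m n k : ℕ} {π : Euc k →L[ℝ] Euc m} {ρ : Euc k →L[ℝ] Euc n} {x : Euc k}
  {w w' : Euc m → Euc n} {X0 : Euc m} {S s R' : ℝ}

/-- restriction to a smaller compact set -/
theorem VK_sub (V : Measure (Euc k × Vf_884.L k)) {K K' : Set (Euc k)} (h : K' ⊆ K) :
    VK V K' = (VK V K).restrict (K' ×ˢ univ) := by
  unfold VK
  rw [Measure.restrict_restrict_of_subset (prod_mono h le_rfl)]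

/-- the situation: the part `K'` of `K` over `{|x| ≤ R₁}` -/
structure Cut (π : Euc k →L[ℝ] Euc m) (ρ : Euc k →L[ℝ] Euc n) (x : Euc k) (w w' : Euc m → Euc n)
    (X0 : Euc m) (S s R' R₁ : ℝ) (U K : Set (Euc k)) (V : Measure (Euc k × Vf_884.L k)) (L : ℝ) :
    Prop where
  two : Two w w' X0 S s R'
  fr : Frame π ρ
  loc : Loc (ch π ρ x S w X0) U (tube π ρ x S w) K V L
  R1 : s ≤ R₁
  RR : R₁ < R'
  RL : R₁ ≤ Real.exp L
  ht : ∀ z ∈ K, ‖(ch π ρ x S w X0).x z‖ ≤ R₁ → ‖(ch π ρ x S w X0).nu z‖ ≤ s / 8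

namespace Cut

variable {R₁ : ℝ} {U K : Set (Euc k)} {V : Measure (Euc k × Vf_884.L k)} {L : ℝ}
  (h : Cut π ρ x w w' X0 S s R' R₁ U K V L)

/-- the part of `K` over the closed ball of radius `R₁` -/
def K1 (π : Euc k →L[ℝ] Euc m) (ρ : Euc k →L[ℝ] Euc n) (x : Euc k) (w : Euc m → Euc n)
    (X0 : Euc m) (S R₁ : ℝ) (K : Set (Euc k)) : Set (Euc k) :=
  {z | z ∈ K ∧ ‖(ch π ρ x S w X0).x z‖ ≤ R₁}

include h

theorem sub : K1 π ρ x w X0 S R₁ K ⊆ K := fun _ hz => hz.1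

theorem subt : K ⊆ tube π ρ x S w := h.loc.sub.trans inter_subset_left

theorem cpt : IsCompact (K1 π ρ x w X0 S R₁ K) := by
  have hc : ContinuousOn (fun z => ‖(ch π ρ x S w X0).x z‖) K :=
    ((h.two.gr.reg h.fr X0).cx.mono h.subt).norm
  exact h.loc.cpt.of_isClosed_subset
    (hc.preimage_isClosed_of_isClosed h.loc.cpt.isClosed isClosed_Iic) h.sub

theorem footb {z : Euc k} (hz : z ∈ K1 π ρ x w X0 S R₁ K) :
    foot π ρ x S w z ∈ ball X0 R' := by
  rw [mem_ball_iff_norm]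
  exact (Two.foot_of_x.trans hz.2).trans_lt h.RR

theorem tub {z : Euc k} (hz : z ∈ K1 π ρ x w X0 S R₁ K) :
    z ∈ tube π ρ x s w' ∧ foot π ρ x s w' z = foot π ρ x S w z :=
  h.two.fwd (h.subt hz.1) (h.footb hz)
    ((h.two.yy_le h.fr (h.subt hz.1)).trans (h.ht z hz.1 hz.2))

theorem same {z : Euc k} (hz : z ∈ K1 π ρ x w X0 S R₁ K) :
    (ch π ρ x s w' X0).x z = (ch π ρ x S w X0).x z ∧
    (ch π ρ x s w' X0).nu z = (ch π ρ x S w X0).nu z ∧
    (ch π ρ x s w' X0).f z = (ch π ρ x S w X0).f z ∧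
    ∀ P : Vf_884.L k, (ch π ρ x s w' X0).tau z P = (ch π ρ x S w X0).tau z P :=
  h.two.same (h.footb hz) (h.tub hz).2

theorem meas : MeasurableSet (K1 π ρ x w X0 S R₁ K ×ˢ (univ : Set (Vf_884.L k))) :=
  h.cpt.isClosed.measurableSet.prod .univ

theorem measK : MeasurableSet (K ×ˢ (univ : Set (Vf_884.L k))) :=
  h.loc.cpt.isClosed.measurableSet.prod .univ

/-- localisation for the chart of `w'` -/
theorem loc' {L' : ℝ} (hL' : Real.exp L' ≤ R₁) :
    Loc (ch π ρ x s w' X0) U (tube π ρ x s w') (K1 π ρ x w X0 S R₁ K) V L' where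
  st := h.loc.st
  opU := h.loc.opU
  cpt := h.cpt
  sub := fun z hz => ⟨(h.tub hz).1, (h.loc.sub hz.1).2⟩
  gap := by
    filter_upwards [h.loc.gap] with p hp hpW hpL
    have h1 : ‖foot π ρ x s w' p.1 - X0‖ ≤ R₁ := (Two.foot_of_x.trans hpL).trans hL'
    have h2 : foot π ρ x s w' p.1 ∈ ball X0 R' := by
      rw [mem_ball_iff_norm]; exact h1.trans_lt h.RR
    have h3 := h.two.bwd hpW.1 h2
    have h4 := (h.two.same (h3.2 ▸ h2) h3.2.symm).1
    rw [h4] at hpL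
    exact ⟨hp ⟨h3.1, hpW.2⟩ ((hpL.trans hL').trans h.RL), hpL.trans hL'⟩

theorem ae_mem : ∀ᵐ p ∂(VK V (K1 π ρ x w X0 S R₁ K)), p.1 ∈ K1 π ρ x w X0 S R₁ K := by
  filter_upwards [ae_restrict_mem h.meas] with p hp
  exact hp.1

/-- integrals of the chart quantities supported in `{|x| < s}` -/
theorem int_eq (F : Euc m → ℝ → ℝ → ℝ) (hF : ∀ v a b, s ≤ ‖v‖ → F v a b = 0) :
    ∫ p, F ((ch π ρ x s w' X0).x p.1) ((ch π ρ x s w' X0).tau p.1 p.2)
        ((ch π ρ x s w' X0).f p.1) ∂(VK V (K1 π ρ x w X0 S R₁ K)) =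
      ∫ p, F ((ch π ρ x S w X0).x p.1) ((ch π ρ x S w X0).tau p.1 p.2)
        ((ch π ρ x S w X0).f p.1) ∂(VK V K) := by
  have e1 : ∫ p, F ((ch π ρ x s w' X0).x p.1) ((ch π ρ x s w' X0).tau p.1 p.2)
        ((ch π ρ x s w' X0).f p.1) ∂(VK V (K1 π ρ x w X0 S R₁ K)) =
      ∫ p, F ((ch π ρ x S w X0).x p.1) ((ch π ρ x S w X0).tau p.1 p.2)
        ((ch π ρ x S w X0).f p.1) ∂(VK V (K1 π ρ x w X0 S R₁ K)) := by
    refine integral_congr_ae ?_
    filter_upwards [h.ae_mem] with p hp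
    obtain ⟨h1, -, h3, h4⟩ := h.same hp
    rw [h1, h3, h4]
  rw [e1, VK_sub V h.sub]
  refine setIntegral_eq_integral_of_ae_compl_eq_zero ?_
  filter_upwards [ae_restrict_mem h.measK] with p hp hpn
  refine hF _ _ _ ?_
  by_contra hlt
  exact hpn ⟨⟨hp.1, (not_le.1 hlt).le.trans h.R1⟩, trivial⟩

theorem exp_log_sq (hs : 0 < s) (v : Euc m) :
    Real.exp (-2 * Real.log s) * ‖v‖ ^ 2 = ‖v‖ ^ 2 / s ^ 2 := by
  have : Real.exp (-2 * Real.log s) = (s ^ 2)⁻¹ := by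
    rw [show -2 * Real.log s = -(Real.log s + Real.log s) by ring, Real.exp_neg, Real.exp_add,
      Real.exp_log hs, sq]
  rw [this, inv_mul_eq_div]

theorem gz {g : ℝ → ℝ} (hg : ∀ t, 1 ≤ t → g t = 0) (v : Euc m) (hv : s ≤ ‖v‖) :
    g (‖v‖ ^ 2 / s ^ 2) = 0 := by
  have hs := h.two.gr'.pos
  refine hg _ ?_
  rw [le_div_iff₀ (by positivity), one_mul]
  exact pow_le_pow_left₀ hs.le hv 2

/-- **the anomaly** -/
theorem bb_eq {g : ℝ → ℝ} (hg : ∀ t, 1 ≤ t → g t = 0) (Q : ℝ) :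
    bb (ch π ρ x s w' X0) (VK V (K1 π ρ x w X0 S R₁ K)) g Q (Real.log s) =
      bb (ch π ρ x S w X0) (VK V K) g Q (Real.log s) := by
  have hs := h.two.gr'.pos
  have i1 := h.int_eq (fun v _ _ => 1 * g (‖v‖ ^ 2 / s ^ 2)) (fun v _ _ hv => by
    rw [h.gz hg v hv, mul_zero])
  have i2 := h.int_eq (fun v t _ => t * g (‖v‖ ^ 2 / s ^ 2)) (fun v _ _ hv => by
    rw [h.gz hg v hv, mul_zero])
  have i3 : ∫ v : Euc m, (ch π ρ x s w' X0).j v * g (‖v‖ ^ 2 / s ^ 2) =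
      ∫ v : Euc m, (ch π ρ x S w X0).j v * g (‖v‖ ^ 2 / s ^ 2) := by
    refine integral_congr_ae (Eventually.of_forall fun v => ?_)
    show (ch π ρ x s w' X0).j v * g (‖v‖ ^ 2 / s ^ 2) =
      (ch π ρ x S w X0).j v * g (‖v‖ ^ 2 / s ^ 2)
    rcases lt_or_ge ‖v‖ s with hv | hv
    · rw [h.two.j_eq (π := π) (ρ := ρ) (x := x) (hv.trans_le h.R1 |>.trans h.RR)]
    · rw [h.gz hg v hv, mul_zero, mul_zero]
  unfold bb EE ee
  simp only [h.exp_log_sq hs]
  rw [i1, i2, i3]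

theorem f_eq {g : ℝ → ℝ} (hg : ∀ t, 1 ≤ t → g t = 0) :
    ∫ p, g (‖(ch π ρ x s w' X0).x p.1‖ ^ 2 / s ^ 2) * (2 * (ch π ρ x s w' X0).f p.1)
      ∂(VK V (K1 π ρ x w X0 S R₁ K)) =
    ∫ p, g (‖(ch π ρ x S w X0).x p.1‖ ^ 2 / s ^ 2) * (2 * (ch π ρ x S w X0).f p.1)
      ∂(VK V K) :=
  h.int_eq (fun v _ f => g (‖v‖ ^ 2 / s ^ 2) * (2 * f)) (fun v _ _ hv => by
    rw [h.gz hg v hv, zero_mul])

theorem fin : V (K ×ˢ univ) < ⊤ := h.loc.st.fin K h.loc.cpt (h.loc.sub.trans inter_subset_right)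

theorem mass_le {R R₂ : ℝ} (hR : R ≤ R₂) :
    V.real ({z | z ∈ K1 π ρ x w X0 S R₁ K ∧ ‖(ch π ρ x s w' X0).x z‖ < R} ×ˢ univ) ≤
      V.real ({z | z ∈ K ∧ ‖(ch π ρ x S w X0).x z‖ < R₂} ×ˢ univ) := by
  refine measureReal_mono ?_ ?_
  · rintro p ⟨⟨h1, h2⟩, -⟩
    rw [(h.same h1).1] at h2
    exact ⟨⟨h1.1, h2.trans_le hR⟩, trivial⟩
  · exact ((measure_mono (prod_mono (fun z hz => hz.1) le_rfl)).trans_lt h.fin).ne

theorem mass_eq {R : ℝ} (hR : R ≤ R₁) :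
    {z | z ∈ K1 π ρ x w X0 S R₁ K ∧ ‖(ch π ρ x s w' X0).x z‖ < R} =
      {z | z ∈ K ∧ ‖(ch π ρ x S w X0).x z‖ < R} := by
  ext z
  constructor
  · rintro ⟨h1, h2⟩
    rw [(h.same h1).1] at h2
    exact ⟨h1.1, h2⟩
  · rintro ⟨h1, h2⟩
    have h3 : z ∈ K1 π ρ x w X0 S R₁ K := ⟨h1, h2.le.trans hR⟩
    refine ⟨h3, ?_⟩
    show ‖(ch π ρ x s w' X0).x z‖ < R
    rw [(h.same h3).1]
    exact h2

/-- the heights -/
theorem H_le {R R₂ : ℝ} (hR : R ≤ R₂) :
    ∫ p in {z | ‖(ch π ρ x s w' X0).x z‖ < R} ×ˢ univ, 2 * (ch π ρ x s w' X0).f p.1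
      ∂(VK V (K1 π ρ x w X0 S R₁ K)) ≤
    ∫ p in {z | ‖(ch π ρ x S w X0).x z‖ < R₂} ×ˢ univ, 2 * (ch π ρ x S w X0).f p.1
      ∂(VK V K) := by
  have e1 : ∫ p in {z | ‖(ch π ρ x s w' X0).x z‖ < R} ×ˢ univ, 2 * (ch π ρ x s w' X0).f p.1
      ∂(VK V (K1 π ρ x w X0 S R₁ K)) =
      ∫ p in {z | ‖(ch π ρ x s w' X0).x z‖ < R} ×ˢ univ, 2 * (ch π ρ x S w X0).f p.1
      ∂(VK V (K1 π ρ x w X0 S R₁ K)) := by
    refine integral_congr_ae (ae_restrict_of_ae ?_)
    filter_upwards [h.ae_mem] with p hp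
    rw [(h.same hp).2.2.1]
  rw [e1]
  have hm : (VK V (K1 π ρ x w X0 S R₁ K)).restrict
      ({z | ‖(ch π ρ x s w' X0).x z‖ < R} ×ˢ univ) ≤
      (VK V K).restrict ({z | ‖(ch π ρ x S w X0).x z‖ < R₂} ×ˢ univ) := by
    unfold VK
    rw [Measure.restrict_restrict' h.meas, Measure.restrict_restrict' h.measK]
    refine Measure.restrict_mono ?_ le_rfl
    rintro p ⟨⟨h1, -⟩, ⟨h2, -⟩⟩
    have h1' : ‖(ch π ρ x s w' X0).x p.1‖ < R := h1
    rw [(h.same h2).1] at h1'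
    exact ⟨⟨h1'.trans_le hR, trivial⟩, ⟨h2.1, trivial⟩⟩
  refine integral_mono_measure hm ?_ ?_
  · refine Eventually.of_forall fun p => ?_
    show 0 ≤ 2 * (‖_‖ ^ 2 / 2)
    positivity
  · have hcf : ContinuousOn (ch π ρ x S w X0).f K := fun z hz =>
      ((h.two.gr.reg h.fr X0).hf z (h.subt hz)).continuousAt.continuousWithinAt
    have hint := h.loc.toOn.integrable h.loc.cpt
      (F := fun p => 2 * (ch π ρ x S w X0).f p.1)
      (continuousOn_const.mul (hcf.comp continuousOn_fst fun p hp => hp.1))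
    exact hint.restrict

end Cut

end Crest.Agent.R234.F3f_433
end
end

-- ▼ part R234/F3g_433

/-!
# Row 234 (helper433), F3: `f3P_of : SmP → F3Ps → F3P`
-/

set_option autoImplicit false
set_option linter.unusedSectionVars false

open MeasureTheory Set Metric Function Filter Topology
open scoped ENNReal NNReal ContDiff RealInnerProductSpace
open Crest.GeometryTopology.Submanifold

noncomputable section

namespace Crest.Agent.R234.F3g_433

open Crest.Agent.R234.Vf_884 Crest.Agent.R234.Main_456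
open Crest.Agent.R234.Gi_456 (Gr tube ch foot yy)
open Crest.Agent.R234.GL_394 (Ch Loc VK bb EE ee On Reg)
open Crest.Agent.R234.F3e_433 Crest.Agent.R234.F3f_433
open Crest.Agent.R234.F3d_433 (SmP F3P)
open Crest.Agent.R234.F3t_433 (F3Ps)

variable {m n k : ℕ} {w w' : Euc m → Euc n} {X0 : Euc m} {S s R' : ℝ}

/-- first derivatives -/
theorem d1_close (hw : ContDiff ℝ 5 w) (hw' : ContDiff ℝ ∞ w') {η : ℝ}
    (h : ∀ j ≤ 4, ∀ Y, ‖iteratedFDeriv ℝ j w' Y - iteratedFDeriv ℝ j w Y‖ ≤ η) (X : Euc m) :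
    ‖fderiv ℝ w' X - fderiv ℝ w X‖ ≤ η := by
  have hw5 : ContDiff ℝ 5 w' := hw'.of_le (WithTop.coe_le_coe.2 le_top)
  have h1 := h 1 (by norm_num) X
  have e1 : iteratedFDeriv ℝ 1 (w' - w) X = iteratedFDeriv ℝ 1 w' X - iteratedFDeriv ℝ 1 w X :=
    iteratedFDeriv_sub_apply ((hw5.of_le (by norm_num)).contDiffAt)
      ((hw.of_le (by norm_num)).contDiffAt)
  rw [← e1, ← norm_iteratedFDeriv_fderiv, norm_iteratedFDeriv_zero] at h1
  have e2 : fderiv ℝ (w' - w) X = fderiv ℝ w' X - fderiv ℝ w X :=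
    fderiv_sub (hw5.differentiable (by norm_num) X) (hw.differentiable (by norm_num) X)
  rwa [e2] at h1

/-- second derivatives -/
theorem d2_close (hw : ContDiff ℝ 5 w) (hw' : ContDiff ℝ ∞ w') {η : ℝ}
    (h : ∀ j ≤ 4, ∀ Y, ‖iteratedFDeriv ℝ j w' Y - iteratedFDeriv ℝ j w Y‖ ≤ η) (X : Euc m) :
    ‖fderiv ℝ (fderiv ℝ w') X - fderiv ℝ (fderiv ℝ w) X‖ ≤ η := by
  have hw5 : ContDiff ℝ 5 w' := hw'.of_le (WithTop.coe_le_coe.2 le_top)
  have h1 := h 2 (by norm_num) X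
  have e1 : iteratedFDeriv ℝ 2 (w' - w) X = iteratedFDeriv ℝ 2 w' X - iteratedFDeriv ℝ 2 w X :=
    iteratedFDeriv_sub_apply ((hw5.of_le (by norm_num)).contDiffAt)
      ((hw.of_le (by norm_num)).contDiffAt)
  rw [← e1, ← norm_iteratedFDeriv_fderiv, ← norm_iteratedFDeriv_fderiv,
    norm_iteratedFDeriv_zero] at h1
  have e2 : fderiv ℝ (w' - w) = fun X => fderiv ℝ w' X - fderiv ℝ w X := funext fun X =>
    fderiv_sub (hw5.differentiable (by norm_num) X) (hw.differentiable (by norm_num) X)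
  have d1 : Differentiable ℝ (fderiv ℝ w') :=
    (hw5.fderiv_right (m := 4) (by norm_num)).differentiable (by norm_num)
  have d2 : Differentiable ℝ (fderiv ℝ w) :=
    (hw.fderiv_right (m := 4) (by norm_num)).differentiable (by norm_num)
  have e3 : fderiv ℝ (fun X => fderiv ℝ w' X - fderiv ℝ w X) X =
      fderiv ℝ (fderiv ℝ w') X - fderiv ℝ (fderiv ℝ w) X := fderiv_sub (d1 X) (d2 X)
  rwa [e2, e3] at h1

/-- the graph class of the smoothed function -/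
theorem gr_close (hw : ContDiff ℝ 5 w) (hw' : ContDiff ℝ ∞ w') {η : ℝ} (hs : 0 < s)
    (hS : s < S) (hd : ∀ X, ‖fderiv ℝ w X‖ ≤ 1 / 16)
    (hdd : ∀ X, ‖fderiv ℝ (fderiv ℝ w) X‖ ≤ 1 / (16 * S)) (hη1 : η ≤ 1 / 16)
    (hη2 : η ≤ 1 / (16 * s))
    (h : ∀ j ≤ 4, ∀ Y, ‖iteratedFDeriv ℝ j w' Y - iteratedFDeriv ℝ j w Y‖ ≤ η) : Gr s w' where
  pos := hs
  cd := hw'.of_le (WithTop.coe_le_coe.2 le_top)
  d1 := fun X => by
    have h1 := d1_close hw hw' h X
    have h2 := norm_le_norm_add_norm_sub' (fderiv ℝ w' X) (fderiv ℝ w X)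
    have h3 := hd X
    linarith
  d2 := fun X => by
    have h1 := d2_close hw hw' h X
    have h2 : ‖fderiv ℝ (fderiv ℝ w') X‖ ≤ ‖fderiv ℝ (fderiv ℝ w) X‖ +
        ‖fderiv ℝ (fderiv ℝ w') X - fderiv ℝ (fderiv ℝ w) X‖ := by
      have e : fderiv ℝ (fderiv ℝ w') X = fderiv ℝ (fderiv ℝ w) X +
          (fderiv ℝ (fderiv ℝ w') X - fderiv ℝ (fderiv ℝ w) X) := by abel
      calc ‖fderiv ℝ (fderiv ℝ w') X‖ = ‖fderiv ℝ (fderiv ℝ w) X +
          (fderiv ℝ (fderiv ℝ w') X - fderiv ℝ (fderiv ℝ w) X)‖ := by rw [← e]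
        _ ≤ _ := ContinuousLinearMap.opNorm_add_le _ _
    have h3 := hdd X
    have h4 : 1 / (16 * S) ≤ 1 / (16 * s) :=
      one_div_le_one_div_of_le (by positivity) (by linarith)
    have h5 : 1 / (16 * s) + 1 / (16 * s) = 1 / (8 * s) := by field_simp; norm_num
    linarith

/-- the number part: the exponent `2 a` and the collar `ε / 2` -/
theorem rpow_half {L a ε : ℝ} (ha : 0 < a) (hL : (2:ℝ) ^ (1 / a) ≤ L) (h : L ^ (-a) ≤ ε) :
    L ^ (-(2 * a)) ≤ ε / 2 := by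
  have h2 : (0:ℝ) < 2 ^ (1 / a) := by positivity
  have hL0 : 0 < L := h2.trans_le hL
  have e : L ^ (-(2 * a)) = L ^ (-a) * L ^ (-a) := by
    rw [← Real.rpow_add hL0]; congr 1; ring
  have h3 : L ^ (-a) ≤ 1 / 2 := by
    rw [Real.rpow_neg hL0.le, ← one_div]
    refine one_div_le_one_div_of_le (by norm_num) ?_
    calc (2:ℝ) = (2 ^ (1 / a)) ^ a := by
          rw [← Real.rpow_mul (by norm_num), one_div, inv_mul_cancel₀ ha.ne', Real.rpow_one]
      _ ≤ L ^ a := Real.rpow_le_rpow h2.le hL ha.le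
  have h4 : 0 ≤ L ^ (-a) := Real.rpow_nonneg hL0.le _
  rw [e]
  nlinarith

/-- **F3 for a block chart** -/
theorem f3P_of {Q : ℕ} (hS : SmP m n) (hF : F3Ps m n k Q) : F3P m n k Q := by
  intro Λ hΛ
  obtain ⟨C, hC, h2⟩ := hF Λ hΛ
  refine ⟨C, hC, fun a C' ha hC' => ?_⟩
  obtain ⟨κ₀, H₀, hκ₀, hH₀, hH₁, hmain⟩ := h2 (2 * a) C' (by positivity) hC'
  refine ⟨κ₀ / 2, min H₀ (Real.exp (-((2:ℝ) ^ (1 / a)))), by positivity,
    lt_min hH₀ (Real.exp_pos _), (min_le_left _ _).trans_lt hH₁, ?_⟩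
  intro π ρ x w X0 S s κ ε H U K Dd g hf hU hD hst hs hsS hgr hd1 hd2 hcd hB hsm hκ hκle hbd hε hε1
    hms hnb hloc hnu hm1 hm2 hH hHle hlog hHt hg0 hg1 hgz hgL
  obtain ⟨hHle1, hHle2⟩ := le_min_iff.1 hHle
  -- the logarithm
  have hLog : (2:ℝ) ^ (1 / a) ≤ Real.log (1 / H) := by
    have h1 : Real.log (1 / H) = -Real.log H := by rw [one_div, Real.log_inv]
    have := Real.log_le_log hH hHle2
    rw [Real.log_exp] at this
    rw [h1]
    linarith
  have hlog2 := rpow_half ha hLog hlog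
  set A : ℝ := (s ^ (m + 2))⁻¹ *
      ∫ p, g (‖(ch π ρ x S w X0).x p.1‖ ^ 2 / s ^ 2) * (2 * (ch π ρ x S w X0).f p.1)
        ∂(VK (VD Dd) K) with hA
  set T : ℝ := (Real.log (1 / H)) ^ (-C') * H with hT
  -- the statement for every small `η`
  have key : ∀ η : ℝ, 0 < η → η ≤ κ₀ / 2 →
      bb (ch π ρ x S w X0) (VK (VD Dd) K) g Q (Real.log s) ≤
        s ^ 2 * (C * (κ + η) ^ 2 * A + T) := by
    intro η hη hηκ
    set η₁ : ℝ := min (min (η / (1 + s) ^ 2) (S - s)) (min (1 / 16) (1 / (16 * s))) with hη₁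
    have hη₁0 : 0 < η₁ := lt_min (lt_min (by positivity) (by linarith))
      (lt_min (by norm_num) (by positivity))
    have e1 : η₁ ≤ η / (1 + s) ^ 2 := (min_le_left _ _).trans (min_le_left _ _)
    have e1' : η₁ ≤ S - s := (min_le_left _ _).trans (min_le_right _ _)
    have e2 : η₁ ≤ 1 / 16 := (min_le_right _ _).trans (min_le_left _ _)
    have e3 : η₁ ≤ 1 / (16 * s) := (min_le_right _ _).trans (min_le_right _ _)
    set R' : ℝ := (1 + 3 / 4 * ε) * s with hR'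
    have hR'0 : 0 < R' := by positivity
    have hR'R : R' < (1 + ε) * s := by
      rw [hR']
      exact mul_lt_mul_of_pos_right (by linarith) hs
    obtain ⟨w', hw', hww, hcl⟩ := hS w X0 ((1 + ε) * s) R' η₁ hR'0 hR'R hη₁0 hcd hB hsm
    have hgr' : Gr s w' := gr_close hcd hw' hs hsS hd1 hd2 e2 e3 hcl
    have hcl0 : ∀ Y, ‖w' Y - w Y‖ ≤ S - s := by
      intro Y
      have h1 := hcl 0 (by norm_num) Y
      have hw5 : ContDiff ℝ 5 w' := hw'.of_le (WithTop.coe_le_coe.2 le_top)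
      have e : iteratedFDeriv ℝ 0 (w' - w) Y =
          iteratedFDeriv ℝ 0 w' Y - iteratedFDeriv ℝ 0 w Y :=
        iteratedFDeriv_sub_apply ((hw5.of_le (by norm_num)).contDiffAt)
          ((hcd.of_le (by norm_num)).contDiffAt)
      rw [← e, norm_iteratedFDeriv_zero] at h1
      exact h1.trans e1'
    have htwo : Two w w' X0 S s R' := ⟨hgr, hgr', hsS.le, hcl0, hR'0, hww⟩
    set R₁ : ℝ := (1 + ε / 2) * s with hR₁
    have hR₁R' : R₁ < R' := by
      rw [hR₁, hR']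
      exact mul_lt_mul_of_pos_right (by linarith) hs
    have hexp : Real.exp (Real.log ((1 + ε) * s)) = (1 + ε) * s := Real.exp_log (by positivity)
    have hcut : Cut π ρ x w w' X0 S s R' R₁ U K (VD Dd) (Real.log ((1 + ε) * s)) :=
      { two := htwo
        fr := hf
        loc := hloc
        R1 := by rw [hR₁]; nlinarith
        RR := hR₁R'
        RL := by rw [hexp]; exact (hR₁R'.trans hR'R).le
        ht := fun z hz hz2 => hnu z hz (hz2.trans_lt (hR₁R'.trans hR'R)) }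
    have hε2 : (1 + ε / 2) * s = R₁ := rfl
    have hmn := hmain π ρ x w' X0 s (κ + η) (ε / 2) H U (Cut.K1 π ρ x w X0 S R₁ K) Dd g hf hU hD hst
      hs hgr' hw' (by positivity) (by linarith) ?_ (by positivity) (by linarith) ?_ ?_ ?_ ?_ ?_ ?_
      hH hHle1 hlog2 ?_ hg0 hg1 hgz hgL
    · rw [hcut.bb_eq hgz, hcut.f_eq hgz] at hmn
      exact hmn
    · -- derivatives
      intro j hj1 hj2 Y hY
      have h1 := hcl j (by omega) Y
      have h3 := hbd j hj1 hj2 Y hY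
      have h4 : ‖iteratedFDeriv ℝ j w' Y‖ ≤ ‖iteratedFDeriv ℝ j w Y‖ + η₁ :=
        (norm_le_norm_add_norm_sub' _ _).trans (by linarith)
      have h5 : s ^ (j - 1) ≤ (1 + s) ^ 2 := by
        calc s ^ (j - 1) ≤ (1 + s) ^ (j - 1) := pow_le_pow_left₀ hs.le (by linarith) _
          _ ≤ (1 + s) ^ 2 := pow_le_pow_right₀ (by linarith) (by omega)
      have h6 : s ^ (j - 1) * η₁ ≤ η := by
        calc s ^ (j - 1) * η₁ ≤ (1 + s) ^ 2 * (η / (1 + s) ^ 2) :=
              mul_le_mul h5 e1 hη₁0.le (by positivity)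
          _ = η := by field_simp
      calc s ^ (j - 1) * ‖iteratedFDeriv ℝ j w' Y‖
          ≤ s ^ (j - 1) * (‖iteratedFDeriv ℝ j w Y‖ + η₁) :=
            mul_le_mul_of_nonneg_left h4 (by positivity)
        _ ≤ κ + η := by rw [mul_add]; linarith
    · -- minimality
      intro Y hY
      have hY2 : Y ∈ ball X0 R' := ball_subset_ball hR₁R'.le hY
      rw [htwo.msys hY2]
      exact hms Y (ball_subset_ball hR'R.le hY2)
    · -- the ball
      have e : Foot_842.pt π ρ x w' X0 = Foot_842.pt π ρ x w X0 := by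
        unfold Foot_842.pt
        rw [hww X0 (mem_ball_self hR'0)]
      rw [e]
      exact hnb
    · -- Loc
      refine hcut.loc' ?_
      rw [hε2, Real.exp_log (by positivity)]
    · -- heights
      intro z hz
      rw [(hcut.same hz).2.1]
      have := hcut.ht z hz.1 hz.2
      linarith
    · -- mass 1
      exact (hcut.mass_le (R := R₁) (R₂ := (1 + ε) * s) (hR₁R'.trans hR'R).le).trans hm1
    · -- mass 2
      rw [hcut.mass_eq (R := 1 / 4 * s) (by rw [hR₁]; nlinarith)]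
      exact hm2
    · -- integrated heights
      exact (hcut.H_le (R := R₁) (R₂ := (1 + ε) * s) (hR₁R'.trans hR'R).le).trans hHt
  -- the limit
  have hlim : Tendsto (fun η : ℝ => s ^ 2 * (C * (κ + η) ^ 2 * A + T)) (𝓝[>] 0)
      (𝓝 (s ^ 2 * (C * (κ + 0) ^ 2 * A + T))) := by
    refine Tendsto.mono_left (Continuous.tendsto ?_ 0) nhdsWithin_le_nhds
    fun_prop
  rw [add_zero] at hlim
  refine ge_of_tendsto hlim ?_
  have hmem : Ioc (0:ℝ) (κ₀ / 2) ∈ 𝓝[>] (0:ℝ) := Ioc_mem_nhdsGT (by positivity)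
  filter_upwards [hmem] with η hη
  exact key η hη.1 hη.2

end Crest.Agent.R234.F3g_433
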