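import Crest.Agent.R234.Fldc1_387

-- ▼ part R234/Fldc2_387
section

/-!
# Row 234 (helper387), NBASE-FLD, part 2: one contact centre of a situation

`OkAS.raw` (98's `Raw` at every centre), `B_nonneg`, `Us_ge_tall` (tall centres).
-/

set_option autoImplicit false

open MeasureTheory Set Function Filter Topology Metric
open Crest.GeometryTopology.Submanifold
open Crest.Agent.R234.Vf_884 Crest.Agent.R234.Ar_870 Crest.Agent.R234.Cy_870
open Crest.Agent.R234.Pot_425 Crest.Agent.R234.Avg_387 Crest.Agent.R234.Rep_387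
open Crest.Agent.R234.Raw_387 Crest.Agent.R234.N0_309 Crest.Agent.R234.Asl_214
open Crest.Agent.R234.Core_809
open Crest.Agent.R234.N5_372 (eM)
open scoped ENNReal NNReal

noncomputable section

namespace Crest.Agent.R234.Fld_387

namespace Da

variable {m n k : ℕ} {D : Da m n k} {R h₀ δA c₀ K₀ KB T : ℝ} {g2 : ℝ → ℝ} {x : Euc m}

/-- **98's `Raw` at every centre** -/
theorem OkAS.raw (h : D.OkAS R h₀ δA c₀ K₀ KB g2) (hT : ‖x‖ + Real.exp T + 2 * D.τ ≤ 1) :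
    Shp_98.Raw m D.K 2 D.δ T (D.E x) (D.e x) (D.et x) (D.b x) (D.g x) (D.R x) (D.f x) (D.p x)
      (D.P x) (D.B x) := by
  have f1 := h.fβ
  have f2 := h.fγ
  have f3 := h.fb₂
  have ok := h.ok
  have hm := h.m2
  refine Raw_387.raw (by lia) ok.ff ok.hh ok.τ0 ok.prof rfl ok.rep ok.δ0 ok.δ'0 ok.δδ
    (by linarith [ok.K2]) hT fun y hy l hl => ?_
  have hff := Shp_98.ff_of_cylAS h.cyl
  have hw := Shp_98.window (x := x) h.τ0 hT hl
  have hyx : ‖y - x‖ ≤ D.τ := by rwa [mem_closedBall_iff_norm] at hy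
  have hy2 : ‖y - 0‖ + Real.exp l ≤ R := by
    have := norm_sub_le_norm_sub_add_norm_sub y x (0 : Euc m)
    linarith [hw.1, h.R1]
  refine (Shp_98.abs_f1_le h.cyl h.δA0 h.prof hy2 hw.2).trans ?_
  rw [h.δe]
  refine mul_le_mul_of_nonneg_right (by linarith [h.δA0]) ?_
  have hcy := cf_yc (W := D.W) (κ := D.κ) h.cyl.hgt
  have a1 : 0 ≤ ee D.W D.π y D.w.θ l := by
    rw [ee_eq_kk hff]
    exact kk_nonneg (cf_tc hff) h.prof y l
  have a2 := Shp_98.et_nonneg hff h.prof y l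
  have a3 := kk_nonneg (π := D.π) hcy h.prof y l
  have a4 := kt_nonneg (π := D.π) hcy h.prof y l
  linarith

/-- the sharp `U` vanishes at small scales -/
theorem OkAS.tendsto_Us (h : D.OkAS R h₀ δA c₀ K₀ KB g2) (x : Euc m) :
    Tendsto (D.Us x) atBot (𝓝 0) := by
  have f1 := h.fβ
  have f3 := h.fb₂
  have ok := h.ok
  have hc0 : 0 ≤ D.K * m / 2 * D.δ := by
    have := ok.K2
    have := ok.δ0
    positivity
  have hcy := cf_yc (W := D.W) (κ := D.κ) ok.hh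
  have hP : Tendsto (D.P x) atBot (𝓝 0) :=
    tendsto_PY ok.ff ok.τ0 ok.prof hcy (by positivity) D.δ' x
  exact Raw_387.tendsto_Us ok.ff ok.τ0 ok.prof hc0 D.Q D.K D.δ hP x

/-- lower bound of the sharp `U` from a lower bound of the averaged energy on one unit of scales -/
theorem OkAS.Us_ge (h : D.OkAS R h₀ δA c₀ K₀ KB g2) (hT : ‖x‖ + Real.exp T + 2 * D.τ ≤ 1)
    {a₁ a₀ θ : ℝ} (h1 : a₁ ≤ a₀) (h0 : a₀ ≤ T) (hθ : ∀ l ∈ Icc (a₁ - 1) a₁, θ ≤ D.e x l) :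
    D.δ * θ ≤ D.Us x a₀ := by
  have hr := h.raw hT
  have hK : 9 ≤ D.K := h.K9
  have h2 := hr.tall (K₀ := 1) (by linarith) zero_le_one (by linarith) (h.tendsto_Us x)
    (h1.trans h0) hθ
  rw [one_mul] at h2
  exact h2.trans (hr.Us_mono (by linarith) h1 h0)

end Da

/-! ### a contact centre -/

variable {m n : ℕ} {a : ℝ} {X : Sit m n a} {Q : ℕ} {K cS ds M : ℝ}

/-- **the contact potential difference is nonnegative** -/
theorem B_nonneg (hO : Out X.S (Cy_870.cyl X.π X.κ 0 4 1) Q (tauOf a X.D) (hOf a X.D)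
    (tOf a X.D) (lamOf cS a X.D) (blOf a X.D) (K * m / 2 * ds) M X.ε)
    {x : XB (Euc m) (tauOf a X.D)} (hx : x ∈ X.ε.support) {l : ℝ}
    (hl : ‖(x : Euc m)‖ + Real.exp l ≤ 1) :
    SS m (tauOf a X.D) w0 X.ε (x : Euc m) (Real.exp l) ≤ (daOf X Q K cS ds).B (x : Euc m) l ∧
      0 ≤ (daOf X Q K cS ds).B (x : Euc m) l := by
  obtain ⟨h1, h2⟩ := hO.ss x hx w0 (Real.exp l) (Real.exp_pos l).le hl
  exact ⟨h2, h1.trans h2⟩

/-- the lower bound at a tall centre, explicit form -/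
def Dt (m : ℕ) (h t lam : ℝ) : ℝ :=
  Real.exp ((2 - m) * (Real.log (8 * t) + 1)) * (1 / 3 * (lam * h ^ m)) * Md m

/-- **tall centres** -/
theorem Us_tall (hok : (daOf X Q K cS ds).OkAS 4 (√X.D) X.δ (1 / 3) 4 12 w2)
    (hO : Out X.S (Cy_870.cyl X.π X.κ 0 4 1) Q (tauOf a X.D) (hOf a X.D)
      (tOf a X.D) (lamOf cS a X.D) (blOf a X.D) (K * m / 2 * ds) M X.ε)
    (hcS : 0 ≤ cS) (hh : 0 < hOf a X.D) (hht : hOf a X.D ≤ tOf a X.D)
    {x : XB (Euc m) (tauOf a X.D)} (hx : x ∈ X.ε.support) {a₀ T : ℝ}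
    (hT : ‖(x : Euc m)‖ + Real.exp T + 2 * tauOf a X.D ≤ 1) (hT0 : a₀ ≤ T)
    (ha : Real.log (8 * tOf a X.D) + 1 ≤ a₀) :
    ds * Dt m (hOf a X.D) (tOf a X.D) (lamOf cS a X.D) ≤ (daOf X Q K cS ds).Us (x : Euc m) a₀ := by
  have hm2 : (2:ℝ) ≤ m := by exact_mod_cast hok.m2
  have ht : 0 < tOf a X.D := hh.trans_le hht
  refine hok.Us_ge hT ha hT0 fun l hl => ?_
  have hlam : 0 ≤ lamOf cS a X.D := mul_nonneg hcS (sq_nonneg _)
  have hτ : tauOf a X.D = hOf a X.D / 4 := rfl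
  have h8 : 8 * tOf a X.D ≤ Real.exp l := by
    have h9 : Real.exp (Real.log (8 * tOf a X.D)) = 8 * tOf a X.D := Real.exp_log (by positivity)
    rw [← h9]
    exact Real.exp_le_exp.2 (by linarith [hl.1])
  have h1 := hO.eea_ge (κ := X.κ) hok.ok.ff hok.τ0 hh hlam hok.prof.k0
    (fun t => w0.nonneg t) (c0 := 1 / 3) (by norm_num)
    (fun t h0 h1 => (w0_low h0 (h1.trans (by norm_num))).1) hx (l := l) (by
      rw [hτ]; linarith)
  refine le_trans ?_ h1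
  unfold Dt
  have hMd : 0 ≤ Md m := (Md_pos (by have := hok.m2; lia)).le
  refine mul_le_mul_of_nonneg_right (mul_le_mul_of_nonneg_right (Real.exp_le_exp.2 ?_)
    (by positivity)) hMd
  have := hl.2
  nlinarith

end Crest.Agent.R234.Fld_387
end
end

-- ▼ part R234/Fldc3_387
section

/-!
# Row 234 (helper387), NBASE-FLD, part 3: the numbers of the window

bottom `s0 = √D Λ^b`, top `st = Λ^(-b')`; `ev_num` = all comparisons for large `Λ`;
`Dt_eq` = the lower bound at the tall centres; `P_le` = the decaying error at the top.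
-/

set_option autoImplicit false

open MeasureTheory Set Function Filter Topology Metric
open Crest.GeometryTopology.Submanifold
open Crest.Agent.R234.Vf_884 Crest.Agent.R234.Ar_870 Crest.Agent.R234.Cy_870
open Crest.Agent.R234.Pot_425 Crest.Agent.R234.Avg_387 Crest.Agent.R234.Rep_387
open Crest.Agent.R234.Raw_387 Crest.Agent.R234.N0_309 Crest.Agent.R234.Asl_214
open Crest.Agent.R234.Core_809
open Crest.Agent.R234.N5_372 (eM)
open Crest.Agent.R234.Par_504 (ev_le ev_le' ev_small ev_const)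
open scoped ENNReal NNReal

noncomputable section

namespace Crest.Agent.R234.Fld_387

local notation "PX" => Crest.Agent.R234.Par_504.X

/-- large `Λ` from large `log Λ` -/
theorem exists_l0 {p : ℝ → Prop} (h : ∀ᶠ Λ in atTop, p Λ) :
    ∃ l0 : ℝ, 0 ≤ l0 ∧ ∀ Λ, 0 < Λ → l0 ≤ Real.log Λ → p Λ := by
  obtain ⟨Λ₀, h0⟩ := eventually_atTop.1 h
  have h1 : (1:ℝ) ≤ max Λ₀ 1 := le_max_right _ _
  refine ⟨Real.log (max Λ₀ 1), Real.log_nonneg h1, fun Λ hΛ hl => h0 Λ ?_⟩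
  rw [Real.log_le_log_iff (by linarith) hΛ] at hl
  exact (le_max_left _ _).trans hl

/-- all comparisons for large `Λ` -/
structure Num (m : ℕ) (a b b' c' A c c₂ Cp Λ : ℝ) : Prop where
  n1 : 32 ≤ Λ
  n2 : 7 * PX 0 (-a) Λ ≤ 1
  n3 : Real.exp 5 * PX 0 (-b') Λ ≤ 1 / 2 * PX 0 (-a) Λ
  n4 : Real.exp 5 * PX 0 (-b') Λ ≤ 1 / 4
  n5 : PX (-1 / 2) 0 Λ ≤ 1 / 4
  n6 : 8 * Real.exp 5 * PX (-1 / 2) a Λ ≤ PX (-1 / 2) b Λ
  n7 : (A + 1) * Real.exp 4 * PX (-1 / 2) 0 Λ ≤ PX (-1 / 2) b Λ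
  n8 : PX (-1 / 2) b Λ ≤ PX 0 (-b') Λ
  n9 : Cp * PX (-1) (a * m - 2 * b') Λ ≤ c₂ * PX (-1) (-c') Λ
  n10 : PX (-1) 0 Λ ≤ c
  n11 : PX 0 (-1) Λ ≤ c

theorem ev_num (m : ℕ) {a b b' c' A c c₂ : ℝ} (Cp : ℝ) (ha : 1 ≤ a) (hb : a + 1 ≤ b)
    (hb' : a + 1 ≤ b') (hc' : c' + a * m < 2 * b') (hc : 0 < c) (hc₂ : 0 < c₂) :
    ∀ᶠ Λ : ℝ in atTop, Num m a b b' c' A c c₂ Cp Λ := by
  filter_upwards [eventually_ge_atTop (32:ℝ),
    ev_small 7 one_pos (show Par_504.Lt 0 (-a) 0 0 from Or.inr ⟨rfl, by linarith⟩),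
    ev_le' (Real.exp 5) (show (0:ℝ) < 1 / 2 by norm_num)
      (show Par_504.Lt 0 (-b') 0 (-a) from Or.inr ⟨rfl, by linarith⟩),
    ev_small (Real.exp 5) (show (0:ℝ) < 1 / 4 by norm_num)
      (show Par_504.Lt 0 (-b') 0 0 from Or.inr ⟨rfl, by linarith⟩),
    ev_small 1 (show (0:ℝ) < 1 / 4 by norm_num)
      (show Par_504.Lt (-1 / 2) 0 0 0 from Or.inl (by norm_num)),
    ev_le (8 * Real.exp 5) (show Par_504.Lt (-1 / 2) a (-1 / 2) b from Or.inr ⟨rfl, by linarith⟩),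
    ev_le ((A + 1) * Real.exp 4)
      (show Par_504.Lt (-1 / 2) 0 (-1 / 2) b from Or.inr ⟨rfl, by linarith⟩),
    ev_le 1 (show Par_504.Lt (-1 / 2) b 0 (-b') from Or.inl (by norm_num)),
    ev_le' Cp hc₂ (show Par_504.Lt (-1) (a * m - 2 * b') (-1) (-c') from
      Or.inr ⟨rfl, by linarith⟩),
    ev_small 1 hc (show Par_504.Lt (-1) 0 0 0 from Or.inl (by norm_num)),
    ev_small 1 hc (show Par_504.Lt 0 (-1) 0 0 from Or.inr ⟨rfl, by norm_num⟩)]
    with Λ h1 h2 h3 h4 h5 h6 h7 h8 h9 h10 h11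
  rw [one_mul] at h5 h8 h10 h11
  exact ⟨h1, h2, h3, h4, h5, h6, h7, h8, h9, h10, h11⟩

/-! ### the lower bound at the tall centres -/

/-- the constant -/
def cD (m : ℕ) (cS : ℝ) : ℝ :=
  7 * (Real.exp ((2 - m) * (Real.log 8 + 1)) * (1 / 3 * cS) * Md m)

theorem cD_pos {m : ℕ} {cS : ℝ} (hm : 0 < m) (hcS : 0 < cS) : 0 < cD m cS := by
  have := Md_pos hm
  unfold cD
  positivity

/-- `7 Λ^-a Dt = cD Λ^-(2m+3)a D` -/
theorem Dt_eq (m : ℕ) {a cS D : ℝ} (hD : 0 < D) (hD1 : D < 1) :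
    7 * Lam D ^ (-a) * Dt m (hOf a D) (tOf a D) (lamOf cS a D) =
      cD m cS * (Lam D ^ (-((2 * m + 3) * a)) * D) := by
  have hΛ := Lam_pos hD hD1
  set Λ := Lam D with hΛd
  have hs : √D = PX (-1 / 2) 0 Λ := Par_504.sqrt_D_eq_X hD
  have hh : hOf a D = PX (-1 / 2) (-a) Λ := by
    unfold hOf
    rw [hs, Par_504.rpow_eq_X hΛ, Par_504.X_mul]
    congr 1 <;> ring
  have ht : tOf a D = PX (-1 / 2) a Λ := by
    unfold tOf
    rw [hs, Par_504.rpow_eq_X hΛ, Par_504.X_mul]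
    congr 1 <;> ring
  have hlam : lamOf cS a D = cS * PX 0 (-4 * a) Λ := by
    unfold lamOf
    rw [hh, ht, Par_504.X_div, Par_504.X_pow]
    congr 2 <;> push_cast <;> ring
  have hlog : Real.exp ((2 - m) * (Real.log (8 * tOf a D) + 1)) =
      Real.exp ((2 - m) * (Real.log 8 + 1)) * PX (-(2 - m) / 2) ((2 - m) * a) Λ := by
    rw [ht, Real.log_mul (by norm_num) (Par_504.X_ne _ _ _), Par_504.log_X]
    unfold Par_504.X
    rw [← Real.exp_add]
    congr 1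
    ring
  have hDX : D = PX (-1) 0 Λ := Par_504.D_eq_X hD
  have e1 : Lam D ^ (-((2 * m + 3) * a)) * D = PX (-1) (-((2 * m + 3) * a)) Λ := by
    rw [← hΛd, Par_504.rpow_eq_X hΛ]
    conv_lhs => rw [hDX]
    rw [Par_504.X_mul]
    congr 1 <;> ring
  rw [e1]
  unfold Dt cD
  rw [hlog, hlam, hh, Par_504.X_pow, Par_504.rpow_eq_X hΛ]
  have e2 : PX (-1) (-((2 * m + 3) * a)) Λ = PX 0 (-a) Λ * (PX (-(2 - m) / 2) ((2 - m) * a) Λ *
      (PX 0 (-4 * a) Λ * PX (m * (-1 / 2)) (m * (-a)) Λ)) := by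
    rw [Par_504.X_mul, Par_504.X_mul, Par_504.X_mul]
    congr 1 <;> ring
  rw [e2]
  ring

/-! ### the decaying error at the top -/

/-- the constant of `P_le` -/
def cP (m : ℕ) (C : ℝ) : ℝ :=
  14 * (C * Real.exp 10 * (4 * Md m + (m - 1) / 2 *
    ((∫ y : Euc m, w0.psi y) * (m * (1 + m / 2) * 4 ^ m))))

variable {m n : ℕ} {a : ℝ} {X : Sit m n a} {Q : ℕ} {K cS ds M : ℝ}

theorem P_le {C b' : ℝ} (hC0 : 0 ≤ C) (hok : (daOf X Q K cS ds).OkAS 4 (√X.D) X.δ (1 / 3) 4 12 w2)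
    (hD : 0 < X.D) (hD1 : X.D < 1) (hδ1 : X.δ ≤ 1) (ha : 0 ≤ a) (hΛ : 1 ≤ Lam X.D)
    (hC : ∀ y ∈ closedBall (0 : Euc m) 3, ∀ r, 0 < r → √X.D ≤ r → r ≤ 1 / 4 →
      MB X.V X.π y r ≤ C * r ^ m)
    {x : Euc m} (hx : ‖x‖ ≤ 1) (hs : √X.D ≤ 1 / 4) (hτ1 : tauOf a X.D ≤ 1)
    (hT1 : Real.exp 5 * Lam X.D ^ (-b') ≤ 1 / 4) (hT2 : √X.D ≤ Real.exp 5 * Lam X.D ^ (-b')) :
    (daOf X Q K cS ds).P x (Real.log (Lam X.D ^ (-b')) + 5) ≤
      cP m C * PX (-1) (a * m - 2 * b') (Lam X.D) := by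
  have hL := Lam_pos hD hD1
  set Λ := Lam X.D with hΛd
  have hst : 0 < Λ ^ (-b') := Real.rpow_pos_of_pos hL _
  have hτ0 : 0 < tauOf a X.D := tauOf_pos hD hD1
  have hsD : 0 < √X.D := Real.sqrt_pos.2 hD
  set l : ℝ := Real.log (Λ ^ (-b')) + 5 with hl
  have hel : Real.exp l = Real.exp 5 * Λ ^ (-b') := by
    rw [hl, Real.exp_add, Real.exp_log hst]
    ring
  have hΛa : 1 ≤ Λ ^ a := Real.one_le_rpow hΛ ha
  have hAτ : 4 * Λ ^ a * tauOf a X.D = √X.D := by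
    unfold tauOf hOf
    rw [← hΛd, Real.rpow_neg hL.le]
    have : Λ ^ a ≠ 0 := by positivity
    field_simp
  have hm := hok.m2
  have hm1 : (1:ℝ) ≤ m := by exact_mod_cast (by lia : 1 ≤ m)
  have hxe : ∀ y : Euc m, ‖y - x‖ ≤ Real.exp l + tauOf a X.D → ‖y‖ ≤ 3 := by
    intro y hy
    have h1 : ‖y‖ ≤ ‖y - x‖ + ‖x‖ := by
      have := norm_add_le (y - x) x
      simpa using this
    rw [hel] at hy
    linarith
  have key := Shp3_98.PY_le (x := x) (δ := 7 * X.δ) (by lia) hok.ok.ff hok.ok.hh hok.τ0 hok.prof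
    (Kg := 4) (fun t ht => (w0_up ht).1) (by linarith [hok.δA0]) (l := l) (M := C)
    (A := 4 * Λ ^ a) (r₁ := √X.D) (r₂ := 1 / 4) (by linarith) (by rw [hel]; exact hT2)
    (by rw [hel]; exact hT1) (by change √X.D ≤ 4 * Λ ^ a * tauOf a X.D; rw [hAτ])
    (by change 4 * Λ ^ a * tauOf a X.D ≤ 1 / 4; rw [hAτ]; exact hs)
    (fun y hy r h1 h2 => by
      have h3 := hC y (by rw [mem_closedBall_zero_iff]; exact hxe y hy) r (hsD.trans_le h1) h1 h2
      exact h3)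
  have e0 : (daOf X Q K cS ds).P x l = PY (7 * X.δ) (daOf X Q K cS ds).W (daOf X Q K cS ds).π
    (daOf X Q K cS ds).κ (daOf X Q K cS ds).τ (daOf X Q K cS ds).w x l := rfl
  rw [e0]
  refine key.trans ?_
  have e1 : Real.exp (2 * l) = Real.exp 10 * Λ ^ (-(2 * b')) := by
    have h1 : Real.exp (2 * l) = Real.exp l ^ 2 := by
      rw [← Real.exp_nat_mul]; norm_num
    rw [h1, hel, mul_pow, ← Real.exp_nat_mul, ← Real.rpow_natCast (Λ ^ (-b')) 2,
      ← Real.rpow_mul hL.le]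
    congr 1
    · norm_num
    · congr 1; push_cast; ring
  have e2 : √X.D ^ 2 = X.D := Real.sq_sqrt hD.le
  have e3 : (4 * Λ ^ a) ^ m = 4 ^ m * Λ ^ (a * m) := by
    rw [mul_pow, ← Real.rpow_natCast (Λ ^ a) m, ← Real.rpow_mul hL.le]
  have hψ : 0 ≤ ∫ y : Euc m, w0.psi y := integral_nonneg fun y => w0.psi_nonneg y
  have hMd : 0 ≤ Md m := (Md_pos (by lia)).le
  have h1am : 1 ≤ Λ ^ (a * m) := Real.one_le_rpow hΛ (by positivity)
  set Ψ := ∫ y : Euc m, w0.psi y with hΨ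
  rw [e1, e2, e3]
  have e4 : PX (-1) (a * m - 2 * b') Λ = X.D * (Λ ^ (-(2 * b')) * Λ ^ (a * m)) := by
    rw [Par_504.rpow_eq_X hL, Par_504.rpow_eq_X hL]
    conv_rhs => rw [show X.D = PX (-1) 0 Λ from Par_504.D_eq_X hD]
    rw [Par_504.X_mul, Par_504.X_mul]
    congr 1 <;> ring
  rw [e4]
  have hb2 : 0 ≤ Λ ^ (-(2 * b')) := (Real.rpow_pos_of_pos hL _).le
  have h2 : 4 * Md m + (m - 1) / 2 * (Ψ * (m * (1 + m / 2) * (4 ^ m * Λ ^ (a * m)))) ≤
      (4 * Md m + (m - 1) / 2 * (Ψ * (m * (1 + m / 2) * 4 ^ m))) * Λ ^ (a * m) := by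
    have h3 : 4 * Md m ≤ 4 * Md m * Λ ^ (a * m) := le_mul_of_one_le_right (by positivity) h1am
    calc _ = 4 * Md m + (m - 1) / 2 * (Ψ * (m * (1 + m / 2) * 4 ^ m)) * Λ ^ (a * m) := by ring
      _ ≤ 4 * Md m * Λ ^ (a * m) +
          (m - 1) / 2 * (Ψ * (m * (1 + m / 2) * 4 ^ m)) * Λ ^ (a * m) := by linarith
      _ = _ := by ring
  have h4 : 0 ≤ X.D * C * (Real.exp 10 * Λ ^ (-(2 * b'))) := by positivity
  have h5 := mul_le_mul_of_nonneg_left h2 h4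
  have h6 : 0 ≤ (4 * Md m + (m - 1) / 2 * (Ψ * (m * (1 + m / 2) * 4 ^ m))) := by
    have : 0 ≤ (m:ℝ) - 1 := by linarith
    positivity
  have h7 : 0 ≤ X.D * C * (Real.exp 10 * Λ ^ (-(2 * b'))) *
      ((4 * Md m + (m - 1) / 2 * (Ψ * (m * (1 + m / 2) * 4 ^ m))) * Λ ^ (a * m)) := by positivity
  have hδ0 := hok.δA0
  have h8 : 2 * (7 * X.δ) ≤ 14 := by linarith
  have h9 := mul_le_mul h8 h5 (by
    have : 0 ≤ (m:ℝ) - 1 := by linarith
    positivity) (by norm_num : (0:ℝ) ≤ 14)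
  refine h9.trans (le_of_eq ?_)
  unfold cP
  rw [← hΨ]
  ring

end Crest.Agent.R234.Fld_387
end
end

-- ▼ part R234/Fldc4_387

/-!
# Row 234 (helper387), NBASE-FLD, part 4: `Da.OkAS` and `Da.AtAS` for a contact situation

`exists_at`: bottom `√D Λ^b e^-4`, top `Λ^(-b') e^5`; `D₀ = cD Λ^-(2m+3)a D`, `P x T ≤ D₀ / (4 A)`.
-/

set_option autoImplicit false

open MeasureTheory Set Function Filter Topology Metric
open Crest.GeometryTopology.Submanifold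
open Crest.Agent.R234.Vf_884 Crest.Agent.R234.Ar_870 Crest.Agent.R234.Cy_870
open Crest.Agent.R234.Pot_425 Crest.Agent.R234.Avg_387 Crest.Agent.R234.Rep_387
open Crest.Agent.R234.Raw_387 Crest.Agent.R234.N0_309 Crest.Agent.R234.Asl_214
open Crest.Agent.R234.Core_809
open Crest.Agent.R234.N5_372 (eM)
open scoped ENNReal NNReal

noncomputable section

namespace Crest.Agent.R234.Fld_387

local notation "PX" => Crest.Agent.R234.Par_504.X

/-- bottom of the window -/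
def sB (b D : ℝ) : ℝ := √D * Lam D ^ b

/-- top of the window -/
def sT (b' D : ℝ) : ℝ := Lam D ^ (-b')

/-- the lower bound of the sharp radial energy -/
def D0f (m : ℕ) (cS a D : ℝ) : ℝ := cD m cS * (Lam D ^ (-((2 * m + 3) * a)) * D)

theorem D0f_pos {m : ℕ} (hm : 0 < m) {cS a D : ℝ} (hcS : 0 < cS) (hD : 0 < D) (hD1 : D < 1) :
    0 < D0f m cS a D := by
  have h1 := cD_pos hm hcS
  have h2 := Real.rpow_pos_of_pos (Lam_pos hD hD1) (-((2 * m + 3) * a))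
  unfold D0f
  positivity

/-- conditions on the exponents -/
structure Exps (m : ℕ) (a b b' : ℝ) : Prop where
  ha : 1 ≤ a
  hb : a + 1 ≤ b
  hb2 : 1 + a + 2 * ((2 * m + 3) * a) + 4 < 4 * (b - 1)
  hb' : a + 1 ≤ b'
  hb2' : (2 * m + 3) * a + a * m < 2 * b'

theorem exps (m : ℕ) {a : ℝ} (ha : 1 ≤ a) :
    Exps m a (100 * (m + 1) * (a + 1)) (100 * (m + 1) * (a + 1)) := by
  have hm : (0:ℝ) ≤ m := Nat.cast_nonneg m
  have h1 : 0 ≤ (m:ℝ) * a := by positivity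
  have e : 100 * ((m:ℝ) + 1) * (a + 1) = 100 * (m * a) + 100 * m + 100 * a + 100 := by ring
  refine ⟨ha, ?_, ?_, ?_, ?_⟩ <;> rw [e] <;> nlinarith

set_option maxHeartbeats 800000 in
/-- **`OkAS` and `AtAS` for a contact situation** -/
theorem exists_at (m n Q : ℕ) (hm : 2 ≤ m) {K cS a b b' : ℝ} (hK : 9 ≤ K) (hcS : 0 < cS)
    (hE : Exps m a b b') : ∃ A C l0 : ℝ, 1 ≤ A ∧ Real.exp ((m:ℝ) - 2) ≤ A ∧ 1 ≤ C ∧ 0 ≤ l0 ∧
      ∀ X : Sit m n a, Cls Q X.δ X.D X.π X.κ X.U X.Dd → 0 < X.D → X.D < 1 → 0 ≤ X.δ →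
      X.δ ≤ Lam X.D ^ (-1 : ℝ) → ∀ ds M : ℝ, 7 * Lam X.D ^ (-a) ≤ ds → 7 * X.δ ≤ ds → ds ≤ 1 →
      Out X.S (Cy_870.cyl X.π X.κ 0 4 1) Q (tauOf a X.D) (hOf a X.D) (tOf a X.D)
        (lamOf cS a X.D) (blOf a X.D) (K * m / 2 * ds) M X.ε → l0 ≤ Real.log (Lam X.D) →
      (daOf X Q K cS ds).OkAS 4 (√X.D) X.δ (1 / 3) 4 12 w2 ∧
      0 < D0f m cS a X.D ∧ Real.log (sB b X.D) ≤ Real.log (sT b' X.D) ∧
      ∀ x ∈ X.Z, (daOf X Q K cS ds).AtAS A (D0f m cS a X.D) (Real.log (sB b X.D) - 4)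
          (Real.log (sT b' X.D) + 5) X.δ (√X.D) 12 (Real.exp (-Real.log (Lam X.D)))
          (Lam X.D ^ (2 : ℝ) * X.D) (fun _ => C * X.D) (fun _ => C) x ∧
        (daOf X Q K cS ds).P x (Real.log (sT b' X.D) + 5) ≤ D0f m cS a X.D / (4 * A) := by
  have hm0 : 0 < m := by lia
  have hC0 : 0 ≤ Ins_387.C0 m Q := Ins_387.C0_nonneg m Q
  obtain ⟨Ae, ce, hAe, hce, hce', hEB⟩ := Th_164.eb_av_In m Q hC0 (c0 := 1 / 3) (Cg := 4)
    (by norm_num) (by norm_num)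
  obtain ⟨C1, hC1, hTM⟩ := Shp_98.tb_mb_le m hC0
  obtain ⟨C2, hC2, hEN⟩ := Crs_173.energy m hC0
  have hMd : 0 ≤ Md m := (Md_pos hm0).le
  obtain ⟨Λ₁, hΛ₁, hHT⟩ := Shp_98.ht_num2 (a := a) (b := b) (c' := (2 * m + 3) * a)
    (cw := Real.exp (-4)) (by linarith [hE.hb2]) (Real.exp_pos _)
    (KB := 12) (M₀ := Md m) (C := C1) (c := cD m cS) (by norm_num) hMd (by linarith)
    (cD_pos hm0 hcS)
  set A : ℝ := max Ae (Real.exp ((m:ℝ) - 2)) with hA
  have hA1 : 1 ≤ A := hAe.trans (le_max_left _ _)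
  have hcD := cD_pos hm0 hcS
  obtain ⟨l0, hl00, hl0⟩ := exists_l0 ((ev_num m (a := a) (b := b) (b' := b')
    (c' := (2 * m + 3) * a) (A := Ae) (c := ce) (c₂ := cD m cS / (4 * A)) (cP m C2)
    hE.ha hE.hb hE.hb' hE.hb2' hce (by positivity)).and (eventually_ge_atTop Λ₁))
  refine ⟨A, C1, l0, hA1, le_max_right _ _, hC1, hl00, ?_⟩
  intro X hc hD hD1 hδ hδ1 ds M hds1 hds2 hds3 hO hl
  have hL := Lam_pos hD hD1
  obtain ⟨hN, hΛ1⟩ := hl0 _ hL hl
  have hM1 := hN.n1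
  have hsD : 0 < √X.D := Real.sqrt_pos.2 hD
  have hds0 : 0 < ds := lt_of_lt_of_le (by positivity) hds1
  have hok := okAS (K := K) (cS := cS) hm hc hD hD1 hδ hds0 hds2 hds3 hK
  have hs : √X.D = PX (-1 / 2) 0 (Lam X.D) := Par_504.sqrt_D_eq_X hD
  have hDX : X.D = PX (-1) 0 (Lam X.D) := Par_504.D_eq_X hD
  have hsB : sB b X.D = PX (-1 / 2) b (Lam X.D) := by
    unfold sB
    rw [hs, Par_504.rpow_eq_X hL, Par_504.X_mul]
    congr 1 <;> ring
  have hsT : sT b' X.D = PX 0 (-b') (Lam X.D) := by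
    unfold sT
    rw [Par_504.rpow_eq_X hL]
  have hbl : blOf a X.D = PX 0 (-a) (Lam X.D) := by
    unfold blOf
    rw [Par_504.rpow_eq_X hL]
  have ht : tOf a X.D = PX (-1 / 2) a (Lam X.D) := by
    unfold tOf
    rw [hs, Par_504.rpow_eq_X hL, Par_504.X_mul]
    congr 1 <;> ring
  have hτ : tauOf a X.D = √X.D * blOf a X.D / 4 := by unfold tauOf hOf blOf; ring
  have hsB0 : 0 < sB b X.D := by rw [hsB]; exact Par_504.X_pos _ _ _
  have hsT0 : 0 < sT b' X.D := by rw [hsT]; exact Par_504.X_pos _ _ _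
  have hbl0 : 0 < blOf a X.D := by rw [hbl]; exact Par_504.X_pos _ _ _
  have hs4 : √X.D ≤ 1 / 4 := by rw [hs]; exact hN.n5
  have hδ16 : X.δ ≤ ce := by
    refine hδ1.trans ?_
    rw [Par_504.rpow_eq_X hL]
    exact hN.n11
  have hDc : √X.D ^ 2 ≤ ce := by rw [Real.sq_sqrt hD.le, hDX]; exact hN.n10
  have hen : ∫ p, tl X.π p.2 ∂X.V ≤ ce := by
    refine hc.en.trans ?_
    rw [Real.sq_sqrt hD.le] at hDc
    exact hDc
  have hIn := Ins_387.in_of_cls hc (by lia) hD1 hδ X.S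
  have hD0 : 0 < D0f m cS a X.D := D0f_pos hm0 hcS hD hD1
  have hD0X : D0f m cS a X.D = cD m cS * PX (-1) (-((2 * m + 3) * a)) (Lam X.D) := by
    have h1 : Lam X.D ^ (-((2 * m + 3) * a)) * X.D =
        PX 0 (-((2 * m + 3) * a)) (Lam X.D) * PX (-1) 0 (Lam X.D) := by
      rw [Par_504.rpow_eq_X hL, ← hDX]
    unfold D0f
    rw [h1, Par_504.X_mul]
    congr 2 <;> ring
  have eT : Real.exp (Real.log (sT b' X.D) + 5) = Real.exp 5 * sT b' X.D := by
    rw [Real.exp_add, Real.exp_log hsT0]; ring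
  have eB : Real.exp (Real.log (sB b X.D) - 4) = Real.exp (-4) * sB b X.D := by
    rw [sub_eq_add_neg, Real.exp_add, Real.exp_log hsB0]; ring
  have hT4 : Real.exp 5 * sT b' X.D ≤ 1 / 4 := by rw [hsT]; exact hN.n4
  have hBT : Real.log (sB b X.D) ≤ Real.log (sT b' X.D) := by
    refine Real.log_le_log hsB0 ?_
    rw [hsB, hsT]
    exact hN.n8
  refine ⟨hok, hD0, hBT, ?_⟩
  rintro x ⟨x, hx, rfl⟩
  have hnrm := hO.nrm x hx
  -- the window
  have hbl1 : blOf a X.D ≤ 1 := by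
    have := hN.n2
    rw [hbl]
    have := Par_504.X_nonneg 0 (-a) (Lam X.D)
    linarith
  have h3τ : 3 * tauOf a X.D ≤ 1 / 2 * blOf a X.D := by
    rw [hτ]
    have := mul_le_mul_of_nonneg_right hs4 hbl0.le
    linarith
  have hwin : ‖(x : Euc m)‖ + Real.exp (Real.log (sT b' X.D) + 5) + 2 * tauOf a X.D ≤ 1 := by
    have h3 : Real.exp 5 * sT b' X.D ≤ 1 / 2 * blOf a X.D := by rw [hsT, hbl]; exact hN.n3
    rw [eT]
    linarith
  have hτ0 : 0 < tauOf a X.D := tauOf_pos hD hD1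
  have hx1 : ‖(x : Euc m)‖ ≤ 1 := by
    have := Real.exp_pos (Real.log (sT b' X.D) + 5)
    linarith
  have hτ1 : tauOf a X.D ≤ 1 := by linarith
  have hxτ : ∀ y ∈ closedBall (x : Euc m) (tauOf a X.D), y ∈ closedBall (0 : Euc m) 3 := by
    intro y hy
    rw [mem_closedBall_iff_norm] at hy
    rw [mem_closedBall_zero_iff]
    have h1 : ‖y‖ ≤ ‖y - (x : Euc m)‖ + ‖(x : Euc m)‖ := by
      have := norm_add_le (y - (x : Euc m)) (x : Euc m)
      simpa using this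
    linarith
  have hbot : ∀ l, Real.log (sB b X.D) - 4 ≤ l → (Ae + 1) * √X.D ≤ Real.exp l := by
    intro l hl
    refine le_trans ?_ (Real.exp_le_exp.2 hl)
    rw [eB, hsB]
    have h1 := mul_le_mul_of_nonneg_left hN.n7 (Real.exp_pos (-4)).le
    have h2 : Real.exp (-4) * ((Ae + 1) * Real.exp 4 * PX (-1 / 2) 0 (Lam X.D)) =
        (Ae + 1) * PX (-1 / 2) 0 (Lam X.D) * (Real.exp (-4) * Real.exp 4) := by ring
    rw [h2, ← Real.exp_add, neg_add_cancel, Real.exp_zero, mul_one, ← hs] at h1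
    exact h1
  have hbot1 : ∀ l, Real.log (sB b X.D) - 4 ≤ l → √X.D ≤ Real.exp l := by
    intro l hl
    have h1 := hbot l hl
    have h2 : 0 ≤ Ae * √X.D := by positivity
    linarith
  have hbot2 : ∀ l, Real.log (sB b X.D) - 4 ≤ l → Ae * √X.D ≤ Real.exp l := by
    intro l hl
    have h1 := hbot l hl
    linarith
  have htop : ∀ l, l ≤ Real.log (sT b' X.D) + 5 → Real.exp l ≤ 1 / 4 := by
    intro l hl
    refine (Real.exp_le_exp.2 hl).trans ?_
    rw [eT]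
    exact hT4
  have hB5 : Real.log (8 * tOf a X.D) + 1 ≤ Real.log (sB b X.D) - 4 := by
    have ht0 : 0 < tOf a X.D := by rw [ht]; exact Par_504.X_pos _ _ _
    have h1 : Real.log (8 * Real.exp 5 * tOf a X.D) ≤ Real.log (sB b X.D) := by
      refine Real.log_le_log (by positivity) ?_
      rw [ht, hsB]
      exact hN.n6
    have h2 : Real.log (8 * Real.exp 5 * tOf a X.D) = Real.log (8 * tOf a X.D) + 5 := by
      rw [show 8 * Real.exp 5 * tOf a X.D = 8 * tOf a X.D * Real.exp 5 by ring,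
        Real.log_mul (by positivity) (Real.exp_pos 5).ne', Real.log_exp]
    linarith
  have hhpos : 0 < hOf a X.D := by
    have h1 : tauOf a X.D = hOf a X.D / 4 := rfl
    linarith
  have hΛ1' : 1 ≤ Lam X.D := by linarith
  have ha0 : (0:ℝ) ≤ a := by linarith [hE.ha]
  have hht : hOf a X.D ≤ tOf a X.D := by
    unfold hOf tOf
    refine mul_le_mul_of_nonneg_left ?_ hsD.le
    exact Real.rpow_le_rpow_of_exponent_le hΛ1' (by linarith)
  -- the decaying error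
  have hPT : (daOf X Q K cS ds).P (x : Euc m) (Real.log (sT b' X.D) + 5) ≤
      D0f m cS a X.D / (4 * A) := by
    have h1 := P_le (b' := b') (by linarith : 0 ≤ C2) hok hD hD1 (by
        have : ce ≤ 1 := hce'.trans (by norm_num)
        linarith) ha0 hΛ1'
      (fun y hy r hr h1 h2 => (hEN hIn.cyl hIn.ub hδ (hδ16.trans hce') y hy r hr h1 h2).1)
      hx1 hs4 hτ1 hT4 (by
        have h2 := hbot1 (Real.log (sT b' X.D) + 5) (by linarith)
        rw [eT] at h2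
        exact h2)
    refine h1.trans (hN.n9.trans (le_of_eq ?_))
    rw [hD0X]
    ring
  have hPT2 : D0f m cS a X.D / (4 * A) ≤ D0f m cS a X.D :=
    div_le_self hD0.le (by linarith)
  refine ⟨{
    hT := hwin
    tall := ?_
    hB := fun l _ hl => (B_nonneg hO hx (by
      have h1 := Real.exp_le_exp.2 hl
      linarith)).2
    hEe := ?_
    PT := hPT.trans hPT2
    htM := fun l _ => by
      have : 0 ≤ C1 := by linarith
      positivity
    htb := fun l hl y hy => by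
      have h1 := (hTM hIn.cyl hIn.ub hδ (hδ16.trans hce') y (hxτ y hy) l (hbot1 l hl.1)
        (htop l hl.2)).1
      rw [Real.sq_sqrt hD.le] at h1
      exact h1
    hmb := fun l hl y hy => (hTM hIn.cyl hIn.ub hδ (hδ16.trans hce') y (hxτ y hy) l
      (hbot1 l hl.1) (htop l hl.2)).2
    ht := ?_ }, hPT⟩
  · -- tall
    have h1 := Us_tall hok hO hcS.le hhpos hht hx hwin (a₀ := Real.log (sB b X.D) - 4)
      (by linarith) hB5
    refine le_trans ?_ h1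
    have h2 := Dt_eq m (a := a) (cS := cS) hD hD1
    have e1 : D0f m cS a X.D = 7 * Lam X.D ^ (-a) *
        Dt m (hOf a X.D) (tOf a X.D) (lamOf cS a X.D) := by rw [h2]; rfl
    rw [e1]
    refine mul_le_mul_of_nonneg_right hds1 ?_
    have hlam : 0 ≤ lamOf cS a X.D := mul_nonneg hcS.le (sq_nonneg _)
    unfold Dt
    positivity
  · -- eb
    intro l hl1 hl2
    have hl0 : l ≤ 0 := by
      have h1 := htop l (by linarith)
      by_contra hcon
      push Not at hcon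
      have := Real.one_lt_exp_iff.2 hcon
      linarith
    have h1 := hEB hIn hδ16 hDc hen (g := w0.θ) (g1 := w0.θ') hok.prof.k0
      (fun t _ => w0.nonneg t) (fun t ht => (w0_up ht).1) (fun t h0 h1 => (w0_low h0 h1).1)
      (d := dd m (tauOf a X.D)) (τ := tauOf a X.D) (cw_dd hτ0) (x : Euc m) (by linarith) l hl0
      (hbot2 l hl1)
    have hr := hok.raw hwin
    have h2 := hr.e0 (l + 1) hl2
    have h3 : (daOf X Q K cS ds).E (x : Euc m) l ≤ Ae * (daOf X Q K cS ds).e (x : Euc m) (l + 1) :=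
      (le_abs_self _).trans h1
    exact h3.trans (mul_le_mul_of_nonneg_right (le_max_left _ _) h2)
  · -- the well error
    intro q hq l hl
    have h1 : ∫ z, dd m (daOf X Q K cS ds).τ z = Md m := integral_dd hok.τ0
    rw [h1]
    refine hHT X.D hD hΛ1 X.δ ds (D0f m cS a X.D) q l hδ (by
        have : ce ≤ 1 := hce'.trans (by norm_num)
        linarith) hds1 hq le_rfl ?_
    refine le_trans ?_ (Real.exp_le_exp.2 hl.1)
    rw [eB]
    exact le_rfl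

end Crest.Agent.R234.Fld_387
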