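import Crest.Agent.R234.Well3_761
import Crest.Agent.R234.Vit1_534
import Crest.Agent.R234.Well5_761
import Mathlib
import Crest.Agent.R234.Cy4_870
import Crest.Agent.R234.Cy6_870
import Crest.Agent.R234.Wi4_870
import Crest.Agent.R234.N5a_372
import Crest.Agent.R234.Asl8_214

-- ▼ part R234/We4_822
section

/-!
Row 234 (helper822), VF-CROSS part 2: the crossing lemma over the abstract height flow of
helper761 (`nu`), and the content of the crossing set (with `proj_le` of helper534).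
-/

set_option autoImplicit false
set_option linter.unusedSectionVars false

open Set Filter Topology MeasureTheory Metric
open scoped ContDiff InnerProductSpace ENNReal NNReal
open Crest.Agent.R234.Well_761

noncomputable section

namespace Crest.Agent.R234.We_822

/-- from a change between two scales to one scale with much energy -/
lemma exists_scale_add {nu φ : ℝ → ℝ} {l1 l2 A ε c : ℝ} (h12 : l1 ≤ l2) (hA : 0 < A) (hε : 0 ≤ ε)
    (hd : ∀ l ∈ Icc l1 l2, ∃ d, HasDerivAt nu d l ∧ |d| ≤ A * φ l + ε)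
    (hc : 0 < c) (hnu : c ≤ |nu l2 - nu l1|) (hεc : ε * (l2 - l1) ≤ c / 4) :
    ∃ l ∈ Icc l1 l2, c / (2 * A * (1 + (l2 - l1))) ≤ φ l := by
  by_contra hcon
  push Not at hcon
  set T := l2 - l1 with hT
  have hT0 : 0 ≤ T := by linarith
  have hb : ∀ l ∈ Icc l1 l2, ∃ d, HasDerivAt nu d l ∧ ‖d‖ ≤ c / (2 * (1 + T)) + ε := by
    intro l hl
    obtain ⟨d, h1, h2⟩ := hd l hl
    refine ⟨d, h1, ?_⟩
    have h3 := (hcon l hl).le
    have h4 : A * φ l ≤ c / (2 * (1 + T)) := by
      have h5 := mul_le_mul_of_nonneg_left h3 hA.le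
      refine h5.trans (le_of_eq ?_)
      field_simp
    rw [Real.norm_eq_abs]
    linarith
  have hd1 : ∀ l ∈ Icc l1 l2, HasDerivWithinAt nu (deriv nu l) (Icc l1 l2) l := by
    intro l hl
    obtain ⟨d, h1, -⟩ := hb l hl
    rw [h1.deriv]
    exact h1.hasDerivWithinAt
  have hd2 : ∀ l ∈ Icc l1 l2, ‖deriv nu l‖ ≤ c / (2 * (1 + T)) + ε := by
    intro l hl
    obtain ⟨d, h1, h2⟩ := hb l hl
    rw [h1.deriv]
    exact h2
  have h1 := (convex_Icc l1 l2).norm_image_sub_le_of_norm_hasDerivWithin_le hd1 hd2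
    (left_mem_Icc.2 h12) (right_mem_Icc.2 h12)
  rw [Real.norm_eq_abs, Real.norm_eq_abs, ← hT, abs_of_nonneg hT0, add_mul] at h1
  have h2 : c / (2 * (1 + T)) * T ≤ c / 2 := by
    rw [div_mul_eq_mul_div, div_le_div_iff₀ (by positivity) two_pos]
    nlinarith
  linarith

variable {H : Type*} [PseudoMetricSpace H] [MeasurableSpace H] [OpensMeasurableSpace H]
variable {W : Type*} [NormedAddCommGroup W] [InnerProductSpace ℝ W] [MeasurableSpace W]
  [OpensMeasurableSpace W]

/-- the test bump `top - well` -/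
def topF (p : W) (q : ℝ) (y : W) : ℝ := wellTop q - well p q y

lemma topF_nonneg (p : W) (q : ℝ) (y : W) : 0 ≤ topF p q y := sub_nonneg.2 (well_le_top p q y)

lemma topF_le (p : W) (q : ℝ) (y : W) : topF p q y ≤ q ^ 2 / 32 := by
  have h1 := well_nonneg p q y
  have h2 := wellTop_le q
  unfold topF
  linarith

lemma topF_abs_le (p : W) (q : ℝ) (y : W) : |topF p q y| ≤ q ^ 2 := by
  rw [abs_of_nonneg (topF_nonneg p q y)]
  have := topF_le p q y
  nlinarith [sq_nonneg q]

lemma topF_eq_zero {p : W} {q : ℝ} (hq : 0 < q) {y : W} (hy : y ∉ ball p (q / 4)) :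
    topF p q y = 0 := by
  unfold topF
  rw [well_eq_top hq, sub_self]
  rw [mem_ball, dist_eq_norm, not_lt] at hy
  exact hy

lemma topF_ge {p : W} {q : ℝ} (hq : 0 < q) {y : W} (hy : y ∈ closedBall p (q / 16)) :
    q ^ 2 * (3 / 512) ≤ topF p q y := by
  rw [mem_closedBall, dist_eq_norm] at hy
  exact top_sub_well_ge hq hy

lemma topF_measurable (p : W) (q : ℝ) : Measurable (topF p q) :=
  (continuous_const.sub (well_contDiff p q).continuous).measurable

variable {m : ℕ} {κ : ℝ → ℝ} {Kκ cκ : ℝ} {mu en : Measure (H × W)}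


/-- heights away from the wells -/
def away (C : Set W) (r : ℝ) : Set W := {y | ∀ c ∈ C, r ≤ ‖y - c‖}

lemma isClosed_away (C : Set W) (r : ℝ) : IsClosed (away C r) := by
  have : away C r = ⋂ c ∈ C, {y | r ≤ ‖y - c‖} := by
    ext y; simp [away]
  rw [this]
  exact isClosed_biInter fun c _ =>
    isClosed_le continuous_const ((continuous_id.sub continuous_const).norm)

lemma measurableSet_away (C : Set W) (r : ℝ) : MeasurableSet (away C r) :=
  (isClosed_away C r).measurableSet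

lemma ball_subset_away {C : Set W} {q : ℝ} {p : W} (hp : p ∈ away C q) :
    ball p (q / 4) ⊆ away C (3 * q / 4) := by
  intro y hy c hc
  rw [mem_ball, dist_eq_norm] at hy
  have h1 := hp c hc
  have h2 : ‖p - c‖ ≤ ‖y - p‖ + ‖y - c‖ := by
    have : p - c = (y - c) - (y - p) := by abel
    rw [this, add_comm]
    exact norm_sub_le _ _
  linarith

/-- the crossing set: base points over `closedBall x₀ s` of support points with heights at
distance at least `q` from the wells -/
def crossSet (T : Set (H × W)) (x₀ : H) (s : ℝ) (C : Set W) (q : ℝ) : Set H :=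
  {x | x ∈ closedBall x₀ s ∧ ∃ p, (x, p) ∈ T ∧ p ∈ away C q}

/-- the constant of the crossing lemma -/
def cX (m : ℕ) (cκ c0 K : ℝ) : ℝ := 3 / 1024 * cκ * (c0 / 4 ^ m) / (34 * K)


end Crest.Agent.R234.We_822
end
end

-- ▼ part R234/We6_822
section

/-!
Row 234 (helper822), VF-CROSS part 4: the mass at heights away from the wells is controlled by the
well height `nu (wells C q)`, and N7 in terms of the well height.
-/

set_option autoImplicit false
set_option linter.unusedSectionVars false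

open Set Filter Topology MeasureTheory Metric
open scoped ContDiff InnerProductSpace ENNReal NNReal
open Crest.Agent.R234.Well_761

noncomputable section

namespace Crest.Agent.R234.We_822

variable {H : Type*} [PseudoMetricSpace H] [MeasurableSpace H] [OpensMeasurableSpace H]
variable {W : Type*} [NormedAddCommGroup W] [InnerProductSpace ℝ W] [MeasurableSpace W]
  [OpensMeasurableSpace W]

lemma well_ge' {c : W} {q : ℝ} (hq : 0 < q) {y : W} (hy : 3 * q / 32 ≤ ‖y - c‖) :
    9 / 2048 * q ^ 2 ≤ well c q y := by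
  have h : 9 / 1024 ≤ ‖y - c‖ ^ 2 / q ^ 2 := by
    rw [le_div_iff₀ (by positivity)]
    nlinarith [norm_nonneg (y - c)]
  have h2 := cut_mono h
  rw [cut_eq_id (by norm_num)] at h2
  unfold well
  nlinarith [sq_nonneg q]

lemma wells_ge' {C : Finset W} {q : ℝ} (hq : 0 < q) (h : Well_761.Sep C q) {y : W}
    (hy : y ∈ away (C : Set W) (3 * q / 32)) : 9 / 2048 * q ^ 2 ≤ wells C q y := by
  rcases wells_cases hq h y with ⟨c, hc, -, h1, -⟩ | ⟨-, h1, -⟩
  · rw [h1]; exact well_ge' hq (hy c hc)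
  · rw [h1]
    have := wellTop_ge q
    nlinarith [sq_nonneg q]

variable {m : ℕ} {κ : ℝ → ℝ} {Kκ cκ : ℝ} {mu en : Measure (H × W)}

/-- the mass at heights away from the wells is controlled by the well height -/
theorem mass_away_le (hκ : Ker κ Kκ cκ) {x₀ : H} {l : ℝ} {C : Finset W} {q : ℝ} (hq : 0 < q)
    (hC : Well_761.Sep C q) (hfin : mu (cyl x₀ (Real.exp l) univ) ≠ ⊤) :
    mu (cyl x₀ (Real.exp l / 2) (away (C : Set W) (3 * q / 32))) ≤
      ENNReal.ofReal (2048 / (9 * cκ * q ^ 2) * Real.exp (m * l) *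
        nu m κ mu x₀ l (wells C q)) := by
  set B := cyl x₀ (Real.exp l / 2) (away (C : Set W) (3 * q / 32)) with hB
  have hBm : MeasurableSet B := cyl_meas _ _ (measurableSet_away _ _)
  have hexp := Real.exp_pos l
  have hsub : B ⊆ cyl x₀ (Real.exp l) univ :=
    prod_mono (closedBall_subset_closedBall (by linarith)) (subset_univ _)
  have hBfin : mu B ≠ ⊤ := ne_top_of_le_ne_top hfin (measure_mono hsub)
  have hwm : Measurable (wells C q) := (wells_contDiff C q).continuous.measurable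
  have hwb : ∀ y, |wells C q y| ≤ q ^ 2 := fun y => by
    rw [abs_of_nonneg (wells_nonneg hq hC y)]
    have h1 := wells_le_top (C := C) (q := q) y
    have h2 := wellTop_le q
    nlinarith [sq_nonneg q]
  have hcκ := hκ.cpos
  have h1 : ∫ z in B, (cκ * (9 / 2048 * q ^ 2)) ∂mu ≤
      ∫ z, κ (dist z.1 x₀ * Real.exp (-l)) * wells C q z.2 ∂mu := by
    rw [← integral_indicator hBm]
    refine integral_mono ((integrableOn_const hBfin).integrable_indicator hBm)
      (kerF_integrable hκ hwm hwb hfin) fun z => ?_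
    simp only
    by_cases hz : z ∈ B
    · rw [indicator_of_mem hz]
      have h2 : dist z.1 x₀ * Real.exp (-l) ≤ 1 / 2 := by
        have h3 : dist z.1 x₀ ≤ Real.exp l / 2 := mem_closedBall.1 hz.1
        rw [Real.exp_neg, ← div_eq_mul_inv, div_le_iff₀ hexp]
        linarith
      exact mul_le_mul (hκ.ge _ (by positivity) h2) (wells_ge' hq hC hz.2) (by positivity)
        (hκ.nonneg _)
    · rw [indicator_of_notMem hz]
      exact mul_nonneg (hκ.nonneg _) (wells_nonneg hq hC _)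
  rw [setIntegral_const, smul_eq_mul] at h1
  have h3 : Real.exp (m * l) * nu m κ mu x₀ l (wells C q) =
      ∫ z, κ (dist z.1 x₀ * Real.exp (-l)) * wells C q z.2 ∂mu := by
    unfold nu
    rw [← mul_assoc, ← Real.exp_add]
    simp
  rw [← ENNReal.ofReal_toReal hBfin]
  refine ENNReal.ofReal_le_ofReal ?_
  rw [mul_assoc, h3, div_mul_eq_mul_div, le_div_iff₀ (by positivity)]
  have h4 : mu.real B = (mu B).toReal := rfl
  rw [← h4]
  nlinarith


end Crest.Agent.R234.We_822
end
end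

-- ▼ part R234/We7_822
section

/-!
Row 234 (helper822), VF-CROSS part 5: N7 from the structures `Flow` and `Geo` of helper761.
-/

set_option autoImplicit false
set_option linter.unusedSectionVars false

open Set Filter Topology MeasureTheory Metric
open scoped ContDiff InnerProductSpace ENNReal NNReal
open Crest.Agent.R234.Well_761

noncomputable section

namespace Crest.Agent.R234.We_822

variable {H : Type*} [PseudoMetricSpace H] [MeasurableSpace H] [OpensMeasurableSpace H]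
variable {W : Type*} [NormedAddCommGroup W] [InnerProductSpace ℝ W] [MeasurableSpace W]
  [BorelSpace W]

variable {m : ℕ} {κ : ℝ → ℝ} {Kκ cκ : ℝ} {mu en : Measure (H × W)}
  {R : H → ℝ → ℝ} {er : H → ℝ → ℝ → ℝ} {K : ℝ} {x₀ : H} {ρ₀ : ℝ}


/-- the drift of the bump at heights near `p` only sees the energy at heights near `p`. -/
theorem flow_topF (hfl : Flow m κ mu en R er K x₀ ρ₀) {x : H} {l q : ℝ} (hq : 0 < q)
    (hdom : dist x x₀ + Real.exp l ≤ ρ₀) (p : W) :
    ∃ d, HasDerivAt (fun l => nu m κ mu x l (topF p q)) d l ∧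
      |d| ≤ K * (Real.exp (2 * l) + q ^ 2) * Real.exp (-(m * l)) *
        (en (cyl x (Real.exp l) (ball p (q / 4)))).toReal + er x l q := by
  obtain ⟨d, h1, -, h2⟩ := hfl.flow x l hdom _ _ _ q hq (test_bump p hq)
  obtain ⟨d', h3, -, h4⟩ := hfl.flow x l hdom _ _ _ q hq (test_bump p hq).neg
  have hz : ∀ y ∉ ball p (q / 4), q / 4 ≤ ‖y - p‖ := by
    intro y hy
    rw [mem_ball, dist_eq_norm, not_lt] at hy
    exact hy
  have h5 := h2 (ball p (q / 4)) measurableSet_ball (fun y hy => ⟨bump_eq_zero hq (hz y hy), by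
    intro v
    rw [wellH_eq_zero hq (hz y hy)]
    simp⟩)
  have h6 := h4 (ball p (q / 4)) measurableSet_ball (fun y hy => ⟨by
    rw [bump_eq_zero hq (hz y hy), neg_zero], by
    intro v
    rw [wellH_eq_zero hq (hz y hy)]
    simp⟩)
  have h7 : d' = -d := by
    have h8 : HasDerivAt (fun l => nu m κ mu x l fun y => -bump p q y) (-d) l := by
      have h9 := h1.neg
      refine h9.congr_of_eventuallyEq (Eventually.of_forall fun l => ?_)
      simp only [nu_neg, Pi.neg_apply]
    exact h3.unique h8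
  refine ⟨d, h1, ?_⟩
  rw [abs_le]
  constructor
  · linarith
  · exact h5


end Crest.Agent.R234.We_822
end
end

-- ▼ part R234/We8_822
section

/-!
Row 234 (helper822), VF-CROSS part 6: N7 with a conditional error (for the class AS): the error of
the flow has to be small only as long as the energies at all scales are small.  The base ball has
radius `s`, the scales of the crossing lemma are `[q / 32, s']`.
-/

set_option autoImplicit false
set_option linter.unusedSectionVars false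

open Set Filter Topology MeasureTheory Metric
open scoped ContDiff InnerProductSpace ENNReal NNReal
open Crest.Agent.R234.Well_761

noncomputable section

namespace Crest.Agent.R234.We_822

variable {H : Type*} [PseudoMetricSpace H] [MeasurableSpace H] [OpensMeasurableSpace H]
variable {W : Type*} [NormedAddCommGroup W] [InnerProductSpace ℝ W] [MeasurableSpace W]
  [OpensMeasurableSpace W]

variable {m : ℕ} {κ : ℝ → ℝ} {Kκ cκ : ℝ} {mu en : Measure (H × W)}

/-- the scaled energy over the ball `B(x, e^l)` -/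
def enS (m : ℕ) (en : Measure (H × W)) (x : H) (l : ℝ) : ℝ :=
  Real.exp ((2 - m) * l) * (en (cyl x (Real.exp l) univ)).toReal


/-- **crossing lemma, conditional error**: a support point `(x, p)` with the lower density bound
whose neighbourhood of heights carries little mass at scale `s` sees, at one scale `ρ` between
`q / 4` and `s`, the tilt energy `≥ κ₀ ρ^{m-2}`, `κ₀ = cX q² / (1 + log (4 s / q))`. -/
theorem crossing_univ (hκ : Ker κ Kκ cκ) {x : H} {p : W} {q s K c0 c1 er : ℝ} (hq : 0 < q)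
    (hqs : q / 4 ≤ s) (hK : 0 < K) (hc0 : 0 < c0) (hm : 2 ≤ m) (hc10 : 0 ≤ c1)
    (hfin : mu (cyl x s univ) ≠ ⊤)
    (hlow : ENNReal.ofReal (c0 * (q / 16) ^ m) ≤ mu (cyl x (q / 16) (closedBall p (q / 16))))
    (hup : mu (cyl x s (ball p (q / 4))) ≤ ENNReal.ofReal (c1 * s ^ m))
    (hc1 : Kκ * c1 / 32 ≤ 3 / 1024 * cκ * (c0 / 4 ^ m)) (her0 : 0 ≤ er)
    (hflow : (∀ l ∈ Icc (Real.log (q / 4)) (Real.log s), enS m en x l <
        cX m cκ c0 K * q ^ 2 / (1 + Real.log (4 * s / q))) →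
      ∀ l ∈ Icc (Real.log (q / 4)) (Real.log s),
      ∃ d, HasDerivAt (fun l => nu m κ mu x l (topF p q)) d l ∧
        |d| ≤ K * (Real.exp (2 * l) + q ^ 2) * Real.exp (-(m * l)) *
          (en (cyl x (Real.exp l) univ)).toReal + er)
    (her : er * Real.log (4 * s / q) ≤ 3 / 4096 * cκ * (c0 / 4 ^ m) * q ^ 2) :
    ∃ ρ, q / 4 ≤ ρ ∧ ρ ≤ s ∧
      cX m cκ c0 K * q ^ 2 / (1 + Real.log (4 * s / q)) * ρ ^ (m - 2) ≤
        (en (cyl x ρ univ)).toReal := by
  have hs0 : 0 < s := by linarith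
  set l1 := Real.log (q / 4) with hl1
  set l2 := Real.log s with hl2
  have he1 : Real.exp l1 = q / 4 := Real.exp_log (by positivity)
  have he2 : Real.exp l2 = s := Real.exp_log hs0
  have h12 : l1 ≤ l2 := Real.log_le_log (by positivity) hqs
  have hlog : l2 - l1 = Real.log (4 * s / q) := by
    rw [hl2, hl1, ← Real.log_div hs0.ne' (by positivity)]
    congr 1
    field_simp
  set b := 3 / 512 * cκ * (c0 / 4 ^ m) * q ^ 2 with hb
  have hcκ := hκ.cpos
  have hbpos : 0 < b := by positivity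
  set κ₀ := cX m cκ c0 K * q ^ 2 / (1 + Real.log (4 * s / q)) with hκ₀
  -- bottom
  have hbot : b ≤ nu m κ mu x l1 (topF p q) := by
    have hf1 : mu (cyl x (Real.exp l1) univ) ≠ ⊤ := by
      refine ne_top_of_le_ne_top hfin (measure_mono (prod_mono ?_ le_rfl))
      rw [he1]
      exact closedBall_subset_closedBall hqs
    have h1 := nu_ge (m := m) hκ (x := x) (x' := x) (p := p) (l := l1) (topF_measurable p q)
      (topF_abs_le p q) (topF_nonneg p q) (b := q ^ 2 * (3 / 512)) (by positivity)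
      (fun y hy => topF_ge hq (by
        rw [he1] at hy
        have : q / 4 / 4 = q / 16 := by ring
        rwa [this] at hy)) (by rw [dist_self]; positivity) (c0 := c0) hc0.le hf1 (by
        rw [he1]
        have : q / 4 / 4 = q / 16 := by ring
        rw [this]
        exact hlow)
    refine le_trans (le_of_eq ?_) h1
    rw [hb]
    ring
  -- top
  have htop : nu m κ mu x l2 (topF p q) ≤ b / 2 := by
    have hf2 : mu (cyl x (Real.exp l2) univ) ≠ ⊤ := by rw [he2]; exact hfin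
    have hBm : MeasurableSet (cyl x s (ball p (q / 4))) := cyl_meas _ _ measurableSet_ball
    have hBfin : mu (cyl x s (ball p (q / 4))) ≠ ⊤ :=
      ne_top_of_le_ne_top ENNReal.ofReal_ne_top hup
    have h1 : ∫ z, κ (dist z.1 x * Real.exp (-l2)) * topF p q z.2 ∂mu ≤
        ∫ z in cyl x s (ball p (q / 4)), (Kκ * (q ^ 2 / 32)) ∂mu := by
      rw [← integral_indicator hBm]
      refine integral_mono (kerF_integrable hκ (topF_measurable p q) (topF_abs_le p q) hf2) ?_ ?_
      · exact (integrableOn_const hBfin).integrable_indicator hBm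
      · intro z
        simp only
        by_cases hz : z ∈ cyl x s (ball p (q / 4))
        · rw [indicator_of_mem hz]
          exact mul_le_mul (hκ.le _) (topF_le p q _) (topF_nonneg p q _) hκ.Kpos.le
        · rw [indicator_of_notMem hz]
          by_cases hz2 : z.2 ∈ ball p (q / 4)
          · have hz1 : z ∉ cyl x (Real.exp l2) (univ : Set W) := by
              rw [he2]
              intro h
              exact hz ⟨h.1, hz2⟩
            rw [ker_zero hκ hz1, zero_mul]
          · rw [topF_eq_zero hq hz2, mul_zero]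
    rw [setIntegral_const, smul_eq_mul] at h1
    have h2 : (mu.real (cyl x s (ball p (q / 4)))) ≤ c1 * s ^ m := by
      have := ENNReal.toReal_mono ENNReal.ofReal_ne_top hup
      rwa [ENNReal.toReal_ofReal (by positivity)] at this
    have h3 : Real.exp (-(m * l2)) * s ^ m = 1 := by
      rw [← he2, ← Real.exp_nat_mul, ← Real.exp_add]
      simp
    unfold nu
    calc Real.exp (-(m * l2)) * ∫ z, κ (dist z.1 x * Real.exp (-l2)) * topF p q z.2 ∂mu
        ≤ Real.exp (-(m * l2)) * ((c1 * s ^ m) * (Kκ * (q ^ 2 / 32))) := by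
          refine mul_le_mul_of_nonneg_left (h1.trans ?_) (Real.exp_pos _).le
          have := hκ.Kpos
          exact mul_le_mul_of_nonneg_right h2 (by positivity)
      _ = (Real.exp (-(m * l2)) * s ^ m) * (Kκ * c1 / 32) * q ^ 2 := by ring
      _ = (Kκ * c1 / 32) * q ^ 2 := by rw [h3, one_mul]
      _ ≤ (3 / 1024 * cκ * (c0 / 4 ^ m)) * q ^ 2 := by gcongr
      _ = b / 2 := by rw [hb]; ring
  -- one scale
  have hkey : ∃ l ∈ Icc l1 l2, κ₀ ≤ enS m en x l := by
    by_contra hcon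
    push Not at hcon
    have hfl := hflow hcon
    have hdd : ∀ l ∈ Icc l1 l2, ∃ d, HasDerivAt (fun l => nu m κ mu x l (topF p q)) d l ∧
        |d| ≤ (17 * K) * enS m en x l + er := by
      intro l hl
      obtain ⟨d, h1, h2⟩ := hfl l hl
      refine ⟨d, h1, h2.trans ?_⟩
      have h3 : q ^ 2 ≤ 16 * Real.exp (2 * l) := by
        have h4 : q / 4 ≤ Real.exp l := by rw [← he1]; exact Real.exp_le_exp.2 hl.1
        have h5 : Real.exp (2 * l) = Real.exp l ^ 2 := by rw [← Real.exp_nat_mul]; norm_num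
        rw [h5]
        nlinarith
      have h4 : K * (Real.exp (2 * l) + q ^ 2) * Real.exp (-(m * l)) *
          (en (cyl x (Real.exp l) univ)).toReal ≤ 17 * K * enS m en x l := by
        have h5 : Real.exp ((2 - m) * l) = Real.exp (2 * l) * Real.exp (-(m * l)) := by
          rw [← Real.exp_add]; congr 1; ring
        unfold enS
        rw [h5]
        have h6 : K * (Real.exp (2 * l) + q ^ 2) ≤ 17 * K * Real.exp (2 * l) := by nlinarith
        calc K * (Real.exp (2 * l) + q ^ 2) * Real.exp (-(m * l)) *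
              (en (cyl x (Real.exp l) univ)).toReal
            ≤ (17 * K * Real.exp (2 * l)) * Real.exp (-(m * l)) *
              (en (cyl x (Real.exp l) univ)).toReal := by gcongr
          _ = _ := by ring
      linarith
    obtain ⟨l, hl, hge⟩ := exists_scale_add h12 (by positivity : 0 < 17 * K) her0 hdd
      (by positivity : 0 < b / 2) (by
        have : b / 2 ≤ nu m κ mu x l1 (topF p q) - nu m κ mu x l2 (topF p q) := by linarith
        refine this.trans ?_
        rw [abs_sub_comm]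
        exact le_abs_self _) (by
        rw [hlog]
        refine her.trans (le_of_eq ?_)
        rw [hb]; ring)
    have h1 : κ₀ = b / 2 / (2 * (17 * K) * (1 + (l2 - l1))) := by
      rw [hκ₀, hb, hlog]
      unfold cX
      field_simp
      ring
    rw [← h1] at hge
    exact absurd hge (not_le.2 (hcon l hl))
  obtain ⟨l, hl, hge⟩ := hkey
  refine ⟨Real.exp l, ?_, ?_, ?_⟩
  · rw [← he1]; exact Real.exp_le_exp.2 hl.1
  · rw [← he2]; exact Real.exp_le_exp.2 hl.2
  · have hpow : Real.exp ((2 - m) * l) * Real.exp l ^ (m - 2) = 1 := by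
      rw [← Real.exp_nat_mul, ← Real.exp_add, Nat.cast_sub hm]
      push_cast
      rw [show (2 - (m:ℝ)) * l + ((m:ℝ) - 2) * l = 0 by ring, Real.exp_zero]
    have h2 := mul_le_mul_of_nonneg_right hge (by positivity : 0 ≤ Real.exp l ^ (m - 2))
    refine h2.trans (le_of_eq ?_)
    unfold enS
    calc Real.exp ((2 - m) * l) * (en (cyl x (Real.exp l) univ)).toReal *
          Real.exp l ^ (m - 2)
        = (Real.exp ((2 - m) * l) * Real.exp l ^ (m - 2)) *
          (en (cyl x (Real.exp l) univ)).toReal := by ring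
      _ = _ := by rw [hpow, one_mul]

/-- **N7, general form**: content of the crossing set over `closedBall x₀ s`, scales up to `s'`,
in terms of the well height at scale `e^L ≥ 2 (s + s')`; conditional error. -/
theorem cross_content_univ {L : Type*} [NormedAddCommGroup L] [NormedSpace ℝ L]
    [FiniteDimensional ℝ L] [MeasurableSpace L] [BorelSpace L] [SecondCountableTopology H]
    (ν : Measure L) [ν.IsAddHaarMeasure] (hL : Module.finrank ℝ L + 2 = m)
    (hκ : Ker κ Kκ cκ) {x₀ : H} {C : Finset W} {T : Set (H × W)} {q s s' t K c0 er : ℝ}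
    (hq : 0 < q) (hC : Well_761.Sep C q) (hqs : q ≤ 32 * s')
    (hst : s + s' ≤ Real.exp t / 2) (hK : 0 < K) (hc0 : 0 < c0)
    (hfin : mu (cyl x₀ (Real.exp t) univ) ≠ ⊤) (hfinE : en (cyl x₀ (s + s') univ) ≠ ⊤)
    (hlow : ∀ x ∈ closedBall x₀ s, ∀ p, (x, p) ∈ T → p ∈ away (C : Set W) (q / 8) →
      ENNReal.ofReal (c0 * (q / 128) ^ m) ≤ mu (cyl x (q / 128) (closedBall p (q / 128))))
    (hup : nu m κ mu x₀ t (wells C q) ≤
      27 / 65536 * cκ ^ 2 * (c0 / 4 ^ m) / Kκ * (s' / Real.exp t) ^ m * q ^ 2) (her0 : 0 ≤ er)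
    (hflow : ∀ x ∈ closedBall x₀ s, ∀ p ∈ away (C : Set W) (q / 8),
      (∀ l ∈ Icc (Real.log (q / 32)) (Real.log s'), enS m en x l <
        cX m cκ c0 K * (q / 8) ^ 2 / (1 + Real.log (32 * s' / q))) →
      ∀ l ∈ Icc (Real.log (q / 32)) (Real.log s'),
      ∃ d, HasDerivAt (fun l => nu m κ mu x l (topF p (q / 8))) d l ∧
        |d| ≤ K * (Real.exp (2 * l) + (q / 8) ^ 2) * Real.exp (-(m * l)) *
          (en (cyl x (Real.exp l) univ)).toReal + er)
    (her : er * Real.log (32 * s' / q) ≤ 3 / 262144 * cκ * (c0 / 4 ^ m) * q ^ 2)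
    {Kπ : ℝ≥0} {π : H → L} (hπ : LipschitzWith Kπ π) :
    ENNReal.ofReal (cX m cκ c0 K * (q / 8) ^ 2 / (1 + Real.log (32 * s' / q))) *
        ν (π '' crossSet T x₀ s (C : Set W) (q / 8)) ≤
      ENNReal.ofReal ((5 * Kπ) ^ (m - 2)) * ν (ball 0 1) * en (cyl x₀ (s + s') univ) := by
  have hs'0 : 0 < s' := by linarith
  have hKκ := hκ.Kpos
  have hcκ := hκ.cpos
  have hm2 : 2 ≤ m := by omega
  have hmd : Module.finrank ℝ L = m - 2 := by omega
  have e1 : q / 8 / 4 = q / 32 := by ring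
  have e2 : q / 8 / 16 = q / 128 := by ring
  have e3 : 3 * (q / 8) / 4 = 3 * q / 32 := by ring
  have e4 : 4 * s' / (q / 8) = 32 * s' / q := by field_simp; ring
  have het := Real.exp_pos t
  set c1 : ℝ := 3 / 32 * cκ * (c0 / 4 ^ m) / Kκ with hc1
  have hmass := mass_away_le (m := m) hκ (l := t) hq hC hfin
  have e6 : Real.exp (m * t) = Real.exp t ^ m := by rw [← Real.exp_nat_mul]
  have hmass2 : mu (cyl x₀ (s + s') (away (C : Set W) (3 * q / 32))) ≤
      ENNReal.ofReal (c1 * s' ^ m) := by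
    refine (measure_mono (Set.prod_mono (closedBall_subset_closedBall hst) le_rfl)).trans
      (hmass.trans (ENNReal.ofReal_le_ofReal ?_))
    rw [e6]
    calc 2048 / (9 * cκ * q ^ 2) * Real.exp t ^ m * nu m κ mu x₀ t (wells C q)
        ≤ 2048 / (9 * cκ * q ^ 2) * Real.exp t ^ m *
          (27 / 65536 * cκ ^ 2 * (c0 / 4 ^ m) / Kκ * (s' / Real.exp t) ^ m * q ^ 2) := by gcongr
      _ = c1 * s' ^ m := by
          rw [hc1, div_pow]
          field_simp
          ring
  have hbm : ∀ x ∈ closedBall x₀ s, closedBall x s' ⊆ closedBall x₀ (s + s') := by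
    intro x hx
    refine closedBall_subset_closedBall' ?_
    rw [mem_closedBall] at hx
    linarith
  set κ₀ := cX m cκ c0 K * (q / 8) ^ 2 / (1 + Real.log (32 * s' / q)) with hκ₀
  have hlog0 : 0 ≤ Real.log (32 * s' / q) := by
    refine Real.log_nonneg ?_
    rw [le_div_iff₀ hq]
    linarith
  have hκ₀0 : 0 ≤ κ₀ := by
    rw [hκ₀]
    unfold cX
    positivity
  have key : ∀ x ∈ crossSet T x₀ s (C : Set W) (q / 8), ∃ ρ, q / 32 ≤ ρ ∧ ρ ≤ s' ∧
      ENNReal.ofReal κ₀ * ENNReal.ofReal (ρ ^ (m - 2)) ≤ en (cyl x ρ univ) := by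
    rintro x ⟨hx, p, hpT, hp⟩
    have hsub : cyl x s' (ball p (q / 8 / 4)) ⊆
        cyl x₀ (s + s') (away (C : Set W) (3 * q / 32)) := by
      have h3 := ball_subset_away hp
      rw [e3] at h3
      exact prod_mono (hbm x hx) h3
    have hfl := hflow x hx p hp
    rw [← e1] at hfl
    obtain ⟨ρ, h1, h2, h3⟩ := crossing_univ (m := m) (mu := mu) (en := en) hκ (x := x) (p := p)
      (q := q / 8) (s := s') (K := K) (c0 := c0) (c1 := c1) (er := er)
      (by positivity) (by linarith) hK hc0 hm2 (by positivity)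
      (ne_top_of_le_ne_top hfin (measure_mono (prod_mono ((hbm x hx).trans
        (closedBall_subset_closedBall (by linarith))) le_rfl)))
      (by rw [e2]; exact hlow x hx p hpT hp) ((measure_mono hsub).trans hmass2) (by
        rw [hc1]
        refine le_of_eq ?_
        field_simp
        ring) her0 (by rw [e4]; exact hfl) (by
        rw [e4]
        refine her.trans (le_of_eq ?_)
        ring)
    rw [e4] at h3
    rw [e1] at h1
    refine ⟨ρ, h1, h2, ?_⟩
    have hρ0 : 0 < ρ := by linarith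
    have hfin2 : en (cyl x ρ univ) ≠ ⊤ :=
      ne_top_of_le_ne_top hfinE (measure_mono (prod_mono
        ((closedBall_subset_closedBall h2).trans (hbm x hx)) (subset_univ _)))
    rw [← ENNReal.ofReal_mul hκ₀0]
    calc ENNReal.ofReal (κ₀ * ρ ^ (m - 2))
        ≤ ENNReal.ofReal ((en (cyl x ρ univ)).toReal) := ENNReal.ofReal_le_ofReal h3
      _ = en (cyl x ρ univ) := ENNReal.ofReal_toReal hfin2
  choose! ρ hρ1 hρ2 hρ3 using key
  have hf : ∀ x r, (en.map Prod.fst) (closedBall x r) = en (cyl x r univ) := by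
    intro x r
    rw [Measure.map_apply measurable_fst measurableSet_closedBall]
    congr 1
    ext z
    simp [cyl]
  have h := Vit_534.proj_le ν (en.map Prod.fst)
    (crossSet T x₀ s (C : Set W) (q / 8)) (closedBall x₀ (s + s')) ρ s' hρ2
    (fun x hx => by have := hρ1 x hx; linarith)
    (ENNReal.ofReal κ₀)
    (fun x hx => by rw [hf, hmd]; exact hρ3 x hx)
    (fun x hx => (closedBall_subset_closedBall (hρ2 x hx)).trans (hbm x hx.1)) Kπ π hπ
  rw [hf, hmd] at h
  exact h

/-- the same over `Flow`. -/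
theorem cross_content_flow' {W : Type*} [NormedAddCommGroup W] [InnerProductSpace ℝ W]
    [MeasurableSpace W] [BorelSpace W] {mu en : Measure (H × W)}
    {R : H → ℝ → ℝ} {er : H → ℝ → ℝ → ℝ} {K : ℝ} {x₀ : H} {ρ₀ : ℝ}
    {L : Type*} [NormedAddCommGroup L] [NormedSpace ℝ L]
    [FiniteDimensional ℝ L] [MeasurableSpace L] [BorelSpace L] [SecondCountableTopology H]
    (ν : Measure L) [ν.IsAddHaarMeasure] (hL : Module.finrank ℝ L + 2 = m)
    (hfl : Flow m κ mu en R er K x₀ ρ₀) (hK : 0 < K) (hκ : Ker κ Kκ cκ)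
    {T : Set (H × W)} {c0 : ℝ} (hc0 : 0 < c0) {x : H} {C : Finset W} {q s s' t e0 : ℝ}
    (hlow : ∀ x' ∈ closedBall x s, ∀ p, (x', p) ∈ T →
      ENNReal.ofReal (c0 * (q / 128) ^ m) ≤ mu (cyl x' (q / 128) (closedBall p (q / 128))))
    (hq : 0 < q) (hC : Well_761.Sep C q) (hqs : q ≤ 32 * s') (hst : s + s' ≤ Real.exp t / 2)
    (hdom : dist x x₀ + (s + s') ≤ ρ₀)
    (hfin : mu (cyl x (Real.exp t) univ) ≠ ⊤) (hfinE : en (cyl x (s + s') univ) ≠ ⊤)
    (hup : nu m κ mu x t (wells C q) ≤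
      27 / 65536 * cκ ^ 2 * (c0 / 4 ^ m) / Kκ * (s' / Real.exp t) ^ m * q ^ 2) (her0 : 0 ≤ e0)
    (her1 : ∀ x' ∈ closedBall x s,
      (∀ l ∈ Icc (Real.log (q / 32)) (Real.log s'), enS m en x' l <
        cX m cκ c0 K * (q / 8) ^ 2 / (1 + Real.log (32 * s' / q))) →
      ∀ l ∈ Icc (Real.log (q / 32)) (Real.log s'), er x' l (q / 8) ≤ e0)
    (her : e0 * Real.log (32 * s' / q) ≤ 3 / 262144 * cκ * (c0 / 4 ^ m) * q ^ 2)
    {Kπ : ℝ≥0} {π : H → L} (hπ : LipschitzWith Kπ π) :
    ENNReal.ofReal (cX m cκ c0 K * (q / 8) ^ 2 / (1 + Real.log (32 * s' / q))) *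
        ν (π '' crossSet T x s (C : Set W) (q / 8)) ≤
      ENNReal.ofReal ((5 * Kπ) ^ (m - 2)) * ν (ball 0 1) * en (cyl x (s + s') univ) := by
  have hs'0 : 0 < s' := by linarith
  refine cross_content_univ (m := m) ν hL hκ (x₀ := x) (T := T) (er := e0) hq hC hqs hst hK hc0
    hfin hfinE (fun x' hx' p hp _ => hlow x' hx' p hp) hup her0 ?_ her hπ
  intro x' hx' p _ hsmall l hl
  have hel : Real.exp l ≤ s' := by
    have := Real.exp_le_exp.2 hl.2
    rwa [Real.exp_log hs'0] at this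
  have hd : dist x' x₀ + Real.exp l ≤ ρ₀ := by
    have h1 := dist_triangle x' x x₀
    rw [mem_closedBall] at hx'
    linarith
  obtain ⟨d, h1, h2⟩ := flow_topF hfl (x := x') (l := l) (q := q / 8) (by positivity) hd p
  have e1 : q / 8 / 4 = q / 32 := by ring
  rw [e1] at h2
  refine ⟨d, h1, h2.trans (add_le_add ?_ (her1 x' hx' hsmall l hl))⟩
  refine mul_le_mul_of_nonneg_left ?_ (by positivity)
  have hsub : closedBall x' (Real.exp l) ⊆ closedBall x (s + s') := by
    refine closedBall_subset_closedBall' ?_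
    rw [mem_closedBall] at hx'
    linarith
  refine ENNReal.toReal_mono ?_ (measure_mono (prod_mono le_rfl (subset_univ _)))
  exact ne_top_of_le_ne_top hfinE (measure_mono (prod_mono hsub le_rfl))

end Crest.Agent.R234.We_822
end
end

-- ▼ part R234/We1_822
section

/-!
Row 234 (helper822), VF-WELL part 1: smooth multi-well functions on a real inner product space.
`wellF q C` has wells at the points of the finite set `C` (mutual distances `≥ q`), equals
`‖y - c‖² / 2` near the wells, is constant away from them, and satisfies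
`‖∇F‖² ≤ 2 F`, `D²F ≤ 1`.
-/

open MeasureTheory Metric Set Filter Topology
open scoped ContDiff InnerProductSpace

set_option autoImplicit false

noncomputable section

namespace Crest.Agent.R234.We_822

/-- smooth antitone profile, `1` for `t ≤ 1/64`, `0` for `t ≥ 1/4`. -/
def psi (t : ℝ) : ℝ := Real.smoothTransition ((16 - 64 * t) / 15)












/-- concave primitive -/
def Gp (t : ℝ) : ℝ := (1 / 2) * ∫ s in (0:ℝ)..t, psi s
















variable {W : Type*} [NormedAddCommGroup W] [InnerProductSpace ℝ W]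




/-- separation of the wells -/
def Sep (q : ℝ) (C : Finset W) : Prop := ∀ c ∈ C, ∀ c' ∈ C, c ≠ c' → q ≤ ‖c - c'‖

variable {q : ℝ} {C : Finset W}




























end Crest.Agent.R234.We_822
end
end

-- ▼ part R234/We3_822
section

/-!
Row 234 (helper822), VF-CROSS part 1: `‖∇F‖² ≤ 2 K F` for `F ≥ 0`, `D²F ≤ K`; trace bound
`|tr (A S_vv)| ≤ ‖A‖ tr S_vv`; the crossing lemma (X1) at the level of a general varifold, in
the frame of helper870 (`IF`, `eF`, `err3`).
-/

set_option autoImplicit false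

open MeasureTheory Set Function Filter Topology
open Crest.GeometryTopology.Submanifold
open Crest.Agent.R234.Vf_884 Crest.Agent.R234.Ar_870 Crest.Agent.R234.Cy_870
open scoped ENNReal NNReal InnerProductSpace

noncomputable section

namespace Crest.Agent.R234.We_822


variable {m n k : ℕ}

/-- `|tr (A S_vv)| ≤ ‖A‖ tr S_vv` -/
lemma abs_tr_comp_Shh_le {κ : Euc k →L[ℝ] Euc n} {P : L k} (hP : IsPr P) (A : L n) :
    |tr (A ∘L Shh κ P)| ≤ ‖A‖ * tr (Shh κ P) := by
  have h1 : ∀ B : L n, tr (B ∘L Shh κ P) =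
      ∑ j, ⟪κ (P (stdVec k j)), B (κ (P (stdVec k j)))⟫_ℝ := by
    intro B
    have h2 : B ∘L Shh κ P = (B ∘L κ ∘L P) ∘L (P ∘L ContinuousLinearMap.adjoint κ) := by
      unfold Shh
      ext v i
      simp only [ContinuousLinearMap.comp_apply]
      have h3 : P (P (ContinuousLinearMap.adjoint κ v)) = P (ContinuousLinearMap.adjoint κ v) :=
        congrArg (fun T : L k => T (ContinuousLinearMap.adjoint κ v)) hP.1
      rw [h3]
    have h4 : tr ((B ∘L κ ∘L P) ∘L (P ∘L ContinuousLinearMap.adjoint κ)) =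
        tr ((P ∘L ContinuousLinearMap.adjoint κ) ∘L (B ∘L κ ∘L P)) := by
      rw [tr_apply, tr_apply]
      exact (LinearMap.trace_comp_comm' (B ∘L κ ∘L P : Euc k →ₗ[ℝ] Euc n)
        (P ∘L ContinuousLinearMap.adjoint κ : Euc n →ₗ[ℝ] Euc k)).symm
    rw [h2, h4, tr_eq_sum]
    refine Finset.sum_congr rfl fun j _ => ?_
    simp only [ContinuousLinearMap.comp_apply]
    have h5 : ⟪stdVec k j, P (ContinuousLinearMap.adjoint κ (B (κ (P (stdVec k j)))))⟫_ℝ =
        ⟪P (stdVec k j), ContinuousLinearMap.adjoint κ (B (κ (P (stdVec k j))))⟫_ℝ := by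
      nth_rewrite 1 [← hP.2]
      rw [ContinuousLinearMap.adjoint_inner_right]
    rw [h5, ContinuousLinearMap.adjoint_inner_right]
  have h2 : tr (Shh κ P) = ∑ j, ‖κ (P (stdVec k j))‖ ^ 2 := by
    have := h1 (ContinuousLinearMap.id ℝ (Euc n))
    rw [ContinuousLinearMap.id_comp] at this
    rw [this]
    refine Finset.sum_congr rfl fun j _ => ?_
    simp only [ContinuousLinearMap.id_apply]
    exact real_inner_self_eq_norm_sq _
  rw [h1 A, h2, Finset.mul_sum]
  refine (Finset.abs_sum_le_sum_abs _ _).trans (Finset.sum_le_sum fun j _ => ?_)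
  calc |⟪κ (P (stdVec k j)), A (κ (P (stdVec k j)))⟫_ℝ|
      ≤ ‖κ (P (stdVec k j))‖ * ‖A (κ (P (stdVec k j)))‖ := abs_real_inner_le_norm _ _
    _ ≤ ‖κ (P (stdVec k j))‖ * (‖A‖ * ‖κ (P (stdVec k j))‖) := by
        gcongr
        exact A.le_opNorm _
    _ = _ := by ring

/-- the set over the ball `‖π p - x‖ < ρ` with heights in a set -/
def Zs (π : Euc k →L[ℝ] Euc m) (κ : Euc k →L[ℝ] Euc n) (x : Euc m) (ρ : ℝ) (Y : Set (Euc n)) :
    Set (Euc k × L k) := {p | ‖π p.1 - x‖ < ρ ∧ κ p.1 ∈ Y}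

lemma measurableSet_Zs (π : Euc k →L[ℝ] Euc m) (κ : Euc k →L[ℝ] Euc n) (x : Euc m) (ρ : ℝ)
    {Y : Set (Euc n)} (hY : MeasurableSet Y) : MeasurableSet (Zs π κ x ρ Y) := by
  refine MeasurableSet.inter ?_ ?_
  · exact measurableSet_lt (((π.continuous.comp continuous_fst).sub
      continuous_const).norm.measurable) measurable_const
  · exact (κ.continuous.measurable.comp measurable_fst) hY

/-- tilt energy over a ball with heights in a set -/
def enr (V : Measure (Euc k × L k)) (π : Euc k →L[ℝ] Euc m) (κ : Euc k →L[ℝ] Euc n) (x : Euc m)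
    (ρ : ℝ) (Y : Set (Euc n)) : ℝ := ∫ p in Zs π κ x ρ Y, tl π p.2 ∂V

variable {π : Euc k →L[ℝ] Euc m} {κ : Euc k →L[ℝ] Euc n} {x : Euc m} {L₀ : ℝ}
  {V : Measure (Euc k × L k)} {g g1 g2 : ℝ → ℝ}

lemma Zs_subset {ρ : ℝ} {Y : Set (Euc n)} {l : ℝ} (hρ : ρ ≤ Real.exp l) :
    Zs π κ x ρ Y ⊆ {p | ‖π p.1 - x‖ ^ 2 < Real.exp (2 * l)} := by
  intro p hp
  have h1 : ‖π p.1 - x‖ < Real.exp l := lt_of_lt_of_le hp.1 hρ
  have h2 : Real.exp (2 * l) = Real.exp l ^ 2 := by rw [← Real.exp_nat_mul]; norm_num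
  simp only [mem_setOf_eq]
  rw [h2]
  exact pow_lt_pow_left₀ h1 (norm_nonneg _) two_ne_zero

lemma integrableOn_tl (h : Fr V π κ x L₀) {S : Set (Euc k × L k)}
    (hS : S ⊆ {p | ‖π p.1 - x‖ ^ 2 < Real.exp (2 * L₀)}) :
    IntegrableOn (fun p => tl π p.2) S V := by
  have hfin : V S < ⊤ := (measure_mono hS).trans_lt h.fin
  refine IntegrableOn.of_bound hfin (aestronglyMeasurable_tl π V).restrict m ?_
  refine ae_restrict_of_ae ?_
  filter_upwards [h.conc] with p hp
  rw [Real.norm_eq_abs, abs_of_nonneg (tl_nonneg h.sp.hh (isPr_of_G hp))]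
  exact tl_le h.sp.hh (isPr_of_G hp)

/-- bound of kernel integrals by the tilt energy -/
lemma abs_ker_le (h : Fr V π κ x L₀) {l : ℝ} (hl : l ≤ L₀) {Y : Set (Euc n)}
    (hY : MeasurableSet Y) {f : Euc k × L k → ℝ} {C : ℝ} (hC : 0 ≤ C)
    (hf : ∀ p, p.2 ∈ G m k → |f p| ≤ C * (Zs π κ x (Real.exp l) Y).indicator
      (fun p => tl π p.2) p) :
    |∫ p, f p ∂V| ≤ C * enr V π κ x (Real.exp l) Y := by
  have hS := measurableSet_Zs π κ x (Real.exp l) hY
  have hint : Integrable ((Zs π κ x (Real.exp l) Y).indicator (fun p => tl π p.2)) V := by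
    rw [integrable_indicator_iff hS]
    exact integrableOn_tl h ((Zs_subset le_rfl).trans fun p hp => by
      simp only [mem_setOf_eq] at hp ⊢
      exact hp.trans_le (Real.exp_le_exp.2 (by linarith)))
  have h1 : ‖∫ p, f p ∂V‖ ≤ ∫ p, C * (Zs π κ x (Real.exp l) Y).indicator
      (fun p => tl π p.2) p ∂V := by
    refine norm_integral_le_of_norm_le (hint.const_mul C) ?_
    filter_upwards [h.conc] with p hp
    exact hf p hp
  rw [integral_const_mul, integral_indicator hS] at h1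
  exact h1

end Crest.Agent.R234.We_822
end
end

-- ▼ part R234/We5_822
section

/-!
Row 234 (helper822), VF-CROSS part 3: (X3) the crossing energy `e - e_F` is carried by the
crossing set, on the quantities `ee`, `eF` of helper870.
-/

set_option autoImplicit false

open MeasureTheory Set Function Filter Topology
open Crest.GeometryTopology.Submanifold
open Crest.Agent.R234.Vf_884 Crest.Agent.R234.Ar_870 Crest.Agent.R234.Cy_870
open scoped ENNReal NNReal InnerProductSpace

noncomputable section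

namespace Crest.Agent.R234.We_822

variable {m n k : ℕ}

/-- trace against `S_vv` as a sum of squares -/
lemma tr_comp_Shh {κ : Euc k →L[ℝ] Euc n} {P : L k} (hP : IsPr P) (B : L n) :
    tr (B ∘L Shh κ P) = ∑ j, ⟪κ (P (stdVec k j)), B (κ (P (stdVec k j)))⟫_ℝ := by
  have h2 : B ∘L Shh κ P = (B ∘L κ ∘L P) ∘L (P ∘L ContinuousLinearMap.adjoint κ) := by
    unfold Shh
    ext v i
    simp only [ContinuousLinearMap.comp_apply]
    have h3 : P (P (ContinuousLinearMap.adjoint κ v)) = P (ContinuousLinearMap.adjoint κ v) :=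
      congrArg (fun T : L k => T (ContinuousLinearMap.adjoint κ v)) hP.1
    rw [h3]
  have h4 : tr ((B ∘L κ ∘L P) ∘L (P ∘L ContinuousLinearMap.adjoint κ)) =
      tr ((P ∘L ContinuousLinearMap.adjoint κ) ∘L (B ∘L κ ∘L P)) := by
    rw [tr_apply, tr_apply]
    exact (LinearMap.trace_comp_comm' (B ∘L κ ∘L P : Euc k →ₗ[ℝ] Euc n)
      (P ∘L ContinuousLinearMap.adjoint κ : Euc n →ₗ[ℝ] Euc k)).symm
  rw [h2, h4, tr_eq_sum]
  refine Finset.sum_congr rfl fun j _ => ?_
  simp only [ContinuousLinearMap.comp_apply]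
  have h5 : ⟪stdVec k j, P (ContinuousLinearMap.adjoint κ (B (κ (P (stdVec k j)))))⟫_ℝ =
      ⟪P (stdVec k j), ContinuousLinearMap.adjoint κ (B (κ (P (stdVec k j))))⟫_ℝ := by
    nth_rewrite 1 [← hP.2]
    rw [ContinuousLinearMap.adjoint_inner_right]
  rw [h5, ContinuousLinearMap.adjoint_inner_right]

/-- positivity of the trace against `S_vv` -/
lemma tr_comp_Shh_nonneg {κ : Euc k →L[ℝ] Euc n} {P : L k} (hP : IsPr P) {B : L n}
    (hB : ∀ v, 0 ≤ ⟪B v, v⟫_ℝ) : 0 ≤ tr (B ∘L Shh κ P) := by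
  rw [tr_comp_Shh hP]
  refine Finset.sum_nonneg fun j _ => ?_
  rw [real_inner_comm]
  exact hB _

variable {π : Euc k →L[ℝ] Euc m} {κ : Euc k →L[ℝ] Euc n} {x : Euc m} {L₀ : ℝ}
  {V : Measure (Euc k × L k)} {g g1 g2 : ℝ → ℝ}

/-- the difference of the tilt energy and the well energy as one integral -/
lemma ee_sub_eF (h : Fr V π κ x L₀) {H : Euc n → L n} (hHc : Continuous H) {KH : ℝ}
    (hHb : ∀ y, ‖ContinuousLinearMap.id ℝ (Euc n) - H y‖ ≤ KH) (hg : Ker g g1) {l : ℝ}
    (hl : l ≤ L₀) :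
    ee V π x g l - eF V π κ x H g l = Real.exp ((2 - m) * l) *
      ∫ p, tr ((ContinuousLinearMap.id ℝ (Euc n) - H (κ p.1)) ∘L Shh κ p.2) *
        g (Real.exp (-2 * l) * ‖π p.1 - x‖ ^ 2) ∂V := by
  have hKH : 0 ≤ KH := (norm_nonneg _).trans (hHb 0)
  have hb : ∀ᵐ p ∂V, ‖π p.1 - x‖ ^ 2 < Real.exp (2 * L₀) →
      |tr ((ContinuousLinearMap.id ℝ (Euc n) - H (κ p.1)) ∘L Shh κ p.2)| ≤ KH * m := by
    filter_upwards [h.conc] with p hp _
    refine (abs_tr_comp_Shh_le (isPr_of_G hp) _).trans ?_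
    rw [tr_Svv h.sp hp]
    exact mul_le_mul (hHb _) (tl_le h.sp.hh (isPr_of_G hp))
      (tl_nonneg h.sp.hh (isPr_of_G hp)) hKH
  have hc1 : Continuous fun p : Euc k × L k => Shh κ p.2 := (continuous_Shh κ).comp continuous_snd
  have hc2 : Continuous fun p : Euc k × L k =>
      tr ((ContinuousLinearMap.id ℝ (Euc n) - H (κ p.1)) ∘L Shh κ p.2) :=
    tr.continuous.comp ((continuous_const.sub
      (hHc.comp (κ.continuous.comp continuous_fst))).clm_comp hc1)
  have i1 := h.integrable_c (aestronglyMeasurable_tl π V) h.tl_bound hg hl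
  have i2 := h.integrable_c hc2.aestronglyMeasurable hb hg hl
  have i3 : Integrable (fun p : Euc k × L k => tr (H (κ p.1) ∘L Shh κ p.2) *
      g (Real.exp (-2 * l) * ‖π p.1 - x‖ ^ 2)) V := by
    have h3 := i1.sub i2
    refine h3.congr ?_
    filter_upwards [h.conc] with p hp
    simp only [Pi.sub_apply]
    rw [ContinuousLinearMap.sub_comp, map_sub, ContinuousLinearMap.id_comp, tr_Svv h.sp hp]
    ring
  unfold ee eF
  rw [← mul_sub, ← integral_sub i1 i3]
  congr 1
  refine integral_congr_ae ?_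
  filter_upwards [h.conc] with p hp
  rw [ContinuousLinearMap.sub_comp, map_sub, ContinuousLinearMap.id_comp, tr_Svv h.sp hp]
  ring

/-- **(X3)** the crossing energy is nonnegative and at most a constant times the tilt energy of the
part of `V` with heights away from the wells -/
theorem crossing_energy (h : Fr V π κ x L₀) {H : Euc n → L n} (hHc : Continuous H) {KH : ℝ}
    (hHb : ∀ y, ‖ContinuousLinearMap.id ℝ (Euc n) - H y‖ ≤ KH)
    (hH0 : ∀ y v, ⟪H y v, v⟫_ℝ ≤ ‖v‖ ^ 2) {Y : Set (Euc n)} (hY : MeasurableSet Y)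
    (hHY : ∀ y, y ∉ Y → H y = ContinuousLinearMap.id ℝ (Euc n))
    (hg : Ker g g1) (hg0 : ∀ t, 0 ≤ t → 0 ≤ g t) {Kg : ℝ} (hKg : ∀ t, 0 ≤ t → g t ≤ Kg) {l : ℝ}
    (hl : l ≤ L₀) :
    0 ≤ ee V π x g l - eF V π κ x H g l ∧
      ee V π x g l - eF V π κ x H g l ≤
        Real.exp ((2 - m) * l) * (KH * Kg * enr V π κ x (Real.exp l) Y) := by
  have hKH : 0 ≤ KH := (norm_nonneg _).trans (hHb 0)
  have hKg0 : 0 ≤ Kg := (hg0 0 le_rfl).trans (hKg 0 le_rfl)
  rw [ee_sub_eF h hHc hHb hg hl]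
  constructor
  · refine mul_nonneg (Real.exp_pos _).le (integral_nonneg_of_ae ?_)
    filter_upwards [h.conc] with p hp
    refine mul_nonneg (tr_comp_Shh_nonneg (isPr_of_G hp) fun v => ?_) (hg0 _ (by positivity))
    rw [ContinuousLinearMap.sub_apply, inner_sub_left, ContinuousLinearMap.id_apply,
      real_inner_self_eq_norm_sq]
    linarith [hH0 (κ p.1) v]
  · refine mul_le_mul_of_nonneg_left ((le_abs_self _).trans ?_) (Real.exp_pos _).le
    refine abs_ker_le h hl hY (by positivity) fun p hp => ?_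
    have ht := tl_nonneg h.sp.hh (isPr_of_G hp)
    by_cases hz : p ∈ Zs π κ x (Real.exp l) Y
    · rw [indicator_of_mem hz, abs_mul]
      have h1 := abs_tr_comp_Shh_le (κ := κ) (isPr_of_G hp)
        (ContinuousLinearMap.id ℝ (Euc n) - H (κ p.1))
      rw [tr_Svv h.sp hp] at h1
      have h2 : |g (Real.exp (-2 * l) * ‖π p.1 - x‖ ^ 2)| ≤ Kg := by
        rw [abs_of_nonneg (hg0 _ (by positivity))]
        exact hKg _ (by positivity)
      calc _ ≤ (‖ContinuousLinearMap.id ℝ (Euc n) - H (κ p.1)‖ * tl π p.2) * Kg :=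
            mul_le_mul h1 h2 (abs_nonneg _) (by positivity)
        _ ≤ (KH * tl π p.2) * Kg := by
            gcongr
            exact hHb _
        _ = _ := by ring
    · rw [indicator_of_notMem hz, mul_zero]
      have h0 : tr ((ContinuousLinearMap.id ℝ (Euc n) - H (κ p.1)) ∘L Shh κ p.2) *
          g (Real.exp (-2 * l) * ‖π p.1 - x‖ ^ 2) = 0 := by
        by_cases hy : κ p.1 ∈ Y
        · have hx : ¬ ‖π p.1 - x‖ < Real.exp l := fun hlt => hz ⟨hlt, hy⟩
          have h1 : (1:ℝ) ≤ Real.exp (-2 * l) * ‖π p.1 - x‖ ^ 2 := Ker.one_le_of x (not_lt.1 hx)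
          rw [hg.zero _ h1, mul_zero]
        · rw [hHY _ hy, sub_self, ContinuousLinearMap.zero_comp, map_zero, zero_mul]
      rw [h0, abs_zero]

/-- the tilt energy measure on the base (heights in `Y`) -/
def enM (V : Measure (Euc k × L k)) (π : Euc k →L[ℝ] Euc m) : Measure (Euc m) :=
  (V.withDensity fun p => ENNReal.ofReal (tl π p.2)).map fun p => π p.1

/-- the energy at heights in `Y` is at most the energy of `V` over any base set that contains all
base points of support points with heights in `Y` -/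
theorem enr_le_enM (h : Fr V π κ x L₀) {l : ℝ} (hl : l ≤ L₀) {Y : Set (Euc n)}
    (hY : MeasurableSet Y) {N : Set (Euc m)}
    (hN : ∀ᵐ p ∂V, p ∈ Zs π κ x (Real.exp l) Y → π p.1 ∈ N) :
    ENNReal.ofReal (enr V π κ x (Real.exp l) Y) ≤ enM V π N := by
  have hS := measurableSet_Zs π κ x (Real.exp l) hY
  have hsub : Zs π κ x (Real.exp l) Y ⊆ {p | ‖π p.1 - x‖ ^ 2 < Real.exp (2 * L₀)} :=
    (Zs_subset le_rfl).trans fun p hp => by
      simp only [mem_setOf_eq] at hp ⊢
      exact hp.trans_le (Real.exp_le_exp.2 (by linarith))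
  have hπm : Measurable fun p : Euc k × L k => π p.1 := π.continuous.measurable.comp measurable_fst
  -- measurable hull of `N`
  set N' := toMeasurable (enM V π) N with hN'
  have hN'm : MeasurableSet N' := measurableSet_toMeasurable _ _
  have h1 : enM V π N = enM V π N' := (measure_toMeasurable N).symm
  rw [h1]
  unfold enM
  rw [Measure.map_apply hπm hN'm, withDensity_apply _ (hπm hN'm)]
  have h2 : ENNReal.ofReal (enr V π κ x (Real.exp l) Y) =
      ∫⁻ p in Zs π κ x (Real.exp l) Y, ENNReal.ofReal (tl π p.2) ∂V := by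
    unfold enr
    refine ofReal_integral_eq_lintegral_ofReal (integrableOn_tl h hsub) ?_
    refine ae_restrict_of_ae ?_
    filter_upwards [h.conc] with p hp
    exact tl_nonneg h.sp.hh (isPr_of_G hp)
  rw [h2]
  refine lintegral_mono_set' ?_
  filter_upwards [hN] with p hp hpz
  exact subset_toMeasurable _ _ (hp hpz)

end Crest.Agent.R234.We_822
end
end

-- ▼ part R234/We9_822
section

/-!
Row 234 (helper822), VF-CROSS part 7: node N7 on varifolds: if every set over `ball x s` whose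
projection is small carries little tilt energy (N5), then the energy at crossing heights over
`ball x s` is small, and `0 ≤ e - e_F` is small at all centres `x'` with `|x' - x| + e^l ≤ s`.
-/

set_option autoImplicit false

open MeasureTheory Set Function Filter Topology
open Crest.GeometryTopology.Submanifold
open Crest.Agent.R234.Vf_884 Crest.Agent.R234.Ar_870 Crest.Agent.R234.Cy_870
open Crest.Agent.R234.Wi_870
open scoped ENNReal NNReal InnerProductSpace

noncomputable section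

namespace Crest.Agent.R234.We_822

variable {m n k : ℕ} {π : Euc k →L[ℝ] Euc m} {κ : Euc k →L[ℝ] Euc n} {x x₀ : Euc m}
  {V : Measure (Euc k × L k)} {g g1 g2 : ℝ → ℝ}

/-- the energy of solid cylinders is the base energy of balls -/
theorem enOf_cyl (V : Measure (Euc k × L k)) (π : Euc k →L[ℝ] Euc m) (κ : Euc k →L[ℝ] Euc n)
    (x : Euc m) (r : ℝ) :
    enOf V π κ (Well_761.cyl x r univ) = N5_372.eM V π (Metric.closedBall x r) := by
  have hcm : MeasurableSet (Well_761.cyl x r (univ : Set (Euc n))) :=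
    Metric.isClosed_closedBall.measurableSet.prod MeasurableSet.univ
  unfold enOf N5_372.eM N5_372.bm
  rw [Measure.map_apply (measurable_bh π κ) hcm,
    Measure.map_apply (N5_372.measurable_base π) Metric.isClosed_closedBall.measurableSet]
  congr 1
  ext p
  simp [bh, Well_761.cyl]

theorem muOf_cyl_ne_top (hfr : ∀ L₀, Fr V π κ x L₀) (r : ℝ) :
    muOf V π κ (Well_761.cyl x r univ) ≠ ⊤ := by
  have hcm : MeasurableSet (Well_761.cyl x r (univ : Set (Euc n))) :=
    Metric.isClosed_closedBall.measurableSet.prod MeasurableSet.univ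
  obtain ⟨L₀, hL₀⟩ : ∃ L₀ : ℝ, |r| < Real.exp L₀ := by
    refine ⟨Real.log (|r| + 1), ?_⟩
    rw [Real.exp_log (by positivity)]
    linarith
  unfold muOf
  rw [Measure.map_apply (measurable_bh π κ) hcm]
  refine ne_top_of_le_ne_top (hfr L₀).fin.ne (measure_mono ?_)
  intro p hp
  have h1 : ‖π p.1 - x‖ ≤ r := by
    have := hp.1
    rwa [Metric.mem_closedBall, bh, dist_eq_norm] at this
  have h2 : ‖π p.1 - x‖ < Real.exp L₀ := lt_of_le_of_lt (h1.trans (le_abs_self r)) hL₀
  simp only [mem_ofPred_eq]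
  have h3 : ‖π p.1 - x‖ ^ 2 < Real.exp L₀ ^ 2 :=
    pow_lt_pow_left₀ h2 (norm_nonneg _) two_ne_zero
  rw [← Real.exp_nat_mul] at h3
  exact_mod_cast h3

theorem enOf_cyl_ne_top (hfr : ∀ L₀, Fr V π κ x L₀) (r : ℝ) :
    enOf V π κ (Well_761.cyl x r univ) ≠ ⊤ := by
  have hcm : MeasurableSet (Well_761.cyl x r (univ : Set (Euc n))) :=
    Metric.isClosed_closedBall.measurableSet.prod MeasurableSet.univ
  obtain ⟨L₀, hL₀⟩ : ∃ L₀ : ℝ, |r| < Real.exp L₀ := by
    refine ⟨Real.log (|r| + 1), ?_⟩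
    rw [Real.exp_log (by positivity)]
    linarith
  have hpre : MeasurableSet (bh π κ ⁻¹' Well_761.cyl x r (univ : Set (Euc n))) :=
    measurable_bh (m := m) π κ hcm
  unfold enOf
  rw [Measure.map_apply (measurable_bh π κ) hcm, withDensity_apply _ hpre]
  have hsub : bh π κ ⁻¹' Well_761.cyl x r (univ : Set (Euc n)) ⊆
      {p | ‖π p.1 - x‖ ^ 2 < Real.exp (2 * L₀)} := by
    intro p hp
    have h1 : ‖π p.1 - x‖ ≤ r := by
      have := hp.1
      rwa [Metric.mem_closedBall, bh, dist_eq_norm] at this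
    have h2 : ‖π p.1 - x‖ < Real.exp L₀ := lt_of_le_of_lt (h1.trans (le_abs_self r)) hL₀
    simp only [mem_ofPred_eq]
    have h3 : ‖π p.1 - x‖ ^ 2 < Real.exp L₀ ^ 2 :=
      pow_lt_pow_left₀ h2 (norm_nonneg _) two_ne_zero
    rw [← Real.exp_nat_mul] at h3
    exact_mod_cast h3
  have hint := We_822.integrableOn_tl (hfr L₀) hsub
  have h1 := hint.2
  refine ne_top_of_le_ne_top h1.ne (lintegral_mono fun p => ?_)
  rw [← ofReal_norm]
  exact ENNReal.ofReal_le_ofReal (le_abs_self _)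

/-- the crossing energy of the wells -/
theorem wells_crossing_energy {L₀ : ℝ} (h : Fr V π κ x L₀) {C : Finset (Euc n)} {q : ℝ}
    (hq : 0 < q) (hC : Well_761.Sep C q) (hg : Ker g g1) (hg0 : ∀ t, 0 ≤ t → 0 ≤ g t) {Kg : ℝ}
    (hKg : ∀ t, 0 ≤ t → g t ≤ Kg) {l : ℝ} (hl : l ≤ L₀) :
    0 ≤ ee V π x g l - eF V π κ x (Well_761.wellsH C q) g l ∧
      ee V π x g l - eF V π κ x (Well_761.wellsH C q) g l ≤
        Real.exp ((2 - m) * l) * ((2 + Well_761.etaC / 8) * Kg *
          enr V π κ x (Real.exp l) (away (C : Set (Euc n)) (q / 8))) := by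
  have ht := Well_761.test_wells hq hC
  refine crossing_energy h (test_c2w ht).contH (KH := 2 + Well_761.etaC / 8) ?_ ?_
    (measurableSet_away _ _) ?_ hg hg0 hKg hl
  · intro y
    calc ‖ContinuousLinearMap.id ℝ (Euc n) - Well_761.wellsH C q y‖
        ≤ ‖ContinuousLinearMap.id ℝ (Euc n)‖ + ‖Well_761.wellsH C q y‖ := norm_sub_le _ _
      _ ≤ 1 + (1 + Well_761.etaC / 8) :=
          add_le_add ContinuousLinearMap.norm_id_le (ht.bA y)
      _ = _ := by ring
  · exact fun y v => Well_761.wellsH_le_sq hq hC y v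
  · intro y hy
    have : ∃ c ∈ C, ‖y - c‖ < q / 8 := by
      by_contra hcon
      push Not at hcon
      exact hy fun c hc => hcon c hc
    obtain ⟨c, hc, hlt⟩ := this
    exact (Well_761.wells_eq_sq hq hC hc hlt.le).2.2

/-- **NODE N7 on varifolds**: energy at crossing heights over `ball x s` -/
theorem cross_enr {L' : Type*} [NormedAddCommGroup L'] [NormedSpace ℝ L']
    [FiniteDimensional ℝ L'] [MeasurableSpace L'] [BorelSpace L']
    (ν : Measure L') [ν.IsAddHaarMeasure] (hL : Module.finrank ℝ L' + 2 = m)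
    (hfr : ∀ y L₀, Fr V π κ y L₀) {R : Euc m → ℝ → ℝ} {er : Euc m → ℝ → ℝ → ℝ}
    {K ρ₀ Kκ cκ : ℝ}
    (hfl : Well_761.Flow m (kap g1) (muOf V π κ) (enOf V π κ) R er K x₀ ρ₀) (hK : 0 < K)
    (hκ : Well_761.Ker (kap g1) Kκ cκ) {c0 : ℝ} (hc0 : 0 < c0)
    {C : Finset (Euc n)} {q s s' t e0 : ℝ}
    (hlow : ∀ x' ∈ Metric.closedBall x s, ∀ p, (x', p) ∈ TT V π κ →
      ENNReal.ofReal (c0 * (q / 128) ^ m) ≤
        muOf V π κ (Well_761.cyl x' (q / 128) (Metric.closedBall p (q / 128))))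
    (hq : 0 < q) (hC : Well_761.Sep C q) (hqs : q ≤ 32 * s') (hs : 0 < s)
    (hst : s + s' ≤ Real.exp t / 2) (hdom : dist x x₀ + (s + s') ≤ ρ₀)
    (hup : Well_761.nu m (kap g1) (muOf V π κ) x t (Well_761.wells C q) ≤
      27 / 65536 * cκ ^ 2 * (c0 / 4 ^ m) / Kκ * (s' / Real.exp t) ^ m * q ^ 2)
    (her0 : 0 ≤ e0)
    (her1 : ∀ x' ∈ Metric.closedBall x s,
      (∀ l ∈ Icc (Real.log (q / 32)) (Real.log s'), enS m (enOf V π κ) x' l <
        cX m cκ c0 K * (q / 8) ^ 2 / (1 + Real.log (32 * s' / q))) →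
      ∀ l ∈ Icc (Real.log (q / 32)) (Real.log s'), er x' l (q / 8) ≤ e0)
    (her : e0 * Real.log (32 * s' / q) ≤ 3 / 262144 * cκ * (c0 / 4 ^ m) * q ^ 2)
    {Kp : ℝ≥0} {pL : Euc m → L'} (hpL : LipschitzWith Kp pL) {G' θ' w : ℝ}
    (hG0 : 0 ≤ G')
    (hG : N5_372.eM V π (Metric.closedBall x (s + s')) ≤ ENNReal.ofReal G')
    (hθ : (5 * Kp) ^ (m - 2) * (ν (Metric.ball 0 1)).toReal * G' *
      (1 + Real.log (32 * s' / q)) ≤ θ' * (cX m cκ c0 K * (q / 8) ^ 2))
    (hw : 0 ≤ w)
    (hN5 : ∀ N : Set (Euc m), N ⊆ Metric.ball x s → ν (pL '' N) ≤ ENNReal.ofReal θ' →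
      N5_372.eM V π N ≤ ENNReal.ofReal w) :
    enr V π κ x s (away (C : Set (Euc n)) (q / 8)) ≤ w := by
  have hs'0 : 0 < s' := by linarith
  have hcont := cross_content_flow' (m := m) ν hL hfl hK hκ (T := TT V π κ) hc0 (x := x)
    hlow hq hC hqs hst hdom (muOf_cyl_ne_top (hfr x) _) (enOf_cyl_ne_top (hfr x) _) hup her0
    her1 her hpL
  rw [enOf_cyl] at hcont
  have hlog0 : 0 ≤ Real.log (32 * s' / q) := by
    refine Real.log_nonneg ?_
    rw [le_div_iff₀ hq]
    linarith
  have hcκ := hκ.cpos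
  have hcX : 0 < cX m cκ c0 K * (q / 8) ^ 2 := by unfold cX; positivity
  have hκ₀ : 0 < cX m cκ c0 K * (q / 8) ^ 2 / (1 + Real.log (32 * s' / q)) := by positivity
  set κ₀ := cX m cκ c0 K * (q / 8) ^ 2 / (1 + Real.log (32 * s' / q)) with hκ₀def
  have hνb : ν (Metric.ball 0 1) ≠ ⊤ := Metric.isBounded_ball.measure_lt_top.ne
  have hθ'0 : 0 ≤ θ' := by
    have h1 : 0 ≤ (5 * (Kp:ℝ)) ^ (m - 2) * (ν (Metric.ball 0 1)).toReal * G' *
      (1 + Real.log (32 * s' / q)) := by positivity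
    exact nonneg_of_mul_nonneg_left (h1.trans hθ) hcX
  -- content of the crossing set
  have hcs : ν (pL '' crossSet (TT V π κ) x s (C : Set (Euc n)) (q / 8)) ≤
      ENNReal.ofReal θ' := by
    have h1 : ENNReal.ofReal ((5 * (Kp:ℝ)) ^ (m - 2)) * ν (Metric.ball 0 1) *
        N5_372.eM V π (Metric.closedBall x (s + s')) ≤
        ENNReal.ofReal ((5 * (Kp:ℝ)) ^ (m - 2) * (ν (Metric.ball 0 1)).toReal * G') := by
      rw [ENNReal.ofReal_mul (by positivity), ENNReal.ofReal_mul (by positivity),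
        ENNReal.ofReal_toReal hνb]
      gcongr
    have h2 : (5 * (Kp:ℝ)) ^ (m - 2) * (ν (Metric.ball 0 1)).toReal * G' ≤ κ₀ * θ' := by
      rw [hκ₀def, div_mul_eq_mul_div, le_div_iff₀ (by positivity)]
      linarith
    have h3 := (hcont.trans h1).trans (ENNReal.ofReal_le_ofReal h2)
    rw [ENNReal.ofReal_mul hκ₀.le] at h3
    exact (ENNReal.mul_le_mul_iff_right (by simpa using hκ₀) ENNReal.ofReal_ne_top).1 h3
  set N : Set (Euc m) := crossSet (TT V π κ) x s (C : Set (Euc n)) (q / 8) ∩ Metric.ball x s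
    with hN
  have h1 := hN5 N inter_subset_right ((measure_mono (image_mono inter_subset_left)).trans hcs)
  have hT : ∀ᵐ p ∂V, bh π κ p ∈ TT V π κ := by
    have h2 : ∀ᵐ z ∂(muOf V π κ), z ∈ TT V π κ := by
      rw [ae_iff]; exact null_TT V π κ
    exact ae_of_ae_map (measurable_bh π κ).aemeasurable h2
  have hse : Real.exp (Real.log s) = s := Real.exp_log hs
  have h2 := enr_le_enM (hfr x (Real.log s)) (le_refl (Real.log s))
    (measurableSet_away (C : Set (Euc n)) (q / 8)) (N := N) (by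
      filter_upwards [hT] with p hp hpz
      rw [hse] at hpz
      obtain ⟨hz1, hz2⟩ := hpz
      refine ⟨⟨?_, κ p.1, hp, hz2⟩, ?_⟩
      · rw [Metric.mem_closedBall, dist_eq_norm]; exact le_of_lt hz1
      · rw [Metric.mem_ball, dist_eq_norm]; exact hz1)
  rw [hse] at h2
  exact (ENNReal.ofReal_le_ofReal_iff hw).1 (h2.trans h1)

/-- **`e - e_F` at all centres near `x`** -/
theorem cross_node (hfr : ∀ y L₀, Fr V π κ y L₀) {C : Finset (Euc n)} {q s w : ℝ}
    (hq : 0 < q) (hC : Well_761.Sep C q) (hg : Ker g g1) (hg0 : ∀ t, 0 ≤ t → 0 ≤ g t) {Kg : ℝ}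
    (hKg : ∀ t, 0 ≤ t → g t ≤ Kg) {x' : Euc m} {l : ℝ} (hx' : ‖x' - x‖ + Real.exp l ≤ s)
    (henr : enr V π κ x s (away (C : Set (Euc n)) (q / 8)) ≤ w) :
    0 ≤ ee V π x' g l - eF V π κ x' (Well_761.wellsH C q) g l ∧
      ee V π x' g l - eF V π κ x' (Well_761.wellsH C q) g l ≤
        (2 + Well_761.etaC / 8) * Kg * (Real.exp ((2 - m) * l) * w) := by
  obtain ⟨h1, h2⟩ := wells_crossing_energy (hfr x' l) hq hC hg hg0 hKg le_rfl
  refine ⟨h1, h2.trans ?_⟩
  have hKg0 : 0 ≤ Kg := (hg0 0 le_rfl).trans (hKg 0 le_rfl)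
  have he := Well_761.etaC_nonneg
  have hs : 0 < s := by
    have := norm_nonneg (x' - x)
    have := Real.exp_pos l
    linarith
  have h3 : enr V π κ x' (Real.exp l) (away (C : Set (Euc n)) (q / 8)) ≤
      enr V π κ x s (away (C : Set (Euc n)) (q / 8)) := by
    unfold enr
    refine setIntegral_mono_set ?_ ?_ ?_
    · refine We_822.integrableOn_tl (hfr x (Real.log s)) ?_
      intro p hp
      have h4 : ‖π p.1 - x‖ < s := hp.1
      simp only [mem_ofPred_eq]
      have h5 : ‖π p.1 - x‖ ^ 2 < s ^ 2 := pow_lt_pow_left₀ h4 (norm_nonneg _) two_ne_zero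
      have h6 : Real.exp (2 * Real.log s) = s ^ 2 := by
        rw [mul_comm, Real.exp_mul, Real.exp_log hs]
        norm_cast
      rwa [h6]
    · refine ae_restrict_of_ae ?_
      filter_upwards [(hfr x 0).conc] with p hp
      exact tl_nonneg (hfr x 0).sp.hh (isPr_of_G hp)
    · refine LE.le.eventuallyLE ?_
      intro p hp
      refine ⟨?_, hp.2⟩
      have h4 : ‖π p.1 - x'‖ < Real.exp l := hp.1
      have h5 : ‖π p.1 - x‖ ≤ ‖π p.1 - x'‖ + ‖x' - x‖ :=
        norm_sub_le_norm_sub_add_norm_sub _ _ _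
      change ‖π p.1 - x‖ < s
      linarith
  have hE := Real.exp_pos ((2 - m) * l)
  calc Real.exp ((2 - m) * l) * ((2 + Well_761.etaC / 8) * Kg *
        enr V π κ x' (Real.exp l) (away (C : Set (Euc n)) (q / 8)))
      ≤ Real.exp ((2 - m) * l) * ((2 + Well_761.etaC / 8) * Kg * w) := by
        have := h3.trans henr
        gcongr
    _ = _ := by ring

end Crest.Agent.R234.We_822
end
end

-- ▼ part R234/We10_822
section

/-!
Row 234 (helper822), WELL-AS part 1: upper mass bound of the solid cylinders at centres with small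
energies at all scales, when the first variation of `χ (x' - x)` is bounded by
`η (energy + h² mass)` (class AS).
-/

set_option autoImplicit false

open MeasureTheory Set Function Filter Topology
open Crest.GeometryTopology.Submanifold
open Crest.Agent.R234.Vf_884 Crest.Agent.R234.Ar_870 Crest.Agent.R234.Cy_870
open Crest.Agent.R234.Wi_870
open scoped ENNReal NNReal InnerProductSpace

noncomputable section

namespace Crest.Agent.R234.We_822

variable {m n k : ℕ} {π : Euc k →L[ℝ] Euc m} {κ : Euc k →L[ℝ] Euc n} {x x₀ : Euc m}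
  {V : Measure (Euc k × L k)} {g g1 g2 : ℝ → ℝ}

/-- real mass of the solid cylinder -/
def muR (V : Measure (Euc k × L k)) (π : Euc k →L[ℝ] Euc m) (κ : Euc k →L[ℝ] Euc n)
    (x : Euc m) (l : ℝ) : ℝ := (muOf V π κ (Well_761.cyl x (Real.exp l) univ)).toReal

/-- real energy of the solid cylinder -/
def enR (V : Measure (Euc k × L k)) (π : Euc k →L[ℝ] Euc m) (κ : Euc k →L[ℝ] Euc n)
    (x : Euc m) (l : ℝ) : ℝ := (enOf V π κ (Well_761.cyl x (Real.exp l) univ)).toReal

theorem muR_nonneg (l : ℝ) : 0 ≤ muR V π κ x l := ENNReal.toReal_nonneg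

theorem muR_mono (hfr : ∀ L₀, Fr V π κ x L₀) {l l' : ℝ} (h : l ≤ l') :
    muR V π κ x l ≤ muR V π κ x l' :=
  ENNReal.toReal_mono (muOf_cyl_ne_top hfr _) (measure_mono (Set.prod_mono
    (Metric.closedBall_subset_closedBall (Real.exp_le_exp.2 h)) le_rfl))


/-- the open base ball has at most the mass of the solid cylinder -/
theorem base_le_muR (hfr : ∀ L₀, Fr V π κ x L₀) (l : ℝ) :
    (V {p | ‖π p.1 - x‖ ^ 2 < Real.exp (2 * l)}).toReal ≤ muR V π κ x l := by
  have hcm : MeasurableSet (Well_761.cyl x (Real.exp l) (univ : Set (Euc n))) :=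
    Metric.isClosed_closedBall.measurableSet.prod MeasurableSet.univ
  have h1 : V {p | ‖π p.1 - x‖ ^ 2 < Real.exp (2 * l)} ≤
      muOf V π κ (Well_761.cyl x (Real.exp l) univ) := by
    unfold muOf
    rw [Measure.map_apply (measurable_bh π κ) hcm]
    refine measure_mono ?_
    intro p (hp : ‖π p.1 - x‖ ^ 2 < Real.exp (2 * l))
    refine ⟨?_, trivial⟩
    rw [Metric.mem_closedBall, bh, dist_eq_norm]
    have h2 : ‖π p.1 - x‖ ^ 2 ≤ Real.exp l ^ 2 := by
      rw [← Real.exp_nat_mul]; push_cast; exact hp.le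
    exact (sq_le_sq₀ (norm_nonneg _) (Real.exp_pos _).le).1 h2
  exact ENNReal.toReal_mono (muOf_cyl_ne_top hfr _) h1

/-- **upper mass bound at centres with small energies** -/
theorem mass_good (hfr : ∀ L₀, Fr V π κ x L₀) (hg : Prof g g1 g2) (hg0 : ∀ t, 0 ≤ t → 0 ≤ g t)
    {Kg : ℝ} (hKg : ∀ t, 0 ≤ t → g t ≤ Kg) {c a : ℝ} (hc : 0 < c) (ha : 0 ≤ a)
    (hgc : ∀ t, 0 ≤ t → t ≤ Real.exp (-2 * a) → c ≤ g t) {l0 l1 lam η C1 h : ℝ}
    (hl : l0 ≤ l1) (hη : 0 ≤ η) (hlam : 0 ≤ lam) (hC1 : 0 ≤ C1)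
    (hen : ∀ t ∈ Icc l0 l1, enR V π κ x t ≤ lam * Real.exp (m * t))
    (hFV : ∀ t ∈ Icc l0 l1,
      |FV V (X1 π x g t)| ≤ η * (enR V π κ x t + h ^ 2 * muR V π κ x t))
    (htop : muR V π κ x l1 ≤ C1 * Real.exp (m * l1))
    (hsmall : c⁻¹ * Real.exp (m * a) * (η * h ^ 2) * (l1 - l0) ≤ 1 / 2) :
    ∀ l ∈ Icc l0 l1, muR V π κ x l ≤
      2 * (c⁻¹ * Real.exp (m * a) * (Kg * C1 + (Kg + η) * lam * (l1 - l0))) *
        Real.exp (m * l) := by
  have hKg0 : 0 ≤ Kg := (hg0 0 le_rfl).trans (hKg 0 le_rfl)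
  have hcKg : c ≤ Kg := (hgc 0 le_rfl (Real.exp_pos _).le).trans (hKg 0 le_rfl)
  have hci : 0 < c⁻¹ := inv_pos.2 hc
  have h1cK : 1 ≤ c⁻¹ * Kg := by
    rw [← div_eq_inv_mul, le_div_iff₀ hc, one_mul]; exact hcKg
  set f : ℝ → ℝ := fun l => Real.exp (-(m * l)) * muR V π κ x l with hf
  have hEf : ∀ l, muR V π κ x l = Real.exp (m * l) * f l := by
    intro l
    simp only [hf]
    rw [← mul_assoc, ← Real.exp_add]
    simp
  have hf0 : ∀ l, 0 ≤ f l := fun l => mul_nonneg (Real.exp_pos _).le (muR_nonneg l)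
  set B : ℝ := c⁻¹ * Real.exp (m * a) * (Kg * C1 + (Kg + η) * lam * (l1 - l0)) with hB
  -- the supremum
  have hbdd : BddAbove (f '' Icc l0 l1) := by
    refine ⟨Real.exp (-(m * l0)) * muR V π κ x l1, ?_⟩
    rintro _ ⟨l, hl', rfl⟩
    simp only [hf]
    have h1 : Real.exp (-(m * l)) ≤ Real.exp (-(m * l0)) := by
      refine Real.exp_le_exp.2 (neg_le_neg ?_)
      exact mul_le_mul_of_nonneg_left hl'.1 (Nat.cast_nonneg m)
    exact mul_le_mul h1 (muR_mono hfr hl'.2) (muR_nonneg l) (Real.exp_pos _).le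
  set M : ℝ := sSup (f '' Icc l0 l1) with hM
  have hfM : ∀ l ∈ Icc l0 l1, f l ≤ M := fun l hl' => le_csSup hbdd ⟨l, hl', rfl⟩
  have hM0 : 0 ≤ M := (hf0 l1).trans (hfM l1 ⟨hl, le_rfl⟩)
  have key : ∀ l ∈ Icc l0 l1, f l ≤ B + M / 2 := by
    intro l hl'
    rcases le_or_gt (l + a) l1 with hla | hla
    · -- from the top
      have hsubI : ∀ t ∈ Icc (l + a) l1, t ∈ Icc l0 l1 := fun t ht =>
        ⟨by linarith [hl'.1, ht.1], ht.2⟩
      have e1 := mass_cyl_le (x := x) hfr hg hg0 hKg (c := c) (a := a) hc hgc (l := l)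
        (l1 := l1) (lam := lam) (θ := η * (lam + h ^ 2 * M)) (C1 := Kg * C1) hla
        (fun t ht => hen t (hsubI t ht)) (fun t ht => by
          have h1 := (le_abs_self _).trans (hFV t (hsubI t ht))
          refine h1.trans ?_
          have h2 := hen t (hsubI t ht)
          have h3 := hfM t (hsubI t ht)
          rw [hEf t]
          have h4 : h ^ 2 * (Real.exp (m * t) * f t) ≤ h ^ 2 * M * Real.exp (m * t) := by
            calc h ^ 2 * (Real.exp (m * t) * f t) = h ^ 2 * Real.exp (m * t) * f t := by ring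
              _ ≤ h ^ 2 * Real.exp (m * t) * M := by gcongr
              _ = _ := by ring
          calc η * (enR V π κ x t + h ^ 2 * (Real.exp (m * t) * f t))
              ≤ η * (lam * Real.exp (m * t) + h ^ 2 * M * Real.exp (m * t)) := by gcongr
            _ = η * (lam + h ^ 2 * M) * Real.exp (m * t) := by ring) (by
          have h1 := MS_le_mass (x := x) (hfr l1) hg hg0 hKg (le_refl l1)
          refine h1.trans ?_
          have h2 := (base_le_muR hfr l1).trans htop
          calc Kg * (Real.exp (-(m * l1)) *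
                (V {p | ‖π p.1 - x‖ ^ 2 < Real.exp (2 * l1)}).toReal)
              ≤ Kg * (Real.exp (-(m * l1)) * (C1 * Real.exp (m * l1))) := by gcongr
            _ = Kg * C1 * (Real.exp (-(m * l1)) * Real.exp (m * l1)) := by ring
            _ = Kg * C1 := by rw [← Real.exp_add]; simp)
      have hpos : 0 ≤ c⁻¹ * Real.exp (m * a) * (Kg * C1 + (Kg * lam + η * (lam + h ^ 2 * M)) *
          (l1 - l - a)) * Real.exp (m * l) := by
        have : 0 ≤ l1 - l - a := by linarith
        positivity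
      have e2 := ENNReal.toReal_mono ENNReal.ofReal_ne_top e1
      rw [ENNReal.toReal_ofReal hpos] at e2
      change muR V π κ x l ≤ _ at e2
      rw [hEf l] at e2
      have e3 : f l ≤ c⁻¹ * Real.exp (m * a) * (Kg * C1 + (Kg * lam + η * (lam + h ^ 2 * M)) *
          (l1 - l - a)) := by
        have hE := Real.exp_pos (m * l)
        nlinarith
      refine e3.trans ?_
      have e4 : l1 - l - a ≤ l1 - l0 := by linarith [hl'.1]
      calc c⁻¹ * Real.exp (m * a) * (Kg * C1 + (Kg * lam + η * (lam + h ^ 2 * M)) *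
            (l1 - l - a))
          ≤ c⁻¹ * Real.exp (m * a) * (Kg * C1 + (Kg * lam + η * (lam + h ^ 2 * M)) *
            (l1 - l0)) := by gcongr
        _ = B + c⁻¹ * Real.exp (m * a) * (η * h ^ 2) * (l1 - l0) * M := by rw [hB]; ring
        _ ≤ B + 1 / 2 * M := by gcongr
        _ = B + M / 2 := by ring
    · -- near the top
      have e1 : f l ≤ Real.exp (m * a) * C1 := by
        simp only [hf]
        calc Real.exp (-(m * l)) * muR V π κ x l
            ≤ Real.exp (-(m * l)) * (C1 * Real.exp (m * l1)) := by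
              have := (muR_mono hfr hl'.2).trans htop
              gcongr
          _ = Real.exp (m * (l1 - l)) * C1 := by
              have : Real.exp (m * (l1 - l)) = Real.exp (-(m * l)) * Real.exp (m * l1) := by
                rw [← Real.exp_add]; congr 1; ring
              rw [this]; ring
          _ ≤ Real.exp (m * a) * C1 := by
              have : l1 - l ≤ a := by linarith
              gcongr
      have e2 : Real.exp (m * a) * C1 ≤ B := by
        rw [hB]
        have h1 : Real.exp (m * a) * C1 ≤ c⁻¹ * Real.exp (m * a) * (Kg * C1) := by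
          have h2 : 0 ≤ Real.exp (m * a) * C1 := by positivity
          calc Real.exp (m * a) * C1 = 1 * (Real.exp (m * a) * C1) := by ring
            _ ≤ c⁻¹ * Kg * (Real.exp (m * a) * C1) := mul_le_mul_of_nonneg_right h1cK h2
            _ = _ := by ring
        have h2 : 0 ≤ c⁻¹ * Real.exp (m * a) * ((Kg + η) * lam * (l1 - l0)) := by
          have : 0 ≤ l1 - l0 := by linarith
          positivity
        calc Real.exp (m * a) * C1 ≤ c⁻¹ * Real.exp (m * a) * (Kg * C1) := h1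
          _ ≤ c⁻¹ * Real.exp (m * a) * (Kg * C1) +
              c⁻¹ * Real.exp (m * a) * ((Kg + η) * lam * (l1 - l0)) := by linarith
          _ = _ := by ring
      linarith
  have hMB : M ≤ B + M / 2 := csSup_le ⟨_, ⟨l1, ⟨hl, le_rfl⟩, rfl⟩⟩ (by
    rintro _ ⟨l, hl', rfl⟩
    exact key l hl')
  intro l hl'
  rw [hEf l]
  have h1 := hfM l hl'
  have h2 : f l ≤ 2 * B := by linarith
  calc Real.exp (m * l) * f l ≤ Real.exp (m * l) * (2 * B) := by gcongr
    _ = 2 * B * Real.exp (m * l) := by ring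

end Crest.Agent.R234.We_822
end
end

-- ▼ part R234/We11_822

/-!
Row 234 (helper822), WELL-AS part 2: the instance of 761's `Flow` for almost stationary varifolds in
a cylinder (214's `CylAS`), explicit error `erAS`, and its bound `erAS ≤ C (√δ + b) q²`.
-/

set_option autoImplicit false

open MeasureTheory Set Function Filter Topology
open Crest.GeometryTopology.Submanifold
open Crest.Agent.R234.Vf_884 Crest.Agent.R234.Ar_870 Crest.Agent.R234.Cy_870
open Crest.Agent.R234.Wi_870 Crest.Agent.R234.Asl_214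
open scoped ENNReal NNReal InnerProductSpace

noncomputable section

namespace Crest.Agent.R234.We_822

variable {m n k : ℕ} {π : Euc k →L[ℝ] Euc m} {κ : Euc k →L[ℝ] Euc n} {x x₀ : Euc m}
  {W : Measure (Euc k × L k)} {g g1 g2 : ℝ → ℝ} {R h₀ δ K ρ₀ : ℝ}

/-- bound of the Hessian of the tests -/
def BB : ℝ := 1 + Well_761.etaC / 8

theorem BB_one : 1 ≤ BB := by
  have := Well_761.etaC_nonneg
  unfold BB; linarith

/-- **the error of `Flow` in the class AS** -/
def erAS (W : Measure (Euc k × L k)) (π : Euc k →L[ℝ] Euc m) (K δ h₀ : ℝ) (x : Euc m)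
    (l q : ℝ) : ℝ :=
  2 * (K * (3 + Real.exp l)) * δ * q ^ 2 *
      (Real.exp (-2 * l) * tb W π x l + h₀ ^ 2 * mb W π x l) +
    K * (4 + Real.exp l) * δ * q *
      (√(tb W π x l) * √(mb W π x l) + h₀ * Real.exp l * mb W π x l) +
    K * BB * δ * h₀ * Real.exp l * (√(tb W π x l) * √(mb W π x l)) +
    K * (δ * BB + √δ * q) * tb W π x l

/-- the scaled first variation of `X2` -/
theorem x2_gen (h : CylAS W π κ x₀ R h₀ δ) (h0 : 0 ≤ δ) (hh : 0 ≤ h₀) (hg : Ker g g1)
    (hK : Bd g g1 K) {F : Euc n → ℝ} {dF : Euc n → Euc n} {H : Euc n → L n}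
    (hF : C2F F dF H) {d₀ B₀ : ℝ} (hd₀ : ∀ y, ‖y‖ ≤ h₀ → ‖dF y‖ ≤ d₀)
    (hB₀ : ∀ y, ‖y‖ ≤ h₀ → ‖H y‖ ≤ B₀) {l : ℝ} (hl : ‖x - x₀‖ + Real.exp l ≤ R) :
    Real.exp ((2 - m) * l) * |FV W (X2 π κ x dF g l)| ≤
      K * (2 + Real.exp l) * δ * d₀ *
        (√(tb W π x l) * √(mb W π x l) + h₀ * Real.exp l * mb W π x l) +
      K * B₀ * δ * h₀ * Real.exp l * (√(tb W π x l) * √(mb W π x l)) +
      K * (δ * B₀ + √δ * d₀) * tb W π x l := by
  have h1 := h.FV2_gen h0 hh hg hK hF hd₀ hB₀ hl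
  rw [sqrt_TM h, TB_eq, MB_eq] at h1
  have e1 : Real.exp ((2 - m) * l) * Real.exp ((m - 2) * l) = 1 := by
    rw [← Real.exp_add]
    have : (2 - m : ℝ) * l + (m - 2) * l = 0 := by ring
    rw [this, Real.exp_zero]
  have e4 : Real.exp ((2 - m) * l) * Real.exp ((m - 1) * l) = Real.exp l := by
    rw [← Real.exp_add]; congr 1; ring
  have e2 : Real.exp ((2 - m) * l) * (2 * Real.exp (-l) + 1) * Real.exp ((m - 1) * l) =
      2 + Real.exp l := by
    have a1 : Real.exp ((2 - m) * l) * Real.exp (-l) * Real.exp ((m - 1) * l) = 1 := by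
      rw [← Real.exp_add, ← Real.exp_add]
      have : (2 - m : ℝ) * l + -l + (m - 1) * l = 0 := by ring
      rw [this, Real.exp_zero]
    linear_combination 2 * a1 + e4
  have e3 : Real.exp ((2 - m) * l) * (2 * Real.exp (-l) + 1) * Real.exp (m * l) =
      (2 + Real.exp l) * Real.exp l := by
    have a1 : Real.exp ((2 - m) * l) * Real.exp (-l) * Real.exp (m * l) = Real.exp l := by
      rw [← Real.exp_add, ← Real.exp_add]; congr 1; ring
    have a2 : Real.exp ((2 - m) * l) * Real.exp (m * l) = Real.exp l * Real.exp l := by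
      rw [← Real.exp_add, ← Real.exp_add]; congr 1; ring
    linear_combination 2 * a1 + a2
  calc Real.exp ((2 - m) * l) * |FV W (X2 π κ x dF g l)| ≤ Real.exp ((2 - m) * l) * _ :=
        mul_le_mul_of_nonneg_left h1 (Real.exp_pos _).le
    _ = δ * d₀ * K * ((Real.exp ((2 - m) * l) * (2 * Real.exp (-l) + 1) *
            Real.exp ((m - 1) * l)) * (√(tb W π x l) * √(mb W π x l)) +
          (Real.exp ((2 - m) * l) * (2 * Real.exp (-l) + 1) * Real.exp (m * l)) *
            (h₀ * mb W π x l)) +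
        K * δ * B₀ * h₀ * ((Real.exp ((2 - m) * l) * Real.exp ((m - 1) * l)) *
          (√(tb W π x l) * √(mb W π x l))) +
        K * (δ * B₀ + √δ * d₀) * ((Real.exp ((2 - m) * l) * Real.exp ((m - 2) * l)) *
          tb W π x l) := by ring
    _ = _ := by
        rw [e1, e2, e3, e4]; ring

/-- the scaled first variation of `X3` -/
theorem x3_gen (h : CylAS W π κ x₀ R h₀ δ) (h0 : 0 ≤ δ) (hh : 0 ≤ h₀) (hg : Ker g1 g2)
    (hK : Bd g1 g2 K) {F : Euc n → ℝ} {dF : Euc n → Euc n} {H : Euc n → L n}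
    (hF : C2F F dF H) {F₀ d₀ : ℝ} (hF₀ : ∀ y, ‖y‖ ≤ h₀ → |F y| ≤ F₀)
    (hd₀ : ∀ y, ‖y‖ ≤ h₀ → ‖dF y‖ ≤ d₀) {l : ℝ} (hl : ‖x - x₀‖ + Real.exp l ≤ R) :
    Real.exp (-m * l) * |FV W (X3 π κ x F g1 l)| ≤
      K * (3 + Real.exp l) * δ * F₀ *
        (Real.exp (-2 * l) * tb W π x l + h₀ ^ 2 * mb W π x l) +
      K * δ * d₀ * (√(tb W π x l) * √(mb W π x l) + h₀ * Real.exp l * mb W π x l) := by
  have h1 := h.FV3_gen h0 hh hg hK hF hF₀ hd₀ hl
  rw [sqrt_TM h, TB_eq, MB_eq] at h1
  have e1 : Real.exp (-m * l) * Real.exp ((m - 2) * l) = Real.exp (-2 * l) := by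
    rw [← Real.exp_add]; congr 1; ring
  have e2 : Real.exp (-m * l) * Real.exp (m * l) = 1 := by
    rw [← Real.exp_add]
    have : (-m : ℝ) * l + m * l = 0 := by ring
    rw [this, Real.exp_zero]
  have e3 : Real.exp (-m * l) * Real.exp l * Real.exp ((m - 1) * l) = 1 := by
    rw [← Real.exp_add, ← Real.exp_add]
    have : (-m : ℝ) * l + l + (m - 1) * l = 0 := by ring
    rw [this, Real.exp_zero]
  have e4 : Real.exp (-m * l) * Real.exp l * Real.exp (m * l) = Real.exp l := by
    rw [← Real.exp_add, ← Real.exp_add]; congr 1; ring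
  calc Real.exp (-m * l) * |FV W (X3 π κ x F g1 l)| ≤ Real.exp (-m * l) * _ :=
        mul_le_mul_of_nonneg_left h1 (Real.exp_pos _).le
    _ = δ * F₀ * (K * (3 + Real.exp l)) * ((Real.exp (-m * l) * Real.exp ((m - 2) * l)) *
          tb W π x l + h₀ ^ 2 * ((Real.exp (-m * l) * Real.exp (m * l)) * mb W π x l)) +
        δ * d₀ * K * ((Real.exp (-m * l) * Real.exp l * Real.exp ((m - 1) * l)) *
          (√(tb W π x l) * √(mb W π x l)) +
          (Real.exp (-m * l) * Real.exp l * Real.exp (m * l)) * (h₀ * mb W π x l)) := by ring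
    _ = _ := by
        rw [e1, e2, e3, e4]; ring

theorem c2w_c2F {F : Euc n → ℝ} {dF : Euc n → Euc n} {H : Euc n → L n} (h : C2w F dF H) :
    C2F F dF H := ⟨h.hasF, h.hasdF, h.contH⟩

/-- the error is bounded by `erAS` for every test function -/
theorem er_le_erAS (h : CylAS W π κ x₀ R h₀ δ) (h0 : 0 ≤ δ) (hh : 0 ≤ h₀)
    (hg : Prof g g1 g2) (hK : Bd g g1 K) (hK' : Bd g1 g2 K) {F : Euc n → ℝ}
    {G : Euc n → Euc n} {A : Euc n → L n} {q : ℝ} (hT : Well_761.Test F G A q) {l : ℝ}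
    (hl : ‖x - x₀‖ + Real.exp l ≤ R) :
    2 * Real.exp (-m * l) * |FV W (X3 π κ x F g1 l)| +
      Real.exp ((2 - m) * l) * |FV W (X2 π κ x G g l)| ≤ erAS W π K δ h₀ x l q := by
  have hF := c2w_c2F (test_c2w hT)
  have h3 := x3_gen h h0 hh hg.k1 hK' hF (F₀ := q ^ 2) (d₀ := q) (fun y _ => hT.bF y)
    (fun y _ => hT.bG y) hl
  have h2 := x2_gen h h0 hh hg.k0 hK hF (d₀ := q) (B₀ := BB) (fun y _ => hT.bG y)
    (fun y _ => hT.bA y) hl
  have h4 := add_le_add (mul_le_mul_of_nonneg_left h3 (by norm_num : (0:ℝ) ≤ 2)) h2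
  refine le_trans (le_of_eq ?_) (h4.trans (le_of_eq ?_))
  · ring
  · unfold erAS; ring

/-- **the instance of `Flow` in the class AS** -/
theorem flow_as (h : CylAS W π κ x₀ R h₀ δ) (h0 : 0 ≤ δ) (hh : 0 ≤ h₀) (hρ : ρ₀ ≤ R)
    (hg : Prof g g1 g2) (hK : Bd g g1 K) (hK' : Bd g1 g2 K) (hg0 : ∀ t, 0 ≤ t → 0 ≤ g t) :
    Well_761.Flow m (kap g1) (muOf W π κ) (enOf W π κ) (fun x l => RR W π x g1 l)
      (erAS W π K δ h₀) (K * BB + 6 * K) x₀ ρ₀ := by
  refine flow_of (h₀ := h₀) (fun x L => h.fr x L) (fun x L => h.hgt' x L) hg hg0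
    (fun t ht => (le_abs_self _).trans (hK.b0 t ht)) (fun t ht => hK'.b0 t ht)
    (fun t ht => hK'.b2 t ht) ?_
  intro x l hx F G A q _ hT
  refine er_le_erAS h h0 hh hg hK hK' hT ?_
  rw [← dist_eq_norm]; exact hx.trans hρ

/-- `tb` and the energy of the solid cylinder -/
theorem tb_le_enR (h : CylAS W π κ x₀ R h₀ δ) (x : Euc m) (l : ℝ) :
    tb W π x l ≤ Real.exp ((2 - m) * l) * enR W π κ x l := by
  unfold tb
  refine mul_le_mul_of_nonneg_left ?_ (Real.exp_pos _).le
  have h1 := tS_le_en (h.fr x (l + 1)) (κ := κ) (by linarith : l < l + 1)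
    (S := (univ : Set (Euc n))) MeasurableSet.univ
  refine le_trans (le_of_eq ?_) h1
  unfold TB tS
  congr 2
  ext p
  simp only [ovr, mem_ofPred_eq, mem_univ, and_true]
  have h3 : Real.exp (2 * l) = Real.exp l ^ 2 := by
    rw [← Real.exp_nat_mul]; push_cast; rfl
  rw [h3]
  exact (sq_lt_sq₀ (norm_nonneg _) (Real.exp_pos _).le).symm

/-- `mb` and the mass of the solid cylinder -/
theorem mb_le_muR (h : CylAS W π κ x₀ R h₀ δ) (x : Euc m) (l : ℝ) :
    mb W π x l ≤ Real.exp (-m * l) * muR W π κ x l := by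
  unfold mb
  refine mul_le_mul_of_nonneg_left ?_ (Real.exp_pos _).le
  have h1 := base_le_muR (x := x) (κ := κ) (fun L₀ => h.fr x L₀) l
  refine le_trans (le_of_eq ?_) h1
  unfold MB
  congr 2
  ext p
  simp only [ovr, mem_ofPred_eq]
  have h3 : Real.exp (2 * l) = Real.exp l ^ 2 := by
    rw [← Real.exp_nat_mul]; push_cast; rfl
  rw [h3]
  exact (sq_lt_sq₀ (norm_nonneg _) (Real.exp_pos _).le).symm

/-- the constant of `erAS_le` -/
def CAS (K a lam Cμ : ℝ) : ℝ :=
  K * (8 * (lam + Cμ) + 5 * (√(a * Cμ) + Cμ) + BB * √(a * Cμ) + (BB + 1) * a)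

theorem CAS_nonneg {a lam Cμ : ℝ} (hK : 0 ≤ K) (ha : 0 ≤ a) (hlam : 0 ≤ lam) (hC : 0 ≤ Cμ) :
    0 ≤ CAS K a lam Cμ := by
  have := BB_one
  unfold CAS; positivity

/-- **bound of the error**, `s ≤ 1`: at a scale with energy `≤ a q²` (scaled), `≤ lam` (density),
mass `≤ Cμ` and `δ h₀ s ≤ b q` -/
theorem erAS_le (h : CylAS W π κ x₀ R h₀ δ) (hK : 0 ≤ K) (h0 : 0 ≤ δ) (hδ : δ ≤ 1)
    (hh : 0 ≤ h₀) (hh1 : h₀ ≤ 1) {l q a b lam Cμ : ℝ} (hq : 0 < q) (hq1 : q ≤ 1) (hl0 : l ≤ 0)
    (ha : 0 ≤ a) (hb0 : 0 ≤ b) (hlam : 0 ≤ lam)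
    (htb : tb W π x l ≤ a * q ^ 2) (htb2 : Real.exp (-2 * l) * tb W π x l ≤ lam)
    (hmb : mb W π x l ≤ Cμ) (hb : δ * h₀ * Real.exp l ≤ b * q) :
    erAS W π K δ h₀ x l q ≤ CAS K a lam Cμ * (√δ + b) * q ^ 2 := by
  have hs : Real.exp l ≤ 1 := Real.exp_le_one_iff.2 hl0
  have hs0 := Real.exp_pos l
  have ht := h.tb_nonneg x l
  have hm := mb_nonneg (W := W) (π := π) x l
  have hCμ : 0 ≤ Cμ := hm.trans hmb
  have hBB := BB_one
  have hδ' : δ ≤ √δ := by
    have h1 : √δ ≤ 1 := by
      rw [show (1:ℝ) = √1 from Real.sqrt_one.symm]; exact Real.sqrt_le_sqrt hδ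
    have h2 : √δ * √δ = δ := Real.mul_self_sqrt h0
    nlinarith [Real.sqrt_nonneg δ]
  have hsd := Real.sqrt_nonneg δ
  set T := tb W π x l with hT
  set M := mb W π x l with hM
  set s := Real.exp l with hsdef
  -- the mixed term
  have hST : √T * √M ≤ √(a * Cμ) * q := by
    calc √T * √M ≤ √(a * q ^ 2) * √Cμ :=
          mul_le_mul (Real.sqrt_le_sqrt htb) (Real.sqrt_le_sqrt hmb) (Real.sqrt_nonneg _)
            (Real.sqrt_nonneg _)
      _ = √(a * Cμ) * q := by
          rw [Real.sqrt_mul ha, Real.sqrt_mul ha, Real.sqrt_sq hq.le]; ring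
  have hST0 : 0 ≤ √T * √M := by positivity
  have hh2 : h₀ ^ 2 ≤ 1 := by nlinarith
  have hq2 : 0 ≤ q ^ 2 := sq_nonneg q
  -- first
  have p1 : 2 * (K * (3 + s)) * δ * q ^ 2 * (Real.exp (-2 * l) * T + h₀ ^ 2 * M) ≤
      K * (8 * (lam + Cμ)) * √δ * q ^ 2 := by
    have e1 : Real.exp (-2 * l) * T + h₀ ^ 2 * M ≤ lam + Cμ := by
      have : h₀ ^ 2 * M ≤ 1 * Cμ := mul_le_mul hh2 hmb hm zero_le_one
      linarith
    have e2 : 0 ≤ Real.exp (-2 * l) * T + h₀ ^ 2 * M := by positivity
    calc 2 * (K * (3 + s)) * δ * q ^ 2 * (Real.exp (-2 * l) * T + h₀ ^ 2 * M)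
        ≤ 2 * (K * (3 + 1)) * √δ * q ^ 2 * (lam + Cμ) := by gcongr
      _ = _ := by ring
  -- second
  have p2 : K * (4 + s) * δ * q * (√T * √M + h₀ * s * M) ≤
      K * (5 * (√(a * Cμ) + Cμ)) * (√δ + b) * q ^ 2 := by
    have e1 : δ * (h₀ * s * M) ≤ b * q * Cμ := by
      calc δ * (h₀ * s * M) = δ * h₀ * s * M := by ring
        _ ≤ b * q * Cμ := mul_le_mul hb hmb hm (by positivity)
    have e2 : δ * (√T * √M) ≤ √δ * (√(a * Cμ) * q) := mul_le_mul hδ' hST hST0 hsd
    calc K * (4 + s) * δ * q * (√T * √M + h₀ * s * M)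
        = K * (4 + s) * q * (δ * (√T * √M) + δ * (h₀ * s * M)) := by ring
      _ ≤ K * (4 + 1) * q * (√δ * (√(a * Cμ) * q) + b * q * Cμ) := by gcongr
      _ = K * 5 * (√(a * Cμ) * √δ + Cμ * b) * q ^ 2 := by ring
      _ ≤ K * 5 * ((√(a * Cμ) + Cμ) * (√δ + b)) * q ^ 2 := by
          have : √(a * Cμ) * √δ + Cμ * b ≤ (√(a * Cμ) + Cμ) * (√δ + b) := by
            have h1 : 0 ≤ √(a * Cμ) * b := by positivity
            have h2 : 0 ≤ Cμ * √δ := by positivity
            nlinarith
          gcongr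
      _ = _ := by ring
  -- third
  have p3 : K * BB * δ * h₀ * s * (√T * √M) ≤ K * (BB * √(a * Cμ)) * b * q ^ 2 := by
    calc K * BB * δ * h₀ * s * (√T * √M) = K * BB * ((δ * h₀ * s) * (√T * √M)) := by ring
      _ ≤ K * BB * ((b * q) * (√(a * Cμ) * q)) := by
          have := mul_le_mul hb hST hST0 (by positivity : 0 ≤ b * q)
          gcongr
      _ = _ := by ring
  -- fourth
  have p4 : K * (δ * BB + √δ * q) * T ≤ K * ((BB + 1) * a) * √δ * q ^ 2 := by
    calc K * (δ * BB + √δ * q) * T ≤ K * (√δ * BB + √δ * 1) * (a * q ^ 2) := by gcongr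
      _ = _ := by ring
  have hbq : 0 ≤ b * q ^ 2 := by positivity
  have hdq : 0 ≤ √δ * q ^ 2 := by positivity
  have r1 : 0 ≤ K * (8 * (lam + Cμ)) * b * q ^ 2 := by positivity
  have r3 : 0 ≤ K * (BB * √(a * Cμ)) * √δ * q ^ 2 := by positivity
  have r4 : 0 ≤ K * ((BB + 1) * a) * b * q ^ 2 := by positivity
  unfold erAS CAS
  rw [← hT, ← hM, ← hsdef]
  have e : K * (8 * (lam + Cμ) + 5 * (√(a * Cμ) + Cμ) + BB * √(a * Cμ) + (BB + 1) * a) *
      (√δ + b) * q ^ 2 = K * (8 * (lam + Cμ)) * √δ * q ^ 2 + K * (8 * (lam + Cμ)) * b * q ^ 2 +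
      K * (5 * (√(a * Cμ) + Cμ)) * (√δ + b) * q ^ 2 +
      (K * (BB * √(a * Cμ)) * b * q ^ 2 + K * (BB * √(a * Cμ)) * √δ * q ^ 2) +
      (K * ((BB + 1) * a) * √δ * q ^ 2 + K * ((BB + 1) * a) * b * q ^ 2) := by ring
  rw [e]
  linarith

end Crest.Agent.R234.We_822
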