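import Crest.Agent.R234.Wi4_870
import Crest.Agent.R234.Well5_761
import Crest.Agent.R234.We11_822
import Crest.Agent.R234.GI1_640
import Crest.Agent.R234.Core0_809
import Crest.Agent.R234.Ex2_46

-- ▼ part R234/Sml1_870
section

/-!
# Row 234, N0-SMALL (helper870), for helper309

At a centre with small energy at all scales in `[h, τ0]` every point of the support over `B_{h/4}(x)` has
a large mass of the cylinder over `B_{τ0}(x)` at distance `≤ h` from its height.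
-/

set_option autoImplicit false
set_option linter.unusedSectionVars false

open Set Filter Topology MeasureTheory Metric
open scoped ContDiff InnerProductSpace ENNReal

noncomputable section

namespace Crest.Agent.R234.Sml_870

open Crest.Agent.R234.Well_761

variable {H : Type*} [PseudoMetricSpace H] [MeasurableSpace H] [OpensMeasurableSpace H]
variable {W : Type*} [NormedAddCommGroup W] [InnerProductSpace ℝ W] [MeasurableSpace W]
  [BorelSpace W]

variable {m : ℕ} {κ : ℝ → ℝ} {Kκ cκ : ℝ} {mu en : Measure (H × W)}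
  {R : H → ℝ → ℝ} {er : H → ℝ → ℝ → ℝ} {K : ℝ} {x₀ : H} {ρ₀ : ℝ}

/-- the constant of N0-SMALL -/
def cS (m : ℕ) (K Kκ cκ c0 : ℝ) : ℝ :=
  min (3 / 1024 * cκ * (c0 / 4 ^ m) / (K / 32 + K + 1))
    (3 / 32 * cκ * (c0 / 4 ^ m) / Kκ)

theorem cS_pos {K Kκ cκ c0 : ℝ} (m : ℕ) (hK : 0 ≤ K) (hKκ : 0 < Kκ) (hcκ : 0 < cκ)
    (hc0 : 0 < c0) : 0 < cS m K Kκ cκ c0 := by
  unfold cS
  refine lt_min ?_ ?_
  · positivity
  · positivity

theorem log_le_mul_sq {t : ℝ} (ht : 1 ≤ t) : Real.log t / t ^ 2 ≤ 1 := by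
  rw [div_le_one (by positivity)]
  have h1 := Real.log_le_sub_one_of_pos (by linarith : 0 < t)
  nlinarith

/-- upper bound of the functional of a bump by the mass of the box -/
theorem nu_bump_le (hκ : Ker κ Kκ cκ) {x : H} {y : W} {τ0 h : ℝ} (hτ : 0 < τ0) (hh : 0 < h)
    (hfin : mu (cyl x τ0 univ) ≠ ⊤) :
    nu m κ mu x (Real.log τ0) (bump y (4 * h)) ≤
      Kκ * ((4 * h) ^ 2 / 32) * ((τ0 ^ m)⁻¹ * (mu (cyl x τ0 (closedBall y h))).toReal) := by
  set B := cyl x τ0 (closedBall y h) with hB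
  have hBm : MeasurableSet B := cyl_meas _ _ measurableSet_closedBall
  have hsub : B ⊆ cyl x τ0 univ := prod_mono subset_rfl (subset_univ _)
  have hfinB : mu B ≠ ⊤ := ne_top_of_le_ne_top hfin (measure_mono hsub)
  have he : Real.exp (Real.log τ0) = τ0 := Real.exp_log hτ
  have h1 : ∫ z, κ (dist z.1 x * Real.exp (-Real.log τ0)) * bump y (4 * h) z.2 ∂mu ≤
      ∫ _z in B, (Kκ * ((4 * h) ^ 2 / 32)) ∂mu := by
    rw [← integral_indicator hBm]
    have h0 : IntegrableOn (fun _ : H × W => Kκ * ((4 * h) ^ 2 / 32)) B mu :=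
      integrableOn_const hfinB
    refine integral_mono_of_nonneg ?_ (h0.integrable_indicator hBm) ?_
    · exact Eventually.of_forall fun z => mul_nonneg (hκ.nonneg _) (bump_nonneg _ _ _)
    · refine Eventually.of_forall fun z => ?_
      simp only
      by_cases hz : z ∈ B
      · rw [indicator_of_mem hz]
        exact mul_le_mul (hκ.le _) (bump_le _ _ _) (bump_nonneg _ _ _) hκ.Kpos.le
      · rw [indicator_of_notMem hz]
        by_cases hz1 : z ∈ cyl x (Real.exp (Real.log τ0)) (univ : Set W)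
        · have hz2 : z.2 ∉ closedBall y h := by
            intro hcon
            rw [he] at hz1
            exact hz ⟨hz1.1, hcon⟩
          rw [mem_closedBall, not_le, dist_eq_norm] at hz2
          rw [bump_eq_zero (by positivity) (by linarith), mul_zero]
        · rw [ker_zero hκ hz1, zero_mul]
  have h2 : ∫ _z in B, (Kκ * ((4 * h) ^ 2 / 32)) ∂mu =
      Kκ * ((4 * h) ^ 2 / 32) * (mu B).toReal := by
    rw [setIntegral_const, smul_eq_mul, mul_comm]; rfl
  have h3 : Real.exp (-(m * Real.log τ0)) = (τ0 ^ m)⁻¹ := by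
    rw [Real.exp_neg, Real.exp_nat_mul, he]
  unfold nu
  rw [h3]
  calc (τ0 ^ m)⁻¹ * ∫ z, κ (dist z.1 x * Real.exp (-Real.log τ0)) * bump y (4 * h) z.2 ∂mu
      ≤ (τ0 ^ m)⁻¹ * (Kκ * ((4 * h) ^ 2 / 32) * (mu B).toReal) :=
        mul_le_mul_of_nonneg_left (h1.trans h2.le) (by positivity)
    _ = _ := by ring

/-- **N0-SMALL**, abstract form -/
theorem small_box (hfl : Flow m κ mu en R er K x₀ ρ₀) (hκ : Ker κ Kκ cκ) {c0 : ℝ} (hc0 : 0 < c0)
    {x x' : H} {y : W} {h τ0 lam : ℝ} (hh : 0 < h) (hτ : h ≤ τ0) (hx : dist x' x ≤ h / 4)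
    (hdom : dist x x₀ + τ0 ≤ ρ₀) (hfin : mu (cyl x τ0 univ) ≠ ⊤)
    (hlow : ENNReal.ofReal (c0 * (h / 4) ^ m) ≤ mu (cyl x' (h / 4) (closedBall y (h / 4))))
    (hen : ∀ s ∈ Icc h τ0, (en (cyl x s univ)).toReal ≤ lam * s ^ m)
    (hlam : lam ≤ cS m K Kκ cκ c0 * (h / τ0) ^ 2)
    (her : ∀ l ∈ Icc (Real.log h) (Real.log τ0),
      er x l (4 * h) ≤ cS m K Kκ cκ c0 / (1 + Real.log (τ0 / h)) * (4 * h) ^ 2) :
    ENNReal.ofReal (cS m K Kκ cκ c0 * τ0 ^ m) ≤ mu (cyl x τ0 (closedBall y h)) := by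
  set c := cS m K Kκ cκ c0 with hc
  have hK0 := hfl.K0
  have hKκ := hκ.Kpos
  have hcκ := hκ.cpos
  have hcpos : 0 < c := cS_pos m hK0 hKκ hcκ hc0
  have hτ0 : 0 < τ0 := hh.trans_le hτ
  have hlogh : Real.exp (Real.log h) = h := Real.exp_log hh
  have hlogτ : Real.exp (Real.log τ0) = τ0 := Real.exp_log hτ0
  have hll : Real.log h ≤ Real.log τ0 := Real.log_le_log hh hτ
  have hlq : Real.log τ0 - Real.log h = Real.log (τ0 / h) :=
    (Real.log_div hτ0.ne' hh.ne').symm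
  have h1t : 1 ≤ τ0 / h := by rw [le_div_iff₀ hh, one_mul]; exact hτ
  have hlog0 : 0 ≤ Real.log (τ0 / h) := Real.log_nonneg h1t
  have hq : 0 < 4 * h := by linarith
  have hlam0 : 0 ≤ lam := by
    have h1 := hen τ0 ⟨hτ, le_rfl⟩
    have h2 : 0 ≤ lam * τ0 ^ m := ENNReal.toReal_nonneg.trans h1
    exact nonneg_of_mul_nonneg_left h2 (by positivity)
  -- upward evolution
  have hup := hfl.up (x := x) (l0 := Real.log h) (l1 := Real.log τ0) (q := 4 * h) (lam := lam)
    (θ := c / (1 + Real.log (τ0 / h))) hll hq (by rw [hlogτ]; exact hdom) (by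
      intro l hl
      have h1 : h ≤ Real.exp l := by rw [← hlogh]; exact Real.exp_le_exp.2 hl.1
      have h2 : Real.exp l ≤ τ0 := by rw [← hlogτ]; exact Real.exp_le_exp.2 hl.2
      have h3 := hen (Real.exp l) ⟨h1, h2⟩
      rwa [← Real.exp_nat_mul] at h3) her (test_bump y hq).neg
  rw [nu_neg, nu_neg, hlq] at hup
  have hlow2 : 3 * (4 * h) ^ 2 / 512 * cκ * (c0 / 4 ^ m) ≤
      nu m κ mu x (Real.log h) (bump y (4 * h)) := by
    refine nu_ge hκ (x' := x') (p := y) (test_bump y hq).meas (M := (4 * h) ^ 2)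
      (test_bump y hq).bF (bump_nonneg y _) (by positivity) ?_ ?_ hc0.le ?_ ?_
    · intro y' hy'
      rw [hlogh] at hy'
      have h4 := bump_ge (p := y) hq (y := y') (by
        rw [← dist_eq_norm]
        have := mem_closedBall.1 hy'
        linarith)
      linarith
    · rw [hlogh]; exact hx
    · rw [hlogh]
      exact ne_top_of_le_ne_top hfin (measure_mono (prod_mono (closedBall_subset_closedBall hτ)
        subset_rfl))
    · rw [hlogh]; exact hlow
  -- the errors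
  have e1 : K * lam * (Real.exp (2 * Real.log τ0) / 2) ≤ c * (K / 32) * (4 * h) ^ 2 := by
    have h5 : Real.exp (2 * Real.log τ0) = τ0 ^ 2 := by
      have := Real.exp_nat_mul (Real.log τ0) 2
      rw [hlogτ] at this
      exact_mod_cast this
    rw [h5]
    have h6 : lam * τ0 ^ 2 ≤ c * h ^ 2 := by
      calc lam * τ0 ^ 2 ≤ c * (h / τ0) ^ 2 * τ0 ^ 2 := by gcongr
        _ = c * h ^ 2 := by field_simp
    calc K * lam * (τ0 ^ 2 / 2) = K / 2 * (lam * τ0 ^ 2) := by ring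
      _ ≤ K / 2 * (c * h ^ 2) := by gcongr
      _ = c * (K / 32) * (4 * h) ^ 2 := by ring
  have e2 : K * lam * Real.log (τ0 / h) ≤ c * K := by
    have h7 := log_le_mul_sq h1t
    calc K * lam * Real.log (τ0 / h) ≤ K * (c * (h / τ0) ^ 2) * Real.log (τ0 / h) := by gcongr
      _ = c * K * (Real.log (τ0 / h) / (τ0 / h) ^ 2) := by field_simp
      _ ≤ c * K * 1 := by gcongr
      _ = c * K := mul_one _
  have e3 : c / (1 + Real.log (τ0 / h)) * Real.log (τ0 / h) ≤ c := by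
    rw [div_mul_eq_mul_div, div_le_iff₀ (by linarith)]
    nlinarith
  have e4 : (K * lam + c / (1 + Real.log (τ0 / h))) * Real.log (τ0 / h) * (4 * h) ^ 2 ≤
      c * (K + 1) * (4 * h) ^ 2 := by
    refine mul_le_mul_of_nonneg_right ?_ (sq_nonneg _)
    calc (K * lam + c / (1 + Real.log (τ0 / h))) * Real.log (τ0 / h)
        = K * lam * Real.log (τ0 / h) + c / (1 + Real.log (τ0 / h)) * Real.log (τ0 / h) := by ring
      _ ≤ c * K + c := add_le_add e2 e3
      _ = c * (K + 1) := by ring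
  have e5 : c * (K / 32 + K + 1) ≤ 3 / 1024 * cκ * (c0 / 4 ^ m) := by
    have h8 : c ≤ 3 / 1024 * cκ * (c0 / 4 ^ m) / (K / 32 + K + 1) := min_le_left _ _
    rwa [le_div_iff₀ (by positivity)] at h8
  have e6 : 3 / 1024 * cκ * (c0 / 4 ^ m) * (4 * h) ^ 2 ≤
      nu m κ mu x (Real.log τ0) (bump y (4 * h)) := by
    have h9 := mul_le_mul_of_nonneg_right e5 (sq_nonneg (4 * h))
    linarith
  have e7 := e6.trans (nu_bump_le (m := m) hκ (y := y) hτ0 hh hfin)
  set M := (mu (cyl x τ0 (closedBall y h))).toReal with hM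
  have e8 : c * τ0 ^ m ≤ M := by
    have h10 : c ≤ 3 / 32 * cκ * (c0 / 4 ^ m) / Kκ := min_le_right _ _
    have h11 : 3 / 32 * cκ * (c0 / 4 ^ m) ≤ Kκ * ((τ0 ^ m)⁻¹ * M) := by
      have h12 : 0 < (4 * h) ^ 2 / 32 := by positivity
      have h13 : 3 / 32 * cκ * (c0 / 4 ^ m) * ((4 * h) ^ 2 / 32) ≤
          Kκ * ((τ0 ^ m)⁻¹ * M) * ((4 * h) ^ 2 / 32) := by
        calc 3 / 32 * cκ * (c0 / 4 ^ m) * ((4 * h) ^ 2 / 32)
            = 3 / 1024 * cκ * (c0 / 4 ^ m) * (4 * h) ^ 2 := by ring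
          _ ≤ _ := e7
          _ = _ := by ring
      exact le_of_mul_le_mul_right h13 h12
    have h14 : c ≤ (τ0 ^ m)⁻¹ * M := by
      refine h10.trans ?_
      rw [div_le_iff₀ hKκ]
      linarith
    calc c * τ0 ^ m ≤ ((τ0 ^ m)⁻¹ * M) * τ0 ^ m := by gcongr
      _ = M := by field_simp
  have hfinB : mu (cyl x τ0 (closedBall y h)) ≠ ⊤ :=
    ne_top_of_le_ne_top hfin (measure_mono (prod_mono subset_rfl (subset_univ _)))
  rw [← ENNReal.ofReal_toReal hfinB]
  exact ENNReal.ofReal_le_ofReal e8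

end Crest.Agent.R234.Sml_870
end
end

-- ▼ part R234/Sml2_870
section

/-!
# Row 234, N0-SMALL, part 2 (helper870): varifold form

General measure `W` on points × planes with frames at all centres and a `Flow`; conclusion in the form
consumed by 762's `dv_small_fv`.
-/

set_option autoImplicit false

open MeasureTheory Set Function Filter Topology
open Crest.GeometryTopology.Submanifold
open Crest.Agent.R234.Vf_884 Crest.Agent.R234.Ar_870 Crest.Agent.R234.Cy_870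
open Crest.Agent.R234.Wi_870
open scoped ENNReal NNReal InnerProductSpace ContDiff

noncomputable section

namespace Crest.Agent.R234.Sml_870

variable {m n k : ℕ} {π : Euc k →L[ℝ] Euc m} {κ : Euc k →L[ℝ] Euc n} {x₀ : Euc m}
  {ρ₀ : ℝ} {W : Measure (Euc k × L k)} {g1 : ℝ → ℝ}

/-- ambient balls inside boxes -/
theorem ball_le_box (hs : Split π κ) (W : Measure (Euc k × L k)) (z : Euc k) {r : ℝ}
    (hr : 0 ≤ r) :
    W (Metric.closedBall z r ×ˢ univ) ≤
      muOf W π κ (Well_761.cyl (π z) r (Metric.closedBall (κ z) r)) := by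
  have hcm : MeasurableSet (Well_761.cyl (π z) r (Metric.closedBall (κ z) r)) :=
    Metric.isClosed_closedBall.measurableSet.prod Metric.isClosed_closedBall.measurableSet
  unfold muOf
  rw [Measure.map_apply (measurable_bh π κ) hcm]
  refine measure_mono ?_
  rintro q ⟨hq, -⟩
  rw [Metric.mem_closedBall, dist_eq_norm] at hq
  have hn := hs.norm_sq (q.1 - z)
  have hq2 : ‖q.1 - z‖ ^ 2 ≤ r ^ 2 := pow_le_pow_left₀ (norm_nonneg _) hq 2
  have h1 : ‖π (q.1 - z)‖ ≤ r :=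
    (sq_le_sq₀ (norm_nonneg _) hr).1 (by nlinarith [sq_nonneg ‖κ (q.1 - z)‖])
  have h2 : ‖κ (q.1 - z)‖ ≤ r :=
    (sq_le_sq₀ (norm_nonneg _) hr).1 (by nlinarith [sq_nonneg ‖π (q.1 - z)‖])
  rw [map_sub, ← dist_eq_norm] at h1 h2
  exact ⟨h1, h2⟩

/-- solid cylinders have finite mass -/
theorem muOf_cyl_ne_top (hfr : ∀ x L, Fr W π κ x L) (x : Euc m) {s : ℝ} (hs : 0 < s)
    (S : Set (Euc n)) : muOf W π κ (Well_761.cyl x s S) ≠ ⊤ := by
  refine ne_top_of_le_ne_top ?_ (measure_mono (Set.prod_mono subset_rfl (subset_univ S)))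
  have hcm : MeasurableSet (Well_761.cyl x s (univ : Set (Euc n))) :=
    Metric.isClosed_closedBall.measurableSet.prod MeasurableSet.univ
  change muOf W π κ (Well_761.cyl x s univ) ≠ ⊤
  unfold muOf
  rw [Measure.map_apply (measurable_bh π κ) hcm]
  refine ne_top_of_le_ne_top (hfr x (Real.log s + 1)).fin.ne (measure_mono ?_)
  intro p hp
  have h4 : ‖π p.1 - x‖ ≤ s := by
    have := hp.1
    rwa [Metric.mem_closedBall, bh, dist_eq_norm] at this
  have h5 : ‖π p.1 - x‖ ^ 2 ≤ s ^ 2 := pow_le_pow_left₀ (norm_nonneg _) h4 2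
  have h6 : s ^ 2 = Real.exp (2 * Real.log s) := by
    have h7 := Real.exp_nat_mul (Real.log s) 2
    rw [Real.exp_log hs] at h7
    exact_mod_cast h7.symm
  rw [h6] at h5
  refine lt_of_le_of_lt h5 (Real.exp_lt_exp.2 ?_)
  linarith

/-- **N0-SMALL**, varifold form: `W`-almost every point over `B_{h/4}(x)`, `x` a centre with small energy
at all scales in `[h, τ0]`, is `(h, 4 τ0)`-small in the sense of 762's `dv_small_fv` -/
theorem small_close (hfr : ∀ x L, Fr W π κ x L) {R : Euc m → ℝ → ℝ} {er : Euc m → ℝ → ℝ → ℝ}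
    {K : ℝ}
    (hfl : Well_761.Flow m (kap g1) (muOf W π κ) (enOf W π κ) R er K x₀ ρ₀) {Kκ cκ : ℝ}
    (hκ : Well_761.Ker (kap g1) Kκ cκ) {c0 : ℝ} (hc0 : 0 < c0) {h : ℝ} (hh : 0 < h)
    (hlow : ∀ᵐ z ∂W, ‖π z.1 - x₀‖ + h / 4 ≤ ρ₀ →
      ENNReal.ofReal (c0 * (h / 4) ^ m) ≤ W (Metric.closedBall z.1 (h / 4) ×ˢ univ)) :
    ∀ᵐ z ∂W, ∀ (x : Euc m) (τ0 lam : ℝ), ‖π z.1 - x‖ ≤ h / 4 → h ≤ τ0 → ‖x - x₀‖ + τ0 ≤ ρ₀ →
      (∀ s ∈ Icc h τ0, (enOf W π κ (Well_761.cyl x s univ)).toReal ≤ lam * s ^ m) →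
      lam ≤ cS m K Kκ cκ c0 * (h / τ0) ^ 2 →
      (∀ l ∈ Icc (Real.log h) (Real.log τ0),
        er x l (4 * h) ≤ cS m K Kκ cκ c0 / (1 + Real.log (τ0 / h)) * (4 * h) ^ 2) →
      cS m K Kκ cκ c0 * τ0 ^ m ≤
        W.real {p | ‖π (z.1 - p.1)‖ ≤ 2 * τ0 ∧ ‖κ (z.1 - p.1)‖ ≤ h} := by
  filter_upwards [hlow] with z hz x τ0 lam hx hτ hdom hen hlam her
  have hs : Split π κ := (hfr x 0).sp
  have hτ0 : 0 < τ0 := hh.trans_le hτ
  have h1 : ENNReal.ofReal (c0 * (h / 4) ^ m) ≤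
      muOf W π κ (Well_761.cyl (π z.1) (h / 4) (Metric.closedBall (κ z.1) (h / 4))) := by
    refine (hz ?_).trans (ball_le_box hs W z.1 (by linarith))
    have h2 : ‖π z.1 - x₀‖ ≤ ‖π z.1 - x‖ + ‖x - x₀‖ := norm_sub_le_norm_sub_add_norm_sub _ _ _
    linarith
  have h3 := small_box hfl hκ hc0 (x := x) (x' := π z.1) (y := κ z.1) (h := h) (τ0 := τ0)
    (lam := lam) hh hτ (by rw [dist_eq_norm]; exact hx) (by rw [dist_eq_norm]; exact hdom)
    (muOf_cyl_ne_top hfr x hτ0 univ) h1 hen hlam her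
  have hcm : MeasurableSet (Well_761.cyl x τ0 (Metric.closedBall (κ z.1) h)) :=
    Metric.isClosed_closedBall.measurableSet.prod Metric.isClosed_closedBall.measurableSet
  have hsub : bh π κ ⁻¹' Well_761.cyl x τ0 (Metric.closedBall (κ z.1) h) ⊆
      {p | ‖π (z.1 - p.1)‖ ≤ 2 * τ0 ∧ ‖κ (z.1 - p.1)‖ ≤ h} := by
    rintro p ⟨hp1, hp2⟩
    rw [Metric.mem_closedBall, bh, dist_eq_norm] at hp1 hp2
    refine ⟨?_, ?_⟩
    · rw [map_sub]
      have h5 : π z.1 - π p.1 = (π z.1 - x) - (π p.1 - x) := by abel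
      rw [h5]
      refine (norm_sub_le _ _).trans ?_
      change ‖π p.1 - x‖ ≤ τ0 at hp1
      linarith
    · rw [map_sub, norm_sub_rev]
      exact hp2
  have hmu : muOf W π κ (Well_761.cyl x τ0 (Metric.closedBall (κ z.1) h)) =
      W (bh π κ ⁻¹' Well_761.cyl x τ0 (Metric.closedBall (κ z.1) h)) := by
    unfold muOf
    rw [Measure.map_apply (measurable_bh π κ) hcm]
  have hfinB : W {p | ‖π (z.1 - p.1)‖ ≤ 2 * τ0 ∧ ‖κ (z.1 - p.1)‖ ≤ h} ≠ ⊤ := by
    refine ne_top_of_le_ne_top (muOf_cyl_ne_top hfr (π z.1) (s := 2 * τ0) (by linarith) univ) ?_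
    have hcm2 : MeasurableSet (Well_761.cyl (π z.1) (2 * τ0) (univ : Set (Euc n))) :=
      Metric.isClosed_closedBall.measurableSet.prod MeasurableSet.univ
    unfold muOf
    rw [Measure.map_apply (measurable_bh π κ) hcm2]
    refine measure_mono ?_
    rintro p ⟨hp1, -⟩
    refine ⟨?_, trivial⟩
    rw [Metric.mem_closedBall, bh, dist_eq_norm, norm_sub_rev]
    rw [map_sub] at hp1
    exact hp1
  rw [hmu] at h3
  have h6 := h3.trans (measure_mono hsub)
  rw [Measure.real]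
  exact (ENNReal.ofReal_le_iff_le_toReal hfinB).1 h6

end Crest.Agent.R234.Sml_870
end
end

-- ▼ part R234/Sml3_870

/-!
# Row 234, N0-SMALL, part 3 (helper870): the class `CylAS` and the class `Cls` of the core

`small_as`: `CylAS`, one profile fixed (`(1-t)₊³`), explicit smallness.
`small_cls`: the part `part π κ Dd` of a varifold of the class `Cls`.
-/

set_option autoImplicit false

open MeasureTheory Set Function Filter Topology
open Crest.GeometryTopology.Submanifold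
open Crest.Agent.R234.Vf_884 Crest.Agent.R234.Ar_870 Crest.Agent.R234.Cy_870
open Crest.Agent.R234.Wi_870 Crest.Agent.R234.Asl_214
open Crest.Agent.R234.GI_640 (g3 g31 g32)
open Crest.Agent.R234.We_822 (BB BB_one erAS erAS_le CAS CAS_nonneg flow_as enR muR tb_le_enR mb_le_muR
  mass_good)
open scoped ENNReal NNReal InnerProductSpace ContDiff

noncomputable section

namespace Crest.Agent.R234.Sml_870

variable {m n k : ℕ} {π : Euc k →L[ℝ] Euc m} {κ : Euc k →L[ℝ] Euc n} {x₀ : Euc m}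
  {R h₀ δ : ℝ} {W : Measure (Euc k × L k)}

/-! ### the profile -/

theorem bd3 : Bd g3 g31 6 where
  b0 t ht := by
    rw [abs_of_nonneg (GI_640.g3_nonneg t)]
    exact (GI_640.g3_le_one ht).trans (by norm_num)
  b1 t ht := (GI_640.abs_g31_le ht).trans (by norm_num)
  b2 t ht := (GI_640.abs_t_g31_le ht).trans (by norm_num)

theorem bd31 : Bd g31 g32 6 where
  b0 t ht := (GI_640.abs_g31_le ht).trans (by norm_num)
  b1 t ht := GI_640.abs_g32_le ht
  b2 t ht := GI_640.abs_t_g32_le ht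

theorem ker3 : Well_761.Ker (kap g31) (2 * 3) (2 * (27 / 16)) :=
  ker_kap GI_640.prof (fun t ht => GI_640.abs_g31_le ht) (by norm_num)
    (fun t _ ht => by have := GI_640.g31_lower ht; linarith)

theorem exp_neg_two_le : Real.exp (-2 * 1) ≤ 1 / 4 := by
  have h1 : (2:ℝ) ≤ Real.exp 1 := by
    have := Real.add_one_le_exp (1:ℝ)
    linarith
  have h2 : Real.exp (-2 * 1) * (Real.exp 1 * Real.exp 1) = 1 := by
    rw [← Real.exp_add, ← Real.exp_add]
    norm_num
  have h3 : 4 ≤ Real.exp 1 * Real.exp 1 := by nlinarith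
  have h4 := mul_le_mul_of_nonneg_left h3 (Real.exp_pos (-2 * 1)).le
  rw [h2] at h4
  exact (le_div_iff₀ (by norm_num)).2 h4

theorem g3_low : ∀ t, 0 ≤ t → t ≤ Real.exp (-2 * 1) → ((3:ℝ) / 4) ^ 3 ≤ g3 t := by
  intro t _ ht
  have h1 := GI_640.g3_lower (a := 1 / 4) (t := t) (by norm_num) (ht.trans exp_neg_two_le)
  norm_num at h1 ⊢
  exact h1

/-! ### constants -/

/-- the small constant of `small_as` -/
def cs3 (m : ℕ) (c0 : ℝ) : ℝ := cS m (6 * BB + 6 * 6) (2 * 3) (2 * (27 / 16)) c0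

theorem cs3_pos (m : ℕ) {c0 : ℝ} (hc0 : 0 < c0) : 0 < cs3 m c0 :=
  cS_pos m (by have := BB_one; linarith) (by norm_num) (by norm_num) hc0

/-- the mass constant -/
def Cm3 (m : ℕ) (c0 Cm : ℝ) : ℝ :=
  2 * ((((3:ℝ) / 4) ^ 3)⁻¹ * Real.exp (m * 1) * (1 * Cm + 2 * cs3 m c0))

theorem Cm3_nonneg (m : ℕ) {c0 Cm : ℝ} (hc0 : 0 < c0) (hCm : 0 ≤ Cm) : 0 ≤ Cm3 m c0 Cm := by
  have := cs3_pos m hc0
  unfold Cm3; positivity

/-- the large constant of `small_as` -/
def CL3 (m : ℕ) (c0 Cm : ℝ) : ℝ :=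
  24 + 48 * ((((3:ℝ) / 4) ^ 3)⁻¹ * Real.exp (m * 1)) +
    2 * (CAS 6 (cs3 m c0 / 16) (cs3 m c0) (Cm3 m c0 Cm) / cs3 m c0)

theorem CL3_pos (m : ℕ) {c0 Cm : ℝ} (hc0 : 0 < c0) (hCm : 0 ≤ Cm) : 0 < CL3 m c0 Cm := by
  have h1 := cs3_pos m hc0
  have h2 := CAS_nonneg (K := 6) (a := cs3 m c0 / 16) (lam := cs3 m c0) (Cμ := Cm3 m c0 Cm)
    (by norm_num) (by positivity) h1.le (Cm3_nonneg m hc0 hCm)
  unfold CL3; positivity

set_option maxHeartbeats 1000000 in
/-- **N0-SMALL for `CylAS`** -/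
theorem small_as (h : CylAS W π κ x₀ R h₀ δ) (h0 : 0 ≤ δ) (hδ : δ ≤ 1) (hh : 0 ≤ h₀)
    (hh1 : h₀ ≤ 1) {c0 Cm h' t : ℝ} (hc0 : 0 < c0) (hCm : 0 ≤ Cm) (hp : 0 < h') (h4 : 4 * h' ≤ 1)
    (hht : h' ≤ t) (ht1 : t ≤ 1)
    (hs1 : √δ * (1 + Real.log (t / h')) ≤ (CL3 m c0 Cm)⁻¹)
    (hs2 : δ * h₀ * t * (1 + Real.log (t / h')) ≤ (CL3 m c0 Cm)⁻¹ * h')
    (hlow : ∀ᵐ z ∂W, ‖π z.1 - x₀‖ + h' / 4 ≤ R →
      ENNReal.ofReal (c0 * (h' / 4) ^ m) ≤ W (Metric.closedBall z.1 (h' / 4) ×ˢ univ)) :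
    ∀ᵐ z ∂W, ∀ x : Euc m, ‖π z.1 - x‖ ≤ h' / 4 → ‖x - x₀‖ + t ≤ R →
      W.real {p | ‖π p.1 - x‖ ≤ t} ≤ Cm * t ^ m →
      (∀ s ∈ Icc h' t, N5_372.eM W π (Metric.closedBall x s) ≤
        ENNReal.ofReal (cs3 m c0 * (h' / t) ^ 2 * s ^ m)) →
      cs3 m c0 * t ^ m ≤ W.real {p | ‖π (z.1 - p.1)‖ ≤ 2 * t ∧ ‖κ (z.1 - p.1)‖ ≤ h'} := by
  have hg0 : ∀ t, 0 ≤ t → 0 ≤ g3 t := fun t _ => GI_640.g3_nonneg t
  have hfl := flow_as (ρ₀ := R) h h0 hh le_rfl GI_640.prof bd3 bd31 hg0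
  have hcl := small_close (fun x L => h.fr x L) hfl ker3 hc0 hp hlow
  have ht0 : 0 < t := hp.trans_le hht
  have hcs := cs3_pos m hc0
  have hL0 : 0 ≤ Real.log (t / h') := Real.log_nonneg (by rw [le_div_iff₀ hp]; linarith)
  have hlt : Real.log t - Real.log h' = Real.log (t / h') := (Real.log_div ht0.ne' hp.ne').symm
  have hCL := CL3_pos m hc0 hCm
  have hCm3 := Cm3_nonneg m hc0 hCm
  have hsd := Real.sqrt_nonneg δ
  have hδs : δ ≤ √δ := by
    have h1 : √δ ≤ 1 := by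
      rw [show (1:ℝ) = √1 from Real.sqrt_one.symm]; exact Real.sqrt_le_sqrt hδ
    have h2 : √δ * √δ = δ := Real.mul_self_sqrt h0
    nlinarith
  have hCi : 0 < (CL3 m c0 Cm)⁻¹ := inv_pos.2 hCL
  have hCAS := CAS_nonneg (K := 6) (a := cs3 m c0 / 16) (lam := cs3 m c0) (Cμ := Cm3 m c0 Cm)
    (by norm_num) (by positivity) hcs.le hCm3
  have hce : 0 < (((3:ℝ) / 4) ^ 3)⁻¹ * Real.exp (m * 1) := by positivity
  have hX : 0 ≤ CAS 6 (cs3 m c0 / 16) (cs3 m c0) (Cm3 m c0 Cm) / cs3 m c0 := by positivity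
  -- consequences of the smallness
  have q0 : (CL3 m c0 Cm)⁻¹ * CL3 m c0 Cm = 1 := inv_mul_cancel₀ hCL.ne'
  have d1 : 24 ≤ CL3 m c0 Cm := by unfold CL3; linarith
  have d2 : 48 * ((((3:ℝ) / 4) ^ 3)⁻¹ * Real.exp (m * 1)) ≤ CL3 m c0 Cm := by
    unfold CL3; linarith
  have d3 : 2 * (CAS 6 (cs3 m c0 / 16) (cs3 m c0) (Cm3 m c0 Cm) / cs3 m c0) ≤ CL3 m c0 Cm := by
    unfold CL3; linarith
  set Li := (CL3 m c0 Cm)⁻¹ with hLi
  set Lg := 1 + Real.log (t / h') with hLg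
  have hLg1 : 1 ≤ Lg := by rw [hLg]; linarith
  have e2 : δ * Lg ≤ Li := (mul_le_mul_of_nonneg_right hδs (by linarith)).trans hs1
  have e3 : δ ≤ Li := (le_mul_of_one_le_right h0 hLg1).trans e2
  have e4 : 24 * δ ≤ 1 := by
    have h1 := mul_le_mul_of_nonneg_right d1 hCi.le
    have h9 : CL3 m c0 Cm * Li = 1 := by rw [mul_comm]; exact q0
    rw [h9] at h1
    linarith
  filter_upwards [hcl] with z hz x hx hdom hmass hen
  have hlogt : Real.exp (Real.log t) = t := Real.exp_log ht0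
  have hlogh : Real.exp (Real.log h') = h' := Real.exp_log hp
  have hll : Real.log h' ≤ Real.log t := Real.log_le_log hp hht
  have hr0 : 0 ≤ (h' / t) ^ 2 := sq_nonneg _
  have hr1 : h' / t ≤ 1 := by rw [div_le_one ht0]; exact hht
  have hrp : 0 < h' / t := by positivity
  have hen' : ∀ s ∈ Icc h' t, (enOf W π κ (Well_761.cyl x s univ)).toReal ≤
      cs3 m c0 * (h' / t) ^ 2 * s ^ m := by
    intro s hs
    rw [We_822.enOf_cyl]
    have hs0 : 0 < s := hp.trans_le hs.1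
    exact ENNReal.toReal_le_of_le_ofReal (by positivity) (hen s hs)
  have hexp : ∀ l ∈ Icc (Real.log h') (Real.log t), Real.exp l ∈ Icc h' t := by
    intro l hl
    constructor
    · rw [← hlogh]; exact Real.exp_le_exp.2 hl.1
    · rw [← hlogt]; exact Real.exp_le_exp.2 hl.2
  have hpow : ∀ l : ℝ, Real.exp l ^ m = Real.exp (m * l) := fun l => (Real.exp_nat_mul l m).symm
  have henR : ∀ l ∈ Icc (Real.log h') (Real.log t),
      enR W π κ x l ≤ cs3 m c0 * (h' / t) ^ 2 * Real.exp (m * l) := by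
    intro l hl
    rw [← hpow]
    exact hen' _ (hexp l hl)
  -- mass at all scales
  have hmu : ∀ l ∈ Icc (Real.log h') (Real.log t), muR W π κ x l ≤
      Cm3 m c0 Cm * Real.exp (m * l) := by
    have h1 := mass_good (V := W) (π := π) (κ := κ) (x := x) (fun L => h.fr x L) GI_640.prof hg0
      (Kg := 1) (fun t ht => GI_640.g3_le_one ht) (c := ((3:ℝ) / 4) ^ 3) (a := 1) (by positivity)
      zero_le_one g3_low (l0 := Real.log h') (l1 := Real.log t)
      (lam := cs3 m c0 * (h' / t) ^ 2) (η := 24 * δ) (C1 := Cm) (h := h₀) hll (by positivity)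
      (by positivity) hCm henR ?_ ?_ ?_
    · intro l hl
      refine (h1 l hl).trans (mul_le_mul_of_nonneg_right ?_ (Real.exp_pos _).le)
      unfold Cm3
      refine mul_le_mul_of_nonneg_left (mul_le_mul_of_nonneg_left ?_ hce.le) (by norm_num)
      rw [hlt]
      have h2 : (h' / t) ^ 2 * Real.log (t / h') ≤ 1 := by
        have h3 : Real.log (t / h') ≤ t / h' - 1 := Real.log_le_sub_one_of_pos (by positivity)
        have h4 : h' / t * (t / h') = 1 := by field_simp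
        have h5 : (h' / t) ^ 2 * Real.log (t / h') ≤ (h' / t) ^ 2 * (t / h') :=
          mul_le_mul_of_nonneg_left (by linarith) hr0
        have h6 : (h' / t) ^ 2 * (t / h') = h' / t := by
          rw [pow_two, mul_assoc, h4, mul_one]
        linarith
      have h2' : 0 ≤ (h' / t) ^ 2 * Real.log (t / h') := by positivity
      have h7 : (1 + 24 * δ) * (cs3 m c0 * (h' / t) ^ 2) * Real.log (t / h') =
          ((1 + 24 * δ) * cs3 m c0) * ((h' / t) ^ 2 * Real.log (t / h')) := by ring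
      have h8 : (1 + 24 * δ) * cs3 m c0 ≤ 2 * cs3 m c0 :=
        mul_le_mul_of_nonneg_right (by linarith) hcs.le
      have h9 : ((1 + 24 * δ) * cs3 m c0) * ((h' / t) ^ 2 * Real.log (t / h')) ≤
          (2 * cs3 m c0) * 1 := mul_le_mul h8 h2 h2' (by positivity)
      linarith
    · intro l hl
      have hs := hexp l hl
      have h2 := h.FV1_le h0 hh GI_640.prof.k0 bd3 (x := x) (l := l) (by linarith [hs.2])
      have h3 : TB W π x (Real.exp l) ≤ enR W π κ x l := by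
        have := tb_le_enR (κ := κ) h x l
        unfold tb at this
        exact le_of_mul_le_mul_left this (Real.exp_pos _)
      have h4 : MB W π x (Real.exp l) ≤ muR W π κ x l := by
        have := mb_le_muR (κ := κ) h x l
        unfold mb at this
        exact le_of_mul_le_mul_left this (Real.exp_pos _)
      have h5 : Real.exp l ≤ 1 := hs.2.trans ht1
      have h6 : 0 ≤ TB W π x (Real.exp l) := h.TB_nonneg x _
      have h7 := MB_nonneg (W := W) (π := π) x (Real.exp l)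
      refine h2.trans ?_
      have h8 : δ * (6 * (3 + Real.exp l)) ≤ 24 * δ := by
        have := mul_le_mul_of_nonneg_left h5 h0
        linarith
      refine mul_le_mul h8 ?_ (by positivity) (by positivity)
      have h9 : h₀ ^ 2 * MB W π x (Real.exp l) ≤ h₀ ^ 2 * muR W π κ x l :=
        mul_le_mul_of_nonneg_left h4 (sq_nonneg _)
      linarith
    · have h2 : muR W π κ x (Real.log t) = W.real {p | ‖π p.1 - x‖ ≤ t} := by
        have hcm : MeasurableSet (Well_761.cyl x t (univ : Set (Euc n))) :=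
          Metric.isClosed_closedBall.measurableSet.prod MeasurableSet.univ
        unfold muR muOf
        rw [hlogt, Measure.map_apply (measurable_bh π κ) hcm, Measure.real]
        congr 2
        ext p
        simp [Well_761.cyl, bh, dist_eq_norm]
      rw [h2, ← hpow, hlogt]
      exact hmass
    · rw [hlt]
      have h2 : h₀ ^ 2 ≤ 1 := pow_le_one₀ hh hh1
      have h3 : 24 * δ * h₀ ^ 2 * Real.log (t / h') ≤ 24 * Li := by
        have h4 : h₀ ^ 2 * Real.log (t / h') ≤ 1 * Lg :=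
          mul_le_mul h2 (by rw [hLg]; linarith) hL0 zero_le_one
        have h5 : δ * (h₀ ^ 2 * Real.log (t / h')) ≤ δ * (1 * Lg) :=
          mul_le_mul_of_nonneg_left h4 h0
        have h6 : 24 * δ * h₀ ^ 2 * Real.log (t / h') =
          24 * (δ * (h₀ ^ 2 * Real.log (t / h'))) := by ring
        rw [h6]
        rw [one_mul] at h5
        linarith
      have h6 : (((3:ℝ) / 4) ^ 3)⁻¹ * Real.exp (m * 1) * (24 * δ * h₀ ^ 2) *
          Real.log (t / h') = ((((3:ℝ) / 4) ^ 3)⁻¹ * Real.exp (m * 1)) *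
          (24 * δ * h₀ ^ 2 * Real.log (t / h')) := by ring
      rw [h6]
      have h7 := mul_le_mul_of_nonneg_left h3 hce.le
      have h8 := mul_le_mul_of_nonneg_right d2 hCi.le
      have h9 : CL3 m c0 Cm * Li = 1 := by rw [mul_comm]; exact q0
      rw [h9] at h8
      refine h7.trans ?_
      linarith
  refine hz x t (cs3 m c0 * (h' / t) ^ 2) hx hht hdom hen' le_rfl ?_
  intro l hl
  have hs := hexp l hl
  have hl0 : l ≤ 0 := by
    refine hl.2.trans ?_
    exact Real.log_nonpos ht0.le ht1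
  have hq : 0 < 4 * h' := by linarith
  have htb0 := h.tb_nonneg x l
  have hE := henR l hl
  have htbE : tb W π x l ≤ cs3 m c0 * (h' / t) ^ 2 * Real.exp (2 * l) := by
    refine (tb_le_enR (κ := κ) h x l).trans ?_
    refine (mul_le_mul_of_nonneg_left hE (Real.exp_pos _).le).trans (le_of_eq ?_)
    have : Real.exp ((2 - m) * l) * Real.exp (m * l) = Real.exp (2 * l) := by
      rw [← Real.exp_add]; congr 1; ring
    linear_combination cs3 m c0 * (h' / t) ^ 2 * this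
  have e2l : Real.exp (2 * l) = Real.exp l ^ 2 := by
    have := Real.exp_nat_mul l 2
    exact_mod_cast this
  have htb : tb W π x l ≤ cs3 m c0 / 16 * (4 * h') ^ 2 := by
    refine htbE.trans ?_
    rw [e2l]
    have h1 : Real.exp l ^ 2 ≤ t ^ 2 := pow_le_pow_left₀ (Real.exp_pos _).le hs.2 2
    have h2 : cs3 m c0 * (h' / t) ^ 2 * Real.exp l ^ 2 ≤ cs3 m c0 * (h' / t) ^ 2 * t ^ 2 :=
      mul_le_mul_of_nonneg_left h1 (by positivity)
    refine h2.trans (le_of_eq ?_)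
    field_simp
    ring
  have htb2 : Real.exp (-2 * l) * tb W π x l ≤ cs3 m c0 := by
    have h1 := mul_le_mul_of_nonneg_left htbE (Real.exp_pos (-2 * l)).le
    have h2 : Real.exp (-2 * l) * Real.exp (2 * l) = 1 := by
      rw [← Real.exp_add]
      have : -2 * l + 2 * l = 0 := by ring
      rw [this, Real.exp_zero]
    have h3 : Real.exp (-2 * l) * (cs3 m c0 * (h' / t) ^ 2 * Real.exp (2 * l)) =
        cs3 m c0 * (h' / t) ^ 2 := by linear_combination cs3 m c0 * (h' / t) ^ 2 * h2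
    have h4 : (h' / t) ^ 2 ≤ 1 := pow_le_one₀ hrp.le hr1
    rw [h3] at h1
    exact h1.trans (mul_le_of_le_one_right hcs.le h4)
  have hmb : mb W π x l ≤ Cm3 m c0 Cm := by
    refine (mb_le_muR (κ := κ) h x l).trans ?_
    have h1 := mul_le_mul_of_nonneg_left (hmu l hl) (Real.exp_pos (-m * l)).le
    refine h1.trans (le_of_eq ?_)
    have h2 : Real.exp (-m * l) * Real.exp (m * l) = 1 := by
      rw [← Real.exp_add]
      have : -m * l + m * l = 0 := by ring
      rw [this, Real.exp_zero]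
    linear_combination Cm3 m c0 Cm * h2
  have hb : δ * h₀ * Real.exp l ≤ (δ * h₀ * t / (4 * h')) * (4 * h') := by
    rw [div_mul_cancel₀ _ hq.ne']
    exact mul_le_mul_of_nonneg_left hs.2 (by positivity)
  have hfin := erAS_le (W := W) (π := π) (κ := κ) (x := x) h (by norm_num : (0:ℝ) ≤ 6) h0 hδ hh hh1
    (l := l) (q := 4 * h') (a := cs3 m c0 / 16) (b := δ * h₀ * t / (4 * h')) (lam := cs3 m c0)
    (Cμ := Cm3 m c0 Cm) hq h4 hl0 (by positivity) (by positivity) hcs.le htb htb2 hmb hb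
  refine hfin.trans (mul_le_mul_of_nonneg_right ?_ (sq_nonneg _))
  change _ ≤ cs3 m c0 / (1 + Real.log (t / h'))
  rw [← hLg, le_div_iff₀ (by linarith)]
  set A := CAS 6 (cs3 m c0 / 16) (cs3 m c0) (Cm3 m c0 Cm) with hA
  have f1 : δ * h₀ * t / (4 * h') * Lg ≤ Li := by
    rw [div_mul_eq_mul_div, div_le_iff₀ hq]
    refine hs2.trans ?_
    have := mul_pos hCi hp
    linarith
  have f2 : (√δ + δ * h₀ * t / (4 * h')) * Lg ≤ 2 * Li := by
    rw [add_mul]; linarith
  have f3 : A * (2 * Li) ≤ cs3 m c0 := by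
    have h1 : 2 * (A / cs3 m c0) * Li ≤ CL3 m c0 Cm * Li := mul_le_mul_of_nonneg_right d3 hCi.le
    have h2 : CL3 m c0 Cm * Li = 1 := by rw [mul_comm]; exact q0
    rw [h2] at h1
    have h3 : A * (2 * Li) = (2 * (A / cs3 m c0) * Li) * cs3 m c0 := by field_simp
    rw [h3]
    exact mul_le_of_le_one_left hcs.le h1
  calc A * (√δ + δ * h₀ * t / (4 * h')) * Lg = A * ((√δ + δ * h₀ * t / (4 * h')) * Lg) := by ring
    _ ≤ A * (2 * Li) := mul_le_mul_of_nonneg_left f2 hCAS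
    _ ≤ cs3 m c0 := f3

/-! ### the class `Cls` -/

open Crest.Agent.R234.Core_809 (Cls part)

/-- almost every point is in the support -/
theorem ae_mem_support {U : Set (Euc k)} {D : VarifoldData m k} (hD : IsIntegralVarifoldIn U D) :
    ∀ᵐ p ∂(VD D), p.1 ∈ Crest.GeometryTopology.Submanifold.support D := by
  have hcl : IsClosed (Crest.GeometryTopology.Submanifold.support D) := by
    rw [← isOpen_compl_iff, Metric.isOpen_iff]
    intro x hx
    simp only [Crest.GeometryTopology.Submanifold.support, mem_compl_iff, mem_ofPred_eq, not_forall, not_lt, nonpos_iff_eq_zero] at hx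
    obtain ⟨ρ, hρ, h0⟩ := hx
    refine ⟨ρ, hρ, fun y hy hy2 => ?_⟩
    have h1 := hy2 (ρ - dist y x) (by rw [Metric.mem_ball] at hy; linarith)
    refine h1.ne' (measure_mono_null (Metric.ball_subset_ball' (by linarith)) h0)
  have h1 : weight D (Crest.GeometryTopology.Submanifold.support D)ᶜ = 0 := by
    refine measure_null_of_locally_null _ fun x hx => ?_
    simp only [Crest.GeometryTopology.Submanifold.support, mem_compl_iff, mem_ofPred_eq, not_forall, not_lt,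
      nonpos_iff_eq_zero] at hx
    obtain ⟨ρ, hρ, h0⟩ := hx
    exact ⟨_, mem_nhdsWithin_of_mem_nhds (Metric.ball_mem_nhds x hρ), h0⟩
  rw [← VD_prod_univ hD hcl.measurableSet.compl] at h1
  rw [ae_iff]
  refine measure_mono_null ?_ h1
  rintro p hp
  exact ⟨hp, mem_univ _⟩

/-- the lower density bound of the part -/
theorem low_part {Q : ℕ} {D : ℝ} {U : Set (Euc k)} {Dd : VarifoldData m k}
    (h : Cls Q δ D π κ U Dd) (hm : 1 ≤ m) (hD1 : D ≤ 1 / 4) {r : ℝ} (hr : 0 < r)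
    (hr1 : r ≤ 1 / 2) :
    ∀ᵐ z ∂(part π κ Dd), ‖π z.1 - 0‖ + r ≤ 4 →
      ENNReal.ofReal (ome m / 2 ^ m * r ^ m) ≤ part π κ Dd (Metric.closedBall z.1 r ×ˢ univ) := by
  have hcm : MeasurableSet (Cy_870.cyl π κ 0 4 1 ×ˢ (univ : Set (L k))) :=
    (isClosed_cyl π κ 0 4 1).measurableSet.prod MeasurableSet.univ
  obtain ⟨T, T', hT, hg, hst⟩ := h.ex
  unfold part
  filter_upwards [ae_restrict_mem hcm, ae_restrict_of_ae h.hgt,
    ae_restrict_of_ae (ae_mem_support h.int)] with z hz hh hsup hdom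
  have hh' := hh hz.1
  have h1 : ‖κ z.1‖ ≤ 1 / 2 :=
    (sq_le_sq₀ (norm_nonneg _) (by norm_num)).1 (by linarith)
  have hsub : Metric.closedBall z.1 r ⊆ Cy_870.cyl π κ 0 4 1 := by
    intro w hw
    rw [Metric.mem_closedBall, dist_eq_norm] at hw
    have hn := h.sp.norm_sq (w - z.1)
    have h2 : ‖π (w - z.1)‖ ≤ r :=
      (sq_le_sq₀ (norm_nonneg _) hr.le).1 (by nlinarith [sq_nonneg ‖κ (w - z.1)‖, norm_nonneg (w - z.1)])
    have h3 : ‖κ (w - z.1)‖ ≤ r :=
      (sq_le_sq₀ (norm_nonneg _) hr.le).1 (by nlinarith [sq_nonneg ‖π (w - z.1)‖, norm_nonneg (w - z.1)])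
    have h4 : π w - 0 = (π z.1 - 0) + π (w - z.1) := by rw [map_sub]; abel
    have h5 : κ w = κ z.1 + κ (w - z.1) := by rw [map_sub]; abel
    refine ⟨?_, ?_⟩
    · rw [h4]; exact (norm_add_le _ _).trans (by linarith)
    · rw [h5]; exact (norm_add_le _ _).trans (by linarith)
  have h6 := Ex_46.low_mass h.int h.isOpen hT hg hst hm hsup hr
    (Metric.ball_subset_closedBall.trans (hsub.trans h.dom))
  rw [Measure.restrict_apply (Metric.isClosed_closedBall.measurableSet.prod MeasurableSet.univ),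
    Set.prod_inter_prod, univ_inter, inter_eq_left.2 hsub,
    VD_prod_univ h.int Metric.isClosed_closedBall.measurableSet]
  exact h6.trans (measure_mono Metric.ball_subset_closedBall)

theorem cylAS_cls {Q : ℕ} {D : ℝ} {U : Set (Euc k)} {Dd : VarifoldData m k}
    (h : Cls Q δ D π κ U Dd) (hD1 : D < 1) : CylAS (part π κ Dd) π κ 0 4 (√D) δ := by
  refine cylAS_of_AS h.as h.sp (h₁ := 1) ?_ one_pos h.dom ?_
  · rw [show (1:ℝ) = √1 from Real.sqrt_one.symm]
    exact Real.sqrt_lt_sqrt_iff_of_pos one_pos |>.2 hD1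
  · filter_upwards [h.hgt] with p hp hpc
    exact Real.le_sqrt_of_sq_le (hp hpc)

/-- **N0-SMALL for the class of the core** -/
theorem small_cls (m : ℕ) (hm : 1 ≤ m) {Cm : ℝ} (hCm : 0 ≤ Cm) :
    ∃ cs C : ℝ, 0 < cs ∧ 0 < C ∧ ∀ (n k Q : ℕ) (π : Euc k →L[ℝ] Euc m) (κ : Euc k →L[ℝ] Euc n)
      (U : Set (Euc k)) (Dd : VarifoldData m k) (δ D h t : ℝ), Cls Q δ D π κ U Dd →
      0 ≤ δ → δ ≤ 1 → D ≤ 1 / 4 → 0 < h → 4 * h ≤ 1 → h ≤ t → t ≤ 1 →
      √δ * (1 + Real.log (t / h)) ≤ C⁻¹ → δ * √D * t * (1 + Real.log (t / h)) ≤ C⁻¹ * h →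
      ∀ᵐ z ∂(part π κ Dd), ∀ x : Euc m, ‖π z.1 - x‖ ≤ h / 4 → ‖x‖ + t ≤ 4 →
        (part π κ Dd).real {p | ‖π p.1 - x‖ ≤ t} ≤ Cm * t ^ m →
        (∀ s ∈ Icc h t, N5_372.eM (part π κ Dd) π (Metric.closedBall x s) ≤
          ENNReal.ofReal (cs * (h / t) ^ 2 * s ^ m)) →
        cs * t ^ m ≤ (part π κ Dd).real {p | ‖π (z.1 - p.1)‖ ≤ 2 * t ∧ ‖κ (z.1 - p.1)‖ ≤ h} := by
  have hc0 : 0 < ome m / 2 ^ m := div_pos (ome_pos m) (by positivity)
  refine ⟨cs3 m (ome m / 2 ^ m), CL3 m (ome m / 2 ^ m) Cm, cs3_pos m hc0, CL3_pos m hc0 hCm, ?_⟩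
  intro n k Q π κ U Dd δ D h t hC h0 h1 hD1 hh h4 hht ht1 hs1 hs2
  have hlow := low_part hC hm hD1 (r := h / 4) (by positivity) (by linarith)
  have hsD : √D ≤ 1 := by
    rw [show (1:ℝ) = √1 from Real.sqrt_one.symm]
    exact Real.sqrt_le_sqrt (by linarith)
  have h5 := small_as (cylAS_cls hC (by linarith)) h0 h1 (Real.sqrt_nonneg D) hsD hc0 hCm hh h4
    hht ht1 hs1 hs2 hlow
  filter_upwards [h5] with z hz x hx hdom
  exact hz x hx (by rw [sub_zero]; exact hdom)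

end Crest.Agent.R234.Sml_870
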