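import Crest.Agent.R234.F37_354
import Crest.Agent.R234.Ex10_46
import Crest.Agent.R234.Sml3_870
import Crest.Agent.R234.Fx4_281
import Crest.Agent.R234.F35_354
import Crest.Agent.R234.Core0_809
import Crest.Agent.R234.Gi7_456
import Crest.Agent.R234.Bp3_3
import Crest.Agent.R234.Ex9_46
import Crest.Agent.R234.F35k_433
import Crest.Agent.R234.GL6_394

-- ▼ part R234/F38_354
section

/-!
# Row 234, F3 (helper354), file 8: heights over the surface near a base point; the kernel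
-/

set_option autoImplicit false

open MeasureTheory Filter Topology Set Metric
open scoped ENNReal NNReal ContDiff InnerProductSpace
open Crest.GeometryTopology.Submanifold Crest.Agent.R234.Vf_884

noncomputable section

namespace Crest.Agent.R234.F37_354

open Crest.Agent.R234.Main_456 (Frame Msys sep box)
open Crest.Agent.R234.Gi_456 (Gr tube foot ch Lo IsFoot)
open Crest.Agent.R234.GL_394 (VK On Ok)
open Crest.Agent.R234.Cy_870 (Split cyl)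
open Crest.Agent.R234.Fc_209 (IsChart Bd)
open Crest.Agent.R234.Foot_842 (pt)
open Crest.Agent.R234.Nrm_842 (Zm zc)
open Crest.Agent.R234.Grot_842 (rπ rρ)
open Crest.Agent.R234.Fm_281 (zy)
open Crest.Agent.R234.Ex_46 (hmt')
open Crest.Agent.R234.F35_354 (Bp)

variable {m n k : ℕ} {π : Euc k →L[ℝ] Euc m} {ρ : Euc k →L[ℝ] Euc n} {x : Euc k}
  {w : Euc m → Euc n} {Xc X : Euc m} {t : ℝ} {U K : Set (Euc k)} {Dd : VarifoldData m k}
  {C κ e : ℝ} {q : Euc m →L[ℝ] Euc n} {H : Euc m →L[ℝ] Euc m} {H' : Euc n →L[ℝ] Euc n}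
  {w' u : Euc m → Euc n} {T : Ft_209.Dif k}

/-- the constant of the heights -/
def Kh (m : ℕ) : ℝ := 8 * 2 ^ m / ome m

theorem Kh_pos (m : ℕ) : 0 < Kh m := by
  have := ome_pos m
  unfold Kh
  positivity

/-- **heights** -/
theorem heights (h : Am π ρ x w Xc X t U K Dd) (hB : Bp π ρ x w X C κ t q H H' w' u T e)
    (hC : Ex_46.Cht (rπ π ρ q H) (rρ π ρ q H') u e T.Φ T.Ψ) (hm : 1 ≤ m)
    (hms : ∀ v ∈ ball (0 : Euc m) 7, Msys u v = 0) (hlm : 64 * m * (C * κ * t) ^ 2 ≤ 1) {d : ℝ}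
    (hd : sep (VD Dd) (rπ π ρ q H) (rρ π ρ q H') (pt π ρ x w X) t u 7 ≤ d * t ^ (m + 2)) :
    ∀ᵐ p ∂(VD Dd), p.1 ∈ K → ‖foot π ρ x 1 w p.1 - X‖ ≤ 6 * t →
      ‖p.1 - pt π ρ x w (foot π ρ x 1 w p.1)‖ ^ 2 ≤ Kh m * d * t ^ 2 := by
  have ht := hB.zm.t0
  have ht16 := hB.t16
  have hom := ome_pos m
  have hs := Fm_281.splitZ hB.zm hB.fr
  have hu : ContDiff ℝ 3 u := Fm_281.cdU hB.zm
  have hu2 : ContDiff ℝ 2 u := hu.of_le (by norm_num)
  have hl := hB.zm.Cκt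
  have hl1 : ∀ v, ‖fderiv ℝ u v‖ ≤ C * κ * t := hB.zm.norm_dU
  have hl0 : 0 ≤ C * κ * t := (norm_nonneg _).trans (hl1 0)
  have hu0 : ∀ v, ‖u v‖ ≤ C * κ * t := fun v => by
    have := hB.zm.bd 0 (by norm_num) v
    rwa [norm_iteratedFDeriv_zero] at this
  have hu22 : ∀ v ∈ ball (0 : Euc m) 7, ‖iteratedFDeriv ℝ 2 u v‖ ≤ C * κ * t ∧ Msys u v = 0 :=
    fun v hv => ⟨hB.zm.bd 2 (by norm_num) v, hms v hv⟩
  have hsupp : ∀ᵐ p ∂(VD Dd), p.1 ∈ support Dd := Sml_870.ae_mem_support h.int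
  filter_upwards [h.sub2 hB, hsupp] with p h1 hps hK hX
  obtain ⟨h2, h3, h4⟩ := h1 hK hX
  set z' := T.Ψ (zy π ρ x w X t p.1) with hz'
  have hΦ : T.Φ z' = zy π ρ x w X t p.1 := by rw [hz', T.right]
  have e0 : hmt' (pt π ρ x w X) t (T.Φ z') = p.1 := by
    rw [hΦ]
    exact Am.zy_fwd ht p.1
  have h5 : ‖rρ π ρ q H' z'‖ ≤ 1 := h3.trans (by rw [div_le_one ht]; exact h4)
  have h6 : ‖rπ π ρ q H z'‖ ≤ 195 / 32 := by
    rw [h2]
    refine (hB.zm.norm_zc_le _).trans ?_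
    have : ‖foot π ρ x 1 w p.1 - X‖ / t ≤ 6 := by rw [div_le_iff₀ ht]; exact hX
    linarith
  have h7 : ‖rρ π ρ q H' z'‖ < 3 := by linarith
  have hbox : p.1 ∈ box (rπ π ρ q H) (rρ π ρ q H') (pt π ρ x w X) ((7 - 1 / 2) * t) := by
    have e1 : p.1 - pt π ρ x w X = t • T.Φ z' := by
      rw [hΦ]
      nth_rewrite 1 [← Am.zy_fwd (π := π) (ρ := ρ) (x := x) (w := w) (X := X) ht p.1]
      rw [add_sub_cancel_left]
    have h8 : ‖rπ π ρ q H (T.Φ z')‖ < 7 - 1 / 2 := by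
      rw [hC.pi_eq hs h7]
      refine (norm_sub_le _ _).trans_lt ?_
      have := Ex_46.norm_adj_le (hl1 (rπ π ρ q H z')) (rρ π ρ q H' z')
      nlinarith [norm_nonneg (rρ π ρ q H' z')]
    have h9 : ‖rρ π ρ q H' (T.Φ z')‖ < 7 - 1 / 2 := by
      rw [hC.ka_eq hs h7]
      refine (norm_add_le _ _).trans_lt ?_
      have := hu0 (rπ π ρ q H z')
      linarith
    constructor
    · rw [e1, map_smul, norm_smul, Real.norm_of_nonneg ht.le, mul_comm]
      exact mul_lt_mul_of_pos_right h8 ht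
    · rw [e1, map_smul, norm_smul, Real.norm_of_nonneg ht.le, mul_comm]
      exact mul_lt_mul_of_pos_right h9 ht
  have h10 := Supm_685.height_supp h.opn h.int h.sta hm (hB.zm.rot.frame hB.fr) ht hu2
    (a := 7) (b := 1 / 2) (by norm_num) (by norm_num)
    ((closedBall_subset_closedBall (by linarith)).trans h.ball) hu22 (by nlinarith) hbox hps
  have h11 := hC.height_le hs (hu.differentiable (by norm_num)) hl1 (by linarith) h7
    (pt π ρ x w X) ht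
  rw [e0] at h11
  have h12 : ‖p.1 - pt π ρ x w (foot π ρ x 1 w p.1)‖ ≤ 33 / 32 * (t * ‖rρ π ρ q H' z'‖) := by
    obtain ⟨h13, h14⟩ := Fm_281.chart_normal (z := p.1) (x := x) hB.zm hB.fr hB.ct hX (by rw [← h2])
      (by rw [← hz']; exact h7)
    rw [← hz'] at h14
    have h8 : ‖ContinuousLinearMap.adjoint (fderiv ℝ u (zc t q H w X (foot π ρ x 1 w p.1)))
        (rρ π ρ q H' z')‖ ≤ 1 / 64 * ‖rρ π ρ q H' z'‖ :=
      (Ex_46.norm_adj_le (hl1 _) _).trans (by gcongr)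
    refine (sq_le_sq₀ (norm_nonneg _) (by positivity)).1 ?_
    rw [h14]
    have h9 := pow_le_pow_left₀ (norm_nonneg _) h8 2
    have : 0 ≤ t ^ 2 * ‖rρ π ρ q H' z'‖ ^ 2 := by positivity
    have : t ^ 2 * ‖ContinuousLinearMap.adjoint (fderiv ℝ u (zc t q H w X (foot π ρ x 1 w p.1)))
        (rρ π ρ q H' z')‖ ^ 2 ≤ t ^ 2 * (1 / 64 * ‖rρ π ρ q H' z'‖) ^ 2 :=
      mul_le_mul_of_nonneg_left h9 (sq_nonneg t)
    nlinarith
  set a := ‖Main_456.hgt (rπ π ρ q H) (rρ π ρ q H') (pt π ρ x w X) t u p.1‖ with ha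
  set b := ‖p.1 - pt π ρ x w (foot π ρ x 1 w p.1)‖ with hb
  have h13 : b ≤ 33 / 16 * a := by linarith
  have h14 : b ^ 2 ≤ (33 / 16 * a) ^ 2 := pow_le_pow_left₀ (norm_nonneg _) h13 2
  have h15 : ome m * a ^ 2 ≤ 33 / 32 * (2 ^ m * (d * t ^ 2)) := by
    refine h10.trans ?_
    have e1 : ((1 / 2 * t) ^ m)⁻¹ * (d * t ^ (m + 2)) = 2 ^ m * (d * t ^ 2) := by
      rw [pow_add, mul_pow, one_div, inv_pow]
      have h7 : t ^ m ≠ 0 := by positivity
      field_simp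
    rw [← e1]
    have : 0 ≤ ((1 / 2 * t) ^ m)⁻¹ := by positivity
    gcongr
  have h16 : ome m * b ^ 2 ≤ 8 * 2 ^ m * d * t ^ 2 := by
    have e1 : 0 ≤ ome m * a ^ 2 := by positivity
    have e2 : 0 ≤ 2 ^ m * (d * t ^ 2) := by nlinarith
    nlinarith
  have h17 : b ^ 2 ≤ (8 * 2 ^ m * d * t ^ 2) / ome m := by
    rw [le_div_iff₀ hom]
    linarith
  refine h17.trans (le_of_eq ?_)
  unfold Kh
  ring

end Crest.Agent.R234.F37_354
end
end

-- ▼ part R234/Ex11_46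
section

/-!
# Row 234, F3-LE (helper46): the two masses of the cylinders of the adapted chart

`masses`: from the total variation bound of the anomaly (618), 842's area formula and the smallness
of the tilt, the two mass hypotheses of `Ex_46.cls_chart`.
-/

set_option autoImplicit false

open MeasureTheory Filter Topology Set Metric
open scoped ENNReal NNReal ContDiff InnerProductSpace
open Crest.GeometryTopology.Submanifold Crest.Agent.R234.Vf_884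

noncomputable section

namespace Crest.Agent.R234.Ms_46

open Crest.Agent.R234.Main_456 (Frame Msys hgt sep box)
open Crest.Agent.R234.Gi_456 (Gr tube foot ch Lo Loi IsFoot jB)
open Crest.Agent.R234.GL_394 (VK On Ok)
open Crest.Agent.R234.Cy_870 (Split cyl)
open Crest.Agent.R234.Foot_842 (pt)
open Crest.Agent.R234.Nrm_842 (Zm zc)
open Crest.Agent.R234.Grot_842 (rπ rρ)
open Crest.Agent.R234.Fm_281 (zy)
open Crest.Agent.R234.Ex_46 (hmt')
open Crest.Agent.R234.F35_354 (Bp)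
open Crest.Agent.R234.F37_354 (Rg Am)
open Crest.Agent.R234.Ell1_3 (dns dns_pos dns_contDiff)

variable {m n k : ℕ}

/-- feet of the cylinder of radius `R` -/
def FR (t : ℝ) (q : Euc m →L[ℝ] Euc n) (H : Euc m →L[ℝ] Euc m) (w : Euc m → Euc n) (X : Euc m)
    (R : ℝ) : Set (Euc m) := {Y | ‖Y - X‖ ≤ 6 * t ∧ ‖zc t q H w X Y‖ ≤ R}

section Area

variable {w w' u : Euc m → Euc n} {X : Euc m} {K : ℕ} {C κ t : ℝ} {q : Euc m →L[ℝ] Euc n}
  {H : Euc m →L[ℝ] Euc m} {H' : Euc n →L[ℝ] Euc n} {R : ℝ}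

theorem isClosed_FR (h : Zm w X K C κ t q H H' w' u) : IsClosed (FR t q H w X R) := by
  have h1 : Continuous (zc t q H w X) :=
    continuous_iff_continuousAt.2 fun Y => (h.hasFDerivAt_zc Y).continuousAt
  have h2 : IsClosed {Y : Euc m | ‖Y - X‖ ≤ 6 * t} :=
    isClosed_le (continuous_id.sub continuous_const).norm continuous_const
  exact h2.inter (isClosed_le h1.norm continuous_const)

theorem FR_lt (h : Zm w X K C κ t q H H' w' u) (hR : R ≤ 5) {Y : Euc m}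
    (hY : Y ∈ FR t q H w X R) : ‖Y - X‖ ≤ 11 / 2 * t := by
  have ht := h.t0
  have h1 := h.le_norm_zc hY.1
  have h2 := hY.2
  nlinarith

/-- the area of the feet -/
theorem area_FR (h : Zm w X K C κ t q H H' w' u) (hR : R ≤ 5) :
    ∫ Y, (FR t q H w X R).indicator (fun _ => (1:ℝ)) Y * dns (fderiv ℝ w Y) =
      t ^ m * ∫ x in closedBall (0 : Euc m) R, dns (fderiv ℝ u x) := by
  have ht := h.t0
  have h1 := h.area (f := (closedBall (0 : Euc m) R).indicator fun _ => (1:ℝ)) fun x hx => by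
    refine indicator_of_notMem ?_ _
    rw [mem_closedBall_zero_iff, not_le]
    linarith
  have h2 : ∫ x, (closedBall (0 : Euc m) R).indicator (fun _ => (1:ℝ)) x * dns (fderiv ℝ u x) =
      ∫ x in closedBall (0 : Euc m) R, dns (fderiv ℝ u x) := by
    rw [← integral_indicator measurableSet_closedBall]
    refine integral_congr_ae (Eventually.of_forall fun x => ?_)
    by_cases hx : x ∈ closedBall (0 : Euc m) R
    · simp only [indicator_of_mem hx, one_mul]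
    · simp only [indicator_of_notMem hx, zero_mul]
  rw [← h2, ← h1, ← integral_indicator measurableSet_ball]
  refine integral_congr_ae (Eventually.of_forall fun Y => ?_)
  by_cases hY : Y ∈ FR t q H w X R
  · have h3 : Y ∈ ball X (6 * t) := by
      rw [mem_ball, dist_eq_norm]
      have := FR_lt h hR hY
      linarith
    have h4 : zc t q H w X Y ∈ closedBall (0 : Euc m) R := by
      rw [mem_closedBall_zero_iff]
      exact hY.2
    simp only [indicator_of_mem hY, indicator_of_mem h3, indicator_of_mem h4]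
  · by_cases h3 : Y ∈ ball X (6 * t)
    · have h4 : zc t q H w X Y ∉ closedBall (0 : Euc m) R := by
        rw [mem_closedBall_zero_iff]
        intro h5
        rw [mem_ball, dist_eq_norm] at h3
        exact hY ⟨h3.le, h5⟩
      simp only [indicator_of_notMem hY, indicator_of_mem h3, indicator_of_notMem h4]
    · simp only [indicator_of_notMem hY, indicator_of_notMem h3, zero_mul]

theorem continuous_dns (h : Zm w X K C κ t q H H' w' u) :
    Continuous fun x => dns (fderiv ℝ u x) := by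
  have h1 : Continuous (fderiv ℝ u) := h.sm.continuous_fderiv (by simp)
  exact dns_contDiff.continuous.comp h1

theorem int_dns (h : Zm w X K C κ t q H H' w' u) {C2 : ℝ} (hC2 : 0 ≤ C2)
    (hd : ∀ q : Euc m →L[ℝ] Euc n, ‖q‖ ≤ 1 / 4 → dns q ≤ 1 + C2 * ‖q‖ ^ 2) (hR : 0 ≤ R) :
    ome m * R ^ m ≤ ∫ x in closedBall (0 : Euc m) R, dns (fderiv ℝ u x) ∧
      ∫ x in closedBall (0 : Euc m) R, dns (fderiv ℝ u x) ≤
        (1 + C2 * (C * κ * t) ^ 2) * (ome m * R ^ m) := by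
  have hvol : (volume : Measure (Euc m)).real (closedBall 0 R) = ome m * R ^ m := by
    rw [Measure.addHaar_real_closedBall volume (0 : Euc m) hR, finrank_euclideanSpace,
      Fintype.card_fin, mul_comm]
    rfl
  have hfin : (volume : Measure (Euc m)) (closedBall 0 R) ≠ ⊤ := measure_closedBall_lt_top.ne
  have i1 : IntegrableOn (fun x => dns (fderiv ℝ u x)) (closedBall (0 : Euc m) R) volume :=
    (continuous_dns h).continuousOn.integrableOn_compact (isCompact_closedBall _ _)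
  have i2 : ∀ a : ℝ, IntegrableOn (fun _ : Euc m => a) (closedBall (0 : Euc m) R) volume :=
    fun a => integrableOn_const hfin
  have e1 : ∀ a : ℝ, ∫ _ in closedBall (0 : Euc m) R, a = a * (ome m * R ^ m) := by
    intro a
    rw [setIntegral_const, hvol, smul_eq_mul, mul_comm]
  constructor
  · have h1 := setIntegral_mono_on (i2 1) i1 measurableSet_closedBall
      fun x _ => Nrm_842.one_le_dns (fderiv ℝ u x)
    rwa [e1, one_mul] at h1
  · have h1 := setIntegral_mono_on i1 (i2 (1 + C2 * (C * κ * t) ^ 2)) measurableSet_closedBall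
      fun x _ => by
        have h2 := h.norm_dU x
        have h3 := h.Cκt
        have h4 := hd (fderiv ℝ u x) (by linarith)
        have h5 : ‖fderiv ℝ u x‖ ^ 2 ≤ (C * κ * t) ^ 2 := pow_le_pow_left₀ (norm_nonneg _) h2 2
        have h6 := mul_le_mul_of_nonneg_left h5 hC2
        linarith
    rwa [e1] at h1

/-- the integral in the coordinate of the chart -/
theorem int_F (Xc : Euc m) :
    ∫ v, (FR t q H w X R).indicator (fun _ => (1:ℝ)) (Gi_456.pt w Xc v) * jB w Xc v =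
      ∫ Y, (FR t q H w X R).indicator (fun _ => (1:ℝ)) Y * dns (fderiv ℝ w Y) := by
  have hd1 := F35k_433.abs_det_Loi (fderiv ℝ w Xc)
  have hpos := dns_pos (fderiv ℝ w Xc)
  have hdet : (Loi (fderiv ℝ w Xc)).det ≠ 0 := by
    intro h0
    rw [h0, abs_zero] at hd1
    exact (inv_pos.2 hpos).ne hd1
  have h1 := F35k_433.integral_comp_lin (vol := (volume : Measure (Euc m))) hdet
    (fun Y => (FR t q H w X R).indicator (fun _ => (1:ℝ)) Y * dns (fderiv ℝ w Y)) Xc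
  rw [← h1, hd1, ← integral_const_mul]
  refine integral_congr_ae (Eventually.of_forall fun v => ?_)
  simp only
  rw [jB, Gi_456.det_Lo, Gi_456.pt]
  ring

end Area

variable {π : Euc k →L[ℝ] Euc m} {ρ : Euc k →L[ℝ] Euc n} {x : Euc k} {w w' u : Euc m → Euc n}
  {Xc X : Euc m} {t C κ e : ℝ} {U K : Set (Euc k)} {Dd : VarifoldData m k}
  {q : Euc m →L[ℝ] Euc n} {H : Euc m →L[ℝ] Euc m} {H' : Euc n →L[ℝ] Euc n} {T : Ft_209.Dif k}
  {R : ℝ}

/-- points of `K` with feet in `FR` -/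
def BR (π : Euc k →L[ℝ] Euc m) (ρ : Euc k →L[ℝ] Euc n) (x : Euc k) (w : Euc m → Euc n)
    (K : Set (Euc k)) (X : Euc m) (t : ℝ) (q : Euc m →L[ℝ] Euc n) (H : Euc m →L[ℝ] Euc m)
    (R : ℝ) : Set (Euc k) := {z | z ∈ K ∧ foot π ρ x 1 w z ∈ FR t q H w X R}

theorem isClosed_BR (h : Am π ρ x w Xc X t U K Dd) (hB : Bp π ρ x w X C κ t q H H' w' u T e) :
    IsClosed (BR π ρ x w K X t q H R) := by
  have h1 : ContinuousOn (foot π ρ x 1 w) K := (h.gr.continuousOn_foot h.fr).mono h.kt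
  exact h1.preimage_isClosed_of_isClosed h.cpt.isClosed (isClosed_FR hB.zm)

theorem BR_sub (hB : Bp π ρ x w X C κ t q H H' w' u T e) :
    BR π ρ x w K X t q H R ⊆ Rg π ρ x w K X (14 * t) := by
  have ht := hB.zm.t0
  rintro z ⟨h1, h2⟩
  exact ⟨h1, h2.1.trans (by linarith)⟩

theorem tau_nonneg (h : Am π ρ x w Xc X t U K Dd) :
    ∀ᵐ p ∂(VD Dd), 0 ≤ (ch π ρ x 1 w Xc).tau p.1 p.2 := by
  filter_upwards [VD_conc h.int] with p hp
  exact Fm_281.tau0_nonneg' (Fm_281.split_of_frame' h.fr) _ hp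

/-- the mass of the points with feet in `FR` -/
theorem mass_BR (h : Am π ρ x w Xc X t U K Dd) (hB : Bp π ρ x w X C κ t q H H' w' u T e)
    {E : Measure (Euc m)} (hE : IsFiniteMeasure E) (Q : ℕ) {c : ℝ}
    (hτ : ∫ p in Rg π ρ x w K X (14 * t) ×ˢ univ, (ch π ρ x 1 w Xc).tau p.1 p.2 ∂(VD Dd) ≤
      c * t ^ m)
    (hE1 : E.real (closedBall (Lo (fderiv ℝ w Xc) (X - Xc)) (6 * t)) ≤ c * t ^ m)
    (habs : ∀ F : Euc m → ℝ, Measurable F → (∃ b : ℝ, ∀ v, |F v| ≤ b) →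
      (∀ v, v ∉ closedBall (Lo (fderiv ℝ w Xc) (X - Xc)) (6 * t) → F v = 0) →
      |∫ p, F ((ch π ρ x 1 w Xc).x p.1) * (1 - (ch π ρ x 1 w Xc).tau p.1 p.2 / 2)
        ∂(VK (VD Dd) K) - Q * ∫ v, F v * (ch π ρ x 1 w Xc).j v| ≤ ∫ v, |F v| ∂E)
    (hR : R ≤ 5) :
    |(VD Dd).real (BR π ρ x w K X t q H R ×ˢ univ) -
      Q * (t ^ m * ∫ x in closedBall (0 : Euc m) R, dns (fderiv ℝ u x))| ≤
      3 / 2 * c * t ^ m := by
  have ht := hB.zm.t0
  set F : Euc m → ℝ := fun v => (FR t q H w X R).indicator (fun _ => (1:ℝ)) (Gi_456.pt w Xc v)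
    with hF
  have hpt : Continuous (Gi_456.pt w Xc) := by
    unfold Gi_456.pt
    fun_prop
  have hFR : MeasurableSet (FR t q H w X R) := (isClosed_FR hB.zm).measurableSet
  have hFm : Measurable F := (measurable_const.indicator hFR).comp hpt.measurable
  have hF1 : ∀ v, |F v| ≤ 1 := by
    intro v
    simp only [hF]
    by_cases hv : Gi_456.pt w Xc v ∈ FR t q H w X R
    · rw [indicator_of_mem hv, abs_one]
    · rw [indicator_of_notMem hv, abs_zero]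
      exact zero_le_one
  have hF0 : ∀ v, v ∉ closedBall (Lo (fderiv ℝ w Xc) (X - Xc)) (6 * t) → F v = 0 := by
    intro v hv
    simp only [hF]
    refine indicator_of_notMem (fun hv2 => hv ?_) _
    rw [mem_closedBall, dist_eq_norm]
    have h1 := FR_lt hB.zm hR hv2
    have h2 : v - Lo (fderiv ℝ w Xc) (X - Xc) =
        Lo (fderiv ℝ w Xc) (Gi_456.pt w Xc v - X) := by
      have h3 : Gi_456.pt w Xc v - X = Loi (fderiv ℝ w Xc) v - (X - Xc) := by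
        unfold Gi_456.pt
        abel
      rw [h3]
      exact ((map_sub (Lo (fderiv ℝ w Xc)) (Loi (fderiv ℝ w Xc) v) (X - Xc)).trans
        (by rw [Gi_456.Lo_Loi])).symm
    rw [h2]
    refine (Gi_456.norm_Lo_le (h.gr.d1 Xc) _).trans ?_
    linarith
  have h1 := habs F hFm ⟨1, hF1⟩ hF0
  -- the variation
  have h2 : ∫ v, |F v| ∂E ≤ c * t ^ m := by
    refine le_trans ?_ hE1
    rw [← integral_indicator_one measurableSet_closedBall]
    refine integral_mono_of_nonneg (Eventually.of_forall fun v => abs_nonneg _)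
      ((integrable_const (1:ℝ)).indicator measurableSet_closedBall)
      (Eventually.of_forall fun v => ?_)
    by_cases hv : v ∈ closedBall (Lo (fderiv ℝ w Xc) (X - Xc)) (6 * t)
    · rw [indicator_of_mem hv]
      exact hF1 v
    · simp only [hF0 v hv, abs_zero]
      exact indicator_nonneg (fun _ _ => zero_le_one) _
  -- the area
  have h3 : ∫ v, F v * (ch π ρ x 1 w Xc).j v =
      t ^ m * ∫ x in closedBall (0 : Euc m) R, dns (fderiv ℝ u x) := by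
    rw [← area_FR hB.zm hR, ← int_F Xc]
    rfl
  -- the mass
  have hBm : MeasurableSet (BR π ρ x w K X t q H R ×ˢ (univ : Set (L k))) :=
    (isClosed_BR h hB).measurableSet.prod .univ
  have hBK : BR π ρ x w K X t q H R ×ˢ (univ : Set (L k)) ⊆ K ×ˢ univ :=
    prod_mono (fun _ hz => hz.1) subset_rfl
  have hBfin : VD Dd (BR π ρ x w K X t q H R ×ˢ univ) ≠ ⊤ :=
    ((measure_mono hBK).trans_lt (VD_fin h.int h.cpt h.ku)).ne
  have h4 : ∫ p, F ((ch π ρ x 1 w Xc).x p.1) * (1 - (ch π ρ x 1 w Xc).tau p.1 p.2 / 2)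
        ∂(VK (VD Dd) K) =
      ∫ p in BR π ρ x w K X t q H R ×ˢ univ, (1 - (ch π ρ x 1 w Xc).tau p.1 p.2 / 2)
        ∂(VD Dd) := by
    have hKm : MeasurableSet (K ×ˢ (univ : Set (L k))) := h.cpt.isClosed.measurableSet.prod .univ
    have e1 : ∫ p, F ((ch π ρ x 1 w Xc).x p.1) * (1 - (ch π ρ x 1 w Xc).tau p.1 p.2 / 2)
          ∂(VK (VD Dd) K) =
        ∫ p in K ×ˢ univ, (BR π ρ x w K X t q H R ×ˢ (univ : Set (L k))).indicator
          (fun p => 1 - (ch π ρ x 1 w Xc).tau p.1 p.2 / 2) p ∂(VD Dd) := by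
      unfold GL_394.VK
      refine setIntegral_congr_fun hKm fun p hp => ?_
      simp only [hF]
      rw [F35k_433.pt_ch_x]
      by_cases hq : foot π ρ x 1 w p.1 ∈ FR t q H w X R
      · have hq2 : p ∈ BR π ρ x w K X t q H R ×ˢ (univ : Set (L k)) := ⟨⟨hp.1, hq⟩, mem_univ _⟩
        rw [indicator_of_mem hq, indicator_of_mem hq2, one_mul]
      · have hq2 : p ∉ BR π ρ x w K X t q H R ×ˢ (univ : Set (L k)) := fun h5 => hq h5.1.2
        rw [indicator_of_notMem hq, indicator_of_notMem hq2, zero_mul]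
    rw [e1, setIntegral_indicator hBm, inter_eq_self_of_subset_right hBK]
  have hτi : IntegrableOn (fun p : Euc k × L k => (ch π ρ x 1 w Xc).tau p.1 p.2)
      (BR π ρ x w K X t q H R ×ˢ univ) (VD Dd) := h.int_tau.mono_set hBK
  have h5 : ∫ p in BR π ρ x w K X t q H R ×ˢ univ, (1 - (ch π ρ x 1 w Xc).tau p.1 p.2 / 2)
        ∂(VD Dd) = (VD Dd).real (BR π ρ x w K X t q H R ×ˢ univ) -
      (∫ p in BR π ρ x w K X t q H R ×ˢ univ, (ch π ρ x 1 w Xc).tau p.1 p.2 ∂(VD Dd)) / 2 := by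
    have i1 : Integrable (fun _ : Euc k × L k => (1:ℝ))
        ((VD Dd).restrict (BR π ρ x w K X t q H R ×ˢ univ)) :=
      (integrableOn_const hBfin : IntegrableOn (fun _ : Euc k × L k => (1:ℝ))
        (BR π ρ x w K X t q H R ×ˢ univ) (VD Dd))
    have i2 : Integrable (fun p : Euc k × L k => (ch π ρ x 1 w Xc).tau p.1 p.2 / 2)
        ((VD Dd).restrict (BR π ρ x w K X t q H R ×ˢ univ)) := hτi.div_const 2
    rw [integral_sub i1 i2, setIntegral_const, smul_eq_mul, mul_one, integral_div]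
  have h6 : 0 ≤ ∫ p in BR π ρ x w K X t q H R ×ˢ univ,
      (ch π ρ x 1 w Xc).tau p.1 p.2 ∂(VD Dd) :=
    integral_nonneg_of_ae (ae_restrict_of_ae (tau_nonneg h))
  have h7 : ∫ p in BR π ρ x w K X t q H R ×ˢ univ,
      (ch π ρ x 1 w Xc).tau p.1 p.2 ∂(VD Dd) ≤ c * t ^ m := by
    refine le_trans ?_ hτ
    exact setIntegral_mono_set (h.int_tau.mono_set (Am.Rg_sub _))
      (ae_restrict_of_ae (tau_nonneg h))
      (Eventually.of_forall (prod_mono (BR_sub hB) subset_rfl))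
  rw [h3, h4, h5] at h1
  have h8 := abs_le.1 (h1.trans h2)
  rw [abs_le]
  constructor
  · linarith [h8.1]
  · linarith [h8.2]

theorem isClosed_cyl_img (hB : Bp π ρ x w X C κ t q H H' w' u T e) (R h : ℝ) :
    IsClosed (hmt' (pt π ρ x w X) t '' (T.Φ '' cyl (rπ π ρ q H) (rρ π ρ q H') 0 R h)) := by
  have e1 : hmt' (pt π ρ x w X) t '' (T.Φ '' cyl (rπ π ρ q H) (rρ π ρ q H') 0 R h) =
      (fun z => T.Ψ (zy π ρ x w X t z)) ⁻¹' cyl (rπ π ρ q H) (rρ π ρ q H') 0 R h := by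
    ext z
    exact Am.mem_img hB.zm.t0 _ z
  rw [e1]
  have h1 : Continuous fun z : Euc k => T.Ψ (zy π ρ x w X t z) := by
    refine T.continuousΨ.comp ?_
    unfold Fm_281.zy
    fun_prop
  have h2 : IsClosed (cyl (rπ π ρ q H) (rρ π ρ q H') 0 R h) := by
    have e2 : cyl (rπ π ρ q H) (rρ π ρ q H') 0 R h =
        {z | ‖rπ π ρ q H z - 0‖ ≤ R} ∩ {z | ‖rρ π ρ q H' z‖ ≤ h} := rfl
    rw [e2]
    exact (isClosed_le (((rπ π ρ q H).continuous.sub continuous_const).norm)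
      continuous_const).inter (isClosed_le (rρ π ρ q H').continuous.norm continuous_const)
  exact h2.preimage h1

theorem cyl_le (h : Am π ρ x w Xc X t U K Dd) (hB : Bp π ρ x w X C κ t q H H' w' u T e)
    {R h₁ : ℝ} (hR : R ≤ 5) (hh : h₁ ≤ 2) :
    (weight Dd).real (hmt' (pt π ρ x w X) t '' (T.Φ '' cyl (rπ π ρ q H) (rρ π ρ q H') 0 R h₁)) ≤
      (VD Dd).real (BR π ρ x w K X t q H R ×ˢ univ) := by
  have hBK : BR π ρ x w K X t q H R ×ˢ (univ : Set (L k)) ⊆ K ×ˢ univ :=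
    prod_mono (fun _ hz => hz.1) subset_rfl
  have hBfin : VD Dd (BR π ρ x w K X t q H R ×ˢ univ) ≠ ⊤ :=
    ((measure_mono hBK).trans_lt (VD_fin h.int h.cpt h.ku)).ne
  rw [measureReal_def, measureReal_def,
    ← VD_prod_univ h.int (isClosed_cyl_img hB R h₁).measurableSet]
  refine ENNReal.toReal_mono hBfin (measure_mono_ae ?_)
  filter_upwards [h.sub1 hB] with p h1 hp
  have h2 : T.Ψ (zy π ρ x w X t p.1) ∈ cyl (rπ π ρ q H) (rρ π ρ q H') 0 R h₁ :=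
    (Am.mem_img hB.zm.t0 _ _).1 hp.1
  have h3 : T.Ψ (zy π ρ x w X t p.1) ∈ cyl (rπ π ρ q H) (rρ π ρ q H') 0 5 2 :=
    ⟨h2.1.trans hR, h2.2.trans hh⟩
  obtain ⟨-, h4, h5, -⟩ := Am.foot_of_cyl hB h3
  refine ⟨⟨h1 h3, h4.le, ?_⟩, mem_univ _⟩
  rw [h5]
  have h6 := h2.1
  rwa [sub_zero] at h6

theorem le_cyl (h : Am π ρ x w Xc X t U K Dd) (hB : Bp π ρ x w X C κ t q H H' w' u T e)
    {R h₁ : ℝ} (hR : R ≤ 5) (hh1 : 1 ≤ h₁) (hh : h₁ ≤ 2) :
    (VD Dd).real (BR π ρ x w K X t q H R ×ˢ univ) ≤ (weight Dd).real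
      (hmt' (pt π ρ x w X) t '' (T.Φ '' cyl (rπ π ρ q H) (rρ π ρ q H') 0 R h₁)) := by
  have ht := hB.zm.t0
  have hBK : BR π ρ x w K X t q H R ×ˢ (univ : Set (L k)) ⊆ K ×ˢ univ :=
    prod_mono (fun _ hz => hz.1) subset_rfl
  have hKfin : VD Dd (K ×ˢ univ) ≠ ⊤ := (VD_fin h.int h.cpt h.ku).ne
  rw [measureReal_def, measureReal_def,
    ← VD_prod_univ h.int (isClosed_cyl_img hB R h₁).measurableSet]
  refine ENNReal.toReal_mono ?_ (measure_mono_ae ?_)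
  · refine ne_top_of_le_ne_top hKfin (measure_mono_ae ?_)
    filter_upwards [h.sub1 hB] with p h1 hp
    have h2 := (Am.mem_img hB.zm.t0 _ _).1 hp.1
    exact ⟨h1 ⟨h2.1.trans hR, h2.2.trans hh⟩, mem_univ _⟩
  · filter_upwards [h.sub2 hB] with p h1 hp
    obtain ⟨h2, h3, h4⟩ := h1 hp.1.1 hp.1.2.1
    refine ⟨(Am.mem_img hB.zm.t0 _ _).2 ⟨?_, ?_⟩, mem_univ _⟩
    · rw [sub_zero, h2]
      exact hp.1.2.2
    · refine h3.trans (le_trans ?_ hh1)
      rw [div_le_one ht]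
      exact h4

theorem real_fin {b Q T I V0 C2 s c : ℝ} (hT : 0 < T) (hQ : 0 ≤ Q) (hC2 : 0 ≤ C2) (hs : 0 ≤ s)
    (hsc : s ≤ c) (hc1 : c ≤ 1) (hV : 0 ≤ V0) (hI1 : V0 ≤ I) (hI2 : I ≤ (1 + C2 * s ^ 2) * V0)
    (hQC : Q * C2 * c ≤ 1 / 16) (hcV : c ≤ V0 / 32) (hb : |b - Q * (T * I)| ≤ 3 / 2 * c * T) :
    |T⁻¹ * b - Q * V0| ≤ 1 / 8 * V0 := by
  have hc0 : 0 ≤ c := hs.trans hsc
  have h1 := abs_le.1 hb
  have h2 : Q * (I - V0) ≤ 1 / 16 * V0 := by
    have e1 : I - V0 ≤ C2 * c * V0 := by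
      have e2 : s ^ 2 ≤ c := by nlinarith
      have e3 : C2 * s ^ 2 * V0 ≤ C2 * c * V0 :=
        mul_le_mul_of_nonneg_right (mul_le_mul_of_nonneg_left e2 hC2) hV
      linarith
    calc Q * (I - V0) ≤ Q * (C2 * c * V0) := mul_le_mul_of_nonneg_left e1 hQ
      _ = Q * C2 * c * V0 := by ring
      _ ≤ _ := mul_le_mul_of_nonneg_right hQC hV
  have h3 : 0 ≤ Q * (I - V0) := mul_nonneg hQ (by linarith)
  have e4 : T⁻¹ * b = T⁻¹ * (b - Q * (T * I)) + Q * I := by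
    field_simp
    ring
  have h5 : |T⁻¹ * (b - Q * (T * I))| ≤ 3 / 2 * c := by
    rw [abs_mul, abs_of_pos (inv_pos.2 hT), inv_mul_le_iff₀ hT]
    linarith
  have h6 := abs_le.1 h5
  rw [e4, abs_le]
  constructor
  · linarith [h6.1]
  · linarith [h6.2]

/-- **the two masses of the cylinders of the adapted chart** -/
theorem masses (m n Q : ℕ) : ∃ c : ℝ, 0 < c ∧ ∀ {k : ℕ} {π : Euc k →L[ℝ] Euc m}
    {ρ : Euc k →L[ℝ] Euc n} {x : Euc k} {w w' u : Euc m → Euc n} {Xc X : Euc m} {t C κ e : ℝ}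
    {U K : Set (Euc k)} {Dd : VarifoldData m k} {q : Euc m →L[ℝ] Euc n}
    {H : Euc m →L[ℝ] Euc m} {H' : Euc n →L[ℝ] Euc n} {T : Ft_209.Dif k} {E : Measure (Euc m)},
    Am π ρ x w Xc X t U K Dd → Bp π ρ x w X C κ t q H H' w' u T e → IsFiniteMeasure E →
    C * κ * t ≤ c →
    ∫ p in Rg π ρ x w K X (14 * t) ×ˢ univ, (ch π ρ x 1 w Xc).tau p.1 p.2 ∂(VD Dd) ≤ c * t ^ m →
    E.real (closedBall (Lo (fderiv ℝ w Xc) (X - Xc)) (6 * t)) ≤ c * t ^ m →
    (∀ F : Euc m → ℝ, Measurable F → (∃ b : ℝ, ∀ v, |F v| ≤ b) →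
      (∀ v, v ∉ closedBall (Lo (fderiv ℝ w Xc) (X - Xc)) (6 * t) → F v = 0) →
      |∫ p, F ((ch π ρ x 1 w Xc).x p.1) * (1 - (ch π ρ x 1 w Xc).tau p.1 p.2 / 2)
        ∂(VK (VD Dd) K) - Q * ∫ v, F v * (ch π ρ x 1 w Xc).j v| ≤ ∫ v, |F v| ∂E) →
    |(t ^ m)⁻¹ * (weight Dd).real (hmt' (pt π ρ x w X) t ''
        (T.Φ '' cyl (rπ π ρ q H) (rρ π ρ q H') 0 4 1)) - Q * (ome m * 4 ^ m)| ≤
      1 / 8 * (ome m * 4 ^ m) ∧
    (t ^ m)⁻¹ * (weight Dd).real (hmt' (pt π ρ x w X) t ''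
        (T.Φ '' cyl (rπ π ρ q H) (rρ π ρ q H') 0 5 2)) ≤ (Q + 1 / 2) * (ome m * 5 ^ m) := by
  obtain ⟨C2, hC2, hd⟩ := Nrm_842.exists_dns_le m n
  have hom := ome_pos m
  have hC20 : 0 ≤ C2 := by linarith
  have hQ0 : (0:ℝ) ≤ Q := Nat.cast_nonneg _
  obtain ⟨c, hc, hc1, hc2, hc3⟩ : ∃ c : ℝ, 0 < c ∧ c ≤ 1 ∧ Q * C2 * c ≤ 1 / 16 ∧
      c ≤ ome m * 4 ^ m / 32 := by
    have hA : (0:ℝ) < Q * C2 + 1 := by positivity
    refine ⟨min (min 1 (1 / 16 / (Q * C2 + 1))) (ome m * 4 ^ m / 32), by positivity,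
      (min_le_left _ _).trans (min_le_left _ _), ?_, min_le_right _ _⟩
    have e1 : min (min 1 (1 / 16 / (Q * C2 + 1))) (ome m * 4 ^ m / 32) ≤
        1 / 16 / (Q * C2 + 1) := (min_le_left _ _).trans (min_le_right _ _)
    have e2 : (0:ℝ) ≤ 1 / 16 / (Q * C2 + 1) := by positivity
    have e3 : (Q * C2 + 1) * (1 / 16 / (Q * C2 + 1)) = 1 / 16 := by
      field_simp
    calc Q * C2 * min (min 1 (1 / 16 / (Q * C2 + 1))) (ome m * 4 ^ m / 32)
        ≤ Q * C2 * (1 / 16 / (Q * C2 + 1)) := mul_le_mul_of_nonneg_left e1 (by positivity)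
      _ ≤ 1 / 16 := by linarith
  refine ⟨c, hc, ?_⟩
  intro k π ρ x w w' u Xc X t C κ e U K Dd q H H' T E h hB hE hκ hτ hE1 habs
  have ht := hB.zm.t0
  have hT : (0:ℝ) < t ^ m := by positivity
  have hs : 0 ≤ C * κ * t := by
    have := hB.zm.C1
    have := hB.zm.κ0
    positivity
  have hV45 : ome m * (4:ℝ) ^ m ≤ ome m * 5 ^ m :=
    mul_le_mul_of_nonneg_left (pow_le_pow_left₀ (by norm_num) (by norm_num) m) hom.le
  have hI4 := int_dns hB.zm hC20 hd (R := 4) (by norm_num)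
  have hI5 := int_dns hB.zm hC20 hd (R := 5) (by norm_num)
  have hb4 := mass_BR h hB hE Q hτ hE1 habs (R := 4) (by norm_num)
  have hb5 := mass_BR h hB hE Q hτ hE1 habs (R := 5) le_rfl
  have e4 : (weight Dd).real (hmt' (pt π ρ x w X) t ''
        (T.Φ '' cyl (rπ π ρ q H) (rρ π ρ q H') 0 4 1)) =
      (VD Dd).real (BR π ρ x w K X t q H 4 ×ˢ univ) :=
    le_antisymm (cyl_le h hB (by norm_num) (by norm_num))
      (le_cyl h hB (by norm_num) le_rfl (by norm_num))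
  have e5 := cyl_le h hB (R := 5) (h₁ := 2) le_rfl le_rfl
  constructor
  · rw [e4]
    exact real_fin hT hQ0 hC20 hs hκ hc1 (by positivity) hI4.1 hI4.2 hc2 hc3 hb4
  · have h1 := real_fin hT hQ0 hC20 hs hκ hc1 (by positivity) hI5.1 hI5.2 hc2
      (hc3.trans (div_le_div_of_nonneg_right hV45 (by norm_num))) hb5
    have h2 := (abs_le.1 h1).2
    have h3 : (t ^ m)⁻¹ * (weight Dd).real (hmt' (pt π ρ x w X) t ''
        (T.Φ '' cyl (rπ π ρ q H) (rρ π ρ q H') 0 5 2)) ≤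
        (t ^ m)⁻¹ * (VD Dd).real (BR π ρ x w K X t q H 5 ×ˢ univ) :=
      mul_le_mul_of_nonneg_left e5 (by positivity)
    have h4 : 0 ≤ ome m * (5:ℝ) ^ m := by positivity
    linarith

end Crest.Agent.R234.Ms_46
end
end

-- ▼ part R234/Fx5_281
section

/-!
# Row 234 (helper281), node F3-LE (local estimate), file 1: the part of the varifold seen in the
zoomed Fermi chart
-/

set_option autoImplicit false

open MeasureTheory Filter Topology Set Metric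
open Crest.GeometryTopology.Submanifold
open Crest.Agent.R234.Vf_884
open Crest.Agent.R234.Vc_164 (hom resc measurable_hom continuous_hom integral_resc)
open Crest.Agent.R234.Ar_870 (IsCo tl)
open Crest.Agent.R234.Ft_209 (Dif IsPj)
open Crest.Agent.R234.Cy_870 (Split cyl isClosed_cyl)
open Crest.Agent.R234.Fc_209 (IsChart Bd)
open Crest.Agent.R234.Main_456 (Msys Frame)
open Crest.Agent.R234.Ell1_3 (dns gdet gop)
open Crest.Agent.R234.GLK_128 (BB A0 NN Fr Inv hh gg tau0)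
open Crest.Agent.R234.Gi_456 (hinv IsFoot foot tube Gr yy)
open Crest.Agent.R234.Foot_842 (pt)
open Crest.Agent.R234.Nrm_842 (Zm zc)
open Crest.Agent.R234.Grot_842 (rπ rρ)
open Crest.Agent.R234.F35_354 (Bp)
open scoped InnerProductSpace ENNReal

noncomputable section

namespace Crest.Agent.R234.Fm_281

variable {m n k : ℕ}

local notation "adj" => ContinuousLinearMap.adjoint

/-- a point with small normal component is in the tube -/
theorem mem_tube {π : Euc k →L[ℝ] Euc m} {ρ : Euc k →L[ℝ] Euc n} {x : Euc k} {r : ℝ}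
    {w : Euc m → Euc n} (h : Gr r w) {z : Euc k} {X : Euc m} (hz : IsFoot π ρ x r w z X)
    (hY : ‖ρ (z - x) - w X‖ ≤ 3 / 4 * r) : z ∈ tube π ρ x r w := by
  change ‖ρ (z - x) - w (π (z - x))‖ < r
  have h0 := h.pos
  have e1 : ρ (z - x) - w (π (z - x)) = (ρ (z - x) - w X) + (w X - w (π (z - x))) := by abel
  have h1 := h.lip X (π (z - x))
  have h2 : ‖X - π (z - x)‖ ≤ 1 / 8 * ‖ρ (z - x) - w X‖ := by
    have e2 : X - π (z - x) = adj (fderiv ℝ w X) (ρ (z - x) - w X) :=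
      sub_eq_of_eq_add' hz.1
    rw [e2]
    refine (ContinuousLinearMap.le_opNorm _ _).trans ?_
    rw [LinearIsometryEquiv.norm_map]
    exact mul_le_mul_of_nonneg_right (h.d1 X) (norm_nonneg _)
  rw [e1]
  have h3 := norm_add_le (ρ (z - x) - w X) (w X - w (π (z - x)))
  linarith

section Bp

variable {π : Euc k →L[ℝ] Euc m} {ρ : Euc k →L[ℝ] Euc n} {x : Euc k} {w w' U : Euc m → Euc n}
  {X0 : Euc m} {C κ t e : ℝ} {q : Euc m →L[ℝ] Euc n}
  {H : Euc m →L[ℝ] Euc m} {H' : Euc n →L[ℝ] Euc n} {T : Dif k}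

/-- points of the cylinder of the chart, in the physical space -/
theorem in_cyl (h : Bp π ρ x w X0 C κ t q H H' w' U T e) {z : Euc k}
    (hz : T.Ψ (zy π ρ x w X0 t z) ∈ cyl (rπ π ρ q H) (rρ π ρ q H') 0 4 1) :
    ‖foot π ρ x 1 w z - X0‖ < 5 * t ∧
      zc t q H w X0 (foot π ρ x 1 w z) = rπ π ρ q H (T.Ψ (zy π ρ x w X0 t z)) ∧
      z ∈ tube π ρ x 1 w ∧ ‖z - pt π ρ x w (foot π ρ x 1 w z)‖ ≤ 2 * t ∧
      ‖rρ π ρ q H' (T.Ψ (zy π ρ x w X0 t z))‖ ≤ ‖z - pt π ρ x w (foot π ρ x 1 w z)‖ / t := by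
  obtain ⟨h4, h1⟩ := hz
  rw [sub_zero] at h4
  have ht := h.zm.t0
  have ht16 := h.t16
  obtain ⟨X, hX, hzX, hF, hν⟩ := corr2 h.zm h.fr h.ct (x := x) (z := z) (r := 1) (by linarith)
    (by linarith) (by linarith)
  have e1 := h.gr.foot_eq hF
  rw [e1]
  have h2 : ‖z - pt π ρ x w X‖ ≤ 2 * t := by
    have : t * ‖rρ π ρ q H' (T.Ψ (zy π ρ x w X0 t z))‖ ≤ t * 1 :=
      mul_le_mul_of_nonneg_left h1 ht.le
    linarith
  have h5 : ‖X - X0‖ < 5 * t := by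
    have h6 := h.zm.le_norm_zc hX.le
    rw [hzX] at h6
    have h7 : t * (65 / 64 * ‖rπ π ρ q H (T.Ψ (zy π ρ x w X0 t z))‖) ≤ t * (65 / 64 * 4) := by
      gcongr
    linarith
  refine ⟨h5, hzX, ?_, h2, ?_⟩
  · refine mem_tube h.gr hF ?_
    have h3 := (Foot_842.foot_normal h.fr hF).2.1
    rw [← h3]
    refine (Fc_209.norm_κ_le (split_of_frame' h.fr) _).trans (h2.trans ?_)
    linarith
  · exact (corr1 h.zm h.fr h.ct hX.le hF (by linarith)).2.2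

/-- physical points near the base point are in the cylinder -/
theorem to_cyl (h : Bp π ρ x w X0 C κ t q H H' w' U T e) {z : Euc k}
    (hz : z ∈ tube π ρ x 1 w) (hX : ‖foot π ρ x 1 w z - X0‖ ≤ 6 * t)
    (hc : ‖zc t q H w X0 (foot π ρ x 1 w z)‖ ≤ 4)
    (hν : ‖z - pt π ρ x w (foot π ρ x 1 w z)‖ ≤ t) :
    T.Ψ (zy π ρ x w X0 t z) ∈ cyl (rπ π ρ q H) (rρ π ρ q H') 0 4 1 := by
  have ht := h.zm.t0
  obtain ⟨h1, -, h3⟩ := corr1 h.zm h.fr h.ct hX (h.gr.foot_spec hz) (by linarith)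
  refine ⟨?_, h3.trans ?_⟩
  · rw [sub_zero, h1]; exact hc
  · rw [div_le_one ht]; exact hν

/-- the set of the chart in the physical space -/
def Sc (π : Euc k →L[ℝ] Euc m) (ρ : Euc k →L[ℝ] Euc n) (x : Euc k) (w : Euc m → Euc n)
    (X0 : Euc m) (t : ℝ) (q : Euc m →L[ℝ] Euc n) (H : Euc m →L[ℝ] Euc m)
    (H' : Euc n →L[ℝ] Euc n) (T : Dif k) : Set (Euc k × L k) :=
  {p | T.Ψ (zy π ρ x w X0 t p.1) ∈ cyl (rπ π ρ q H) (rρ π ρ q H') 0 4 1}

theorem measurableSet_Sc : MeasurableSet (Sc π ρ x w X0 t q H H' T) := by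
  have h1 : Continuous fun p : Euc k × L k => T.Ψ (zy π ρ x w X0 t p.1) := by
    refine T.continuousΨ.comp ?_
    unfold zy
    fun_prop
  exact h1.measurable (isClosed_cyl _ _ _ _ _).measurableSet

/-- the data of the local estimate: `V` lives over the compact `K` near the surface -/
structure Lk (π : Euc k →L[ℝ] Euc m) (ρ : Euc k →L[ℝ] Euc n) (x : Euc k) (w : Euc m → Euc n)
    (X0 : Euc m) (t h0 : ℝ) (V : Measure (Euc k × L k)) (K : Set (Euc k)) : Prop where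
  conc : ∀ᵐ p ∂V, p.2 ∈ G m k
  cpt : IsCompact K
  sub : K ⊆ tube π ρ x 1 w
  fin : V (K ×ˢ univ) < ⊤
  hh : 0 ≤ h0
  ht : h0 ≤ t
  k1 : ∀ᵐ p ∂V, p.1 ∈ K → ‖foot π ρ x 1 w p.1 - X0‖ ≤ 5 * t →
    ‖p.1 - pt π ρ x w (foot π ρ x 1 w p.1)‖ ≤ h0
  k2 : ∀ᵐ p ∂V, p.1 ∈ tube π ρ x 1 w → ‖foot π ρ x 1 w p.1 - X0‖ ≤ 5 * t →
    ‖p.1 - pt π ρ x w (foot π ρ x 1 w p.1)‖ ≤ 2 * t → p.1 ∈ K

variable {V : Measure (Euc k × L k)} {K : Set (Euc k)} {h0 : ℝ}

/-- almost every point of the chart set lies over `K` -/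
theorem ae_Sc (h : Bp π ρ x w X0 C κ t q H H' w' U T e) (hK : Lk π ρ x w X0 t h0 V K) :
    ∀ᵐ p ∂V, p ∈ Sc π ρ x w X0 t q H H' T → p.1 ∈ K ∧
      ‖foot π ρ x 1 w p.1 - X0‖ < 5 * t ∧
      zc t q H w X0 (foot π ρ x 1 w p.1) = rπ π ρ q H (T.Ψ (zy π ρ x w X0 t p.1)) ∧
      ‖p.1 - pt π ρ x w (foot π ρ x 1 w p.1)‖ ≤ h0 ∧
      ‖rρ π ρ q H' (T.Ψ (zy π ρ x w X0 t p.1))‖ ≤
        ‖p.1 - pt π ρ x w (foot π ρ x 1 w p.1)‖ / t := by
  filter_upwards [hK.k1, hK.k2] with p h1 h2 hp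
  obtain ⟨a1, a2, a3, a4, a5⟩ := in_cyl h hp
  have a6 := h2 a3 a1.le a4
  exact ⟨a6, a1, a2, h1 a6 a1.le, a5⟩

theorem fin_Sc (h : Bp π ρ x w X0 C κ t q H H' w' U T e) (hK : Lk π ρ x w X0 t h0 V K) :
    V (Sc π ρ x w X0 t q H H' T) < ⊤ := by
  refine (measure_mono_ae ?_).trans_lt hK.fin
  filter_upwards [ae_Sc h hK] with p hp hpS
  exact ⟨(hp hpS).1, mem_univ _⟩

/-- **transfer of integrals** of functions vanishing away from the base point -/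
theorem transfer (h : Bp π ρ x w X0 C κ t q H H' w' U T e) (hK : Lk π ρ x w X0 t h0 V K)
    {F : Euc k × L k → ℝ} {F' : Euc k × L k → ℝ}
    (hF : ∀ᵐ p ∂V, p ∈ Sc π ρ x w X0 t q H H' T → F' p = F p)
    (h0' : ∀ p : Euc k × L k, p.1 ∈ K → (‖foot π ρ x 1 w p.1 - X0‖ ≤ 5 * t →
      4 < ‖zc t q H w X0 (foot π ρ x 1 w p.1)‖) → F' p = 0) :
    ∫ p in K ×ˢ univ, F' p ∂V = ∫ p in Sc π ρ x w X0 t q H H' T, F p ∂V := by
  have hm : MeasurableSet (K ×ˢ (univ : Set (L k))) := hK.cpt.isClosed.measurableSet.prod .univ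
  rw [← integral_indicator hm, ← integral_indicator measurableSet_Sc]
  refine integral_congr_ae ?_
  filter_upwards [ae_Sc h hK, hF, hK.k1] with p h1 h2 h3
  by_cases hp : p ∈ Sc π ρ x w X0 t q H H' T
  · have h4 : p ∈ K ×ˢ (univ : Set (L k)) := ⟨(h1 hp).1, mem_univ _⟩
    rw [indicator_of_mem h4, indicator_of_mem hp, h2 hp]
  · rw [indicator_of_notMem hp]
    by_cases h4 : p ∈ K ×ˢ (univ : Set (L k))
    · rw [indicator_of_mem h4]
      refine h0' p h4.1 fun h5 => ?_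
      by_contra h6
      have ht := h.zm.t0
      exact hp (to_cyl h (hK.sub h4.1) (by linarith) (not_lt.1 h6) ((h3 h4.1 h5).trans hK.ht))
    · rw [indicator_of_notMem h4]

/-- comparison for nonnegative functions -/
theorem transfer_le (h : Bp π ρ x w X0 C κ t q H H' w' U T e) (hK : Lk π ρ x w X0 t h0 V K)
    {F : Euc k × L k → ℝ} {F' : Euc k × L k → ℝ}
    (hF : ∀ᵐ p ∂V, p ∈ Sc π ρ x w X0 t q H H' T → F p ≤ F' p)
    (hF' : ∀ᵐ p ∂V, p.1 ∈ K → 0 ≤ F' p)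
    (hi : IntegrableOn F' {p | p.1 ∈ K ∧ ‖foot π ρ x 1 w p.1 - X0‖ < 5 * t} V)
    (hiF : IntegrableOn F (Sc π ρ x w X0 t q H H' T) V)
    (hmK : MeasurableSet {p : Euc k × L k | p.1 ∈ K ∧ ‖foot π ρ x 1 w p.1 - X0‖ < 5 * t}) :
    ∫ p in Sc π ρ x w X0 t q H H' T, F p ∂V ≤
      ∫ p in {p | p.1 ∈ K ∧ ‖foot π ρ x 1 w p.1 - X0‖ < 5 * t}, F' p ∂V := by
  rw [← integral_indicator hmK, ← integral_indicator measurableSet_Sc]
  refine integral_mono_ae ((integrable_indicator_iff measurableSet_Sc).2 hiF)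
    ((integrable_indicator_iff hmK).2 hi) ?_
  filter_upwards [ae_Sc h hK, hF, hF'] with p h1 h2 h3
  by_cases hp : p ∈ Sc π ρ x w X0 t q H H' T
  · have h4 : p ∈ {p : Euc k × L k | p.1 ∈ K ∧ ‖foot π ρ x 1 w p.1 - X0‖ < 5 * t} :=
      ⟨(h1 hp).1, (h1 hp).2.1⟩
    rw [indicator_of_mem h4, indicator_of_mem hp]
    exact h2 hp
  · rw [indicator_of_notMem hp]
    refine indicator_apply_nonneg fun h4 => h3 h4.1

end Bp

end Crest.Agent.R234.Fm_281
end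
end

-- ▼ part R234/Fx6_281
section

/-!
# Row 234 (helper281), node F3-LE (local estimate), file 2: auxiliary statements
-/

set_option autoImplicit false

open MeasureTheory Filter Topology Set Metric
open Crest.GeometryTopology.Submanifold
open Crest.Agent.R234.Vf_884
open Crest.Agent.R234.Vc_164 (hom resc measurable_hom continuous_hom integral_resc resc_conc)
open Crest.Agent.R234.Ar_870 (IsCo tl)
open Crest.Agent.R234.Ft_209 (Dif IsPj)
open Crest.Agent.R234.Cy_870 (Split cyl isClosed_cyl)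
open Crest.Agent.R234.Fc_209 (IsChart Bd)
open Crest.Agent.R234.Main_456 (Msys Frame)
open Crest.Agent.R234.Ell1_3 (dns gdet gop)
open Crest.Agent.R234.GLK_128 (BB A0 NN Fr Inv hh gg tau0)
open Crest.Agent.R234.Gi_456 (hinv IsFoot foot tube Gr yy)
open Crest.Agent.R234.Foot_842 (pt)
open Crest.Agent.R234.Nrm_842 (Zm zc)
open Crest.Agent.R234.Grot_842 (rπ rρ)
open Crest.Agent.R234.F35_354 (Bp)
open scoped InnerProductSpace ENNReal

noncomputable section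

namespace Crest.Agent.R234.Fm_281

variable {m n k : ℕ}

local notation "adj" => ContinuousLinearMap.adjoint

/-- the constant of the local estimate -/
def CLE (C0 C1 Cd : ℝ) : ℝ := 8 * C0 * Cd + C1 + C0 * (8 * C1 * Cd + 2 * Cd + 8 * Cd ^ 2)

theorem real_LE {C0 C1 Cd l y δ E Y en Yh an D1 A : ℝ} (hC0 : 0 ≤ C0) (hC1 : 0 ≤ C1)
    (hCd : 0 ≤ Cd) (hl : 0 ≤ l) (hl1 : l ≤ 1) (hy : 0 ≤ y) (hy1 : y ≤ 1) (hδ : 0 ≤ δ)
    (hδ1 : δ ≤ Cd * (l * (l + y))) (hE : 0 ≤ E) (hY : 0 ≤ Y) (hen : 0 ≤ en)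
    (hen1 : en ≤ 4 * E + 2 * C1 * (l ^ 4 * Y)) (hYh : 0 ≤ Yh) (hYh1 : Yh ≤ 2 * Y)
    (han : an ≤ C0 * (δ * (en + √(en * Yh)) + δ ^ 2 * Yh) + A)
    (hD1 : D1 ≤ C1 * ((l ^ 2 + l * y) * E + l ^ 2 * Y)) :
    an + D1 ≤ CLE C0 C1 Cd * ((l ^ 2 + l * y + y ^ 2) * E + l ^ 2 * Y) + A := by
  have hs : √(en * Yh) = √en * √Yh := Real.sqrt_mul hen Yh
  obtain ⟨a, ha⟩ : ∃ a, a = √en := ⟨_, rfl⟩
  obtain ⟨b, hb⟩ : ∃ b, b = √Yh := ⟨_, rfl⟩
  have ha0 : 0 ≤ a := by rw [ha]; exact Real.sqrt_nonneg _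
  have hb0 : 0 ≤ b := by rw [hb]; exact Real.sqrt_nonneg _
  have haa : a ^ 2 = en := by rw [ha]; exact Real.sq_sqrt hen
  have hbb : b ^ 2 = Yh := by rw [hb]; exact Real.sq_sqrt hYh
  rw [hs, ← ha, ← hb] at han
  have hly : 0 ≤ l * y := mul_nonneg hl hy
  have hll : 0 ≤ l ^ 2 := sq_nonneg l
  have hll1 : l ^ 2 ≤ 1 := by nlinarith
  have hly1 : l * y ≤ 1 := mul_le_one₀ hl1 hy hy1
  have hyy1 : y ^ 2 ≤ 1 := by nlinarith
  have hyy : 0 ≤ y ^ 2 := sq_nonneg y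
  have hab : 0 ≤ a * b := mul_nonneg ha0 hb0
  -- δ (a b)
  have e1 : δ * (a * b) ≤ Cd * ((l ^ 2 + y ^ 2) * en + l ^ 2 * Yh) := by
    have f1 : δ * (a * b) ≤ Cd * (l * (l + y)) * (a * b) := mul_le_mul_of_nonneg_right hδ1 hab
    have f2 : l * (l + y) * (a * b) ≤ (l ^ 2 + y ^ 2) * en + l ^ 2 * Yh := by
      rw [← haa, ← hbb]
      nlinarith [mul_nonneg hll (sq_nonneg (a - b)), sq_nonneg (y * a - l * b),
        mul_nonneg hll (sq_nonneg a), mul_nonneg hyy (sq_nonneg a), mul_nonneg hll (sq_nonneg b)]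
    calc δ * (a * b) ≤ Cd * (l * (l + y)) * (a * b) := f1
      _ = Cd * (l * (l + y) * (a * b)) := by ring
      _ ≤ _ := mul_le_mul_of_nonneg_left f2 hCd
  have e2 : δ * en ≤ Cd * ((l ^ 2 + l * y) * en) := by
    calc δ * en ≤ Cd * (l * (l + y)) * en := mul_le_mul_of_nonneg_right hδ1 hen
      _ = _ := by ring
  have e3 : δ ^ 2 * Yh ≤ 4 * Cd ^ 2 * (l ^ 2 * Yh) := by
    have f1 : δ ≤ Cd * (2 * l) := by
      refine hδ1.trans (mul_le_mul_of_nonneg_left ?_ hCd)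
      nlinarith
    have f2 : δ ^ 2 ≤ (Cd * (2 * l)) ^ 2 := pow_le_pow_left₀ hδ f1 2
    calc δ ^ 2 * Yh ≤ (Cd * (2 * l)) ^ 2 * Yh := mul_le_mul_of_nonneg_right f2 hYh
      _ = _ := by ring
  have e4 : δ * (en + a * b) + δ ^ 2 * Yh ≤
      Cd * ((2 * l ^ 2 + l * y + y ^ 2) * en) + (Cd + 4 * Cd ^ 2) * (l ^ 2 * Yh) := by
    have : Cd * ((2 * l ^ 2 + l * y + y ^ 2) * en) + (Cd + 4 * Cd ^ 2) * (l ^ 2 * Yh) =
      Cd * ((l ^ 2 + l * y) * en) + Cd * ((l ^ 2 + y ^ 2) * en + l ^ 2 * Yh) +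
        4 * Cd ^ 2 * (l ^ 2 * Yh) := by ring
    rw [this]
    linarith
  have hl4 : l ^ 4 * Y ≤ l ^ 2 * Y := by
    refine mul_le_mul_of_nonneg_right ?_ hY
    have : l ^ 4 = l ^ 2 * l ^ 2 := by ring
    rw [this]
    exact mul_le_of_le_one_right hll hll1
  have e5 : (2 * l ^ 2 + l * y + y ^ 2) * en ≤
      8 * ((l ^ 2 + l * y + y ^ 2) * E) + 8 * C1 * (l ^ 2 * Y) := by
    have g1 : 0 ≤ 2 * l ^ 2 + l * y + y ^ 2 := by positivity
    have g2 : 2 * l ^ 2 + l * y + y ^ 2 ≤ 4 := by linarith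
    have g3 : (2 * l ^ 2 + l * y + y ^ 2) * en ≤
        (2 * l ^ 2 + l * y + y ^ 2) * (4 * E + 2 * C1 * (l ^ 4 * Y)) :=
      mul_le_mul_of_nonneg_left hen1 g1
    have g4 : (2 * l ^ 2 + l * y + y ^ 2) * (4 * E) ≤ 8 * ((l ^ 2 + l * y + y ^ 2) * E) := by
      have g5 : (2 * l ^ 2 + l * y + y ^ 2) ≤ 2 * (l ^ 2 + l * y + y ^ 2) := by linarith
      have g6 := mul_le_mul_of_nonneg_right g5 (by positivity : 0 ≤ 4 * E)
      calc _ ≤ _ := g6
        _ = _ := by ring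
    have g7 : (2 * l ^ 2 + l * y + y ^ 2) * (2 * C1 * (l ^ 4 * Y)) ≤ 8 * C1 * (l ^ 2 * Y) := by
      have g8 : 0 ≤ 2 * C1 * (l ^ 4 * Y) := by positivity
      have g9 : (2 * l ^ 2 + l * y + y ^ 2) * (2 * C1 * (l ^ 4 * Y)) ≤
        4 * (2 * C1 * (l ^ 4 * Y)) := mul_le_mul_of_nonneg_right g2 g8
      have g10 : 2 * C1 * (l ^ 4 * Y) ≤ 2 * C1 * (l ^ 2 * Y) :=
        mul_le_mul_of_nonneg_left hl4 (by positivity)
      linarith
    have g11 : (2 * l ^ 2 + l * y + y ^ 2) * (4 * E + 2 * C1 * (l ^ 4 * Y)) =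
      (2 * l ^ 2 + l * y + y ^ 2) * (4 * E) +
        (2 * l ^ 2 + l * y + y ^ 2) * (2 * C1 * (l ^ 4 * Y)) := by ring
    linarith
  have e6 : l ^ 2 * Yh ≤ 2 * (l ^ 2 * Y) := by
    have := mul_le_mul_of_nonneg_left hYh1 hll
    linarith
  have e7 : δ * (en + a * b) + δ ^ 2 * Yh ≤
      8 * Cd * ((l ^ 2 + l * y + y ^ 2) * E) +
        (8 * C1 * Cd + 2 * Cd + 8 * Cd ^ 2) * (l ^ 2 * Y) := by
    have g1 := mul_le_mul_of_nonneg_left e5 hCd
    have g2 : 0 ≤ Cd + 4 * Cd ^ 2 := by positivity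
    have g3 := mul_le_mul_of_nonneg_left e6 g2
    linarith
  have e8 := mul_le_mul_of_nonneg_left e7 hC0
  have p1 : 0 ≤ (l ^ 2 + l * y + y ^ 2) * E := by positivity
  have p2 : 0 ≤ l ^ 2 * Y := by positivity
  have e9 : C1 * ((l ^ 2 + l * y) * E + l ^ 2 * Y) ≤
      C1 * ((l ^ 2 + l * y + y ^ 2) * E) + C1 * (l ^ 2 * Y) := by
    have g1 : (l ^ 2 + l * y) * E ≤ (l ^ 2 + l * y + y ^ 2) * E :=
      mul_le_mul_of_nonneg_right (by linarith) hE
    have g2 := mul_le_mul_of_nonneg_left g1 hC1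
    have g3 : C1 * ((l ^ 2 + l * y) * E + l ^ 2 * Y) =
      C1 * ((l ^ 2 + l * y) * E) + C1 * (l ^ 2 * Y) := by ring
    linarith
  have p3 : 0 ≤ C0 * (8 * C1 * Cd + 2 * Cd + 8 * Cd ^ 2) * ((l ^ 2 + l * y + y ^ 2) * E) :=
    mul_nonneg (by positivity) p1
  have p4 : 0 ≤ 8 * C0 * Cd * (l ^ 2 * Y) := mul_nonneg (by positivity) p2
  have e10 : CLE C0 C1 Cd * ((l ^ 2 + l * y + y ^ 2) * E + l ^ 2 * Y) =
      C0 * (8 * Cd * ((l ^ 2 + l * y + y ^ 2) * E) +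
        (8 * C1 * Cd + 2 * Cd + 8 * Cd ^ 2) * (l ^ 2 * Y)) +
      (C1 * ((l ^ 2 + l * y + y ^ 2) * E) + C1 * (l ^ 2 * Y)) +
      C0 * (8 * C1 * Cd + 2 * Cd + 8 * Cd ^ 2) * ((l ^ 2 + l * y + y ^ 2) * E) +
      8 * C0 * Cd * (l ^ 2 * Y) := by
    unfold CLE; ring
  rw [e10]
  linarith

/-- integrals of the rescaled measure over a set -/
theorem setIntegral_resc (T : Dif k) {V : Measure (Euc k × L k)} {W : Set (Euc k)}
    (hW : MeasurableSet W) {z0 : Euc k} {t : ℝ} (ht : 0 < t) {F : Euc k × L k → ℝ}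
    (hF : Measurable F) :
    ∫ p in {p | T.Ψ p.1 ∈ W}, F p ∂(resc m z0 t V) =
      (t ^ m)⁻¹ * ∫ p in {p | T.Ψ (t⁻¹ • (p.1 - z0)) ∈ W}, F (hom z0 t p) ∂V := by
  have hm := measurableSet_pre (k := k) T hW
  have hm' : MeasurableSet {p : Euc k × L k | T.Ψ (t⁻¹ • (p.1 - z0)) ∈ W} :=
    measurable_hom z0 t hm
  rw [← integral_indicator hm, ← integral_indicator hm',
    integral_resc m z0 ht V (hF.indicator hm).aestronglyMeasurable]
  congr 1

section Bp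

variable {π : Euc k →L[ℝ] Euc m} {ρ : Euc k →L[ℝ] Euc n} {x : Euc k} {w w' U : Euc m → Euc n}
  {X0 : Euc m} {C κ t e : ℝ} {q : Euc m →L[ℝ] Euc n}
  {H : Euc m →L[ℝ] Euc m} {H' : Euc n →L[ℝ] Euc n} {T : Dif k}
  {V : Measure (Euc k × L k)} {K : Set (Euc k)} {h0 : ℝ}

theorem measurable_K' (hg : Gr 1 w) (hf : Frame π ρ) (hK : Lk π ρ x w X0 t h0 V K) :
    MeasurableSet {p : Euc k × L k | p.1 ∈ K ∧ ‖foot π ρ x 1 w p.1 - X0‖ < 5 * t} := by
  have h1 : ContinuousOn (fun z => ‖foot π ρ x 1 w z - X0‖) (tube π ρ x 1 w) :=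
    ((hg.continuousOn_foot hf).sub continuousOn_const).norm
  have h2 : IsOpen (tube π ρ x 1 w ∩ (fun z => ‖foot π ρ x 1 w z - X0‖) ⁻¹' Iio (5 * t)) :=
    h1.isOpen_inter_preimage hg.isOpen_tube isOpen_Iio
  have h3 : {p : Euc k × L k | p.1 ∈ K ∧ ‖foot π ρ x 1 w p.1 - X0‖ < 5 * t} =
      Prod.fst ⁻¹' (K ∩ (tube π ρ x 1 w ∩
        (fun z => ‖foot π ρ x 1 w z - X0‖) ⁻¹' Iio (5 * t))) := by
    ext p
    constructor
    · rintro ⟨a, b⟩
      exact ⟨a, hK.sub a, b⟩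
    · rintro ⟨a, b⟩
      exact ⟨a, b.2⟩
  rw [h3]
  exact measurable_fst (hK.cpt.isClosed.measurableSet.inter h2.measurableSet)

/-- the physical integrand -/
def Gp (π : Euc k →L[ℝ] Euc m) (ρ : Euc k →L[ℝ] Euc n) (x : Euc k) (w : Euc m → Euc n)
    (a b : ℝ) (p : Euc k × L k) : ℝ :=
  a * Nt π ρ w (foot π ρ x 1 w p.1) p.2 + b * ‖p.1 - pt π ρ x w (foot π ρ x 1 w p.1)‖ ^ 2

theorem integrable_Gp (hg : Gr 1 w) (hf : Frame π ρ) (hK : Lk π ρ x w X0 t h0 V K) (a b : ℝ) :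
    IntegrableOn (Gp π ρ x w a b) (K ×ˢ univ) V := by
  have hm : MeasurableSet (K ×ˢ (univ : Set (L k))) := hK.cpt.isClosed.measurableSet.prod .univ
  have hOn : GL_394.On (V.restrict (K ×ˢ univ)) m K := by
    refine ⟨⟨by rw [Measure.restrict_apply_univ]; exact hK.fin⟩, ?_⟩
    filter_upwards [ae_restrict_of_ae hK.conc, ae_restrict_mem hm] with p h1 h2
    exact ⟨h2.1, h1⟩
  refine hOn.integrable hK.cpt ?_
  have hr := hg.reg hf (x := x) X0
  have h1 : ContinuousOn (fun p : Euc k × L k => Nt π ρ w (foot π ρ x 1 w p.1) p.2)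
      (K ×ˢ G m k) := hr.ctau.mono (prod_mono hK.sub Subset.rfl)
  have h2 : ContinuousOn (fun z => z - pt π ρ x w (foot π ρ x 1 w z)) (tube π ρ x 1 w) := by
    have h3 := hg.continuousOn_foot hf (x := x)
    unfold Foot_842.pt
    exact continuousOn_id.sub ((continuousOn_const.add
      ((adj π).continuous.comp_continuousOn h3)).add
      ((adj ρ).continuous.comp_continuousOn (hg.differentiable.continuous.comp_continuousOn h3)))
  have h4 : ContinuousOn (fun p : Euc k × L k =>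
      ‖p.1 - pt π ρ x w (foot π ρ x 1 w p.1)‖ ^ 2) (K ×ˢ G m k) :=
    ((h2.comp continuousOn_fst fun p hp => hK.sub hp.1).norm).pow 2
  exact (continuousOn_const.mul h1).add (continuousOn_const.mul h4)

end Bp

end Crest.Agent.R234.Fm_281
end
end

-- ▼ part R234/Fx7_281
section

/-!
# Row 234 (helper281), node F3-LE (local estimate), file 3: the local estimate at a base point
-/

set_option autoImplicit false

open MeasureTheory Filter Topology Set Metric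
open Crest.GeometryTopology.Submanifold
open Crest.Agent.R234.Vf_884
open Crest.Agent.R234.Vc_164 (hom resc measurable_hom continuous_hom integral_resc resc_conc)
open Crest.Agent.R234.Ar_870 (IsCo tl)
open Crest.Agent.R234.Ft_209 (Dif IsPj)
open Crest.Agent.R234.Cy_870 (Split cyl isClosed_cyl)
open Crest.Agent.R234.Fc_209 (IsChart Bd)
open Crest.Agent.R234.Main_456 (Msys Frame)
open Crest.Agent.R234.Ell1_3 (dns gdet gop)
open Crest.Agent.R234.GLK_128 (BB A0 NN Fr Inv hh gg tau0)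
open Crest.Agent.R234.Gi_456 (hinv IsFoot foot tube Gr yy)
open Crest.Agent.R234.Foot_842 (pt)
open Crest.Agent.R234.Nrm_842 (Zm zc)
open Crest.Agent.R234.Grot_842 (rπ rρ)
open Crest.Agent.R234.F35_354 (Bp)
open Crest.Agent.R234.Ex_46 (trans zoom hmt' restr UU DD)
open Crest.Agent.R234.Core_809 (part anom en Yh)
open Crest.Agent.R234.Loc1_290 (bump)
open scoped InnerProductSpace ENNReal

noncomputable section

namespace Crest.Agent.R234.Fm_281

variable {m n k : ℕ}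

local notation "adj" => ContinuousLinearMap.adjoint

/-- the test function in the zoomed chart -/
def fB (U : Euc m → Euc n) (y : Euc m) : ℝ := bump 1 0 y / dns (fderiv ℝ U y)

/-- the test function at the foot -/
def Bf (t : ℝ) (q : Euc m →L[ℝ] Euc n) (H : Euc m →L[ℝ] Euc m) (w U : Euc m → Euc n)
    (X0 : Euc m) : Euc m → ℝ := (ball X0 (6 * t)).indicator fun X => fB U (zc t q H w X0 X)

theorem fB_nonneg (U : Euc m → Euc n) (y : Euc m) : 0 ≤ fB U y :=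
  div_nonneg (Loc1_290.bump_nonneg _ _ _) (Ell1_3.dns_pos _).le

theorem fB_le (U : Euc m → Euc n) (y : Euc m) : fB U y ≤ 1 := by
  unfold fB
  rw [div_le_one (Ell1_3.dns_pos _)]
  exact (Loc1_290.bump_le_one _ _ _).trans (Nrm_842.one_le_dns _)

theorem fB_zero (U : Euc m → Euc n) {y : Euc m} (hy : 1 ≤ ‖y‖) : fB U y = 0 := by
  unfold fB
  rw [Loc1_290.bump_eq_zero one_pos (by rwa [sub_zero]), zero_div]

theorem fB_mul (U : Euc m → Euc n) (y : Euc m) : fB U y * dns (fderiv ℝ U y) = bump 1 0 y :=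
  div_mul_cancel₀ _ (Ell1_3.dns_pos _).ne'

theorem measurable_fB {U : Euc m → Euc n} (hU : ContDiff ℝ 3 U) : Measurable (fB U) := by
  have h1 : Continuous fun y : Euc m => bump (1:ℝ) (0 : Euc m) y := by
    unfold Loc1_290.bump
    fun_prop
  have h2 : Continuous fun y : Euc m => dns (fderiv ℝ U y) :=
    Ell1_3.dns_contDiff.continuous.comp (hU.continuous_fderiv (by norm_num))
  exact (h1.div h2 fun y => (Ell1_3.dns_pos _).ne').measurable

theorem ae_resc {V : Measure (Euc k × L k)} {z0 : Euc k} {t : ℝ} {q : Euc k × L k → Prop}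
    (hm : MeasurableSet {p | q p}) (h : ∀ᵐ p ∂V, q (hom z0 t p)) :
    ∀ᵐ p ∂(resc m z0 t V), q p := by
  refine Measure.ae_smul_measure ?_ _
  rw [ae_map_iff (measurable_hom z0 t).aemeasurable hm]
  exact h

section Bp

variable {π : Euc k →L[ℝ] Euc m} {ρ : Euc k →L[ℝ] Euc n} {x : Euc k} {w w' U : Euc m → Euc n}
  {X0 : Euc m} {C κ t e : ℝ} {q : Euc m →L[ℝ] Euc n}
  {H : Euc m →L[ℝ] Euc m} {H' : Euc n →L[ℝ] Euc n} {T : Dif k}
  {V : Measure (Euc k × L k)} {K : Set (Euc k)} {h0 : ℝ}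

theorem hyp_of (h : Bp π ρ x w X0 C κ t q H H' w' U T e)
    (hM : ∀ y ∈ ball (0 : Euc m) 7, Msys U y = 0) :
    Hyp (rπ π ρ q H) (rρ π ρ q H') U (C * κ * t) e 7 T where
  hs := splitZ h.zm h.fr
  hu := cdU h.zm
  hl := by
    have := h.zm.C1
    have := h.zm.κ0
    have := h.zm.t0
    positivity
  hb := Bd.of_iter fun j hj z => h.zm.bd j (by omega) z
  hM := hM
  hT := h.ct

/-- the mass of the chart cylinder -/
theorem resc_cyl (h : Bp π ρ x w X0 C κ t q H H' w' U T e) (hK : Lk π ρ x w X0 t h0 V K) :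
    resc m (pt π ρ x w X0) t V {p | T.Ψ p.1 ∈ cyl (rπ π ρ q H) (rρ π ρ q H') 0 4 1} < ⊤ := by
  have hm := measurableSet_pre (k := k) T
    (isClosed_cyl (rπ π ρ q H) (rρ π ρ q H') 0 4 1).measurableSet
  rw [resc, Measure.smul_apply, Measure.map_apply (measurable_hom _ _) hm, smul_eq_mul]
  exact ENNReal.mul_lt_top ENNReal.ofReal_lt_top (fin_Sc h hK)

/-- heights in the chart -/
theorem ae_height (h : Bp π ρ x w X0 C κ t q H H' w' U T e) (hK : Lk π ρ x w X0 t h0 V K) :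
    ∀ᵐ p ∂(resc m (pt π ρ x w X0) t V),
      T.Ψ p.1 ∈ cyl (rπ π ρ q H) (rρ π ρ q H') 0 4 1 → ‖rρ π ρ q H' (T.Ψ p.1)‖ ≤ h0 / t := by
  refine ae_resc ?_ ?_
  · have h1 : Measurable fun p : Euc k × L k => ‖rρ π ρ q H' (T.Ψ p.1)‖ :=
      ((rρ π ρ q H').continuous.measurable.comp
        (T.continuousΨ.measurable.comp measurable_fst)).norm
    have h2 := (measurableSet_pre (k := k) T
      (isClosed_cyl (rπ π ρ q H) (rρ π ρ q H') 0 4 1).measurableSet)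
    have h3 : {p : Euc k × L k | T.Ψ p.1 ∈ cyl (rπ π ρ q H) (rρ π ρ q H') 0 4 1 →
        ‖rρ π ρ q H' (T.Ψ p.1)‖ ≤ h0 / t} =
        {p : Euc k × L k | T.Ψ p.1 ∈ cyl (rπ π ρ q H) (rρ π ρ q H') 0 4 1}ᶜ ∪
        {p : Euc k × L k | ‖rρ π ρ q H' (T.Ψ p.1)‖ ≤ h0 / t} := by
      ext p
      exact imp_iff_not_or
    rw [h3]
    exact h2.compl.union (measurableSet_le h1 measurable_const)
  · filter_upwards [ae_Sc h hK] with p hp hpS
    obtain ⟨-, -, -, h4, h5⟩ := hp hpS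
    refine h5.trans ?_
    have := h.zm.t0
    gcongr

/-- the physical side: transfer of the error integral -/
theorem err_le (h : Bp π ρ x w X0 C κ t q H H' w' U T e) (hK : Lk π ρ x w X0 t h0 V K)
    {a b a' b' : ℝ} (ha : 0 ≤ a) (haa : a ≤ a') (hb : 0 ≤ b) (hbb : b ≤ b' * t ^ 2)
    (hiF : IntegrableOn (fun p : Euc k × L k =>
      a * Nt (rπ π ρ q H) (rρ π ρ q H') U (rπ π ρ q H (T.Ψ (zy π ρ x w X0 t p.1))) p.2 +
      b * ‖rρ π ρ q H' (T.Ψ (zy π ρ x w X0 t p.1))‖ ^ 2) (Sc π ρ x w X0 t q H H' T) V) :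
    ∫ p in Sc π ρ x w X0 t q H H' T,
      (a * Nt (rπ π ρ q H) (rρ π ρ q H') U (rπ π ρ q H (T.Ψ (zy π ρ x w X0 t p.1))) p.2 +
      b * ‖rρ π ρ q H' (T.Ψ (zy π ρ x w X0 t p.1))‖ ^ 2) ∂V ≤
    ∫ p in {p | p.1 ∈ K ∧ ‖foot π ρ x 1 w p.1 - X0‖ < 5 * t}, Gp π ρ x w a' b' p ∂V := by
  have ht := h.zm.t0
  have hb' : 0 ≤ b' := by
    have h1 : 0 ≤ b' * t ^ 2 := hb.trans hbb
    exact nonneg_of_mul_nonneg_left h1 (by positivity)
  refine transfer_le h hK ?_ ?_ ?_ hiF (measurable_K' h.gr h.fr hK)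
  · filter_upwards [ae_Sc h hK, hK.conc] with p h1 hpG hpS
    obtain ⟨-, h2, h3, -, h5⟩ := h1 hpS
    unfold Gp
    rw [← h3, Nt_eq h.zm h.fr (by linarith)]
    have hN := tau0_nonneg' (split_of_frame' h.fr) (fderiv ℝ w (foot π ρ x 1 w p.1)) hpG
    have hN' : 0 ≤ Nt π ρ w (foot π ρ x 1 w p.1) p.2 := hN
    refine add_le_add (mul_le_mul_of_nonneg_right haa hN') ?_
    obtain ⟨y, hy⟩ : ∃ y, y = ‖rρ π ρ q H' (T.Ψ (zy π ρ x w X0 t p.1))‖ := ⟨_, rfl⟩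
    obtain ⟨ν, hν⟩ : ∃ ν, ν = ‖p.1 - pt π ρ x w (foot π ρ x 1 w p.1)‖ := ⟨_, rfl⟩
    rw [← hy, ← hν] at h5 ⊢
    have hy0 : 0 ≤ y := by rw [hy]; exact norm_nonneg _
    have h6 : y ^ 2 ≤ (ν / t) ^ 2 := pow_le_pow_left₀ hy0 h5 2
    calc b * y ^ 2 ≤ (b' * t ^ 2) * (ν / t) ^ 2 :=
          mul_le_mul hbb h6 (sq_nonneg y) (by positivity)
      _ = b' * ν ^ 2 := by
          field_simp
  · filter_upwards [hK.conc] with p hpG _
    have hN' : 0 ≤ Nt π ρ w (foot π ρ x 1 w p.1) p.2 :=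
      tau0_nonneg' (split_of_frame' h.fr) (fderiv ℝ w (foot π ρ x 1 w p.1)) hpG
    have ha' : 0 ≤ a' := ha.trans haa
    unfold Gp
    positivity
  · exact (integrable_Gp h.gr h.fr hK a' b').mono_set fun p hp => ⟨hp.1, mem_univ _⟩

/-- the physical side: the test function -/
theorem main_eq (h : Bp π ρ x w X0 C κ t q H H' w' U T e) (hK : Lk π ρ x w X0 t h0 V K) :
    ∫ p in K ×ˢ univ, Bf t q H w U X0 (foot π ρ x 1 w p.1) *
        (1 - Nt π ρ w (foot π ρ x 1 w p.1) p.2 / 2) ∂V =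
      ∫ p in Sc π ρ x w X0 t q H H' T, fB U (rπ π ρ q H (T.Ψ (zy π ρ x w X0 t p.1))) *
        (1 - Nt (rπ π ρ q H) (rρ π ρ q H') U (rπ π ρ q H (T.Ψ (zy π ρ x w X0 t p.1))) p.2 / 2)
          ∂V := by
  refine transfer h hK ?_ ?_
  · filter_upwards [ae_Sc h hK] with p h1 hpS
    obtain ⟨-, h2, h3, -, -⟩ := h1 hpS
    have ht := h.zm.t0
    have h6 : ‖foot π ρ x 1 w p.1 - X0‖ < 6 * t := by linarith
    have h4 : Bf t q H w U X0 (foot π ρ x 1 w p.1) =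
        fB U (zc t q H w X0 (foot π ρ x 1 w p.1)) := by
      unfold Bf
      rw [indicator_of_mem (mem_ball_iff_norm.2 h6)]
    rw [h4, ← h3, Nt_eq h.zm h.fr h6.le]
  · intro p hpK hp
    have h5 : Bf t q H w U X0 (foot π ρ x 1 w p.1) = 0 := by
      unfold Bf
      by_cases h6 : foot π ρ x 1 w p.1 ∈ ball X0 (6 * t)
      · rw [indicator_of_mem h6]
        by_cases h8 : ‖foot π ρ x 1 w p.1 - X0‖ ≤ 5 * t
        · have h7 := hp h8
          exact fB_zero U (by linarith)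
        · refine fB_zero U ?_
          have h9 := h.zm.le_norm_zc (mem_ball_iff_norm.1 h6).le
          have ht := h.zm.t0
          by_contra hcon
          push Not at h8 hcon
          have h10 : t * (65 / 64 * ‖zc t q H w X0 (foot π ρ x 1 w p.1)‖) ≤ t * (65 / 64 * 1) := by
            gcongr
          linarith
      · rw [indicator_of_notMem h6]
    rw [h5, zero_mul]

/-- the area side -/
theorem area_eq (h : Bp π ρ x w X0 C κ t q H H' w' U T e) :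
    ∫ X, Bf t q H w U X0 X * dns (fderiv ℝ w X) = t ^ m * ∫ y : Euc m, bump 1 0 y := by
  have h1 := h.zm.area (f := fB U) (fun y hy => fB_zero U (by linarith))
  simp_rw [fB_mul] at h1
  rw [← h1, ← integral_indicator measurableSet_ball]
  refine integral_congr_ae (Eventually.of_forall fun X => ?_)
  unfold Bf
  by_cases hX : X ∈ ball X0 (6 * t)
  · simp only [indicator_of_mem hX]
  · simp only [indicator_of_notMem hX, zero_mul]

end Bp

end Crest.Agent.R234.Fm_281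
end
end

-- ▼ part R234/Fx8_281
section

/-!
# Row 234 (helper281), node F3-LE (local estimate), file 4: **LE-a**, the local estimate at a base
point from the anomaly bound of the core
-/

set_option autoImplicit false

open MeasureTheory Filter Topology Set Metric
open Crest.GeometryTopology.Submanifold
open Crest.Agent.R234.Vf_884
open Crest.Agent.R234.Vc_164 (hom resc measurable_hom continuous_hom integral_resc resc_conc)
open Crest.Agent.R234.Ar_870 (IsCo tl)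
open Crest.Agent.R234.Ft_209 (Dif IsPj)
open Crest.Agent.R234.Cy_870 (Split cyl isClosed_cyl)
open Crest.Agent.R234.Fc_209 (IsChart Bd)
open Crest.Agent.R234.Main_456 (Msys Frame)
open Crest.Agent.R234.Ell1_3 (dns gdet gop)
open Crest.Agent.R234.Gi_456 (hinv IsFoot foot tube Gr yy)
open Crest.Agent.R234.Foot_842 (pt)
open Crest.Agent.R234.Nrm_842 (Zm zc)
open Crest.Agent.R234.Grot_842 (rπ rρ)
open Crest.Agent.R234.F35_354 (Bp)
open Crest.Agent.R234.Ex_46 (trans zoom hmt' restr UU DD)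
open Crest.Agent.R234.Core_809 (part anom en Yh)
open Crest.Agent.R234.Loc1_290 (bump)
open scoped InnerProductSpace ENNReal

noncomputable section

namespace Crest.Agent.R234.Fm_281

variable {m n k : ℕ}

/-- integrability of bounded functions on a set of finite measure -/
theorem intOn_bdd {α : Type*} [MeasurableSpace α] {μ : Measure α} {s : Set α} (hs : μ s < ⊤)
    {F : α → ℝ} (hF : Measurable F) {B : ℝ} (hB : ∀ᵐ p ∂(μ.restrict s), ‖F p‖ ≤ B) :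
    IntegrableOn F s μ := by
  have : IsFiniteMeasure (μ.restrict s) := ⟨by rw [Measure.restrict_apply_univ]; exact hs⟩
  exact Integrable.mono' (integrable_const B) hF.aestronglyMeasurable hB

/-- the integrals in the chart -/
theorem chart_int (k : ℕ) : ∃ c C1 : ℝ, 0 < c ∧ c ≤ 1 / 8 ∧ 1 ≤ C1 ∧
    ∀ {m n : ℕ} {P : Euc k →L[ℝ] Euc m} {R : Euc k →L[ℝ] Euc n} {U : Euc m → Euc n}
      {l e y0 : ℝ} {T : Dif k}, Hyp P R U l e 7 T → l ≤ c → 0 ≤ y0 → y0 ≤ 1 →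
      ∀ {V : Measure (Euc k × L k)} {Q δ A C0 Cd : ℝ}, (∀ᵐ p ∂V, p.2 ∈ G m k) →
      V {p | T.Ψ p.1 ∈ cyl P R 0 4 1} < ⊤ →
      (∀ᵐ p ∂V, T.Ψ p.1 ∈ cyl P R 0 4 1 → ‖R (T.Ψ p.1)‖ ≤ y0) →
      0 ≤ C0 → 0 ≤ Cd → 0 ≤ δ → δ ≤ Cd * (l * (l + y0)) →
      (∫ p in cyl P R 0 4 1 ×ˢ univ, bump 1 0 (P p.1) * (1 - tl P p.2 / 2) ∂(T.push V) -
          Q * ∫ v : Euc m, bump 1 0 v ≤
        C0 * (δ * ((∫ p in cyl P R 0 4 1 ×ˢ univ, tl P p.2 ∂(T.push V)) +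
          √((∫ p in cyl P R 0 4 1 ×ˢ univ, tl P p.2 ∂(T.push V)) *
            ∫ p in cyl P R 0 4 1 ×ˢ univ, ‖R p.1‖ ^ 2 ∂(T.push V))) +
          δ ^ 2 * ∫ p in cyl P R 0 4 1 ×ˢ univ, ‖R p.1‖ ^ 2 ∂(T.push V)) + A) →
      ∫ p in {p | T.Ψ p.1 ∈ cyl P R 0 4 1}, fB U (P (T.Ψ p.1)) *
          (1 - Nt P R U (P (T.Ψ p.1)) p.2 / 2) ∂V - Q * ∫ v : Euc m, bump 1 0 v ≤
        CLE C0 C1 Cd * ∫ p in {p | T.Ψ p.1 ∈ cyl P R 0 4 1},
          ((l ^ 2 + l * y0 + y0 ^ 2) * Nt P R U (P (T.Ψ p.1)) p.2 +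
            l ^ 2 * ‖R (T.Ψ p.1)‖ ^ 2) ∂V + A := by
  obtain ⟨c, C1, hc, hc8, hC1, hcmp, htr⟩ := exists_trans k
  refine ⟨c, C1, hc, hc8, hC1, ?_⟩
  intro m n P R U l e y0 T hh hlc hy00 hy01 V Q δ A C0 Cd hV hfin hht hC0 hCd hδ0 hδ hcore
  have hs := hh.hs
  have hl := hh.hl
  have hl1 : l ≤ 1 := by linarith
  have hWm : MeasurableSet (cyl P R 0 4 1) := (isClosed_cyl P R 0 4 1).measurableSet
  have hm := measurableSet_pre (k := k) T hWm
  have hWm' : MeasurableSet (cyl P R 0 4 1 ×ˢ (univ : Set (L k))) := hWm.prod .univ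
  have hreg : ∀ᵐ p ∂V, T.Ψ p.1 ∈ cyl P R 0 4 1 → ‖P (T.Ψ p.1)‖ < 7 ∧ ‖R (T.Ψ p.1)‖ ≤ 1 := by
    refine Eventually.of_forall fun p hp => ⟨?_, hp.2⟩
    have := hp.1
    rw [sub_zero] at this
    linarith
  have hΨ : Measurable fun p : Euc k × L k => T.Ψ p.1 :=
    T.continuousΨ.measurable.comp measurable_fst
  have hyM : Measurable fun p : Euc k × L k => ‖R (T.Ψ p.1)‖ :=
    (R.continuous.measurable.comp hΨ).norm
  have hNm : Measurable fun p : Euc k × L k => Nt P R U (P (T.Ψ p.1)) p.2 :=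
    measurable_Nt hh.hu (P.continuous.measurable.comp hΨ) measurable_snd
  have hgm : Measurable fun z : Euc k => fB U (P z) :=
    (measurable_fB hh.hu).comp P.continuous.measurable
  -- pointwise comparison
  have hC : ∀ᵐ p ∂(V.restrict {p : Euc k × L k | T.Ψ p.1 ∈ cyl P R 0 4 1}),
      Cmp (T.J (T.pm p)) (Nt P R U (P (T.Ψ p.1)) p.2) (dns (fderiv ℝ U (P (T.Ψ p.1))))
        (tl P (T.pm p).2) l ‖R (T.Ψ p.1)‖ C1 ∧ tl P (T.pm p).2 ≤ k ∧ ‖R (T.Ψ p.1)‖ ≤ 1 ∧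
        ‖R (T.Ψ p.1)‖ ≤ y0 := by
    filter_upwards [ae_restrict_of_ae hV, ae_restrict_of_ae hht, ae_restrict_mem hm] with p h1 h2 h3
    have h4 := h3.1
    rw [sub_zero] at h4
    refine ⟨hcmp hh hlc (by linarith) h3.2 h1, ?_, h3.2, h2 h3⟩
    rw [← tau_hp (T.pm_mem h1)]
    exact tau_le (Fc_209.hp_mem_G hs) (T.pm_mem h1)
  have hk0 : (0:ℝ) ≤ k := Nat.cast_nonneg k
  have hNb : ∀ᵐ p ∂(V.restrict {p : Euc k × L k | T.Ψ p.1 ∈ cyl P R 0 4 1}),
      0 ≤ Nt P R U (P (T.Ψ p.1)) p.2 ∧ Nt P R U (P (T.Ψ p.1)) p.2 ≤ 2 * k + C1 := by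
    filter_upwards [hC] with p hp
    obtain ⟨h1, h2, h3, -⟩ := hp
    refine ⟨h1.N0, h1.Nτ.trans ?_⟩
    have hy0 : 0 ≤ ‖R (T.Ψ p.1)‖ := norm_nonneg _
    have hll : l ^ 2 ≤ 1 := pow_le_one₀ hl hl1
    have h5 : (l ^ 2 * ‖R (T.Ψ p.1)‖) ^ 2 ≤ 1 :=
      pow_le_one₀ (by positivity) (mul_le_one₀ hll hy0 h3)
    have h6 : C1 * (l ^ 2 * ‖R (T.Ψ p.1)‖) ^ 2 ≤ C1 * 1 :=
      mul_le_mul_of_nonneg_left h5 (by linarith)
    linarith
  have iN : IntegrableOn (fun p : Euc k × L k => Nt P R U (P (T.Ψ p.1)) p.2)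
      {p | T.Ψ p.1 ∈ cyl P R 0 4 1} V := by
    refine intOn_bdd hfin hNm (B := 2 * k + C1) ?_
    filter_upwards [hNb] with p hp
    rw [Real.norm_of_nonneg hp.1]
    exact hp.2
  have iY : IntegrableOn (fun p : Euc k × L k => ‖R (T.Ψ p.1)‖ ^ 2)
      {p | T.Ψ p.1 ∈ cyl P R 0 4 1} V := by
    refine intOn_bdd hfin (hyM.pow_const 2) (B := 1) ?_
    filter_upwards [hC] with p hp
    rw [norm_pow, norm_norm]
    exact pow_le_one₀ (norm_nonneg _) hp.2.2.1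
  have ig : IntegrableOn (fun p : Euc k × L k => fB U (P (T.Ψ p.1)))
      {p | T.Ψ p.1 ∈ cyl P R 0 4 1} V := by
    refine intOn_bdd hfin (hgm.comp hΨ) (B := 1) (Eventually.of_forall fun p => ?_)
    rw [Real.norm_of_nonneg (fB_nonneg _ _)]
    exact fB_le _ _
  have main := htr hh hlc (V := V) (W := cyl P R 0 4 1) (g := fun z => fB U (P z)) hV hWm hgm ig
    hreg
  -- names of the integrals
  obtain ⟨E, hE⟩ : ∃ E, E = ∫ p in {p | T.Ψ p.1 ∈ cyl P R 0 4 1},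
    Nt P R U (P (T.Ψ p.1)) p.2 ∂V := ⟨_, rfl⟩
  obtain ⟨Y, hY⟩ : ∃ Y, Y = ∫ p in {p | T.Ψ p.1 ∈ cyl P R 0 4 1},
    ‖R (T.Ψ p.1)‖ ^ 2 ∂V := ⟨_, rfl⟩
  have hE0 : 0 ≤ E := by
    rw [hE]
    refine integral_nonneg_of_ae ?_
    filter_upwards [hNb] with p hp using hp.1
  have hY0 : 0 ≤ Y := by
    rw [hY]
    exact integral_nonneg fun p => by positivity
  -- the error term
  have hD1 : C1 * ∫ p in {p | T.Ψ p.1 ∈ cyl P R 0 4 1}, |fB U (P (T.Ψ p.1))| *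
      ((l ^ 2 + l * ‖R (T.Ψ p.1)‖) * Nt P R U (P (T.Ψ p.1)) p.2 +
        l ^ 2 * ‖R (T.Ψ p.1)‖ ^ 2) ∂V ≤ C1 * ((l ^ 2 + l * y0) * E + l ^ 2 * Y) := by
    refine mul_le_mul_of_nonneg_left ?_ (by linarith)
    rw [hE, hY, ← integral_const_mul, ← integral_const_mul,
      ← integral_add (iN.const_mul _) (iY.const_mul _)]
    refine integral_mono_of_nonneg ?_ ((iN.const_mul _).add (iY.const_mul _)) ?_
    · filter_upwards [hNb] with p hp
      have hy0 : 0 ≤ ‖R (T.Ψ p.1)‖ := norm_nonneg _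
      have := hp.1
      exact mul_nonneg (abs_nonneg _) (by positivity)
    · filter_upwards [hNb, hC] with p hp hp2
      have hy0 : 0 ≤ ‖R (T.Ψ p.1)‖ := norm_nonneg _
      have h1 := hp.1
      have h2 : |fB U (P (T.Ψ p.1))| ≤ 1 := by
        rw [abs_of_nonneg (fB_nonneg _ _)]; exact fB_le _ _
      have h3 : 0 ≤ (l ^ 2 + l * ‖R (T.Ψ p.1)‖) * Nt P R U (P (T.Ψ p.1)) p.2 +
        l ^ 2 * ‖R (T.Ψ p.1)‖ ^ 2 := by positivity
      refine (mul_le_of_le_one_left h3 h2).trans (add_le_add ?_ le_rfl)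
      refine mul_le_mul_of_nonneg_right ?_ h1
      have := mul_le_mul_of_nonneg_left hp2.2.2.2 hl
      linarith
  -- the tilt energy
  have htm : Measurable fun p : Euc k × L k => |tl P p.2| :=
    ((continuous_tl P).measurable.comp measurable_snd).abs
  have hpush := T.push_conc hV
  have e1 : ∫ p in cyl P R 0 4 1 ×ˢ univ, tl P p.2 ∂(T.push V) =
      ∫ p in cyl P R 0 4 1 ×ˢ univ, |tl P p.2| ∂(T.push V) := by
    refine integral_congr_ae ?_
    filter_upwards [ae_restrict_of_ae hpush] with p hp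
    rw [abs_of_nonneg]
    rw [← tau_hp hp]
    exact tau_nonneg (Fc_209.hp_mem_G hs) hp
  have hen0 : 0 ≤ ∫ p in cyl P R 0 4 1 ×ˢ univ, tl P p.2 ∂(T.push V) := by
    rw [e1]
    exact integral_nonneg fun p => abs_nonneg _
  have hen1 : ∫ p in cyl P R 0 4 1 ×ˢ univ, tl P p.2 ∂(T.push V) ≤
      4 * E + 2 * C1 * (l ^ 4 * Y) := by
    rw [e1]
    have iG : IntegrableOn (fun p : Euc k × L k => 2 * Nt P R U (P (T.Ψ p.1)) p.2 +
        C1 * l ^ 4 * ‖R (T.Ψ p.1)‖ ^ 2) {p | T.Ψ p.1 ∈ cyl P R 0 4 1} V := by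
      have h0 := (iN.const_mul 2).add (iY.const_mul (C1 * l ^ 4))
      exact h0
    have h1 := push_le T (V := V) hWm (F := fun p => |tl P p.2|)
      (G := fun p => 2 * Nt P R U (P (T.Ψ p.1)) p.2 + C1 * l ^ 4 * ‖R (T.Ψ p.1)‖ ^ 2) htm
      (fun p => abs_nonneg _) iG ?_
    · refine h1.2.trans (le_of_eq ?_)
      rw [integral_add (iN.const_mul 2) (iY.const_mul (C1 * l ^ 4)), integral_const_mul,
        integral_const_mul, ← hE, ← hY]
      ring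
    · filter_upwards [(ae_restrict_iff' hm).1 hC] with p hp hpW
      obtain ⟨h2, -⟩ := hp hpW
      refine ⟨?_, h2.J1⟩
      rw [abs_of_nonneg h2.τ0]
      refine h2.τN.trans (le_of_eq ?_)
      ring
  have hYh0 : 0 ≤ ∫ p in cyl P R 0 4 1 ×ˢ univ, ‖R p.1‖ ^ 2 ∂(T.push V) :=
    integral_nonneg fun p => by positivity
  have hYh1 : ∫ p in cyl P R 0 4 1 ×ˢ univ, ‖R p.1‖ ^ 2 ∂(T.push V) ≤ 2 * Y := by
    have h1 := push_le T (V := V) hWm (F := fun p => ‖R p.1‖ ^ 2)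
      (G := fun p => ‖R (T.Ψ p.1)‖ ^ 2)
      ((R.continuous.measurable.comp measurable_fst).norm.pow_const 2)
      (fun p => by positivity) iY ?_
    · rw [hY]; exact h1.2
    · filter_upwards [(ae_restrict_iff' hm).1 hC] with p hp hpW
      obtain ⟨h2, -⟩ := hp hpW
      exact ⟨le_rfl, h2.J1⟩
  have hfinal := real_LE hC0 (by linarith) hCd hl hl1 hy00 hy01 hδ0 hδ hE0 hY0 hen0 hen1 hYh0 hYh1
    hcore hD1
  -- the main term
  have e2 : ∫ p in cyl P R 0 4 1 ×ˢ univ, fB U (P p.1) *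
      (dns (fderiv ℝ U (P p.1)) * (1 - tl P p.2 / 2)) ∂(T.push V) =
      ∫ p in cyl P R 0 4 1 ×ˢ univ, bump 1 0 (P p.1) * (1 - tl P p.2 / 2) ∂(T.push V) := by
    refine integral_congr_ae (Eventually.of_forall fun p => ?_)
    simp only
    rw [← mul_assoc, fB_mul]
  rw [e2] at main
  have e3 : ∫ p in {p | T.Ψ p.1 ∈ cyl P R 0 4 1},
      ((l ^ 2 + l * y0 + y0 ^ 2) * Nt P R U (P (T.Ψ p.1)) p.2 +
        l ^ 2 * ‖R (T.Ψ p.1)‖ ^ 2) ∂V = (l ^ 2 + l * y0 + y0 ^ 2) * E + l ^ 2 * Y := by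
    rw [integral_add (iN.const_mul _) (iY.const_mul _), integral_const_mul, integral_const_mul,
      ← hE, ← hY]
  rw [e3]
  have h1 := (abs_le.1 main).2
  linarith

end Crest.Agent.R234.Fm_281
end
end

-- ▼ part R234/Fx9_281
section

/-!
# Row 234 (helper281), node F3-LE (local estimate), file 5: **LE-a**, the local estimate at a base
point from the anomaly bound of the core, in the physical space
-/

set_option autoImplicit false

open MeasureTheory Filter Topology Set Metric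
open Crest.GeometryTopology.Submanifold
open Crest.Agent.R234.Vf_884
open Crest.Agent.R234.Vc_164 (hom resc measurable_hom continuous_hom integral_resc resc_conc)
open Crest.Agent.R234.Ar_870 (IsCo tl)
open Crest.Agent.R234.Ft_209 (Dif IsPj)
open Crest.Agent.R234.Cy_870 (Split cyl isClosed_cyl)
open Crest.Agent.R234.Fc_209 (IsChart Bd)
open Crest.Agent.R234.Main_456 (Msys Frame)
open Crest.Agent.R234.Ell1_3 (dns gdet gop)
open Crest.Agent.R234.Gi_456 (hinv IsFoot foot tube Gr yy)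
open Crest.Agent.R234.Foot_842 (pt)
open Crest.Agent.R234.Nrm_842 (Zm zc)
open Crest.Agent.R234.Grot_842 (rπ rρ)
open Crest.Agent.R234.F35_354 (Bp)
open Crest.Agent.R234.Ex_46 (trans zoom hmt' restr UU DD)
open Crest.Agent.R234.Core_809 (part anom en Yh)
open Crest.Agent.R234.Loc1_290 (bump)
open scoped InnerProductSpace ENNReal

noncomputable section

namespace Crest.Agent.R234.Fm_281

variable {m n k : ℕ}

/-- the part of the class in terms of the transported varifold -/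
theorem part_eq {P : Euc k →L[ℝ] Euc m} {R : Euc k →L[ℝ] Euc n} {T : Dif k} {z0 : Euc k} {t : ℝ}
    (ht : 0 < t) {U0 : Set (Euc k)} {D0 : VarifoldData m k} (hD : IsIntegralVarifoldIn U0 D0)
    (hU0 : IsOpen U0) (hdom : cyl P R 0 4 1 ⊆ UU P R T.Φ z0 t U0) :
    part P R (DD P R T.Φ T.Ψ z0 t U0 D0) =
      (T.push (resc m z0 t (VD D0))).restrict (cyl P R 0 4 1 ×ˢ univ) := by
  have hz := Ex_46.integral_zoom hD z0 ht
  have hi := T.isIntegral hz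
  have e1 : T.data (zoom z0 t D0) = trans T.Ψ (zoom z0 t D0) := rfl
  have hUm : MeasurableSet (UU P R T.Φ z0 t U0) :=
    (Ex_46.isOpen_UU T.continuousΦ z0 t hU0).measurableSet
  have e2 : VD (DD P R T.Φ T.Ψ z0 t U0 D0) =
      (T.push (resc m z0 t (VD D0))).restrict (UU P R T.Φ z0 t U0 ×ˢ univ) := by
    unfold Ex_46.DD
    rw [← e1, Ex_46.VD_restr hi hUm, T.VD_data hz, Ex_46.VD_zoom hD z0 ht]
  have hcm : MeasurableSet (cyl P R 0 4 1 ×ˢ (univ : Set (L k))) :=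
    (isClosed_cyl P R 0 4 1).measurableSet.prod .univ
  unfold Core_809.part
  rw [e2, Measure.restrict_restrict hcm, inter_eq_left.2 (prod_mono hdom Subset.rfl)]

/-- **LE-a: the local estimate** at a base point -/
theorem exists_LEa (k : ℕ) : ∃ c C1 : ℝ, 0 < c ∧ c ≤ 1 / 8 ∧ 1 ≤ C1 ∧
    ∀ {m n : ℕ} {π : Euc k →L[ℝ] Euc m} {ρ : Euc k →L[ℝ] Euc n} {x : Euc k}
      {w w' U : Euc m → Euc n} {X0 : Euc m} {C κ t e : ℝ} {q : Euc m →L[ℝ] Euc n}
      {H : Euc m →L[ℝ] Euc m} {H' : Euc n →L[ℝ] Euc n} {T : Dif k},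
      Bp π ρ x w X0 C κ t q H H' w' U T e → (∀ y ∈ ball (0 : Euc m) 7, Msys U y = 0) →
      C * κ * t ≤ c →
      ∀ {U0 : Set (Euc k)} {D0 : VarifoldData m k}, IsIntegralVarifoldIn U0 D0 → IsOpen U0 →
      ∀ {K : Set (Euc k)} {h0 : ℝ}, Lk π ρ x w X0 t h0 (VD D0) K →
      ∀ {Q : ℕ} {δ A C0 Cd : ℝ}, 0 ≤ C0 → 0 ≤ Cd → 0 ≤ δ →
      δ ≤ Cd * (C * κ * t * (C * κ * t + h0 / t)) →
      cyl (rπ π ρ q H) (rρ π ρ q H') 0 4 1 ⊆
        UU (rπ π ρ q H) (rρ π ρ q H') T.Φ (pt π ρ x w X0) t U0 →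
      anom Q (rπ π ρ q H) (rρ π ρ q H')
          (DD (rπ π ρ q H) (rρ π ρ q H') T.Φ T.Ψ (pt π ρ x w X0) t U0 D0) 1 0 ≤
        C0 * (δ * (en (rπ π ρ q H) (rρ π ρ q H')
            (DD (rπ π ρ q H) (rρ π ρ q H') T.Φ T.Ψ (pt π ρ x w X0) t U0 D0) +
          √(en (rπ π ρ q H) (rρ π ρ q H')
            (DD (rπ π ρ q H) (rρ π ρ q H') T.Φ T.Ψ (pt π ρ x w X0) t U0 D0) *
            Yh (rπ π ρ q H) (rρ π ρ q H')
            (DD (rπ π ρ q H) (rρ π ρ q H') T.Φ T.Ψ (pt π ρ x w X0) t U0 D0))) +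
          δ ^ 2 * Yh (rπ π ρ q H) (rρ π ρ q H')
            (DD (rπ π ρ q H) (rρ π ρ q H') T.Φ T.Ψ (pt π ρ x w X0) t U0 D0)) + A →
      ∫ p in K ×ˢ univ, Bf t q H w U X0 (foot π ρ x 1 w p.1) *
          (1 - Nt π ρ w (foot π ρ x 1 w p.1) p.2 / 2) ∂(VD D0) -
        Q * ∫ X, Bf t q H w U X0 X * dns (fderiv ℝ w X) ≤
      CLE C0 C1 Cd * C ^ 2 * ∫ p in {p | p.1 ∈ K ∧ ‖foot π ρ x 1 w p.1 - X0‖ < 5 * t},
          Gp π ρ x w ((κ * t) ^ 2 + κ * h0 + (h0 / t) ^ 2) (κ ^ 2) p ∂(VD D0) + t ^ m * A := by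
  obtain ⟨c, C1, hc, hc8, hC1, hint⟩ := chart_int k
  refine ⟨c, C1, hc, hc8, hC1, ?_⟩
  intro m n π ρ x w w' U X0 C κ t e q H H' T h hM hlc U0 D0 hD hU0 K h0 hK Q δ A C0 Cd hC0 hCd
    hδ0 hδ hdom hcore
  have ht := h.zm.t0
  have hC := h.zm.C1
  have hκ := h.zm.κ0
  have hh := hyp_of h hM
  have hl := hh.hl
  have hy00 : 0 ≤ h0 / t := div_nonneg hK.hh ht.le
  have hy01 : h0 / t ≤ 1 := by rw [div_le_one ht]; exact hK.ht
  obtain ⟨V, hV⟩ : ∃ V, V = VD D0 := ⟨_, rfl⟩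
  have hpart := part_eq (P := rπ π ρ q H) (R := rρ π ρ q H') (T := T) (z0 := pt π ρ x w X0) ht hD
    hU0 hdom
  unfold Core_809.anom Core_809.en Core_809.Yh at hcore
  rw [hpart] at hcore
  rw [← hV] at hcore hK ⊢
  have hfin := resc_cyl h hK
  have hcI := hint hh hlc hy00 hy01 (Q := (Q : ℝ)) (resc_conc (pt π ρ x w X0) t hK.conc m) hfin
    (ae_height h hK) hC0 hCd hδ0 hδ hcore
  -- measurability
  have hs := hh.hs
  have hWm : MeasurableSet (cyl (rπ π ρ q H) (rρ π ρ q H') 0 4 1) :=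
    (isClosed_cyl _ _ 0 4 1).measurableSet
  have hm := measurableSet_pre (k := k) T hWm
  have hΨ : Measurable fun p : Euc k × L k => T.Ψ p.1 :=
    T.continuousΨ.measurable.comp measurable_fst
  have hyM : Measurable fun p : Euc k × L k => ‖rρ π ρ q H' (T.Ψ p.1)‖ :=
    ((rρ π ρ q H').continuous.measurable.comp hΨ).norm
  have hNm : Measurable fun p : Euc k × L k =>
      Nt (rπ π ρ q H) (rρ π ρ q H') U (rπ π ρ q H (T.Ψ p.1)) p.2 :=
    measurable_Nt hh.hu ((rπ π ρ q H).continuous.measurable.comp hΨ) measurable_snd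
  have hfm : Measurable fun p : Euc k × L k => fB U (rπ π ρ q H (T.Ψ p.1)) :=
    (measurable_fB hh.hu).comp ((rπ π ρ q H).continuous.measurable.comp hΨ)
  have hF1 : Measurable fun p : Euc k × L k => fB U (rπ π ρ q H (T.Ψ p.1)) *
      (1 - Nt (rπ π ρ q H) (rρ π ρ q H') U (rπ π ρ q H (T.Ψ p.1)) p.2 / 2) :=
    hfm.mul (measurable_const.sub (hNm.div_const 2))
  obtain ⟨l, hl'⟩ : ∃ l, l = C * κ * t := ⟨_, rfl⟩
  obtain ⟨y0, hy0'⟩ : ∃ y0, y0 = h0 / t := ⟨_, rfl⟩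
  rw [← hl', ← hy0'] at hcI
  rw [← hl'] at hl
  rw [← hy0'] at hy00
  have hF2 : Measurable fun p : Euc k × L k =>
      (l ^ 2 + l * y0 + y0 ^ 2) *
        Nt (rπ π ρ q H) (rρ π ρ q H') U (rπ π ρ q H (T.Ψ p.1)) p.2 +
      l ^ 2 * ‖rρ π ρ q H' (T.Ψ p.1)‖ ^ 2 :=
    (measurable_const.mul hNm).add (measurable_const.mul (hyM.pow_const 2))
  rw [setIntegral_resc T hWm ht hF1, setIntegral_resc T hWm ht hF2] at hcI
  -- rewrite the main term
  have e1 : ∫ p in {p : Euc k × L k | T.Ψ (t⁻¹ • (p.1 - pt π ρ x w X0)) ∈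
        cyl (rπ π ρ q H) (rρ π ρ q H') 0 4 1},
      (fun p : Euc k × L k => fB U (rπ π ρ q H (T.Ψ p.1)) *
      (1 - Nt (rπ π ρ q H) (rρ π ρ q H') U (rπ π ρ q H (T.Ψ p.1)) p.2 / 2))
        (hom (pt π ρ x w X0) t p) ∂V =
      ∫ p in K ×ˢ univ, Bf t q H w U X0 (foot π ρ x 1 w p.1) *
          (1 - Nt π ρ w (foot π ρ x 1 w p.1) p.2 / 2) ∂V := (main_eq h hK).symm
  rw [e1] at hcI
  -- the error term
  have e2 : ∫ p in {p : Euc k × L k | T.Ψ (t⁻¹ • (p.1 - pt π ρ x w X0)) ∈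
        cyl (rπ π ρ q H) (rρ π ρ q H') 0 4 1},
      (fun p : Euc k × L k => (l ^ 2 + l * y0 + y0 ^ 2) *
        Nt (rπ π ρ q H) (rρ π ρ q H') U (rπ π ρ q H (T.Ψ p.1)) p.2 +
      l ^ 2 * ‖rρ π ρ q H' (T.Ψ p.1)‖ ^ 2) (hom (pt π ρ x w X0) t p) ∂V ≤
      ∫ p in {p | p.1 ∈ K ∧ ‖foot π ρ x 1 w p.1 - X0‖ < 5 * t},
        Gp π ρ x w (C ^ 2 * ((κ * t) ^ 2 + κ * h0 + (h0 / t) ^ 2)) (C ^ 2 * κ ^ 2) p ∂V := by
    refine err_le h hK (by positivity) ?_ (sq_nonneg l) ?_ ?_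
    · rw [hl', hy0']
      have f1 : C * κ * t * (h0 / t) = C * (κ * h0) := by field_simp
      rw [f1]
      have f2 : (C * κ * t) ^ 2 = C ^ 2 * (κ * t) ^ 2 := by ring
      rw [f2]
      have f3 : 0 ≤ κ * h0 := mul_nonneg hκ hK.hh
      have f4 : C ≤ C ^ 2 := by nlinarith
      have f5 : 1 ≤ C ^ 2 := by nlinarith
      have f6 : C * (κ * h0) ≤ C ^ 2 * (κ * h0) := mul_le_mul_of_nonneg_right f4 f3
      have f7 : (h0 / t) ^ 2 ≤ C ^ 2 * (h0 / t) ^ 2 :=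
        le_mul_of_one_le_left (sq_nonneg _) f5
      calc _ ≤ C ^ 2 * (κ * t) ^ 2 + C ^ 2 * (κ * h0) + C ^ 2 * (h0 / t) ^ 2 := by linarith
        _ = _ := by ring
    · rw [hl']
      exact le_of_eq (by ring)
    · -- integrability
      have g1 := hh.hs
      have hmz : Measurable fun p : Euc k × L k => hom (pt π ρ x w X0) t p :=
        measurable_hom _ _
      have g2 := hF2.comp hmz
      refine intOn_bdd (fin_Sc h hK) g2
        (B := (l ^ 2 + l * y0 + y0 ^ 2) * (k * 1) + l ^ 2 * 1) ?_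
      filter_upwards [ae_restrict_of_ae hK.conc, ae_restrict_mem measurableSet_Sc] with p h1 h2
      have h3 : 0 ≤ Nt (rπ π ρ q H) (rρ π ρ q H') U
          (rπ π ρ q H (T.Ψ (zy π ρ x w X0 t p.1))) p.2 := tau0_nonneg' hs _ h1
      have h4 : Nt (rπ π ρ q H) (rρ π ρ q H') U
          (rπ π ρ q H (T.Ψ (zy π ρ x w X0 t p.1))) p.2 ≤ k * 1 := by
        unfold Nt GLK_128.tau0
        have h5 := abs_tr_mul_le (GLK_128.NN (ContinuousLinearMap.adjoint (rπ π ρ q H))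
          (ContinuousLinearMap.adjoint (rρ π ρ q H'))
          (fderiv ℝ U (rπ π ρ q H (T.Ψ (zy π ρ x w X0 t p.1))))
          (hinv (fderiv ℝ U (rπ π ρ q H (T.Ψ (zy π ρ x w X0 t p.1)))))) p.2
        have h6 : IsStarProjection (GLK_128.NN (ContinuousLinearMap.adjoint (rπ π ρ q H))
          (ContinuousLinearMap.adjoint (rρ π ρ q H'))
          (fderiv ℝ U (rπ π ρ q H (T.Ψ (zy π ρ x w X0 t p.1))))
          (hinv (fderiv ℝ U (rπ π ρ q H (T.Ψ (zy π ρ x w X0 t p.1)))))) :=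
          ⟨(NN_isPj hs _).mul, (NN_isPj hs _).star⟩
        have h7 := h6.norm_le
        have h8 := (isStar_of_G h1).norm_le
        refine (le_abs_self _).trans (h5.trans ?_)
        refine mul_le_mul_of_nonneg_left ?_ (Nat.cast_nonneg k)
        calc _ ≤ (1:ℝ) * 1 := mul_le_mul h7 h8 (norm_nonneg _) zero_le_one
          _ = 1 := one_mul 1
      have h5 : ‖rρ π ρ q H' (T.Ψ (zy π ρ x w X0 t p.1))‖ ≤ 1 := h2.2
      have h6 : 0 ≤ ‖rρ π ρ q H' (T.Ψ (zy π ρ x w X0 t p.1))‖ := norm_nonneg _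
      change ‖(l ^ 2 + l * y0 + y0 ^ 2) * Nt (rπ π ρ q H) (rρ π ρ q H') U
          (rπ π ρ q H (T.Ψ (zy π ρ x w X0 t p.1))) p.2 +
          l ^ 2 * ‖rρ π ρ q H' (T.Ψ (zy π ρ x w X0 t p.1))‖ ^ 2‖ ≤ _
      rw [Real.norm_of_nonneg (by positivity)]
      refine add_le_add (mul_le_mul_of_nonneg_left h4 (by positivity)) ?_
      exact mul_le_mul_of_nonneg_left (pow_le_one₀ h6 h5) (sq_nonneg l)
  have e3 : ∫ p in {p | p.1 ∈ K ∧ ‖foot π ρ x 1 w p.1 - X0‖ < 5 * t},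
        Gp π ρ x w (C ^ 2 * ((κ * t) ^ 2 + κ * h0 + (h0 / t) ^ 2)) (C ^ 2 * κ ^ 2) p ∂V =
      C ^ 2 * ∫ p in {p | p.1 ∈ K ∧ ‖foot π ρ x 1 w p.1 - X0‖ < 5 * t},
        Gp π ρ x w ((κ * t) ^ 2 + κ * h0 + (h0 / t) ^ 2) (κ ^ 2) p ∂V := by
    rw [← integral_const_mul]
    refine integral_congr_ae (Eventually.of_forall fun p => ?_)
    simp only [Gp]
    ring
  rw [e3] at e2
  rw [area_eq h]
  -- conclusion
  obtain ⟨M, hMd⟩ : ∃ M, M = ∫ p in K ×ˢ univ, Bf t q H w U X0 (foot π ρ x 1 w p.1) *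
          (1 - Nt π ρ w (foot π ρ x 1 w p.1) p.2 / 2) ∂V := ⟨_, rfl⟩
  obtain ⟨B, hB⟩ : ∃ B, B = ∫ v : Euc m, bump (1:ℝ) 0 v := ⟨_, rfl⟩
  obtain ⟨G1, hG1⟩ : ∃ G1, G1 = ∫ p in {p : Euc k × L k |
        T.Ψ (t⁻¹ • (p.1 - pt π ρ x w X0)) ∈ cyl (rπ π ρ q H) (rρ π ρ q H') 0 4 1},
      (fun p : Euc k × L k => (l ^ 2 + l * y0 + y0 ^ 2) *
        Nt (rπ π ρ q H) (rρ π ρ q H') U (rπ π ρ q H (T.Ψ p.1)) p.2 +
      l ^ 2 * ‖rρ π ρ q H' (T.Ψ p.1)‖ ^ 2) (hom (pt π ρ x w X0) t p) ∂V := ⟨_, rfl⟩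
  obtain ⟨G2, hG2⟩ : ∃ G2, G2 = ∫ p in {p | p.1 ∈ K ∧ ‖foot π ρ x 1 w p.1 - X0‖ < 5 * t},
        Gp π ρ x w ((κ * t) ^ 2 + κ * h0 + (h0 / t) ^ 2) (κ ^ 2) p ∂V := ⟨_, rfl⟩
  rw [← hG1, ← hG2] at e2
  rw [← hMd, ← hB, ← hG1] at hcI
  rw [← hMd, ← hB, ← hG2]
  have htm : 0 < t ^ m := by positivity
  have hCLE : 0 ≤ CLE C0 C1 Cd := by
    unfold CLE
    have : 0 ≤ C1 := by linarith
    positivity
  have f1 := mul_le_mul_of_nonneg_left hcI htm.le
  have f2 : t ^ m * ((t ^ m)⁻¹ * M - Q * B) = M - Q * (t ^ m * B) := by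
    field_simp
  have f3 : t ^ m * (CLE C0 C1 Cd * ((t ^ m)⁻¹ * G1) + A) = CLE C0 C1 Cd * G1 + t ^ m * A := by
    field_simp
  rw [f2, f3] at f1
  have f4 := mul_le_mul_of_nonneg_left e2 hCLE
  have f5 : CLE C0 C1 Cd * C ^ 2 * G2 = CLE C0 C1 Cd * (C ^ 2 * G2) := by ring
  rw [f5]
  linarith

end Crest.Agent.R234.Fm_281
end
end

-- ▼ part R234/F39_354
section

/-!
# Row 234, F3 (helper354), file 9: the local estimate from the core
-/

set_option autoImplicit false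

open MeasureTheory Filter Topology Set Metric
open scoped ENNReal NNReal ContDiff InnerProductSpace
open Crest.GeometryTopology.Submanifold Crest.Agent.R234.Vf_884

noncomputable section

namespace Crest.Agent.R234.F37_354

open Crest.Agent.R234.Main_456 (Frame Msys sep box)
open Crest.Agent.R234.Gi_456 (Gr tube foot ch Lo IsFoot)
open Crest.Agent.R234.GL_394 (VK On Ok)
open Crest.Agent.R234.Cy_870 (Split cyl)
open Crest.Agent.R234.Fc_209 (IsChart Bd)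
open Crest.Agent.R234.Foot_842 (pt)
open Crest.Agent.R234.Nrm_842 (Zm zc)
open Crest.Agent.R234.Grot_842 (rπ rρ)
open Crest.Agent.R234.Fm_281 (zy Nt Gp Bf CLE Lk)
open Crest.Agent.R234.Ex_46 (hmt')
open Crest.Agent.R234.F35_354 (Bp)
open Crest.Agent.R234.Ell1_3 (dns)

/-- logarithms -/
theorem real_log (C1 A B Cs : ℝ) (hA : 0 < A) (hC1 : 0 < C1) : ∃ L0 : ℝ, 1 ≤ L0 ∧
    ∀ L L' : ℝ, L0 ≤ L → L' = L - Real.log A → 0 < L' ∧
      B * L ^ (-(C1 + 1)) ≤ L' ^ (-C1) ∧ L' ^ (-(|Cs| + 1)) * A ≤ L ^ (-Cs) := by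
  obtain ⟨a, ha⟩ : ∃ a, a = |Real.log A| := ⟨_, rfl⟩
  have ha0 : 0 ≤ a := by rw [ha]; exact abs_nonneg _
  have h2C : (0:ℝ) < 2 ^ C1 := by positivity
  have h2D : (0:ℝ) < 2 ^ (|Cs| + 1) := by positivity
  refine ⟨1 + 2 * a + |B| * 2 ^ C1 + A * 2 ^ (|Cs| + 1), ?_, ?_⟩
  · have : 0 ≤ |B| * 2 ^ C1 := by positivity
    have : 0 ≤ A * 2 ^ (|Cs| + 1) := by positivity
    linarith
  intro L L' hL hL'
  have e1 : 0 ≤ |B| * 2 ^ C1 := by positivity
  have e2 : 0 ≤ A * 2 ^ (|Cs| + 1) := by positivity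
  have hL1 : 1 ≤ L := by linarith
  have hL0 : 0 < L := by linarith
  have h1 := neg_abs_le (Real.log A)
  have h2 := le_abs_self (Real.log A)
  rw [← ha] at h1 h2
  have h3 : L / 2 ≤ L' := by linarith
  have h4 : L' ≤ 2 * L := by linarith
  have h5 : 0 < L' := by linarith
  refine ⟨h5, ?_, ?_⟩
  · have e3 : (2 * L) ^ (-C1) ≤ L' ^ (-C1) :=
      Real.rpow_le_rpow_of_nonpos h5 h4 (by linarith)
    refine le_trans ?_ e3
    rw [Real.mul_rpow (by norm_num) hL0.le, neg_add, Real.rpow_add hL0, Real.rpow_neg_one,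
      Real.rpow_neg (by norm_num : (0:ℝ) ≤ 2)]
    have e4 : 0 < L ^ (-C1) := by positivity
    have e5 : B * L⁻¹ ≤ (2 ^ C1)⁻¹ := by
      have e6 : B * 2 ^ C1 ≤ L := by
        have : B * 2 ^ C1 ≤ |B| * 2 ^ C1 := mul_le_mul_of_nonneg_right (le_abs_self B) h2C.le
        linarith
      rw [← div_eq_mul_inv, div_le_iff₀ hL0, inv_mul_eq_div, le_div_iff₀ h2C]
      exact e6
    calc B * (L ^ (-C1) * L⁻¹) = (B * L⁻¹) * L ^ (-C1) := by ring
      _ ≤ (2 ^ C1)⁻¹ * L ^ (-C1) := mul_le_mul_of_nonneg_right e5 e4.le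
  · have hc : 0 ≤ |Cs| + 1 := by positivity
    have e3 : L' ^ (-(|Cs| + 1)) ≤ (L / 2) ^ (-(|Cs| + 1)) :=
      Real.rpow_le_rpow_of_nonpos (by linarith) h3 (by linarith)
    have e4 : (L / 2) ^ (-(|Cs| + 1)) = 2 ^ (|Cs| + 1) * L ^ (-(|Cs| + 1)) := by
      rw [Real.div_rpow hL0.le (by norm_num), Real.rpow_neg (by norm_num : (0:ℝ) ≤ 2)]
      field_simp
    have e5 : L ^ (-(|Cs| + 1)) ≤ L ^ (-Cs) * L⁻¹ := by
      rw [← Real.rpow_neg_one, ← Real.rpow_add hL0]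
      refine Real.rpow_le_rpow_of_exponent_le hL1 ?_
      have := le_abs_self Cs
      linarith
    have e6 : 0 < L ^ (-Cs) := by positivity
    calc L' ^ (-(|Cs| + 1)) * A ≤ (2 ^ (|Cs| + 1) * (L ^ (-Cs) * L⁻¹)) * A := by
          rw [e4] at e3
          refine mul_le_mul_of_nonneg_right (e3.trans ?_) hA.le
          exact mul_le_mul_of_nonneg_left e5 h2D.le
      _ = L ^ (-Cs) * ((A * 2 ^ (|Cs| + 1)) / L) := by
          rw [div_eq_mul_inv]; ring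
      _ ≤ L ^ (-Cs) * 1 := by
          refine mul_le_mul_of_nonneg_left ?_ e6.le
          rw [div_le_one hL0]
          linarith
      _ = _ := mul_one _

variable {m n k : ℕ} {π : Euc k →L[ℝ] Euc m} {ρ : Euc k →L[ℝ] Euc n} {x : Euc k}
  {w : Euc m → Euc n} {Xc X : Euc m} {t : ℝ} {U K : Set (Euc k)} {Dd : VarifoldData m k}
  {C κ e : ℝ} {q : Euc m →L[ℝ] Euc n} {H : Euc m →L[ℝ] Euc m} {H' : Euc n →L[ℝ] Euc n}
  {w' u : Euc m → Euc n} {T : Ft_209.Dif k}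

/-- points of the surface -/
theorem norm_pt_sub (hf : Frame π ρ) (hw : Gr 1 w) (X' X : Euc m) :
    ‖pt π ρ x w X' - pt π ρ x w X‖ ≤ 65 / 64 * ‖X' - X‖ := by
  have e1 : pt π ρ x w X' - pt π ρ x w X =
      ContinuousLinearMap.adjoint π (X' - X) + ContinuousLinearMap.adjoint ρ (w X' - w X) := by
    unfold Foot_842.pt
    simp only [map_sub]
    abel
  have h1 := Gi_456.norm_sq_frame hf (X' - X) (w X' - w X)
  have h2 := hw.lip X' X
  rw [e1]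
  refine abs_le_of_sq_le_sq' ?_ (by positivity) |>.2
  rw [h1]
  nlinarith [norm_nonneg (X' - X), norm_nonneg (w X' - w X)]

/-- `Lk` of 281 -/
theorem Am.lk (h : Am π ρ x w Xc X t U K Dd) (ht : 0 < t) {b : ℝ} (hb : 0 ≤ b) (hb1 : b ≤ 1)
    (hh : ∀ᵐ p ∂(VD Dd), p.1 ∈ K → ‖foot π ρ x 1 w p.1 - X‖ ≤ 6 * t →
      ‖p.1 - pt π ρ x w (foot π ρ x 1 w p.1)‖ ^ 2 ≤ b * t ^ 2) :
    Lk π ρ x w X t (t * √b) (VD Dd) K where
  conc := VD_conc h.int
  cpt := h.cpt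
  sub := h.kt
  fin := VD_fin h.int h.cpt h.ku
  hh := by positivity
  ht := by
    have h1 : √b ≤ 1 := by
      rw [← Real.sqrt_one]
      exact Real.sqrt_le_sqrt hb1
    nlinarith
  k1 := by
    filter_upwards [hh] with p hp hK hX
    have h1 := hp hK (by linarith)
    refine (sq_le_sq₀ (norm_nonneg _) (by positivity)).1 ?_
    rw [mul_pow, Real.sq_sqrt hb]
    linarith
  k2 := by
    filter_upwards [h.gap] with p hp h1 h2 h3
    refine hp (h.ball ?_) h1 (by linarith)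
    rw [mem_closedBall_iff_norm]
    have e1 : p.1 - pt π ρ x w X = (p.1 - pt π ρ x w (foot π ρ x 1 w p.1)) +
        (pt π ρ x w (foot π ρ x 1 w p.1) - pt π ρ x w X) := by abel
    rw [e1]
    refine (norm_add_le _ _).trans ?_
    have := norm_pt_sub (x := x) h.fr h.gr (foot π ρ x 1 w p.1) X
    linarith

/-- the physical integrals -/
theorem Am.gp_le (h : Am π ρ x w Xc X t U K Dd) (ht : 0 < t) {h0 : ℝ}
    (hL : Lk π ρ x w X t h0 (VD Dd) K) {a b : ℝ} (ha : 0 ≤ a) (hb : 0 ≤ b) :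
    ∫ p in {p : Euc k × L k | p.1 ∈ K ∧ ‖foot π ρ x 1 w p.1 - X‖ < 5 * t},
        Gp π ρ x w a b p ∂(VD Dd) ≤
      a * ∫ p in {z | ‖(ch π ρ x 1 w Xc).x z - Lo (fderiv ℝ w Xc) (X - Xc)‖ ≤ 16 * t} ×ˢ univ,
        (ch π ρ x 1 w Xc).tau p.1 p.2 ∂(VK (VD Dd) K) +
      b * ∫ p in {z | ‖(ch π ρ x 1 w Xc).x z - Lo (fderiv ℝ w Xc) (X - Xc)‖ ≤ 16 * t} ×ˢ univ,
        2 * (ch π ρ x 1 w Xc).f p.1 ∂(VK (VD Dd) K) := by
  set S2 : Set (Euc k × L k) :=
    {z | ‖(ch π ρ x 1 w Xc).x z - Lo (fderiv ℝ w Xc) (X - Xc)‖ ≤ 16 * t} ×ˢ univ with hS2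
  have hKm : MeasurableSet (K ×ˢ (univ : Set (L k))) := h.cpt.isClosed.measurableSet.prod .univ
  have hres : (VK (VD Dd) K).restrict S2 = (VD Dd).restrict (S2 ∩ K ×ˢ univ) := by
    unfold GL_394.VK
    exact Measure.restrict_restrict' hKm
  have hS2K : MeasurableSet (S2 ∩ (K ×ˢ (univ : Set (L k)))) := by
    have h1 : IsClosed (K ∩ (ch π ρ x 1 w Xc).x ⁻¹'
        (closedBall (Lo (fderiv ℝ w Xc) (X - Xc)) (16 * t))) :=
      h.ok.cx.preimage_isClosed_of_isClosed h.cpt.isClosed isClosed_closedBall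
    have h2 : S2 ∩ (K ×ˢ (univ : Set (L k))) = (K ∩ (ch π ρ x 1 w Xc).x ⁻¹'
        (closedBall (Lo (fderiv ℝ w Xc) (X - Xc)) (16 * t))) ×ˢ univ := by
      ext p
      simp only [hS2, mem_inter_iff, mem_prod, mem_ofPred_eq, mem_univ, and_true, mem_preimage,
        mem_closedBall_iff_norm]
      exact and_comm
    rw [h2]
    exact h1.measurableSet.prod .univ
  have hsub : S2 ∩ K ×ˢ univ ⊆ K ×ˢ (univ : Set (L k)) := inter_subset_right
  have i1 : IntegrableOn (fun p : Euc k × L k => (ch π ρ x 1 w Xc).tau p.1 p.2)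
      (S2 ∩ K ×ˢ univ) (VD Dd) := h.int_tau.mono_set hsub
  have i2 : IntegrableOn (fun p : Euc k × L k => 2 * (ch π ρ x 1 w Xc).f p.1)
      (S2 ∩ K ×ˢ univ) (VD Dd) := h.int_f.mono_set hsub
  rw [hres, ← integral_const_mul, ← integral_const_mul, ← integral_add (i1.const_mul _)
    (i2.const_mul _)]
  have hS1 : {p : Euc k × L k | p.1 ∈ K ∧ ‖foot π ρ x 1 w p.1 - X‖ < 5 * t} ⊆
      S2 ∩ K ×ˢ univ := by
    rintro p ⟨h1, h2⟩
    refine ⟨⟨?_, mem_univ _⟩, h1, mem_univ _⟩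
    change ‖Lo (fderiv ℝ w Xc) (foot π ρ x 1 w p.1 - Xc) - Lo (fderiv ℝ w Xc) (X - Xc)‖ ≤ 16 * t
    rw [← map_sub, sub_sub_sub_cancel_right]
    refine (Gi_456.norm_Lo_le (h.gr.d1 Xc) _).trans ?_
    linarith
  have iG := (Fm_281.integrable_Gp h.gr h.fr hL a b).mono_set hsub
  calc ∫ p in {p : Euc k × L k | p.1 ∈ K ∧ ‖foot π ρ x 1 w p.1 - X‖ < 5 * t},
        Gp π ρ x w a b p ∂(VD Dd) ≤ ∫ p in S2 ∩ K ×ˢ univ, Gp π ρ x w a b p ∂(VD Dd) := by
        refine setIntegral_mono_set iG ?_ (Eventually.of_forall hS1)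
        filter_upwards [ae_restrict_of_ae (VD_conc h.int)] with p hp
        have h3 : 0 ≤ Nt π ρ w (foot π ρ x 1 w p.1) p.2 :=
          Fm_281.tau0_nonneg' (Fm_281.split_of_frame' h.fr) _ hp
        exact add_nonneg (mul_nonneg ha h3) (mul_nonneg hb (sq_nonneg _))
    _ = ∫ p in S2 ∩ K ×ˢ univ, (a * (ch π ρ x 1 w Xc).tau p.1 p.2 +
          b * (2 * (ch π ρ x 1 w Xc).f p.1)) ∂(VD Dd) := by
        refine setIntegral_congr_fun hS2K fun p hp => ?_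
        simp only [Fm_281.Gp]
        rw [two_f h.fr h.gr Xc (h.kt hp.2.1)]
        rfl
    _ ≤ _ := le_rfl

/-- the step from 281's test function to the kernel (literal) -/
def B2P (m n k Q : ℕ) : Prop := ∃ C2 : ℝ, 0 ≤ C2 ∧
  ∀ (π : Euc k →L[ℝ] Euc m) (ρ : Euc k →L[ℝ] Euc n) (x : Euc k) (w : Euc m → Euc n)
    (Xc X : Euc m) (t : ℝ) (U K : Set (Euc k)) (Dd : VarifoldData m k) (C κ e : ℝ)
    (q : Euc m →L[ℝ] Euc n) (H : Euc m →L[ℝ] Euc m) (H' : Euc n →L[ℝ] Euc n)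
    (w' u : Euc m → Euc n) (T : Ft_209.Dif k) (E : Measure (Euc m)),
    Am π ρ x w Xc X t U K Dd → Bp π ρ x w X C κ t q H H' w' u T e → IsFiniteMeasure E →
    (∀ F : Euc m → ℝ, Measurable F → (∃ b : ℝ, ∀ v, |F v| ≤ b) →
      (∀ v, v ∉ closedBall (Lo (fderiv ℝ w Xc) (X - Xc)) (6 * t) → F v = 0) →
      |∫ p, F ((ch π ρ x 1 w Xc).x p.1) * (1 - (ch π ρ x 1 w Xc).tau p.1 p.2 / 2)
        ∂(VK (VD Dd) K) - Q * ∫ v, F v * (ch π ρ x 1 w Xc).j v| ≤ ∫ v, |F v| ∂E) →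
    ∫ p, F35k_433.bv w Xc t (Lo (fderiv ℝ w Xc) (X - Xc)) ((ch π ρ x 1 w Xc).x p.1) *
        (1 - (ch π ρ x 1 w Xc).tau p.1 p.2 / 2) ∂(VK (VD Dd) K) -
      Q * ∫ v, F35k_433.bv w Xc t (Lo (fderiv ℝ w Xc) (X - Xc)) v * (ch π ρ x 1 w Xc).j v ≤
    (∫ p in K ×ˢ univ, Bf t q H w u X (foot π ρ x 1 w p.1) *
        (1 - Nt π ρ w (foot π ρ x 1 w p.1) p.2 / 2) ∂(VD Dd) -
      Q * ∫ X', Bf t q H w u X X' * dns (fderiv ℝ w X')) +
    C2 * (C * κ * t) ^ 2 * E.real (closedBall (Lo (fderiv ℝ w Xc) (X - Xc)) (2 * t))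

/-- final arithmetic -/
theorem real_fin {L1 L2 a b y s κ t D Kd CL Cz C2 E A A' LHS LB : ℝ} (hκ : 0 ≤ κ) (ht : 0 ≤ t)
    (hD : 0 ≤ D) (hK : 1 ≤ Kd) (hs : s = √D) (hy : y = √(Kd * D)) (hCL : 0 ≤ CL)
    (hL1 : 0 ≤ L1) (hL2 : 0 ≤ L2) (hCz : 1 ≤ Cz) (hC2 : 0 ≤ C2) (hE : 0 ≤ E)
    (ha : a = (κ * t) ^ 2 + κ * (t * y) + y ^ 2) (hb : b = κ ^ 2)
    (h1 : LHS ≤ LB + C2 * (Cz * κ * t) ^ 2 * E) (h2 : LB ≤ CL * Cz ^ 2 * (a * L1 + b * L2) + A)
    (h3 : A ≤ A') :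
    LHS ≤ (CL * Cz ^ 2 * Kd + C2 * Cz ^ 2 + 1) * (κ ^ 2 * L2) +
      (CL * Cz ^ 2 * Kd + C2 * Cz ^ 2 + 1) * (((κ * t) ^ 2 + κ * t * s + D) * L1) +
      (CL * Cz ^ 2 * Kd + C2 * Cz ^ 2 + 1) * (κ * t) ^ 2 * E + A' := by
  have hs0 : 0 ≤ s := by rw [hs]; exact Real.sqrt_nonneg _
  have hK0 : 0 ≤ Kd := by linarith
  have hy0 : 0 ≤ y := by rw [hy]; exact Real.sqrt_nonneg _
  have hyy : y ^ 2 = Kd * D := by rw [hy]; exact Real.sq_sqrt (by positivity)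
  have hys : y ≤ Kd * s := by
    rw [hy, hs]
    refine Real.sqrt_le_iff.2 ⟨by positivity, ?_⟩
    rw [mul_pow, Real.sq_sqrt hD]
    have : Kd ≤ Kd ^ 2 := by nlinarith
    exact mul_le_mul_of_nonneg_right this hD
  have hG : 0 ≤ CL * Cz ^ 2 := by positivity
  have hκt : 0 ≤ κ * t := by positivity
  have e1 : a ≤ Kd * ((κ * t) ^ 2 + κ * t * s + D) := by
    rw [ha, hyy]
    have f1 : κ * (t * y) ≤ κ * t * (Kd * s) := by
      rw [← mul_assoc]
      exact mul_le_mul_of_nonneg_left hys hκt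
    nlinarith [sq_nonneg (κ * t)]
  have e2 : b ≤ Kd * κ ^ 2 := by rw [hb]; nlinarith [sq_nonneg κ]
  have f1 : CL * Cz ^ 2 * (a * L1) ≤ CL * Cz ^ 2 * Kd * (((κ * t) ^ 2 + κ * t * s + D) * L1) := by
    calc CL * Cz ^ 2 * (a * L1) ≤ CL * Cz ^ 2 *
          ((Kd * ((κ * t) ^ 2 + κ * t * s + D)) * L1) :=
          mul_le_mul_of_nonneg_left (mul_le_mul_of_nonneg_right e1 hL1) hG
      _ = _ := by ring
  have f2 : CL * Cz ^ 2 * (b * L2) ≤ CL * Cz ^ 2 * Kd * (κ ^ 2 * L2) := by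
    calc CL * Cz ^ 2 * (b * L2) ≤ CL * Cz ^ 2 * ((Kd * κ ^ 2) * L2) :=
          mul_le_mul_of_nonneg_left (mul_le_mul_of_nonneg_right e2 hL2) hG
      _ = _ := by ring
  have f3 : C2 * (Cz * κ * t) ^ 2 * E = C2 * Cz ^ 2 * ((κ * t) ^ 2 * E) := by ring
  have g1 : 0 ≤ ((κ * t) ^ 2 + κ * t * s + D) * L1 := by positivity
  have g2 : 0 ≤ κ ^ 2 * L2 := by positivity
  have g3 : 0 ≤ (κ * t) ^ 2 * E := by positivity
  have g4 : 0 ≤ C2 * Cz ^ 2 := by positivity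
  have g5 : 0 ≤ CL * Cz ^ 2 * Kd := by positivity
  nlinarith [mul_nonneg g4 g1, mul_nonneg g4 g2, mul_nonneg g5 g3]

end Crest.Agent.R234.F37_354
end
end

-- ▼ part R234/F40_354
section

/-!
# Row 234, F3 (helper354), file 10: the local estimate from the core (join)
-/

set_option autoImplicit false

open MeasureTheory Filter Topology Set Metric
open scoped ENNReal NNReal ContDiff InnerProductSpace
open Crest.GeometryTopology.Submanifold Crest.Agent.R234.Vf_884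

noncomputable section

namespace Crest.Agent.R234.F40_354

open Crest.Agent.R234.Main_456 (Frame Msys sep box)
open Crest.Agent.R234.Gi_456 (Gr tube foot ch Lo IsFoot)
open Crest.Agent.R234.GL_394 (VK On Ok)
open Crest.Agent.R234.Cy_870 (Split cyl)
open Crest.Agent.R234.Fc_209 (IsChart Bd)
open Crest.Agent.R234.Foot_842 (pt)
open Crest.Agent.R234.Nrm_842 (Zm zc)
open Crest.Agent.R234.Grot_842 (rπ rρ)
open Crest.Agent.R234.Fm_281 (zy Nt Gp Bf CLE Lk)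
open Crest.Agent.R234.Ex_46 (hmt')
open Crest.Agent.R234.F35_354 (Bp)
open Crest.Agent.R234.F37_354 (Am Rg Kh Kh_pos B2P real_log real_fin)
open Crest.Agent.R234.Ell1_3 (dns)

/-- constants -/
theorem ex_c0 {Cz Cc cM cc cT M : ℝ} (hCz : 0 < Cz) (hCc : 0 < Cc) (hcM : 0 < cM) (hcc : 0 < cc)
    (hcT : 0 < cT) (hM : 0 < M) : ∃ c₀ : ℝ, 0 < c₀ ∧ c₀ ≤ 1 / 16 ∧
      Cz * c₀ ≤ 1 / 8 ∧ c₀ ≤ cM ∧ c₀ ≤ cc ∧ c₀ ≤ cT ∧ Cc * c₀ ≤ 1 / 64 ∧ M * c₀ ≤ 1 := by
  refine ⟨min (min (1 / 16) (1 / (8 * Cz))) (min (min cM cc)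
    (min cT (min (1 / (64 * Cc)) (1 / M)))), by positivity, ?_, ?_, ?_, ?_, ?_, ?_, ?_⟩
  · exact (min_le_left _ _).trans (min_le_left _ _)
  · have e1 : min (min (1 / 16) (1 / (8 * Cz))) (min (min cM cc)
        (min cT (min (1 / (64 * Cc)) (1 / M)))) ≤ 1 / (8 * Cz) :=
      (min_le_left _ _).trans (min_le_right _ _)
    calc _ ≤ Cz * (1 / (8 * Cz)) := mul_le_mul_of_nonneg_left e1 hCz.le
      _ = 1 / 8 := by field_simp
  · exact (min_le_right _ _).trans ((min_le_left _ _).trans (min_le_left _ _))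
  · exact (min_le_right _ _).trans ((min_le_left _ _).trans (min_le_right _ _))
  · exact (min_le_right _ _).trans ((min_le_right _ _).trans (min_le_left _ _))
  · have e1 : min (min (1 / 16) (1 / (8 * Cz))) (min (min cM cc)
        (min cT (min (1 / (64 * Cc)) (1 / M)))) ≤ 1 / (64 * Cc) :=
      (min_le_right _ _).trans ((min_le_right _ _).trans ((min_le_right _ _).trans
        (min_le_left _ _)))
    calc _ ≤ Cc * (1 / (64 * Cc)) := mul_le_mul_of_nonneg_left e1 hCc.le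
      _ = 1 / 64 := by field_simp
  · have e1 : min (min (1 / 16) (1 / (8 * Cz))) (min (min cM cc)
        (min cT (min (1 / (64 * Cc)) (1 / M)))) ≤ 1 / M :=
      (min_le_right _ _).trans ((min_le_right _ _).trans ((min_le_right _ _).trans
        (min_le_right _ _)))
    calc _ ≤ M * (1 / M) := mul_le_mul_of_nonneg_left e1 hM.le
      _ = 1 := by field_simp

/-- constants -/
theorem ex_D0 {cc Kd Cc D1 L0 : ℝ} (hcc : 0 < cc) (hKd : 0 < Kd) (hCc : 0 < Cc) (hD1 : 0 < D1) :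
    ∃ D₀ : ℝ, 0 < D₀ ∧ D₀ < 1 ∧ 25 / 16 * D₀ ≤ cc ∧
      Kd * D₀ ≤ 1 ∧ 25 / 16 * Cc * D₀ ≤ D1 ∧ D₀ ≤ Real.exp (-L0) := by
  have hA : 0 < 25 / 16 * Cc := by positivity
  refine ⟨min (min (1 / 2) (16 / 25 * cc)) (min Kd⁻¹ (min (D1 / (25 / 16 * Cc))
    (Real.exp (-L0)))), by positivity, ?_, ?_, ?_, ?_, ?_⟩
  · exact ((min_le_left _ _).trans (min_le_left _ _)).trans_lt (by norm_num)
  · have e1 : min (min (1 / 2) (16 / 25 * cc)) (min Kd⁻¹ (min (D1 / (25 / 16 * Cc))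
        (Real.exp (-L0)))) ≤ 16 / 25 * cc := (min_le_left _ _).trans (min_le_right _ _)
    linarith
  · have e1 : min (min (1 / 2) (16 / 25 * cc)) (min Kd⁻¹ (min (D1 / (25 / 16 * Cc))
        (Real.exp (-L0)))) ≤ Kd⁻¹ := (min_le_right _ _).trans (min_le_left _ _)
    calc _ ≤ Kd * Kd⁻¹ := mul_le_mul_of_nonneg_left e1 hKd.le
      _ = 1 := mul_inv_cancel₀ hKd.ne'
  · have e1 : min (min (1 / 2) (16 / 25 * cc)) (min Kd⁻¹ (min (D1 / (25 / 16 * Cc))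
        (Real.exp (-L0)))) ≤ D1 / (25 / 16 * Cc) :=
      (min_le_right _ _).trans ((min_le_right _ _).trans (min_le_left _ _))
    calc _ ≤ 25 / 16 * Cc * (D1 / (25 / 16 * Cc)) := mul_le_mul_of_nonneg_left e1 hA.le
      _ = D1 := by field_simp
  · exact (min_le_right _ _).trans ((min_le_right _ _).trans (min_le_right _ _))

/-- numbers -/
theorem real_l {Cz κ c₀ t l Cc M : ℝ} (hκ0 : 0 ≤ κ) (hCz : 0 < Cz) (hκ : κ ≤ c₀) (ht : 0 < t)
    (htc : t ≤ c₀) (a1 : c₀ ≤ 1 / 16) (a2 : Cz * c₀ ≤ 1 / 8) (hCc : 0 < Cc)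
    (a6 : Cc * c₀ ≤ 1 / 64) (hM : 0 < M) (a7 : M * c₀ ≤ 1) (hl : l = Cz * κ * t) :
    0 ≤ l ∧ l ≤ t / 8 ∧ l ≤ c₀ ∧ Cc * l ≤ 1 / 16 ∧ 64 * M * l ^ 2 ≤ 1 := by
  have h1 : Cz * κ ≤ 1 / 8 := (mul_le_mul_of_nonneg_left hκ hCz.le).trans a2
  have h0 : 0 ≤ l := by rw [hl]; positivity
  have h2 : l ≤ t / 8 := by
    rw [hl]
    calc Cz * κ * t ≤ 1 / 8 * t := mul_le_mul_of_nonneg_right h1 ht.le
      _ = _ := by ring
  have h3 : l ≤ c₀ := by linarith
  refine ⟨h0, h2, h3, ?_, ?_⟩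
  · have := mul_le_mul_of_nonneg_left h3 hCc.le
    linarith
  · have e1 : l ≤ c₀ / 8 := by linarith
    have e2 : l ^ 2 ≤ (c₀ / 8) ^ 2 := pow_le_pow_left₀ h0 e1 2
    have e3 : M * l ^ 2 ≤ M * (c₀ / 8) ^ 2 := mul_le_mul_of_nonneg_left e2 hM.le
    have e4 : 64 * (M * (c₀ / 8) ^ 2) = M * c₀ * c₀ := by ring
    have e5 : M * c₀ * c₀ ≤ 1 * c₀ := mul_le_mul_of_nonneg_right a7 (by linarith)
    linarith

/-- numbers -/
theorem real_d {Kh D D₀ Kd d b cc : ℝ} (hKh : 0 < Kh) (hKd : Kd = (Kh + 1) * (25 / 16))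
    (hD : 0 < D) (hDD : D ≤ D₀) (b2 : 25 / 16 * D₀ ≤ cc) (b3 : Kd * D₀ ≤ 1)
    (hd : d = 25 / 16 * D) (hb : b = Kd * D) :
    0 < d ∧ d ≤ cc ∧ √d ≤ 1 ∧ 0 ≤ b ∧ b ≤ 1 ∧ √d ≤ √b ∧ Kh * d ≤ b := by
  have hKd0 : 0 < Kd := by rw [hKd]; positivity
  have e1 : b ≤ 1 := by rw [hb]; exact (mul_le_mul_of_nonneg_left hDD hKd0.le).trans b3
  have e3 : Kh * d ≤ b := by
    rw [hd, hb, hKd]
    have := mul_pos hKh hD
    linarith
  have e2 : d ≤ b := by
    rw [hd, hb, hKd]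
    have := mul_pos hKh hD
    linarith
  refine ⟨by rw [hd]; positivity, by rw [hd]; linarith, ?_, by rw [hb]; positivity, e1,
    Real.sqrt_le_sqrt e2, e3⟩
  rw [Real.sqrt_le_one]
  exact e2.trans e1

/-- numbers -/
theorem real_δ {Cc l d t c₀ δ : ℝ} (hCc : 0 < Cc) (hl0 : 0 ≤ l) (hl8 : l ≤ t / 8) (ht : 0 < t)
    (hsd : √d ≤ 1) (htc : t ≤ c₀) (a1 : c₀ ≤ 1 / 16) (a6 : Cc * c₀ ≤ 1 / 64)
    (hδ : δ = Cc * (l * (l + √d))) : 0 ≤ δ ∧ δ ≤ Cc / 4 * t ∧ δ ≤ 1 / 32 := by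
  have h0 := Real.sqrt_nonneg d
  have h1 : δ ≤ Cc / 4 * t := by
    have e1 : l * (l + √d) ≤ t / 8 * 2 := by
      refine mul_le_mul hl8 ?_ (by positivity) (by positivity)
      linarith
    rw [hδ]
    calc Cc * (l * (l + √d)) ≤ Cc * (t / 8 * 2) := mul_le_mul_of_nonneg_left e1 hCc.le
      _ = _ := by ring
  refine ⟨by rw [hδ]; positivity, h1, h1.trans ?_⟩
  have := mul_le_mul_of_nonneg_left htc hCc.le
  linarith

/-- logarithms -/
theorem real_L {L0 D D₀ L Cc d : ℝ} (hD : 0 < D) (hDD : D ≤ D₀) (b5 : D₀ ≤ Real.exp (-L0))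
    (hL : L = Real.log (1 / D)) (hCc : 0 < Cc) (hd : d = 25 / 16 * D) :
    L0 ≤ L ∧ Cc * d = 25 / 16 * Cc * D ∧
      Real.log (1 / (Cc * d)) = L - Real.log (25 / 16 * Cc) := by
  have hCd : Cc * d = 25 / 16 * Cc * D := by rw [hd]; ring
  refine ⟨?_, hCd, ?_⟩
  · have e1 : Real.log D ≤ -L0 := by
      rw [Real.log_le_iff_le_exp hD]
      exact hDD.trans b5
    rw [hL, one_div, Real.log_inv]
    linarith
  · rw [hCd, hL, one_div, one_div, Real.log_inv, Real.log_inv,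
      Real.log_mul (by positivity) hD.ne']
    ring

set_option maxHeartbeats 2000000 in
/-- **the local estimate from the core** -/
theorem le_of {m n k Q : ℕ} (hcore : Core_809.CoreProp) (hm : 3 ≤ m) (hn : 1 ≤ n) (hQ : 1 ≤ Q)
    (hB2 : B2P m n k Q) : F36_354.LEP m n k Q := by
  have hm1 : 1 ≤ m := by omega
  obtain ⟨Cz, hCz, hzm⟩ := Nrm_842.exists_zm m n 2 (by norm_num)
  obtain ⟨cc, Cc, hcc, hCc, hcls⟩ := Ex_46.cls_chart m n k Q hm1
  obtain ⟨cM, hcM, hmass⟩ := Ms_46.masses m n Q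
  obtain ⟨cT, CT, hcT, -, hCT, hLE⟩ := Fm_281.exists_LEa k
  obtain ⟨C1, C0, hC1, hC0, hco⟩ := hcore m n Q hm hn hQ
  obtain ⟨C2, hC2, hb2⟩ := hB2
  have hKh := Kh_pos m
  have hmR : (1:ℝ) ≤ m := by exact_mod_cast hm1
  have hmR0 : (0:ℝ) < m := by linarith
  obtain ⟨Kd, hKd⟩ : ∃ Kd, Kd = (Kh m + 1) * (25 / 16) := ⟨_, rfl⟩
  have hKd1 : 1 ≤ Kd := by rw [hKd]; linarith
  have hKd0 : 0 < Kd := by linarith
  have hCz0 : 0 < Cz := by linarith
  have hCL : 0 ≤ CLE C0 CT Cc := by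
    unfold CLE
    have : 0 ≤ CT := by linarith
    positivity
  obtain ⟨c₀, hc₀, a1, a2, a3, a4, a5, a6, a7⟩ := ex_c0 hCz0 hCc hcM hcc hcT hmR0
  refine ⟨c₀, CLE C0 CT Cc * Cz ^ 2 * Kd + C2 * Cz ^ 2 + 1, C1 + 1, hc₀, a1, ?_, by linarith, ?_⟩
  · have : 0 ≤ CLE C0 CT Cc * Cz ^ 2 * Kd + C2 * Cz ^ 2 := by positivity
    linarith
  intro Cs
  obtain ⟨D1, hD1, hD11, hco2⟩ := hco (|Cs| + 1)
  obtain ⟨L0, hL0, hlog⟩ := real_log C1 (25 / 16 * Cc) (Cc / 4) Cs (by positivity) hC1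
  obtain ⟨D₀, hD₀, b1, b2, b3, b4, b5⟩ := ex_D0 (L0 := L0) hcc hKd0 hCc hD1
  refine ⟨D₀, hD₀, b1, ?_⟩
  intro π ρ x w Xc X κ t D U K Dd E hf hU hint hsta hg hw hκ0 hκ hbd ht0 ht hms hball hK hKt hKU
    hgap hsmall hD hDD htL h2f hτ hE hE6 habs
  have hAm : Am π ρ x w Xc X t U K Dd :=
    ⟨hf, hU, hint, hsta, hg, hK, hKt, hKU, hball, hgap, hsmall⟩
  have htm : (0:ℝ) < t ^ m := by positivity
  -- the normalisation
  have hCκ : Cz * κ ≤ 1 / 8 := (mul_le_mul_of_nonneg_left hκ hCz0.le).trans a2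
  obtain ⟨H, H', w', -, hz⟩ := hzm w κ hκ0 hCκ hw hg.d1 X (fun j h1 h2 => hbd j h1 h2)
  obtain ⟨u, hzu⟩ := hz t ht0 (by linarith)
  have hms7 := hzu.ms_near hw hms
  have sp := Fm_281.splitZ hzu hf
  have hu3 : ContDiff ℝ 3 u := Fm_281.cdU hzu
  obtain ⟨l, hl⟩ : ∃ l, l = Cz * κ * t := ⟨_, rfl⟩
  obtain ⟨hl0, hl8, hlc, hCl, hlm⟩ := real_l hκ0 hCz0 hκ ht0 ht a1 a2 hCc a6 hmR0 a7 hl
  have hu0 : ∀ v, ‖u v‖ ≤ l := fun v => by
    have := hzu.bd 0 (by norm_num) v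
    rwa [norm_iteratedFDeriv_zero, ← hl] at this
  have hBd : Bd u l := Fc_209.Bd.of_iter fun j hj z => by
    rw [hl]; exact hzu.bd j (by omega) z
  obtain ⟨T, hT, hCht, hC⟩ := hcls (rπ π ρ (fderiv ℝ w X) H) (rρ π ρ (fderiv ℝ w X) H') u l sp hu3
    (hlc.trans a4) hu0 hBd (fun v hv => ⟨by rw [hl]; exact hzu.bd 2 (by norm_num) v, hms7 v hv⟩)
  have hBp : Bp π ρ x w X Cz κ t (fderiv ℝ w X) H H' w' u T (Cc * l) :=
    ⟨hf, hg, hzu, hT, by positivity, hCl, by linarith⟩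
  -- the excess
  obtain ⟨d, hd⟩ : ∃ d, d = 25 / 16 * D := ⟨_, rfl⟩
  obtain ⟨b, hb⟩ : ∃ b, b = Kd * D := ⟨_, rfl⟩
  obtain ⟨hd0, hdc, hsd, hb0, hb1, hdb, hKb⟩ := real_d hKh hKd hD hDD b2 b3 hd hb
  have hsep := hAm.sep_le hBp h2f
  rw [← hd] at hsep
  obtain ⟨m1, m2⟩ := hmass hAm hBp hE (by rw [← hl]; exact hlc.trans a3)
    (hτ.trans (mul_le_mul_of_nonneg_right a3 htm.le))
    (hE6.trans (mul_le_mul_of_nonneg_right a3 htm.le)) habs
  obtain ⟨δ, hδ⟩ : ∃ δ, δ = Cc * (l * (l + √d)) := ⟨_, rfl⟩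
  obtain ⟨hδ0, hδt, hδ1⟩ := real_δ hCc hl0 hl8 ht0 hsd ht a1 a6 hδ
  have hCls := hC U Dd (pt π ρ x w X) t d δ (Cc * d) hU hint hsta ht0
    ((closedBall_subset_closedBall (by linarith)).trans hball) hdc hsep m1 m2 hδ.ge hδ1 le_rfl
  -- logarithms
  obtain ⟨L, hL⟩ : ∃ L, L = Real.log (1 / D) := ⟨_, rfl⟩
  obtain ⟨hLL, hCd, hL'⟩ := real_L hD hDD b5 hL hCc hd
  obtain ⟨-, l1, l2⟩ := hlog L _ hLL hL'
  have hδL : δ ≤ (Real.log (1 / (Cc * d))) ^ (-C1) := by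
    refine le_trans ?_ l1
    rw [← hL] at htL
    exact hδt.trans (mul_le_mul_of_nonneg_left htL (by positivity))
  have hco3 := hco2 k _ _ _ _ δ (Cc * d) (by positivity)
    (by rw [hCd]; exact (mul_le_mul_of_nonneg_left hDD (by positivity)).trans b4) hδ0 hδL hCls
  -- heights
  have hhei := F37_354.heights hAm hBp hCht hm1 hms7 (by rw [← hl]; exact hlm) hsep
  have hLk := hAm.lk ht0 hb0 hb1 (hhei.mono fun p hp h1 h2 => (hp h1 h2).trans
    (mul_le_mul_of_nonneg_right hKb (by positivity)))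
  have hsb : t * √b / t = √b := by field_simp
  have hmain := hLE hBp hms7 (by rw [← hl]; exact hlc.trans a5) hint hU hLk hC0.le hCc.le hδ0
    (by
      rw [← hl, hsb, hδ]
      exact mul_le_mul_of_nonneg_left (mul_le_mul_of_nonneg_left (by linarith) hl0) hCc.le)
    hCls.dom hco3
  rw [hsb] at hmain
  have hb2' := hb2 π ρ x w Xc X t U K Dd Cz κ (Cc * l) (fderiv ℝ w X) H H' w' u T E hAm hBp hE
    habs
  have hgp := hAm.gp_le ht0 hLk (a := (κ * t) ^ 2 + κ * (t * √b) + √b ^ 2) (b := κ ^ 2)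
    (by positivity) (by positivity)
  have hg0 : 0 ≤ CLE C0 CT Cc * Cz ^ 2 := by positivity
  have hmain2 := hmain.trans (add_le_add_left (mul_le_mul_of_nonneg_left hgp hg0) _)
  -- signs
  have hτ0 : ∀ᵐ p ∂(VD Dd), 0 ≤ (ch π ρ x 1 w Xc).tau p.1 p.2 := Ms_46.tau_nonneg hAm
  have hL1 : 0 ≤ ∫ p in {z | ‖(ch π ρ x 1 w Xc).x z - Lo (fderiv ℝ w Xc) (X - Xc)‖ ≤ 16 * t} ×ˢ
      univ, (ch π ρ x 1 w Xc).tau p.1 p.2 ∂(VK (VD Dd) K) :=
    integral_nonneg_of_ae (ae_restrict_of_ae (ae_restrict_of_ae hτ0))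
  have hL2 : 0 ≤ ∫ p in {z | ‖(ch π ρ x 1 w Xc).x z - Lo (fderiv ℝ w Xc) (X - Xc)‖ ≤ 16 * t} ×ˢ
      univ, 2 * (ch π ρ x 1 w Xc).f p.1 ∂(VK (VD Dd) K) :=
    integral_nonneg fun p => by
      have : 0 ≤ (ch π ρ x 1 w Xc).f p.1 := by
        change 0 ≤ ‖Gi_456.Bt π ρ w (foot π ρ x 1 w p.1) (Gi_456.yy π ρ x 1 w p.1)‖ ^ 2 / 2
        positivity
      exact mul_nonneg zero_le_two this
  refine real_fin hκ0 ht0.le hD.le hKd1 rfl (y := √b) (by rw [hb]) hCL hL1 hL2 hCz hC2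
    measureReal_nonneg rfl rfl hb2' hmain2 ?_
  refine mul_le_mul_of_nonneg_left ?_ htm.le
  have h9 := mul_le_mul_of_nonneg_right l2 hD.le
  rw [hCd]
  rw [hCd] at h9
  rw [← hL]
  calc _ = Real.log (1 / (25 / 16 * Cc * D)) ^ (-(|Cs| + 1)) * (25 / 16 * Cc) * D := by ring
    _ ≤ _ := h9

end Crest.Agent.R234.F40_354
end
end

-- ▼ part R234/LeM_3
section

/-!
R234 (helper3), (LE-mass) of F3: the masses of the chart cylinders over the base point from the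
total variation bound of the anomaly, the tilt energy and the area identity.
-/

set_option autoImplicit false

open MeasureTheory Filter Topology Set Metric
open scoped ENNReal NNReal ContDiff InnerProductSpace
open Crest.GeometryTopology.Submanifold Crest.Agent.R234.Vf_884

noncomputable section

namespace Crest.Agent.R234.F35_354

open Crest.Agent.R234.Main_456 (Frame Msys hgt sep box)
open Crest.Agent.R234.Grot_842 (rπ rρ)
open Crest.Agent.R234.Foot_842 Crest.Agent.R234.Nrm_842 Crest.Agent.R234.Swb_159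
open Crest.Agent.R234.Grot_842 Crest.Agent.R234.Ell1_3
open Crest.Agent.R234.Gi_456 (Gr tube foot ch Lo Loi)
open Crest.Agent.R234.GL_394 (VK On)

local notation "adj" => ContinuousLinearMap.adjoint

variable {m n k : ℕ}

/-- **area in the coordinate `c.x`** -/
theorem int_jB (w : Euc m → Euc n) (Xc : Euc m) (F : Euc m → ℝ) :
    ∫ v, F v * Gi_456.jB w Xc v =
      ∫ X, F (Lo (fderiv ℝ w Xc) (X - Xc)) * dns (fderiv ℝ w X) := by
  set q := fderiv ℝ w Xc with hq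
  have hdet : (Loi q).det ≠ 0 := by
    intro h0
    have h1 := F35k_433.abs_det_Loi q
    rw [h0, abs_zero] at h1
    have := inv_pos.2 (dns_pos q)
    linarith
  have h1 := F35k_433.integral_comp_lin (vol := (volume : Measure (Euc m))) hdet
    (fun X => F (Lo q (X - Xc)) * dns (fderiv ℝ w X)) Xc
  rw [← h1, F35k_433.abs_det_Loi, ← integral_const_mul]
  refine integral_congr_ae (Eventually.of_forall fun v => ?_)
  show F v * (dns (fderiv ℝ w (Xc + Loi q v)) / (Lo q).det) =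
    (dns q)⁻¹ * (F (Lo q (Xc + Loi q v - Xc)) * dns (fderiv ℝ w (Xc + Loi q v)))
  rw [add_sub_cancel_left, Gi_456.Lo_Loi, Gi_456.det_Lo]
  ring


variable {π : Euc k →L[ℝ] Euc m} {ρ : Euc k →L[ℝ] Euc n} {x : Euc k}
  {w : Euc m → Euc n} {Xb : Euc m} {C κ t : ℝ} {q : Euc m →L[ℝ] Euc n} {H : Euc m →L[ℝ] Euc m}
  {H' : Euc n →L[ℝ] Euc n} {w' u : Euc m → Euc n} {T : Ft_209.Dif k} {e : ℝ}


namespace Bp

variable (h : Bp π ρ x w Xb C κ t q H H' w' u T e)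
include h

theorem continuous_zc : Continuous (zc t q H w Xb) :=
  continuous_iff_continuousAt.2 fun X => (h.zm.hasFDerivAt_zc X).continuousAt






end Bp

end Crest.Agent.R234.F35_354
end
end

-- ▼ part R234/Fx10_281
section

/-!
# Row 234 (helper281), node F3-LE, file 6: from the test function `Bf` to the kernel `bv`,
and the error terms in the form of `LEP`
-/

set_option autoImplicit false

open MeasureTheory Filter Topology Set Metric
open Crest.GeometryTopology.Submanifold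
open Crest.Agent.R234.Vf_884
open Crest.Agent.R234.Ft_209 (Dif IsPj)
open Crest.Agent.R234.Main_456 (Msys Frame)
open Crest.Agent.R234.Ell1_3 (dns gdet gop)
open Crest.Agent.R234.Gi_456 (hinv IsFoot foot tube Gr yy ch Lo Loi jB)
open Crest.Agent.R234.Foot_842 (pt)
open Crest.Agent.R234.Nrm_842 (Zm zc)
open Crest.Agent.R234.Grot_842 (rπ rρ)
open Crest.Agent.R234.F35_354 (Bp)
open Crest.Agent.R234.F35k_433 (bv)
open Crest.Agent.R234.F37_354 (Am Rg)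
open Crest.Agent.R234.GL_394 (VK On Ok)
open Crest.Agent.R234.Loc1_290 (bump)
open scoped InnerProductSpace ENNReal

noncomputable section

namespace Crest.Agent.R234.Fm_281

variable {m n k : ℕ}

/-- the test function in the coordinate of the chart centred at `Xc` -/
def Bx (t : ℝ) (q : Euc m →L[ℝ] Euc n) (H : Euc m →L[ℝ] Euc m) (w U : Euc m → Euc n)
    (X0 Xc : Euc m) (v : Euc m) : ℝ := Bf t q H w U X0 (Gi_456.pt w Xc v)

section

variable {π : Euc k →L[ℝ] Euc m} {ρ : Euc k →L[ℝ] Euc n} {x : Euc k} {w w' U : Euc m → Euc n}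
  {X0 Xc : Euc m} {C κ t e : ℝ} {q : Euc m →L[ℝ] Euc n}
  {H : Euc m →L[ℝ] Euc m} {H' : Euc n →L[ℝ] Euc n} {T : Dif k}

theorem int_Bx (w U : Euc m → Euc n) (t : ℝ) (q : Euc m →L[ℝ] Euc n) (H : Euc m →L[ℝ] Euc m)
    (X0 Xc : Euc m) : ∫ v, Bx t q H w U X0 Xc v * jB w Xc v =
      ∫ X, Bf t q H w U X0 X * dns (fderiv ℝ w X) := by
  rw [F35_354.int_jB]
  refine integral_congr_ae (Eventually.of_forall fun X => ?_)
  simp only [Bx]
  rw [F35k_433.pt_Lo]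

theorem Bx_x (z : Euc k) : Bx t q H w U X0 Xc ((ch π ρ x 1 w Xc).x z) =
    Bf t q H w U X0 (foot π ρ x 1 w z) := by
  unfold Bx
  rw [F35k_433.pt_ch_x]

theorem int_Bx_ch (V : Measure (Euc k × L k)) (K : Set (Euc k)) :
    ∫ p, Bx t q H w U X0 Xc ((ch π ρ x 1 w Xc).x p.1) *
        (1 - (ch π ρ x 1 w Xc).tau p.1 p.2 / 2) ∂(VK V K) =
      ∫ p in K ×ˢ univ, Bf t q H w U X0 (foot π ρ x 1 w p.1) *
        (1 - Nt π ρ w (foot π ρ x 1 w p.1) p.2 / 2) ∂V := by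
  unfold GL_394.VK
  refine integral_congr_ae (Eventually.of_forall fun p => ?_)
  simp only [Bx_x]
  rfl

theorem Bf_nonneg (X : Euc m) : 0 ≤ Bf t q H w U X0 X :=
  indicator_nonneg (fun _ _ => fB_nonneg U _) _

theorem Bf_le (X : Euc m) : Bf t q H w U X0 X ≤ 1 := by
  unfold Bf
  by_cases hX : X ∈ ball X0 (6 * t)
  · rw [indicator_of_mem hX]; exact fB_le U _
  · rw [indicator_of_notMem hX]; exact zero_le_one

/-- the test function is the kernel divided by the density -/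
theorem Bx_eq (h : Bp π ρ x w X0 C κ t q H H' w' U T e) (Xc v : Euc m) :
    Bx t q H w U X0 Xc v = bv w Xc t (Lo (fderiv ℝ w Xc) (X0 - Xc)) v /
      dns (fderiv ℝ U (zc t q H w X0 (Gi_456.pt w Xc v))) := by
  have ht := h.zm.t0
  unfold Bx Bf
  have e1 : bv w Xc t (Lo (fderiv ℝ w Xc) (X0 - Xc)) v =
      bump 1 0 (zc t q H w X0 (Gi_456.pt w Xc v)) := by
    unfold F35k_433.bv
    rw [F35k_433.pt_Lo, F35k_433.beta_zc h.fr h.zm, Loc1_290.bump, sub_zero, one_pow, div_one]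
  by_cases hX : Gi_456.pt w Xc v ∈ ball X0 (6 * t)
  · rw [indicator_of_mem hX, e1]
    rfl
  · rw [indicator_of_notMem hX, F35k_433.bv_zero h.gr Xc ht, zero_div]
    rw [F35k_433.pt_Lo]
    rw [mem_ball_iff_norm, not_lt] at hX
    linarith

theorem measurable_Bx (h : Bp π ρ x w X0 C κ t q H H' w' U T e) (Xc : Euc m) :
    Measurable (Bx t q H w U X0 Xc) := by
  have h1 : Measurable (Bf t q H w U X0) :=
    ((measurable_fB (cdU h.zm)).comp h.continuous_zc.measurable).indicator measurableSet_ball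
  have h2 : Continuous (Gi_456.pt w Xc) :=
    continuous_const.add (Loi (fderiv ℝ w Xc)).continuous
  exact h1.comp h2.measurable

theorem kern (h : Bp π ρ x w X0 C κ t q H H' w' U T e) (Xc : Euc m) :
    F31_354.Kern volume (bv w Xc t) (fun v => jB w Xc v /
      Loc1_290.mass (volume : Measure (Euc m)) t) t (Kern2_332.C2 m * t)
      (Kern_567.CK m / Loc1_290.mass (volume : Measure (Euc m)) t) 0 :=
  F35k_433.kern_ch h.gr Xc h.zm.t0 (h.t16.trans (by norm_num)) 0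

/-- the difference of the kernel and the test function -/
theorem bv_sub (h : Bp π ρ x w X0 C κ t q H H' w' U T e) {C2 : ℝ}
    (hC2 : ∀ p : Euc m →L[ℝ] Euc n, ‖p‖ ≤ 1 / 4 → dns p ≤ 1 + C2 * ‖p‖ ^ 2) (hC20 : 0 ≤ C2)
    (Xc v : Euc m) :
    |bv w Xc t (Lo (fderiv ℝ w Xc) (X0 - Xc)) v - Bx t q H w U X0 Xc v| ≤
      (closedBall (Lo (fderiv ℝ w Xc) (X0 - Xc)) (2 * t)).indicator
        (fun _ => C2 * (C * κ * t) ^ 2) v := by
  have hk := kern h Xc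
  rw [Bx_eq h]
  obtain ⟨b, hb⟩ : ∃ b, b = bv w Xc t (Lo (fderiv ℝ w Xc) (X0 - Xc)) v := ⟨_, rfl⟩
  obtain ⟨d, hd⟩ : ∃ d, d = dns (fderiv ℝ U (zc t q H w X0 (Gi_456.pt w Xc v))) := ⟨_, rfl⟩
  have hb0 : 0 ≤ b := by rw [hb]; exact hk.nonneg _ _
  have hb1 : b ≤ 1 := by rw [hb]; exact hk.le_one _ _
  have hd1 : 1 ≤ d := by rw [hd]; exact Nrm_842.one_le_dns _
  have hd2 : d ≤ 1 + C2 * (C * κ * t) ^ 2 := by
    rw [hd]
    have h1 := h.zm.norm_dU (zc t q H w X0 (Gi_456.pt w Xc v))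
    refine (hC2 _ (h1.trans (h.zm.Cκt.trans (by norm_num)))).trans ?_
    gcongr
  rw [← hb, ← hd]
  have e1 : b - b / d = b * (1 - d⁻¹) := by ring
  have hdi : d⁻¹ ≤ 1 := inv_le_one_of_one_le₀ hd1
  have e2 : 1 - d⁻¹ ≤ d - 1 := by
    have h1 : 0 < d := by linarith
    have h2 : d * d⁻¹ = 1 := mul_inv_cancel₀ h1.ne'
    nlinarith [sq_nonneg (d - 1), inv_pos.2 h1]
  rw [e1, abs_of_nonneg (mul_nonneg hb0 (by linarith))]
  by_cases hv : v ∈ closedBall (Lo (fderiv ℝ w Xc) (X0 - Xc)) (2 * t)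
  · rw [indicator_of_mem hv]
    calc b * (1 - d⁻¹) ≤ 1 * (d - 1) := mul_le_mul hb1 e2 (by linarith) zero_le_one
      _ ≤ _ := by linarith
  · rw [indicator_of_notMem hv]
    have h1 : b = 0 := by
      rw [hb]
      refine hk.supp _ _ ?_
      rw [mem_closedBall_iff_norm, not_le] at hv
      exact hv
    rw [h1, zero_mul]

end

section

variable {π : Euc k →L[ℝ] Euc m} {ρ : Euc k →L[ℝ] Euc n} {x : Euc k} {w w' U : Euc m → Euc n}
  {X0 Xc : Euc m} {C κ t e : ℝ} {q : Euc m →L[ℝ] Euc n}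
  {H : Euc m →L[ℝ] Euc m} {H' : Euc n →L[ℝ] Euc n} {T : Dif k}
  {U0 K : Set (Euc k)} {Dd : VarifoldData m k}

theorem aemeas_x (hA : Am π ρ x w Xc X0 t U0 K Dd) :
    AEMeasurable (fun p : Euc k × L k => (ch π ρ x 1 w Xc).x p.1) (VK (VD Dd) K) := by
  unfold GL_394.VK
  have h0 : ContinuousOn (foot π ρ x 1 w) K := (hA.gr.continuousOn_foot hA.fr).mono hA.kt
  have h1 : ContinuousOn (fun p : Euc k × L k => (ch π ρ x 1 w Xc).x p.1) (K ×ˢ univ) := by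
    have h2 : ContinuousOn (fun p : Euc k × L k =>
        Lo (fderiv ℝ w Xc) (foot π ρ x 1 w p.1 - Xc)) (K ×ˢ univ) :=
      (Lo (fderiv ℝ w Xc)).continuous.comp_continuousOn
        ((h0.comp continuousOn_fst fun p hp => hp.1).sub continuousOn_const)
    exact h2
  exact h1.aemeasurable (hA.cpt.isClosed.measurableSet.prod .univ)

theorem integrable_comp (hA : Am π ρ x w Xc X0 t U0 K Dd) {F : Euc m → ℝ} (hF : Measurable F)
    {b : ℝ} (hb : ∀ v, |F v| ≤ b) :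
    Integrable (fun p : Euc k × L k => F ((ch π ρ x 1 w Xc).x p.1) *
      (1 - (ch π ρ x 1 w Xc).tau p.1 p.2 / 2)) (VK (VD Dd) K) := by
  have hfin : IsFiniteMeasure (VK (VD Dd) K) := hA.on.fin
  have h1 : Integrable (fun p : Euc k × L k => 1 - (ch π ρ x 1 w Xc).tau p.1 p.2 / 2)
      (VK (VD Dd) K) := (integrable_const _).sub (hA.int_tau.div_const 2)
  refine h1.bdd_mul (c := b) ?_ (Eventually.of_forall fun p => hb _)
  exact (hF.comp_aemeasurable (aemeas_x hA)).aestronglyMeasurable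

theorem integrable_j (hg : Gr 1 w) {F : Euc m → ℝ} (hF : Measurable F) {b : ℝ}
    (hb : ∀ v, |F v| ≤ b) {v0 : Euc m} {R : ℝ} (hR : ∀ v, v ∉ closedBall v0 R → F v = 0) :
    Integrable (fun v => F v * jB w Xc v) := by
  have hj : Continuous (jB w Xc) := (hg.contDiff_j Xc).continuous
  have h1 : IntegrableOn (jB w Xc) (closedBall v0 R) :=
    hj.continuousOn.integrableOn_compact (isCompact_closedBall _ _)
  have h2 : IntegrableOn (fun v => F v * jB w Xc v) (closedBall v0 R) :=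
    h1.bdd_mul (c := b) hF.aestronglyMeasurable (Eventually.of_forall fun p => hb _)
  have h3 : (fun v => F v * jB w Xc v) =
      (closedBall v0 R).indicator (fun v => F v * jB w Xc v) := by
    funext v
    by_cases hv : v ∈ closedBall v0 R
    · rw [indicator_of_mem hv]
    · rw [indicator_of_notMem hv, hR v hv, zero_mul]
  rw [h3]
  exact (integrable_indicator_iff measurableSet_closedBall).2 h2

theorem fin_le {I1 I2 J1 J2 E M Q : ℝ} (h : |I1 - I2 - Q * (J1 - J2)| ≤ E)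
    (h2 : I2 - Q * J2 ≤ M) : I1 - Q * J1 ≤ M + E := by
  have := (le_abs_self _).trans h
  linarith

theorem int_sub_ch (hA : Am π ρ x w Xc X0 t U0 K Dd) {F F' : Euc m → ℝ} (hF : Measurable F)
    (hF' : Measurable F') (hb : ∀ v, |F v| ≤ 1) (hb' : ∀ v, |F' v| ≤ 1) :
    ∫ p, (F ((ch π ρ x 1 w Xc).x p.1) - F' ((ch π ρ x 1 w Xc).x p.1)) *
        (1 - (ch π ρ x 1 w Xc).tau p.1 p.2 / 2) ∂(VK (VD Dd) K) =
      ∫ p, F ((ch π ρ x 1 w Xc).x p.1) * (1 - (ch π ρ x 1 w Xc).tau p.1 p.2 / 2)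
        ∂(VK (VD Dd) K) -
      ∫ p, F' ((ch π ρ x 1 w Xc).x p.1) * (1 - (ch π ρ x 1 w Xc).tau p.1 p.2 / 2)
        ∂(VK (VD Dd) K) := by
  rw [← integral_sub (integrable_comp hA hF hb) (integrable_comp hA hF' hb')]
  refine integral_congr_ae (Eventually.of_forall fun p => ?_)
  simp only
  ring

theorem int_sub_j (hg : Gr 1 w) {F F' : Euc m → ℝ} (hF : Measurable F)
    (hF' : Measurable F') (hb : ∀ v, |F v| ≤ 1) (hb' : ∀ v, |F' v| ≤ 1) {v0 : Euc m} {R : ℝ}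
    (hR : ∀ v, v ∉ closedBall v0 R → F v = 0) (hR' : ∀ v, v ∉ closedBall v0 R → F' v = 0) :
    ∫ v, (F v - F' v) * jB w Xc v = (∫ v, F v * jB w Xc v) - ∫ v, F' v * jB w Xc v := by
  rw [← integral_sub (integrable_j hg hF hb hR) (integrable_j hg hF' hb' hR')]
  refine integral_congr_ae (Eventually.of_forall fun p => ?_)
  simp only
  ring

theorem int_abs_le {e2 : Measure (Euc m)} [IsFiniteMeasure e2] {F : Euc m → ℝ} {c : ℝ}
    {v0 : Euc m} {R : ℝ} (h : ∀ v, |F v| ≤ (closedBall v0 R).indicator (fun _ => c) v) :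
    ∫ v, |F v| ∂e2 ≤ c * e2.real (closedBall v0 R) := by
  calc ∫ v, |F v| ∂e2 ≤ ∫ v, (closedBall v0 R).indicator (fun _ => c) v ∂e2 := by
        refine integral_mono_of_nonneg (Eventually.of_forall fun v => abs_nonneg _) ?_
          (Eventually.of_forall h)
        exact (integrable_indicator_iff measurableSet_closedBall).2
          (integrableOn_const (measure_ne_top _ _))
    _ = _ := by
        rw [integral_indicator measurableSet_closedBall, setIntegral_const, smul_eq_mul,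
          mul_comm]

theorem measurable_sec {f : Euc m → Euc m → ℝ} (h : Measurable (Function.uncurry f))
    (v0 : Euc m) : Measurable (f v0) := by
  have h1 : Measurable fun v => Function.uncurry f (v0, v) :=
    h.comp (measurable_const.prodMk measurable_id)
  exact h1

/-- **(b2)** from the test function to the kernel -/
theorem to_bv (h : Bp π ρ x w X0 C κ t q H H' w' U T e) (hA : Am π ρ x w Xc X0 t U0 K Dd)
    {C2 : ℝ} (hC2 : ∀ p : Euc m →L[ℝ] Euc n, ‖p‖ ≤ 1 / 4 → dns p ≤ 1 + C2 * ‖p‖ ^ 2)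
    (hC20 : 0 ≤ C2) {e2 : Measure (Euc m)} [IsFiniteMeasure e2] {Q : ℕ}
    (habs : ∀ F : Euc m → ℝ, Measurable F → (∃ b : ℝ, ∀ v, |F v| ≤ b) →
    (∀ v, v ∉ closedBall (Lo (fderiv ℝ w Xc) (X0 - Xc)) (6 * t) → F v = 0) →
    |∫ p, F ((ch π ρ x 1 w Xc).x p.1) * (1 - (ch π ρ x 1 w Xc).tau p.1 p.2 / 2)
      ∂(VK (VD Dd) K) - Q * ∫ v, F v * (ch π ρ x 1 w Xc).j v| ≤ ∫ v, |F v| ∂e2) {M : ℝ}
    (hM : ∫ p in K ×ˢ univ, Bf t q H w U X0 (foot π ρ x 1 w p.1) *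
          (1 - Nt π ρ w (foot π ρ x 1 w p.1) p.2 / 2) ∂(VD Dd) -
        Q * ∫ X, Bf t q H w U X0 X * dns (fderiv ℝ w X) ≤ M) :
    ∫ p, bv w Xc t (Lo (fderiv ℝ w Xc) (X0 - Xc)) ((ch π ρ x 1 w Xc).x p.1) *
      (1 - (ch π ρ x 1 w Xc).tau p.1 p.2 / 2) ∂(VK (VD Dd) K) -
    Q * ∫ v, bv w Xc t (Lo (fderiv ℝ w Xc) (X0 - Xc)) v * (ch π ρ x 1 w Xc).j v ≤
    M + C2 * (C * κ * t) ^ 2 * e2.real (closedBall (Lo (fderiv ℝ w Xc) (X0 - Xc)) (2 * t)) := by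
  have ht := h.zm.t0
  have hk := kern h Xc
  obtain ⟨v0, hv0⟩ : ∃ v0, v0 = Lo (fderiv ℝ w Xc) (X0 - Xc) := ⟨_, rfl⟩
  have hsub := bv_sub h hC2 hC20 Xc
  rw [← hv0] at habs hsub ⊢
  have hbm := measurable_sec hk.meas v0
  have hBm := measurable_Bx h Xc
  have hc0 : 0 ≤ C2 * (C * κ * t) ^ 2 := by positivity
  have hFb : ∀ v, |bv w Xc t v0 v - Bx t q H w U X0 Xc v| ≤ C2 * (C * κ * t) ^ 2 := by
    intro v
    refine (hsub v).trans ?_
    by_cases hv : v ∈ closedBall v0 (2 * t)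
    · rw [indicator_of_mem hv]
    · rw [indicator_of_notMem hv]; exact hc0
  have hF0 : ∀ v, v ∉ closedBall v0 (2 * t) → bv w Xc t v0 v - Bx t q H w U X0 Xc v = 0 := by
    intro v hv
    have := hsub v
    rw [indicator_of_notMem hv] at this
    exact abs_nonpos_iff.1 this
  have hb0 : ∀ v, v ∉ closedBall v0 (2 * t) → bv w Xc t v0 v = 0 := by
    intro v hv
    rw [mem_closedBall_iff_norm, not_le] at hv
    exact hk.supp _ _ hv
  have hB0 : ∀ v, v ∉ closedBall v0 (2 * t) → Bx t q H w U X0 Xc v = 0 := by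
    intro v hv
    have h1 := hF0 v hv
    rw [hb0 v hv, zero_sub, neg_eq_zero] at h1
    exact h1
  have hBb : ∀ v, |Bx t q H w U X0 Xc v| ≤ 1 := fun v => by
    unfold Bx
    rw [abs_of_nonneg (Bf_nonneg _)]
    exact Bf_le _
  have hbb : ∀ v, |bv w Xc t v0 v| ≤ 1 := fun v => by
    rw [abs_of_nonneg (hk.nonneg _ _)]
    exact hk.le_one _ _
  have h1 := habs (fun v => bv w Xc t v0 v - Bx t q H w U X0 Xc v) (hbm.sub hBm) ⟨_, hFb⟩
    (fun v hv => hF0 v fun h2 => hv (closedBall_subset_closedBall (by linarith) h2))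
  have h2 := h1.trans (int_abs_le hsub)
  have e1 := int_sub_ch hA hbm hBm hbb hBb
  have e2' := int_sub_j (Xc := Xc) h.gr hbm hBm hbb hBb hb0 hB0
  have e3 := int_Bx w U t q H X0 Xc
  rw [int_Bx_ch] at e1
  rw [e3] at e2'
  refine fin_le ?_ hM
  refine le_trans (le_of_eq ?_) h2
  congr 1
  exact (congrArg₂ (fun a b : ℝ => a - Q * b) e1 e2').symm


end

end Crest.Agent.R234.Fm_281
end
end

-- ▼ part R234/Fx11_281

/-!
# Row 234 (helper281), node F3-LE, file 7: 354's literal `B2P`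
-/

set_option autoImplicit false

open MeasureTheory Filter Topology Set Metric
open Crest.GeometryTopology.Submanifold
open Crest.Agent.R234.Vf_884

noncomputable section

namespace Crest.Agent.R234.Fm_281

/-- **the step from the test function to the kernel** -/
theorem b2P (m n k Q : ℕ) : F37_354.B2P m n k Q := by
  obtain ⟨C2, hC2, hd⟩ := Nrm_842.exists_dns_le m n
  refine ⟨C2, by linarith, ?_⟩
  intro π ρ x w Xc X t U K Dd C κ e q H H' w' u T E hA h hE habs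
  exact to_bv h hA hd (by linarith) habs le_rfl

end Crest.Agent.R234.Fm_281
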