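import Crest.Agent.R234.Th5_164
import Crest.Agent.R234.Th12_164
import Crest.Agent.R234.Asl2_214
import Crest.Agent.R234.N5a_372

-- ▼ part R234/Hol4_746
section

/-!
# Row 234, VF-HOLE (helper746), part 4: upper mass bounds in small base balls

If the tilt ratios at a centre `x` are small at all scales between `t` and `4 ρ₀` and the mass over
the top ball is bounded then the mass ratios at `x` are bounded at all scales between `t` and `ρ₀`
(one scale at a time, by integrality: no accumulation).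
-/

set_option autoImplicit false

open Set Filter Topology MeasureTheory Metric
open Crest.Agent.R234.Th_164
open scoped ENNReal NNReal

noncomputable section

namespace Crest.Agent.R234.Hol_746

variable {d : ℕ}

/-- uniform constants of `TH1` for finitely many integers. -/
theorem TH1_fin {C : ℝ} (hSC : SC2 d C) {C₁ : ℝ} (hC₁ : 0 ≤ C₁) {ε : ℝ} (hε : 0 < ε) (hε1 : ε ≤ 1)
    (hεω : ε * (1 + 4 ^ d) < om d) (n : ℕ) :
    ∃ c₁ : ℝ, 0 < c₁ ∧ c₁ ≤ 1 / 2 ∧ ∃ δ₁ : ℝ, 0 < δ₁ ∧ δ₁ ≤ 1 ∧ ∀ Q < n,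
      ∀ (c₀ g : ℝ) (R : Set (Eu d)) (N : Eu d → ℝ) (μ e es G : Measure (Eu d)),
        0 ≤ c₀ → c₀ ≤ c₁ → 0 ≤ g → Hyp C₁ c₀ g R N μ e es G →
        ∀ (x : Eu d) (s ρ₀ : ℝ), ball x ρ₀ ⊆ R → g * ρ₀ ≤ δ₁ →
          ∫ y in ball x ρ₀, |N y - Q| ≤ ε * ρ₀ ^ d →
          (∀ ρ, 0 < ρ → s ≤ ρ → ρ ≤ ρ₀ → es (ball x ρ) ≤ ENNReal.ofReal (δ₁ * ρ ^ d)) →
          ∀ r, 0 < r → s ≤ r → r ≤ ρ₀ → ∫ y in ball x r, |N y - Q| ≤ 4 ^ d * ε * r ^ d := by
  induction n with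
  | zero => exact ⟨1 / 2, by norm_num, le_rfl, 1, one_pos, le_rfl, fun Q hQ => absurd hQ (by omega)⟩
  | succ n ih =>
    obtain ⟨c₁, hc, hc', δ₁, hδ, hδ', h⟩ := ih
    obtain ⟨c₂, hc2, hc2', δ₂, hδ2, hδ2', h2⟩ := TH1 hSC n hC₁ hε hε1 hεω
    refine ⟨min c₁ c₂, lt_min hc hc2, (min_le_left _ _).trans hc', min δ₁ δ₂, lt_min hδ hδ2,
      (min_le_left _ _).trans hδ', ?_⟩
    intro Q hQ c₀ g R N μ e es G h0 h1 hg H x s ρ₀ hx hgρ hN hes r hr hsr hrρ
    have hes' : ∀ δ', min δ₁ δ₂ ≤ δ' → ∀ ρ, 0 < ρ → s ≤ ρ → ρ ≤ ρ₀ →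
        es (ball x ρ) ≤ ENNReal.ofReal (δ' * ρ ^ d) := fun δ' hδ'' ρ hρ h3 h4 =>
      (hes ρ hρ h3 h4).trans (ENNReal.ofReal_le_ofReal
        (mul_le_mul_of_nonneg_right hδ'' (by positivity)))
    rcases Nat.lt_succ_iff_lt_or_eq.1 hQ with hQ' | rfl
    · exact h Q hQ' c₀ g R N μ e es G h0 (h1.trans (min_le_left _ _)) hg H x s ρ₀ hx
        (hgρ.trans (min_le_left _ _)) hN (hes' _ (min_le_left _ _)) r hr hsr hrρ
    · exact h2 c₀ g R N μ e es G h0 (h1.trans (min_le_right _ _)) hg H x s ρ₀ hx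
        (hgρ.trans (min_le_right _ _)) hN (hes' _ (min_le_right _ _)) r hr hsr hrρ

set_option maxHeartbeats 1000000 in
/-- **(MASS)**: mass ratios stay bounded as long as the tilt ratios are small. -/
theorem mass_down {C : ℝ} (hSC : SC2 d C) {C₁ : ℝ} (hC₁ : 0 ≤ C₁) {C₀ : ℝ} (hC₀ : 0 ≤ C₀) :
    ∃ c₁ : ℝ, 0 < c₁ ∧ c₁ ≤ 1 / 2 ∧ ∃ δ₁ : ℝ, 0 < δ₁ ∧ δ₁ ≤ 1 ∧ ∃ C' : ℝ, 0 < C' ∧
      ∀ (c₀ g : ℝ) (R : Set (Eu d)) (N : Eu d → ℝ) (μ e es G : Measure (Eu d)),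
        0 ≤ c₀ → c₀ ≤ c₁ → 0 ≤ g → Hyp C₁ c₀ g R N μ e es G →
        ∀ (x : Eu d) (t ρ₀ : ℝ), 0 < ρ₀ → ball x (4 * ρ₀) ⊆ R → g * ρ₀ ≤ δ₁ →
          μ (ball x (4 * ρ₀)) ≤ ENNReal.ofReal (C₀ * ρ₀ ^ d) →
          (∀ ρ, 0 < ρ → t ≤ ρ → ρ ≤ 4 * ρ₀ → es (ball x ρ) ≤ ENNReal.ofReal (δ₁ * ρ ^ d)) →
          ∀ r, 0 < r → t ≤ r → r ≤ ρ₀ → μ (ball x r) ≤ ENNReal.ofReal (C' * r ^ d) := by
  have hom := om_pos d
  set ε : ℝ := min 1 (om d / (2 * (1 + 4 ^ d))) with hε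
  have hε0 : 0 < ε := by positivity
  have hε1 : ε ≤ 1 := min_le_left _ _
  have hεω : ε * (1 + 4 ^ d) < om d := by
    calc ε * (1 + 4 ^ d) ≤ om d / (2 * (1 + 4 ^ d)) * (1 + 4 ^ d) := by
          gcongr
          exact min_le_right _ _
      _ = om d / 2 := by field_simp
      _ < om d := by linarith
  set n : ℕ := ⌊(C₀ + 1) / om d⌋₊ + 1 with hn
  obtain ⟨c₁, hc, hc', δ₁, hδ, hδ', hT⟩ := TH1_fin hSC hC₁ hε0 hε1 hεω n
  -- smallness for the top integer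
  set η : ℝ := min 1 ((ε / (4 * (|C| + 1))) ^ 2 / (C₀ + 1)) with hη
  have hη0 : 0 < η := by positivity
  have hη1 : η ≤ 1 := min_le_left _ _
  set c₂ : ℝ := min c₁ (η / (2 * ((C₁ + 1) * (C₀ + 1)))) with hc₂
  set δ₂ : ℝ := min δ₁ (η / (2 * ((C₁ + 1) * 4 ^ d + C₀ + 1))) with hδ₂
  have hc20 : 0 < c₂ := by positivity
  have hδ20 : 0 < δ₂ := by positivity
  have hc₂' : C₁ * (c₂ * C₀) ≤ η / 2 := by
    have h1 : c₂ ≤ η / (2 * ((C₁ + 1) * (C₀ + 1))) := min_le_right _ _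
    calc C₁ * (c₂ * C₀) ≤ (C₁ + 1) * (η / (2 * ((C₁ + 1) * (C₀ + 1))) * (C₀ + 1)) := by
          gcongr <;> linarith
      _ = η / 2 := by field_simp
  have hδ₂' : C₁ * (δ₂ * 4 ^ d) ≤ η / 2 ∧ δ₂ * C₀ ≤ η := by
    have h1 : δ₂ ≤ η / (2 * ((C₁ + 1) * 4 ^ d + C₀ + 1)) := min_le_right _ _
    have h2 : (0 : ℝ) < (C₁ + 1) * 4 ^ d + C₀ + 1 := by positivity
    have h3 : δ₂ * (2 * ((C₁ + 1) * 4 ^ d + C₀ + 1)) ≤ η := by
      rw [le_div_iff₀ (by positivity)] at h1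
      exact h1
    have h4 : 0 ≤ δ₂ * 4 ^ d := by positivity
    have h5 : 0 ≤ C₁ * (δ₂ * 4 ^ d) := by positivity
    have h6 : 0 ≤ δ₂ * C₀ := by positivity
    constructor <;> nlinarith
  refine ⟨c₂, hc20, (min_le_left _ _).trans hc', δ₂, hδ20, (min_le_left _ _).trans hδ',
    2 * (C₀ + 1 + om d + 4 ^ d) + 2, by positivity, ?_⟩
  intro c₀ g R N μ e es G h0 h1 hg H x t ρ₀ hρ hR hgρ hμ hes r hr htr hrρ
  have hc12 : c₀ ≤ c₁ := h1.trans (min_le_left _ _)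
  have hρd : 0 < ρ₀ ^ d := by positivity
  have h4R : MeasurableSet (ball x (4 * ρ₀)) := measurableSet_ball
  have h4ρ : t ≤ 4 * ρ₀ := by linarith
  -- energy at the top
  have hes4 : es (ball x (4 * ρ₀)) ≤ ENNReal.ofReal (δ₂ * (4 * ρ₀) ^ d) :=
    hes _ (by positivity) h4ρ le_rfl
  have he4 : e (ball x (4 * ρ₀)) ≤ ENNReal.ofReal ((c₂ * C₀ + δ₂ * 4 ^ d) * ρ₀ ^ d) := by
    calc e (ball x (4 * ρ₀)) ≤ ENNReal.ofReal c₀ * μ (ball x (4 * ρ₀)) + es (ball x (4 * ρ₀)) :=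
          H.tilt _ h4R hR
      _ ≤ ENNReal.ofReal c₂ * ENNReal.ofReal (C₀ * ρ₀ ^ d) +
          ENNReal.ofReal (δ₂ * (4 * ρ₀) ^ d) := by gcongr
      _ = _ := by
          rw [← ENNReal.ofReal_mul hc20.le, ← ENNReal.ofReal_add (by positivity) (by positivity)]
          congr 1
          rw [mul_pow]; ring
  have hN4 : ∫ y in ball x (4 * ρ₀), N y ≤ (C₀ + 1) * ρ₀ ^ d := by
    have h2 := (H.le_mass _ h4R hR).trans hμ
    have h3 := (ENNReal.ofReal_le_ofReal_iff (by positivity)).1 h2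
    nlinarith
  obtain ⟨q, hq⟩ := exists_integer hSC hC₁ H (x := x) (r := ρ₀) (M := (C₀ + 1) * ρ₀ ^ d)
    (δ := η * ρ₀ ^ d) hρ (by positivity) (by nlinarith) hR hN4 (by
      calc ENNReal.ofReal C₁ * e (ball x (4 * ρ₀))
          ≤ ENNReal.ofReal C₁ * ENNReal.ofReal ((c₂ * C₀ + δ₂ * 4 ^ d) * ρ₀ ^ d) := by gcongr
        _ = ENNReal.ofReal (C₁ * ((c₂ * C₀ + δ₂ * 4 ^ d) * ρ₀ ^ d)) :=
            (ENNReal.ofReal_mul hC₁).symm
        _ ≤ _ := by
            apply ENNReal.ofReal_le_ofReal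
            have h5 : C₁ * (c₂ * C₀) + C₁ * (δ₂ * 4 ^ d) ≤ η := by linarith [hδ₂'.1]
            calc C₁ * ((c₂ * C₀ + δ₂ * 4 ^ d) * ρ₀ ^ d) =
                (C₁ * (c₂ * C₀) + C₁ * (δ₂ * 4 ^ d)) * ρ₀ ^ d := by ring
              _ ≤ _ := mul_le_mul_of_nonneg_right h5 hρd.le) (by
      calc G (ball x (4 * ρ₀)) ≤ ENNReal.ofReal g * μ (ball x (4 * ρ₀)) := H.low _ h4R hR
        _ ≤ ENNReal.ofReal g * ENNReal.ofReal (C₀ * ρ₀ ^ d) := by gcongr
        _ = ENNReal.ofReal (g * (C₀ * ρ₀ ^ d)) := (ENNReal.ofReal_mul hg).symm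
        _ ≤ _ := by
            apply ENNReal.ofReal_le_ofReal
            rw [le_div_iff₀ hρ]
            calc g * (C₀ * ρ₀ ^ d) * ρ₀ = (g * ρ₀) * (C₀ * ρ₀ ^ d) := by ring
              _ ≤ δ₂ * (C₀ * ρ₀ ^ d) := by gcongr
              _ = (δ₂ * C₀) * ρ₀ ^ d := by ring
              _ ≤ _ := mul_le_mul_of_nonneg_right hδ₂'.2 hρd.le)
  have hq2 : ∫ y in ball x ρ₀, |N y - q| ≤ ε * ρ₀ ^ d := by
    refine hq.trans ?_
    have h5 : (C₀ + 1) * ρ₀ ^ d * (η * ρ₀ ^ d) ≤ (ε / (4 * (|C| + 1)) * ρ₀ ^ d) ^ 2 := by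
      have h6 : (C₀ + 1) * η ≤ (ε / (4 * (|C| + 1))) ^ 2 := by
        have : η ≤ (ε / (4 * (|C| + 1))) ^ 2 / (C₀ + 1) := min_le_right _ _
        rw [le_div_iff₀ (by positivity)] at this
        linarith
      calc (C₀ + 1) * ρ₀ ^ d * (η * ρ₀ ^ d) = ((C₀ + 1) * η) * (ρ₀ ^ d) ^ 2 := by ring
        _ ≤ (ε / (4 * (|C| + 1))) ^ 2 * (ρ₀ ^ d) ^ 2 :=
            mul_le_mul_of_nonneg_right h6 (by positivity)
        _ = _ := by ring
    have h7 := Real.sqrt_le_sqrt h5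
    rw [Real.sqrt_sq (by positivity)] at h7
    calc 4 * (C * √((C₀ + 1) * ρ₀ ^ d * (η * ρ₀ ^ d)))
        ≤ 4 * ((|C| + 1) * (ε / (4 * (|C| + 1)) * ρ₀ ^ d)) := by
          have h8 : C ≤ |C| + 1 := by linarith [le_abs_self C]
          have h9 : C * √((C₀ + 1) * ρ₀ ^ d * (η * ρ₀ ^ d)) ≤
              (|C| + 1) * (ε / (4 * (|C| + 1)) * ρ₀ ^ d) :=
            mul_le_mul h8 h7 (Real.sqrt_nonneg _) (by positivity)
          linarith
      _ = ε * ρ₀ ^ d := by field_simp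
  have hsub : ball x ρ₀ ⊆ R := (ball_subset_ball (by linarith)).trans hR
  have hNint : IntegrableOn N (ball x ρ₀) := H.int.mono_set hsub
  -- bound of the integer
  have hqom : (q : ℝ) * om d ≤ C₀ + 1 := by
    have hcst : IntegrableOn (fun _ : Eu d => (q : ℝ)) (ball x ρ₀) :=
      integrableOn_const measure_ball_lt_top.ne
    have hNq : IntegrableOn (fun y => |N y - (q : ℝ)|) (ball x ρ₀) := (hNint.sub hcst).abs
    have h6 : (q : ℝ) * (om d * ρ₀ ^ d) ≤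
        (∫ y in ball x ρ₀, N y) + ∫ y in ball x ρ₀, |N y - q| := by
      rw [← vol_ball x hρ]
      have h7 : (q : ℝ) * volume.real (ball x ρ₀) = ∫ _y in ball x ρ₀, (q : ℝ) := by
        rw [setIntegral_const, smul_eq_mul, mul_comm]
      rw [h7, ← integral_add hNint hNq]
      refine integral_mono hcst (hNint.add hNq) fun y => ?_
      have := neg_le_abs (N y - q)
      simp only [Pi.add_apply]
      linarith
    have h8 : ∫ y in ball x ρ₀, N y ≤ C₀ * ρ₀ ^ d := by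
      have h9 : ENNReal.ofReal (∫ y in ball x ρ₀, N y) ≤ ENNReal.ofReal (C₀ * ρ₀ ^ d) :=
        ((H.le_mass _ measurableSet_ball hsub).trans
          (measure_mono (ball_subset_ball (by linarith)))).trans hμ
      exact (ENNReal.ofReal_le_ofReal_iff (by positivity)).1 h9
    have h10 : (q : ℝ) * om d * ρ₀ ^ d ≤ (C₀ + 1) * ρ₀ ^ d := by
      have : ε * ρ₀ ^ d ≤ 1 * ρ₀ ^ d := mul_le_mul_of_nonneg_right hε1 hρd.le
      nlinarith
    exact le_of_mul_le_mul_right h10 hρd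
  have hqn : q < n := by
    rw [hn, Nat.lt_succ_iff]
    refine Nat.le_floor ?_
    rw [le_div_iff₀ hom]
    exact hqom
  have hfin := hT q hqn c₀ g R N μ e es G h0 hc12 hg H x t ρ₀ hsub
    (hgρ.trans (min_le_left _ _)) hq2 (fun ρ h3 h4 h5 =>
      (hes ρ h3 h4 (by linarith)).trans (ENNReal.ofReal_le_ofReal
        (mul_le_mul_of_nonneg_right (min_le_left _ _) (by positivity)))) r hr htr hrρ
  have hrd : 0 < r ^ d := by positivity
  have hsubr : ball x r ⊆ R := (ball_subset_ball hrρ).trans hsub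
  have hNr : ∫ y in ball x r, N y ≤ (q * om d + 4 ^ d * ε) * r ^ d :=
    integral_N_le hr (H.int.mono_set hsubr) hfin
  have hμr := H.μ_le h0 (hc12.trans hc') measurableSet_ball hsubr hNr
    (by positivity : 0 ≤ δ₂ * r ^ d) (hes r hr htr (by linarith))
  refine hμr.trans (ENNReal.ofReal_le_ofReal ?_)
  have h4d : (0 : ℝ) < 4 ^ d := by positivity
  have h11 : 4 ^ d * ε ≤ 4 ^ d := by nlinarith
  have h12 : δ₂ ≤ 1 := (min_le_left _ _).trans hδ'
  have h13 : 2 * (q * om d + 4 ^ d * ε) + 2 * δ₂ ≤ 2 * (C₀ + 1 + om d + 4 ^ d) + 2 := by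
    linarith
  calc 2 * ((q * om d + 4 ^ d * ε) * r ^ d) + 2 * (δ₂ * r ^ d) =
      (2 * (q * om d + 4 ^ d * ε) + 2 * δ₂) * r ^ d := by ring
    _ ≤ _ := mul_le_mul_of_nonneg_right h13 hrd.le

end Crest.Agent.R234.Hol_746
end
end

-- ▼ part R234/Hol5_746

/-!
# Row 234, VF-HOLE (helper746), part 5: upper mass bounds for varifolds

`setup_of_cylAS`: 164's `Setup` for 214's `CylAS`.  `mass_setup`: (MASS) for varifolds.
-/

set_option autoImplicit false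

open Set Filter Topology MeasureTheory Metric
open Crest.GeometryTopology.Submanifold
open Crest.Agent.R234.Vf_884 Crest.Agent.R234.Ar_870 Crest.Agent.R234.Cy_870
open Crest.Agent.R234.AS_456 Crest.Agent.R234.Asl_214
open Crest.Agent.R234.Th_164 Crest.Agent.R234.N5_372
open scoped ENNReal NNReal ContDiff InnerProductSpace

noncomputable section

namespace Crest.Agent.R234.Hol_746

variable {m n k : ℕ} {π : Euc k →L[ℝ] Euc m} {κ : Euc k →L[ℝ] Euc n}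
  {W : Measure (Euc k × L k)} {x₀ : Euc m} {R h₀ δ : ℝ}

theorem setup_of_cylAS (h : CylAS W π κ x₀ R h₀ δ) (hδ : 0 ≤ δ) (hδ1 : δ ≤ 1)
    {N : Euc m → ℝ≥0∞} (hN : Area W π (ball x₀ R) N) :
    Setup π W (ball x₀ R) N δ (h₀ ^ 2) (fun z => ‖vp π z‖ ^ 2) where
  fin := ⟨h.fin⟩
  co := h.sp.hh
  conc := h.conc
  isOpen := isOpen_ball
  area := hN
  δ_nonneg := hδ
  δ_le := hδ1
  h_nonneg := by positivity
  q_meas := ((vp π).continuous.norm.pow 2).measurable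
  q_nonneg z := by positivity
  q_le := by
    filter_upwards [h.hgt] with p hp
    rw [Th_164.norm_vp_eq h.sp]
    exact pow_le_pow_left₀ (norm_nonneg _) hp 2
  fv ξ hξ hξc hξR := by
    have : IsFiniteMeasure W := ⟨h.fin⟩
    have hX1 : ContDiff ℝ 1 fun p : Euc k => ContinuousLinearMap.adjoint π (ξ (π p)) :=
      (ContinuousLinearMap.adjoint π).contDiff.comp
        ((hξ.of_le (by exact_mod_cast le_top)).comp π.contDiff)
    have hz : ∀ p : Euc k, R ≤ ‖π p - x₀‖ → ContinuousLinearMap.adjoint π (ξ (π p)) = 0 := by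
      intro p hp
      have h1 : π p ∉ tsupport ξ := by
        intro h2
        have h3 := hξR h2
        rw [mem_ball, dist_eq_norm] at h3
        linarith
      rw [image_eq_zero_of_notMem_tsupport h1, map_zero]
    refine (h.fv _ hX1 hz).trans ?_
    -- pointwise bound of the error
    obtain ⟨K, hK⟩ : ∃ K, ∀ x, ‖fderiv ℝ ξ x‖ + ‖ξ x‖ ≤ K := by
      have h1 : HasCompactSupport fun x => ‖fderiv ℝ ξ x‖ + ‖ξ x‖ := by
        have h2 : HasCompactSupport (fderiv ℝ ξ) := hξc.fderiv (𝕜 := ℝ)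
        exact h2.norm.add hξc.norm
      have h3 : Continuous fun x => ‖fderiv ℝ ξ x‖ + ‖ξ x‖ :=
        ((hξ.continuous_fderiv (by simp)).norm).add hξ.continuous.norm
      obtain ⟨K, hK⟩ := h1.exists_bound_of_continuous h3
      exact ⟨K, fun x => (le_abs_self _).trans (hK x)⟩
    have hpt : ∀ᵐ p ∂W, err π δ (fun p => ContinuousLinearMap.adjoint π (ξ (π p))) p ≤
        wg π δ (fun z => ‖vp π z‖ ^ 2) p * (‖fderiv ℝ ξ (π p.1)‖ + ‖ξ (π p.1)‖) := by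
      filter_upwards [h.conc] with p hp
      have hd : fderiv ℝ (fun p : Euc k => ContinuousLinearMap.adjoint π (ξ (π p))) p.1 =
          ContinuousLinearMap.adjoint π ∘L fderiv ℝ ξ (π p.1) ∘L π := by
        have e1 : HasFDerivAt ξ (fderiv ℝ ξ (π p.1)) (π p.1) :=
          (hξ.differentiable (by simp) _).hasFDerivAt
        exact ((ContinuousLinearMap.adjoint π).hasFDerivAt.comp p.1
          (e1.comp p.1 π.hasFDerivAt)).fderiv
      unfold err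
      rw [hd]
      exact errA_horizontal_le h.sp.hh hδ (isPr_of_G hp) _ _ _
    have hq : ∀ᵐ p ∂W, ‖vp π p.1‖ ^ 2 ≤ h₀ ^ 2 := by
      filter_upwards [h.hgt] with p hp
      rw [Th_164.norm_vp_eq h.sp]
      exact pow_le_pow_left₀ (norm_nonneg _) hp 2
    have hint : Integrable (fun p : Euc k × L k =>
        wg π δ (fun z => ‖vp π z‖ ^ 2) p * (‖fderiv ℝ ξ (π p.1)‖ + ‖ξ (π p.1)‖)) W := by
      have hmeas : Measurable fun p : Euc k × L k =>
          wg π δ (fun z => ‖vp π z‖ ^ 2) p * (‖fderiv ℝ ξ (π p.1)‖ + ‖ξ (π p.1)‖) := by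
        have e1 : Measurable fun p : Euc k × L k => tl π p.2 := measurable_tl2 π
        have e2 : Continuous fun p : Euc k × L k => ‖vp π p.1‖ ^ 2 :=
          ((vp π).continuous.comp continuous_fst).norm.pow 2
        have e3 : Continuous fun p : Euc k × L k => ‖fderiv ℝ ξ (π p.1)‖ + ‖ξ (π p.1)‖ :=
          ((hξ.continuous_fderiv (by simp)).comp (π.continuous.comp continuous_fst)).norm.add
            (hξ.continuous.comp (π.continuous.comp continuous_fst)).norm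
        unfold wg
        exact ((e1.add e2.measurable).const_mul δ).mul e3.measurable
      refine Integrable.of_bound hmeas.aestronglyMeasurable (δ * (m + h₀ ^ 2) * K) ?_
      filter_upwards [h.conc, hq] with p hp hp2
      have e1 := tl_nonneg h.sp.hh (isPr_of_G hp)
      have e2 := tl_le h.sp.hh (isPr_of_G hp)
      have e3 : 0 ≤ ‖fderiv ℝ ξ (π p.1)‖ + ‖ξ (π p.1)‖ := by positivity
      have e4 : 0 ≤ wg π δ (fun z => ‖vp π z‖ ^ 2) p := by
        unfold wg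
        positivity
      rw [Real.norm_eq_abs, abs_of_nonneg (mul_nonneg e4 e3)]
      have e5 : wg π δ (fun z => ‖vp π z‖ ^ 2) p ≤ δ * (m + h₀ ^ 2) := by
        unfold wg
        exact mul_le_mul_of_nonneg_left (add_le_add e2 hp2) hδ
      exact mul_le_mul e5 (hK _) e3 (e4.trans e5)
    have hnn : ∀ᵐ p ∂W, 0 ≤ err π δ (fun p => ContinuousLinearMap.adjoint π (ξ (π p))) p := by
      filter_upwards [h.conc] with p hp
      have e1 := tl_nonneg h.sp.hh (isPr_of_G hp)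
      unfold err errA
      positivity
    exact integral_mono_of_nonneg hnn hint hpt

/-- **(MASS)** for varifolds. -/
theorem mass_setup (m : ℕ) {C₀ : ℝ} (hC₀ : 0 ≤ C₀) :
    ∃ δ₁ : ℝ, 0 < δ₁ ∧ δ₁ ≤ 1 ∧ ∃ C' : ℝ, 0 < C' ∧
      ∀ (k : ℕ) (π : Euc k →L[ℝ] Euc m) (W : Measure (Euc k × L k)) (R : Set (Euc m))
        (N : Euc m → ℝ≥0∞) (δ h : ℝ) (q : Euc k → ℝ), Setup π W R N δ h q → δ * h ≤ δ₁ →
        ∀ (x : Euc m) (t ρ₀ : ℝ), 0 < ρ₀ → ball x (4 * ρ₀) ⊆ R → δ * (m + h) * ρ₀ ≤ δ₁ →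
          W (ov π (ball x (4 * ρ₀))) ≤ ENNReal.ofReal (C₀ * ρ₀ ^ m) →
          (∀ ρ, 0 < ρ → t ≤ ρ → ρ ≤ 4 * ρ₀ → (eM W π).real (ball x ρ) ≤ δ₁ * ρ ^ m) →
          ∀ r, 0 < r → t ≤ r → r ≤ ρ₀ → W (ov π (ball x r)) ≤ ENNReal.ofReal (C' * r ^ m) := by
  obtain ⟨c₁, hc, hc', δ₁, hδ, hδ', C', hC', hT⟩ :=
    mass_down (sc2 m) (show (0 : ℝ) ≤ m + 2 by positivity) hC₀
  refine ⟨min δ₁ (c₁ / 2), by positivity, (min_le_left _ _).trans hδ', C', hC', ?_⟩
  intro k π W R N δ h q hS hδh x t ρ₀ hρ hR hgρ hμ he r hr htr hrρ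
  have := hS.fin
  have hH := hyp_of hS.co hS.conc hS.isOpen hS.area hS.δ_nonneg hS.δ_le
    (show 0 ≤ c₁ / 2 by positivity) hS.h_nonneg hS.q_meas hS.q_nonneg hS.q_le hS.fv
  have hmuM : ∀ s, muM W π (ball x s) = W (ov π (ball x s)) := fun s =>
    muM_apply W measurableSet_ball
  have hδh0 : 0 ≤ δ * h := mul_nonneg hS.δ_nonneg hS.h_nonneg
  have hmain := hT (c₁ / 2 + δ * h) (δ * (m + h)) R (fun x => (N x).toReal) (muM W π)
    (wM W π (we π δ q)) (wM W π (ws π (c₁ / 2))) (wM W π (wg π δ q)) (by positivity)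
    (by linarith [hδh.trans (min_le_right _ _)])
    (mul_nonneg hS.δ_nonneg (add_nonneg (Nat.cast_nonneg _) hS.h_nonneg)) hH x t ρ₀ hρ hR
    (hgρ.trans (min_le_left _ _)) (by rw [hmuM]; exact hμ) ?_ r hr htr hrρ
  · rwa [hmuM] at hmain
  · intro ρ h1 h2 h3
    have h4 : wM W π (ws π (c₁ / 2)) (ball x ρ) ≤ eM W π (ball x ρ) := by
      rw [wM_apply W _ measurableSet_ball]
      unfold eM
      rw [bm_apply _ _ _ measurableSet_ball]
      refine lintegral_mono_ae (ae_restrict_of_ae ?_)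
      filter_upwards [hS.conc] with p hp
      refine ENNReal.ofReal_le_ofReal ?_
      unfold ws
      by_cases hs : p ∈ {p : Euc k × L k | c₁ / 2 < tl π p.2}
      · rw [Set.indicator_of_mem hs]
      · rw [Set.indicator_of_notMem hs]
        exact tl_nonneg hS.co (isPr_of_G hp)
    have h5 : eM W π (ball x ρ) ≠ ⊤ := by
      unfold eM
      rw [bm_apply _ _ _ measurableSet_ball]
      refine ne_of_lt ((setLIntegral_le_lintegral _ _).trans_lt ?_)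
      calc ∫⁻ p, ENNReal.ofReal (tl π p.2) ∂W ≤ ∫⁻ _p, ENNReal.ofReal m ∂W := by
            refine lintegral_mono_ae ?_
            filter_upwards [hS.conc] with p hp
            exact ENNReal.ofReal_le_ofReal (tl_le hS.co (isPr_of_G hp))
        _ < ⊤ := by
            rw [lintegral_const]
            exact ENNReal.mul_lt_top ENNReal.ofReal_lt_top (measure_lt_top _ _)
    refine h4.trans ?_
    rw [← ENNReal.ofReal_toReal h5]
    apply ENNReal.ofReal_le_ofReal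
    refine (he ρ h1 h2 h3).trans ?_
    exact mul_le_mul_of_nonneg_right (min_le_left _ _) (by positivity)

end Crest.Agent.R234.Hol_746
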