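import Crest.Agent.R234.Cp3_914
import Crest.Agent.R234.Vc1_164
import Crest.Agent.R234.Vf0_884
import Crest.Agent.R234.AS_456
import Crest.Agent.R234.Cy5_870

-- ▼ part R234/Cp4_914
section

/-!
Conversion from `Vc_164.VConv`, and the product form `X = Euc k × L k` for varifolds concentrated
on the Grassmannian (row 234, helper914).
-/

set_option autoImplicit false
set_option linter.unusedSectionVars false
set_option linter.unusedVariables false

open MeasureTheory Filter Topology Set Crest.GeometryTopology.Submanifold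
open scoped CompactlySupported ENNReal NNReal

namespace Crest.Agent.R234.Cp914

open Crest.Agent.R234.Vf_884


variable {m k : ℕ} {ι : Type*} {F : Filter ι}

/-- varifold convergence in `U`: the measures are carried by `Euc k × G m k`. -/
structure VfConv (m k : ℕ) (U : Set (Euc k)) (F : Filter ι) (V : ι → Measure (Euc k × L k))
    (V₀ : Measure (Euc k × L k)) : Prop where
  conv : VConv (U ×ˢ (univ : Set (L k))) F V V₀
  conc : ∀ᶠ i in F, V i ((univ : Set (Euc k)) ×ˢ G m k)ᶜ = 0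
  conc₀ : V₀ ((univ : Set (Euc k)) ×ˢ G m k)ᶜ = 0

theorem compl_univ_prod (S : Set (L k)) :
    ((univ : Set (Euc k)) ×ˢ S)ᶜ = {p | p.2 ∉ S} := by
  ext p; simp

theorem ae_G_iff {V : Measure (Euc k × L k)} :
    (∀ᵐ p ∂V, p.2 ∈ G m k) ↔ V ((univ : Set (Euc k)) ×ˢ G m k)ᶜ = 0 := by
  rw [ae_iff, compl_univ_prod]

/-- **Varifold compactness along ultrafilters.** -/
theorem exists_vfconv {U : Set (Euc k)} (hU : IsOpen U) (𝒰 : Ultrafilter ι)
    (V : ι → Measure (Euc k × L k))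
    (hG : ∀ᶠ i in (𝒰 : Filter ι), ∀ᵐ p ∂(V i), p.2 ∈ G m k)
    (hb : ∀ K ⊆ U, IsCompact K → ∃ C : ℝ, ∀ᶠ i in (𝒰 : Filter ι),
      V i (K ×ˢ univ) ≤ ENNReal.ofReal C) :
    ∃ V₀ : Measure (Euc k × L k), V₀ (U ×ˢ univ)ᶜ = 0 ∧
      VfConv m k U (𝒰 : Filter ι) V V₀ := by
  have hO : IsOpen (U ×ˢ (univ : Set (L k))) := hU.prod isOpen_univ
  obtain ⟨V₀, h0, hconv⟩ := exists_vconv hO 𝒰 V (by
    intro K hK hc
    obtain ⟨C, hC⟩ := hb (Prod.fst '' K) (by rintro _ ⟨p, hp, rfl⟩; exact (hK hp).1)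
      (hc.image continuous_fst)
    refine ⟨C, hC.mono fun i hi => le_trans (measure_mono ?_) hi⟩
    intro p hp
    exact ⟨⟨p, hp, rfl⟩, mem_univ _⟩)
  have hS : IsClosed ((univ : Set (Euc k)) ×ˢ G m k) := isClosed_univ.prod (isClosed_G m k)
  have hconc : ∀ᶠ i in (𝒰 : Filter ι), V i ((univ : Set (Euc k)) ×ˢ G m k)ᶜ = 0 :=
    hG.mono fun i hi => ae_G_iff.1 hi
  refine ⟨V₀, h0, hconv, hconc, ?_⟩
  have h1 : V₀ (((univ : Set (Euc k)) ×ˢ G m k)ᶜ ∩ U ×ˢ univ) = 0 :=
    hconv.carrier hO hS (hconc.mono fun i hi => measure_mono_null inter_subset_left hi)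
  have h2 : ((univ : Set (Euc k)) ×ˢ G m k)ᶜ ⊆
      (((univ : Set (Euc k)) ×ˢ G m k)ᶜ ∩ U ×ˢ univ) ∪ (U ×ˢ univ)ᶜ := by
    intro p hp
    by_cases hpU : p ∈ U ×ˢ (univ : Set (L k))
    · exact Or.inl ⟨hp, hpU⟩
    · exact Or.inr hpU
  exact measure_mono_null h2 (measure_union_null h1 h0)

variable {U : Set (Euc k)} {V : ι → Measure (Euc k × L k)} {V₀ : Measure (Euc k × L k)}

/-- test functions on `Euc k × L k` with compact support in the first variable only. -/
theorem VfConv.tendsto (h : VfConv m k U F V V₀) (hU : IsOpen U) {f : Euc k × L k → ℝ}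
    (hf : Continuous f) {K : Set (Euc k)} (hK : IsCompact K) (hKU : K ⊆ U)
    (hfK : ∀ x ∉ K, ∀ P, f (x, P) = 0) :
    Tendsto (fun i => ∫ p, f p ∂(V i)) F (𝓝 (∫ p, f p ∂V₀)) := by
  refine h.conv.tendsto_carrier (hU.prod isOpen_univ) h.conc h.conc₀ hf
    (hK.prod (isCompact_G m k)) (prod_mono hKU (subset_univ _)) ?_
  rintro ⟨x, P⟩ ⟨-, hP⟩ hx
  refine hfK x (fun hxK => hx ⟨hxK, hP⟩) P

/-- the mass measures converge. -/
theorem VfConv.fst (h : VfConv m k U F V V₀) (hU : IsOpen U) :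
    VConv U F (fun i => (V i).map Prod.fst) (V₀.map Prod.fst) where
  fin K hK hc := by
    have h1 : IsCompact (K ×ˢ G m k) := hc.prod (isCompact_G m k)
    filter_upwards [h.conv.fin _ (prod_mono hK (subset_univ (G m k))) h1, h.conc] with i hi hi'
    rw [Measure.map_apply measurable_fst hc.measurableSet]
    refine lt_of_le_of_lt (measure_mono (t := (K ×ˢ G m k) ∪ ((univ : Set (Euc k)) ×ˢ G m k)ᶜ)
      ?_) ((measure_union_le _ _).trans_lt ?_)
    · rintro ⟨x, P⟩ hx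
      by_cases hP : P ∈ G m k
      · exact Or.inl ⟨hx, hP⟩
      · exact Or.inr fun h => hP h.2
    · rw [hi', add_zero]; exact hi
  fin' K hK hc := by
    have h1 : IsCompact (K ×ˢ G m k) := hc.prod (isCompact_G m k)
    have hi := h.conv.fin' _ (prod_mono hK (subset_univ (G m k))) h1
    rw [Measure.map_apply measurable_fst hc.measurableSet]
    refine lt_of_le_of_lt (measure_mono (t := (K ×ˢ G m k) ∪ ((univ : Set (Euc k)) ×ˢ G m k)ᶜ)
      ?_) ((measure_union_le _ _).trans_lt ?_)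
    · rintro ⟨x, P⟩ hx
      by_cases hP : P ∈ G m k
      · exact Or.inl ⟨hx, hP⟩
      · exact Or.inr fun h => hP h.2
    · rw [h.conc₀, add_zero]; exact hi
  tendsto f hf hc hs := by
    have e : ∀ W : Measure (Euc k × L k), ∫ x, f x ∂(W.map Prod.fst) = ∫ p, f p.1 ∂W := by
      intro W
      exact integral_map measurable_fst.aemeasurable
        (hf.stronglyMeasurable_of_hasCompactSupport hc).aestronglyMeasurable
    rw [e]
    simp_rw [e]
    refine h.tendsto hU (hf.comp continuous_fst) hc hs ?_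
    intro x hx P
    exact image_eq_zero_of_notMem_tsupport hx


/-- the first variations converge. -/
theorem VfConv.tendsto_firstVariation (h : VfConv m k U F V V₀) (hU : IsOpen U)
    {X : Euc k → Euc k} (hX : ContDiff ℝ 1 X) (hc : HasCompactSupport X)
    (hs : tsupport X ⊆ U) :
    Tendsto (fun i => ∫ p, tr ((fderiv ℝ X p.1) ∘L p.2) ∂(V i)) F
      (𝓝 (∫ p, tr ((fderiv ℝ X p.1) ∘L p.2) ∂V₀)) := by
  refine h.tendsto hU (f := fun p => tr ((fderiv ℝ X p.1) ∘L p.2)) ?_ hc hs ?_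
  · exact tr.continuous.comp
      (((hX.continuous_fderiv one_ne_zero).comp continuous_fst).clm_comp continuous_snd)
  · intro x hx P
    have h0 : fderiv ℝ X x = 0 := by
      have : x ∉ tsupport (fderiv ℝ X) := fun h' => hx (tsupport_fderiv_subset ℝ h')
      exact image_eq_zero_of_notMem_tsupport this
    simp only [h0]
    simp

/-- **Limits of (approximately) stationary varifolds are stationary.** -/
theorem VfConv.stat [F.NeBot] (h : VfConv m k U F V V₀) (hU : IsOpen U)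
    (hst : ∀ X : Euc k → Euc k, ContDiff ℝ 1 X → HasCompactSupport X → tsupport X ⊆ U →
      Tendsto (fun i => ∫ p, tr ((fderiv ℝ X p.1) ∘L p.2) ∂(V i)) F (𝓝 0)) :
    Stat m k U V₀ where
  conc := ae_G_iff.2 h.conc₀
  fin K hK hKU := by
    have := (h.fst hU).fin' K hKU hK
    rw [Measure.map_apply measurable_fst hK.measurableSet] at this
    refine lt_of_le_of_lt (measure_mono ?_) this
    rintro ⟨x, P⟩ hx
    exact hx.1
  stat X hX hc hs := tendsto_nhds_unique (h.tendsto_firstVariation hU hX hc hs) (hst X hX hc hs)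


end Crest.Agent.R234.Cp914
end

-- ▼ part R234/La1_300

/-! Row 234, VF-LOGAS (task 1612, helper300), part 1: the class `App` of approximately stationary
varifolds with an error which is stable under all zooms `0 < s ≤ 1`, and `AS_456.AS → App` on a
solid cylinder with a gap in heights. -/

set_option autoImplicit false
set_option linter.unusedSectionVars false

open MeasureTheory Filter Topology Set
open Crest.GeometryTopology.Submanifold Crest.Agent.R234.Vf_884 Crest.Agent.R234.Ar_870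
open Crest.Agent.R234.Vc_164
open scoped ENNReal NNReal InnerProductSpace

noncomputable section

namespace Crest.Agent.R234.La_300

variable {m n k : ℕ}

/-- size of a test field. -/
def sz (X : Euc k → Euc k) (p : Euc k × L k) : ℝ := ‖fderiv ℝ X p.1‖ + ‖X p.1‖

/-- approximately stationary general `m`-varifolds in `U`. -/
structure App (m k : ℕ) (ω : ℝ) (U : Set (Euc k)) (V : Measure (Euc k × L k)) : Prop where
  conc : ∀ᵐ p ∂V, p.2 ∈ G m k
  fin : ∀ K : Set (Euc k), IsCompact K → K ⊆ U → V (K ×ˢ Set.univ) < ⊤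
  fv : ∀ X : Euc k → Euc k, ContDiff ℝ 1 X → HasCompactSupport X → tsupport X ⊆ U →
    |∫ p, tr ((fderiv ℝ X p.1) ∘L p.2) ∂V| ≤ ω * ∫ p, sz X p ∂V

variable {U U' : Set (Euc k)} {V : Measure (Euc k × L k)} {ω ω' : ℝ}


theorem sz_nonneg (X : Euc k → Euc k) (p : Euc k × L k) : 0 ≤ sz X p := by
  unfold sz; positivity

theorem App.mono (h : App m k ω U V) (hω : ω ≤ ω') : App m k ω' U V where
  conc := h.conc
  fin := h.fin
  fv X hX hXc hXU := (h.fv X hX hXc hXU).trans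
    (mul_le_mul_of_nonneg_right hω (integral_nonneg fun p => sz_nonneg X p))

theorem App.mono_set (h : App m k ω U V) (hU : U' ⊆ U) : App m k ω U' V where
  conc := h.conc
  fin K hK hKU := h.fin K hK (hKU.trans hU)
  fv X hX hXc hXU := h.fv X hX hXc (hXU.trans hU)

theorem continuous_sz {X : Euc k → Euc k} (hX : ContDiff ℝ 1 X) : Continuous (sz (k := k) X) := by
  unfold sz
  exact ((hX.continuous_fderiv one_ne_zero).comp continuous_fst).norm.add
    (hX.continuous.comp continuous_fst).norm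

theorem sz_eq_zero {X : Euc k → Euc k} {p : Euc k × L k} (hp : p.1 ∉ tsupport X) :
    sz X p = 0 := by
  have h1 : fderiv ℝ X p.1 = 0 := by
    by_contra h
    exact hp (support_fderiv_subset ℝ h)
  have h2 : X p.1 = 0 := image_eq_zero_of_notMem_tsupport hp
  simp [sz, h1, h2]

theorem integrable_sz (hc : ∀ᵐ p ∂V, p.2 ∈ G m k) {X : Euc k → Euc k} (hX : ContDiff ℝ 1 X)
    (hXc : HasCompactSupport X) (hV : V (tsupport X ×ˢ Set.univ) < ⊤) :
    Integrable (sz X) V :=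
  integrable_of_cont hc hXc hV (continuous_sz hX) fun _ h => sz_eq_zero h

/-- **zooms**: any centre, any scale `0 < s ≤ 1`. -/
theorem App.zoom (h : App m k ω U V) (hω : 0 ≤ ω) {s : ℝ} (hs : 0 < s) (hs1 : s ≤ 1)
    (z0 : Euc k) : App m k ω ((fun x => z0 + s • x) ⁻¹' U) (resc m z0 s V) where
  conc := resc_conc z0 s h.conc m
  fin K hK hKU := by
    rw [resc_prod_univ m z0 hs V hK.measurableSet]
    refine ENNReal.mul_lt_top ENNReal.ofReal_lt_top ?_
    refine h.fin _ (hK.image (by fun_prop)) ?_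
    rintro _ ⟨x, hx, rfl⟩
    exact hKU hx
  fv X hX hXc hXU := by
    rw [integral_resc m z0 hs V (continuous_tr_fderiv hX).aestronglyMeasurable,
      integral_resc m z0 hs V (continuous_sz hX).aestronglyMeasurable, abs_mul,
      abs_of_nonneg (by positivity : (0:ℝ) ≤ (s ^ m)⁻¹)]
    have hre : ω * ((s ^ m)⁻¹ * ∫ p, sz X (hom z0 s p) ∂V) =
        (s ^ m)⁻¹ * (ω * ∫ p, sz X (hom z0 s p) ∂V) := by ring
    rw [hre]
    refine mul_le_mul_of_nonneg_left ?_ (by positivity)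
    let Y : Euc k → Euc k := fun x => X (s⁻¹ • (x - z0))
    have hY : ContDiff ℝ 1 Y := hX.comp (by fun_prop)
    let e : Euc k ≃ₜ Euc k := (Homeomorph.subRight z0).trans (Homeomorph.smulOfNeZero s⁻¹
      (inv_ne_zero hs.ne'))
    have hYe : Y = X ∘ e := rfl
    have hYc : HasCompactSupport Y := by
      rw [hYe]
      exact hXc.comp_homeomorph e
    have hYU : tsupport Y ⊆ U := by
      rw [hYe, tsupport_comp_eq_preimage]
      intro x hx
      have h1 := hXU hx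
      simp only [mem_preimage] at h1
      have h2 : z0 + s • e x = x := by
        change z0 + s • (s⁻¹ • (x - z0)) = x
        rw [smul_smul, mul_inv_cancel₀ hs.ne', one_smul]
        abel
      rwa [h2] at h1
    have h1 := h.fv Y hY hYc hYU
    have h2 : ∀ x, fderiv ℝ Y x = s⁻¹ • fderiv ℝ X (s⁻¹ • (x - z0)) := by
      intro x
      have hd : DifferentiableAt ℝ X (s⁻¹ • (x - z0)) := hX.differentiable one_ne_zero _
      have h3 : HasFDerivAt (fun x : Euc k => s⁻¹ • (x - z0))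
          (s⁻¹ • ContinuousLinearMap.id ℝ (Euc k)) x :=
        ((hasFDerivAt_id x).sub_const z0).const_smul s⁻¹
      have h4 := hd.hasFDerivAt.comp x h3
      have h5 := h4.fderiv
      change fderiv ℝ (X ∘ fun x => s⁻¹ • (x - z0)) x = _
      rw [h5]
      ext y
      simp
    have h3 : ∀ p : Euc k × L k, tr ((fderiv ℝ X (hom z0 s p).1) ∘L (hom z0 s p).2) =
        s * tr ((fderiv ℝ Y p.1) ∘L p.2) := by
      intro p
      rw [h2, ContinuousLinearMap.smul_comp, map_smul, smul_eq_mul, ← mul_assoc,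
        mul_inv_cancel₀ hs.ne', one_mul]
      rfl
    simp_rw [h3]
    rw [integral_const_mul, abs_mul, abs_of_pos hs]
    have hXV : V (tsupport Y ×ˢ Set.univ) < ⊤ := h.fin _ hYc hYU
    calc s * |∫ p, tr ((fderiv ℝ Y p.1) ∘L p.2) ∂V| ≤ s * (ω * ∫ p, sz Y p ∂V) := by gcongr
      _ = ω * ∫ p, s * sz Y p ∂V := by rw [integral_const_mul]; ring
      _ ≤ ω * ∫ p, sz X (hom z0 s p) ∂V := by
        refine mul_le_mul_of_nonneg_left ?_ hω
        refine integral_mono ((integrable_sz h.conc hY hYc hXV).const_mul s) ?_ ?_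
        · refine integrable_of_cont (K := tsupport Y) h.conc hYc hXV
            ((continuous_sz hX).comp (continuous_hom z0 s)) fun p hp => ?_
          refine sz_eq_zero ?_
          intro hc
          apply hp
          rw [hYe, tsupport_comp_eq_preimage]
          exact hc
        · intro p
          change s * (‖fderiv ℝ Y p.1‖ + ‖Y p.1‖) ≤
            ‖fderiv ℝ X (s⁻¹ • (p.1 - z0))‖ + ‖X (s⁻¹ • (p.1 - z0))‖
          have h4 : ‖fderiv ℝ Y p.1‖ = s⁻¹ * ‖fderiv ℝ X (s⁻¹ • (p.1 - z0))‖ := by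
            rw [h2, norm_smul, norm_inv, Real.norm_of_nonneg hs.le]
          have h5 : ‖Y p.1‖ = ‖X (s⁻¹ • (p.1 - z0))‖ := rfl
          rw [h4, h5, mul_add, ← mul_assoc, mul_inv_cancel₀ hs.ne', one_mul]
          have : s * ‖X (s⁻¹ • (p.1 - z0))‖ ≤ 1 * ‖X (s⁻¹ • (p.1 - z0))‖ := by gcongr
          linarith

/-- limits of approximately stationary varifolds, errors tending to zero, are stationary. -/
theorem stat_of_app {ι : Type*} {F : Filter ι} [F.NeBot] {W : ι → Measure (Euc k × L k)}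
    {V₀ : Measure (Euc k × L k)} (h : Cp914.VfConv m k U F W V₀) (hU : IsOpen U) {w : ι → ℝ}
    (hw : Tendsto w F (𝓝 0)) (happ : ∀ᶠ i in F, App m k (w i) U (W i)) : Stat m k U V₀ := by
  refine h.stat hU fun X hX hc hs => ?_
  have h1 : Tendsto (fun i => ∫ p, sz X p ∂(W i)) F (𝓝 (∫ p, sz X p ∂V₀)) :=
    h.tendsto hU (continuous_sz hX) hc hs fun x hx P => sz_eq_zero hx
  have h2 : Tendsto (fun i => w i * ∫ p, sz X p ∂(W i)) F (𝓝 0) := by
    simpa using hw.mul h1
  refine squeeze_zero_norm' ?_ h2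
  filter_upwards [happ] with i hi
  exact hi.fv X hX hc hs

/-! ### from `AS` -/

theorem norm_hp_le {π : Euc k →L[ℝ] Euc m} (hπ : IsCo π) : ‖AS_456.hp π‖ ≤ 1 := by
  refine ContinuousLinearMap.opNorm_le_bound _ zero_le_one fun x => ?_
  change ‖ContinuousLinearMap.adjoint π (π x)‖ ≤ 1 * ‖x‖
  rw [norm_adjoint_co hπ, one_mul]
  have h1 : ‖π x‖ ^ 2 ≤ ‖x‖ * ‖π x‖ := by
    rw [← real_inner_self_eq_norm_sq, ← ContinuousLinearMap.adjoint_inner_left,
      real_inner_comm]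
    refine (real_inner_le_norm _ _).trans ?_
    rw [norm_adjoint_co hπ]
  rcases eq_or_lt_of_le (norm_nonneg (π x)) with h0 | h0
  · rw [← h0]; exact norm_nonneg _
  · rw [sq] at h1
    exact le_of_mul_le_mul_right h1 h0

theorem hp_sq {π : Euc k →L[ℝ] Euc m} (hπ : IsCo π) (x : Euc k) :
    ‖x‖ ^ 2 = ‖AS_456.hp π x‖ ^ 2 + ‖AS_456.vp π x‖ ^ 2 := by
  have hid : AS_456.hp π (AS_456.hp π x) = AS_456.hp π x := by
    change ContinuousLinearMap.adjoint π (π (ContinuousLinearMap.adjoint π (π x))) = _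
    have : π (ContinuousLinearMap.adjoint π (π x)) = π x :=
      congrArg (fun T : Euc m →L[ℝ] Euc m => T (π x)) hπ
    rw [this]; rfl
  have hsym : ∀ a b, ⟪AS_456.hp π a, b⟫_ℝ = ⟪a, AS_456.hp π b⟫_ℝ := by
    intro a b
    change ⟪ContinuousLinearMap.adjoint π (π a), b⟫_ℝ = ⟪a, ContinuousLinearMap.adjoint π (π b)⟫_ℝ
    rw [ContinuousLinearMap.adjoint_inner_left, ContinuousLinearMap.adjoint_inner_right]
  have h1 : ‖AS_456.hp π x‖ ^ 2 = ⟪x, AS_456.hp π x⟫_ℝ := by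
    rw [← real_inner_self_eq_norm_sq, hsym, hid]
  have h2 : AS_456.vp π x = x - AS_456.hp π x := rfl
  rw [h2, norm_sub_sq_real, h1]
  ring

theorem norm_vp_le {π : Euc k →L[ℝ] Euc m} (hπ : IsCo π) : ‖AS_456.vp π‖ ≤ 1 := by
  refine ContinuousLinearMap.opNorm_le_bound _ zero_le_one fun x => ?_
  rw [one_mul]
  have := hp_sq hπ x
  nlinarith [norm_nonneg (AS_456.vp π x), norm_nonneg x, sq_nonneg ‖AS_456.hp π x‖]

theorem norm_vp_eq {π : Euc k →L[ℝ] Euc m} {κ : Euc k →L[ℝ] Euc n} (h : Cy_870.Split π κ)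
    (x : Euc k) : ‖AS_456.vp π x‖ = ‖κ x‖ := by
  have h1 := hp_sq h.hh x
  have h2 := h.norm_sq x
  have h3 : ‖AS_456.hp π x‖ = ‖π x‖ := norm_adjoint_co h.hh (π x)
  rw [h3] at h1
  have h4 : ‖AS_456.vp π x‖ ^ 2 = ‖κ x‖ ^ 2 := by linarith
  exact (sq_eq_sq₀ (norm_nonneg _) (norm_nonneg _)).1 h4

/-- the error of `AS` is bounded by `20 (m+1) (δ + √δ) sz X` at bounded heights. -/
theorem err_le {π : Euc k →L[ℝ] Euc m} (hπ : IsCo π) {δ : ℝ} (hδ : 0 ≤ δ) (X : Euc k → Euc k)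
    {p : Euc k × L k} (hp : p.2 ∈ G m k) (hy : ‖AS_456.vp π p.1‖ ≤ 1) :
    AS_456.err π δ X p ≤ 20 * (m + 1) * (δ + √δ) * sz X p := by
  have h0 := tl_nonneg hπ (isPr_of_G hp)
  have h1 := tl_le hπ (isPr_of_G hp)
  have hs : √(tl π p.2) ≤ m + 1 := by
    rw [Real.sqrt_le_left (by positivity)]
    nlinarith [(Nat.cast_nonneg m : (0:ℝ) ≤ m)]
  have hsn := Real.sqrt_nonneg (tl π p.2)
  have hy0 := norm_nonneg (AS_456.vp π p.1)
  have hcomp : ∀ B C : L k, ‖B‖ ≤ 1 → ‖C‖ ≤ 1 →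
      ‖B ∘L fderiv ℝ X p.1 ∘L C‖ ≤ ‖fderiv ℝ X p.1‖ := by
    intro B C hB hC
    calc ‖B ∘L fderiv ℝ X p.1 ∘L C‖ ≤ ‖B‖ * (‖fderiv ℝ X p.1‖ * ‖C‖) :=
          (ContinuousLinearMap.opNorm_comp_le _ _).trans
            (mul_le_mul_of_nonneg_left (ContinuousLinearMap.opNorm_comp_le _ _) (norm_nonneg _))
      _ ≤ 1 * (‖fderiv ℝ X p.1‖ * 1) := by gcongr
      _ = _ := by ring
  have happ : ∀ B : L k, ‖B‖ ≤ 1 → ‖B (X p.1)‖ ≤ ‖X p.1‖ := by
    intro B hB
    calc ‖B (X p.1)‖ ≤ ‖B‖ * ‖X p.1‖ := B.le_opNorm _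
      _ ≤ 1 * ‖X p.1‖ := by gcongr
      _ = _ := one_mul _
  have hhp := norm_hp_le hπ
  have hvp := norm_vp_le hπ
  have a1 := hcomp _ _ hhp hhp
  have a2 := hcomp _ _ hhp hvp
  have a3 := hcomp _ _ hvp hhp
  have a4 := hcomp _ _ hvp hvp
  have b1 := happ _ hhp
  have b2 := happ _ hvp
  have hsd := Real.sqrt_nonneg δ
  set D := ‖fderiv ℝ X p.1‖ with hD
  set N := ‖X p.1‖ with hN
  have hD0 : 0 ≤ D := norm_nonneg _
  have hN0 : 0 ≤ N := norm_nonneg _
  have hm0 : (0 : ℝ) ≤ m := Nat.cast_nonneg m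
  have hsz : sz X p = D + N := rfl
  have hyy : ‖AS_456.vp π p.1‖ ^ 2 ≤ 1 := by
    rw [sq]; exact mul_le_one₀ hy hy0 hy
  have t1 : δ * (tl π p.2 + ‖AS_456.vp π p.1‖ ^ 2) *
      (‖AS_456.hp π ∘L fderiv ℝ X p.1 ∘L AS_456.hp π‖ + ‖AS_456.hp π (X p.1)‖) ≤
      δ * (m + 1) * (D + N) := by gcongr
  have t2 : δ * (√(tl π p.2) + ‖AS_456.vp π p.1‖) *
      (‖AS_456.hp π ∘L fderiv ℝ X p.1 ∘L AS_456.vp π‖ +
        ‖AS_456.vp π ∘L fderiv ℝ X p.1 ∘L AS_456.hp π‖ + ‖AS_456.vp π (X p.1)‖) ≤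
      δ * ((m + 1) + 1) * (D + D + N) := by gcongr
  have t3 : δ * (tl π p.2 + ‖AS_456.vp π p.1‖ * √(tl π p.2)) *
      ‖AS_456.vp π ∘L fderiv ℝ X p.1 ∘L AS_456.vp π‖ ≤ δ * (m + 1 * (m + 1)) * D := by gcongr
  have t4 : √δ * tl π p.2 * ‖AS_456.vp π (X p.1)‖ ≤ √δ * m * N := by gcongr
  have hsum : AS_456.err π δ X p ≤ δ * (m + 1) * (D + N) + δ * ((m + 1) + 1) * (D + D + N) +
      δ * (m + 1 * (m + 1)) * D + √δ * m * N := by
    unfold AS_456.err AS_456.errA
    linarith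
  refine hsum.trans ?_
  rw [hsz]
  have c1 : 0 ≤ δ * D := mul_nonneg hδ hD0
  have c2 : 0 ≤ δ * N := mul_nonneg hδ hN0
  have c3 : 0 ≤ √δ * D := mul_nonneg hsd hD0
  have c4 : 0 ≤ √δ * N := mul_nonneg hsd hN0
  have c5 : 0 ≤ m * (δ * D) := mul_nonneg hm0 c1
  have c6 : 0 ≤ m * (δ * N) := mul_nonneg hm0 c2
  have c7 : 0 ≤ m * (√δ * D) := mul_nonneg hm0 c3
  have c8 : 0 ≤ m * (√δ * N) := mul_nonneg hm0 c4
  nlinarith


end Crest.Agent.R234.La_300
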