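import Mathlib
import Crest.Agent.R234.N5a_372
import Crest.Agent.R234.Vf8_884
import Crest.Agent.R234.Hol5_746
import Crest.Agent.R234.La1_300
import Crest.Agent.R234.Pers3_540

-- ▼ part R234/Hol1_746
section

/-!
# Hole lemma (5): abstract covering argument

`e` = tilt energy, `eL` = tilt energy in the directions of `L`, `q` = quartic energy
(all pushed to the base).  Around a point `x` the radius used is the LAST radius `R ≤ s` with
`ε R ^ m ≤ e (B_R x)`; above it doubling is automatic.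
-/

open MeasureTheory Metric Set
open scoped ENNReal

namespace Crest.Agent.R234.Hol_746

variable {X : Type*} [PseudoMetricSpace X] [MeasurableSpace X]

/-- Last radius. -/
theorem exists_last (e : Measure X) [IsFiniteMeasure e] (m : ℕ) (x : X) {s ε : ℝ}
    (hε : 0 < ε) (h : ∃ r, 0 < r ∧ r ≤ s ∧ ε * r ^ m ≤ e.real (ball x r)) :
    ∃ R, 0 < R ∧ R ≤ s ∧ ε * R ^ m ≤ e.real (ball x R) ∧
      ∀ r, R < r → r ≤ s → e.real (ball x r) < ε * r ^ m := by
  classical
  set S : Set ℝ := {r | 0 < r ∧ r ≤ s ∧ ε * r ^ m ≤ e.real (ball x r)} with hS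
  obtain ⟨r0, hr0, hr0s, hr0e⟩ := h
  have hne : S.Nonempty := ⟨r0, hr0, hr0s, hr0e⟩
  have hbdd : BddAbove S := ⟨s, fun r hr => hr.2.1⟩
  have hR0 : r0 ≤ sSup S := le_csSup hbdd ⟨hr0, hr0s, hr0e⟩
  have hRpos : 0 < sSup S := lt_of_lt_of_le hr0 hR0
  have hRs : sSup S ≤ s := csSup_le hne fun r hr => hr.2.1
  refine ⟨sSup S, hRpos, hRs, ?_, ?_⟩
  · by_contra hcon
    push Not at hcon
    have hcont : ContinuousAt (fun r : ℝ => ε * r ^ m) (sSup S) := by fun_prop
    have hev := hcont.eventually (lt_mem_nhds hcon)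
    obtain ⟨δ, hδ, hball⟩ := Metric.eventually_nhds_iff.1 hev
    set R' := sSup S - min (δ / 2) (sSup S / 2) with hR'
    have hmin : 0 < min (δ / 2) (sSup S / 2) := by positivity
    have hR'lt : R' < sSup S := by linarith
    have hR'pos : 0 < R' := by
      have := min_le_right (δ / 2) (sSup S / 2)
      linarith
    have hd : dist R' (sSup S) < δ := by
      rw [Real.dist_eq, abs_sub_comm, abs_of_pos (by linarith)]
      have := min_le_left (δ / 2) (sSup S / 2)
      linarith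
    have h1 := hball hd
    obtain ⟨r, hrS, hr⟩ := exists_lt_of_lt_csSup hne hR'lt
    have h2 : ε * R' ^ m ≤ ε * r ^ m := by gcongr
    have h3 : e.real (ball x r) ≤ e.real (ball x (sSup S)) :=
      measureReal_mono (ball_subset_ball (le_csSup hbdd hrS))
    have := hrS.2.2
    linarith
  · intro r hr hrs
    by_contra hcon
    push Not at hcon
    exact absurd (le_csSup hbdd (show r ∈ S from ⟨hRpos.trans hr, hrs, hcon⟩)) (not_le.2 hr)

variable [OpensMeasurableSpace X] [SecondCountableTopology X]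

/-- Vitali summation: a local inequality at every point of `A` sums up. -/
theorem vit (ν₁ ν₂ : Measure X) (A Ω : Set X) (ρ : X → ℝ) (c : ℝ≥0∞) {S : ℝ}
    (hρ : ∀ x ∈ A, 0 < ρ x) (hρS : ∀ x ∈ A, ρ x ≤ S)
    (hsub : ∀ x ∈ A, ball x (ρ x) ⊆ Ω)
    (hloc : ∀ x ∈ A, ν₁ (ball x (6 * ρ x)) ≤ c * ν₂ (ball x (ρ x))) :
    ν₁ A ≤ c * ν₂ Ω := by
  obtain ⟨u, huA, hdisj, hcov⟩ :=
    Vitali.exists_disjoint_subfamily_covering_enlargement_closedBall A (fun x => x) ρ S hρS 5
      (by norm_num)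
  have hdisj' : u.PairwiseDisjoint fun x => ball x (ρ x) :=
    hdisj.mono fun x => ball_subset_closedBall
  have hcount : u.Countable :=
    hdisj'.countable_of_isOpen (fun x _ => isOpen_ball)
      (fun x hx => nonempty_ball.2 (hρ x (huA hx)))
  have hAsub : A ⊆ ⋃ x ∈ u, ball x (6 * ρ x) := by
    intro a ha
    obtain ⟨b, hb, hab⟩ := hcov a ha
    refine mem_iUnion₂.2 ⟨b, hb, ?_⟩
    have h1 : a ∈ closedBall b (5 * ρ b) := hab (mem_closedBall_self (hρ a ha).le)
    have h2 := hρ b (huA hb)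
    rw [mem_closedBall] at h1
    rw [mem_ball]
    linarith
  calc ν₁ A ≤ ν₁ (⋃ x ∈ u, ball x (6 * ρ x)) := measure_mono hAsub
    _ ≤ ∑' x : u, ν₁ (ball (x : X) (6 * ρ x)) := by
        have := hcount.to_subtype
        rw [biUnion_eq_iUnion]
        exact measure_iUnion_le _
    _ ≤ ∑' x : u, c * ν₂ (ball (x : X) (ρ x)) :=
        ENNReal.tsum_le_tsum fun x => hloc x (huA x.2)
    _ = c * ∑' x : u, ν₂ (ball (x : X) (ρ x)) := ENNReal.tsum_mul_left
    _ = c * ν₂ (⋃ x ∈ u, ball x (ρ x)) := by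
        rw [measure_biUnion hcount hdisj' fun x _ => measurableSet_ball]
    _ ≤ c * ν₂ Ω := by
        gcongr
        exact iUnion₂_subset fun x hx => hsub x (huA hx)

/-- The data of the hole lemma (constants frozen). -/
structure Data (m : ℕ) (e eL q : Measure X) (x0 : X) (s : ℝ)
    (CB C1 CD κ σ ω ε M K dA β : ℝ) : Prop where
  two_le : 2 ≤ m
  s_pos : 0 < s
  CB_nn : 0 ≤ CB
  C1_nn : 0 ≤ C1
  CD_nn : 0 ≤ CD
  κ_nn : 0 ≤ κ
  σ_pos : 0 < σ
  ω_pos : 0 < ω
  ε_pos : 0 < ε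
  M_pos : 1 ≤ M
  hεM : ε * (ω * M) ^ 2 = 1
  K_big : 13 ^ m < K * ω ^ 2
  hεσ : 13 ^ m * ε < σ ^ 2
  β_pos : 0 < β
  β_small : β * ε * (2 * M) ^ m ≤ dA
  qe : ∀ x r, q.real (ball x r) ≤ C1 * e.real (ball x r)
  LOG : ∀ y t, 0 < t → y ∈ ball x0 (3 / 2 * s) → 2 * M * t ≤ s / 2 →
    (∀ r, t < r → r ≤ s / 2 → e.real (ball y r) < σ ^ 2 * r ^ m) →
    σ ^ 2 * t ^ m ≤ e.real (ball y t) → eL.real (ball y (2 * M * t)) ≤ dA * t ^ m →
    K * M ^ (m - 2) * t ^ m ≤ e.real (ball y (M * t))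
  DV : ∀ y r h, 0 < h → h ≤ r → ball y (3 * r) ⊆ ball x0 (3 / 2 * s) → 3 * r ≤ s / 2 →
    (∀ y' ∈ ball y (2 * r), ∀ t, h ≤ t → t ≤ s / 2 → e.real (ball y' t) ≤ σ ^ 2 * t ^ m) →
    q.real (ball y r) ≤ CB * ((h / r) * √(e.real (ball y (2 * r)) * r ^ m) +
      σ * e.real (ball y (2 * r))) + κ * r ^ m
  LD : q {x | x ∈ ball x0 s ∧ ∀ r, 0 < r → r ≤ s → e.real (ball x r) < ε * r ^ m} ≤
    ENNReal.ofReal (CD * ε * e.real (ball x0 (2 * s)))
  TOP : e.real (ball x0 (2 * s)) < ε * (s / (6 * (2 * M + 12))) ^ m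

omit [OpensMeasurableSpace X] [SecondCountableTopology X] in
/-- The local estimate at a good point. -/
theorem Data.good {m : ℕ} {e eL q : Measure X} [IsFiniteMeasure e] [IsFiniteMeasure eL]
    [IsFiniteMeasure q] {x0 : X} {s CB C1 CD κ σ ω ε M K dA β : ℝ}
    (D : Data m e eL q x0 s CB C1 CD κ σ ω ε M K dA β) {x : X} (hx : x ∈ ball x0 s) {R : ℝ}
    (hR : 0 < R) (hRs' : 6 * (2 * M + 12) * R ≤ s) (hlow : ε * R ^ m ≤ e.real (ball x R))
    (hup : ∀ r, R < r → r ≤ s → e.real (ball x r) < ε * r ^ m)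
    (hgood : eL.real (ball x ((2 * M + 12) * R)) ≤ β * e.real (ball x R)) :
    q.real (ball x (6 * R)) ≤
      (CB * (9 ^ m * ω + 12 ^ m * σ) + κ * 6 ^ m / ε) * e.real (ball x R) := by
  have hε := D.ε_pos
  have hM := D.M_pos
  have hω := D.ω_pos
  have hσ := D.σ_pos
  have hM0 : 0 < M := by linarith
  have hMR : R ≤ M * R := by nlinarith
  have hRs : 84 * R ≤ s := by nlinarith
  have hMRs : 12 * (M * R) + 72 * R ≤ s := by nlinarith
  have hxd : dist x x0 < s := hx
  have hsub : ∀ t, t ≤ s → ball x t ⊆ ball x0 (2 * s) := fun t ht => by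
    apply ball_subset_ball'
    linarith
  set h := R / M with hh
  have hh0 : 0 < h := by positivity
  have hMh : M * h = R := by rw [hh]; field_simp
  have h2Mh : 2 * M * h = 2 * R := by rw [mul_assoc, hMh]
  have hhR : h ≤ R := by
    rw [hh, div_le_iff₀ hM0]
    nlinarith
  have heR : 0 < e.real (ball x R) := lt_of_lt_of_le (by positivity) hlow
  -- no tips
  have hnotip : ∀ y' ∈ ball x (2 * (6 * R)), ∀ t, h ≤ t → t ≤ s / 2 →
      e.real (ball y' t) ≤ σ ^ 2 * t ^ m := by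
    intro y' hy' t0 ht0 ht0s
    by_contra hcon
    push Not at hcon
    have hy'd : dist y' x < 12 * R := by
      have := mem_ball.1 hy'
      linarith
    obtain ⟨t, htpos, hts, htlow, htup⟩ := exists_last e m y' (s := s / 2) (ε := σ ^ 2)
      (by positivity) ⟨t0, hh0.trans_le ht0, ht0s, hcon.le⟩
    have htt0 : t0 ≤ t := by
      by_contra hc
      push Not at hc
      exact absurd (htup t0 hc ht0s) (not_lt.2 hcon.le)
    have hht : h ≤ t := ht0.trans htt0
    have hbig : ∀ r, R ≤ r → r ≤ s / 2 → e.real (ball y' r) ≤ ε * (13 * r) ^ m := by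
      intro r hr1 hr2
      calc e.real (ball y' r) ≤ e.real (ball x (r + 12 * R)) := by
            refine measureReal_mono (ball_subset_ball' ?_) (measure_ne_top _ _)
            linarith
        _ ≤ ε * (r + 12 * R) ^ m := (hup _ (by linarith) (by linarith)).le
        _ ≤ ε * (13 * r) ^ m :=
            mul_le_mul_of_nonneg_left (pow_le_pow_left₀ (by linarith) (by linarith) m) hε.le
    have htR : t < R := by
      by_contra hc
      push Not at hc
      have h1 := hbig t hc hts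
      have h2 : ε * (13 * t) ^ m = (13 ^ m * ε) * t ^ m := by rw [mul_pow]; ring
      have h3 : (13 ^ m * ε) * t ^ m < σ ^ 2 * t ^ m :=
        mul_lt_mul_of_pos_right D.hεσ (by positivity)
      linarith
    have hMtR : M * t ≤ M * R := mul_le_mul_of_nonneg_left htR.le hM0.le
    have hs1 : ball y' (2 * M * t) ⊆ ball x ((2 * M + 12) * R) := by
      apply ball_subset_ball'
      nlinarith
    have heL : eL.real (ball y' (2 * M * t)) ≤ dA * t ^ m := by
      calc eL.real (ball y' (2 * M * t)) ≤ eL.real (ball x ((2 * M + 12) * R)) :=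
            measureReal_mono hs1
        _ ≤ β * e.real (ball x R) := hgood
        _ ≤ β * e.real (ball x (2 * R)) := by
            have := D.β_pos
            have := measureReal_mono (μ := e) (ball_subset_ball (x := x) (show R ≤ 2 * R by linarith))
            gcongr
        _ ≤ β * (ε * (2 * R) ^ m) := by
            have := D.β_pos
            have := (hup (2 * R) (by linarith) (by linarith)).le
            gcongr
        _ = β * ε * (2 * M) ^ m * h ^ m := by
            rw [← hMh]; ring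
        _ ≤ dA * h ^ m := by
            have := D.β_small
            gcongr
        _ ≤ dA * t ^ m := by
            have h1 := D.β_small
            have h2 : 0 ≤ β * ε * (2 * M) ^ m := by
              have := D.β_pos
              positivity
            have h3 : h ^ m ≤ t ^ m := pow_le_pow_left₀ hh0.le hht m
            exact mul_le_mul_of_nonneg_left h3 (h2.trans h1)
    have h1 := D.LOG y' t htpos (by
      rw [mem_ball]
      have := dist_triangle y' x x0
      linarith) (by nlinarith) htup htlow heL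
    have hMt : R ≤ M * t := by rw [← hMh]; gcongr
    have h2 : e.real (ball y' (M * t)) ≤ ε * (13 * (M * t)) ^ m := hbig _ hMt (by linarith)
    obtain ⟨k, hk⟩ := Nat.exists_eq_add_of_le D.two_le
    have hMm : M ^ m = M ^ 2 * M ^ (m - 2) := by
      rw [← pow_add]; congr 1; omega
    have h4 : ε * M ^ 2 * ω ^ 2 = 1 := by rw [← D.hεM]; ring
    have htm : 0 < t ^ m := by positivity
    have hMm2 : 0 < M ^ (m - 2) := by positivity
    have h5 : K * (M ^ (m - 2) * t ^ m) ≤ (ε * M ^ 2) * 13 ^ m * (M ^ (m - 2) * t ^ m) := by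
      calc K * (M ^ (m - 2) * t ^ m) = K * M ^ (m - 2) * t ^ m := by ring
        _ ≤ ε * (13 * (M * t)) ^ m := h1.trans h2
        _ = _ := by rw [mul_pow, mul_pow, hMm]; ring
    have h6 : K ≤ (ε * M ^ 2) * 13 ^ m := le_of_mul_le_mul_right h5 (by positivity)
    have h7 : K * ω ^ 2 ≤ 13 ^ m := by
      calc K * ω ^ 2 ≤ (ε * M ^ 2) * 13 ^ m * ω ^ 2 := by gcongr
        _ = (ε * M ^ 2 * ω ^ 2) * 13 ^ m := by ring
        _ = 13 ^ m := by rw [h4, one_mul]
    have := D.K_big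
    linarith
  have hxs : ball x (3 * (6 * R)) ⊆ ball x0 (3 / 2 * s) := by
    apply ball_subset_ball'
    linarith
  have hDV := D.DV x (6 * R) h hh0 (by linarith) hxs (by linarith) hnotip
  have h12 : 2 * (6 * R) = 12 * R := by ring
  rw [h12] at hDV
  have he12 : e.real (ball x (12 * R)) ≤ 12 ^ m * e.real (ball x R) := by
    calc e.real (ball x (12 * R)) ≤ ε * (12 * R) ^ m := (hup _ (by linarith) (by linarith)).le
      _ = 12 ^ m * (ε * R ^ m) := by rw [mul_pow]; ring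
      _ ≤ _ := by gcongr
  have hsq : (h / (6 * R)) * √(e.real (ball x (12 * R)) * (6 * R) ^ m) ≤
      9 ^ m * ω * e.real (ball x R) := by
    have hle : e.real (ball x (12 * R)) * (6 * R) ^ m ≤
        (9 ^ m * (ω * M) * e.real (ball x R)) ^ 2 := by
      have hεi : (ω * M) ^ 2 * ε = 1 := by rw [mul_comm]; exact D.hεM
      have hRm : R ^ m ≤ (ω * M) ^ 2 * e.real (ball x R) := by
        calc R ^ m = (ω * M) ^ 2 * (ε * R ^ m) := by rw [← mul_assoc, hεi, one_mul]
          _ ≤ _ := by gcongr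
      calc e.real (ball x (12 * R)) * (6 * R) ^ m
          ≤ (12 ^ m * e.real (ball x R)) * (6 ^ m * R ^ m) := by
            rw [mul_pow]; gcongr
        _ ≤ (12 ^ m * e.real (ball x R)) * (6 ^ m * ((ω * M) ^ 2 * e.real (ball x R))) := by
            gcongr
        _ = 72 ^ m * ((ω * M) * e.real (ball x R)) ^ 2 := by
            have h72 : (72 : ℝ) ^ m = 12 ^ m * 6 ^ m := by rw [← mul_pow]; norm_num
            rw [h72]; ring
        _ ≤ 81 ^ m * ((ω * M) * e.real (ball x R)) ^ 2 := by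
            gcongr
            norm_num
        _ = _ := by
            have h81 : (81 : ℝ) ^ m = (9 ^ m) ^ 2 := by
              rw [← pow_mul, mul_comm m 2, pow_mul]; norm_num
            rw [h81]; ring
    have hs := Real.sqrt_le_sqrt hle
    rw [Real.sqrt_sq (by positivity)] at hs
    have hfrac : h / (6 * R) ≤ 1 / M := by
      rw [hh, div_le_div_iff₀ (by positivity) hM0]
      have : R / M * M = R := by field_simp
      rw [this]
      linarith
    calc (h / (6 * R)) * √(e.real (ball x (12 * R)) * (6 * R) ^ m)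
        ≤ (1 / M) * (9 ^ m * (ω * M) * e.real (ball x R)) := by gcongr
      _ = _ := by field_simp
  have hκ := D.κ_nn
  have hCB := D.CB_nn
  have hRm' : R ^ m ≤ e.real (ball x R) / ε := by
    rw [le_div_iff₀ hε]; linarith
  calc q.real (ball x (6 * R))
      ≤ CB * ((h / (6 * R)) * √(e.real (ball x (12 * R)) * (6 * R) ^ m) +
        σ * e.real (ball x (12 * R))) + κ * (6 * R) ^ m := hDV
    _ ≤ CB * (9 ^ m * ω * e.real (ball x R) + σ * (12 ^ m * e.real (ball x R))) +
        κ * (6 ^ m * (e.real (ball x R) / ε)) := by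
          have h6 : κ * (6 * R) ^ m ≤ κ * (6 ^ m * (e.real (ball x R) / ε)) := by
            rw [mul_pow]; gcongr
          have h7 : CB * ((h / (6 * R)) * √(e.real (ball x (12 * R)) * (6 * R) ^ m) +
              σ * e.real (ball x (12 * R))) ≤
              CB * (9 ^ m * ω * e.real (ball x R) + σ * (12 ^ m * e.real (ball x R))) := by
            gcongr
          exact add_le_add h7 h6
    _ = _ := by ring

/-- **Hole lemma, abstract form.** -/
theorem Data.hole {m : ℕ} {e eL q : Measure X} [IsFiniteMeasure e] [IsFiniteMeasure eL]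
    [IsFiniteMeasure q] {x0 : X} {s CB C1 CD κ σ ω ε M K dA β : ℝ}
    (D : Data m e eL q x0 s CB C1 CD κ σ ω ε M K dA β) :
    q.real (ball x0 s) ≤
      (CD * ε + CB * (9 ^ m * ω + 12 ^ m * σ) + κ * 6 ^ m / ε) * e.real (ball x0 (2 * s)) +
      C1 * (6 * (2 * M + 12)) ^ m / β * eL.real (ball x0 (2 * s)) := by
  classical
  have hε := D.ε_pos
  have hs := D.s_pos
  have hβ := D.β_pos
  have hC1 := D.C1_nn
  have hσ := D.σ_pos
  have hω := D.ω_pos
  have hκ := D.κ_nn
  have hCB := D.CB_nn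
  have hCD := D.CD_nn
  have hM := D.M_pos
  -- the radius
  have hsel : ∀ x, ∃ R : ℝ, (x ∈ ball x0 s → ¬ (∀ r, 0 < r → r ≤ s → e.real (ball x r) < ε * r ^ m) →
      0 < R ∧ 6 * (2 * M + 12) * R ≤ s ∧ ε * R ^ m ≤ e.real (ball x R) ∧
      ∀ r, R < r → r ≤ s → e.real (ball x r) < ε * r ^ m) := by
    intro x
    by_cases hx : x ∈ ball x0 s ∧ ¬ (∀ r, 0 < r → r ≤ s → e.real (ball x r) < ε * r ^ m)
    · obtain ⟨hx1, hx2⟩ := hx
      push Not at hx2
      obtain ⟨R, hR, hRs, hlow, hup⟩ := exists_last e m x hε hx2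
      refine ⟨R, fun _ _ => ⟨hR, ?_, hlow, hup⟩⟩
      by_contra hcon
      push Not at hcon
      have h1 : e.real (ball x R) ≤ e.real (ball x0 (2 * s)) := by
        refine measureReal_mono (ball_subset_ball' ?_) (measure_ne_top _ _)
        have := mem_ball.1 hx1
        linarith
      have h2 : ε * (s / (6 * (2 * M + 12))) ^ m ≤ ε * R ^ m := by
        have : s / (6 * (2 * M + 12)) ≤ R := by
          rw [div_le_iff₀ (by linarith)]
          linarith
        gcongr
      have := D.TOP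
      linarith
    · exact ⟨0, fun h1 h2 => absurd ⟨h1, h2⟩ hx⟩
  choose R hRprop using hsel
  set Quiet : Set X := {x | x ∈ ball x0 s ∧ ∀ r, 0 < r → r ≤ s → e.real (ball x r) < ε * r ^ m}
  set Good : Set X := {x | x ∈ ball x0 s ∧ ¬ (∀ r, 0 < r → r ≤ s → e.real (ball x r) < ε * r ^ m) ∧
    eL.real (ball x ((2 * M + 12) * R x)) ≤ β * e.real (ball x (R x))} with hGood
  set Bad : Set X := {x | x ∈ ball x0 s ∧ ¬ (∀ r, 0 < r → r ≤ s → e.real (ball x r) < ε * r ^ m) ∧
    β * e.real (ball x (R x)) < eL.real (ball x ((2 * M + 12) * R x))} with hBad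
  have hcover : ball x0 s ⊆ Quiet ∪ (Good ∪ Bad) := by
    intro x hx
    by_cases h1 : ∀ r, 0 < r → r ≤ s → e.real (ball x r) < ε * r ^ m
    · exact Or.inl ⟨hx, h1⟩
    · rcases le_or_gt (eL.real (ball x ((2 * M + 12) * R x))) (β * e.real (ball x (R x))) with h2 | h2
      · exact Or.inr (Or.inl ⟨hx, h1, h2⟩)
      · exact Or.inr (Or.inr ⟨hx, h1, h2⟩)
  set cg := CB * (9 ^ m * ω + 12 ^ m * σ) + κ * 6 ^ m / ε with hcg
  have hcg0 : 0 ≤ cg := by positivity
  have hsubx : ∀ x ∈ ball x0 s, ∀ t, t ≤ s → ball x t ⊆ ball x0 (2 * s) := fun x hx t ht => by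
    apply ball_subset_ball'
    have := mem_ball.1 hx
    linarith
  have hAs : ∀ r, 0 < r → 6 * (2 * M + 12) * r ≤ s → r ≤ s ∧ (2 * M + 12) * r ≤ s := by
    intro r hr h
    have h1 : r ≤ (2 * M + 12) * r := by nlinarith
    have h2 : 0 ≤ (2 * M + 12) * r := by positivity
    constructor <;> nlinarith
  -- good points
  have hgood : q Good ≤ ENNReal.ofReal cg * e (ball x0 (2 * s)) := by
    refine vit q e Good (ball x0 (2 * s)) R (ENNReal.ofReal cg) (S := s)
      (fun x hx => (hRprop x hx.1 hx.2.1).1) (fun x hx => ?_) (fun x hx => ?_) (fun x hx => ?_)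
    · have := hRprop x hx.1 hx.2.1
      exact (hAs _ this.1 this.2.1).1
    · have := hRprop x hx.1 hx.2.1
      exact hsubx x hx.1 _ (hAs _ this.1 this.2.1).1
    · obtain ⟨h1, h2, h3, h4⟩ := hRprop x hx.1 hx.2.1
      have := D.good hx.1 h1 h2 h3 h4 hx.2.2
      rw [← ofReal_measureReal (μ := q), ← ofReal_measureReal (μ := e),
        ← ENNReal.ofReal_mul hcg0]
      exact ENNReal.ofReal_le_ofReal this
  -- bad points
  set cb := C1 * (6 * (2 * M + 12)) ^ m / β with hcb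
  have hcb0 : 0 ≤ cb := by positivity
  have hbad : q Bad ≤ ENNReal.ofReal cb * eL (ball x0 (2 * s)) := by
    refine vit q eL Bad (ball x0 (2 * s)) (fun x => (2 * M + 12) * R x) (ENNReal.ofReal cb)
      (S := s) (fun x hx => ?_) (fun x hx => ?_) (fun x hx => ?_) (fun x hx => ?_)
    · have := (hRprop x hx.1 hx.2.1).1
      positivity
    · have := hRprop x hx.1 hx.2.1
      exact (hAs _ this.1 this.2.1).2
    · have := hRprop x hx.1 hx.2.1
      exact hsubx x hx.1 _ (hAs _ this.1 this.2.1).2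
    · obtain ⟨h1, h2, h3, h4⟩ := hRprop x hx.1 hx.2.1
      have hb := hx.2.2
      have hq := D.qe x (6 * ((2 * M + 12) * R x))
      have he : e.real (ball x (6 * ((2 * M + 12) * R x))) ≤
          (6 * (2 * M + 12)) ^ m * e.real (ball x (R x)) := by
        calc e.real (ball x (6 * ((2 * M + 12) * R x))) =
              e.real (ball x (6 * (2 * M + 12) * R x)) := by
              congr 2; ring
          _ ≤ ε * (6 * (2 * M + 12) * R x) ^ m := (h4 _ (by nlinarith) h2).le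
          _ = (6 * (2 * M + 12)) ^ m * (ε * R x ^ m) := by rw [mul_pow]; ring
          _ ≤ _ := by gcongr
      have hfin : q.real (ball x (6 * ((2 * M + 12) * R x))) ≤
          cb * eL.real (ball x ((2 * M + 12) * R x)) := by
        calc q.real (ball x (6 * ((2 * M + 12) * R x)))
            ≤ C1 * ((6 * (2 * M + 12)) ^ m * e.real (ball x (R x))) :=
              hq.trans (by gcongr)
          _ = cb * (β * e.real (ball x (R x))) := by rw [hcb]; field_simp
          _ ≤ _ := by gcongr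
      rw [← ofReal_measureReal (μ := q), ← ofReal_measureReal (μ := eL),
        ← ENNReal.ofReal_mul hcb0]
      exact ENNReal.ofReal_le_ofReal hfin
  have hfinal : q (ball x0 s) ≤ ENNReal.ofReal
      ((CD * ε + CB * (9 ^ m * ω + 12 ^ m * σ) + κ * 6 ^ m / ε) * e.real (ball x0 (2 * s)) +
      cb * eL.real (ball x0 (2 * s))) := by
    calc q (ball x0 s) ≤ q Quiet + (q Good + q Bad) :=
          (measure_mono hcover).trans ((measure_union_le _ _).trans
            (add_le_add le_rfl (measure_union_le _ _)))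
      _ ≤ ENNReal.ofReal (CD * ε * e.real (ball x0 (2 * s))) +
          (ENNReal.ofReal cg * e (ball x0 (2 * s)) +
            ENNReal.ofReal cb * eL (ball x0 (2 * s))) :=
          add_le_add D.LD (add_le_add hgood hbad)
      _ = _ := by
          rw [← ofReal_measureReal (μ := e) (s := ball x0 (2 * s)),
            ← ofReal_measureReal (μ := eL) (s := ball x0 (2 * s)),
            ← ENNReal.ofReal_mul hcg0, ← ENNReal.ofReal_mul hcb0,
            ← ENNReal.ofReal_add (by positivity) (by positivity),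
            ← ENNReal.ofReal_add (by positivity) (by positivity)]
          congr 1
          rw [hcg]
          ring
  exact ENNReal.toReal_le_of_le_ofReal (by positivity) hfinal

end Crest.Agent.R234.Hol_746
end

-- ▼ part R234/Hol2_746
section

/-!
# Hole lemma (5): uniform form with the choice of the constants
-/

open MeasureTheory Metric Set
open scoped ENNReal

namespace Crest.Agent.R234.Hol_746

variable {X : Type*} [PseudoMetricSpace X] [MeasurableSpace X] [OpensMeasurableSpace X]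
  [SecondCountableTopology X]

set_option maxHeartbeats 1600000 in
/-- **HOLE**, uniform form.  `P κ e eL q x0 s` is the class of data (think: `e`, `eL`, `q` are the
push-forwards of the tilt energies of a stationary integral varifold over `ball x0 (2 s)`;
`κ` is the parameter of almost stationarity, `κ = 0` in the stationary case). -/
theorem hole_uniform {m : ℕ} (hm : 2 ≤ m) {CB C1 CD : ℝ} (hCB : 0 ≤ CB) (hC1 : 0 ≤ C1)
    (hCD : 0 ≤ CD)
    (P : ℝ → Measure X → Measure X → Measure X → X → ℝ → Prop)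
    (hfin : ∀ κ e eL q x0 s, P κ e eL q x0 s →
      IsFiniteMeasure e ∧ IsFiniteMeasure eL ∧ IsFiniteMeasure q ∧ 0 < s ∧ 0 ≤ κ)
    (hqe : ∀ κ e eL q x0 s, P κ e eL q x0 s → ∀ x r, q.real (ball x r) ≤ C1 * e.real (ball x r))
    {σ₀ : ℝ} (hσ₀ : 0 < σ₀)
    (hLOG : ∀ σ > 0, σ ≤ σ₀ → ∀ K : ℝ, ∃ M0 : ℝ, ∀ M ≥ M0, ∃ dA > 0, ∀ κ e eL q x0 s,
      P κ e eL q x0 s → κ ≤ dA → ∀ y t, 0 < t → y ∈ ball x0 (3 / 2 * s) → 2 * M * t ≤ s / 2 →
      (∀ r, t < r → r ≤ s / 2 → e.real (ball y r) < σ ^ 2 * r ^ m) →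
      σ ^ 2 * t ^ m ≤ e.real (ball y t) → eL.real (ball y (2 * M * t)) ≤ dA * t ^ m →
      K * M ^ (m - 2) * t ^ m ≤ e.real (ball y (M * t)))
    (hDV : ∀ κ e eL q x0 s, P κ e eL q x0 s → ∀ σ > 0, σ ≤ σ₀ → ∀ y r h, 0 < h → h ≤ r →
      ball y (3 * r) ⊆ ball x0 (3 / 2 * s) → 3 * r ≤ s / 2 →
      (∀ y' ∈ ball y (2 * r), ∀ t, h ≤ t → t ≤ s / 2 → e.real (ball y' t) ≤ σ ^ 2 * t ^ m) →
      q.real (ball y r) ≤ CB * ((h / r) * √(e.real (ball y (2 * r)) * r ^ m) +
        σ * e.real (ball y (2 * r))) + CB * κ * r ^ m)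
    (hLD : ∀ κ e eL q x0 s, P κ e eL q x0 s → ∀ ε > 0, ε ≤ 1 →
      q {x | x ∈ ball x0 s ∧ ∀ r, 0 < r → r ≤ s → e.real (ball x r) < ε * r ^ m} ≤
        ENNReal.ofReal (CD * ε * e.real (ball x0 (2 * s))))
    {η : ℝ} (hη : 0 < η) :
    ∃ δ > 0, ∃ lam > 0, ∃ κ0 > 0, ∀ κ e eL q x0 s, P κ e eL q x0 s → κ ≤ κ0 → ∀ E : ℝ,
      e.real (ball x0 (2 * s)) ≤ E * s ^ (m - 2) → lam * E ≤ s ^ 2 →
      eL.real (ball x0 (2 * s)) ≤ δ * E * s ^ (m - 2) →
      q.real (ball x0 s) ≤ η * E * s ^ (m - 2) := by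
  set σ := min σ₀ (η / (5 * (CB + 1) * 12 ^ m)) with hσdef
  set ω := η / (5 * (CB + 1) * 9 ^ m) with hωdef
  have hσ : 0 < σ := by positivity
  have hω : 0 < ω := by positivity
  have hσ1 : σ ≤ σ₀ := min_le_left _ _
  have hσ2 : σ ≤ η / (5 * (CB + 1) * 12 ^ m) := min_le_right _ _
  set K := 13 ^ m / ω ^ 2 + 1 with hKdef
  obtain ⟨M0, hM0⟩ := hLOG σ hσ hσ1 K
  set A := √(5 * (CD + 1) / η) / ω with hA
  set B := √(2 * 13 ^ m) / (σ * ω) with hB
  set M := max (max (max M0 B) 1) (max A (1 / ω)) with hMdef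
  have hMM0 : M0 ≤ M :=
    ((le_max_left _ _).trans (le_max_left _ _)).trans (le_max_left _ _)
  have hMB : B ≤ M :=
    ((le_max_right _ _).trans (le_max_left _ _)).trans (le_max_left _ _)
  have hM1 : 1 ≤ M := (le_max_right _ _).trans (le_max_left _ _)
  have hMA : A ≤ M := (le_max_left _ _).trans (le_max_right _ _)
  have hMω : 1 / ω ≤ M := (le_max_right _ _).trans (le_max_right _ _)
  have hM : 0 < M := by linarith
  obtain ⟨dA, hdA, hLOG'⟩ := hM0 M hMM0
  set ε := 1 / (ω * M) ^ 2 with hεdef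
  have hε : 0 < ε := by positivity
  have hωM : 1 ≤ ω * M := by
    rw [div_le_iff₀ hω] at hMω
    linarith
  have hε1 : ε ≤ 1 := by
    rw [hεdef, div_le_one (by positivity)]
    exact one_le_pow₀ hωM
  have hεM : ε * (ω * M) ^ 2 = 1 := by rw [hεdef]; field_simp
  have hCDε : (CD + 1) * ε ≤ η / 5 := by
    have h1 : √(5 * (CD + 1) / η) ≤ ω * M := by
      rw [hA, div_le_iff₀ hω] at hMA
      linarith
    have h2 : 5 * (CD + 1) / η ≤ (ω * M) ^ 2 := by
      have := Real.sqrt_le_sqrt_iff (x := 5 * (CD + 1) / η) (y := (ω * M) ^ 2) (by positivity)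
      rw [← this, Real.sqrt_sq (by positivity)]
      exact h1
    rw [div_le_iff₀ hη] at h2
    calc (CD + 1) * ε = (5 * (CD + 1)) * ε / 5 := by ring
      _ ≤ ((ω * M) ^ 2 * η) * ε / 5 := by gcongr
      _ = (ε * (ω * M) ^ 2) * η / 5 := by ring
      _ = η / 5 := by rw [hεM, one_mul]
  have hεσ : 13 ^ m * ε < σ ^ 2 := by
    have h1 : √(2 * 13 ^ m) ≤ σ * (ω * M) := by
      rw [hB, div_le_iff₀ (by positivity)] at hMB
      linarith
    have h2 : 2 * 13 ^ m ≤ (σ * (ω * M)) ^ 2 := by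
      have := Real.sqrt_le_sqrt_iff (x := 2 * 13 ^ m) (y := (σ * (ω * M)) ^ 2) (by positivity)
      rw [← this, Real.sqrt_sq (by positivity)]
      exact h1
    have h3 : (2 * 13 ^ m) * ε ≤ σ ^ 2 := by
      calc (2 * 13 ^ m) * ε ≤ (σ * (ω * M)) ^ 2 * ε := mul_le_mul_of_nonneg_right h2 hε.le
        _ = σ ^ 2 * (ε * (ω * M) ^ 2) := by ring
        _ = σ ^ 2 := by rw [hεM, mul_one]
    have h4 : (0 : ℝ) < 13 ^ m * ε := by positivity
    linarith
  set AM := (6 * (2 * M + 12)) with hAMdef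
  have hAM : 0 < AM := by positivity
  set β := dA / (ε * (2 * M) ^ m) with hβdef
  have hβ : 0 < β := by positivity
  set δ := β * η / (5 * (C1 + 1) * AM ^ m) with hδdef
  have hδ : 0 < δ := by positivity
  set κ1 := ε * η / (5 * (CB + 1) * 6 ^ m) with hκ1def
  have hκ1 : 0 < κ1 := by positivity
  set κ0 := min dA κ1 with hκ0def
  have hκ0 : 0 < κ0 := lt_min hdA hκ1
  set lam := 2 * AM ^ m / ε with hlam
  have hlam0 : 0 < lam := by positivity
  refine ⟨δ, hδ, lam, hlam0, κ0, hκ0, ?_⟩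
  intro κ e eL q x0 s hP hκκ0 E hE hlamE heL
  obtain ⟨hfe, hfeL, hfq, hs, hκ⟩ := hfin κ e eL q x0 s hP
  have hκdA : κ ≤ dA := hκκ0.trans (min_le_left _ _)
  have hκκ1 : κ ≤ κ1 := hκκ0.trans (min_le_right _ _)
  have hsm : 0 < s ^ (m - 2) := by positivity
  have hsm2 : s ^ m = s ^ (m - 2) * s ^ 2 := by
    rw [← pow_add]; congr 1; omega
  have hE0 : 0 ≤ E := by
    have h0 : 0 ≤ E * s ^ (m - 2) := le_trans measureReal_nonneg hE
    by_contra hcon
    push Not at hcon
    have := mul_neg_of_neg_of_pos hcon hsm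
    linarith
  have hTOP : e.real (ball x0 (2 * s)) < ε * (s / AM) ^ m := by
    refine lt_of_le_of_lt hE ?_
    rw [div_pow, hsm2]
    have h84 : (0 : ℝ) < AM ^ m := by positivity
    have h1 : E * AM ^ m * 2 ≤ ε * s ^ 2 := by
      have h2 : ε * (lam * E) ≤ ε * s ^ 2 := by gcongr
      have h3 : ε * (lam * E) = E * AM ^ m * 2 := by rw [hlam]; field_simp
      linarith
    have h3 : 0 < ε * s ^ 2 := by positivity
    have h4 : E * AM ^ m < ε * s ^ 2 := by
      nlinarith [mul_nonneg hE0 h84.le]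
    calc E * s ^ (m - 2) = E * AM ^ m * s ^ (m - 2) / AM ^ m := by field_simp
      _ < ε * s ^ 2 * s ^ (m - 2) / AM ^ m := by gcongr
      _ = _ := by ring
  have D : Data m e eL q x0 s CB C1 CD (CB * κ) σ ω ε M K dA β :=
    { two_le := hm
      s_pos := hs
      CB_nn := hCB
      C1_nn := hC1
      CD_nn := hCD
      κ_nn := mul_nonneg hCB hκ
      σ_pos := hσ
      ω_pos := hω
      ε_pos := hε
      M_pos := hM1
      hεM := hεM
      K_big := by
        rw [hKdef]
        have : (13 ^ m / ω ^ 2 + 1) * ω ^ 2 = 13 ^ m + ω ^ 2 := by field_simp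
        rw [this]
        have : 0 < ω ^ 2 := by positivity
        linarith
      hεσ := hεσ
      β_pos := hβ
      β_small := by
        rw [hβdef]
        apply le_of_eq
        field_simp
      qe := hqe κ e eL q x0 s hP
      LOG := hLOG' κ e eL q x0 s hP hκdA
      DV := hDV κ e eL q x0 s hP σ hσ hσ1
      LD := hLD κ e eL q x0 s hP ε hε hε1
      TOP := hTOP }
  have hmain := D.hole
  rw [← hAMdef] at hmain
  have hc1 : CD * ε ≤ η / 5 := le_trans (by nlinarith) hCDε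
  have hc2 : CB * (9 ^ m * ω + 12 ^ m * σ) ≤ 2 * η / 5 := by
    have h9 : 9 ^ m * ω = η / (5 * (CB + 1)) := by rw [hωdef]; field_simp
    have h12 : 12 ^ m * σ ≤ η / (5 * (CB + 1)) := by
      calc 12 ^ m * σ ≤ 12 ^ m * (η / (5 * (CB + 1) * 12 ^ m)) :=
            mul_le_mul_of_nonneg_left hσ2 (by positivity)
        _ = η / (5 * (CB + 1)) := by field_simp
    rw [h9]
    refine (mul_le_mul_of_nonneg_left (add_le_add le_rfl h12) hCB).trans ?_
    have h1 : CB * (η / (5 * (CB + 1)) + η / (5 * (CB + 1))) =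
        (2 * η / 5) * (CB / (CB + 1)) := by field_simp; ring
    rw [h1]
    have h2 : CB / (CB + 1) ≤ 1 := by
      rw [div_le_one (by positivity)]; linarith
    have h3 : 0 ≤ 2 * η / 5 := by positivity
    exact mul_le_of_le_one_right h3 h2
  have hc3 : CB * κ * 6 ^ m / ε ≤ η / 5 := by
    rw [div_le_iff₀ hε]
    calc CB * κ * 6 ^ m ≤ (CB + 1) * κ1 * 6 ^ m := by
          have h1 : CB * κ ≤ (CB + 1) * κ1 :=
            mul_le_mul (by linarith) hκκ1 hκ (by linarith)
          exact mul_le_mul_of_nonneg_right h1 (by positivity)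
      _ = η / 5 * ε := by rw [hκ1def]; field_simp
  have hc4 : C1 * AM ^ m / β * δ ≤ η / 5 := by
    have h1 : C1 * AM ^ m / β * δ = (η / 5) * (C1 / (C1 + 1)) := by
      rw [hδdef]; field_simp
    rw [h1]
    have h2 : C1 / (C1 + 1) ≤ 1 := by
      rw [div_le_one (by positivity)]; linarith
    have h3 : 0 ≤ η / 5 := by positivity
    exact mul_le_of_le_one_right h3 h2
  have hES : 0 ≤ E * s ^ (m - 2) := by positivity
  clear_value lam κ0 κ1 δ β AM ε M B A K ω σ
  have t1 : (CD * ε + CB * (9 ^ m * ω + 12 ^ m * σ) + CB * κ * 6 ^ m / ε) * e.real (ball x0 (2 * s)) ≤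
      (4 * η / 5) * (E * s ^ (m - 2)) :=
    mul_le_mul (by linarith) hE measureReal_nonneg (by positivity)
  have t2 : C1 * AM ^ m / β * eL.real (ball x0 (2 * s)) ≤ (η / 5) * (E * s ^ (m - 2)) := by
    calc C1 * AM ^ m / β * eL.real (ball x0 (2 * s))
        ≤ C1 * AM ^ m / β * (δ * E * s ^ (m - 2)) :=
          mul_le_mul_of_nonneg_left heL (by positivity)
      _ = (C1 * AM ^ m / β * δ) * (E * s ^ (m - 2)) := by ring
      _ ≤ (η / 5) * (E * s ^ (m - 2)) := mul_le_mul_of_nonneg_right hc4 hES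
  calc q.real (ball x0 s) ≤ _ := hmain
    _ ≤ (4 * η / 5) * (E * s ^ (m - 2)) + (η / 5) * (E * s ^ (m - 2)) := add_le_add t1 t2
    _ = _ := by ring

end Crest.Agent.R234.Hol_746
end

-- ▼ part R234/Hol3_746
section

/-!
# Row 234, VF-HOLE (helper746), part 3: Lebesgue points

`exists_fun`: on the general varifold of frozen integral data every function of the plane is a
function of the point.  `quiet_le`: at points of the base where the tilt ratio is small at all
scales the tilt itself is small (lower density).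
-/

set_option autoImplicit false

open MeasureTheory Metric Set Filter Topology
open Crest.GeometryTopology.Submanifold
open Crest.Agent.R234.Vf_884 Crest.Agent.R234.Ar_870 Crest.Agent.R234.Cy_870
open Crest.Agent.R234.N5_372
open scoped ENNReal NNReal InnerProductSpace

noncomputable section

namespace Crest.Agent.R234.Hol_746

variable {m n k : ℕ} {U : Set (Euc k)} {D : VarifoldData m k}

/-- functions of the plane are functions of the point. -/
theorem exists_fun (hD : IsIntegralVarifoldIn U D) {c : L k → ℝ≥0∞} (hc : Measurable c) :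
    ∃ T : Euc k → ℝ≥0∞, Measurable T ∧ ∀ᵐ p ∂(VD D), c p.2 = T p.1 := by
  classical
  have hext : ∀ i, ∃ g' : Euc k → ℝ≥0∞, Measurable g' ∧
      ∀ a ∈ D.dom i, g' (D.chart i a) = c (projF (D.chart i) a) := by
    intro i
    have hemb : MeasurableEmbedding ((D.dom i).domRestrict (D.chart i)) :=
      ContinuousOn.measurableEmbedding (hD.measurableSet i)
        (hD.contDiff i).continuous.continuousOn (hD.injOn i)
    have hg : Measurable fun a : D.dom i => c (projF (D.chart i) (a : Euc m)) := by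
      refine hc.comp ?_
      exact (continuousOn_iff_continuous_domRestrict.1
        ((continuousOn_projF (hD.contDiff i)).mono (dom_subset hD i))).measurable
    obtain ⟨g', hg', hcomp⟩ := hemb.exists_measurable_extend hg fun _ => ⟨0⟩
    refine ⟨g', hg', fun a ha => ?_⟩
    exact congrFun hcomp ⟨a, ha⟩
  choose g hg hgc using hext
  have himg : ∀ i, MeasurableSet (D.chart i '' D.dom i) := fun i =>
    measurableSet_image hD (hD.measurableSet i) subset_rfl
  refine ⟨fun z => ∑' i, (D.chart i '' D.dom i).indicator (g i) z,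
    Measurable.tsum fun i => (hg i).indicator (himg i), ?_⟩
  have hT : Measurable fun z => ∑' i, (D.chart i '' D.dom i).indicator (g i) z :=
    Measurable.tsum fun i => (hg i).indicator (himg i)
  have hset : MeasurableSet {p : Euc k × L k | c p.2 =
      ∑' i, (D.chart i '' D.dom i).indicator (g i) p.1} :=
    measurableSet_eq_fun (hc.comp measurable_snd) (hT.comp measurable_fst)
  refine Measure.ae_sum_iff.2 fun i => ?_
  refine (ae_map_iff (aemeasurable_lift hD i) hset).2 ?_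
  filter_upwards [base_ae_dom hD i] with a ha
  have h1 : ∑' j, (D.chart j '' D.dom j).indicator (g j) (D.chart i a) = g i (D.chart i a) := by
    rw [tsum_eq_single i]
    · exact indicator_of_mem (show D.chart i a ∈ D.chart i '' D.dom i from ⟨a, ha, rfl⟩) _
    · intro j hj
      refine indicator_of_notMem (fun hcon => ?_) _
      exact Set.disjoint_left.1 (hD.disjoint j i hj) hcon ⟨a, ha, rfl⟩
  show c (projF (D.chart i) a) = _
  simp only [lift]
  rw [h1, hgc i a ha]

/-- points of the base which are quiet at all (rational) scales. -/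
def Quiet (e : Measure (Euc m)) (x₀ : Euc m) (s ε : ℝ) : Set (Euc m) :=
  ball x₀ s ∩ ⋂ q : ℚ,
    {x | 0 < (q : ℝ) → (q : ℝ) ≤ s → e (ball x q) ≤ ENNReal.ofReal (ε * (q : ℝ) ^ m)}

theorem measurable_ball (e : Measure (Euc m)) [SFinite e] (r : ℝ) :
    Measurable fun x => e (ball x r) := by
  have h1 : MeasurableSet {p : Euc m × Euc m | dist p.2 p.1 < r} :=
    (isOpen_lt (continuous_snd.dist continuous_fst) continuous_const).measurableSet
  exact measurable_measure_prodMk_left h1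

theorem measurableSet_quiet (e : Measure (Euc m)) [SFinite e] (x₀ : Euc m) (s ε : ℝ) :
    MeasurableSet (Quiet e x₀ s ε) := by
  refine measurableSet_ball.inter (MeasurableSet.iInter fun q => ?_)
  by_cases h : 0 < (q : ℝ) ∧ (q : ℝ) ≤ s
  · have h1 : {x : Euc m | 0 < (q : ℝ) → (q : ℝ) ≤ s →
        e (ball x q) ≤ ENNReal.ofReal (ε * (q : ℝ) ^ m)} =
        {x | e (ball x q) ≤ ENNReal.ofReal (ε * (q : ℝ) ^ m)} := by
      ext x
      simp only [mem_ofPred_eq]
      exact ⟨fun h' => h' h.1 h.2, fun h' _ _ => h'⟩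
    rw [h1]
    exact measurableSet_le (measurable_ball e _) measurable_const
  · have h1 : {x : Euc m | 0 < (q : ℝ) → (q : ℝ) ≤ s →
        e (ball x q) ≤ ENNReal.ofReal (ε * (q : ℝ) ^ m)} = univ := by
      ext x
      simp only [mem_ofPred_eq, mem_univ, iff_true]
      exact fun h1 h2 => absurd ⟨h1, h2⟩ h
    rw [h1]
    exact MeasurableSet.univ

theorem subset_quiet (e : Measure (Euc m)) [IsFiniteMeasure e] (x₀ : Euc m) (s ε : ℝ) :
    {x | x ∈ ball x₀ s ∧ ∀ r, 0 < r → r ≤ s → e.real (ball x r) < ε * r ^ m} ⊆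
      Quiet e x₀ s ε := by
  rintro x ⟨hx, h⟩
  refine ⟨hx, mem_iInter.2 fun q h1 h2 => ?_⟩
  rw [← ofReal_measureReal (μ := e)]
  exact ENNReal.ofReal_le_ofReal (h q h1 h2).le

variable {π : Euc k →L[ℝ] Euc m} {W : Measure (Euc k × L k)} {x₀ : Euc m} {s ε c₀ : ℝ}

theorem norm_co_le (hπ : IsCo π) (z : Euc k) : ‖π z‖ ≤ ‖z‖ := by
  have h1 : ‖ContinuousLinearMap.adjoint π (π z)‖ = ‖π z‖ := by
    have h2 : ‖ContinuousLinearMap.adjoint π (π z)‖ ^ 2 = ‖π z‖ ^ 2 := by
      rw [← real_inner_self_eq_norm_sq, ContinuousLinearMap.adjoint_inner_left]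
      have h3 : π (ContinuousLinearMap.adjoint π (π z)) = π z := by
        have := hπ
        unfold IsCo at this
        exact congrArg (fun A => A (π z)) this
      rw [h3, real_inner_self_eq_norm_sq]
    exact (pow_left_inj₀ (norm_nonneg _) (norm_nonneg _) two_ne_zero).1 h2
  have h4 : ‖π z‖ ^ 2 ≤ ‖π z‖ * ‖z‖ := by
    calc ‖π z‖ ^ 2 = ⟪ContinuousLinearMap.adjoint π (π z), z⟫_ℝ := by
          rw [ContinuousLinearMap.adjoint_inner_left, real_inner_self_eq_norm_sq]
      _ ≤ ‖ContinuousLinearMap.adjoint π (π z)‖ * ‖z‖ := real_inner_le_norm _ _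
      _ = _ := by rw [h1]
  rcases (norm_nonneg (π z)).eq_or_lt with h | h
  · rw [← h]; exact norm_nonneg _
  · nlinarith

theorem lint_tl_lt (hπ : IsCo π) [IsFiniteMeasure W] (hconc : ∀ᵐ p ∂W, p.2 ∈ G m k) :
    ∫⁻ p, ENNReal.ofReal (tl π p.2) ∂W < ⊤ := by
  calc ∫⁻ p, ENNReal.ofReal (tl π p.2) ∂W ≤ ∫⁻ _p, ENNReal.ofReal m ∂W := by
        refine lintegral_mono_ae ?_
        filter_upwards [hconc] with p hp
        exact ENNReal.ofReal_le_ofReal (tl_le hπ (isPr_of_G hp))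
    _ < ⊤ := by
        rw [lintegral_const]
        exact ENNReal.mul_lt_top ENNReal.ofReal_lt_top (measure_lt_top _ _)

theorem T_le (hπ : IsCo π) [IsFiniteMeasure W] (hconc : ∀ᵐ p ∂W, p.2 ∈ G m k)
    {T : Euc k → ℝ≥0∞} (hT : Measurable T)
    (hTe : ∀ᵐ p ∂W, ENNReal.ofReal (tl π p.2) = T p.1) (hc₀ : 0 < c₀)
    (hlow : ∀ᵐ z ∂(W.map Prod.fst), π z ∈ ball x₀ s → ∀ᶠ r in 𝓝[>] (0 : ℝ),
      ENNReal.ofReal (c₀ * r ^ m) ≤ (W.map Prod.fst) (closedBall z r))
    (hs : 0 < s) (hε : 0 < ε) :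
    ∀ᵐ z ∂(W.map Prod.fst), π z ∈ Quiet (eM W π) x₀ s ε →
      T z ≤ ENNReal.ofReal (2 ^ m * ε / c₀) := by
  set μ := W.map Prod.fst with hμ
  have : IsFiniteMeasure μ := Measure.isFiniteMeasure_map _ _
  have hfin : ∫⁻ z, T z ∂μ ≠ ⊤ := by
    rw [hμ, lintegral_map hT measurable_fst]
    refine ne_of_lt (lt_of_eq_of_lt ?_ (lint_tl_lt hπ hconc))
    exact lintegral_congr_ae (hTe.mono fun p hp => hp.symm)
  have hdiff := (Besicovitch.vitaliFamily μ).ae_tendsto_lintegral_div hT.aemeasurable hfin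
  filter_upwards [hdiff, hlow] with z hz hl hq
  have h1 : Tendsto (fun r => (∫⁻ y in closedBall z r, T y ∂μ) / μ (closedBall z r)) (𝓝[>] 0)
      (𝓝 (T z)) := hz.comp (Besicovitch.tendsto_filterAt μ z)
  refine le_of_tendsto h1 ?_
  filter_upwards [hl hq.1, Ioo_mem_nhdsGT (show 0 < s / 2 by positivity)] with r hr hrs
  obtain ⟨q, hq1, hq2⟩ := exists_rat_btwn (show r < 2 * r by linarith [hrs.1])
  have hr0 : 0 < r := hrs.1
  have h2 : ∫⁻ y in closedBall z r, T y ∂μ ≤ eM W π (ball (π z) q) := by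
    unfold eM
    rw [bm_apply _ _ _ measurableSet_ball, hμ, setLIntegral_map measurableSet_closedBall hT
      measurable_fst]
    calc ∫⁻ p in Prod.fst ⁻¹' closedBall z r, T p.1 ∂W
        = ∫⁻ p in Prod.fst ⁻¹' closedBall z r, ENNReal.ofReal (tl π p.2) ∂W :=
          lintegral_congr_ae (ae_restrict_of_ae (hTe.mono fun p hp => hp.symm))
      _ ≤ _ := by
          refine lintegral_mono_set ?_
          intro p hp
          have hp1 : ‖p.1 - z‖ ≤ r := by
            have := mem_closedBall.1 (show p.1 ∈ closedBall z r from hp)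
            rwa [dist_eq_norm] at this
          show π p.1 ∈ ball (π z) q
          rw [mem_ball, dist_eq_norm, ← map_sub]
          exact lt_of_le_of_lt ((norm_co_le hπ _).trans hp1) hq1
  have h3 : eM W π (ball (π z) q) ≤ ENNReal.ofReal (ε * (q : ℝ) ^ m) := by
    have := mem_iInter.1 hq.2 q
    exact this (hr0.trans hq1) (by linarith [hrs.2])
  refine ENNReal.div_le_of_le_mul ?_
  calc ∫⁻ y in closedBall z r, T y ∂μ ≤ ENNReal.ofReal (ε * (q : ℝ) ^ m) := h2.trans h3
    _ ≤ ENNReal.ofReal (2 ^ m * ε / c₀ * (c₀ * r ^ m)) := by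
        apply ENNReal.ofReal_le_ofReal
        have h4 : (q : ℝ) ^ m ≤ (2 * r) ^ m :=
          pow_le_pow_left₀ (hr0.trans hq1).le hq2.le m
        calc ε * (q : ℝ) ^ m ≤ ε * (2 * r) ^ m := by gcongr
          _ = _ := by rw [mul_pow]; field_simp
    _ = ENNReal.ofReal (2 ^ m * ε / c₀) * ENNReal.ofReal (c₀ * r ^ m) :=
        ENNReal.ofReal_mul (by positivity)
    _ ≤ _ := by gcongr

/-- **(LD)**: the quartic energy of the quiet set is small. -/
theorem quiet_le (hπ : IsCo π) [IsFiniteMeasure W] (hconc : ∀ᵐ p ∂W, p.2 ∈ G m k)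
    {T : Euc k → ℝ≥0∞} (hT : Measurable T)
    (hTe : ∀ᵐ p ∂W, ENNReal.ofReal (tl π p.2) = T p.1) (hc₀ : 0 < c₀)
    (hlow : ∀ᵐ z ∂(W.map Prod.fst), π z ∈ ball x₀ s → ∀ᶠ r in 𝓝[>] (0 : ℝ),
      ENNReal.ofReal (c₀ * r ^ m) ≤ (W.map Prod.fst) (closedBall z r))
    (hs : 0 < s) (hε : 0 < ε) :
    qM W π (Quiet (eM W π) x₀ s ε) ≤ ENNReal.ofReal (2 ^ m * ε / c₀) * eM W π (ball x₀ s) := by
  have hfinE : IsFiniteMeasure (eM W π) := by
    refine ⟨?_⟩
    unfold eM
    rw [bm_apply _ _ _ MeasurableSet.univ]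
    exact (setLIntegral_le_lintegral _ _).trans_lt (lint_tl_lt hπ hconc)
  have hQ := measurableSet_quiet (eM W π) x₀ s ε
  have h1 := ae_of_ae_map measurable_fst.aemeasurable
    (T_le (x₀ := x₀) hπ hconc hT hTe hc₀ hlow hs hε)
  calc qM W π (Quiet (eM W π) x₀ s ε)
      = ∫⁻ p in ov π (Quiet (eM W π) x₀ s ε), ENNReal.ofReal (tl π p.2 ^ 2) ∂W := by
        unfold qM
        rw [bm_apply _ _ _ hQ]
    _ ≤ ∫⁻ p in ov π (Quiet (eM W π) x₀ s ε), ENNReal.ofReal (2 ^ m * ε / c₀) *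
          ENNReal.ofReal (tl π p.2) ∂W := by
        refine lintegral_mono_ae ?_
        filter_upwards [ae_restrict_of_ae h1, ae_restrict_of_ae hTe, ae_restrict_of_ae hconc,
          ae_restrict_mem (measurableSet_ov hQ)] with p hp1 hp2 hp3 hp4
        have h2 := hp1 hp4
        rw [← hp2] at h2
        have h0 := tl_nonneg hπ (isPr_of_G hp3)
        rw [sq, ENNReal.ofReal_mul h0]
        gcongr
    _ = ENNReal.ofReal (2 ^ m * ε / c₀) * eM W π (Quiet (eM W π) x₀ s ε) := by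
        rw [lintegral_const_mul' _ _ ENNReal.ofReal_ne_top]
        have h2 : eM W π (Quiet (eM W π) x₀ s ε) =
            ∫⁻ p in ov π (Quiet (eM W π) x₀ s ε), ENNReal.ofReal (tl π p.2) ∂W :=
          bm_apply W π (tl π) hQ
        rw [h2]
    _ ≤ _ := by
        gcongr
        exact inter_subset_left

end Crest.Agent.R234.Hol_746
end
end

-- ▼ part R234/Hol6_746
section

/-!
# Row 234, VF-HOLE (helper746), part 6: the hole lemma for almost stationary varifolds

Inputs as Props: `LogH` (113, 300), `DvH` (762).  Output: `hole_at`.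
-/

set_option autoImplicit false

open Set Filter Topology MeasureTheory Metric
open Crest.GeometryTopology.Submanifold
open Crest.Agent.R234.Vf_884 Crest.Agent.R234.Ar_870 Crest.Agent.R234.Cy_870
open Crest.Agent.R234.AS_456 Crest.Agent.R234.Asl_214
open Crest.Agent.R234.Th_164 Crest.Agent.R234.N5_372 Crest.Agent.R234.Pers_540
open Crest.Agent.R234.La_300
open scoped ENNReal NNReal ContDiff InnerProductSpace

noncomputable section

namespace Crest.Agent.R234.Hol_746

variable {m n k : ℕ}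

/-- **(LOG)**, scaled and translated, uniform in `π`. -/
def LogH (m k : ℕ) (C c : ℝ) : Prop :=
  ∀ σ : ℝ, 0 < σ → ∀ K : ℝ, ∃ M0 : ℝ, ∀ M ≥ M0, ∃ dA > 0,
    ∀ π : Euc k →L[ℝ] Euc m, IsCo π → ∀ (W : Measure (Euc k × L k)) (y : Euc m) (t : ℝ),
      0 < t → t ≤ 1 → App m k dA {z | ‖π z - y‖ < 2 * M * t} W →
      LowD m {z | ‖π z - y‖ < 2 * M * t} c W →
      (∀ r, t ≤ r → r ≤ 2 * M * t → W (N5_372.ov π (ball y r)) ≤ ENNReal.ofReal (C * r ^ m)) →
      ∀ S : Submodule ℝ (Euc m), Module.finrank ℝ S + 2 = m →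
      σ ^ 2 * t ^ m ≤ (eM W π).real (ball y t) →
      (lM W π S).real (ball y (2 * M * t)) ≤ dA * t ^ m →
      K * M ^ (m - 2) * t ^ m ≤ (eM W π).real (ball y (M * t))

/-- **(DV)** in the almost stationary class. -/
def DvH (m k : ℕ) (C c : ℝ) : Prop :=
  ∃ CB : ℝ, 0 ≤ CB ∧ ∀ (n : ℕ) (π : Euc k →L[ℝ] Euc m) (κ : Euc k →L[ℝ] Euc n)
    (W : Measure (Euc k × L k)) (x₀ : Euc m) (R h₀ δ : ℝ), CylAS W π κ x₀ R h₀ δ → 0 ≤ δ → δ ≤ 1 →
    0 ≤ h₀ → h₀ ≤ 1 → ∀ (x : Euc m) (r h σ : ℝ), ‖x - x₀‖ + 3 * r ≤ R → 0 < h → h ≤ r → r ≤ 1 →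
    0 < σ → σ ≤ 1 →
    (∀ y ∈ ball x (2 * r), W.real (N5_372.ov π (ball y h)) ≤ C * h ^ m) →
    W.real (N5_372.ov π (ball x (2 * r))) ≤ C * r ^ m →
    (∀ y ∈ ball x (2 * r), (eM W π).real (ball y h) ≤ σ ^ 2 * h ^ m) →
    (∀ᵐ z ∂W, π z.1 ∈ ball x (2 * r) → c * h ^ m ≤ W.real {p | ‖z.1 - p.1‖ ≤ h / 2}) →
    (qM W π).real (ball x r) ≤ CB * ((h / r) * √((eM W π).real (ball x (2 * r)) * r ^ m) +
      σ * (eM W π).real (ball x (2 * r))) + CB * √δ * r ^ m

/-- the class of varifolds. -/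
structure HSit (C₀ c₀ : ℝ) (W : Measure (Euc k × L k)) (π : Euc k →L[ℝ] Euc m)
    (κ : Euc k →L[ℝ] Euc n) (x₀ : Euc m) (R h₀ δ : ℝ) : Prop where
  as : CylAS W π κ x₀ R h₀ δ
  δ_nonneg : 0 ≤ δ
  δ_le : δ ≤ 1
  h_nonneg : 0 ≤ h₀
  h_le : h₀ ≤ 1
  area : ∃ N : Euc m → ℝ≥0∞, Area W π (ball x₀ R) N
  fn : ∃ T : Euc k → ℝ≥0∞, Measurable T ∧ ∀ᵐ p ∂W, ENNReal.ofReal (tl π p.2) = T p.1
  low : LowD m {z | ‖π z - x₀‖ < R} c₀ W
  up : ∀ z r, 0 < r → W (closedBall z r ×ˢ univ) ≤ ENNReal.ofReal (C₀ * r ^ m)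

variable {C₀ c₀ : ℝ} {W : Measure (Euc k × L k)} {π : Euc k →L[ℝ] Euc m}
  {κ : Euc k →L[ℝ] Euc n} {x₀ : Euc m} {R h₀ δ : ℝ}

theorem HSit.top_mass (H : HSit C₀ c₀ W π κ x₀ R h₀ δ) (y : Euc m) {ρ : ℝ} (hρ : 0 < ρ) :
    W (N5_372.ov π (ball y ρ)) ≤ ENNReal.ofReal (C₀ * (ρ + h₀) ^ m) := by
  refine le_trans (measure_mono_ae ?_) (H.up (ContinuousLinearMap.adjoint π y) (ρ + h₀)
    (by linarith [H.h_nonneg]))
  filter_upwards [H.as.hgt] with p hp hpm
  have h1 : ‖π p.1 - y‖ < ρ := by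
    have : π p.1 ∈ ball y ρ := hpm
    rwa [mem_ball, dist_eq_norm] at this
  refine ⟨?_, mem_univ _⟩
  show p.1 ∈ closedBall (ContinuousLinearMap.adjoint π y) (ρ + h₀)
  rw [mem_closedBall, dist_eq_norm]
  have h2 := H.as.sp.norm_sq (p.1 - ContinuousLinearMap.adjoint π y)
  have h3 : π (p.1 - ContinuousLinearMap.adjoint π y) = π p.1 - y := by
    rw [map_sub]
    congr 1
    exact congrArg (fun A : L m => A y) H.as.sp.hh
  have h4 : κ (ContinuousLinearMap.adjoint π y) = 0 := by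
    have e1 : ContinuousLinearMap.adjoint π (π (ContinuousLinearMap.adjoint π y)) +
        ContinuousLinearMap.adjoint κ (κ (ContinuousLinearMap.adjoint π y)) =
        ContinuousLinearMap.adjoint π y :=
      congrArg (fun A : L k => A (ContinuousLinearMap.adjoint π y)) H.as.sp.sum
    have e2 : π (ContinuousLinearMap.adjoint π y) = y := congrArg (fun A : L m => A y) H.as.sp.hh
    rw [e2] at e1
    have e3 : ContinuousLinearMap.adjoint κ (κ (ContinuousLinearMap.adjoint π y)) = 0 := by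
      simpa using e1
    have e4 : κ (ContinuousLinearMap.adjoint κ (κ (ContinuousLinearMap.adjoint π y))) =
        κ (ContinuousLinearMap.adjoint π y) :=
      congrArg (fun A : L n => A (κ (ContinuousLinearMap.adjoint π y))) H.as.sp.vv
    rw [← e4, e3, map_zero]
  have h5 : κ (p.1 - ContinuousLinearMap.adjoint π y) = κ p.1 := by
    rw [map_sub, h4, sub_zero]
  rw [h3, h5] at h2
  have h0 := H.h_nonneg
  have h6 : ‖p.1 - ContinuousLinearMap.adjoint π y‖ ^ 2 ≤ (ρ + h₀) ^ 2 := by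
    rw [h2]
    nlinarith [norm_nonneg (π p.1 - y), norm_nonneg (κ p.1)]
  exact (pow_le_pow_iff_left₀ (norm_nonneg _) (by linarith) two_ne_zero).1 h6

theorem HSit.finite (H : HSit C₀ c₀ W π κ x₀ R h₀ δ) : IsFiniteMeasure W := ⟨H.as.fin⟩

theorem finite_bm {c : L k → ℝ} [IsFiniteMeasure W] {B : ℝ} (hc : ∀ᵐ p ∂W, c p.2 ≤ B) :
    IsFiniteMeasure (bm W π c) := by
  refine ⟨?_⟩
  rw [bm_apply _ _ _ MeasurableSet.univ]
  refine (setLIntegral_le_lintegral _ _).trans_lt ?_
  calc ∫⁻ p, ENNReal.ofReal (c p.2) ∂W ≤ ∫⁻ _p, ENNReal.ofReal B ∂W := by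
        refine lintegral_mono_ae ?_
        filter_upwards [hc] with p hp
        exact ENNReal.ofReal_le_ofReal hp
    _ < ⊤ := by
        rw [lintegral_const]
        exact ENNReal.mul_lt_top ENNReal.ofReal_lt_top (measure_lt_top _ _)

theorem HSit.fin_e (H : HSit C₀ c₀ W π κ x₀ R h₀ δ) : IsFiniteMeasure (eM W π) := by
  have := H.finite
  exact finite_bm (B := m) (H.as.conc.mono fun p hp => tl_le H.as.sp.hh (isPr_of_G hp))

theorem HSit.fin_q (H : HSit C₀ c₀ W π κ x₀ R h₀ δ) : IsFiniteMeasure (qM W π) := by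
  have := H.finite
  refine finite_bm (B := m ^ 2) (H.as.conc.mono fun p hp => ?_)
  have h1 := tl_nonneg H.as.sp.hh (isPr_of_G hp)
  have h2 := tl_le H.as.sp.hh (isPr_of_G hp)
  exact pow_le_pow_left₀ h1 h2 2

theorem HSit.fin_l (H : HSit C₀ c₀ W π κ x₀ R h₀ δ) (S : Submodule ℝ (Euc m)) :
    IsFiniteMeasure (lM W π S) := by
  have := H.finite
  exact finite_bm (B := m) (H.as.conc.mono fun p hp => eL_le (isPr_of_G hp) S)

theorem HSit.q_le (H : HSit C₀ c₀ W π κ x₀ R h₀ δ) (x : Euc m) (r : ℝ) :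
    (qM W π).real (ball x r) ≤ m * (eM W π).real (ball x r) := by
  have := H.fin_e
  have h1 : qM W π (ball x r) ≤ ENNReal.ofReal m * eM W π (ball x r) := by
    unfold qM eM
    rw [bm_apply _ _ _ measurableSet_ball, bm_apply _ _ _ measurableSet_ball,
      ← lintegral_const_mul' _ _ ENNReal.ofReal_ne_top]
    refine lintegral_mono_ae (ae_restrict_of_ae ?_)
    filter_upwards [H.as.conc] with p hp
    have e1 := tl_nonneg H.as.sp.hh (isPr_of_G hp)
    have e2 := tl_le H.as.sp.hh (isPr_of_G hp)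
    rw [← ENNReal.ofReal_mul (Nat.cast_nonneg m), sq]
    exact ENNReal.ofReal_le_ofReal (mul_le_mul_of_nonneg_right e2 e1)
  have h2 := ENNReal.toReal_mono (ENNReal.mul_ne_top ENNReal.ofReal_ne_top
    (measure_ne_top (eM W π) _)) h1
  rw [ENNReal.toReal_mul, ENNReal.toReal_ofReal (Nat.cast_nonneg m)] at h2
  exact h2

theorem HSit.app (H : HSit C₀ c₀ W π κ x₀ R h₀ δ) :
    App m k (20 * (m + 1) * (δ + √δ)) {z | ‖π z - x₀‖ < R} W where
  conc := H.as.conc
  fin K _ _ := by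
    have := H.finite
    exact measure_lt_top _ _
  fv X hX hXc hXU := by
    have := H.finite
    have h1 : ∀ p, R ≤ ‖π p - x₀‖ → X p = 0 := by
      intro p hp
      by_contra hcon
      have h2 := hXU (subset_tsupport X hcon)
      exact absurd hp (not_le.2 h2)
    have hfinK : W (tsupport X ×ˢ univ) < ⊤ := measure_lt_top _ _
    refine (H.as.fv X hX h1).trans ?_
    rw [← integral_const_mul]
    refine integral_mono_ae (integrable_err H.as.conc hX hXc hfinK δ)
      ((integrable_sz H.as.conc hX hXc hfinK).const_mul _) ?_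
    filter_upwards [H.as.conc, H.as.hgt] with p hp hp2
    refine err_le H.as.sp.hh H.δ_nonneg X hp ?_
    rw [La_300.norm_vp_eq H.as.sp]
    exact hp2.trans H.h_le

theorem HSit.lowd (H : HSit C₀ c₀ W π κ x₀ R h₀ δ) {y : Euc m} {ρ : ℝ}
    (hy : ‖y - x₀‖ + ρ ≤ R) : LowD m {z | ‖π z - y‖ < ρ} c₀ W := by
  intro z hz r hr hsub
  refine H.low z hz r hr (hsub.trans ?_)
  intro w hw
  have h1 : ‖π w - y‖ < ρ := hw
  show ‖π w - x₀‖ < R
  calc ‖π w - x₀‖ ≤ ‖π w - y‖ + ‖y - x₀‖ := norm_sub_le_norm_sub_add_norm_sub _ _ _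
    _ < R := by linarith

/-- (MASS) in the class. -/
theorem exists_mass (m : ℕ) {C₀ : ℝ} (hC₀ : 0 < C₀) :
    ∃ δ₁ : ℝ, 0 < δ₁ ∧ δ₁ ≤ 1 ∧ ∃ C' : ℝ, 0 < C' ∧ ∀ (k n : ℕ) (c₀ : ℝ)
      (W : Measure (Euc k × L k)) (π : Euc k →L[ℝ] Euc m) (κ : Euc k →L[ℝ] Euc n) (x₀ : Euc m)
      (R h₀ δ : ℝ), HSit C₀ c₀ W π κ x₀ R h₀ δ → δ ≤ δ₁ / (m + 1) →
      ∀ (y : Euc m) (s t : ℝ), 0 < s → s ≤ 1 → h₀ ≤ s → ‖y - x₀‖ + s / 2 ≤ R →
      (∀ ρ, 0 < ρ → t ≤ ρ → ρ ≤ s / 2 → (eM W π).real (ball y ρ) ≤ δ₁ * ρ ^ m) →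
      ∀ r, 0 < r → t ≤ r → r ≤ s / 2 → W (N5_372.ov π (ball y r)) ≤ ENNReal.ofReal (C' * r ^ m) := by
  obtain ⟨δ₁, hδ, hδ', C', hC', hT⟩ := mass_setup m (show 0 ≤ C₀ * 12 ^ m by positivity)
  refine ⟨δ₁, hδ, hδ', max C' (C₀ * 12 ^ m), by positivity, ?_⟩
  intro k n c₀ W π κ x₀ R h₀ δ H hδd y s t hs hs1 hhs hy he r hr htr hrs
  obtain ⟨N, hN⟩ := H.area
  have hS := setup_of_cylAS H.as H.δ_nonneg H.δ_le hN
  have h0 := H.h_nonneg
  have hδ0 := H.δ_nonneg
  have hm1 : (0 : ℝ) < m + 1 := by positivity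
  rw [le_div_iff₀ hm1] at hδd
  have htop : W (N5_372.ov π (ball y (s / 2))) ≤ ENNReal.ofReal (C₀ * 12 ^ m * (s / 8) ^ m) := by
    refine (H.top_mass y (by positivity)).trans (ENNReal.ofReal_le_ofReal ?_)
    calc C₀ * (s / 2 + h₀) ^ m ≤ C₀ * (12 * (s / 8)) ^ m := by
          gcongr
          linarith
      _ = _ := by rw [mul_pow]; ring
  rcases le_or_gt r (s / 8) with h1 | h1
  · have h4 : 4 * (s / 8) = s / 2 := by ring
    have hh2 : h₀ ^ 2 ≤ 1 := by nlinarith
    have hmn : (0 : ℝ) ≤ m := Nat.cast_nonneg m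
    have h5 := hT k π W (ball x₀ R) N δ (h₀ ^ 2) _ hS (by nlinarith) y t (s / 8) (by positivity)
      (by
        rw [h4]
        apply ball_subset_ball'
        rw [dist_eq_norm]
        linarith) (by
        have e1 : δ * (m + h₀ ^ 2) ≤ δ₁ := by nlinarith
        have e2 : 0 ≤ δ * (m + h₀ ^ 2) := by positivity
        nlinarith) (by rw [h4]; exact htop) (by rw [h4]; exact he) r hr htr h1
    refine h5.trans (ENNReal.ofReal_le_ofReal ?_)
    gcongr
    exact le_max_left _ _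
  · calc W (N5_372.ov π (ball y r)) ≤ W (N5_372.ov π (ball y (s / 2))) := by
          refine measure_mono ?_
          intro p hp
          exact ball_subset_ball hrs hp
      _ ≤ ENNReal.ofReal (C₀ * 12 ^ m * (s / 8) ^ m) := htop
      _ ≤ _ := by
          refine ENNReal.ofReal_le_ofReal ?_
          gcongr
          exact le_max_right _ _

end Crest.Agent.R234.Hol_746
end
end

-- ▼ part R234/Hol7_746

/-!
# Row 234, VF-HOLE (helper746), part 7: `hole_at`

The hole lemma for every almost stationary varifold of the class `HSit`, from `LogH` and `DvH`.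
-/

set_option autoImplicit false

open Set Filter Topology MeasureTheory Metric
open Crest.GeometryTopology.Submanifold
open Crest.Agent.R234.Vf_884 Crest.Agent.R234.Ar_870 Crest.Agent.R234.Cy_870
open Crest.Agent.R234.AS_456 Crest.Agent.R234.Asl_214
open Crest.Agent.R234.Th_164 Crest.Agent.R234.N5_372 Crest.Agent.R234.Pers_540
open Crest.Agent.R234.La_300
open scoped ENNReal NNReal ContDiff InnerProductSpace

noncomputable section

namespace Crest.Agent.R234.Hol_746

variable {m n k : ℕ}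

/-- the class of the data in `hole_uniform`. -/
def Pc (m k : ℕ) (C₀ c₀ d κ' : ℝ) (e eL q : Measure (Euc m)) (x : Euc m) (s : ℝ) : Prop :=
  ∃ (n : ℕ) (π : Euc k →L[ℝ] Euc m) (κ : Euc k →L[ℝ] Euc n) (W : Measure (Euc k × L k))
    (x₀ : Euc m) (R h₀ δ : ℝ) (S : Submodule ℝ (Euc m)),
    HSit C₀ c₀ W π κ x₀ R h₀ δ ∧ δ ≤ d ∧ κ' = √δ ∧ Module.finrank ℝ S + 2 = m ∧ 0 < s ∧ s ≤ 1 ∧
    h₀ ≤ s ∧ ‖x - x₀‖ + 2 * s ≤ R ∧ e = eM W π ∧ eL = lM W π S ∧ q = qM W π

theorem measurableSet_sp (V : Measure (Euc k × L k)) : MeasurableSet {x | Sp V x} := by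
  have h : IsOpen {x | ¬ Sp V x} := by
    rw [Metric.isOpen_iff]
    intro x hx
    have hx' : ¬ Sp V x := hx
    unfold Sp at hx'
    push Not at hx'
    obtain ⟨s, hs, h0⟩ := hx'
    refine ⟨s / 2, by positivity, fun w hw => ?_⟩
    show ¬ Sp V w
    intro hsp
    have h1 := hsp (s / 2) (by positivity)
    have h2 : V (ball w (s / 2) ×ˢ univ) ≤ V (ball x s ×ˢ univ) := by
      refine measure_mono (prod_mono ?_ subset_rfl)
      apply ball_subset_ball'
      have := mem_ball.1 hw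
      linarith
    exact absurd (h1.trans_le (h2.trans h0)) (lt_irrefl _)
  have h2 : {x | Sp V x} = {x | ¬ Sp V x}ᶜ := by
    ext x
    simp
  rw [h2]
  exact h.measurableSet.compl

theorem ae_sp_map (V : Measure (Euc k × L k)) : ∀ᵐ z ∂(V.map Prod.fst), Sp V z := by
  rw [ae_map_iff measurable_fst.aemeasurable (measurableSet_sp V)]
  exact ae_sp V

variable {C₀ c₀ : ℝ} {W : Measure (Euc k × L k)} {π : Euc k →L[ℝ] Euc m}
  {κ : Euc k →L[ℝ] Euc n} {x₀ : Euc m} {R h₀ δ : ℝ}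

theorem norm_pi_le (hs : Split π κ) (z : Euc k) : ‖π z‖ ≤ ‖z‖ := norm_co_le hs.hh z

/-- small balls around support points lie in the cylinder. -/
theorem ball_sub (hs : Split π κ) {z : Euc k} {r : ℝ} (hz : ‖π z - x₀‖ + r ≤ R) :
    ball z r ⊆ {z | ‖π z - x₀‖ < R} := by
  intro w hw
  show ‖π w - x₀‖ < R
  have h1 : ‖w - z‖ < r := by rwa [mem_ball, dist_eq_norm] at hw
  have h2 : ‖π w - π z‖ ≤ ‖w - z‖ := by
    rw [← map_sub]
    exact norm_pi_le hs _
  calc ‖π w - x₀‖ ≤ ‖π w - π z‖ + ‖π z - x₀‖ := norm_sub_le_norm_sub_add_norm_sub _ _ _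
    _ < R := by linarith

theorem HSit.low_map (H : HSit C₀ c₀ W π κ x₀ R h₀ δ) {x : Euc m} {s : ℝ}
    (hx : ‖x - x₀‖ + s ≤ R) :
    ∀ᵐ z ∂(W.map Prod.fst), π z ∈ ball x s → ∀ᶠ r in 𝓝[>] (0 : ℝ),
      ENNReal.ofReal (c₀ * r ^ m) ≤ (W.map Prod.fst) (closedBall z r) := by
  filter_upwards [ae_sp_map W] with z hz hzs
  have h1 : ‖π z - x‖ < s := by rwa [mem_ball, dist_eq_norm] at hzs
  have h2 : 0 < s - ‖π z - x‖ := by linarith
  filter_upwards [Ioo_mem_nhdsGT h2] with r hr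
  have h3 : ‖π z - x₀‖ ≤ ‖π z - x‖ + ‖x - x₀‖ := norm_sub_le_norm_sub_add_norm_sub _ _ _
  have h4 := H.low z hz r hr.1 (ball_sub H.as.sp (by linarith [hr.2]))
  refine h4.trans ?_
  rw [map_fst_apply W isClosed_closedBall.measurableSet]
  exact measure_mono (prod_mono ball_subset_closedBall subset_rfl)

/-- right continuity of the energy in the radius, as needed. -/
theorem le_of_right {e : Measure (Euc m)} [IsFiniteMeasure e] {y : Euc m} {a t b : ℝ} (htb : t < b)
    (h : ∀ r, t < r → r ≤ b → e.real (ball y r) < a * r ^ m) : e.real (ball y t) ≤ a * t ^ m := by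
  have h1 : Tendsto (fun r : ℝ => a * r ^ m) (𝓝[>] t) (𝓝 (a * t ^ m)) := by
    have : Continuous fun r : ℝ => a * r ^ m := by fun_prop
    exact (this.tendsto t).mono_left nhdsWithin_le_nhds
  refine ge_of_tendsto h1 ?_
  filter_upwards [Ioo_mem_nhdsGT htb] with r hr
  exact (measureReal_mono (ball_subset_ball hr.1.le)).trans (h r hr.1 hr.2.le).le

set_option maxHeartbeats 1600000 in
/-- **HOLE** in the class. -/
theorem hole_at {m k : ℕ} (hm : 2 ≤ m) {C₀ c₀ : ℝ} (hC₀ : 0 < C₀) (hc₀ : 0 < c₀)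
    (hLog : ∀ C > 0, ∀ c > 0, LogH m k C c) (hDv : ∀ C > 0, ∀ c > 0, DvH m k C c)
    {η : ℝ} (hη : 0 < η) :
    ∃ δH > 0, ∃ lam > 0, ∃ d0 > 0, ∀ (n : ℕ) (π : Euc k →L[ℝ] Euc m) (κ : Euc k →L[ℝ] Euc n)
      (W : Measure (Euc k × L k)) (x₀ : Euc m) (R h₀ δ : ℝ), HSit C₀ c₀ W π κ x₀ R h₀ δ → δ ≤ d0 →
      ∀ S : Submodule ℝ (Euc m), Module.finrank ℝ S + 2 = m → ∀ (x : Euc m) (s E : ℝ), 0 < s →
      s ≤ 1 → h₀ ≤ s → ‖x - x₀‖ + 2 * s ≤ R → (eM W π).real (ball x (2 * s)) ≤ E * s ^ (m - 2) →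
      lam * E ≤ s ^ 2 → (lM W π S).real (ball x (2 * s)) ≤ δH * E * s ^ (m - 2) →
      (qM W π).real (ball x s) ≤ η * E * s ^ (m - 2) := by
  obtain ⟨δ₁, hδ₁, hδ₁', C', hC', hMass⟩ := exists_mass m hC₀
  set d : ℝ := δ₁ / (m + 1) with hd
  have hm1 : (0 : ℝ) < m + 1 := by positivity
  have hd0 : 0 < d := by positivity
  have hd1 : d ≤ 1 := by
    rw [hd, div_le_one hm1]
    have : (0 : ℝ) ≤ m := Nat.cast_nonneg m
    linarith
  obtain ⟨CB, hCB, hDv'⟩ := hDv (C' * 2 ^ m) (by positivity) (c₀ / 2 ^ m) (by positivity)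
  have hσ₀ : 0 < √δ₁ := Real.sqrt_pos.2 hδ₁
  have hsq : ∀ σ : ℝ, 0 < σ → σ ≤ √δ₁ → σ ^ 2 ≤ δ₁ := by
    intro σ h1 h2
    calc σ ^ 2 ≤ (√δ₁) ^ 2 := pow_le_pow_left₀ h1.le h2 2
      _ = δ₁ := Real.sq_sqrt hδ₁.le
  have hσ1 : √δ₁ ≤ 1 := by
    rw [Real.sqrt_le_one]
    exact hδ₁'
  obtain ⟨δH, hδH, lam, hlam, κ0, hκ0, hmain⟩ := hole_uniform (X := Euc m) hm hCB
    (Nat.cast_nonneg m : (0 : ℝ) ≤ m) (show (0 : ℝ) ≤ 2 ^ m / c₀ by positivity) (Pc m k C₀ c₀ d)
    (by
      rintro κ' e eL q x s ⟨n, π, κ, W, x₀, R, h₀, δ, S, H, hδd, rfl, hS, hs, hs1, hh, hx, rfl, rfl,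
        rfl⟩
      exact ⟨H.fin_e, H.fin_l S, H.fin_q, hs, Real.sqrt_nonneg _⟩)
    (by
      rintro κ' e eL q x s ⟨n, π, κ, W, x₀, R, h₀, δ, S, H, hδd, rfl, hS, hs, hs1, hh, hx, rfl, rfl,
        rfl⟩ y r
      exact H.q_le y r)
    hσ₀
    (by
      intro σ hσ hσσ K
      obtain ⟨M0, hM0⟩ := hLog C' hC' c₀ hc₀ σ hσ K
      refine ⟨max M0 1, fun M hM => ?_⟩
      have hMM0 : M0 ≤ M := (le_max_left _ _).trans hM
      have hM1 : 1 ≤ M := (le_max_right _ _).trans hM
      obtain ⟨dA, hdA, hL⟩ := hM0 M hMM0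
      refine ⟨dA / (40 * (m + 1)), by positivity, ?_⟩
      rintro κ' e eL q x s ⟨n, π, κ, W, x₀, R, h₀, δ, S, H, hδd, rfl, hS, hs, hs1, hh, hx, rfl, rfl,
        rfl⟩ hκd y t ht hy hMt hno htip heL
      have hfe := H.fin_e
      have hδ0 := H.δ_nonneg
      have hyn : ‖y - x‖ < 3 / 2 * s := by rwa [mem_ball, dist_eq_norm] at hy
      have hyx : ‖y - x₀‖ ≤ ‖y - x‖ + ‖x - x₀‖ := norm_sub_le_norm_sub_add_norm_sub _ _ _
      have htM : t ≤ M * t := le_mul_of_one_le_left ht.le hM1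
      have hts : t < s / 2 := by nlinarith
      have hdAle : dA / (40 * (m + 1)) ≤ dA := by
        rw [div_le_iff₀ (by positivity)]
        have : (0 : ℝ) ≤ m := Nat.cast_nonneg m
        nlinarith
      have hsd : δ ≤ √δ := by
        have h1 : √δ ≤ 1 := by
          rw [Real.sqrt_le_one]
          exact H.δ_le
        calc δ = √δ * √δ := (Real.mul_self_sqrt hδ0).symm
          _ ≤ √δ * 1 := by gcongr
          _ = √δ := mul_one _
      have hω : 20 * (m + 1) * (δ + √δ) ≤ dA := by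
        rw [le_div_iff₀ (by positivity)] at hκd
        nlinarith
      have happ : App m k dA {z | ‖π z - y‖ < 2 * M * t} W := by
        refine (H.app.mono hω).mono_set ?_
        intro z hz
        have h1 : ‖π z - y‖ < 2 * M * t := hz
        show ‖π z - x₀‖ < R
        calc ‖π z - x₀‖ ≤ ‖π z - y‖ + ‖y - x₀‖ := norm_sub_le_norm_sub_add_norm_sub _ _ _
          _ < R := by linarith
      refine hL π H.as.sp.hh W y t ht (by linarith) happ (H.lowd (by linarith)) ?_ S hS htip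
        (heL.trans (by gcongr))
      intro r hr1 hr2
      have hr0 : 0 < r := ht.trans_le hr1
      refine hMass k n c₀ W π κ x₀ R h₀ δ H hδd y s t hs hs1 hh (by linarith) ?_ r hr0 hr1
        (by linarith)
      intro ρ hρ hρ1 hρ2
      have h1 : (eM W π).real (ball y ρ) ≤ σ ^ 2 * ρ ^ m := by
        rcases hρ1.eq_or_lt with h2 | h2
        · rw [← h2]
          exact le_of_right hts hno
        · exact (hno ρ h2 hρ2).le
      refine h1.trans ?_
      have := hsq σ hσ hσσ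
      gcongr)
    (by
      rintro κ' e eL q x s ⟨n, π, κ, W, x₀, R, h₀, δ, S, H, hδd, rfl, hS, hs, hs1, hh, hx, rfl, rfl,
        rfl⟩ σ hσ hσσ y r h hh0 hhr hsub h3r hq
      have hfe := H.fin_e
      have hfin := H.finite
      have hr : 0 < r := hh0.trans_le hhr
      have hdist : ∀ w ∈ ball y (2 * r), ‖w - x₀‖ + s / 2 ≤ R := by
        intro w hw
        have h1 : w ∈ ball x (3 / 2 * s) := hsub (ball_subset_ball (by linarith) hw)
        have h2 : ‖w - x‖ < 3 / 2 * s := by rwa [mem_ball, dist_eq_norm] at h1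
        have h3 : ‖w - x₀‖ ≤ ‖w - x‖ + ‖x - x₀‖ := norm_sub_le_norm_sub_add_norm_sub _ _ _
        linarith
      have hyy : ‖y - x₀‖ + s / 2 ≤ R := hdist y (mem_ball_self (by positivity))
      have hms : ∀ w ∈ ball y (2 * r), ∀ t, 0 < t → h ≤ t → t ≤ s / 2 →
          W.real (N5_372.ov π (ball w t)) ≤ C' * t ^ m := by
        intro w hw t ht hht hts
        have h1 := hMass k n c₀ W π κ x₀ R h₀ δ H hδd w s h hs hs1 hh (hdist w hw) (by
          intro ρ hρ hρ1 hρ2
          refine (hq w hw ρ hρ1 hρ2).trans ?_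
          have := hsq σ hσ hσσ
          gcongr) t ht hht hts
        exact ENNReal.toReal_le_of_le_ofReal (by positivity) h1
      have h2m : (1 : ℝ) ≤ 2 ^ m := one_le_pow₀ (by norm_num)
      refine hDv' n π κ W x₀ R h₀ δ H.as H.δ_nonneg H.δ_le H.h_nonneg H.h_le y r h σ (by linarith)
        hh0 hhr (by linarith) hσ (hσσ.trans hσ1) ?_ ?_ ?_ ?_
      · intro w hw
        refine (hms w hw h hh0 le_rfl (by linarith)).trans ?_
        have h1 : 0 ≤ C' * h ^ m := by positivity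
        nlinarith
      · refine (hms y (mem_ball_self (by positivity)) (2 * r) (by positivity) (by linarith)
          (by linarith)).trans (le_of_eq ?_)
        rw [mul_pow]
        ring
      · intro w hw
        exact hq w hw h le_rfl (by linarith)
      · filter_upwards [ae_sp W] with p hp hpb
        have h1 : ‖π p.1 - y‖ < 2 * r := by rwa [mem_ball, dist_eq_norm] at hpb
        have h2 : ‖π p.1 - x₀‖ ≤ ‖π p.1 - y‖ + ‖y - x₀‖ := norm_sub_le_norm_sub_add_norm_sub _ _ _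
        have h3 := H.low p.1 hp (h / 2) (by positivity) (ball_sub H.as.sp (by linarith))
        have h4 : W (ball p.1 (h / 2) ×ˢ univ) ≤ W {p' | ‖p.1 - p'.1‖ ≤ h / 2} := by
          refine measure_mono ?_
          rintro p' ⟨hp', -⟩
          show ‖p.1 - p'.1‖ ≤ h / 2
          rw [mem_ball, dist_eq_norm] at hp'
          rw [norm_sub_rev]
          exact hp'.le
        have h5 := (ENNReal.ofReal_le_iff_le_toReal (measure_ne_top _ _)).1 (h3.trans h4)
        calc c₀ / 2 ^ m * h ^ m = c₀ * (h / 2) ^ m := by rw [div_pow]; ring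
          _ ≤ _ := h5)
    (by
      rintro κ' e eL q x s ⟨n, π, κ, W, x₀, R, h₀, δ, S, H, hδd, rfl, hS, hs, hs1, hh, hx, rfl, rfl,
        rfl⟩ ε hε hε1
      have hfe := H.fin_e
      have hfin := H.finite
      obtain ⟨T, hT, hTe⟩ := H.fn
      refine (measure_mono (subset_quiet (eM W π) x s ε)).trans ?_
      refine (quiet_le H.as.sp.hh H.as.conc hT hTe hc₀ (H.low_map (by linarith)) hs hε).trans ?_
      have h1 : eM W π (ball x s) ≤ ENNReal.ofReal ((eM W π).real (ball x (2 * s))) := by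
        rw [ofReal_measureReal]
        exact measure_mono (ball_subset_ball (by linarith))
      refine (mul_le_mul_right h1 _).trans ?_
      rw [← ENNReal.ofReal_mul (by positivity)]
      apply ENNReal.ofReal_le_ofReal
      apply le_of_eq
      ring)
    hη
  refine ⟨δH, hδH, lam, hlam, min d (κ0 ^ 2), by positivity, ?_⟩
  intro n π κ W x₀ R h₀ δ H hδ S hS x s E hs hs1 hh hx hE hlE hL
  refine hmain (√δ) (eM W π) (lM W π S) (qM W π) x s
    ⟨n, π, κ, W, x₀, R, h₀, δ, S, H, hδ.trans (min_le_left _ _), rfl, hS, hs, hs1, hh, hx, rfl, rfl,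
      rfl⟩ ?_ E hE hlE hL
  rw [Real.sqrt_le_left hκ0.le]
  exact hδ.trans (min_le_right _ _)

end Crest.Agent.R234.Hol_746
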