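import Crest.Agent.R234.Pair6_762
import Crest.Agent.R234.AS_456
import Crest.Agent.R234.Asl2_214

-- ▼ part R234/Pas1_762
section

/-!
Row 234 (helper762), VF-DVAS, file 1: error densities of horizontal and vertical fields in the
class `AS`, derivative bounds of the two-point fields, the averaged vertical field.
-/

set_option autoImplicit false

open MeasureTheory Crest.GeometryTopology.Submanifold Filter Topology Set
open scoped ENNReal InnerProductSpace

noncomputable section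

namespace Crest.Agent.R234.Pas_762

open Crest.Agent.R234.Vf_884 Crest.Agent.R234.In_947
  Crest.Agent.R234.Pair2_762 Crest.Agent.R234.Pair3_762 Crest.Agent.R234.Pair4_762
  Crest.Agent.R234.Pair5_762 Crest.Agent.R234.Pair6_762 Crest.Agent.R234.Ar_870
open Crest.Agent.R234.Cy_870 (Split CylStat Shh)

variable {m n k : ℕ} {π : Euc k →L[ℝ] Euc m} {κ : Euc k →L[ℝ] Euc n}

/-! ### error densities -/

/-- `a = √τ`. -/
def af (π : Euc k →L[ℝ] Euc m) (p : Euc k × L k) : ℝ := √(tl π p.2)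

/-- `|y|`. -/
def yf (π : Euc k →L[ℝ] Euc m) (p : Euc k × L k) : ℝ := ‖AS_456.vp π p.1‖

/-- `s = √τ + |y|`. -/
def sf (π : Euc k →L[ℝ] Euc m) (p : Euc k × L k) : ℝ := √(tl π p.2) + ‖AS_456.vp π p.1‖

theorem sf_nonneg (p : Euc k × L k) : 0 ≤ sf π p := by unfold sf; positivity

theorem continuous_sf (π : Euc k →L[ℝ] Euc m) : Continuous (sf π) := by
  unfold sf
  exact (((measurable_tl π).comp continuous_snd).sqrt).add
    (((AS_456.vp π).continuous.comp continuous_fst).norm)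

theorem af_nonneg (p : Euc k × L k) : 0 ≤ af π p := Real.sqrt_nonneg _

theorem yf_nonneg (p : Euc k × L k) : 0 ≤ yf π p := norm_nonneg _

theorem sf_eq (p : Euc k × L k) : sf π p = af π p + yf π p := rfl

theorem continuous_af (π : Euc k →L[ℝ] Euc m) : Continuous (af (k := k) π) :=
  ((measurable_tl π).comp continuous_snd).sqrt

theorem continuous_yf (π : Euc k →L[ℝ] Euc m) : Continuous (yf (k := k) π) :=
  ((AS_456.vp π).continuous.comp continuous_fst).norm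


theorem vp_apply (z : Euc k) : AS_456.vp π z = z - hp π z := rfl

theorem hp_hp (hs : Split π κ) (v : Euc k) : hp π (hp π v) = hp π v :=
  G_idem_apply (hp_mem_G hs) v

theorem norm_hp_le (hs : Split π κ) (v : Euc k) : ‖hp π v‖ ≤ ‖v‖ :=
  G_norm_apply_le (hp_mem_G hs) v

theorem norm_vp_le (hs : Split π κ) (v : Euc k) : ‖AS_456.vp π v‖ ≤ ‖v‖ := by
  rw [vp_apply]
  have h1 := G_norm_sq_add (hp_mem_G hs) v
  have h2 : ‖v - hp π v‖ ^ 2 ≤ ‖v‖ ^ 2 := by nlinarith [sq_nonneg ‖hp π v‖]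
  exact (sq_le_sq₀ (norm_nonneg _) (norm_nonneg _)).1 h2

theorem hp_vp (hs : Split π κ) (v : Euc k) : hp π (AS_456.vp π v) = 0 := by
  rw [vp_apply, map_sub, hp_hp hs, sub_self]

theorem vp_hp (hs : Split π κ) (v : Euc k) : AS_456.vp π (hp π v) = 0 := by
  rw [vp_apply, hp_hp hs, sub_self]

/-- horizontal fields. -/
theorem errA_hor' (hs : Split π κ) {δ : ℝ} (h0 : 0 ≤ δ) {z : Euc k} {P A : L k} {v : Euc k}
    (hA : ∀ w, hp π (A w) = A w) (hv : hp π v = v) {a b c : ℝ} (ha : ‖A ∘L hp π‖ ≤ a)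
    (hb : ‖v‖ ≤ b) (hc : ‖A ∘L AS_456.vp π‖ ≤ c) (hP : P ∈ G m k) :
    AS_456.errA π δ z P A v ≤ δ * (tl π P + ‖AS_456.vp π z‖ ^ 2) * (a + b)
      + δ * (√(tl π P) + ‖AS_456.vp π z‖) * c := by
  have e1 : AS_456.hp π ∘L A ∘L AS_456.hp π = A ∘L hp π := by
    ext1 w; exact hA _
  have e2 : AS_456.hp π ∘L A ∘L AS_456.vp π = A ∘L AS_456.vp π := by
    ext1 w; exact hA _
  have e3 : ∀ B : L k, AS_456.vp π ∘L A ∘L B = 0 := by
    intro B
    ext1 w
    show AS_456.vp π (A (B w)) = 0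
    rw [← hA, vp_hp hs]
  have e4 : AS_456.vp π v = 0 := by rw [← hv, vp_hp hs]
  have e5 : AS_456.hp π v = v := hv
  have ht := tl_nonneg hs.hh (isPr_of_G hP)
  unfold AS_456.errA
  rw [e1, e2, e3, e3, e4, e5]
  have h1 : δ * (tl π P + ‖AS_456.vp π z‖ ^ 2) * (‖A ∘L hp π‖ + ‖v‖)
      ≤ δ * (tl π P + ‖AS_456.vp π z‖ ^ 2) * (a + b) := by gcongr
  have h2 : δ * (√(tl π P) + ‖AS_456.vp π z‖) * ‖A ∘L AS_456.vp π‖
      ≤ δ * (√(tl π P) + ‖AS_456.vp π z‖) * c := by gcongr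
  simp only [norm_zero, add_zero, mul_zero]
  linarith

/-- vertical fields. -/
theorem errA_ver' (hs : Split π κ) {δ : ℝ} (h0 : 0 ≤ δ) {z : Euc k} {P A : L k} {v : Euc k}
    (hA : ∀ w, hp π (A w) = 0) (hv : hp π v = 0) {a b c : ℝ}
    (ha : ‖A ∘L hp π‖ ≤ a) (hb : ‖v‖ ≤ b) (hc : ‖A ∘L AS_456.vp π‖ ≤ c) (hP : P ∈ G m k) :
    AS_456.errA π δ z P A v ≤ δ * (√(tl π P) + ‖AS_456.vp π z‖) * (a + b)
      + δ * (tl π P + ‖AS_456.vp π z‖ * √(tl π P)) * c + √δ * tl π P * b := by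
  have e1 : ∀ B : L k, AS_456.hp π ∘L A ∘L B = 0 := by
    intro B; ext1 w; exact hA _
  have hvA : ∀ w, AS_456.vp π (A w) = A w := fun w => by
    rw [vp_apply, hA, sub_zero]
  have e3 : ∀ B : L k, AS_456.vp π ∘L A ∘L B = A ∘L B := by
    intro B; ext1 w; exact hvA _
  have e4 : AS_456.vp π v = v := by rw [vp_apply, hv, sub_zero]
  have e5 : AS_456.hp π v = 0 := hv
  have ht := tl_nonneg hs.hh (isPr_of_G hP)
  have hd := Real.sqrt_nonneg δ
  unfold AS_456.errA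
  rw [e1, e1, e3, e3, e4, e5]
  have h1 : δ * (√(tl π P) + ‖AS_456.vp π z‖) * (‖A ∘L hp π‖ + ‖v‖)
      ≤ δ * (√(tl π P) + ‖AS_456.vp π z‖) * (a + b) := by gcongr
  have h2 : δ * (tl π P + ‖AS_456.vp π z‖ * √(tl π P)) * ‖A ∘L AS_456.vp π‖
      ≤ δ * (tl π P + ‖AS_456.vp π z‖ * √(tl π P)) * c := by gcongr
  have h3 : √δ * tl π P * ‖v‖ ≤ √δ * tl π P * b := by gcongr
  simp only [norm_zero, add_zero, mul_zero, zero_add]
  have e6 : AS_456.hp π = hp π := rfl
  rw [e6]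
  linarith

/-! ### derivative bounds -/

theorem norm_Dth_apply_le {j : ℕ} {p : L k} (hp' : p ∈ G j k) {h : ℝ} (hh : 0 < h)
    (x v : Euc k) : ‖Dth p h x v‖ ≤ 2 * ‖v‖ := by
  have hu := uu_pos p h x
  have hs : 0 < √(uu p h x) := Real.sqrt_pos.2 hu
  have h1 : 1 ≤ √(uu p h x) := by rw [Real.one_le_sqrt]; exact one_le_uu p h x
  have hq : ∀ w : Euc k, ‖w - p w‖ ≤ ‖w‖ := fun w => by
    have h1 := G_norm_sq_add hp' w
    have h2 : ‖w - p w‖ ^ 2 ≤ ‖w‖ ^ 2 := by nlinarith [sq_nonneg ‖p w‖]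
    exact (sq_le_sq₀ (norm_nonneg _) (norm_nonneg _)).1 h2
  have e2 : Dth p h x v = (√(uu p h x))⁻¹ • (v - p v)
      - ((h ^ 2 * (uu p h x * √(uu p h x)))⁻¹ * ⟪x - p x, v - p v⟫_ℝ) • (x - p x) := rfl
  rw [e2]
  refine (norm_sub_le _ _).trans ?_
  rw [norm_smul, norm_smul, norm_inv, Real.norm_eq_abs, abs_of_pos hs, Real.norm_eq_abs, abs_mul,
    abs_of_nonneg (by positivity : 0 ≤ (h ^ 2 * (uu p h x * √(uu p h x)))⁻¹)]
  have h2 : (√(uu p h x))⁻¹ * ‖v - p v‖ ≤ ‖v‖ := by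
    have : (√(uu p h x))⁻¹ ≤ 1 := inv_le_one_of_one_le₀ h1
    calc (√(uu p h x))⁻¹ * ‖v - p v‖ ≤ 1 * ‖v‖ :=
          mul_le_mul this (hq v) (norm_nonneg _) zero_le_one
      _ = ‖v‖ := one_mul _
  have h3 : (h ^ 2 * (uu p h x * √(uu p h x)))⁻¹ * |⟪x - p x, v - p v⟫_ℝ| * ‖x - p x‖
      ≤ ‖v‖ := by
    have h4 : |⟪x - p x, v - p v⟫_ℝ| ≤ ‖x - p x‖ * ‖v‖ :=
      (abs_real_inner_le_norm _ _).trans (mul_le_mul_of_nonneg_left (hq v) (norm_nonneg _))
    have h5 : ‖x - p x‖ * ‖x - p x‖ ≤ h ^ 2 * uu p h x := by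
      have : h ^ 2 * uu p h x = h ^ 2 + ‖x - p x‖ ^ 2 := by
        unfold uu; field_simp
      rw [this]; nlinarith [sq_nonneg h]
    calc (h ^ 2 * (uu p h x * √(uu p h x)))⁻¹ * |⟪x - p x, v - p v⟫_ℝ| * ‖x - p x‖
        ≤ (h ^ 2 * (uu p h x * √(uu p h x)))⁻¹ * (‖x - p x‖ * ‖v‖) * ‖x - p x‖ := by gcongr
      _ = (h ^ 2 * (uu p h x * √(uu p h x)))⁻¹ * (‖x - p x‖ * ‖x - p x‖) * ‖v‖ := by ring
      _ ≤ (h ^ 2 * (uu p h x * √(uu p h x)))⁻¹ * (h ^ 2 * uu p h x) * ‖v‖ := by gcongr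
      _ = (√(uu p h x))⁻¹ * ‖v‖ := by field_simp
      _ ≤ 1 * ‖v‖ := by gcongr; exact inv_le_one_of_one_le₀ h1
      _ = ‖v‖ := one_mul _
  linarith

theorem Dth_hor {j : ℕ} {p : L k} (hp' : p ∈ G j k) (h : ℝ) (x v : Euc k) :
    Dth p h x (p v) = 0 := by
  have e2 : Dth p h x (p v) = (√(uu p h x))⁻¹ • (p v - p (p v))
      - ((h ^ 2 * (uu p h x * √(uu p h x)))⁻¹ * ⟪x - p x, p v - p (p v)⟫_ℝ) • (x - p x) := rfl
  rw [e2, G_idem_apply hp', sub_self, smul_zero, inner_zero_right, mul_zero, zero_smul, sub_zero]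

theorem p_Dth {j : ℕ} {p : L k} (hp' : p ∈ G j k) (h : ℝ) (x v : Euc k) :
    p (Dth p h x v) = 0 := by
  have e2 : Dth p h x v = (√(uu p h x))⁻¹ • (v - p v)
      - ((h ^ 2 * (uu p h x * √(uu p h x)))⁻¹ * ⟪x - p x, v - p v⟫_ℝ) • (x - p x) := rfl
  rw [e2, map_sub, map_smul, map_smul, map_sub, map_sub, G_idem_apply hp', G_idem_apply hp',
    sub_self, sub_self, smul_zero, smul_zero, sub_zero]

section

variable {H : L k} {K : Set (Euc k)} {Λ τ h : ℝ} {φ : Euc k → ℝ}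

theorem ww_le_one (hφ : Cut H K Λ φ) (x y : Euc k) : ww H τ φ x y ≤ 1 := by
  unfold ww
  exact mul_le_one₀ (mul_le_one₀ (hφ.le_one x) (hφ.nonneg y) (hφ.le_one y))
    (kap_nonneg H τ _) (kap_le_one H τ _)

theorem ww_nonneg (hφ : Cut H K Λ φ) (x y : Euc k) : 0 ≤ ww H τ φ x y :=
  mul_nonneg (mul_nonneg (hφ.nonneg x) (hφ.nonneg y)) (kap_nonneg H τ _)

theorem not_near {x y : Euc k} (h : ¬ near H τ φ x y) :
    (φ x = 0 ∨ φ y = 0) ∨ τ ≤ ‖H (x - y)‖ := by
  unfold near at h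
  by_contra hcon
  push Not at hcon
  exact h ⟨hcon.1.1, hcon.1.2, hcon.2⟩

theorem ww_eq_zero (hτ : 0 < τ) {x y : Euc k} (h : ¬ near H τ φ x y) : ww H τ φ x y = 0 := by
  unfold ww
  rcases not_near h with (h | h) | h
  · rw [h]; ring
  · rw [h]; ring
  · rw [kap_eq_zero hτ h]; ring

theorem D2_eq_zero (hφ : Cut H K Λ φ) (hH : ∀ x, H (H x) = H x) (hτ : 0 < τ) {x y : Euc k}
    (h : ¬ near H τ φ x y) : Pt_615.D2 (ww H τ φ) x y = 0 := by
  rw [D2_ww hφ hH]
  rcases not_near h with (h | h) | h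
  · rw [h]; simp
  · rw [h, hφ.fderiv_eq_zero h]; simp
  · rw [kap_eq_zero hτ h, Dkap_eq_zero hτ h]; simp

theorem D1_eq_zero (hφ : Cut H K Λ φ) (hH : ∀ x, H (H x) = H x) (hτ : 0 < τ) {x y : Euc k}
    (h : ¬ near H τ φ x y) : Pt_615.D1 (ww H τ φ) x y = 0 := by
  rw [D1_ww hφ hH]
  rcases not_near h with (h | h) | h
  · rw [h, hφ.fderiv_eq_zero h]; simp
  · rw [h]; simp
  · rw [kap_eq_zero hτ h, Dkap_eq_zero hτ h]; simp

theorem abs_D2_le (hφ : Cut H K Λ φ) (hH : ∀ x, H (H x) = H x) (hH1 : ∀ x, ‖H x‖ ≤ ‖x‖)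
    (hτ : 0 < τ) (x y v : Euc k) : |Pt_615.D2 (ww H τ φ) x y v| ≤ (Λ + 4 / τ) * ‖v‖ := by
  rw [D2_ww hφ hH]
  have e2 : ((φ x * kap H τ (x - y)) • fderiv ℝ φ y - (φ x * φ y) • Dkap H τ (x - y)) v
      = φ x * kap H τ (x - y) * fderiv ℝ φ y v - φ x * φ y * Dkap H τ (x - y) v := by
    simp only [sub_apply, smul_apply, smul_eq_mul]
  rw [e2]
  refine (abs_sub _ _).trans ?_
  have hk0 := kap_nonneg H τ (x - y)
  have hk1 := kap_le_one H τ (x - y)
  have hb : ∀ c z : ℝ, 0 ≤ c → c ≤ 1 → |c * z| ≤ |z| := fun c z h0 h1 => by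
    rw [abs_mul, abs_of_nonneg h0]
    exact mul_le_of_le_one_left (abs_nonneg _) h1
  have i1 := hb (φ x * kap H τ (x - y)) (fderiv ℝ φ y v) (mul_nonneg (hφ.nonneg x) hk0)
    (mul_le_one₀ (hφ.le_one x) hk0 hk1)
  have i2 := hb (φ x * φ y) (Dkap H τ (x - y) v) (mul_nonneg (hφ.nonneg x) (hφ.nonneg y))
    (mul_le_one₀ (hφ.le_one x) (hφ.nonneg y) (hφ.le_one y))
  have i3 : |fderiv ℝ φ y v| ≤ Λ * ‖v‖ :=
    ((fderiv ℝ φ y).le_opNorm v).trans (mul_le_mul_of_nonneg_right (hφ.lip y) (norm_nonneg _))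
  have i4 := abs_Dkap_le hτ hH1 (x - y) v
  rw [add_mul]
  linarith

theorem abs_D1_le (hφ : Cut H K Λ φ) (hH : ∀ x, H (H x) = H x) (hH1 : ∀ x, ‖H x‖ ≤ ‖x‖)
    (hτ : 0 < τ) (x y v : Euc k) : |Pt_615.D1 (ww H τ φ) x y v| ≤ (Λ + 4 / τ) * ‖v‖ := by
  rw [← Pt_615.D2_eq (ker_ww (τ := τ) hφ hH)]
  exact abs_D2_le hφ hH hH1 hτ y x v

/-- `D₁ w + D₂ w` is only the cut-off part. -/
theorem abs_D1_add_D2_le (hφ : Cut H K Λ φ) (hH : ∀ x, H (H x) = H x)
    (x y v : Euc k) :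
    |Pt_615.D1 (ww H τ φ) x y v + Pt_615.D2 (ww H τ φ) x y v| ≤ 2 * Λ * ‖v‖ := by
  rw [D1_ww hφ hH, D2_ww hφ hH]
  have e1 : ((φ y * kap H τ (x - y)) • fderiv ℝ φ x + (φ x * φ y) • Dkap H τ (x - y)) v
      + ((φ x * kap H τ (x - y)) • fderiv ℝ φ y - (φ x * φ y) • Dkap H τ (x - y)) v
      = φ y * kap H τ (x - y) * fderiv ℝ φ x v + φ x * kap H τ (x - y) * fderiv ℝ φ y v := by
    simp only [add_apply, sub_apply, smul_apply, smul_eq_mul]
    ring
  rw [e1]
  refine (abs_add_le _ _).trans ?_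
  have hk0 := kap_nonneg H τ (x - y)
  have hk1 := kap_le_one H τ (x - y)
  have hb : ∀ c z : ℝ, 0 ≤ c → c ≤ 1 → |c * z| ≤ |z| := fun c z h0 h1 => by
    rw [abs_mul, abs_of_nonneg h0]
    exact mul_le_of_le_one_left (abs_nonneg _) h1
  have hd : ∀ z v : Euc k, |fderiv ℝ φ z v| ≤ Λ * ‖v‖ := fun z v =>
      ((fderiv ℝ φ z).le_opNorm v).trans (mul_le_mul_of_nonneg_right (hφ.lip z) (norm_nonneg _))
  have i1 := (hb _ (fderiv ℝ φ x v) (mul_nonneg (hφ.nonneg y) hk0)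
    (mul_le_one₀ (hφ.le_one y) hk0 hk1)).trans (hd x v)
  have i2 := (hb _ (fderiv ℝ φ y v) (mul_nonneg (hφ.nonneg x) hk0)
    (mul_le_one₀ (hφ.le_one x) hk0 hk1)).trans (hd y v)
  linarith

end

end Crest.Agent.R234.Pas_762
end
end

-- ▼ part R234/Pas2_762
section

/-!
Row 234 (helper762), VF-DVAS, file 2: the horizontal two-point fields, the averaged vertical
field and its derivative.
-/

set_option autoImplicit false

open MeasureTheory Crest.GeometryTopology.Submanifold Filter Topology Set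
open scoped ENNReal InnerProductSpace

noncomputable section

namespace Crest.Agent.R234.Pas_762

open Crest.Agent.R234.Vf_884 Crest.Agent.R234.In_947
  Crest.Agent.R234.Pair2_762 Crest.Agent.R234.Pair3_762 Crest.Agent.R234.Pair4_762
  Crest.Agent.R234.Pair5_762 Crest.Agent.R234.Pair6_762 Crest.Agent.R234.Ar_870
open Crest.Agent.R234.Cy_870 (Split CylStat Shh)

variable {m n k : ℕ} {π : Euc k →L[ℝ] Euc m} {κ : Euc k →L[ℝ] Euc n}

/-- almost stationary measures over a cylinder. -/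
structure CAS (W : Measure (Euc k × L k)) (π : Euc k →L[ℝ] Euc m) (κ : Euc k →L[ℝ] Euc n)
    (x₀ : Euc m) (R h₀ δ : ℝ) : Prop where
  cb : CylBase W π κ
  hgt : ∀ᵐ p ∂W, ‖κ p.1‖ ≤ h₀
  fv : ∀ X : Euc k → Euc k, ContDiff ℝ 1 X → (∀ p, R ≤ ‖π p - x₀‖ → X p = 0) →
    |Pt_615.FV W X| ≤ ∫ p, AS_456.err π δ X p ∂W

/-! ### the horizontal two-point field -/

section hor

variable {K : Set (Euc k)} {Λ τ h : ℝ} {φ : Euc k → ℝ} {B : L k} {b : ℝ}

/-- `y ↦ w(z, y) B θ(z - y)`. -/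
def YB (π : Euc k →L[ℝ] Euc m) (τ h : ℝ) (φ : Euc k → ℝ) (B : L k) (z y : Euc k) : Euc k :=
  ww (hp π) τ φ z y • B (th (hp π) h (z - y))

/-- its derivative. -/
def DYB (π : Euc k →L[ℝ] Euc m) (τ h : ℝ) (φ : Euc k → ℝ) (B : L k) (z y : Euc k) : L k :=
  ww (hp π) τ φ z y • (-(B ∘L Dth (hp π) h (z - y)))
    + (Pt_615.D2 (ww (hp π) τ φ) z y).smulRight (B (th (hp π) h (z - y)))

theorem hasFDerivAt_YB (hs : Split π κ) (hφ : Cut (hp π) K Λ φ) (z y : Euc k) :
    HasFDerivAt (YB π τ h φ B z) (DYB π τ h φ B z y) y := by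
  have h1 := Pt_615.hasFDerivAt_D2 (ker_ww (τ := τ) hφ (hp_hp hs)) z y
  have h2 : HasFDerivAt (fun y : Euc k => B (th (hp π) h (z - y)))
      (-(B ∘L Dth (hp π) h (z - y))) y := by
    have h3 := hasFDerivAt_th (hp π) h (z - y)
    have h4 : HasFDerivAt (fun y : Euc k => z - y) (-(ContinuousLinearMap.id ℝ (Euc k))) y :=
      (hasFDerivAt_id y).const_sub z
    have h5 := B.hasFDerivAt.comp y (h3.comp y h4)
    refine h5.congr_fderiv ?_
    ext v; simp
  exact h1.smul h2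

theorem contDiff_YB (hs : Split π κ) (hφ : Cut (hp π) K Λ φ) (z : Euc k) :
    ContDiff ℝ 1 (YB π τ h φ B z) := by
  have h1 : ContDiff ℝ 1 (fun y : Euc k => ww (hp π) τ φ z y) :=
    (ker_ww (τ := τ) hφ (hp_hp hs)).smooth.comp (contDiff_const.prodMk contDiff_id)
  exact h1.smul (B.contDiff.comp ((contDiff_th (hp π) h).comp (contDiff_const.sub contDiff_id)))

theorem DYB_apply (z y v : Euc k) :
    DYB π τ h φ B z y v = -(ww (hp π) τ φ z y • B (Dth (hp π) h (z - y) v))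
      + Pt_615.D2 (ww (hp π) τ φ) z y v • B (th (hp π) h (z - y)) := by
  simp [DYB]

/-- **error density of the horizontal two-point field.** -/
theorem err_YB_le (hs : Split π κ) (hφ : Cut (hp π) K Λ φ) (hτ : 0 < τ) (hh : 0 < h)
    {δ : ℝ} (h0 : 0 ≤ δ) (hB : ∀ w, hp π (B w) = B w) (hb0 : 0 ≤ b)
    (hb : ∀ v, hp π v = 0 → ‖B v‖ ≤ b * ‖v‖) (z : Euc k) {p : Euc k × L k}
    (hP : p.2 ∈ G m k) :
    AS_456.err π δ (YB π τ h φ B z) p ≤ (nb (hp π) τ φ z).indicator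
      (fun p => δ * b * ((h * (Λ + 4 / τ) + h) * sf π p ^ 2 + 2 * sf π p)) p := by
  have hΛ := hφ.nonneg_lip
  have hd : fderiv ℝ (YB π τ h φ B z) p.1 = DYB π τ h φ B z p.1 :=
    (hasFDerivAt_YB hs hφ z p.1).fderiv
  have hth : ‖B (th (hp π) h (z - p.1))‖ ≤ b * h :=
    (hb _ (p_th (hp_mem_G hs) _)).trans
      (mul_le_mul_of_nonneg_left (norm_th_le_h (hp π) hh _) hb0)
  by_cases hn : near (hp π) τ φ z p.1
  · rw [Set.indicator_of_mem (show p ∈ nb (hp π) τ φ z from hn)]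
    have hw1 := ww_le_one (τ := τ) hφ z p.1
    have hw0 := ww_nonneg (τ := τ) hφ z p.1
    have hA : ∀ w, hp π (DYB π τ h φ B z p.1 w) = DYB π τ h φ B z p.1 w := by
      intro w
      rw [DYB_apply, map_add, map_neg, map_smul, map_smul, hB, hB]
    have hv : hp π (YB π τ h φ B z p.1) = YB π τ h φ B z p.1 := by
      unfold YB; rw [map_smul, hB]
    have ha : ‖DYB π τ h φ B z p.1 ∘L hp π‖ ≤ (Λ + 4 / τ) * (b * h) := by
      refine ContinuousLinearMap.opNorm_le_bound _ (by positivity) fun v => ?_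
      rw [ContinuousLinearMap.comp_apply, DYB_apply, Dth_hor (hp_mem_G hs), map_zero, smul_zero,
        neg_zero, zero_add, norm_smul, Real.norm_eq_abs]
      calc |Pt_615.D2 (ww (hp π) τ φ) z p.1 (hp π v)| * ‖B (th (hp π) h (z - p.1))‖
          ≤ ((Λ + 4 / τ) * ‖hp π v‖) * (b * h) :=
            mul_le_mul (abs_D2_le hφ (hp_hp hs) (norm_hp_le hs) hτ _ _ _) hth
              (norm_nonneg _) (by positivity)
        _ ≤ ((Λ + 4 / τ) * ‖v‖) * (b * h) := by gcongr; exact norm_hp_le hs v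
        _ = _ := by ring
    have hbb : ‖YB π τ h φ B z p.1‖ ≤ b * h := by
      unfold YB
      rw [norm_smul, Real.norm_eq_abs, abs_of_nonneg hw0]
      calc ww (hp π) τ φ z p.1 * ‖B (th (hp π) h (z - p.1))‖ ≤ 1 * (b * h) :=
            mul_le_mul hw1 hth (norm_nonneg _) zero_le_one
        _ = _ := one_mul _
    have hc : ‖DYB π τ h φ B z p.1 ∘L AS_456.vp π‖ ≤ 2 * b := by
      refine ContinuousLinearMap.opNorm_le_bound _ (by positivity) fun v => ?_
      rw [ContinuousLinearMap.comp_apply, DYB_apply]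
      have e1 : Pt_615.D2 (ww (hp π) τ φ) z p.1 (AS_456.vp π v) = 0 := by
        rw [← Pt_615.D2_hor (ker_ww (τ := τ) hφ (hp_hp hs)) (G_idem (hp_mem_G hs)), hp_vp hs,
          map_zero]
      rw [e1, zero_smul, add_zero, norm_neg, norm_smul, Real.norm_eq_abs, abs_of_nonneg hw0]
      calc ww (hp π) τ φ z p.1 * ‖B (Dth (hp π) h (z - p.1) (AS_456.vp π v))‖
          ≤ 1 * (b * (2 * ‖v‖)) := by
            refine mul_le_mul hw1 ?_ (norm_nonneg _) zero_le_one
            refine (hb _ (p_Dth (hp_mem_G hs) _ _ _)).trans ?_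
            refine mul_le_mul_of_nonneg_left ?_ hb0
            refine (norm_Dth_apply_le (hp_mem_G hs) hh _ _).trans ?_
            exact mul_le_mul_of_nonneg_left (norm_vp_le hs v) (by norm_num)
        _ = 2 * b * ‖v‖ := by ring
    have h1 := errA_hor' hs h0 (z := p.1) hA hv ha hbb hc hP
    unfold AS_456.err
    rw [hd]
    refine h1.trans ?_
    have ht := tl_nonneg hs.hh (isPr_of_G hP)
    have e2 : tl π p.2 + ‖AS_456.vp π p.1‖ ^ 2 ≤ sf π p ^ 2 := by
      unfold sf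
      have := Real.sq_sqrt ht
      have := Real.sqrt_nonneg (tl π p.2)
      have := norm_nonneg (AS_456.vp π p.1)
      nlinarith [mul_nonneg (Real.sqrt_nonneg (tl π p.2)) (norm_nonneg (AS_456.vp π p.1))]
    have e3 : δ * (tl π p.2 + ‖AS_456.vp π p.1‖ ^ 2) * ((Λ + 4 / τ) * (b * h) + b * h)
        ≤ δ * sf π p ^ 2 * ((Λ + 4 / τ) * (b * h) + b * h) := by gcongr
    have e4 : δ * (√(tl π p.2) + ‖AS_456.vp π p.1‖) * (2 * b) = δ * sf π p * (2 * b) := rfl
    rw [e4]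
    refine (add_le_add e3 le_rfl).trans (le_of_eq ?_)
    ring
  · rw [Set.indicator_of_notMem (show p ∉ nb (hp π) τ φ z from hn)]
    have e1 : DYB π τ h φ B z p.1 = 0 := by
      unfold DYB
      rw [ww_eq_zero hτ hn, D2_eq_zero hφ (hp_hp hs) hτ hn]
      simp
    have e2 : YB π τ h φ B z p.1 = 0 := by
      unfold YB; rw [ww_eq_zero hτ hn, zero_smul]
    unfold AS_456.err
    rw [hd, e1, e2]
    simp [AS_456.errA]

theorem continuous_bd (c₁ c₂ : ℝ) : Continuous fun p : Euc k × L k =>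
    c₁ * sf π p ^ 2 + c₂ * sf π p :=
  ((continuous_const.mul ((continuous_sf π).pow 2)).add
    (continuous_const.mul (continuous_sf π)))

variable {W : Measure (Euc k × L k)} {x₀ x : Euc m} {R h₀ δ r : ℝ}

theorem YB_supp (hs : Split π κ) (hφ : Cut (hp π) {y | ‖π y - x₀‖ < R} Λ φ) (z y : Euc k)
    (hy : R ≤ ‖π y - x₀‖) : YB π τ h φ B z y = 0 := by
  unfold YB
  rw [Pt_615.supp' (ker_ww (τ := τ) hφ (hp_hp hs)), zero_smul]
  show ¬ ‖π (hp π y) - x₀‖ < R
  rw [pi_hp hs]; exact not_lt.2 hy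

/-- **first variation of the horizontal two-point field.** -/
theorem FV_YB_le [IsFiniteMeasure W] (hW : CAS W π κ x₀ R h₀ δ)
    (hφ : Cut (hp π) {y | ‖π y - x₀‖ < R} Λ φ) (hτ : 0 < τ) (hh : 0 < h)
    (h0 : 0 ≤ δ) (hB : ∀ w, hp π (B w) = B w) (hb0 : 0 ≤ b)
    (hb : ∀ v, hp π v = 0 → ‖B v‖ ≤ b * ‖v‖) (z : Euc k) :
    |Pt_615.FV W (YB π τ h φ B z)| ≤ b * ∫ p in nb (hp π) τ φ z,
      (δ * (h * (Λ + 4 / τ) + h) * sf π p ^ 2 + δ * 2 * sf π p) ∂W := by
  have hs := hW.cb.sp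
  refine (hW.fv _ (contDiff_YB hs hφ z) (YB_supp hs hφ z)).trans ?_
  have hm : MeasurableSet (nb (k := k) (hp π) τ φ z) :=
    (isOpen_nb hφ.smooth.continuous z).measurableSet
  have hi := integrable_one hW.cb.base
    (continuous_bd (π := π) (δ * (h * (Λ + 4 / τ) + h)) (δ * 2))
  rw [← integral_indicator hm, ← integral_const_mul]
  have hm2 : ∀ᵐ p ∂W, AS_456.err π δ (YB π τ h φ B z) p ≤ b * (nb (hp π) τ φ z).indicator
      (fun p => δ * (h * (Λ + 4 / τ) + h) * sf π p ^ 2 + δ * 2 * sf π p) p := by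
    filter_upwards [hW.cb.base.conc] with p hP
    refine (err_YB_le hs hφ hτ hh h0 hB hb0 hb z hP).trans (le_of_eq ?_)
    by_cases hn : p ∈ nb (hp π) τ φ z
    · rw [Set.indicator_of_mem hn, Set.indicator_of_mem hn]; ring
    · rw [Set.indicator_of_notMem hn, Set.indicator_of_notMem hn, mul_zero]
  refine integral_mono_of_nonneg ?_ ((hi.indicator hm).const_mul b) hm2
  filter_upwards [hW.cb.base.conc] with p hP
  have ht := tl_nonneg hs.hh (isPr_of_G hP)
  show 0 ≤ AS_456.err π δ (YB π τ h φ B z) p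
  unfold AS_456.err AS_456.errA
  positivity

/-- the first variation of the horizontal two-point field, computed. -/
theorem FV_YB_eq (hs : Split π κ) (hφ : Cut (hp π) K Λ φ) (z : Euc k) :
    Pt_615.FV W (YB π τ h φ B z) = ∫ p, (Pt_615.D2 (ww (hp π) τ φ) z p.1
        (p.2 (B (th (hp π) h (z - p.1))))
      - ww (hp π) τ φ z p.1 * tr ((B ∘L Dth (hp π) h (z - p.1)) ∘L p.2)) ∂W := by
  unfold Pt_615.FV
  refine integral_congr_ae (Filter.Eventually.of_forall fun p => ?_)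
  show tr ((fderiv ℝ (YB π τ h φ B z) p.1) ∘L p.2) = _
  rw [(hasFDerivAt_YB hs hφ z p.1).fderiv, DYB, ContinuousLinearMap.add_comp, map_add,
    tr_smulRight_comp]
  have h5 : (ww (hp π) τ φ z p.1 • (-(B ∘L Dth (hp π) h (z - p.1)))) ∘L p.2
      = -(ww (hp π) τ φ z p.1 • ((B ∘L Dth (hp π) h (z - p.1)) ∘L p.2)) := by
    ext v; simp
  rw [h5, map_neg, map_smul, smul_eq_mul]
  ring

end hor

end Crest.Agent.R234.Pas_762
end
end

-- ▼ part R234/Pas3_762
section

/-!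
Row 234 (helper762), VF-DVAS, file 3: the averaged vertical field
`XA z = ∫ w(z, z') θ(z - z') dW(z')`: derivative, bounds, error density.
-/

set_option autoImplicit false

open MeasureTheory Crest.GeometryTopology.Submanifold Filter Topology Set
open scoped ENNReal InnerProductSpace

noncomputable section

namespace Crest.Agent.R234.Pas_762

open Crest.Agent.R234.Vf_884 Crest.Agent.R234.In_947
  Crest.Agent.R234.Pair2_762 Crest.Agent.R234.Pair3_762 Crest.Agent.R234.Pair4_762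
  Crest.Agent.R234.Pair5_762 Crest.Agent.R234.Pair6_762 Crest.Agent.R234.Ar_870
open Crest.Agent.R234.Cy_870 (Split CylStat Shh)

variable {m n k : ℕ} {π : Euc k →L[ℝ] Euc m} {κ : Euc k →L[ℝ] Euc n}
  {K : Set (Euc k)} {Λ τ h : ℝ} {φ : Euc k → ℝ} {W : Measure (Euc k × L k)}

theorem integrable_oneE {E : Type*} [NormedAddCommGroup E] [IsFiniteMeasure W]
    (hV : Pt_615.HBase m W) {f : Euc k × L k → E}
    (hf : Continuous f) : Integrable f W := by
  obtain ⟨R, hR⟩ := hV.bdd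
  have hCc : IsCompact (Metric.closedBall (0 : Euc k) R ×ˢ G m k) :=
    (isCompact_closedBall _ _).prod (isCompact_G m k)
  obtain ⟨B, hB⟩ := hCc.exists_bound_of_continuousOn hf.continuousOn
  refine Integrable.of_bound (C := B) (hf.aestronglyMeasurable) ?_
  filter_upwards [hR, hV.conc] with p h1 h2
  exact hB p ⟨by simpa using h1, h2⟩

/-- the integrand. -/
def FX (π : Euc k →L[ℝ] Euc m) (τ h : ℝ) (φ : Euc k → ℝ) (z : Euc k) (p : Euc k × L k) : Euc k :=
  ww (hp π) τ φ z p.1 • th (hp π) h (z - p.1)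

/-- derivative of the integrand. -/
def DFX (π : Euc k →L[ℝ] Euc m) (τ h : ℝ) (φ : Euc k → ℝ) (z : Euc k) (p : Euc k × L k) : L k :=
  ww (hp π) τ φ z p.1 • Dth (hp π) h (z - p.1)
    + (Pt_615.D1 (ww (hp π) τ φ) z p.1).smulRight (th (hp π) h (z - p.1))

/-- the averaged field. -/
def XA (W : Measure (Euc k × L k)) (π : Euc k →L[ℝ] Euc m) (τ h : ℝ) (φ : Euc k → ℝ)
    (z : Euc k) : Euc k := ∫ p, FX π τ h φ z p ∂W

/-- its derivative. -/
def DXA (W : Measure (Euc k × L k)) (π : Euc k →L[ℝ] Euc m) (τ h : ℝ) (φ : Euc k → ℝ)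
    (z : Euc k) : L k := ∫ p, DFX π τ h φ z p ∂W

theorem continuous_Dth (p : L k) (h : ℝ) : Continuous (Dth p h) := by
  have : Dth p h = fderiv ℝ (th p h) := funext fun x => (fderiv_th p h x).symm
  rw [this]
  exact (contDiff_th p h).continuous_fderiv one_ne_zero

theorem hasFDerivAt_FX (hs : Split π κ) (hφ : Cut (hp π) K Λ φ) (z : Euc k)
    (p : Euc k × L k) : HasFDerivAt (fun z => FX π τ h φ z p) (DFX π τ h φ z p) z := by
  have h1 := Pt_615.hasFDerivAt_D1 (ker_ww (τ := τ) hφ (hp_hp hs)) z p.1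
  have h2 : HasFDerivAt (fun z : Euc k => th (hp π) h (z - p.1)) (Dth (hp π) h (z - p.1)) z := by
    have h4 : HasFDerivAt (fun z : Euc k => z - p.1) (ContinuousLinearMap.id ℝ (Euc k)) z :=
      (hasFDerivAt_id z).sub_const p.1
    have h5 := (hasFDerivAt_th (hp π) h (z - p.1)).comp z h4
    rwa [ContinuousLinearMap.comp_id] at h5
  exact h1.smul h2

theorem continuous_FX (hs : Split π κ) (hφ : Cut (hp π) K Λ φ) :
    Continuous (fun q : Euc k × (Euc k × L k) => FX π τ h φ q.1 q.2) := by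
  have hw : Continuous (fun q : Euc k × (Euc k × L k) => ww (hp π) τ φ q.1 q.2.1) :=
    (ker_ww (τ := τ) hφ (hp_hp hs)).smooth.continuous.comp (by fun_prop :
      Continuous fun q : Euc k × (Euc k × L k) => (q.1, q.2.1))
  exact hw.smul ((contDiff_th (hp π) h).continuous.comp (by fun_prop))

theorem continuous_DFX (hs : Split π κ) (hφ : Cut (hp π) K Λ φ) :
    Continuous (fun q : Euc k × (Euc k × L k) => DFX π τ h φ q.1 q.2) := by
  have hw : Continuous (fun q : Euc k × (Euc k × L k) => ww (hp π) τ φ q.1 q.2.1) :=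
    (ker_ww (τ := τ) hφ (hp_hp hs)).smooth.continuous.comp (by fun_prop :
      Continuous fun q : Euc k × (Euc k × L k) => (q.1, q.2.1))
  have hD : Continuous (fun q : Euc k × (Euc k × L k) => Pt_615.D1 (ww (hp π) τ φ) q.1 q.2.1) :=
    (Pt_615.continuous_D1 (ker_ww (τ := τ) hφ (hp_hp hs))).comp (by fun_prop :
      Continuous fun q : Euc k × (Euc k × L k) => (q.1, q.2.1))
  have h1 : Continuous (fun q : Euc k × (Euc k × L k) => Dth (hp π) h (q.1 - q.2.1)) :=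
    (continuous_Dth (hp π) h).comp (by fun_prop)
  have h2 : Continuous (fun q : Euc k × (Euc k × L k) => th (hp π) h (q.1 - q.2.1)) :=
    (contDiff_th (hp π) h).continuous.comp (by fun_prop)
  unfold DFX
  exact (hw.smul h1).add
    (((ContinuousLinearMap.smulRightL ℝ (Euc k) (Euc k)).continuous.comp hD).clm_apply h2)

theorem norm_DFX_le (hs : Split π κ) (hφ : Cut (hp π) K Λ φ) (hτ : 0 < τ) (hh : 0 < h)
    (z : Euc k) (p : Euc k × L k) : ‖DFX π τ h φ z p‖ ≤ 2 + (Λ + 4 / τ) * h := by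
  have hΛ := hφ.nonneg_lip
  refine ContinuousLinearMap.opNorm_le_bound _ (by positivity) fun v => ?_
  have e : DFX π τ h φ z p v = ww (hp π) τ φ z p.1 • Dth (hp π) h (z - p.1) v
      + Pt_615.D1 (ww (hp π) τ φ) z p.1 v • th (hp π) h (z - p.1) := rfl
  rw [e]
  refine (norm_add_le _ _).trans ?_
  rw [norm_smul, norm_smul, Real.norm_eq_abs, Real.norm_eq_abs,
    abs_of_nonneg (ww_nonneg (τ := τ) hφ z p.1)]
  have h1 : ww (hp π) τ φ z p.1 * ‖Dth (hp π) h (z - p.1) v‖ ≤ 1 * (2 * ‖v‖) :=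
    mul_le_mul (ww_le_one hφ z p.1) (norm_Dth_apply_le (hp_mem_G hs) hh _ _) (norm_nonneg _)
      zero_le_one
  have h2 : |Pt_615.D1 (ww (hp π) τ φ) z p.1 v| * ‖th (hp π) h (z - p.1)‖
      ≤ (Λ + 4 / τ) * ‖v‖ * h :=
    mul_le_mul (abs_D1_le hφ (hp_hp hs) (norm_hp_le hs) hτ _ _ _) (norm_th_le_h (hp π) hh _)
      (norm_nonneg _) (by positivity)
  linarith

theorem hasFDerivAt_XA [IsFiniteMeasure W] (hW : CylBase W π κ) (hφ : Cut (hp π) K Λ φ)
    (hτ : 0 < τ) (hh : 0 < h) (z : Euc k) :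
    HasFDerivAt (XA W π τ h φ) (DXA W π τ h φ z) z := by
  have hs := hW.sp
  refine hasFDerivAt_integral_of_dominated_of_fderiv_le (s := univ)
    (bound := fun _ => 2 + (Λ + 4 / τ) * h) univ_mem ?_ ?_ ?_ ?_ (integrable_const _) ?_
  · refine Filter.Eventually.of_forall fun x => ?_
    exact ((continuous_FX hs hφ).comp (by fun_prop :
      Continuous fun p : Euc k × L k => (x, p))).aestronglyMeasurable
  · exact integrable_oneE hW.base ((continuous_FX hs hφ).comp (by fun_prop :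
      Continuous fun p : Euc k × L k => (z, p)))
  · exact ((continuous_DFX hs hφ).comp (by fun_prop :
      Continuous fun p : Euc k × L k => (z, p))).aestronglyMeasurable
  · exact Filter.Eventually.of_forall fun p x _ => norm_DFX_le hs hφ hτ hh x p
  · exact Filter.Eventually.of_forall fun p x _ => hasFDerivAt_FX hs hφ x p

theorem contDiff_XA [IsFiniteMeasure W] (hW : CylBase W π κ) (hφ : Cut (hp π) K Λ φ)
    (hτ : 0 < τ) (hh : 0 < h) : ContDiff ℝ 1 (XA W π τ h φ) := by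
  have hs := hW.sp
  rw [contDiff_one_iff_fderiv]
  refine ⟨fun z => (hasFDerivAt_XA hW hφ hτ hh z).differentiableAt, ?_⟩
  have : fderiv ℝ (XA W π τ h φ) = DXA W π τ h φ :=
    funext fun z => (hasFDerivAt_XA hW hφ hτ hh z).fderiv
  rw [this]
  refine continuous_of_dominated (bound := fun _ => 2 + (Λ + 4 / τ) * h) (fun z => ?_)
    (fun z => Filter.Eventually.of_forall fun p => norm_DFX_le hs hφ hτ hh z p)
    (integrable_const _) (Filter.Eventually.of_forall fun p => ?_)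
  · exact ((continuous_DFX hs hφ).comp (by fun_prop :
      Continuous fun p : Euc k × L k => (z, p))).aestronglyMeasurable
  · exact (continuous_DFX hs hφ).comp (by fun_prop :
      Continuous fun z : Euc k => (z, p))

/-- integrals of functions supported near `z`. -/
theorem norm_int_nb_le {E : Type*} [NormedAddCommGroup E] [NormedSpace ℝ E]
    (hφ : Continuous φ) {H : L k} {z : Euc k} {F : Euc k × L k → E}
    {f : Euc k × L k → ℝ} (hf : Integrable f W)
    (h : ∀ᵐ p ∂W, ‖F p‖ ≤ (nb H τ φ z).indicator f p) :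
    ‖∫ p, F p ∂W‖ ≤ ∫ p in nb H τ φ z, f p ∂W := by
  have hm : MeasurableSet (nb (k := k) H τ φ z) := (isOpen_nb hφ z).measurableSet
  rw [← integral_indicator hm]
  exact norm_integral_le_of_norm_le (hf.indicator hm) h

theorem norm_XA_le [IsFiniteMeasure W] (hφ : Cut (hp π) K Λ φ) (hτ : 0 < τ)
    (hh : 0 < h) (z : Euc k) : ‖XA W π τ h φ z‖ ≤ h * W.real (nb (hp π) τ φ z) := by
  have h1 := norm_int_nb_le (W := W) (τ := τ) (H := hp π) (z := z) hφ.smooth.continuous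
    (F := fun p => FX π τ h φ z p)
    (f := fun _ => h) (integrable_const _) (Filter.Eventually.of_forall fun p => by
      by_cases hn : near (hp π) τ φ z p.1
      · rw [Set.indicator_of_mem (show p ∈ nb (hp π) τ φ z from hn), FX, norm_smul,
          Real.norm_eq_abs, abs_of_nonneg (ww_nonneg (τ := τ) hφ z p.1)]
        calc _ ≤ 1 * h := mul_le_mul (ww_le_one hφ z p.1) (norm_th_le_h (hp π) hh _)
              (norm_nonneg _) zero_le_one
          _ = h := one_mul _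
      · rw [Set.indicator_of_notMem (show p ∉ nb (hp π) τ φ z from hn), FX,
          ww_eq_zero hτ hn, zero_smul, norm_zero])
  rw [setIntegral_const, smul_eq_mul, mul_comm] at h1
  exact h1

theorem DXA_apply [IsFiniteMeasure W] (hW : CylBase W π κ) (hφ : Cut (hp π) K Λ φ)
    (z v : Euc k) : DXA W π τ h φ z v = ∫ p, DFX π τ h φ z p v ∂W := by
  have hi : Integrable (fun p => DFX π τ h φ z p) W :=
    integrable_oneE hW.base ((continuous_DFX hW.sp hφ).comp (by fun_prop :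
      Continuous fun p : Euc k × L k => (z, p)))
  exact ContinuousLinearMap.integral_apply hi v

theorem norm_DXA_vp_le [IsFiniteMeasure W] (hW : CylBase W π κ) (hφ : Cut (hp π) K Λ φ)
    (hτ : 0 < τ) (hh : 0 < h) (z : Euc k) :
    ‖DXA W π τ h φ z ∘L AS_456.vp π‖ ≤ 2 * W.real (nb (hp π) τ φ z) := by
  have hs := hW.sp
  refine ContinuousLinearMap.opNorm_le_bound _ (by positivity) fun v => ?_
  rw [ContinuousLinearMap.comp_apply, DXA_apply hW hφ]
  have h1 := norm_int_nb_le (W := W) (τ := τ) (H := hp π) (z := z) hφ.smooth.continuous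
    (F := fun p => DFX π τ h φ z p (AS_456.vp π v))
    (f := fun _ => 2 * ‖v‖) (integrable_const _) (Filter.Eventually.of_forall fun p => by
      have e : DFX π τ h φ z p (AS_456.vp π v)
          = ww (hp π) τ φ z p.1 • Dth (hp π) h (z - p.1) (AS_456.vp π v)
          + Pt_615.D1 (ww (hp π) τ φ) z p.1 (AS_456.vp π v) • th (hp π) h (z - p.1) := rfl
      have e1 : Pt_615.D1 (ww (hp π) τ φ) z p.1 (AS_456.vp π v) = 0 := by
        rw [← Pt_615.D1_hor (ker_ww (τ := τ) hφ (hp_hp hs)) (G_idem (hp_mem_G hs)), hp_vp hs,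
          map_zero]
      rw [e, e1, zero_smul, add_zero]
      by_cases hn : near (hp π) τ φ z p.1
      · rw [Set.indicator_of_mem (show p ∈ nb (hp π) τ φ z from hn), norm_smul,
          Real.norm_eq_abs, abs_of_nonneg (ww_nonneg (τ := τ) hφ z p.1)]
        calc _ ≤ 1 * (2 * ‖v‖) := mul_le_mul (ww_le_one hφ z p.1)
              ((norm_Dth_apply_le (hp_mem_G hs) hh _ _).trans
                (mul_le_mul_of_nonneg_left (norm_vp_le hs v) (by norm_num)))
              (norm_nonneg _) zero_le_one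
          _ = 2 * ‖v‖ := one_mul _
      · rw [Set.indicator_of_notMem (show p ∉ nb (hp π) τ φ z from hn),
          ww_eq_zero hτ hn, zero_smul, norm_zero])
  rw [setIntegral_const, smul_eq_mul] at h1
  refine h1.trans (le_of_eq ?_)
  ring

theorem norm_q_S_H_le (hs : Split π κ) {S : L k} (hS : S ∈ G m k) (e : Euc k) :
    ‖S (hp π e) - hp π (S (hp π e))‖ ≤ √(tl π S) * ‖e‖ := by
  set u := S (hp π e) - hp π (S (hp π e)) with hu
  have hH := hp_mem_G hs
  have h1 : ‖u‖ ^ 2 = ⟪hp π e, S u⟫_ℝ := by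
    have h2 : ⟪hp π (S (hp π e)), u⟫_ℝ = 0 := by
      rw [G_symm hH, hu, map_sub, G_idem_apply hH, sub_self, inner_zero_right]
    rw [← real_inner_self_eq_norm_sq]
    nth_rewrite 1 [hu]
    rw [inner_sub_left, h2, sub_zero, G_symm hS]
  have h3 : ‖S u‖ ≤ √(tl π S) * ‖u‖ := by
    have h4 := norm_tan_perp_sq_le hH hS (S (hp π e))
    have h5 := Real.le_sqrt_of_sq_le h4
    rw [Real.sqrt_mul (tilt_nonneg hH hS), Real.sqrt_sq (norm_nonneg _), tilt_eq_tl π hS] at h5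
    exact h5
  have h6 : ‖u‖ ^ 2 ≤ ‖e‖ * (√(tl π S) * ‖u‖) := by
    rw [h1]
    exact (real_inner_le_norm _ _).trans (mul_le_mul (norm_hp_le hs e) h3 (norm_nonneg _)
      (norm_nonneg _))
  rcases eq_or_lt_of_le (norm_nonneg u) with h0 | h0
  · rw [← h0]; positivity
  · have h7 : ‖u‖ * ‖u‖ ≤ (√(tl π S) * ‖e‖) * ‖u‖ := by nlinarith
    exact le_of_mul_le_mul_right h7 h0

variable {x₀ : Euc m} {R h₀ δ : ℝ}

/-- the bound of the horizontal derivative of the averaged field. -/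
def bX (π : Euc k →L[ℝ] Euc m) (Λ τ h δ : ℝ) (p : Euc k × L k) : ℝ :=
  2 * Λ * h + ((Λ + 4 / τ) * h * af π p ^ 2 + 2 * af π p)
    + (δ * (h * (Λ + 4 / τ) + h) * sf π p ^ 2 + δ * 2 * sf π p)

theorem continuous_bda (c₁ c₂ : ℝ) : Continuous fun p : Euc k × L k =>
    c₁ * af π p ^ 2 + c₂ * af π p :=
  ((continuous_const.mul ((continuous_af π).pow 2)).add
    (continuous_const.mul (continuous_af π)))

theorem continuous_bX (π : Euc k →L[ℝ] Euc m) (Λ τ h δ : ℝ) : Continuous (bX π Λ τ h δ) :=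
  (continuous_const.add (continuous_bda _ _)).add (continuous_bd _ _)

/-- **horizontal derivative of the averaged field** (one more use of almost stationarity). -/
theorem norm_DXA_hp_le [IsFiniteMeasure W] (hW : CAS W π κ x₀ R h₀ δ)
    (hφ : Cut (hp π) {y | ‖π y - x₀‖ < R} Λ φ) (hτ : 0 < τ) (hh : 0 < h) (h0 : 0 ≤ δ)
    (z : Euc k) :
    ‖DXA W π τ h φ z ∘L hp π‖ ≤ ∫ p in nb (hp π) τ φ z, bX π Λ τ h δ p ∂W := by
  have hs := hW.cb.sp
  have hH := hp_mem_G hs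
  have hΛ := hφ.nonneg_lip
  have hm : MeasurableSet (nb (k := k) (hp π) τ φ z) :=
    (isOpen_nb hφ.smooth.continuous z).measurableSet
  have hbX0 : ∀ p : Euc k × L k, 0 ≤ bX π Λ τ h δ p := fun p => by
    unfold bX
    have := sf_nonneg (π := π) p
    have := af_nonneg (π := π) p
    positivity
  refine ContinuousLinearMap.opNorm_le_bound _ (integral_nonneg hbX0) fun v => ?_
  rw [ContinuousLinearMap.comp_apply]
  set e := hp π v with he
  set u := DXA W π τ h φ z e with hu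
  set B : L k := (innerSL ℝ u).smulRight e with hB
  have hBa : ∀ w, B w = ⟪u, w⟫_ℝ • e := fun w => rfl
  have hee : hp π e = e := hp_hp hs v
  have hev : ‖e‖ ≤ ‖v‖ := norm_hp_le hs v
  -- the integrand
  have hcont1 : Continuous fun p : Euc k × L k => Pt_615.D1 (ww (hp π) τ φ) z p.1 e
      * ⟪u, th (hp π) h (z - p.1)⟫_ℝ := by
    have hD : Continuous (fun p : Euc k × L k => Pt_615.D1 (ww (hp π) τ φ) z p.1) :=
      (Pt_615.continuous_D1 (ker_ww (τ := τ) hφ (hp_hp hs))).comp (by fun_prop :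
        Continuous fun p : Euc k × L k => (z, p.1))
    exact (hD.clm_apply continuous_const).mul (continuous_const.inner
      ((contDiff_th (hp π) h).continuous.comp (by fun_prop)))
  have h1 : ‖u‖ ^ 2 = ∫ p, Pt_615.D1 (ww (hp π) τ φ) z p.1 e
      * ⟪u, th (hp π) h (z - p.1)⟫_ℝ ∂W := by
    rw [← real_inner_self_eq_norm_sq]
    nth_rewrite 2 [hu]
    rw [DXA_apply hW.cb hφ]
    have hi : Integrable (fun p => DFX π τ h φ z p e) W :=
      integrable_oneE hW.cb.base (((continuous_DFX hs hφ).comp (by fun_prop :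
        Continuous fun p : Euc k × L k => (z, p))).clm_apply continuous_const)
    have h2 := (innerSL ℝ u).integral_comp_comm hi
    simp only [innerSL_apply_apply] at h2
    rw [← h2]
    refine integral_congr_ae (Filter.Eventually.of_forall fun p => ?_)
    have e3 : DFX π τ h φ z p e = ww (hp π) τ φ z p.1 • Dth (hp π) h (z - p.1) e
      + Pt_615.D1 (ww (hp π) τ φ) z p.1 e • th (hp π) h (z - p.1) := rfl
    show ⟪u, DFX π τ h φ z p e⟫_ℝ = _
    rw [e3, ← hee, Dth_hor hH, smul_zero, zero_add, hee, inner_smul_right]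
  have hFV := FV_YB_eq (W := W) (τ := τ) (h := h) (B := B) hs hφ z
  have hFVb := FV_YB_le (B := B) (b := ‖u‖ * ‖e‖) hW hφ hτ hh h0
    (fun w => by rw [hBa, map_smul, hee]) (by positivity)
    (fun w _ => by
      rw [hBa, norm_smul, Real.norm_eq_abs]
      calc |⟪u, w⟫_ℝ| * ‖e‖ ≤ ‖u‖ * ‖w‖ * ‖e‖ := by
            gcongr; exact abs_real_inner_le_norm _ _
        _ = _ := by ring) z
  have hcont2 : Continuous fun p : Euc k × L k => (Pt_615.D2 (ww (hp π) τ φ) z p.1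
        (p.2 (B (th (hp π) h (z - p.1))))
      - ww (hp π) τ φ z p.1 * tr ((B ∘L Dth (hp π) h (z - p.1)) ∘L p.2)) := by
    have hD : Continuous (fun p : Euc k × L k => Pt_615.D2 (ww (hp π) τ φ) z p.1) :=
      (Pt_615.continuous_D2 (ker_ww (τ := τ) hφ (hp_hp hs))).comp (by fun_prop :
        Continuous fun p : Euc k × L k => (z, p.1))
    have hw : Continuous (fun p : Euc k × L k => ww (hp π) τ φ z p.1) :=
      (ker_ww (τ := τ) hφ (hp_hp hs)).smooth.continuous.comp (by fun_prop :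
        Continuous fun p : Euc k × L k => (z, p.1))
    have ht : Continuous fun p : Euc k × L k => th (hp π) h (z - p.1) :=
      (contDiff_th (hp π) h).continuous.comp (by fun_prop)
    have hDt : Continuous fun p : Euc k × L k => Dth (hp π) h (z - p.1) :=
      (continuous_Dth (hp π) h).comp (by fun_prop)
    exact (hD.clm_apply (continuous_snd.clm_apply (B.continuous.comp ht))).sub
      (hw.mul (tr.continuous.comp ((continuous_const.clm_comp hDt).clm_comp continuous_snd)))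
  have i1 := integrable_one hW.cb.base hcont1
  have i2 := integrable_one hW.cb.base hcont2
  -- sum of both
  have h4 : |∫ p, (Pt_615.D1 (ww (hp π) τ φ) z p.1 e * ⟪u, th (hp π) h (z - p.1)⟫_ℝ
      + (Pt_615.D2 (ww (hp π) τ φ) z p.1 (p.2 (B (th (hp π) h (z - p.1))))
      - ww (hp π) τ φ z p.1 * tr ((B ∘L Dth (hp π) h (z - p.1)) ∘L p.2))) ∂W|
      ≤ ∫ p in nb (hp π) τ φ z, ‖u‖ * ‖v‖ *
        (2 * Λ * h + ((Λ + 4 / τ) * h * af π p ^ 2 + 2 * af π p)) ∂W := by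
    rw [← Real.norm_eq_abs]
    refine norm_int_nb_le hφ.smooth.continuous (integrable_one hW.cb.base
      (continuous_const.mul (continuous_const.add (continuous_bda _ _)))) ?_
    filter_upwards [hW.cb.base.conc] with p hP
    have ht := tl_nonneg hs.hh (isPr_of_G hP)
    by_cases hn : near (hp π) τ φ z p.1
    · rw [Set.indicator_of_mem (show p ∈ nb (hp π) τ φ z from hn), Real.norm_eq_abs]
      have e4 : tr ((B ∘L Dth (hp π) h (z - p.1)) ∘L p.2)
          = ⟪u, Dth (hp π) h (z - p.1) (p.2 e)⟫_ℝ := by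
        have e5 : B ∘L Dth (hp π) h (z - p.1)
            = ((innerSL ℝ u) ∘L Dth (hp π) h (z - p.1)).smulRight e := by
          ext1 w; rfl
        rw [e5, tr_smulRight_comp]; rfl
      have e6 : Pt_615.D2 (ww (hp π) τ φ) z p.1 (p.2 (B (th (hp π) h (z - p.1))))
          = ⟪u, th (hp π) h (z - p.1)⟫_ℝ * Pt_615.D2 (ww (hp π) τ φ) z p.1 (p.2 e) := by
        rw [hBa, map_smul, map_smul, smul_eq_mul]
      rw [e4, e6]
      set ψ := th (hp π) h (z - p.1) with hψ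
      have e7 : Pt_615.D1 (ww (hp π) τ φ) z p.1 e * ⟪u, ψ⟫_ℝ
          + (⟪u, ψ⟫_ℝ * Pt_615.D2 (ww (hp π) τ φ) z p.1 (p.2 e)
            - ww (hp π) τ φ z p.1 * ⟪u, Dth (hp π) h (z - p.1) (p.2 e)⟫_ℝ)
          = (Pt_615.D1 (ww (hp π) τ φ) z p.1 e + Pt_615.D2 (ww (hp π) τ φ) z p.1 e) * ⟪u, ψ⟫_ℝ
            - Pt_615.D2 (ww (hp π) τ φ) z p.1 (e - p.2 e) * ⟪u, ψ⟫_ℝ
            - ww (hp π) τ φ z p.1 * ⟪u, Dth (hp π) h (z - p.1) (p.2 e)⟫_ℝ := by
        rw [map_sub (Pt_615.D2 (ww (hp π) τ φ) z p.1)]; ring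
      rw [e7]
      have hψn : ‖ψ‖ ≤ h := norm_th_le_h (hp π) hh _
      have hin : |⟪u, ψ⟫_ℝ| ≤ ‖u‖ * h :=
        (abs_real_inner_le_norm _ _).trans (mul_le_mul_of_nonneg_left hψn (norm_nonneg _))
      have b1 : |(Pt_615.D1 (ww (hp π) τ φ) z p.1 e + Pt_615.D2 (ww (hp π) τ φ) z p.1 e)
          * ⟪u, ψ⟫_ℝ| ≤ (2 * Λ * ‖v‖) * (‖u‖ * h) := by
        rw [abs_mul]
        refine mul_le_mul ((abs_D1_add_D2_le hφ (hp_hp hs) z p.1 e).trans ?_) hin
          (abs_nonneg _) (by positivity)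
        gcongr
      have hsf1 : √(tl π p.2) ≤ af π p := le_rfl
      have hsf2 : tl π p.2 ≤ af π p ^ 2 := (Real.sq_sqrt ht).symm.le
      have haf := af_nonneg (π := π) p
      have b2 : |Pt_615.D2 (ww (hp π) τ φ) z p.1 (e - p.2 e) * ⟪u, ψ⟫_ℝ|
          ≤ ((Λ + 4 / τ) * (af π p ^ 2 * ‖v‖)) * (‖u‖ * h) := by
        rw [abs_mul]
        refine mul_le_mul ?_ hin (abs_nonneg _) (by positivity)
        rw [← Pt_615.D2_hor (ker_ww (τ := τ) hφ (hp_hp hs)) (G_idem hH)]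
        refine (abs_D2_le hφ (hp_hp hs) (norm_hp_le hs) hτ _ _ _).trans ?_
        refine mul_le_mul_of_nonneg_left ?_ (by positivity)
        have := norm_cub_le hH hP v
        rw [tilt_eq_tl π hP] at this
        calc ‖hp π (e - p.2 e)‖ ≤ tl π p.2 * ‖v‖ := this
          _ ≤ _ := by gcongr
      have b3 : |ww (hp π) τ φ z p.1 * ⟪u, Dth (hp π) h (z - p.1) (p.2 e)⟫_ℝ|
          ≤ ‖u‖ * (2 * (af π p * ‖v‖)) := by
        rw [abs_mul, abs_of_nonneg (ww_nonneg (τ := τ) hφ z p.1)]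
        have e8 : Dth (hp π) h (z - p.1) (p.2 e)
            = Dth (hp π) h (z - p.1) (p.2 e - hp π (p.2 e)) := by
          rw [map_sub, Dth_hor hH, sub_zero]
        have e9 : ‖Dth (hp π) h (z - p.1) (p.2 e)‖ ≤ 2 * (af π p * ‖v‖) := by
          rw [e8]
          refine (norm_Dth_apply_le hH hh _ _).trans ?_
          refine mul_le_mul_of_nonneg_left ?_ (by norm_num)
          refine (norm_q_S_H_le hs hP v).trans ?_
          gcongr
        calc _ ≤ 1 * (‖u‖ * (2 * (af π p * ‖v‖))) := by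
              refine mul_le_mul (ww_le_one hφ z p.1) ?_ (abs_nonneg _) zero_le_one
              exact (abs_real_inner_le_norm _ _).trans
                (mul_le_mul_of_nonneg_left e9 (norm_nonneg _))
          _ = _ := one_mul _
      refine (abs_sub _ _).trans ((add_le_add (abs_sub _ _) le_rfl).trans ?_)
      refine (add_le_add (add_le_add b1 b2) b3).trans (le_of_eq ?_)
      ring
    · rw [Set.indicator_of_notMem (show p ∉ nb (hp π) τ φ z from hn),
        D1_eq_zero hφ (hp_hp hs) hτ hn, D2_eq_zero hφ (hp_hp hs) hτ hn, ww_eq_zero hτ hn]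
      simp
  rw [integral_add i1 i2, ← h1, ← hFV] at h4
  have hsplit : ∫ p in nb (hp π) τ φ z, bX π Λ τ h δ p ∂W
      = ∫ p in nb (hp π) τ φ z, (2 * Λ * h + ((Λ + 4 / τ) * h * af π p ^ 2 + 2 * af π p)) ∂W
        + ∫ p in nb (hp π) τ φ z, (δ * (h * (Λ + 4 / τ) + h) * sf π p ^ 2
          + δ * 2 * sf π p) ∂W := by
    unfold bX
    exact integral_add (integrable_one hW.cb.base
      (continuous_const.add (continuous_bda _ _))).restrict
      (integrable_one hW.cb.base (continuous_bd _ _)).restrict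
  rw [integral_const_mul] at h4
  have hI0 : 0 ≤ ∫ p in nb (hp π) τ φ z, (δ * (h * (Λ + 4 / τ) + h) * sf π p ^ 2
          + δ * 2 * sf π p) ∂W := integral_nonneg fun p => by
    have := sf_nonneg (π := π) p
    positivity
  have h5 : ‖u‖ ^ 2 ≤ ‖u‖ * ‖v‖ * ∫ p in nb (hp π) τ φ z, bX π Λ τ h δ p ∂W := by
    rw [hsplit]
    have h6 := abs_le.1 h4
    have h7 := (abs_le.1 hFVb).1
    have h8 : ‖u‖ * ‖e‖ * ∫ p in nb (hp π) τ φ z, (δ * (h * (Λ + 4 / τ) + h) * sf π p ^ 2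
          + δ * 2 * sf π p) ∂W ≤ ‖u‖ * ‖v‖ * ∫ p in nb (hp π) τ φ z,
          (δ * (h * (Λ + 4 / τ) + h) * sf π p ^ 2 + δ * 2 * sf π p) ∂W := by gcongr
    have h9 := h6.2
    rw [mul_add]
    linarith
  rcases eq_or_lt_of_le (norm_nonneg u) with h00 | h00
  · rw [← h00]
    exact mul_nonneg (integral_nonneg hbX0) (norm_nonneg _)
  · have h10 : ‖u‖ * ‖u‖ ≤ ((∫ p in nb (hp π) τ φ z, bX π Λ τ h δ p ∂W) * ‖v‖) * ‖u‖ := by
      nlinarith
    exact le_of_mul_le_mul_right h10 h00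

end Crest.Agent.R234.Pas_762
end
end

-- ▼ part R234/Pas4_762
section

/-!
Row 234 (helper762), VF-DVAS, file 4: double integrals over interacting pairs, the bound of the
two first variation terms in the class `AS`.
-/

set_option autoImplicit false

open MeasureTheory Crest.GeometryTopology.Submanifold Filter Topology Set
open scoped ENNReal InnerProductSpace

noncomputable section

namespace Crest.Agent.R234.Pas_762

open Crest.Agent.R234.Vf_884 Crest.Agent.R234.In_947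
  Crest.Agent.R234.Pair2_762 Crest.Agent.R234.Pair3_762 Crest.Agent.R234.Pair4_762
  Crest.Agent.R234.Pair5_762 Crest.Agent.R234.Pair6_762 Crest.Agent.R234.Ar_870
open Crest.Agent.R234.Cy_870 (Split CylStat Shh)

variable {m n k : ℕ}

/-! ### double integrals -/

section dbl

variable {H : L k} {τ M : ℝ} {φ : Euc k → ℝ} {V : Measure (Euc k × L k)}

theorem measurableSet_NN (hφ : Continuous φ) : MeasurableSet (NN (k := k) H τ φ) :=
  (isOpen_near hφ).measurableSet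

theorem integrable_NN [IsFiniteMeasure V] (hV : Pt_615.HBase m V) (hφ : Continuous φ)
    {g : (Euc k × L k) × (Euc k × L k) → ℝ} (hg : Continuous g) :
    Integrable ((NN H τ φ).indicator g) (V.prod V) :=
  (Pt_615.integrable_cont hV hg).indicator (measurableSet_NN hφ)

theorem iter_eq [IsFiniteMeasure V] (hV : Pt_615.HBase m V) (hφ : Continuous φ)
    {f g : Euc k × L k → ℝ} (hf : Continuous f) (hg : Continuous g) :
    ∫ q, (NN H τ φ).indicator (fun q => f q.1 * g q.2) q ∂(V.prod V)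
      = ∫ z, f z * ∫ z' in nb H τ φ z.1, g z' ∂V ∂V := by
  have hi : Integrable ((NN H τ φ).indicator
      (fun q : (Euc k × L k) × (Euc k × L k) => f q.1 * g q.2)) (V.prod V) :=
    integrable_NN hV hφ ((hf.comp continuous_fst).mul (hg.comp continuous_snd))
  rw [integral_prod _ hi]
  refine integral_congr_ae (Filter.Eventually.of_forall fun z => ?_)
  show ∫ z', (NN H τ φ).indicator (fun q => f q.1 * g q.2) (z, z') ∂V = _
  have hind : ∀ z' : Euc k × L k, (NN H τ φ).indicator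
      (fun q : (Euc k × L k) × (Euc k × L k) => f q.1 * g q.2) (z, z')
      = (nb H τ φ z.1).indicator (fun z' => f z * g z') z' := fun z' => rfl
  simp only [hind]
  rw [integral_indicator (isOpen_nb hφ z.1).measurableSet, integral_const_mul]

theorem integrable_iter [IsFiniteMeasure V] (hV : Pt_615.HBase m V) (hφ : Continuous φ)
    {f g : Euc k × L k → ℝ} (hf : Continuous f) (hg : Continuous g) :
    Integrable (fun z => f z * ∫ z' in nb H τ φ z.1, g z' ∂V) V := by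
  have hi := (integrable_NN (H := H) (τ := τ) hV hφ ((hf.comp continuous_fst).mul
    (hg.comp continuous_snd)) : Integrable ((NN H τ φ).indicator
      (fun q : (Euc k × L k) × (Euc k × L k) => f q.1 * g q.2)) (V.prod V))
  refine hi.integral_prod_left.congr (Filter.Eventually.of_forall fun z => ?_)
  show ∫ z', (NN H τ φ).indicator (fun q => f q.1 * g q.2) (z, z') ∂V = _
  have hind : ∀ z' : Euc k × L k, (NN H τ φ).indicator
      (fun q : (Euc k × L k) × (Euc k × L k) => f q.1 * g q.2) (z, z')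
      = (nb H τ φ z.1).indicator (fun z' => f z * g z') z' := fun z' => rfl
  simp only [hind]
  rw [integral_indicator (isOpen_nb hφ z.1).measurableSet, integral_const_mul]

theorem fst_le [IsFiniteMeasure V] (hV : Pt_615.HBase m V) (hφ : Continuous φ)
    (hM : ∀ᵐ z ∂V, V.real (nb H τ φ z.1) ≤ M * τ ^ m)
    {f : Euc k × L k → ℝ} (hf : Continuous f) (hf0 : ∀ z, 0 ≤ f z) :
    ∫ z, f z * V.real (nb H τ φ z.1) ∂V ≤ M * τ ^ m * ∫ z in S0 φ, f z ∂V := by
  have hS : MeasurableSet (S0 φ : Set (Euc k × L k)) := (isOpen_S0 hφ).measurableSet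
  have hfi := integrable_one hV hf
  rw [← integral_indicator hS, ← integral_const_mul]
  refine integral_mono_of_nonneg
    (Filter.Eventually.of_forall fun z => mul_nonneg (hf0 z) measureReal_nonneg)
    ((hfi.indicator hS).const_mul _) ?_
  filter_upwards [hM] with z hz
  by_cases h : φ z.1 = 0
  · rw [nb_eq_empty h, measureReal_empty, mul_zero,
      Set.indicator_of_notMem (show z ∉ S0 φ from fun h' => h' h), mul_zero]
  · rw [Set.indicator_of_mem (show z ∈ S0 φ from h), mul_comm]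
    exact mul_le_mul_of_nonneg_right hz (hf0 z)

theorem near_fst_le [IsFiniteMeasure V] (hV : Pt_615.HBase m V) (hφ : Continuous φ)
    (hM : ∀ᵐ z ∂V, V.real (nb H τ φ z.1) ≤ M * τ ^ m)
    {f : Euc k × L k → ℝ} (hf : Continuous f) (hf0 : ∀ z, 0 ≤ f z) :
    ∫ q, (NN H τ φ).indicator (fun q => f q.1) q ∂(V.prod V)
      ≤ M * τ ^ m * ∫ z in S0 φ, f z ∂V := by
  have h1 := iter_eq (H := H) (τ := τ) hV hφ hf (continuous_const (y := (1 : ℝ)))
  simp only [mul_one] at h1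
  rw [h1]
  have h2 : ∫ z, f z * ∫ z' in nb H τ φ z.1, (1 : ℝ) ∂V ∂V
      = ∫ z, f z * V.real (nb H τ φ z.1) ∂V := by
    refine integral_congr_ae (Filter.Eventually.of_forall fun z => ?_)
    simp
  rw [h2]
  exact fst_le hV hφ hM hf hf0

theorem near_snd_le [IsFiniteMeasure V] (hV : Pt_615.HBase m V) (hφ : Continuous φ)
    (hM : ∀ᵐ z ∂V, V.real (nb H τ φ z.1) ≤ M * τ ^ m)
    {f : Euc k × L k → ℝ} (hf : Continuous f) (hf0 : ∀ z, 0 ≤ f z) :
    ∫ q, (NN H τ φ).indicator (fun q => f q.2) q ∂(V.prod V)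
      ≤ M * τ ^ m * ∫ z in S0 φ, f z ∂V := by
  refine le_trans (le_of_eq ?_) (near_fst_le hV hφ hM hf hf0)
  rw [← integral_prod_swap ((NN H τ φ).indicator fun q : (Euc k × L k) × (Euc k × L k) => f q.1)]
  refine integral_congr_ae (Filter.Eventually.of_forall fun q => ?_)
  show (NN H τ φ).indicator (fun q => f q.2) q = (NN H τ φ).indicator (fun q => f q.1) q.swap
  by_cases hz : near H τ φ q.1.1 q.2.1
  · rw [Set.indicator_of_mem (show q ∈ NN H τ φ from hz),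
      Set.indicator_of_mem (show q.swap ∈ NN H τ φ from near_symm.1 hz)]
    rfl
  · rw [Set.indicator_of_notMem (show q ∉ NN H τ φ from hz),
      Set.indicator_of_notMem (show q.swap ∉ NN H τ φ from fun h => hz (near_symm.1 h))]

/-- `∫∫_near f g' ≤ M τ^m √(∫ f² ∫ g²)`. -/
theorem near_mul_le [IsFiniteMeasure V] (hV : Pt_615.HBase m V) (hφ : Continuous φ)
    (hM0 : 0 < M) (hτ : 0 < τ)
    (hM : ∀ᵐ z ∂V, V.real (nb H τ φ z.1) ≤ M * τ ^ m)
    {f g : Euc k × L k → ℝ} (hf : Continuous f) (hg : Continuous g) :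
    ∫ q, (NN H τ φ).indicator (fun q => f q.1 * g q.2) q ∂(V.prod V)
      ≤ M * τ ^ m * √((∫ z in S0 φ, f z ^ 2 ∂V) * ∫ z in S0 φ, g z ^ 2 ∂V) := by
  have hc : 0 < M * τ ^ m := by positivity
  set X := ∫ q, (NN H τ φ).indicator (fun q => f q.1 * g q.2) q ∂(V.prod V) with hX
  have hF0 : 0 ≤ ∫ z in S0 φ, f z ^ 2 ∂V := integral_nonneg fun z => sq_nonneg _
  have hG0 : 0 ≤ ∫ z in S0 φ, g z ^ 2 ∂V := integral_nonneg fun z => sq_nonneg _
  have h1 : X / (M * τ ^ m) ≤ √((∫ z in S0 φ, f z ^ 2 ∂V) * ∫ z in S0 φ, g z ^ 2 ∂V) := by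
    refine le_sqrt_of_forall hF0 hG0 fun l hl => ?_
    have hi0 : Integrable ((NN H τ φ).indicator
        (fun q : (Euc k × L k) × (Euc k × L k) => f q.1 * g q.2)) (V.prod V) :=
      integrable_NN hV hφ ((hf.comp continuous_fst).mul (hg.comp continuous_snd))
    have hi1 : Integrable (fun q => l / 2 * (NN H τ φ).indicator
        (fun q : (Euc k × L k) × (Euc k × L k) => f q.1 ^ 2) q) (V.prod V) :=
      (integrable_NN hV hφ ((hf.comp continuous_fst).pow 2)).const_mul _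
    have hi2 : Integrable (fun q => 1 / (2 * l) * (NN H τ φ).indicator
        (fun q : (Euc k × L k) × (Euc k × L k) => g q.2 ^ 2) q) (V.prod V) :=
      (integrable_NN hV hφ ((hg.comp continuous_snd).pow 2)).const_mul _
    have h2 : ∫ q, (NN H τ φ).indicator (fun q => f q.1 * g q.2) q ∂(V.prod V)
        ≤ ∫ q, (l / 2 * (NN H τ φ).indicator (fun q => f q.1 ^ 2) q
          + 1 / (2 * l) * (NN H τ φ).indicator (fun q => g q.2 ^ 2) q) ∂(V.prod V) := by
      refine integral_mono_ae hi0 (hi1.add hi2) (Filter.Eventually.of_forall fun q => ?_)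
      by_cases hz : q ∈ NN H τ φ
      · simp only [Set.indicator_of_mem hz]
        have h3 : 0 ≤ (l * f q.1 - g q.2) ^ 2 := sq_nonneg _
        have h4 : (f q.1 * g q.2) * (2 * l)
            ≤ (l / 2 * f q.1 ^ 2 + 1 / (2 * l) * g q.2 ^ 2) * (2 * l) := by
          have : (l / 2 * f q.1 ^ 2 + 1 / (2 * l) * g q.2 ^ 2) * (2 * l)
              = l ^ 2 * f q.1 ^ 2 + g q.2 ^ 2 := by field_simp
          rw [this]; nlinarith
        exact le_of_mul_le_mul_right h4 (by positivity)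
      · simp only [Set.indicator_of_notMem hz]; simp
    have h5 : ∫ q, (NN H τ φ).indicator (fun q => f q.1 ^ 2) q ∂(V.prod V)
        ≤ M * τ ^ m * ∫ z in S0 φ, f z ^ 2 ∂V :=
      near_fst_le (H := H) (τ := τ) hV hφ hM (hf.pow 2) fun z => sq_nonneg _
    have h6 : ∫ q, (NN H τ φ).indicator (fun q => g q.2 ^ 2) q ∂(V.prod V)
        ≤ M * τ ^ m * ∫ z in S0 φ, g z ^ 2 ∂V :=
      near_snd_le (H := H) (τ := τ) hV hφ hM (hg.pow 2) fun z => sq_nonneg _
    rw [integral_add hi1 hi2, integral_const_mul, integral_const_mul] at h2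
    have h7 : X ≤ l / 2 * (M * τ ^ m * ∫ z in S0 φ, f z ^ 2 ∂V)
        + 1 / (2 * l) * (M * τ ^ m * ∫ z in S0 φ, g z ^ 2 ∂V) := by
      refine h2.trans (add_le_add ?_ ?_)
      · exact mul_le_mul_of_nonneg_left h5 (by positivity)
      · exact mul_le_mul_of_nonneg_left h6 (by positivity)
    rw [← mul_div_assoc, div_le_iff₀ hc]
    have h8 : (l * (∫ z in S0 φ, f z ^ 2 ∂V) + (∫ z in S0 φ, g z ^ 2 ∂V) / l) * (M * τ ^ m)
        = 2 * (l / 2 * (M * τ ^ m * ∫ z in S0 φ, f z ^ 2 ∂V)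
          + 1 / (2 * l) * (M * τ ^ m * ∫ z in S0 φ, g z ^ 2 ∂V)) := by
      field_simp
    rw [h8]
    linarith
  rw [div_le_iff₀ hc] at h1
  linarith

theorem S0_mul_le [IsFiniteMeasure V] (hV : Pt_615.HBase m V) {A : Set (Euc k × L k)}
    {f g : Euc k × L k → ℝ} (hf : Continuous f) (hg : Continuous g) :
    ∫ z in A, f z * g z ∂V ≤ √((∫ z in A, f z ^ 2 ∂V) * ∫ z in A, g z ^ 2 ∂V) := by
  refine le_sqrt_of_forall (integral_nonneg fun z => sq_nonneg _)
    (integral_nonneg fun z => sq_nonneg _) fun l hl => ?_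
  have hi0 : Integrable (fun z => 2 * (f z * g z)) (V.restrict A) :=
    (integrable_one hV (hf.mul hg)).restrict.const_mul 2
  have hi1 : Integrable (fun z => l * f z ^ 2) (V.restrict A) :=
    (integrable_one hV (hf.pow 2)).restrict.const_mul _
  have hi2 : Integrable (fun z => 1 / l * g z ^ 2) (V.restrict A) :=
    (integrable_one hV (hg.pow 2)).restrict.const_mul _
  have h1 : ∫ z in A, 2 * (f z * g z) ∂V ≤ ∫ z in A, (l * f z ^ 2 + 1 / l * g z ^ 2) ∂V := by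
    refine integral_mono_ae hi0 (hi1.add hi2) (Filter.Eventually.of_forall fun z => ?_)
    have h3 : 0 ≤ (l * f z - g z) ^ 2 := sq_nonneg _
    have h4 : (2 * (f z * g z)) * l ≤ (l * f z ^ 2 + 1 / l * g z ^ 2) * l := by
      have : (l * f z ^ 2 + 1 / l * g z ^ 2) * l = l ^ 2 * f z ^ 2 + g z ^ 2 := by field_simp
      rw [this]; nlinarith
    exact le_of_mul_le_mul_right h4 hl
  rw [integral_const_mul, integral_add hi1 hi2, integral_const_mul, integral_const_mul] at h1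
  rw [one_div_mul_eq_div] at h1
  exact h1

end dbl

/-! ### the two first variations -/

section fv

variable {π : Euc k →L[ℝ] Euc m} {κ : Euc k →L[ℝ] Euc n} {x₀ x : Euc m} {R h₀ δ r : ℝ}
  {Λ τ h M : ℝ} {φ : Euc k → ℝ} {W : Measure (Euc k × L k)}

/-- `∫ FV(Xf z') dW(z') = FV(XA)`. -/
theorem int_FV_Xf [IsFiniteMeasure W] (hW : CylBase W π κ) {K : Set (Euc k)}
    (hφ : Cut (hp π) K Λ φ) (hτ : 0 < τ) (hh : 0 < h) :
    ∫ z', Pt_615.FV W (Pt_615.Xf (ww (hp π) τ φ) (th (hp π) h) z') ∂W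
      = Pt_615.FV W (XA W π τ h φ) := by
  have hs := hW.sp
  have hw := ker_ww (τ := τ) hφ (hp_hp hs)
  have hψ : Pt_615.Vert (hp π) (th (hp π) h) := vert_th (hp_mem_G hs)
  have hi := Pt_615.integrable_cont hW.base (Pt_615.continuous_I1 hw hψ)
  have h1 : ∫ z', Pt_615.FV W (Pt_615.Xf (ww (hp π) τ φ) (th (hp π) h) z') ∂W
      = ∫ q, Pt_615.I1 (ww (hp π) τ φ) (th (hp π) h) q ∂(W.prod W) := by
    rw [integral_prod_symm _ hi]
    simp only [Pt_615.int_I1 hw hψ]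
  rw [h1, integral_prod _ hi]
  unfold Pt_615.FV
  refine integral_congr_ae (Filter.Eventually.of_forall fun z => ?_)
  show ∫ z', Pt_615.I1 (ww (hp π) τ φ) (th (hp π) h) (z, z') ∂W
    = tr ((fderiv ℝ (XA W π τ h φ) z.1) ∘L z.2)
  rw [(hasFDerivAt_XA hW hφ hτ hh z.1).fderiv]
  have hF : Integrable (fun p => DFX π τ h φ z.1 p) W :=
    integrable_oneE hW.base ((continuous_DFX hs hφ).comp (by fun_prop :
      Continuous fun p : Euc k × L k => (z.1, p)))
  set T : L k →L[ℝ] ℝ := tr ∘L ((ContinuousLinearMap.compL ℝ (Euc k) (Euc k) (Euc k)).flip z.2)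
    with hT
  have hTa : ∀ A : L k, T A = tr (A ∘L z.2) := fun A => rfl
  rw [← hTa, DXA, ← T.integral_comp_comm hF]
  refine integral_congr_ae (Filter.Eventually.of_forall fun p => ?_)
  show Pt_615.I1 (ww (hp π) τ φ) (th (hp π) h) (z, p) = T (DFX π τ h φ z.1 p)
  rw [hTa, DFX, ContinuousLinearMap.add_comp, map_add, tr_smulRight_comp]
  unfold Pt_615.I1
  rw [fderiv_th]
  congr 1
  rw [ContinuousLinearMap.smul_comp, map_smul, smul_eq_mul]

theorem XA_supp (hs : Split π κ) (hφ : Cut (hp π) {y | ‖π y - x₀‖ < R} Λ φ) (z : Euc k)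
    (hz : R ≤ ‖π z - x₀‖) : XA W π τ h φ z = 0 := by
  unfold XA FX
  have h1 : ∀ p : Euc k × L k, ww (hp π) τ φ z p.1 = 0 := fun p =>
    (ker_ww (τ := τ) hφ (hp_hp hs)).supp _ _ (by
      show ¬ ‖π (hp π z) - x₀‖ < R
      rw [pi_hp hs]; exact not_lt.2 hz)
  simp [h1]

theorem hp_XA [IsFiniteMeasure W] (hW : CylBase W π κ) {K : Set (Euc k)}
    (hφ : Cut (hp π) K Λ φ) (z : Euc k) : hp π (XA W π τ h φ z) = 0 := by
  have hs := hW.sp
  have hi : Integrable (fun p => FX π τ h φ z p) W :=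
    integrable_oneE hW.base ((continuous_FX hs hφ).comp (by fun_prop :
      Continuous fun p : Euc k × L k => (z, p)))
  unfold XA
  rw [← (hp π).integral_comp_comm hi]
  have h1 : ∀ p, hp π (FX π τ h φ z p) = 0 := fun p => by
    unfold FX
    rw [map_smul, p_th (hp_mem_G hs), smul_zero]
  simp [h1]

theorem hp_DXA [IsFiniteMeasure W] (hW : CylBase W π κ) {K : Set (Euc k)}
    (hφ : Cut (hp π) K Λ φ) (z v : Euc k) : hp π (DXA W π τ h φ z v) = 0 := by
  have hs := hW.sp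
  have hi : Integrable (fun p => DFX π τ h φ z p v) W :=
    integrable_oneE hW.base (((continuous_DFX hs hφ).comp (by fun_prop :
      Continuous fun p : Euc k × L k => (z, p))).clm_apply continuous_const)
  rw [DXA_apply hW hφ, ← (hp π).integral_comp_comm hi]
  have h1 : ∀ p, hp π (DFX π τ h φ z p v) = 0 := fun p => by
    have e : DFX π τ h φ z p v = ww (hp π) τ φ z p.1 • Dth (hp π) h (z - p.1) v
      + Pt_615.D1 (ww (hp π) τ φ) z p.1 v • th (hp π) h (z - p.1) := rfl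
    rw [e, map_add, map_smul, map_smul, p_th (hp_mem_G hs), p_Dth (hp_mem_G hs), smul_zero,
      smul_zero, add_zero]
  simp [h1]

/-- **error density of the averaged field.** -/
theorem err_XA_le [IsFiniteMeasure W] (hW : CAS W π κ x₀ R h₀ δ)
    (hφ : Cut (hp π) {y | ‖π y - x₀‖ < R} Λ φ) (hτ : 0 < τ) (hh : 0 < h) (h0 : 0 ≤ δ)
    {p : Euc k × L k} (hP : p.2 ∈ G m k) :
    AS_456.err π δ (XA W π τ h φ) p ≤
      δ * (sf π p * ∫ q in nb (hp π) τ φ p.1, bX π Λ τ h δ q ∂W)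
      + (δ * h * sf π p + 2 * δ * (af π p * sf π p) + √δ * h * af π p ^ 2)
        * W.real (nb (hp π) τ φ p.1) := by
  have hs := hW.cb.sp
  have hd : fderiv ℝ (XA W π τ h φ) p.1 = DXA W π τ h φ p.1 :=
    (hasFDerivAt_XA hW.cb hφ hτ hh p.1).fderiv
  have ht := tl_nonneg hs.hh (isPr_of_G hP)
  have h1 := errA_ver' hs h0 (z := p.1) (P := p.2) (A := DXA W π τ h φ p.1)
    (v := XA W π τ h φ p.1) (fun w => hp_DXA hW.cb hφ p.1 w) (hp_XA hW.cb hφ p.1)
    (norm_DXA_hp_le hW hφ hτ hh h0 p.1) (norm_XA_le hφ hτ hh p.1)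
    (norm_DXA_vp_le hW.cb hφ hτ hh p.1) hP
  unfold AS_456.err
  rw [hd]
  refine h1.trans (le_of_eq ?_)
  have e1 : tl π p.2 = af π p ^ 2 := (Real.sq_sqrt ht).symm
  have e2 : √(tl π p.2) = af π p := rfl
  have e3 : ‖AS_456.vp π p.1‖ = yf π p := rfl
  rw [e2, e3, e1, sf_eq]
  ring

end fv

end Crest.Agent.R234.Pas_762
end
end

-- ▼ part R234/Pas5_762
section

/-!
Row 234 (helper762), VF-DVAS, file 5: the defect of stationarity of the pair fields in the
class of almost stationary measures, and the pair inequality (DV) for that class.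
-/

set_option autoImplicit false

open MeasureTheory Crest.GeometryTopology.Submanifold Filter Topology Set
open scoped ENNReal InnerProductSpace

noncomputable section

namespace Crest.Agent.R234.Pas_762

open Crest.Agent.R234.Vf_884 Crest.Agent.R234.In_947
  Crest.Agent.R234.Pair2_762 Crest.Agent.R234.Pair3_762 Crest.Agent.R234.Pair4_762
  Crest.Agent.R234.Pair5_762 Crest.Agent.R234.Pair6_762 Crest.Agent.R234.Ar_870
open Crest.Agent.R234.Cy_870 (Split CylStat Shh)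

variable {m n k : ℕ} {π : Euc k →L[ℝ] Euc m} {κ : Euc k →L[ℝ] Euc n} {x₀ x : Euc m}
  {R h₀ δ r : ℝ} {Λ τ h M S : ℝ} {φ : Euc k → ℝ} {W : Measure (Euc k × L k)}

/-- the constant `γ S + 2`. -/
def kk (Λ τ h S : ℝ) : ℝ := (h * (Λ + 4 / τ) + h) * S + 2

theorem bX_le (hΛ : 0 ≤ Λ) (hτ : 0 < τ) (hh : 0 < h) (h0 : 0 ≤ δ) {p : Euc k × L k}
    (hS : sf π p ≤ S) :
    bX π Λ τ h δ p ≤ 2 * Λ * h * 1 + (kk Λ τ h S * af π p + kk Λ τ h S * δ * sf π p) := by
  have h1 := af_nonneg (π := π) p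
  have h2 := yf_nonneg (π := π) p
  have h3 := sf_eq (π := π) p
  have h3' := sf_nonneg (π := π) p
  have hg : 0 ≤ h * (Λ + 4 / τ) + h := by positivity
  have h4 : af π p ≤ S := by linarith
  have h5 : (Λ + 4 / τ) * h * af π p ^ 2 ≤ (h * (Λ + 4 / τ) + h) * (S * af π p) := by
    have h6 : af π p ^ 2 ≤ S * af π p := by nlinarith
    calc (Λ + 4 / τ) * h * af π p ^ 2 ≤ (h * (Λ + 4 / τ) + h) * af π p ^ 2 := by
          nlinarith [mul_nonneg hh.le (sq_nonneg (af π p))]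
      _ ≤ (h * (Λ + 4 / τ) + h) * (S * af π p) := mul_le_mul_of_nonneg_left h6 hg
  have h7 : δ * (h * (Λ + 4 / τ) + h) * sf π p ^ 2
      ≤ δ * (h * (Λ + 4 / τ) + h) * (S * sf π p) := by
    have h8 : sf π p ^ 2 ≤ S * sf π p := by nlinarith
    exact mul_le_mul_of_nonneg_left h8 (mul_nonneg h0 hg)
  unfold bX kk
  have e1 : ((h * (Λ + 4 / τ) + h) * S + 2) * af π p
      = (h * (Λ + 4 / τ) + h) * (S * af π p) + 2 * af π p := by ring
  have e2 : ((h * (Λ + 4 / τ) + h) * S + 2) * δ * sf π p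
      = δ * (h * (Λ + 4 / τ) + h) * (S * sf π p) + δ * 2 * sf π p := by ring
  rw [e1, e2]
  linarith

theorem kk_pos (hΛ : 0 ≤ Λ) (hτ : 0 < τ) (hh : 0 < h) (hS : 0 ≤ S) : 2 ≤ kk Λ τ h S := by
  unfold kk
  have : 0 ≤ (h * (Λ + 4 / τ) + h) * S := by positivity
  linarith

theorem int_mono [IsFiniteMeasure W] (hW : CylBase W π κ) {f g : Euc k × L k → ℝ}
    (hf : Continuous f) (hg : Continuous g) (hfg : ∀ᵐ p ∂W, f p ≤ g p)
    (A : Set (Euc k × L k)) : ∫ p in A, f p ∂W ≤ ∫ p in A, g p ∂W :=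
  integral_mono_ae (integrable_one hW.base hf).restrict (integrable_one hW.base hg).restrict
    (ae_restrict_of_ae hfg)

theorem nb_bX_le [IsFiniteMeasure W] (hW : CylBase W π κ) (hΛ : 0 ≤ Λ) (hτ : 0 < τ)
    (hh : 0 < h) (h0 : 0 ≤ δ) (hS : ∀ᵐ p ∂W, sf π p ≤ S) (A : Set (Euc k × L k)) :
    ∫ q in A, bX π Λ τ h δ q ∂W ≤ 2 * Λ * h * (∫ _ in A, (1 : ℝ) ∂W)
      + (kk Λ τ h S * (∫ q in A, af π q ∂W) + kk Λ τ h S * δ * ∫ q in A, sf π q ∂W) := by
  have hc1 : Continuous fun q : Euc k × L k => 2 * Λ * h * 1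
      + (kk Λ τ h S * af π q + kk Λ τ h S * δ * sf π q) :=
    continuous_const.add ((continuous_const.mul (continuous_af π)).add
      (continuous_const.mul (continuous_sf π)))
  refine (int_mono hW (continuous_bX π Λ τ h δ) hc1 (by
    filter_upwards [hS] with p hp'
    exact bX_le hΛ hτ hh h0 hp') A).trans (le_of_eq ?_)
  have i1 : Integrable (fun _ : Euc k × L k => 2 * Λ * h * (1 : ℝ)) (W.restrict A) :=
    integrable_const _
  have i2 : Integrable (fun q : Euc k × L k => kk Λ τ h S * af π q) (W.restrict A) :=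
    (integrable_one hW.base (continuous_af π)).restrict.const_mul _
  have i3 : Integrable (fun q : Euc k × L k => kk Λ τ h S * δ * sf π q) (W.restrict A) :=
    (integrable_one hW.base (continuous_sf π)).restrict.const_mul _
  have i23 : Integrable (fun q : Euc k × L k => kk Λ τ h S * af π q
    + kk Λ τ h S * δ * sf π q) (W.restrict A) := i2.add i3
  rw [integral_add i1 i23, integral_add i2 i3, integral_const_mul, integral_const_mul,
    integral_const_mul]

/-- **first variation of the averaged vertical field.** -/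
theorem FV_XA_le [IsFiniteMeasure W] (hW : CAS W π κ x₀ R h₀ δ)
    (hφ : Cut (hp π) {y | ‖π y - x₀‖ < R} Λ φ) (hτ : 0 < τ) (hh : 0 < h) (h0 : 0 ≤ δ)
    (hM0 : 0 < M) (hM : ∀ᵐ z ∂W, W.real (nb (hp π) τ φ z.1) ≤ M * τ ^ m)
    (hS0 : 0 ≤ S) (hS : ∀ᵐ p ∂W, sf π p ≤ S) :
    |Pt_615.FV W (XA W π τ h φ)| ≤ M * τ ^ m * (
      δ * (2 * Λ * h * (∫ z in S0 φ, sf π z ∂W)
        + (kk Λ τ h S * √((∫ z in S0 φ, sf π z ^ 2 ∂W) * ∫ z in S0 φ, af π z ^ 2 ∂W)
        + kk Λ τ h S * δ * ∫ z in S0 φ, sf π z ^ 2 ∂W))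
      + ∫ z in S0 φ, (δ * h * sf π z + 2 * δ * (af π z * sf π z)
        + √δ * h * af π z ^ 2) ∂W) := by
  have hs := hW.cb.sp
  have hV := hW.cb.base
  have hΛ := hφ.nonneg_lip
  have hφc := hφ.smooth.continuous
  have hkk : 0 ≤ kk Λ τ h S := zero_le_two.trans (kk_pos hΛ hτ hh hS0)
  have hF : Continuous fun z : Euc k × L k => δ * h * sf π z + 2 * δ * (af π z * sf π z)
      + √δ * h * af π z ^ 2 :=
    ((continuous_const.mul (continuous_sf π)).add (continuous_const.mul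
      ((continuous_af π).mul (continuous_sf π)))).add
      (continuous_const.mul ((continuous_af π).pow 2))
  have hF0 : ∀ z : Euc k × L k, 0 ≤ δ * h * sf π z + 2 * δ * (af π z * sf π z)
      + √δ * h * af π z ^ 2 := fun z => by
    have := sf_nonneg (π := π) z
    have := af_nonneg (π := π) z
    positivity
  refine (hW.fv _ (contDiff_XA hW.cb hφ hτ hh) (XA_supp hs hφ)).trans ?_
  -- the four integrals
  set J1 : Euc k × L k → ℝ := fun z => sf π z * ∫ q in nb (hp π) τ φ z.1, (1 : ℝ) ∂W with hJ1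
  set J2 : Euc k × L k → ℝ := fun z => sf π z * ∫ q in nb (hp π) τ φ z.1, af π q ∂W with hJ2
  set J3 : Euc k × L k → ℝ := fun z => sf π z * ∫ q in nb (hp π) τ φ z.1, sf π q ∂W with hJ3
  set J4 : Euc k × L k → ℝ := fun z => (δ * h * sf π z + 2 * δ * (af π z * sf π z)
      + √δ * h * af π z ^ 2) * ∫ q in nb (hp π) τ φ z.1, (1 : ℝ) ∂W with hJ4
  have i1 : Integrable J1 W := integrable_iter hV hφc (continuous_sf π) continuous_const
  have i2 : Integrable J2 W := integrable_iter hV hφc (continuous_sf π) (continuous_af π)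
  have i3 : Integrable J3 W := integrable_iter hV hφc (continuous_sf π) (continuous_sf π)
  have i4 : Integrable J4 W := integrable_iter hV hφc hF continuous_const
  have b1 : ∫ z, J1 z ∂W ≤ M * τ ^ m * ∫ z in S0 φ, sf π z ∂W := by
    have h1 := fst_le (H := hp π) hV hφc hM (continuous_sf π) sf_nonneg
    refine le_trans (le_of_eq ?_) h1
    refine integral_congr_ae (Filter.Eventually.of_forall fun z => ?_)
    simp [hJ1]
  have b2 : ∫ z, J2 z ∂W
      ≤ M * τ ^ m * √((∫ z in S0 φ, sf π z ^ 2 ∂W) * ∫ z in S0 φ, af π z ^ 2 ∂W) := by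
    have h1 := near_mul_le (H := hp π) hV hφc hM0 hτ hM (continuous_sf π) (continuous_af π)
    rwa [iter_eq hV hφc (continuous_sf π) (continuous_af π)] at h1
  have b3 : ∫ z, J3 z ∂W ≤ M * τ ^ m * ∫ z in S0 φ, sf π z ^ 2 ∂W := by
    have h1 := near_mul_le (H := hp π) hV hφc hM0 hτ hM (continuous_sf π) (continuous_sf π)
    rw [iter_eq hV hφc (continuous_sf π) (continuous_sf π),
      Real.sqrt_mul_self (integral_nonneg fun z => sq_nonneg _)] at h1
    exact h1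
  have b4 : ∫ z, J4 z ∂W ≤ M * τ ^ m * ∫ z in S0 φ, (δ * h * sf π z
      + 2 * δ * (af π z * sf π z) + √δ * h * af π z ^ 2) ∂W := by
    have h1 := fst_le (H := hp π) hV hφc hM hF hF0
    refine le_trans (le_of_eq ?_) h1
    refine integral_congr_ae (Filter.Eventually.of_forall fun z => ?_)
    simp [hJ4]
  have i23 : Integrable (fun z => kk Λ τ h S * J2 z + kk Λ τ h S * δ * J3 z) W :=
    (i2.const_mul _).add (i3.const_mul _)
  have i123 : Integrable (fun z => 2 * Λ * h * J1 z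
      + (kk Λ τ h S * J2 z + kk Λ τ h S * δ * J3 z)) W := (i1.const_mul _).add i23
  have i5 : Integrable (fun z => δ * (2 * Λ * h * J1 z
      + (kk Λ τ h S * J2 z + kk Λ τ h S * δ * J3 z)) + J4 z) W := (i123.const_mul _).add i4
  have h1 : ∫ p, AS_456.err π δ (XA W π τ h φ) p ∂W
      ≤ ∫ z, (δ * (2 * Λ * h * J1 z
      + (kk Λ τ h S * J2 z + kk Λ τ h S * δ * J3 z)) + J4 z) ∂W := by
    refine integral_mono_of_nonneg ?_ i5 ?_
    · filter_upwards [hW.cb.base.conc] with p hP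
      have ht := tl_nonneg hs.hh (isPr_of_G hP)
      show 0 ≤ AS_456.err π δ (XA W π τ h φ) p
      unfold AS_456.err AS_456.errA
      positivity
    · filter_upwards [hW.cb.base.conc] with p hP
      refine (err_XA_le hW hφ hτ hh h0 hP).trans ?_
      have h2 := nb_bX_le hW.cb hΛ hτ hh h0 hS (nb (hp π) τ φ p.1)
      have h3 := mul_le_mul_of_nonneg_left (mul_le_mul_of_nonneg_left h2
        (sf_nonneg (π := π) p)) h0
      have h4 : W.real (nb (hp π) τ φ p.1) = ∫ q in nb (hp π) τ φ p.1, (1 : ℝ) ∂W := by simp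
      rw [h4]
      refine (add_le_add h3 le_rfl).trans (le_of_eq ?_)
      simp only [hJ1, hJ2, hJ3, hJ4]
      ring
  refine h1.trans ?_
  rw [integral_add (i123.const_mul _) i4, integral_const_mul, integral_add (i1.const_mul _) i23,
    integral_add (i2.const_mul _) (i3.const_mul _), integral_const_mul, integral_const_mul,
    integral_const_mul]
  have c1 : 2 * Λ * h * ∫ z, J1 z ∂W ≤ 2 * Λ * h * (M * τ ^ m * ∫ z in S0 φ, sf π z ∂W) :=
    mul_le_mul_of_nonneg_left b1 (by positivity)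
  have c2 := mul_le_mul_of_nonneg_left b2 hkk
  have c3 := mul_le_mul_of_nonneg_left b3 (mul_nonneg hkk h0)
  have c4 := mul_le_mul_of_nonneg_left (add_le_add c1 (add_le_add c2 c3)) h0
  refine (add_le_add c4 b4).trans (le_of_eq ?_)
  ring

/-- `Yf` is a horizontal two-point field. -/
theorem Yf_eq (z : Euc k × L k) :
    Pt_615.Yf (hp π) (ww (hp π) τ φ) (th (hp π) h) z = YB π τ h φ (hp π ∘L z.2) z.1 := rfl

/-- **first variation of the horizontal two-point fields.** -/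
theorem int_FV_Yf_le [IsFiniteMeasure W] (hW : CAS W π κ x₀ R h₀ δ)
    (hφ : Cut (hp π) {y | ‖π y - x₀‖ < R} Λ φ) (hτ : 0 < τ) (hh : 0 < h) (h0 : 0 ≤ δ)
    (hM0 : 0 < M) (hM : ∀ᵐ z ∂W, W.real (nb (hp π) τ φ z.1) ≤ M * τ ^ m)
    (hS0 : 0 ≤ S) (hS : ∀ᵐ p ∂W, sf π p ≤ S) :
    |∫ z, Pt_615.FV W (Pt_615.Yf (hp π) (ww (hp π) τ φ) (th (hp π) h) z) ∂W|
      ≤ M * τ ^ m * (δ * kk Λ τ h S
        * √((∫ z in S0 φ, af π z ^ 2 ∂W) * ∫ z in S0 φ, sf π z ^ 2 ∂W)) := by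
  have hs := hW.cb.sp
  have hV := hW.cb.base
  have hΛ := hφ.nonneg_lip
  have hφc := hφ.smooth.continuous
  have hH := hp_mem_G hs
  have hg : 0 ≤ h * (Λ + 4 / τ) + h := by positivity
  have hkk : 0 ≤ kk Λ τ h S := zero_le_two.trans (kk_pos hΛ hτ hh hS0)
  have hi : Integrable (fun z => δ * kk Λ τ h S
      * (af π z * ∫ q in nb (hp π) τ φ z.1, sf π q ∂W)) W :=
    (integrable_iter hV hφc (continuous_af π) (continuous_sf π)).const_mul _
  have h1 : |∫ z, Pt_615.FV W (Pt_615.Yf (hp π) (ww (hp π) τ φ) (th (hp π) h) z) ∂W|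
      ≤ ∫ z, δ * kk Λ τ h S * (af π z * ∫ q in nb (hp π) τ φ z.1, sf π q ∂W) ∂W := by
    rw [← Real.norm_eq_abs]
    refine norm_integral_le_of_norm_le hi ?_
    filter_upwards [hV.conc] with z hz
    rw [Real.norm_eq_abs, Yf_eq]
    have hB : ∀ w, hp π ((hp π ∘L z.2) w) = (hp π ∘L z.2) w := fun w => hp_hp hs _
    have hb : ∀ v, hp π v = 0 → ‖(hp π ∘L z.2) v‖ ≤ af π z * ‖v‖ := by
      intro v hv
      have g1 := norm_tan_perp_sq_le hH hz v
      rw [hv, sub_zero, tilt_eq_tl π hz] at g1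
      have g2 : ‖(hp π ∘L z.2) v‖ ≤ ‖z.2 v‖ := norm_hp_le hs _
      refine g2.trans ?_
      have ht := tl_nonneg hs.hh (isPr_of_G hz)
      refine abs_le_of_sq_le_sq' ?_ (mul_nonneg (af_nonneg z) (norm_nonneg v)) |>.2
      refine g1.trans (le_of_eq ?_)
      rw [mul_pow]
      congr 1
      exact (Real.sq_sqrt ht).symm
    refine (FV_YB_le hW hφ hτ hh h0 hB (af_nonneg z) hb z.1).trans ?_
    have h2 : ∫ p in nb (hp π) τ φ z.1,
        (δ * (h * (Λ + 4 / τ) + h) * sf π p ^ 2 + δ * 2 * sf π p) ∂W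
        ≤ ∫ p in nb (hp π) τ φ z.1, δ * kk Λ τ h S * sf π p ∂W := by
      refine int_mono hW.cb (continuous_bd _ _) (continuous_const.mul (continuous_sf π)) ?_ _
      filter_upwards [hS] with p hp'
      have h3' := sf_nonneg (π := π) p
      have h8 : sf π p ^ 2 ≤ S * sf π p := by nlinarith
      have h9 := mul_le_mul_of_nonneg_left h8 (mul_nonneg h0 hg)
      have e2 : δ * kk Λ τ h S * sf π p
          = δ * (h * (Λ + 4 / τ) + h) * (S * sf π p) + δ * 2 * sf π p := by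
        unfold kk; ring
      show _ ≤ δ * kk Λ τ h S * sf π p
      rw [e2]
      linarith
    rw [integral_const_mul] at h2
    refine (mul_le_mul_of_nonneg_left h2 (af_nonneg z)).trans (le_of_eq ?_)
    ring
  refine h1.trans ?_
  rw [integral_const_mul]
  have h2 := near_mul_le (H := hp π) hV hφc hM0 hτ hM (continuous_af π) (continuous_sf π)
  rw [iter_eq hV hφc (continuous_af π) (continuous_sf π)] at h2
  refine (mul_le_mul_of_nonneg_left h2 (mul_nonneg h0 hkk)).trans (le_of_eq ?_)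
  ring

/-! ### the total -/

theorem sf_sq_le (p : Euc k × L k) : sf π p ^ 2 ≤ 2 * af π p ^ 2 + 2 * yf π p ^ 2 := by
  rw [sf_eq]
  nlinarith [sq_nonneg (af π p - yf π p)]

theorem real_aux {e Y : ℝ} (he : 0 ≤ e) (hY : 0 ≤ Y) {s : ℝ} (hs : s ≤ 2 * (e + Y)) :
    √(s * e) ≤ 3 / 2 * (e + √(e * Y)) := by
  have h1 : 0 ≤ √(e * Y) := Real.sqrt_nonneg _
  have h2 : √(e * Y) ^ 2 = e * Y := Real.sq_sqrt (mul_nonneg he hY)
  refine Real.sqrt_le_iff.2 ⟨by positivity, ?_⟩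
  have h3 : s * e ≤ 2 * (e + Y) * e := mul_le_mul_of_nonneg_right hs he
  nlinarith [mul_nonneg he h1, sq_nonneg e, mul_nonneg he hY]

theorem real_aux2 {e Y v : ℝ} (hv : 0 ≤ v) (he : 0 ≤ e) (hY : 0 ≤ Y) {s : ℝ}
    (hs : s ≤ 2 * (e + Y)) : √(s * v) ≤ 3 / 2 * √((e + Y) * v) := by
  have h1 : 0 ≤ √((e + Y) * v) := Real.sqrt_nonneg _
  have h2 : √((e + Y) * v) ^ 2 = (e + Y) * v := Real.sq_sqrt (by positivity)
  refine Real.sqrt_le_iff.2 ⟨by positivity, ?_⟩
  have h3 : s * v ≤ 2 * (e + Y) * v := mul_le_mul_of_nonneg_right hs hv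
  nlinarith [mul_nonneg (add_nonneg he hY) hv]

/-- **the defect of stationarity of the pair fields in the class `AS`.** -/
theorem err_le [IsFiniteMeasure W] (hW : CAS W π κ x₀ R h₀ δ)
    (hφ : Cut (hp π) {y | ‖π y - x₀‖ < R} Λ φ) (hτ : 0 < τ) (hh : 0 < h) (h0 : 0 ≤ δ)
    (h1 : δ ≤ 1) (hM0 : 0 < M) (hM : ∀ᵐ z ∂W, W.real (nb (hp π) τ φ z.1) ≤ M * τ ^ m)
    (hS0 : 0 ≤ S) (hS : ∀ᵐ p ∂W, sf π p ≤ S) {e Y v : ℝ}
    (he : ∫ z in S0 φ, af π z ^ 2 ∂W ≤ e) (hY : ∫ z in S0 φ, yf π z ^ 2 ∂W ≤ Y)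
    (hv : W.real (S0 φ) ≤ v) :
    |err (hp π) W φ h τ| ≤ M * τ ^ m * (7 * kk Λ τ h S * δ * (e + √(e * Y))
      + 2 * kk Λ τ h S * δ ^ 2 * Y + 3 / 2 * δ * h * (2 * Λ + 1) * √((e + Y) * v)
      + √δ * h * e) := by
  have hs := hW.cb.sp
  have hV := hW.cb.base
  have hΛ := hφ.nonneg_lip
  have hk2 := kk_pos hΛ hτ hh hS0
  have hkk : 0 ≤ kk Λ τ h S := zero_le_two.trans hk2
  have he0 : 0 ≤ ∫ z in S0 φ, af π z ^ 2 ∂W := integral_nonneg fun z => sq_nonneg _
  have hY0 : 0 ≤ ∫ z in S0 φ, yf π z ^ 2 ∂W := integral_nonneg fun z => sq_nonneg _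
  have he1 : 0 ≤ e := he0.trans he
  have hY1 : 0 ≤ Y := hY0.trans hY
  have hv1 : 0 ≤ v := measureReal_nonneg.trans hv
  have ia : Integrable (fun z : Euc k × L k => af π z ^ 2) (W.restrict (S0 φ)) :=
    (integrable_one hV ((continuous_af π).pow 2)).restrict
  have iy : Integrable (fun z : Euc k × L k => yf π z ^ 2) (W.restrict (S0 φ)) :=
    (integrable_one hV ((continuous_yf π).pow 2)).restrict
  have is1 : Integrable (fun z : Euc k × L k => sf π z) (W.restrict (S0 φ)) :=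
    (integrable_one hV (continuous_sf π)).restrict
  have is2 : Integrable (fun z : Euc k × L k => sf π z ^ 2) (W.restrict (S0 φ)) :=
    (integrable_one hV ((continuous_sf π).pow 2)).restrict
  have ias : Integrable (fun z : Euc k × L k => af π z * sf π z) (W.restrict (S0 φ)) :=
    (integrable_one hV ((continuous_af π).mul (continuous_sf π))).restrict
  -- `∫ sf²`
  have g1 : ∫ z in S0 φ, sf π z ^ 2 ∂W ≤ 2 * (e + Y) := by
    have h2 : ∫ z in S0 φ, sf π z ^ 2 ∂W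
        ≤ ∫ z in S0 φ, (2 * af π z ^ 2 + 2 * yf π z ^ 2) ∂W :=
      integral_mono_ae is2 ((ia.const_mul 2).add (iy.const_mul 2))
        (Filter.Eventually.of_forall fun z => sf_sq_le z)
    rw [integral_add (ia.const_mul 2) (iy.const_mul 2), integral_const_mul,
      integral_const_mul] at h2
    linarith
  have g0 : 0 ≤ ∫ z in S0 φ, sf π z ^ 2 ∂W := integral_nonneg fun z => sq_nonneg _
  set Z := e + √(e * Y) with hZ
  have hZ0 : 0 ≤ Z := by positivity
  have heZ : e ≤ Z := by have := Real.sqrt_nonneg (e * Y); linarith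
  -- `√(∫ sf² ∫ af²)`
  have g2 : √((∫ z in S0 φ, sf π z ^ 2 ∂W) * ∫ z in S0 φ, af π z ^ 2 ∂W) ≤ 3 / 2 * Z :=
    (Real.sqrt_le_sqrt (mul_le_mul_of_nonneg_left he g0)).trans (real_aux he1 hY1 g1)
  have g3 : √((∫ z in S0 φ, af π z ^ 2 ∂W) * ∫ z in S0 φ, sf π z ^ 2 ∂W) ≤ 3 / 2 * Z := by
    rw [mul_comm]; exact g2
  -- `∫ sf`
  set Q := √((e + Y) * v) with hQ
  have hQ0 : 0 ≤ Q := Real.sqrt_nonneg _
  have g4 : ∫ z in S0 φ, sf π z ∂W ≤ 3 / 2 * Q := by
    have h2 := S0_mul_le (A := S0 φ) hV (continuous_sf π) (continuous_const (y := (1 : ℝ)))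
    simp only [mul_one, one_pow, integral_const, smul_eq_mul, measureReal_restrict_apply_univ]
      at h2
    refine h2.trans ((Real.sqrt_le_sqrt (mul_le_mul_of_nonneg_left hv g0)).trans
      (real_aux2 hv1 he1 hY1 g1))
  -- `∫ af sf`
  have g5 : ∫ z in S0 φ, af π z * sf π z ∂W ≤ 3 / 2 * Z :=
    (S0_mul_le (A := S0 φ) hV (continuous_af π) (continuous_sf π)).trans g3
  have g6 : ∫ z in S0 φ, (δ * h * sf π z + 2 * δ * (af π z * sf π z)
        + √δ * h * af π z ^ 2) ∂W ≤ δ * h * (3 / 2 * Q) + 2 * δ * (3 / 2 * Z) + √δ * h * e := by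
    have j1 : Integrable (fun z => δ * h * sf π z) (W.restrict (S0 φ)) := is1.const_mul _
    have j2 : Integrable (fun z => 2 * δ * (af π z * sf π z)) (W.restrict (S0 φ)) :=
      ias.const_mul _
    have j3 : Integrable (fun z => √δ * h * af π z ^ 2) (W.restrict (S0 φ)) := ia.const_mul _
    have j12 : Integrable (fun z => δ * h * sf π z + 2 * δ * (af π z * sf π z))
      (W.restrict (S0 φ)) := j1.add j2
    rw [integral_add j12 j3, integral_add j1 j2, integral_const_mul, integral_const_mul,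
      integral_const_mul]
    gcongr
  have hXA := FV_XA_le hW hφ hτ hh h0 hM0 hM hS0 hS
  have hYf := int_FV_Yf_le hW hφ hτ hh h0 hM0 hM hS0 hS
  have hc : 0 ≤ M * τ ^ m := by positivity
  have hXA2 : |Pt_615.FV W (XA W π τ h φ)| ≤ M * τ ^ m * (
      δ * (2 * Λ * h * (3 / 2 * Q) + (kk Λ τ h S * (3 / 2 * Z)
        + kk Λ τ h S * δ * (2 * (e + Y))))
      + (δ * h * (3 / 2 * Q) + 2 * δ * (3 / 2 * Z) + √δ * h * e)) := by
    refine hXA.trans ?_
    gcongr
  have hYf2 : |∫ z, Pt_615.FV W (Pt_615.Yf (hp π) (ww (hp π) τ φ) (th (hp π) h) z) ∂W|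
      ≤ M * τ ^ m * (δ * kk Λ τ h S * (3 / 2 * Z)) := by
    refine hYf.trans ?_
    gcongr
  unfold err
  rw [int_FV_Xf hW.cb hφ hτ hh]
  refine (abs_add_le _ _).trans ((add_le_add hXA2 hYf2).trans ?_)
  rw [← mul_add]
  refine mul_le_mul_of_nonneg_left ?_ hc
  have k1 : kk Λ τ h S * δ ^ 2 * e ≤ kk Λ τ h S * δ * Z := by
    have : δ ^ 2 * e ≤ δ * Z := by
      have : δ ^ 2 ≤ δ := by nlinarith
      nlinarith [mul_nonneg h0 (sub_nonneg.2 heZ), mul_nonneg (sub_nonneg.2 this) he1]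
    calc kk Λ τ h S * δ ^ 2 * e = kk Λ τ h S * (δ ^ 2 * e) := by ring
      _ ≤ kk Λ τ h S * (δ * Z) := mul_le_mul_of_nonneg_left this hkk
      _ = _ := by ring
  have k2 : 2 * (δ * Z) ≤ kk Λ τ h S * (δ * Z) :=
    mul_le_mul_of_nonneg_right hk2 (mul_nonneg h0 hZ0)
  have k3 : 0 ≤ kk Λ τ h S * (δ * Z) := by positivity
  nlinarith

end Crest.Agent.R234.Pas_762
end
end

-- ▼ part R234/Pas6_762
section

/-!
Row 234 (helper762), VF-DVAS, file 6: the pair inequality (DV) in the class of almost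
stationary measures.
-/

set_option autoImplicit false

open MeasureTheory Crest.GeometryTopology.Submanifold Filter Topology Set
open scoped ENNReal InnerProductSpace

noncomputable section

namespace Crest.Agent.R234.Pas_762

open Crest.Agent.R234.Vf_884 Crest.Agent.R234.In_947
  Crest.Agent.R234.Pair2_762 Crest.Agent.R234.Pair3_762 Crest.Agent.R234.Pair4_762
  Crest.Agent.R234.Pair5_762 Crest.Agent.R234.Pair6_762 Crest.Agent.R234.Ar_870
open Crest.Agent.R234.Cy_870 (Split CylStat Shh)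

variable {m n k : ℕ} {π : Euc k →L[ℝ] Euc m} {κ : Euc k →L[ℝ] Euc n} {x₀ x : Euc m}
  {R h₀ δ r : ℝ} {τ h M σ c : ℝ} {W : Measure (Euc k × L k)}

/-- second moment of the height over `B_s(y)`. -/
def yb (W : Measure (Euc k × L k)) (π : Euc k →L[ℝ] Euc m) (y : Euc m) (s : ℝ) : ℝ :=
  ∫ p in ov π y s, ‖AS_456.vp π p.1‖ ^ 2 ∂W

theorem norm_vp_eq (hs : Split π κ) (z : Euc k) : ‖AS_456.vp π z‖ = ‖κ z‖ := by
  rw [vp_apply]; exact norm_sub_hp hs z

/-- `√tl + |y| ≤ m + 1`. -/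
theorem sf_le (hW : CAS W π κ x₀ R h₀ δ) (hh1 : h₀ ≤ 1) : ∀ᵐ p ∂W, sf π p ≤ m + 1 := by
  have hs := hW.cb.sp
  filter_upwards [hW.cb.base.conc, hW.hgt] with p hP hp'
  have h1 : √(tl π p.2) ≤ m := by
    have h2 := tl_le hs.hh (isPr_of_G hP)
    have h3 : (m : ℝ) ≤ (m : ℝ) ^ 2 := by
      rcases Nat.eq_zero_or_pos m with h | h
      · subst h; simp
      · have : (1 : ℝ) ≤ m := by exact_mod_cast h
        nlinarith
    exact Real.sqrt_le_iff.2 ⟨Nat.cast_nonneg m, h2.trans h3⟩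
  unfold sf
  rw [norm_vp_eq hs]
  linarith

theorem yb_nonneg (y : Euc m) (s : ℝ) : 0 ≤ yb W π y s := integral_nonneg fun _ => sq_nonneg _

theorem eb_nonneg (hW : CylBase W π κ) (y : Euc m) (s : ℝ) : 0 ≤ eb W π y s :=
  setIntegral_nonneg_of_ae (tl_ae_nonneg hW)

theorem kk_le (hh : 0 < h) (hhτ : h ≤ τ) (hτr : τ ≤ r) (hr1 : r ≤ 1) :
    kk (10 / r) τ h (m + 1) ≤ 17 * (m + 1) := by
  have hτ : 0 < τ := hh.trans_le hhτ
  have hr : 0 < r := hτ.trans_le hτr
  have h1 : h * (10 / r) ≤ 10 := by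
    rw [mul_div_assoc', div_le_iff₀ hr]
    nlinarith [hhτ.trans hτr]
  have h2 : h * (4 / τ) ≤ 4 := by
    rw [mul_div_assoc', div_le_iff₀ hτ]
    nlinarith
  have h3 : h ≤ 1 := (hhτ.trans hτr).trans hr1
  have h4 : (0 : ℝ) ≤ m := Nat.cast_nonneg m
  unfold kk
  nlinarith

/-- the defect for the cut-off `cu`. -/
theorem err_cu_le [IsFiniteMeasure W] (hW : CAS W π κ x₀ R h₀ δ) (hR : ‖x - x₀‖ + 2 * r ≤ R)
    (hh1 : h₀ ≤ 1) (h0 : 0 ≤ δ) (h1 : δ ≤ 1) (hh : 0 < h) (hhτ : h ≤ τ) (hτr : τ ≤ r)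
    (hr1 : r ≤ 1) (hM0 : 0 < M)
    (hM : ∀ y, ‖y - x‖ < 2 * r → W.real (ov π y τ) ≤ M * τ ^ m) :
    |err (hp π) W (cu π x r) h τ| / τ ^ m ≤ M * (
      120 * (m + 1) * δ * (eb W π x (2 * r) + √(eb W π x (2 * r) * yb W π x (2 * r)))
      + 34 * (m + 1) * δ ^ 2 * yb W π x (2 * r)
      + 32 * δ * (h / r) * √((eb W π x (2 * r) + yb W π x (2 * r)) * W.real (ov π x (2 * r)))
      + √δ * h * eb W π x (2 * r)) := by
  have hs := hW.cb.sp
  have hV := hW.cb.base
  have hτ : 0 < τ := hh.trans_le hhτ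
  have hr : 0 < r := hτ.trans_le hτr
  have hτm : 0 < τ ^ m := pow_pos hτ m
  have hφ := cut_cu (x := x) (x₀ := x₀) hs hr hR
  have hM' : ∀ᵐ z ∂W, W.real (nb (hp π) τ (cu π x r) z.1) ≤ M * τ ^ m := by
    refine Filter.Eventually.of_forall fun z => ?_
    by_cases hz : cu π x r z.1 = 0
    · rw [nb_eq_empty hz, measureReal_empty]; positivity
    · exact (measureReal_mono (nb_subset hs z.1)).trans (hM _ (mem_of_nb hr hz))
  have e1 : ∫ z in S0 (cu π x r), af π z ^ 2 ∂W ≤ eb W π x (2 * r) := by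
    have h2 : ∫ z in S0 (cu π x r), af π z ^ 2 ∂W = ∫ z in S0 (cu π x r), tl π z.2 ∂W := by
      refine setIntegral_congr_ae₀
        (isOpen_S0 (continuous_cu π x r)).measurableSet.nullMeasurableSet ?_
      filter_upwards [hV.conc] with p hP _
      exact Real.sq_sqrt (tl_nonneg hs.hh (isPr_of_G hP))
    rw [h2]
    exact setIntegral_mono_set (integrable_tl hW.cb).integrableOn
        (ae_restrict_of_ae (tl_ae_nonneg hW.cb)) (S0_subset hr).eventuallyLE
  have e2 : ∫ z in S0 (cu π x r), yf π z ^ 2 ∂W ≤ yb W π x (2 * r) :=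
    setIntegral_mono_set (integrable_one hV ((continuous_yf π).pow 2)).integrableOn
      (Filter.Eventually.of_forall fun _ => sq_nonneg _) (S0_subset hr).eventuallyLE
  have e3 : W.real (S0 (cu π x r)) ≤ W.real (ov π x (2 * r)) := measureReal_mono (S0_subset hr)
  have h2 := err_le hW hφ hτ hh h0 h1 hM0 hM' (by positivity : (0 : ℝ) ≤ m + 1)
    (sf_le hW hh1) e1 e2 e3
  rw [div_le_iff₀ hτm]
  have e4 : ∀ X : ℝ, M * X * τ ^ m = M * τ ^ m * X := fun X => by ring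
  rw [e4]
  refine h2.trans (mul_le_mul_of_nonneg_left ?_ (by positivity))
  have hk := kk_le (m := m) hh hhτ hτr hr1
  have he0 := eb_nonneg hW.cb x (2 * r)
  have hY0 := yb_nonneg (W := W) (π := π) x (2 * r)
  have h3 : 7 * kk (10 / r) τ h (m + 1) * δ
      * (eb W π x (2 * r) + √(eb W π x (2 * r) * yb W π x (2 * r)))
      ≤ 120 * (m + 1) * δ
      * (eb W π x (2 * r) + √(eb W π x (2 * r) * yb W π x (2 * r))) := by
    have : 7 * kk (10 / r) τ h (m + 1) ≤ 120 * (m + 1) := by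
      have : (0 : ℝ) ≤ m := Nat.cast_nonneg m
      linarith
    gcongr
  have h4 : 2 * kk (10 / r) τ h (m + 1) * δ ^ 2 * yb W π x (2 * r)
      ≤ 34 * (m + 1) * δ ^ 2 * yb W π x (2 * r) := by
    have : 2 * kk (10 / r) τ h (m + 1) ≤ 34 * (m + 1) := by linarith
    gcongr
  have h5 : 3 / 2 * δ * h * (2 * (10 / r) + 1) ≤ 32 * δ * (h / r) := by
    have h6 : 2 * (10 / r) + 1 ≤ 21 / r := by
      have h8 : 1 ≤ 1 / r := by rw [le_div_iff₀ hr]; linarith
      have h9 : 2 * (10 / r) + 1 / r = 21 / r := by ring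
      linarith
    calc 3 / 2 * δ * h * (2 * (10 / r) + 1) ≤ 3 / 2 * δ * h * (21 / r) := by gcongr
      _ = 63 / 2 * (δ * (h / r)) := by ring
      _ ≤ 32 * (δ * (h / r)) := by
          refine mul_le_mul_of_nonneg_right (by norm_num) (by positivity)
      _ = _ := by ring
  have h7 := mul_le_mul_of_nonneg_right h5
    (Real.sqrt_nonneg ((eb W π x (2 * r) + yb W π x (2 * r)) * W.real (ov π x (2 * r))))
  linarith

/-- the error of (DV) in the class `AS`. -/
def ea (m : ℕ) (W : Measure (Euc k × L k)) (π : Euc k →L[ℝ] Euc m) (x : Euc m)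
    (r h δ : ℝ) : ℝ :=
  120 * (m + 1) * δ * (eb W π x (2 * r) + √(eb W π x (2 * r) * yb W π x (2 * r)))
    + 34 * (m + 1) * δ ^ 2 * yb W π x (2 * r)
    + 32 * δ * (h / r) * √((eb W π x (2 * r) + yb W π x (2 * r)) * W.real (ov π x (2 * r)))
    + √δ * h * eb W π x (2 * r)

/-- **(DV), class `AS`, small points.** -/
theorem dv_small_AS [IsFiniteMeasure W] (hW : CAS W π κ x₀ R h₀ δ)
    (hR : ‖x - x₀‖ + 2 * r ≤ R) (hh1 : h₀ ≤ 1) (h0 : 0 ≤ δ) (h1 : δ ≤ 1) (hh : 0 < h)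
    (hhτ : h ≤ τ) (hτr : τ ≤ r) (hr1 : r ≤ 1) (hM0 : 0 < M) (hσ0 : 0 < σ) (hc0 : 0 < c)
    (hM : ∀ y, ‖y - x‖ < 2 * r → W.real (ov π y τ) ≤ M * τ ^ m)
    (hσ : ∀ y, ‖y - x‖ < 2 * r → eb W π y τ ≤ σ ^ 2 * τ ^ m)
    {A : Set (Euc k × L k)} (hA : MeasurableSet A) (hAx : A ⊆ ov π x r)
    (hc : ∀ᵐ z ∂W, z ∈ A →
      c * τ ^ m ≤ W.real {p | ‖π (z.1 - p.1)‖ ≤ τ / 2 ∧ ‖κ (z.1 - p.1)‖ ≤ h}) :
    ∫ z in A, vv (hp π) z.2 ∂W ≤ 32 / 3 / c *
      (h * (30 / r * M * √(eb W π x (2 * r) * W.real (ov π x (2 * r)))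
        + 4 / τ * (σ * √M * eb W π x (2 * r))) + M * ea m W π x r h δ) := by
  have h2 := dv_small_fv hW.cb (hh.trans_le hhτ) hτr hh hM0 hσ0 hc0 hM hσ hA hAx hc
  have h3 := err_cu_le hW hR hh1 h0 h1 hh hhτ hτr hr1 hM0 hM
  refine h2.trans (mul_le_mul_of_nonneg_left ?_ (by positivity))
  exact add_le_add le_rfl h3

/-- **(DV), class `AS`, in the form of 746: density `≥ c` at scale `h / 2`.** -/
theorem dv_AS [IsFiniteMeasure W] (hW : CAS W π κ x₀ R h₀ δ)
    (hR : ‖x - x₀‖ + 2 * r ≤ R) (hh1 : h₀ ≤ 1) (h0 : 0 ≤ δ) (h1 : δ ≤ 1) (hh : 0 < h)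
    (hhr : h ≤ r) (hr1 : r ≤ 1) (hM0 : 0 < M) (hσ0 : 0 < σ) (hc0 : 0 < c)
    (hM : ∀ y, ‖y - x‖ < 2 * r → W.real (ov π y h) ≤ M * h ^ m)
    (hσ : ∀ y, ‖y - x‖ < 2 * r → eb W π y h ≤ σ ^ 2 * h ^ m)
    (hc : ∀ᵐ z ∂W, ‖π z.1 - x‖ < r → c * h ^ m ≤ W.real {p | ‖z.1 - p.1‖ ≤ h / 2}) :
    ∫ z in ov π x r, tl π z.2 ^ 2 ∂W ≤ k / c *
      (320 * M * (h / r) * √(eb W π x (2 * r) * W.real (ov π x (2 * r)))
        + 43 * σ * √M * eb W π x (2 * r) + 11 * M * ea m W π x r h δ) := by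
  have hr : 0 < r := hh.trans_le hhr
  have hB := hW.cb
  have h2 := dv_small_AS hW hR hh1 h0 h1 hh le_rfl hhr hr1 hM0 hσ0 hc0 hM hσ
    (isOpen_ov π x r).measurableSet subset_rfl (by
      filter_upwards [hc] with z hz hzA
      exact (hz hzA).trans (measureReal_mono (ball_sub hB.sp z)))
  have h3 : ∫ z in ov π x r, tl π z.2 ^ 2 ∂W ≤ ∫ z in ov π x r, k * vv (hp π) z.2 ∂W := by
    have hi : Integrable (fun z : Euc k × L k => k * vv (hp π) z.2) W :=
      integrable_one hB.base (continuous_const.mul ((continuous_vv (hp π)).comp continuous_snd))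
    refine integral_mono_of_nonneg (Filter.Eventually.of_forall fun z => sq_nonneg _)
      hi.restrict (ae_restrict_of_ae ?_)
    filter_upwards [hB.base.conc] with z hz
    exact tl_sq_le hB.sp hz
  rw [integral_const_mul] at h3
  refine h3.trans ((mul_le_mul_of_nonneg_left h2 (Nat.cast_nonneg k)).trans ?_)
  have he0 := eb_nonneg hB x (2 * r)
  have hea : 0 ≤ ea m W π x r h δ := by
    have := yb_nonneg (W := W) (π := π) x (2 * r)
    unfold ea
    positivity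
  have e1 : (k : ℝ) * (32 / 3 / c *
      (h * (30 / r * M * √(eb W π x (2 * r) * W.real (ov π x (2 * r)))
        + 4 / h * (σ * √M * eb W π x (2 * r))) + M * ea m W π x r h δ))
      = k / c * (320 * M * (h / r) * √(eb W π x (2 * r) * W.real (ov π x (2 * r)))
        + 128 / 3 * (σ * √M * eb W π x (2 * r)) + 32 / 3 * (M * ea m W π x r h δ)) := by
    field_simp
    ring
  rw [e1]
  refine mul_le_mul_of_nonneg_left ?_ (by positivity)
  have h4 : 0 ≤ σ * √M * eb W π x (2 * r) := by positivity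
  have h5 : 0 ≤ M * ea m W π x r h δ := by positivity
  linarith

end Crest.Agent.R234.Pas_762
end
end

-- ▼ part R234/Pas7_762

/-!
Row 234 (helper762), VF-DVAS, file 7: the pair inequality for helper214's `CylAS`.
-/

set_option autoImplicit false

open MeasureTheory Crest.GeometryTopology.Submanifold Filter Topology Set
open scoped ENNReal InnerProductSpace

noncomputable section

namespace Crest.Agent.R234.Pas_762

open Crest.Agent.R234.Vf_884 Crest.Agent.R234.In_947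
  Crest.Agent.R234.Pair2_762 Crest.Agent.R234.Pair3_762 Crest.Agent.R234.Pair4_762
  Crest.Agent.R234.Pair5_762 Crest.Agent.R234.Pair6_762 Crest.Agent.R234.Ar_870
open Crest.Agent.R234.Cy_870 (Split CylStat Shh)
open Crest.Agent.R234.Asl_214 (CylAS)

variable {m n k : ℕ} {π : Euc k →L[ℝ] Euc m} {κ : Euc k →L[ℝ] Euc n} {x₀ x : Euc m}
  {R h₀ δ r : ℝ} {τ h M σ c : ℝ} {W : Measure (Euc k × L k)}

theorem base_of_as (h : CylAS W π κ x₀ R h₀ δ) : CylBase W π κ := by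
  refine ⟨h.sp, h.conc, ‖x₀‖ + |R| + |h₀|, ?_⟩
  filter_upwards [h.base, h.hgt] with p h1 h2
  have h3 := h.sp.norm_sq p.1
  have h4 : ‖π p.1‖ ≤ ‖x₀‖ + |R| := by
    have := norm_sub_norm_le (π p.1) x₀
    have h4 := le_abs_self R
    linarith
  have h5 : ‖κ p.1‖ ≤ |h₀| := h2.trans (le_abs_self _)
  have h6 : ‖p.1‖ ^ 2 ≤ (‖x₀‖ + |R| + |h₀|) ^ 2 := by
    rw [h3]
    nlinarith [norm_nonneg (π p.1), norm_nonneg (κ p.1), norm_nonneg x₀, abs_nonneg R,
      abs_nonneg h₀]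
  exact (sq_le_sq₀ (norm_nonneg _) (by positivity)).1 h6

/-- 214's class is an instance. -/
theorem cas_of (h : CylAS W π κ x₀ R h₀ δ) : CAS W π κ x₀ R h₀ δ :=
  ⟨base_of_as h, h.hgt, h.fv⟩

/-- **(DV), class `CylAS`, small points.** -/
theorem dv_small_cylAS (hW : CylAS W π κ x₀ R h₀ δ)
    (hR : ‖x - x₀‖ + 2 * r ≤ R) (hh1 : h₀ ≤ 1) (h0 : 0 ≤ δ) (h1 : δ ≤ 1) (hh : 0 < h)
    (hhτ : h ≤ τ) (hτr : τ ≤ r) (hr1 : r ≤ 1) (hM0 : 0 < M) (hσ0 : 0 < σ) (hc0 : 0 < c)
    (hM : ∀ y, ‖y - x‖ < 2 * r → W.real (ov π y τ) ≤ M * τ ^ m)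
    (hσ : ∀ y, ‖y - x‖ < 2 * r → eb W π y τ ≤ σ ^ 2 * τ ^ m)
    {A : Set (Euc k × L k)} (hA : MeasurableSet A) (hAx : A ⊆ ov π x r)
    (hc : ∀ᵐ z ∂W, z ∈ A →
      c * τ ^ m ≤ W.real {p | ‖π (z.1 - p.1)‖ ≤ τ / 2 ∧ ‖κ (z.1 - p.1)‖ ≤ h}) :
    ∫ z in A, vv (hp π) z.2 ∂W ≤ 32 / 3 / c *
      (h * (30 / r * M * √(eb W π x (2 * r) * W.real (ov π x (2 * r)))
        + 4 / τ * (σ * √M * eb W π x (2 * r))) + M * ea m W π x r h δ) := by
  haveI : IsFiniteMeasure W := ⟨hW.fin⟩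
  exact dv_small_AS (cas_of hW) hR hh1 h0 h1 hh hhτ hτr hr1 hM0 hσ0 hc0 hM hσ hA hAx hc

/-- **(DV), class `CylAS`, in the form of 746: density `≥ c` at scale `h / 2`.** -/
theorem dv_cylAS (hW : CylAS W π κ x₀ R h₀ δ)
    (hR : ‖x - x₀‖ + 2 * r ≤ R) (hh1 : h₀ ≤ 1) (h0 : 0 ≤ δ) (h1 : δ ≤ 1) (hh : 0 < h)
    (hhr : h ≤ r) (hr1 : r ≤ 1) (hM0 : 0 < M) (hσ0 : 0 < σ) (hc0 : 0 < c)
    (hM : ∀ y, ‖y - x‖ < 2 * r → W.real (ov π y h) ≤ M * h ^ m)
    (hσ : ∀ y, ‖y - x‖ < 2 * r → eb W π y h ≤ σ ^ 2 * h ^ m)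
    (hc : ∀ᵐ z ∂W, ‖π z.1 - x‖ < r → c * h ^ m ≤ W.real {p | ‖z.1 - p.1‖ ≤ h / 2}) :
    ∫ z in ov π x r, tl π z.2 ^ 2 ∂W ≤ k / c *
      (320 * M * (h / r) * √(eb W π x (2 * r) * W.real (ov π x (2 * r)))
        + 43 * σ * √M * eb W π x (2 * r) + 11 * M * ea m W π x r h δ) := by
  haveI : IsFiniteMeasure W := ⟨hW.fin⟩
  exact dv_AS (cas_of hW) hR hh1 h0 h1 hh hhr hr1 hM0 hσ0 hc0 hM hσ hc

end Crest.Agent.R234.Pas_762
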