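import Crest.Agent.R234.Sc2_173

-- ▼ part R234/Sc3_173
section

/-!
Row 234, strong constancy lemma (helper173).  Part 3: the kernel `vk T`, convolutions, the `L²` identity.
-/

set_option autoImplicit false

open MeasureTheory Metric Set Filter Topology
open scoped ContDiff

namespace Crest.Agent.R234.Sc173

noncomputable section

open Crest.Agent.R246.H2x622 (Psi eta deta Psi_contDiff eta_contDiff deta_contDiff Psi_zero eta_zero
  deta_zero hasFDerivAt_Psi hasFDerivAt_eta G1_nonneg)

variable {d : ℕ}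

/-- standard basis vectors -/
abbrev ee (i : Fin d) : Eu d := EuclideanSpace.single i (1:ℝ)

/-- Laplacian -/
def Lap (U : Eu d → ℝ) (z : Eu d) : ℝ := ∑ i, Dd (ee i) (Dd (ee i) U) z

lemma Dd_zero {a : Eu d} {v : Eu d → ℝ} {R : ℝ} (h : ∀ y : Eu d, R < ‖y‖ → v y = 0) :
    ∀ y : Eu d, R < ‖y‖ → Dd a v y = 0 := by
  intro y hy
  have h1 : v =ᶠ[𝓝 y] fun _ => 0 := by
    have : {z : Eu d | R < ‖z‖} ∈ 𝓝 y := (isOpen_lt continuous_const continuous_norm).mem_nhds hy
    filter_upwards [this] with z hz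
    exact h z hz
  unfold Dd
  rw [h1.fderiv_eq]
  simp

lemma Dd_comm {U : Eu d → ℝ} (hU : ContDiff ℝ ∞ U) (a b z : Eu d) :
    Dd a (Dd b U) z = Dd b (Dd a U) z := by
  have key : ∀ a b : Eu d, Dd a (Dd b U) z = fderiv ℝ (fderiv ℝ U) z a b := by
    intro a b
    have h1 : DifferentiableAt ℝ (fderiv ℝ U) z :=
      (hU.fderiv_right (m := ∞) (by norm_cast)).differentiable (by simp) z
    have h2 : HasFDerivAt (fun y => fderiv ℝ U y b)
        ((ContinuousLinearMap.apply ℝ ℝ b).comp (fderiv ℝ (fderiv ℝ U) z)) z :=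
      (ContinuousLinearMap.apply ℝ ℝ b).hasFDerivAt.comp z h1.hasFDerivAt
    unfold Dd
    rw [h2.fderiv]
    simp
  rw [key, key]
  have hsym : IsSymmSndFDerivAt ℝ U z := by
    refine hU.contDiffAt.isSymmSndFDerivAt ?_
    simp only [minSmoothness_of_isRCLikeNormedField]
    exact WithTop.coe_le_coe.2 (le_top : (2:ℕ∞) ≤ ⊤)
  exact hsym.eq a b

lemma Dd_Dd_eq {U : Eu d → ℝ} (hU : ContDiff ℝ ∞ U) (a b z : Eu d) :
    Dd a (Dd b U) z = fderiv ℝ (fderiv ℝ U) z a b := by
  have h1 : DifferentiableAt ℝ (fderiv ℝ U) z :=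
    (hU.fderiv_right (m := ∞) (by norm_cast)).differentiable (by simp) z
  have h2 : HasFDerivAt (fun y => fderiv ℝ U y b)
      ((ContinuousLinearMap.apply ℝ ℝ b).comp (fderiv ℝ (fderiv ℝ U) z)) z :=
    (ContinuousLinearMap.apply ℝ ℝ b).hasFDerivAt.comp z h1.hasFDerivAt
  unfold Dd
  rw [h2.fderiv]
  simp

/-- integration by parts -/
lemma ibp {f g : Eu d → ℝ} (hf : ContDiff ℝ ∞ f) (hg : ContDiff ℝ ∞ g) (hfc : HasCompactSupport f)
    (a : Eu d) : ∫ x, f x * Dd a g x = - ∫ x, Dd a f x * g x := by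
  have h1 : ∀ {p q : Eu d → ℝ}, ContDiff ℝ ∞ p → ContDiff ℝ ∞ q → HasCompactSupport p →
      Integrable (fun x => p x * q x) := by
    intro p q hp hq hpc
    exact (hp.continuous.mul hq.continuous).integrable_of_hasCompactSupport hpc.mul_right
  exact integral_mul_fderiv_eq_neg_fderiv_mul_of_integrable
    (h1 (Dd_contDiff hf) hg (Dd_hasCompactSupport hfc)) (h1 hf (Dd_contDiff hg) hfc) (h1 hf hg hfc)
    (fun x _ => hf.differentiable (by simp) x) (fun x _ => hg.differentiable (by simp) x)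

/-- **`L²` identity** -/
lemma l2_id {U : Eu d → ℝ} (hU : ContDiff ℝ ∞ U) (hc : HasCompactSupport U) :
    ∑ i, ∑ j, ∫ x, (Dd (ee i) (Dd (ee j) U) x) ^ 2 = ∫ x, (Lap U x) ^ 2 := by
  have key : ∀ i j : Fin d, ∫ x, (Dd (ee i) (Dd (ee j) U) x) ^ 2 =
      ∫ x, Dd (ee j) (Dd (ee j) U) x * Dd (ee i) (Dd (ee i) U) x := by
    intro i j
    have hj := Dd_contDiff (a := ee j) hU
    have hi := Dd_contDiff (a := ee i) hU
    have h1 : ∫ x, (Dd (ee i) (Dd (ee j) U) x) ^ 2 =
        ∫ x, Dd (ee i) (Dd (ee j) U) x * Dd (ee i) (Dd (ee j) U) x := by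
      simp_rw [pow_two]
    have h2 := ibp (f := Dd (ee i) (Dd (ee j) U)) (g := Dd (ee j) U) (Dd_contDiff hj) hj
      (Dd_hasCompactSupport (Dd_hasCompactSupport hc)) (ee i)
    have h3 := ibp (f := Dd (ee i) (Dd (ee i) U)) (g := Dd (ee j) U) (Dd_contDiff hi) hj
      (Dd_hasCompactSupport (Dd_hasCompactSupport hc)) (ee j)
    have h4 : ∀ x, Dd (ee i) (Dd (ee i) (Dd (ee j) U)) x = Dd (ee j) (Dd (ee i) (Dd (ee i) U)) x := by
      intro x
      have h5 : Dd (ee i) (Dd (ee j) U) = Dd (ee j) (Dd (ee i) U) := by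
        funext z; exact Dd_comm hU _ _ z
      rw [h5]
      exact Dd_comm hi _ _ x
    rw [h1, h2]
    simp_rw [h4]
    rw [← h3]
    refine integral_congr_ae (Eventually.of_forall fun x => ?_)
    simp only
    ring
  simp_rw [key]
  unfold Lap
  simp_rw [pow_two, Finset.sum_mul_sum]
  have hint : ∀ i j : Fin d, Integrable fun x =>
      Dd (ee i) (Dd (ee i) U) x * Dd (ee j) (Dd (ee j) U) x := by
    intro i j
    exact ((Dd_contDiff (Dd_contDiff hU)).continuous.mul
      (Dd_contDiff (Dd_contDiff hU)).continuous).integrable_of_hasCompactSupport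
      (Dd_hasCompactSupport (Dd_hasCompactSupport hc)).mul_right
  rw [integral_finsetSum _ fun i _ => integrable_finsetSum _ fun j _ => hint i j]
  rw [Finset.sum_comm]
  refine Finset.sum_congr rfl fun i _ => ?_
  rw [integral_finsetSum _ fun j _ => hint i j]

/-! ### the kernel -/

/-- potential of `y η(y)` -/
def g0 (y : Eu d) : ℝ := - Psi y

lemma g0_contDiff : ContDiff ℝ ∞ (g0 : Eu d → ℝ) := Psi_contDiff.neg

lemma notMem_of_norm {y : Eu d} (h : 1 < ‖y‖) : y ∉ closedBall (0 : Eu d) 1 := by simpa using h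

lemma g0_zero : ∀ y : Eu d, 1 < ‖y‖ → g0 y = 0 := fun y hy => by
  simp [g0, Psi_zero (notMem_of_norm hy)]

lemma Dd_g0 (b : Eu d) : Dd b g0 = fun y => eta y * inner ℝ y b := by
  funext y
  have h := (hasFDerivAt_Psi (F := Eu d) y).neg
  unfold Dd
  have h2 : fderiv ℝ (g0 : Eu d → ℝ) y = -(-(eta y • innerSL ℝ y)) := h.fderiv
  rw [h2]
  simp

lemma Dd_Dd_g0 (a b y : Eu d) :
    Dd a (Dd b g0) y = deta y a * inner ℝ y b + eta y * inner ℝ a b := by
  rw [Dd_g0]
  have h1 := (hasFDerivAt_eta (F := Eu d) y)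
  have h2 : HasFDerivAt (fun y : Eu d => inner ℝ y b) (innerSL ℝ b) y := by
    refine ((innerSL ℝ b).hasFDerivAt (x := y)).congr_of_eventuallyEq
      (Eventually.of_forall fun z => ?_)
    simp only [innerSL_apply_apply]
    exact real_inner_comm _ _
  have h3 := h1.mul h2
  unfold Dd
  have h4 := h3.fderiv
  simp only [Pi.mul_def] at h4
  rw [h4]
  simp only [_root_.add_apply, _root_.smul_apply, smul_eq_mul, innerSL_apply_apply]
  rw [real_inner_comm a b]
  ring

/-- the kernel -/
def vk (T : ℝ) : Eu d → ℝ := SI g0 ((d:ℝ) - 2) T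

lemma vk_contDiff (T : ℝ) : ContDiff ℝ ∞ (vk T : Eu d → ℝ) := SI_contDiff g0_contDiff _ _

lemma vk_zero {T : ℝ} (hT : 0 ≤ T) : ∀ y : Eu d, 1 < ‖y‖ → vk T y = 0 := fun _ hy =>
  SI_zero g0_zero hT hy

lemma vk_hasCompactSupport {T : ℝ} (hT : 0 ≤ T) : HasCompactSupport (vk T : Eu d → ℝ) :=
  SI_hasCompactSupport g0_zero hT

lemma Dd_vk (T : ℝ) (b : Eu d) : Dd b (vk T) = SI (Dd b g0) ((d:ℝ) - 1) T := by
  unfold vk
  rw [Dd_SI g0_contDiff]
  congr 1
  ring

lemma Dd_Dd_vk (T : ℝ) (a b : Eu d) : Dd a (Dd b (vk T)) = SI (Dd a (Dd b g0)) (d:ℝ) T := by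
  rw [Dd_vk, Dd_SI (Dd_contDiff g0_contDiff)]
  congr 1
  ring

/-- the mollifier at scale `e^{-t}` -/
def mo (t : ℝ) : Eu d → ℝ := sc eta (d:ℝ) t

lemma sum_Dd_Dd_g0 (y : Eu d) :
    ∑ i : Fin d, Dd (ee i) (Dd (ee i) g0) y = deta y y + d * eta y := by
  simp_rw [Dd_Dd_g0]
  rw [Finset.sum_add_distrib]
  congr 1
  · have h1 : ∑ i : Fin d, (inner ℝ y (ee i)) • (ee i : Eu d) = y := by
      have h2 := (EuclideanSpace.basisFun (Fin d) ℝ).sum_repr' y
      simp only [EuclideanSpace.basisFun_apply] at h2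
      conv_rhs => rw [← h2]
      refine Finset.sum_congr rfl fun i _ => ?_
      rw [real_inner_comm]
    have h3 : ∑ i : Fin d, deta y (ee i) * inner ℝ y (ee i) =
        deta y (∑ i : Fin d, (inner ℝ y (ee i)) • (ee i : Eu d)) := by
      rw [map_sum]
      refine Finset.sum_congr rfl fun i _ => ?_
      rw [map_smul, smul_eq_mul, mul_comm]
    rw [h3, h1]
  · simp

lemma Lap_vk {T : ℝ} (z : Eu d) : Lap (vk T) z = mo T z - mo 0 z := by
  unfold Lap
  simp_rw [Dd_Dd_vk]
  unfold SI
  have hcont : ∀ i : Fin d, Continuous fun t => sc (Dd (ee i) (Dd (ee i) g0)) (d:ℝ) t z := by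
    intro i
    exact (sc_continuous (Dd_contDiff (Dd_contDiff g0_contDiff)).continuous (d:ℝ)).comp
      (continuous_const.prodMk continuous_id)
  rw [← intervalIntegral.integral_finsetSum fun i _ => (hcont i).intervalIntegrable _ _]
  have hder : ∀ t : ℝ, HasDerivAt (fun t => mo t z)
      (∑ i : Fin d, sc (Dd (ee i) (Dd (ee i) g0)) (d:ℝ) t z) t := by
    intro t
    unfold mo sc
    rw [← Finset.mul_sum, sum_Dd_Dd_g0]
    have h1 : HasDerivAt (fun t : ℝ => Real.exp ((d:ℝ) * t)) (Real.exp ((d:ℝ) * t) * d) t := by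
      have h2 : HasDerivAt (fun t : ℝ => (d:ℝ) * t) ((d:ℝ) * 1) t := (hasDerivAt_id t).const_mul _
      simpa using h2.exp
    have h3 : HasDerivAt (fun t : ℝ => Real.exp t • z) (Real.exp t • z) t :=
      (Real.hasDerivAt_exp t).smul_const z
    have h4 : HasDerivAt ((eta : Eu d → ℝ) ∘ fun t : ℝ => Real.exp t • z)
        (deta (Real.exp t • z) (Real.exp t • z)) t :=
      (hasFDerivAt_eta (F := Eu d) (Real.exp t • z)).comp_hasDerivAt t h3
    simp only [Function.comp_def] at h4
    refine (h1.mul h4).congr_deriv ?_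
    ring
  have hci : Continuous fun t => ∑ i : Fin d, sc (Dd (ee i) (Dd (ee i) g0)) (d:ℝ) t z :=
    continuous_finsetSum _ fun i _ => hcont i
  exact intervalIntegral.integral_eq_sub_of_hasDerivAt (fun t _ => hder t) (hci.intervalIntegrable _ _)

end

end Crest.Agent.R234.Sc173
end

-- ▼ part R234/Sc4_173
section

/-!
Row 234, strong constancy lemma (helper173).  Part 4: convolutions.
-/

set_option autoImplicit false

open MeasureTheory Metric Set Filter Topology
open scoped ContDiff Convolution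

namespace Crest.Agent.R234.Sc173

noncomputable section

open Crest.Agent.R246.H2x622 (Psi eta deta Psi_contDiff eta_contDiff deta_contDiff Psi_zero eta_zero
  deta_zero hasFDerivAt_Psi hasFDerivAt_eta G1_nonneg)

variable {d : ℕ}

/-- convolution -/
def cv (w g : Eu d → ℝ) (y : Eu d) : ℝ := ∫ x, w x * g (y - x)

lemma cv_eq (w g : Eu d → ℝ) : cv w g = (w ⋆[ContinuousLinearMap.lsmul ℝ ℝ, volume] g) := by
  funext y
  simp [cv, convolution_def]

lemma cv_contDiff {w g : Eu d → ℝ} (hw : LocallyIntegrable w volume) (hg : ContDiff ℝ ∞ g)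
    (hc : HasCompactSupport g) : ContDiff ℝ ∞ (cv w g) := by
  rw [cv_eq]
  exact hc.contDiff_convolution_right (n := ⊤) _ hw hg

lemma Dd_cv {w g : Eu d → ℝ} (hw : LocallyIntegrable w volume) (hg : ContDiff ℝ ∞ g)
    (hc : HasCompactSupport g) (a : Eu d) : Dd a (cv w g) = cv w (Dd a g) := by
  funext y
  rw [cv_eq, cv_eq]
  have h1 := hc.hasFDerivAt_convolution_right (ContinuousLinearMap.lsmul ℝ ℝ) hw
    (hg.of_le (by norm_cast)) y
  show (fderiv ℝ (w ⋆[ContinuousLinearMap.lsmul ℝ ℝ, volume] g) y) a = _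
  rw [h1.fderiv]
  rw [convolution_precompR_apply (ContinuousLinearMap.lsmul ℝ ℝ) hw (hc.fderiv ℝ)
    (hg.continuous_fderiv (by simp))]
  rfl

lemma cv_abs_le {w g : Eu d → ℝ} {c : ℝ} (hw1 : ∀ x, |w x| ≤ c) (hg : Integrable g) (y : Eu d) :
    |cv w g y| ≤ c * ∫ x, |g x| := by
  have h1 : ∫ x, |g x| = ∫ x, |g (y - x)| :=
    (integral_sub_left_eq_self (fun x => |g x|) volume y).symm
  rw [h1, ← integral_const_mul]
  unfold cv
  rw [← Real.norm_eq_abs]
  refine norm_integral_le_of_norm_le ((hg.comp_sub_left y).abs.const_mul c)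
    (Eventually.of_forall fun x => ?_)
  rw [norm_mul, Real.norm_eq_abs, Real.norm_eq_abs]
  exact mul_le_mul_of_nonneg_right (hw1 x) (abs_nonneg _)

lemma cv_comm (w g : Eu d → ℝ) : cv w g = cv g w := by
  funext y
  unfold cv
  rw [← integral_sub_left_eq_self (fun x => w x * g (y - x)) volume y]
  refine integral_congr_ae (Eventually.of_forall fun x => ?_)
  simp only [sub_sub_cancel]
  ring

lemma integral_abs_cv_le {w g : Eu d → ℝ} (hw : Integrable w) (hg : Integrable g) :
    ∫ y, |cv w g y| ≤ (∫ x, |w x|) * ∫ x, |g x| := by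
  have h1 := integral_convolution (ContinuousLinearMap.lsmul ℝ ℝ) (μ := volume) (ν := volume)
    hw.abs hg.abs
  simp only [ContinuousLinearMap.lsmul_apply, smul_eq_mul] at h1
  rw [← h1]
  have h2 : Integrable ((fun x => |w x|) ⋆[ContinuousLinearMap.lsmul ℝ ℝ, volume] fun x => |g x|) :=
    hw.abs.integrable_convolution _ hg.abs
  refine integral_mono_of_nonneg (Eventually.of_forall fun y => abs_nonneg _) h2
    (Eventually.of_forall fun y => ?_)
  simp only [convolution_def, ContinuousLinearMap.lsmul_apply, smul_eq_mul]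
  unfold cv
  have h3 := abs_integral_le_integral_abs (f := fun x => w x * g (y - x)) (μ := volume)
  simpa [abs_mul] using h3

lemma cv_zero {w g : Eu d → ℝ} {r s : ℝ} (hw : ∀ x : Eu d, r < ‖x‖ → w x = 0)
    (hg : ∀ x : Eu d, s < ‖x‖ → g x = 0) {y : Eu d} (hy : r + s < ‖y‖) : cv w g y = 0 := by
  unfold cv
  rw [integral_eq_zero_of_ae]
  refine Eventually.of_forall fun x => ?_
  simp only [Pi.zero_apply, mul_eq_zero]
  by_cases h : r < ‖x‖
  · exact Or.inl (hw x h)
  · refine Or.inr (hg _ ?_)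
    have := norm_sub_norm_le y x
    linarith

lemma hasCompactSupport_of_zero {v : Eu d → ℝ} {R : ℝ} (h : ∀ x : Eu d, R < ‖x‖ → v x = 0) :
    HasCompactSupport v := by
  refine HasCompactSupport.intro (isCompact_closedBall (0 : Eu d) R) fun z hz => h z ?_
  simpa using hz

lemma tsupport_of_zero {v : Eu d → ℝ} {R : ℝ} (h : ∀ x : Eu d, R < ‖x‖ → v x = 0) :
    tsupport v ⊆ closedBall (0 : Eu d) R := by
  refine closure_minimal ?_ isClosed_closedBall
  intro x hx
  by_contra hcon
  exact hx (h x (by simpa using hcon))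

/-! ### norms -/

lemma norm_clm_le {X : Type*} [NormedAddCommGroup X] [NormedSpace ℝ X] (B : Eu d →L[ℝ] X) :
    ‖B‖ ≤ ∑ i, ‖B (ee i)‖ := by
  refine B.opNorm_le_bound (Finset.sum_nonneg fun i _ => norm_nonneg _) fun v => ?_
  have h1 : v = ∑ i, (v i) • (ee i : Eu d) := by
    have h2 := (EuclideanSpace.basisFun (Fin d) ℝ).sum_repr v
    simp only [EuclideanSpace.basisFun_apply, EuclideanSpace.basisFun_repr] at h2
    exact h2.symm
  conv_lhs => rw [h1]
  rw [map_sum, Finset.sum_mul]
  refine (norm_sum_le _ _).trans (Finset.sum_le_sum fun i _ => ?_)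
  rw [map_smul, norm_smul, mul_comm]
  exact mul_le_mul_of_nonneg_left (PiLp.norm_apply_le v i) (norm_nonneg _)

lemma norm_D1_le (U : Eu d → ℝ) (y : Eu d) : ‖fderiv ℝ U y‖ ≤ ∑ j, |Dd (ee j) U y| :=
  norm_clm_le _

lemma norm_D2_le {U : Eu d → ℝ} (hU : ContDiff ℝ ∞ U) (y : Eu d) :
    ‖fderiv ℝ (fderiv ℝ U) y‖ ≤ ∑ i, ∑ j, |Dd (ee i) (Dd (ee j) U) y| := by
  refine (norm_clm_le _).trans (Finset.sum_le_sum fun i _ => ?_)
  refine (norm_clm_le _).trans (Finset.sum_le_sum fun j _ => ?_)
  rw [Dd_Dd_eq hU, Real.norm_eq_abs]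

lemma Lap_eq {U : Eu d → ℝ} (hU : ContDiff ℝ ∞ U) (y : Eu d) :
    Lap U y = ∑ i, fderiv ℝ (fderiv ℝ U) y (ee i) (ee i) := by
  unfold Lap
  exact Finset.sum_congr rfl fun i _ => Dd_Dd_eq hU _ _ _

/-! ### the mollifier -/

lemma eta_nonneg (y : Eu d) : 0 ≤ eta y := mul_nonneg zero_le_two (G1_nonneg _)

lemma mo_nonneg (t : ℝ) (y : Eu d) : 0 ≤ mo t y := mul_nonneg (Real.exp_pos _).le (eta_nonneg _)

/-- the mass of the mollifier -/
def c0 (d : ℕ) : ℝ := ∫ y : Eu d, eta y

lemma eta_zero' : ∀ y : Eu d, 1 < ‖y‖ → eta y = 0 := fun _ hy => eta_zero (notMem_of_norm hy)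

lemma mo_zero {t : ℝ} {y : Eu d} (hy : 1 < Real.exp t * ‖y‖) : mo t y = 0 := sc_zero eta_zero' hy

lemma mo_contDiff (t : ℝ) : ContDiff ℝ ∞ (mo t : Eu d → ℝ) := by
  unfold mo
  exact (sc_contDiff eta_contDiff (d:ℝ)).comp (contDiff_id.prodMk contDiff_const)

lemma mo_continuous (t : ℝ) : Continuous (mo t : Eu d → ℝ) := (mo_contDiff t).continuous

lemma mo_zero' {t : ℝ} (ht : 0 ≤ t) : ∀ y : Eu d, 1 < ‖y‖ → mo t y = 0 := fun y hy =>
  mo_zero (by nlinarith [Real.one_le_exp ht, norm_nonneg y])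

lemma mo_hasCompactSupport {t : ℝ} (ht : 0 ≤ t) : HasCompactSupport (mo t : Eu d → ℝ) :=
  hasCompactSupport_of_zero (mo_zero' ht)

lemma mo_integrable {t : ℝ} (ht : 0 ≤ t) : Integrable (mo t : Eu d → ℝ) :=
  (mo_continuous t).integrable_of_hasCompactSupport (mo_hasCompactSupport ht)

lemma integral_mo (t : ℝ) : ∫ y : Eu d, mo t y = c0 d := by
  have h1 := integral_abs_sc (g := (eta : Eu d → ℝ)) (d:ℝ) t
  have h2 : ∀ z : Eu d, |sc eta (d:ℝ) t z| = mo t z := fun z => abs_of_nonneg (mo_nonneg t z)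
  simp_rw [h2] at h1
  rw [h1, sub_self, zero_mul, Real.exp_zero, one_mul]
  exact integral_congr_ae (Eventually.of_forall fun z => abs_of_nonneg (eta_nonneg z))


lemma G1_one_pos : 0 < Crest.Agent.R246.H2x622.G1 1 := by
  have h1 : Crest.Agent.R246.H2x622.G0 =ᶠ[𝓝 (1:ℝ)] fun x => Real.exp (-x⁻¹) := by
    filter_upwards [Ioi_mem_nhds (zero_lt_one' ℝ)] with x hx
    have hx' : ¬ x ≤ 0 := not_le.2 hx
    simp [Crest.Agent.R246.H2x622.G0, expNegInvGlue, hx']
  have h2 : HasDerivAt (fun x : ℝ => Real.exp (-x⁻¹)) (Real.exp (-(1:ℝ)⁻¹) * (-(-((1:ℝ) ^ 2)⁻¹))) 1 :=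
    ((hasDerivAt_inv (one_ne_zero)).neg).exp
  have h3 : Crest.Agent.R246.H2x622.G1 1 = Real.exp (-(1:ℝ)⁻¹) * (-(-((1:ℝ) ^ 2)⁻¹)) := by
    unfold Crest.Agent.R246.H2x622.G1
    rw [h1.deriv_eq, h2.deriv]
  rw [h3]
  simp [Real.exp_pos]

lemma c0_pos : 0 < c0 d := by
  have hy : 0 < eta (0 : Eu d) := by
    unfold Crest.Agent.R246.H2x622.eta
    simpa using G1_one_pos
  have hc : Continuous (eta : Eu d → ℝ) := eta_contDiff.continuous
  exact hc.integral_pos_of_hasCompactSupport_nonneg_nonzero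
    (hasCompactSupport_of_zero eta_zero') eta_nonneg hy.ne'

end

end Crest.Agent.R234.Sc173
end

-- ▼ part R234/Sc5_173
section

/-!
Row 234, strong constancy lemma (helper173).  Part 5: covering and smoothing.
-/

set_option autoImplicit false

open MeasureTheory Metric Set Filter Topology
open scoped ContDiff ENNReal

namespace Crest.Agent.R234.Sc173

noncomputable section

variable {d : ℕ}

lemma om_pos : 0 < om d := by
  unfold om
  exact ENNReal.toReal_pos (measure_ball_pos volume _ one_pos).ne' measure_ball_lt_top.ne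

lemma vol_ball (x : Eu d) {r : ℝ} (hr : 0 < r) :
    volume (ball x r) = ENNReal.ofReal (r ^ d * om d) := by
  rw [Measure.addHaar_ball_of_pos _ _ hr, ENNReal.ofReal_mul (by positivity)]
  simp [om, finrank_euclideanSpace, ENNReal.ofReal_toReal measure_ball_lt_top.ne]

lemma vol_closedBall' (x : Eu d) {r : ℝ} (hr : 0 < r) :
    volume (closedBall x r) = ENNReal.ofReal (r ^ d * om d) := by
  rw [← vol_closedBall x hr.le, ENNReal.ofReal_toReal measure_closedBall_lt_top.ne]

/-- the set where the maximal function is large -/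
def bad (E : Measure (Eu d)) (lam : ℝ) : Set (Eu d) :=
  {x | ∃ r : ℝ, 0 < r ∧ lam * (r ^ d * om d) < E.real (ball x r)}

lemma isOpen_bad (E : Measure (Eu d)) [IsFiniteMeasure E] (lam : ℝ) : IsOpen (bad E lam) := by
  rw [Metric.isOpen_iff]
  rintro x ⟨r, hr, hx⟩
  have hc : Continuous fun e : ℝ => lam * ((r + e) ^ d * om d) := by fun_prop
  have h1 : ∀ᶠ e in 𝓝 (0:ℝ), lam * ((r + e) ^ d * om d) < E.real (ball x r) :=
    hc.continuousAt.eventually_lt continuousAt_const (by simpa using hx)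
  obtain ⟨e, he, h2⟩ := Metric.eventually_nhds_iff.1 h1
  refine ⟨e / 2, by positivity, fun y hy => ⟨r + e / 2, by positivity, ?_⟩⟩
  refine (h2 (y := e / 2) ?_).trans_le (measureReal_mono ?_)
  · rw [dist_zero_right, Real.norm_eq_abs, abs_of_pos (by positivity)]; linarith
  · intro z hz
    rw [mem_ball] at *
    have := dist_triangle_right z y x
    have h3 := dist_triangle z x y
    rw [dist_comm x y] at h3
    linarith

/-- Vitali covering -/
lemma vol_bad (hd : 0 < d) (E : Measure (Eu d)) [IsFiniteMeasure E] {lam : ℝ} (hl : 0 < lam) :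
    volume (bad E lam) ≤ ENNReal.ofReal (5 ^ d / lam) * E univ := by
  classical
  choose! r hr hbig using fun x (hx : x ∈ bad E lam) => hx
  have hom := @om_pos d
  -- bound for the radii
  have hR : ∀ x ∈ bad E lam, r x ≤ max 1 (E.real univ / (lam * om d)) := by
    intro x hx
    rcases le_total (r x) 1 with h | h
    · exact h.trans (le_max_left _ _)
    · refine le_trans ?_ (le_max_right _ _)
      rw [le_div_iff₀ (by positivity)]
      have h1 : r x ≤ r x ^ d := le_self_pow₀ h hd.ne'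
      have h2 := hbig x hx
      have h3 : E.real (ball x (r x)) ≤ E.real univ := measureReal_mono (subset_univ _)
      calc r x * (lam * om d) ≤ r x ^ d * (lam * om d) :=
            mul_le_mul_of_nonneg_right h1 (by positivity)
        _ = lam * (r x ^ d * om d) := by ring
        _ ≤ E.real univ := (h2.trans_le h3).le
  obtain ⟨u, hut, hdisj, hcov⟩ := Vitali.exists_disjoint_subfamily_covering_enlargement_closedBall
    (bad E lam) (fun x : Eu d => x) r _ hR 5 (by norm_num)
  have hcount : u.Countable := by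
    refine hdisj.countable_of_nonempty_interior fun x hx => ?_
    exact ⟨x, ball_subset_interior_closedBall (mem_ball_self (hr x (hut hx)))⟩
  have hsub : bad E lam ⊆ ⋃ b ∈ u, closedBall b (5 * r b) := by
    intro x hx
    obtain ⟨b, hb, h⟩ := hcov x hx
    exact mem_iUnion₂.2 ⟨b, hb, h (mem_closedBall_self (hr x hx).le)⟩
  have : Countable u := hcount.to_subtype
  calc volume (bad E lam) ≤ volume (⋃ b ∈ u, closedBall b (5 * r b)) := measure_mono hsub
    _ ≤ ∑' b : u, volume (closedBall (b : Eu d) (5 * r b)) := measure_biUnion_le _ hcount _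
    _ ≤ ∑' b : u, ENNReal.ofReal (5 ^ d / lam) * E (ball (b : Eu d) (r b)) := by
        refine ENNReal.tsum_le_tsum fun b => ?_
        have hb := hr b (hut b.2)
        rw [vol_closedBall' _ (by positivity)]
        have h1 := hbig b (hut b.2)
        have h2 : (5 * r b) ^ d * om d ≤ 5 ^ d / lam * E.real (ball (b : Eu d) (r b)) := by
          rw [mul_pow]
          calc 5 ^ d * r b ^ d * om d = 5 ^ d / lam * (lam * (r b ^ d * om d)) := by
                field_simp
            _ ≤ _ := mul_le_mul_of_nonneg_left h1.le (by positivity)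
        refine (ENNReal.ofReal_le_ofReal h2).trans_eq ?_
        rw [ENNReal.ofReal_mul (by positivity), Measure.real, ENNReal.ofReal_toReal (by finiteness)]
    _ = ENNReal.ofReal (5 ^ d / lam) * ∑' b : u, E (ball (b : Eu d) (r b)) := ENNReal.tsum_mul_left
    _ ≤ ENNReal.ofReal (5 ^ d / lam) * E univ := by
        gcongr
        have h3 : ∑' b : u, E (ball (b : Eu d) (r b)) = E (⋃ b : u, ball (b : Eu d) (r b)) := by
          refine (measure_iUnion ?_ fun b => measurableSet_ball).symm
          intro b c hbc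
          exact (hdisj b.2 c.2 (fun h => hbc (Subtype.ext h))).mono ball_subset_closedBall
            ball_subset_closedBall
        rw [h3]
        exact measure_mono (subset_univ _)

lemma compl_bad_nonempty (hd : 0 < d) (E : Measure (Eu d)) [IsFiniteMeasure E] {lam : ℝ}
    (hl : 0 < lam) : ((bad E lam)ᶜ).Nonempty := by
  by_contra hcon
  rw [not_nonempty_iff_eq_empty, compl_empty_iff] at hcon
  have h1 := vol_bad hd E hl
  rw [hcon] at h1
  have : Nontrivial (Eu d) := by
    refine ⟨0, ee ⟨0, hd⟩, fun h => ?_⟩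
    have := congrArg norm h
    simp at this
  have h2 : volume (univ : Set (Eu d)) = ⊤ := measure_univ_of_isAddLeftInvariant _
  rw [h2, top_le_iff] at h1
  exact (ENNReal.mul_ne_top ENNReal.ofReal_ne_top (measure_ne_top E _)) h1

/-! ### smoothing -/

/-- radius function -/
def rho (F : Set (Eu d)) (tau : ℝ) (y : Eu d) : ℝ := max tau (infDist y F / 4)

lemma rho_pos {F : Set (Eu d)} {tau : ℝ} (h : 0 < tau) (y : Eu d) : 0 < rho F tau y :=
  h.trans_le (le_max_left _ _)

lemma rho_continuous (F : Set (Eu d)) (tau : ℝ) : Continuous (rho F tau) := by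
  unfold rho
  fun_prop

lemma rho_le (F : Set (Eu d)) (tau : ℝ) (y z : Eu d) : rho F tau y ≤ rho F tau z + dist y z / 4 := by
  unfold rho
  have h1 : infDist y F ≤ infDist z F + dist y z := infDist_le_infDist_add_dist
  have h2 := @dist_nonneg _ _ y z
  refine max_le ?_ ?_
  · exact (le_max_left tau (infDist z F / 4)).trans (by linarith)
  · have h3 : infDist z F / 4 ≤ max tau (infDist z F / 4) := le_max_right _ _
    linarith

/-- the smoothing kernel -/
def Kk (F : Set (Eu d)) (tau : ℝ) (y z : Eu d) : ℝ≥0∞ :=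
  {p : Eu d × Eu d | dist p.2 p.1 < rho F tau p.1}.indicator
    (fun p => (ENNReal.ofReal (rho F tau p.1 ^ d * om d))⁻¹) (y, z)

lemma Kk_measurable (F : Set (Eu d)) (tau : ℝ) : Measurable (Function.uncurry (Kk F tau)) := by
  have hc := rho_continuous F tau
  have h1 : MeasurableSet {p : Eu d × Eu d | dist p.2 p.1 < rho F tau p.1} :=
    (isOpen_lt (by fun_prop) (hc.comp continuous_fst)).measurableSet
  refine Measurable.indicator ?_ h1
  have h2 : Measurable fun p : Eu d × Eu d => rho F tau p.1 ^ d * om d := by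
    exact (((hc.comp continuous_fst).pow d).mul continuous_const).measurable
  exact h2.ennreal_ofReal.inv

lemma lintegral_Kk {F : Set (Eu d)} {tau : ℝ} (h : 0 < tau) (y : Eu d) :
    ∫⁻ z, Kk F tau y z = 1 := by
  have h1 : ∀ z, Kk F tau y z = (ball y (rho F tau y)).indicator
      (fun _ => (ENNReal.ofReal (rho F tau y ^ d * om d))⁻¹) z := by
    intro z
    unfold Kk
    by_cases hz : dist z y < rho F tau y
    · rw [indicator_of_mem (by exact hz), indicator_of_mem (by exact hz)]
    · rw [indicator_of_notMem (by exact hz), indicator_of_notMem (by exact hz)]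
  simp_rw [h1]
  rw [lintegral_indicator_const measurableSet_ball, vol_ball _ (rho_pos h y)]
  have h2 := @om_pos d
  have h3 := rho_pos (F := F) h y
  exact ENNReal.inv_mul_cancel (by simpa using by positivity) ENNReal.ofReal_ne_top

lemma lintegral_Kk_le (hd : 0 < d) {E : Measure (Eu d)} [IsFiniteMeasure E] {lam tau : ℝ} (hl : 0 < lam)
    (h : 0 < tau) (z : Eu d) :
    ∫⁻ y, Kk (bad E lam)ᶜ tau y z ∂E ≤ ENNReal.ofReal (14 ^ d * lam) := by
  set F := (bad E lam)ᶜ with hF
  have hne : F.Nonempty := compl_bad_nonempty hd E hl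
  have hom := @om_pos d
  have hr := rho_pos (F := F) h z
  set r := rho F tau z with hr_def
  -- pointwise bound
  have h1 : ∀ y, Kk F tau y z ≤ (ball z (2 * r)).indicator
      (fun _ => (ENNReal.ofReal ((r / 2) ^ d * om d))⁻¹) y := by
    intro y
    unfold Kk
    by_cases hz : dist z y < rho F tau y
    · have h2 := rho_le F tau y z
      have h3 := rho_le F tau z y
      rw [dist_comm] at h2
      have hy := rho_pos (F := F) h y
      have h4 : rho F tau y ≤ 2 * r := by rw [hr_def]; linarith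
      have h5 : r / 2 ≤ rho F tau y := by rw [hr_def]; linarith
      rw [indicator_of_mem (by exact hz), indicator_of_mem
        (by rw [mem_ball, dist_comm]; exact hz.trans_le h4)]
      refine ENNReal.inv_le_inv.2 (ENNReal.ofReal_le_ofReal ?_)
      exact mul_le_mul_of_nonneg_right (pow_le_pow_left₀ (by positivity) h5 d) hom.le
    · rw [indicator_of_notMem (by exact hz)]
      exact zero_le
  have h6 : ∃ x' ∈ F, dist z x' < 5 * r := by
    rw [← infDist_lt_iff hne]
    have h7 : infDist z F / 4 ≤ r := le_max_right _ _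
    linarith
  obtain ⟨x', hx', hd'⟩ := h6
  have h8 : E.real (ball z (2 * r)) ≤ lam * ((7 * r) ^ d * om d) := by
    have h9 : ball z (2 * r) ⊆ ball x' (7 * r) := by
      intro y hy
      rw [mem_ball] at *
      have := dist_triangle y z x'
      linarith
    have h10 : ¬ lam * ((7 * r) ^ d * om d) < E.real (ball x' (7 * r)) := by
      intro hcon
      exact hx' ⟨7 * r, by positivity, hcon⟩
    exact (measureReal_mono h9).trans (not_lt.1 h10)
  calc ∫⁻ y, Kk F tau y z ∂E
      ≤ ∫⁻ y, (ball z (2 * r)).indicator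
          (fun _ => (ENNReal.ofReal ((r / 2) ^ d * om d))⁻¹) y ∂E := lintegral_mono h1
    _ = (ENNReal.ofReal ((r / 2) ^ d * om d))⁻¹ * E (ball z (2 * r)) := by
        rw [lintegral_indicator_const measurableSet_ball]
    _ ≤ (ENNReal.ofReal ((r / 2) ^ d * om d))⁻¹ * ENNReal.ofReal (lam * ((7 * r) ^ d * om d)) := by
        gcongr
        rw [← ENNReal.ofReal_toReal (measure_ne_top E _)]
        exact ENNReal.ofReal_le_ofReal h8
    _ = ENNReal.ofReal (14 ^ d * lam) := by
        rw [← ENNReal.ofReal_inv_of_pos (by positivity), ← ENNReal.ofReal_mul (by positivity)]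
        congr 1
        rw [show (14:ℝ) = 7 * 2 by norm_num, mul_pow, mul_pow, div_pow]
        field_simp

/-- abstract smoothing inequality -/
lemma smoothing_abs {E : Measure (Eu d)} [IsFiniteMeasure E] {K : Eu d → Eu d → ℝ≥0∞}
    (hKm : Measurable (Function.uncurry K)) (hK1 : ∀ y, ∫⁻ z, K y z = 1) {c : ℝ} 
    (hKc : ∀ z, ∫⁻ y, K y z ∂E ≤ ENNReal.ofReal c)
    {f : Eu d → ℝ≥0∞} (hf : Measurable f) {C1 : ℝ≥0∞}
    (hosc : ∀ y z, K y z ≠ 0 → f y ≤ f z + C1) {kap : ℝ} (hk : 0 < kap) :
    ∫⁻ y, f y ∂E ≤ ENNReal.ofReal kap * (∫⁻ z, f z ^ 2) +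
      (ENNReal.ofReal (c / kap) + C1) * E univ := by
  have hKy : ∀ y, Measurable (K y) := fun y => hKm.comp (measurable_const.prodMk measurable_id)
  have hKz : ∀ z, Measurable (fun y => K y z) := fun z =>
    hKm.comp (measurable_id.prodMk measurable_const)
  -- step 1: pointwise
  have h1 : ∀ y, f y ≤ (∫⁻ z, f z * K y z) + C1 := by
    intro y
    calc f y = ∫⁻ z, f y * K y z := by
          rw [lintegral_const_mul _ (hKy y), hK1, mul_one]
      _ ≤ ∫⁻ z, (f z * K y z + C1 * K y z) := by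
          refine lintegral_mono fun z => ?_
          simp only
          rw [← add_mul]
          by_cases hz : K y z = 0
          · rw [hz]; simp
          · exact mul_le_mul_left (hosc y z hz) _
      _ = (∫⁻ z, f z * K y z) + C1 := by
          rw [lintegral_add_right _ ((hKy y).const_mul _), lintegral_const_mul _ (hKy y),
            hK1, mul_one]
  -- step 2: Tonelli
  have hfK : Measurable (Function.uncurry fun y z => f z * K y z) :=
    (hf.comp measurable_snd).mul hKm
  have h2 : ∫⁻ y, f y ∂E ≤ (∫⁻ z, ∫⁻ y, f z * K y z ∂E) + C1 * E univ := by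
    calc ∫⁻ y, f y ∂E ≤ ∫⁻ y, ((∫⁻ z, f z * K y z) + C1) ∂E := lintegral_mono h1
      _ = (∫⁻ y, (∫⁻ z, f z * K y z) ∂E) + C1 * E univ := by
          rw [lintegral_add_right _ measurable_const, lintegral_const]
      _ = _ := by
          rw [lintegral_lintegral_swap hfK.aemeasurable]
  -- step 3: pointwise in `z`
  have h3 : ∀ z, ∫⁻ y, f z * K y z ∂E ≤ ENNReal.ofReal kap * f z ^ 2 +
      ENNReal.ofReal (c / kap) * ∫⁻ y, K y z ∂E := by
    intro z
    rw [lintegral_const_mul _ (hKz z)]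
    have h4 := hKc z
    rcases le_total (f z) (ENNReal.ofReal (c / kap)) with h5 | h5
    · exact (mul_le_mul_left h5 _).trans le_add_self
    · refine le_trans ?_ le_self_add
      rw [pow_two, ← mul_assoc, mul_comm]
      refine mul_le_mul_left ?_ _
      refine h4.trans ?_
      calc ENNReal.ofReal c = ENNReal.ofReal kap * ENNReal.ofReal (c / kap) := by
            rw [← ENNReal.ofReal_mul hk.le]
            congr 1
            field_simp
        _ ≤ _ := mul_le_mul_right h5 _
  have h6 : Measurable fun z => ∫⁻ y, K y z ∂E := hKm.lintegral_prod_left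
  have h7 : ∫⁻ z, ∫⁻ y, K y z ∂E = E univ := by
    rw [← lintegral_lintegral_swap hKm.aemeasurable]
    simp_rw [hK1]
    simp
  have h8 : ∫⁻ z, ∫⁻ y, f z * K y z ∂E ≤ ENNReal.ofReal kap * (∫⁻ z, f z ^ 2) +
      ENNReal.ofReal (c / kap) * E univ := by
    refine (lintegral_mono h3).trans_eq ?_
    rw [lintegral_add_right _ (h6.const_mul _), lintegral_const_mul _ (hf.pow_const 2),
      lintegral_const_mul _ h6, h7]
  calc ∫⁻ y, f y ∂E ≤ (∫⁻ z, ∫⁻ y, f z * K y z ∂E) + C1 * E univ := h2
    _ ≤ (ENNReal.ofReal kap * (∫⁻ z, f z ^ 2) + ENNReal.ofReal (c / kap) * E univ) + C1 * E univ := by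
        gcongr
    _ = _ := by rw [add_mul, add_assoc]

/-- **smoothing inequality** -/
lemma smoothing (hd : 0 < d) {E : Measure (Eu d)} [IsFiniteMeasure E] {lam tau : ℝ} (hl : 0 < lam)
    (h : 0 < tau) {f : Eu d → ℝ≥0∞} (hf : Measurable f) {C1 : ℝ≥0∞}
    (hosc : ∀ y z, dist z y < rho (bad E lam)ᶜ tau y → f y ≤ f z + C1) {kap : ℝ} (hk : 0 < kap) :
    ∫⁻ y, f y ∂E ≤ ENNReal.ofReal kap * (∫⁻ z, f z ^ 2) +
      (ENNReal.ofReal (14 ^ d * lam / kap) + C1) * E univ := by
  refine smoothing_abs (Kk_measurable (bad E lam)ᶜ tau) (lintegral_Kk h) (lintegral_Kk_le hd hl h)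
    hf ?_ hk
  intro y z hK
  refine hosc y z ?_
  by_contra hz
  refine hK ?_
  unfold Kk
  rw [indicator_of_notMem (by exact hz)]

end

end Crest.Agent.R234.Sc173
end

-- ▼ part R234/Sc6_173
section

/-!
Row 234, strong constancy lemma (helper173).  Part 6: the weak type estimate.
-/

set_option autoImplicit false

open MeasureTheory Metric Set Filter Topology
open scoped ContDiff ENNReal

namespace Crest.Agent.R234.Sc173

noncomputable section

open Crest.Agent.R246.H2x622 (Psi eta deta Psi_contDiff eta_contDiff deta_contDiff Psi_zero eta_zero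
  deta_zero hasFDerivAt_Psi hasFDerivAt_eta G1_nonneg)

variable {d : ℕ}

/-- the double divergence form of the equation -/
def H2 (A E G : Measure (Eu d)) : Prop := ∀ U : Eu d → ℝ, ContDiff ℝ ∞ U → HasCompactSupport U →
  tsupport U ⊆ ball (0 : Eu d) 4 →
  |∫ x, Lap U x ∂A| ≤ (∫ x, ‖fderiv ℝ (fderiv ℝ U) x‖ ∂E) + ∫ x, ‖fderiv ℝ U x‖ ∂G

/-- mollification -/
def fA (A : Measure (Eu d)) (t : ℝ) (x : Eu d) : ℝ := ∫ y, mo t (y - x) ∂A

lemma bdd_of_cc {g : Eu d → ℝ} (hg : Continuous g) (hc : HasCompactSupport g) :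
    ∃ C : ℝ, 0 ≤ C ∧ ∀ x, |g x| ≤ C := by
  obtain ⟨C, hC⟩ := hc.exists_bound_of_continuous hg
  exact ⟨max C 0, le_max_right _ _, fun x => (hC x).trans (le_max_left _ _)⟩

lemma cv_integrable {w g : Eu d → ℝ} (hw : Integrable w) (hg : Continuous g)
    (hc : HasCompactSupport g) (y : Eu d) : Integrable fun x => w x * g (y - x) := by
  obtain ⟨C, hC0, hC⟩ := bdd_of_cc hg hc
  exact hw.mul_bdd (c := C) (hg.comp (continuous_const.sub continuous_id)).aestronglyMeasurable
    (Eventually.of_forall fun x => by simpa using hC (y - x))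

lemma Lap_cv {w g : Eu d → ℝ} (hw : Integrable w) (hg : ContDiff ℝ ∞ g) (hc : HasCompactSupport g)
    (y : Eu d) : Lap (cv w g) y = cv w (Lap g) y := by
  have h1 : ∀ i : Fin d, Dd (ee i) (Dd (ee i) (cv w g)) = cv w (Dd (ee i) (Dd (ee i) g)) := by
    intro i
    rw [Dd_cv hw.locallyIntegrable hg hc, Dd_cv hw.locallyIntegrable (Dd_contDiff hg)
      (Dd_hasCompactSupport hc)]
  unfold Lap
  simp_rw [h1]
  unfold cv
  rw [← integral_finsetSum _ fun i _ => cv_integrable hw (Dd_contDiff (Dd_contDiff hg)).continuous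
    (Dd_hasCompactSupport (Dd_hasCompactSupport hc)) y]
  refine integral_congr_ae (Eventually.of_forall fun x => ?_)
  simp only
  rw [Finset.mul_sum]

lemma Lap_continuous {g : Eu d → ℝ} (hg : ContDiff ℝ ∞ g) : Continuous (Lap g) :=
  continuous_finsetSum _ fun i _ => (Dd_contDiff (Dd_contDiff hg)).continuous

lemma Lap_hasCompactSupport {g : Eu d → ℝ} (hc : HasCompactSupport g) :
    HasCompactSupport (Lap g) := by
  refine hc.mono' ?_
  intro x hx
  by_contra hcon
  refine hx ?_
  unfold Lap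
  refine Finset.sum_eq_zero fun i _ => ?_
  have h1 : ∀ {v : Eu d → ℝ} {a : Eu d}, x ∉ tsupport v → x ∉ tsupport (Dd a v) := by
    intro v a h1 h2
    refine h1 ?_
    have h3 : tsupport (Dd a v) ⊆ tsupport v := by
      refine closure_minimal (fun z hz => ?_) (isClosed_tsupport v)
      by_contra h4
      refine hz ?_
      unfold Dd
      rw [fderiv_of_notMem_tsupport ℝ h4]
      simp
    exact h3 h2
  exact image_eq_zero_of_notMem_tsupport (h1 (h1 hcon))

/-- **the pairing** -/
lemma pairing {A : Measure (Eu d)} [IsFiniteMeasure A] {w g : Eu d → ℝ} (hw : Integrable w)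
    (hg : ContDiff ℝ ∞ g) (hc : HasCompactSupport g) :
    ∫ y, Lap (cv w g) y ∂A = ∫ x, w x * ∫ y, Lap g (y - x) ∂A := by
  simp_rw [Lap_cv hw hg hc]
  unfold cv
  have hgc := Lap_continuous hg
  obtain ⟨C, hC0, hC⟩ := bdd_of_cc hgc (Lap_hasCompactSupport hc)
  have hint : Integrable (Function.uncurry fun (y x : Eu d) => w x * Lap g (y - x))
      (A.prod volume) := by
    refine (hw.comp_snd A).mul_bdd (c := C)
      (hgc.comp (continuous_fst.sub continuous_snd)).aestronglyMeasurable
      (Eventually.of_forall fun p => by simpa using hC (p.1 - p.2))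
  rw [integral_integral_swap hint]
  refine integral_congr_ae (Eventually.of_forall fun x => ?_)
  simp only
  rw [integral_const_mul]

lemma mo_bdd {t : ℝ} (ht : 0 ≤ t) : ∃ C : ℝ, 0 ≤ C ∧ ∀ x : Eu d, |mo t x| ≤ C :=
  bdd_of_cc (mo_continuous t) (mo_hasCompactSupport ht)

lemma integrable_fA (A : Measure (Eu d)) [IsFiniteMeasure A] {t : ℝ} (ht : 0 ≤ t) (x : Eu d) :
    Integrable (fun y => mo t (y - x)) A := by
  obtain ⟨C, hC0, hC⟩ := mo_bdd (d := d) ht
  refine Integrable.of_bound
    ((mo_continuous t).comp (continuous_id.sub continuous_const)).aestronglyMeasurable C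
    (Eventually.of_forall fun y => by simpa using hC (y - x))

lemma pairing_vk {A : Measure (Eu d)} [IsFiniteMeasure A] {w : Eu d → ℝ} (hw : Integrable w)
    {T : ℝ} (hT : 0 ≤ T) :
    ∫ y, Lap (cv w (vk T)) y ∂A = ∫ x, w x * (fA A T x - fA A 0 x) := by
  rw [pairing hw (vk_contDiff T) (vk_hasCompactSupport hT)]
  refine integral_congr_ae (Eventually.of_forall fun x => ?_)
  simp only [Lap_vk]
  rw [integral_sub (integrable_fA A hT x) (integrable_fA A le_rfl x)]
  rfl

/-- mollifications are differentiable -/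
lemma fA_hasFDerivAt (A : Measure (Eu d)) [IsFiniteMeasure A] {t : ℝ} (ht : 0 ≤ t) (x : Eu d) :
    HasFDerivAt (fA A t) (∫ y, -fderiv ℝ (mo t) (y - x) ∂A) x := by
  have hd : ContDiff ℝ ∞ (fderiv ℝ (mo t : Eu d → ℝ)) := (mo_contDiff t).fderiv_right (by norm_cast)
  obtain ⟨C, hC⟩ := ((mo_hasCompactSupport (d := d) ht).fderiv ℝ).exists_bound_of_continuous
    hd.continuous
  unfold fA
  refine hasFDerivAt_integral_of_dominated_of_fderiv_le (bound := fun _ => C) (s := univ)
    (F := fun x y => mo t (y - x)) (F' := fun x y => -fderiv ℝ (mo t) (y - x)) univ_mem ?_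
    (integrable_fA A ht x) ?_ ?_ (integrable_const C) ?_
  · exact Eventually.of_forall fun z =>
      ((mo_continuous t).comp (continuous_id.sub continuous_const)).aestronglyMeasurable
  · exact (hd.continuous.comp (continuous_id.sub continuous_const)).neg.aestronglyMeasurable
  · refine Eventually.of_forall fun y z _ => ?_
    rw [norm_neg]
    exact hC _
  · refine Eventually.of_forall fun y z _ => ?_
    have h1 : HasFDerivAt (mo t : Eu d → ℝ) (fderiv ℝ (mo t) (y - z)) (y - z) :=
      ((mo_contDiff t).differentiable (by simp) _).hasFDerivAt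
    have h2 : HasFDerivAt (fun z : Eu d => y - z) (-ContinuousLinearMap.id ℝ (Eu d)) z :=
      (hasFDerivAt_id z).const_sub y
    have h3 := h1.comp z h2
    refine h3.congr_fderiv ?_
    ext v
    simp

lemma fA_continuous (A : Measure (Eu d)) [IsFiniteMeasure A] {t : ℝ} (ht : 0 ≤ t) :
    Continuous (fA A t) :=
  continuous_iff_continuousAt.2 fun x => (fA_hasFDerivAt A ht x).continuousAt

lemma fA_nonneg (A : Measure (Eu d)) (t : ℝ) (x : Eu d) : 0 ≤ fA A t x :=
  integral_nonneg fun _ => mo_nonneg _ _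

end

end Crest.Agent.R234.Sc173
end

-- ▼ part R234/Sc7_173
section

/-!
Row 234, strong constancy lemma (helper173).  Part 7: the weak type estimate.
-/

set_option autoImplicit false

open MeasureTheory Metric Set Filter Topology
open scoped ContDiff ENNReal

namespace Crest.Agent.R234.Sc173

noncomputable section

open Crest.Agent.R246.H2x622 (Psi eta deta Psi_contDiff eta_contDiff deta_contDiff Psi_zero eta_zero
  deta_zero hasFDerivAt_Psi hasFDerivAt_eta G1_nonneg)

variable {d : ℕ}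

/-- smoothing inequality, real form -/
lemma smoothing_real (hd : 0 < d) {E : Measure (Eu d)} [IsFiniteMeasure E] {lam tau : ℝ} (hl : 0 < lam)
    (ht : 0 < tau) {h : Eu d → ℝ} (hc : Continuous h) (hs : HasCompactSupport h) {C1 : ℝ}
    (hC1 : 0 ≤ C1)
    (hosc : ∀ y z, dist z y < rho (bad E lam)ᶜ tau y → |h y| ≤ |h z| + C1) {kap : ℝ} (hk : 0 < kap) :
    ∫ y, |h y| ∂E ≤ kap * (∫ z, h z ^ 2) + (14 ^ d * lam / kap + C1) * E.real univ := by
  have h1 := smoothing hd hl ht (f := fun y => ENNReal.ofReal |h y|)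
    hc.abs.measurable.ennreal_ofReal (C1 := ENNReal.ofReal C1) (fun y z hyz => by
      rw [← ENNReal.ofReal_add (abs_nonneg _) hC1]
      exact ENNReal.ofReal_le_ofReal (hosc y z hyz)) hk
  have hi1 : Integrable (fun y => |h y|) E := by
    obtain ⟨C, _, hC⟩ := bdd_of_cc hc hs
    exact Integrable.of_bound hc.abs.aestronglyMeasurable C
      (Eventually.of_forall fun y => by simpa using hC y)
  have hi2 : Integrable (fun y => h y ^ 2) := by
    have : HasCompactSupport fun y => h y ^ 2 := by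
      refine hs.mono ?_
      intro x hx hx0
      exact hx (by simp only [hx0]; ring)
    exact (hc.pow 2).integrable_of_hasCompactSupport this
  have h2 : ∀ z, ENNReal.ofReal |h z| ^ 2 = ENNReal.ofReal (h z ^ 2) := by
    intro z
    rw [← ENNReal.ofReal_pow (abs_nonneg _), sq_abs]
  simp_rw [h2] at h1
  rw [← ofReal_integral_eq_lintegral_ofReal hi1 (Eventually.of_forall fun y => abs_nonneg _),
    ← ofReal_integral_eq_lintegral_ofReal hi2 (Eventually.of_forall fun y => sq_nonneg _),
    ← ENNReal.ofReal_mul hk.le, ← ENNReal.ofReal_add (by positivity) hC1,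
    ← ENNReal.ofReal_toReal (measure_ne_top E univ), ← ENNReal.ofReal_mul (by positivity),
    ← ENNReal.ofReal_add (mul_nonneg hk.le (integral_nonneg fun _ => sq_nonneg _))
      (by positivity)] at h1
  refine (ENNReal.ofReal_le_ofReal_iff ?_).1 h1
  have := integral_nonneg (μ := volume) (f := fun z => h z ^ 2) fun _ => sq_nonneg _
  positivity

lemma osc_app {E : Measure (Eu d)} {lam : ℝ} {w : Eu d → ℝ} (hw : Measurable w)
    (hw1 : ∀ x, |w x| ≤ 1) (hwF : ∀ x, w x ≠ 0 → x ∉ bad E lam) {g : Eu d → ℝ} (hg : Continuous g)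
    (h0 : ∀ y : Eu d, 1 < ‖y‖ → g y = 0)
    {L : ℝ} (hL0 : 0 ≤ L) (hL : ∀ x y : Eu d, |g x - g y| ≤ L * ‖x - y‖) {T : ℝ} (hT : 0 ≤ T)
    (hu : UniformContinuous (cv w (SI g d T))) :
    ∃ tau > 0, ∀ y z, dist z y < rho (bad E lam)ᶜ tau y →
      |cv w (SI g d T) y| ≤ |cv w (SI g d T) z| + (2 * L * om d + 1) := by
  obtain ⟨tau, ht, h1⟩ := Metric.uniformContinuous_iff.1 hu 1 one_pos
  have hom := @om_pos d
  have hab : ∀ a b c : ℝ, |a - b| ≤ c → |a| ≤ |b| + c := by
    intro a b c h
    have := abs_sub_abs_le_abs_sub a b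
    linarith
  refine ⟨tau, ht, fun y z hyz => ?_⟩
  refine hab _ _ _ ?_
  rcases le_or_gt (infDist y (bad E lam)ᶜ / 4) tau with h | h
  · rw [rho, max_eq_left h] at hyz
    have h2 := h1 (a := y) (b := z) (by rwa [dist_comm])
    rw [Real.dist_eq] at h2
    have : 0 ≤ 2 * L * om d := by positivity
    linarith
  · rw [rho, max_eq_right h.le] at hyz
    set r := infDist y (bad E lam)ᶜ / 4 with hr
    have hr0 : 0 < r := ht.trans h
    have h2 : ∀ x, w x ≠ 0 → 4 * r ≤ ‖y - x‖ := by
      intro x hx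
      have h3 : infDist y (bad E lam)ᶜ ≤ dist y x := infDist_le_dist_of_mem (hwF x hx)
      rw [dist_eq_norm] at h3
      rw [hr]; linarith
    have h4 : ∀ x, w x ≠ 0 → 3 * r ≤ ‖z - x‖ := by
      intro x hx
      have h5 := h2 x hx
      rw [← dist_eq_norm] at h5 ⊢
      have := dist_triangle y z x
      rw [dist_comm y z] at this
      linarith
    have h5 := osc_SI hg h0 hL0 hL hw hw1 (y := y) (y' := z) (r := 3 * r) (by positivity) hT
      (fun x hx => by have := h2 x hx; linarith) h4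
    refine h5.trans ?_
    rw [← dist_eq_norm, div_le_iff₀ (by positivity)]
    rw [dist_comm] at hyz
    have h6 : 0 ≤ 2 * L * om d := by positivity
    calc 2 * L * om d * dist y z ≤ 2 * L * om d * (3 * r) :=
          mul_le_mul_of_nonneg_left (by linarith) h6
      _ ≤ _ := by nlinarith

lemma Lap_cv_abs_le {w : Eu d → ℝ} (hw : Integrable w) (hw1 : ∀ x, |w x| ≤ 1) {T : ℝ} (hT : 0 ≤ T)
    (y : Eu d) : |Lap (cv w (vk T)) y| ≤ 2 * c0 d := by
  rw [Lap_cv hw (vk_contDiff T) (vk_hasCompactSupport hT)]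
  have h1 : (Lap (vk T) : Eu d → ℝ) = fun z => mo T z - mo 0 z := by
    funext z; exact Lap_vk z
  have hi : Integrable (Lap (vk T) : Eu d → ℝ) := by
    rw [h1]; exact (mo_integrable hT).sub (mo_integrable le_rfl)
  refine (cv_abs_le hw1 hi y).trans ?_
  rw [one_mul]
  calc ∫ x, |Lap (vk T) x| ≤ ∫ x : Eu d, (mo T x + mo 0 x) := by
        refine integral_mono hi.abs ((mo_integrable hT).add (mo_integrable le_rfl)) fun x => ?_
        simp only [h1]
        have a1 := mo_nonneg T x
        have a2 := mo_nonneg 0 x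
        rw [abs_le]
        constructor <;> linarith
    _ = 2 * c0 d := by
        rw [integral_add (mo_integrable hT) (mo_integrable le_rfl), integral_mo, integral_mo]
        ring

lemma integral_Lap_cv_le {w : Eu d → ℝ} (hw : Integrable w) {T : ℝ} (hT : 0 ≤ T) :
    ∫ y, |Lap (cv w (vk T)) y| ≤ (∫ x, |w x|) * (2 * c0 d) := by
  simp_rw [Lap_cv hw (vk_contDiff T) (vk_hasCompactSupport hT)]
  have h1 : (Lap (vk T) : Eu d → ℝ) = fun z => mo T z - mo 0 z := by
    funext z; exact Lap_vk z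
  have hi : Integrable (Lap (vk T) : Eu d → ℝ) := by
    rw [h1]; exact (mo_integrable hT).sub (mo_integrable le_rfl)
  refine (integral_abs_cv_le hw hi).trans ?_
  refine mul_le_mul_of_nonneg_left ?_ (integral_nonneg fun _ => abs_nonneg _)
  calc ∫ x, |Lap (vk T) x| ≤ ∫ x : Eu d, (mo T x + mo 0 x) := by
        refine integral_mono hi.abs ((mo_integrable hT).add (mo_integrable le_rfl)) fun x => ?_
        simp only [h1]
        have a1 := mo_nonneg T x
        have a2 := mo_nonneg 0 x
        rw [abs_le]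
        constructor <;> linarith
    _ = 2 * c0 d := by
        rw [integral_add (mo_integrable hT) (mo_integrable le_rfl), integral_mo, integral_mo]
        ring

lemma cv_vk_contDiff {w : Eu d → ℝ} (hw : Integrable w) {T : ℝ} (hT : 0 ≤ T) :
    ContDiff ℝ ∞ (cv w (vk T)) :=
  cv_contDiff hw.locallyIntegrable (vk_contDiff T) (vk_hasCompactSupport hT)

lemma cv_vk_zero {w : Eu d → ℝ} {R : ℝ} (hw0 : ∀ x : Eu d, R < ‖x‖ → w x = 0) {T : ℝ} (hT : 0 ≤ T) :
    ∀ y : Eu d, R + 1 < ‖y‖ → cv w (vk T) y = 0 := fun _ hy => cv_zero hw0 (vk_zero hT) hy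

/-- first derivatives of the test function -/
lemma D1_cv_vk {w : Eu d → ℝ} (hw : Integrable w) (hw1 : ∀ x, |w x| ≤ 1) {T : ℝ} (hT : 0 ≤ T)
    (j : Fin d) (y : Eu d) : |Dd (ee j) (cv w (vk T)) y| ≤ ∫ x : Eu d, |Dd (ee j) g0 x| := by
  rw [Dd_cv hw.locallyIntegrable (vk_contDiff T) (vk_hasCompactSupport hT)]
  have hi : Integrable (Dd (ee j) (vk T) : Eu d → ℝ) :=
    (Dd_contDiff (vk_contDiff T)).continuous.integrable_of_hasCompactSupport
      (Dd_hasCompactSupport (vk_hasCompactSupport hT))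
  refine (cv_abs_le hw1 hi y).trans ?_
  rw [one_mul, Dd_vk]
  refine (integral_abs_SI_le (Dd_contDiff g0_contDiff).continuous (Dd_zero g0_zero) hT).trans ?_
  have h1 : (∫ t in (0:ℝ)..T, Real.exp (((d:ℝ) - 1 - d) * t)) ≤ 1 := by
    have h2 : ∀ t : ℝ, Real.exp (((d:ℝ) - 1 - d) * t) = Real.exp (-t) := by
      intro t; congr 1; ring
    simp_rw [h2]
    rw [intervalIntegral.integral_comp_neg (fun t => Real.exp t), integral_exp]
    simp [(Real.exp_pos _).le]
  calc _ ≤ 1 * ∫ x : Eu d, |Dd (ee j) g0 x| :=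
        mul_le_mul_of_nonneg_right h1 (integral_nonneg fun _ => abs_nonneg _)
    _ = _ := one_mul _

lemma integrable_D2 {E : Measure (Eu d)} [IsFiniteMeasure E] {U : Eu d → ℝ} (hU : ContDiff ℝ ∞ U)
    (hc : HasCompactSupport U) (i j : Fin d) :
    Integrable (fun x => |Dd (ee i) (Dd (ee j) U) x|) E := by
  have h1 := (Dd_contDiff (a := ee i) (Dd_contDiff (a := ee j) hU)).continuous
  obtain ⟨C, _, hC⟩ := bdd_of_cc h1 (Dd_hasCompactSupport (Dd_hasCompactSupport hc))
  exact Integrable.of_bound h1.abs.aestronglyMeasurable C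
    (Eventually.of_forall fun y => by simpa using hC y)

lemma integrable_D1 {E : Measure (Eu d)} [IsFiniteMeasure E] {U : Eu d → ℝ} (hU : ContDiff ℝ ∞ U)
    (hc : HasCompactSupport U) (j : Fin d) :
    Integrable (fun x => |Dd (ee j) U x|) E := by
  have h1 := (Dd_contDiff (a := ee j) hU).continuous
  obtain ⟨C, _, hC⟩ := bdd_of_cc h1 (Dd_hasCompactSupport hc)
  exact Integrable.of_bound h1.abs.aestronglyMeasurable C
    (Eventually.of_forall fun y => by simpa using hC y)

lemma integral_D2_le {E : Measure (Eu d)} [IsFiniteMeasure E] {U : Eu d → ℝ} (hU : ContDiff ℝ ∞ U)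
    (hc : HasCompactSupport U) :
    ∫ x, ‖fderiv ℝ (fderiv ℝ U) x‖ ∂E ≤ ∑ i, ∑ j, ∫ x, |Dd (ee i) (Dd (ee j) U) x| ∂E := by
  have hi : ∀ i j : Fin d, Integrable (fun x => |Dd (ee i) (Dd (ee j) U) x|) E :=
    integrable_D2 hU hc
  calc ∫ x, ‖fderiv ℝ (fderiv ℝ U) x‖ ∂E ≤ ∫ x, ∑ i, ∑ j, |Dd (ee i) (Dd (ee j) U) x| ∂E := by
        refine integral_mono_of_nonneg
          (Eventually.of_forall fun x => norm_nonneg (fderiv ℝ (fderiv ℝ U) x))
          (integrable_finsetSum _ fun i _ => integrable_finsetSum _ fun j _ => hi i j)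
          (Eventually.of_forall fun x => norm_D2_le hU x)
    _ = _ := by
        rw [integral_finsetSum _ fun i _ => integrable_finsetSum _ fun j _ => hi i j]
        refine Finset.sum_congr rfl fun i _ => ?_
        rw [integral_finsetSum _ fun j _ => hi i j]

lemma integral_D1_le {E : Measure (Eu d)} [IsFiniteMeasure E] {U : Eu d → ℝ} (hU : ContDiff ℝ ∞ U)
    (hc : HasCompactSupport U) :
    ∫ x, ‖fderiv ℝ U x‖ ∂E ≤ ∑ j, ∫ x, |Dd (ee j) U x| ∂E := by
  have hi : ∀ j : Fin d, Integrable (fun x => |Dd (ee j) U x|) E := integrable_D1 hU hc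
  calc ∫ x, ‖fderiv ℝ U x‖ ∂E ≤ ∫ x, ∑ j, |Dd (ee j) U x| ∂E := by
        refine integral_mono_of_nonneg (Eventually.of_forall fun x => norm_nonneg (fderiv ℝ U x))
          (integrable_finsetSum _ fun j _ => hi j)
          (Eventually.of_forall fun x => norm_D1_le U x)
    _ = _ := by
        rw [integral_finsetSum _ fun j _ => hi j]

end

end Crest.Agent.R234.Sc173
end

-- ▼ part R234/Sc8_173
section

/-!
Row 234, strong constancy lemma (helper173).  Part 8: the weak type estimate, conclusion.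
-/

set_option autoImplicit false

open MeasureTheory Metric Set Filter Topology
open scoped ContDiff ENNReal

namespace Crest.Agent.R234.Sc173

noncomputable section

open Crest.Agent.R246.H2x622 (Psi eta deta Psi_contDiff eta_contDiff deta_contDiff Psi_zero eta_zero
  deta_zero hasFDerivAt_Psi hasFDerivAt_eta G1_nonneg)

variable {d : ℕ}

/-- the set where the mollification drops -/
def NN (A : Measure (Eu d)) (T lam : ℝ) : Set (Eu d) :=
  {x | x ∈ ball (0 : Eu d) 2 ∧ fA A T x - fA A 0 x < -lam}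

lemma NN_measurable (A : Measure (Eu d)) [IsFiniteMeasure A] {T : ℝ} (hT : 0 ≤ T) (lam : ℝ) :
    MeasurableSet (NN A T lam) := by
  have h1 : IsOpen {x : Eu d | fA A T x - fA A 0 x < -lam} :=
    isOpen_lt ((fA_continuous A hT).sub (fA_continuous A le_rfl)) continuous_const
  exact (isOpen_ball.inter h1).measurableSet

lemma exists_L (d : ℕ) : ∃ L : ℝ, 0 ≤ L ∧ ∀ i j : Fin d, ∀ x y : Eu d,
    |Dd (ee i) (Dd (ee j) g0) x - Dd (ee i) (Dd (ee j) g0) y| ≤ L * ‖x - y‖ := by
  have h1 : ∀ i j : Fin d, ∃ C, LipschitzWith C (Dd (ee i) (Dd (ee j) g0) : Eu d → ℝ) := by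
    intro i j
    refine ContDiff.lipschitzWith_of_hasCompactSupport (𝕂 := ℝ) (n := ∞)
      (Dd_hasCompactSupport (Dd_hasCompactSupport (hasCompactSupport_of_zero g0_zero)))
      (Dd_contDiff (Dd_contDiff g0_contDiff)) (by simp)
  choose C hC using h1
  refine ⟨∑ i, ∑ j, (C i j : ℝ), Finset.sum_nonneg fun i _ => Finset.sum_nonneg fun j _ => (C i j).2,
    fun i j x y => ?_⟩
  have h2 := (hC i j).dist_le_mul x y
  rw [Real.dist_eq, dist_eq_norm] at h2
  refine h2.trans (mul_le_mul_of_nonneg_right ?_ (norm_nonneg _))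
  have h3 : (C i j : ℝ) ≤ ∑ j, (C i j : ℝ) :=
    Finset.single_le_sum (f := fun j => (C i j : ℝ)) (fun j _ => (C i j).2) (Finset.mem_univ j)
  have h4 : ∑ j, (C i j : ℝ) ≤ ∑ i, ∑ j, (C i j : ℝ) :=
    Finset.single_le_sum (f := fun i => ∑ j, (C i j : ℝ))
      (fun i _ => Finset.sum_nonneg fun j _ => (C i j).2) (Finset.mem_univ i)
  exact h3.trans h4

/-- **weak type estimate** -/
theorem weak (hd : 0 < d) : ∃ C : ℝ, 0 ≤ C ∧ ∀ (A E G : Measure (Eu d)) [IsFiniteMeasure A]
    [IsFiniteMeasure E] [IsFiniteMeasure G] (δ : ℝ), H2 A E G → E.real univ ≤ δ → G.real univ ≤ δ →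
    ∀ T, 0 ≤ T → ∀ lam, 0 < lam → lam * volume.real (NN A T lam) ≤ C * δ := by
  obtain ⟨L, hL0, hL⟩ := exists_L d
  have hom := @om_pos d
  have hc := @c0_pos d
  set C1 : ℝ := 2 * L * om d + 1 with hC1
  have hC10 : 0 ≤ C1 := by positivity
  set C2 : ℝ := ∑ j, ∫ x : Eu d, |Dd (ee j) g0 x| with hC2
  have hC20 : 0 ≤ C2 := Finset.sum_nonneg fun j _ => integral_nonneg fun _ => abs_nonneg _
  set C3 : ℝ := d ^ 2 * (14 ^ d * (8 * c0 d ^ 2) + C1) + C2 with hC3
  have hC30 : 0 ≤ C3 := by positivity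
  refine ⟨2 * C3 + 5 ^ d, by positivity, ?_⟩
  intro A E G _ _ _ δ h2 hE hG T hT lam hl
  have hδ : 0 ≤ δ := measureReal_nonneg.trans hE
  set S : Set (Eu d) := NN A T lam \ bad E lam with hS
  have hSm : MeasurableSet S := (NN_measurable A hT lam).diff (isOpen_bad E lam).measurableSet
  have hSsub : S ⊆ ball 0 2 := fun x hx => hx.1.1
  have hSfin : volume S ≠ ⊤ := ((measure_mono hSsub).trans_lt measure_ball_lt_top).ne
  set w : Eu d → ℝ := S.indicator 1 with hw
  have hwm : Measurable w := measurable_one.indicator hSm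
  have hw1 : ∀ x, |w x| ≤ 1 := by
    intro x
    rw [hw]
    by_cases hx : x ∈ S
    · simp [hx]
    · simp [hx]
  have hwS : ∀ x, w x ≠ 0 → x ∈ S := by
    intro x hx
    by_contra hcon
    exact hx (by rw [hw, indicator_of_notMem hcon])
  have hwi : Integrable w := by
    rw [hw]
    exact (integrable_indicator_iff hSm).2 (integrableOn_const hSfin)
  have hw0 : ∀ x : Eu d, 2 < ‖x‖ → w x = 0 := by
    intro x hx
    by_contra hcon
    have := hSsub (hwS x hcon)
    rw [mem_ball_zero_iff] at this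
    linarith
  set U := cv w (vk T) with hU
  have hUd : ContDiff ℝ ∞ U := cv_vk_contDiff hwi hT
  have hU0 : ∀ y : Eu d, 2 + 1 < ‖y‖ → U y = 0 := cv_vk_zero hw0 hT
  have hUc : HasCompactSupport U := hasCompactSupport_of_zero hU0
  have hUt : tsupport U ⊆ ball (0 : Eu d) 4 :=
    (tsupport_of_zero hU0).trans (closedBall_subset_ball (by norm_num))
  have hmain := h2 U hUd hUc hUt
  -- the gradient term
  have hI1 : ∫ x, ‖fderiv ℝ U x‖ ∂G ≤ C2 * δ := by
    refine (integral_D1_le hUd hUc).trans ?_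
    rw [hC2, Finset.sum_mul]
    refine Finset.sum_le_sum fun j _ => ?_
    calc ∫ x, |Dd (ee j) U x| ∂G ≤ ∫ x, (∫ x : Eu d, |Dd (ee j) g0 x|) ∂G := by
          refine integral_mono (integrable_D1 hUd hUc j) (integrable_const _) fun y => ?_
          exact D1_cv_vk hwi hw1 hT j y
      _ = (∫ x : Eu d, |Dd (ee j) g0 x|) * G.real univ := by
          rw [integral_const, smul_eq_mul, mul_comm]
      _ ≤ _ := mul_le_mul_of_nonneg_left hG (integral_nonneg fun _ => abs_nonneg _)
  -- the Hessian term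
  have hkap : 0 < lam / (8 * c0 d ^ 2) := by positivity
  have hI2 : ∫ x, ‖fderiv ℝ (fderiv ℝ U) x‖ ∂E ≤
      lam / (8 * c0 d ^ 2) * (∫ x, Lap U x ^ 2) + d ^ 2 * (14 ^ d * (8 * c0 d ^ 2) + C1) * δ := by
    refine (integral_D2_le hUd hUc).trans ?_
    have h3 : ∀ i j : Fin d, ∫ x, |Dd (ee i) (Dd (ee j) U) x| ∂E ≤
        lam / (8 * c0 d ^ 2) * (∫ x, (Dd (ee i) (Dd (ee j) U) x) ^ 2) +
          (14 ^ d * (8 * c0 d ^ 2) + C1) * δ := by
      intro i j
      have h4 : Dd (ee i) (Dd (ee j) U) = cv w (SI (Dd (ee i) (Dd (ee j) g0)) d T) := by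
        rw [hU, Dd_cv hwi.locallyIntegrable (vk_contDiff T) (vk_hasCompactSupport hT),
          Dd_cv hwi.locallyIntegrable (Dd_contDiff (vk_contDiff T))
            (Dd_hasCompactSupport (vk_hasCompactSupport hT)), Dd_Dd_vk]
      have h5 : Continuous (Dd (ee i) (Dd (ee j) U)) := (Dd_contDiff (Dd_contDiff hUd)).continuous
      have h6 : HasCompactSupport (Dd (ee i) (Dd (ee j) U)) :=
        Dd_hasCompactSupport (Dd_hasCompactSupport hUc)
      have h7 : UniformContinuous (cv w (SI (Dd (ee i) (Dd (ee j) g0)) d T)) := by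
        rw [← h4]
        exact h6.uniformContinuous_of_continuous h5
      obtain ⟨tau, ht, h8⟩ := osc_app (E := E) (lam := lam) hwm hw1 (fun x hx => (hwS x hx).2)
        (Dd_contDiff (Dd_contDiff g0_contDiff)).continuous (Dd_zero (Dd_zero g0_zero)) hL0 (hL i j)
        hT h7
      rw [← h4] at h8
      have h9 := smoothing_real hd hl ht h5 h6 hC10 h8 hkap
      refine h9.trans ?_
      have h10 : 14 ^ d * lam / (lam / (8 * c0 d ^ 2)) = 14 ^ d * (8 * c0 d ^ 2) := by
        field_simp
      rw [h10]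
      have h11 : 0 ≤ 14 ^ d * (8 * c0 d ^ 2) + C1 := by positivity
      have := mul_le_mul_of_nonneg_left hE h11
      linarith
    calc ∑ i, ∑ j, ∫ x, |Dd (ee i) (Dd (ee j) U) x| ∂E
        ≤ ∑ i : Fin d, ∑ j : Fin d, (lam / (8 * c0 d ^ 2) * (∫ x, (Dd (ee i) (Dd (ee j) U) x) ^ 2) +
          (14 ^ d * (8 * c0 d ^ 2) + C1) * δ) :=
          Finset.sum_le_sum fun i _ => Finset.sum_le_sum fun j _ => h3 i j
      _ = _ := by
          rw [← l2_id hUd hUc]
          simp only [Finset.sum_add_distrib, Finset.sum_const, Finset.card_univ, Fintype.card_fin,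
            nsmul_eq_mul, ← Finset.mul_sum]
          ring
  have hw_abs : ∀ x, |w x| = w x := by
    intro x
    rw [hw]
    by_cases hx : x ∈ S
    · simp [hx]
    · simp [hx]
  have hwint : ∫ x, |w x| = volume.real S := by
    simp_rw [hw_abs]
    rw [hw, integral_indicator_one hSm]
  -- the `L²` norm
  have hL2 : ∫ x, Lap U x ^ 2 ≤ 4 * c0 d ^ 2 * volume.real S := by
    have hLc : Continuous (Lap U) := Lap_continuous hUd
    have hLs : HasCompactSupport (Lap U) := Lap_hasCompactSupport hUc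
    have hLi : Integrable (fun x => |Lap U x|) :=
      (hLc.integrable_of_hasCompactSupport hLs).abs
    calc ∫ x, Lap U x ^ 2 ≤ ∫ x, 2 * c0 d * |Lap U x| := by
          refine integral_mono_of_nonneg (Eventually.of_forall fun _ => sq_nonneg _)
            (hLi.const_mul _) (Eventually.of_forall fun x => ?_)
          simp only
          rw [← sq_abs, pow_two]
          exact mul_le_mul_of_nonneg_right (Lap_cv_abs_le hwi hw1 hT x) (abs_nonneg _)
      _ = 2 * c0 d * ∫ x, |Lap U x| := integral_const_mul _ _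
      _ ≤ 2 * c0 d * ((∫ x, |w x|) * (2 * c0 d)) :=
          mul_le_mul_of_nonneg_left (integral_Lap_cv_le hwi hT) (by positivity)
      _ = _ := by rw [hwint]; ring
  -- the left hand side
  have hleft : lam * volume.real S ≤ -∫ x, Lap U x ∂A := by
    rw [hU, pairing_vk hwi hT]
    have h3 : ∀ x, w x * (fA A T x - fA A 0 x) = S.indicator (fun x => fA A T x - fA A 0 x) x := by
      intro x
      rw [hw]
      by_cases hx : x ∈ S
      · simp [hx]
      · simp [hx]
    simp_rw [h3]
    rw [integral_indicator hSm, ← integral_neg]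
    have hcont : Continuous fun x => -(fA A T x - fA A 0 x) :=
      ((fA_continuous A hT).sub (fA_continuous A le_rfl)).neg
    have h4 : ∫ x in S, lam ≤ ∫ x in S, -(fA A T x - fA A 0 x) := by
      refine setIntegral_mono_on (integrableOn_const hSfin) ?_ hSm fun x hx => ?_
      · exact (hcont.continuousOn.integrableOn_compact (isCompact_closedBall (0 : Eu d) 2)).mono_set
          (hSsub.trans ball_subset_closedBall)
      · have := hx.1.2
        linarith
    rw [setIntegral_const, smul_eq_mul] at h4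
    linarith
  have h5 : lam * volume.real S ≤ 2 * C3 * δ := by
    have h6 : -∫ x, Lap U x ∂A ≤ |∫ x, Lap U x ∂A| := neg_le_abs _
    have h7 : lam / (8 * c0 d ^ 2) * (∫ x, Lap U x ^ 2) ≤ lam * volume.real S / 2 := by
      refine (mul_le_mul_of_nonneg_left hL2 hkap.le).trans_eq ?_
      field_simp
      ring
    have h8 : C3 * δ = d ^ 2 * (14 ^ d * (8 * c0 d ^ 2) + C1) * δ + C2 * δ := by rw [hC3]; ring
    linarith
  -- the bad set
  have h9 : lam * volume.real (bad E lam) ≤ 5 ^ d * δ := by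
    have h10 := vol_bad hd E hl
    have h11 : volume.real (bad E lam) ≤ 5 ^ d / lam * E.real univ := by
      unfold Measure.real
      rw [← ENNReal.toReal_ofReal (show 0 ≤ (5:ℝ) ^ d / lam by positivity), ← ENNReal.toReal_mul]
      exact ENNReal.toReal_mono (by finiteness) h10
    calc lam * volume.real (bad E lam) ≤ lam * (5 ^ d / lam * E.real univ) :=
          mul_le_mul_of_nonneg_left h11 hl.le
      _ = 5 ^ d * E.real univ := by field_simp
      _ ≤ _ := mul_le_mul_of_nonneg_left hE (by positivity)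
  have h12 : volume.real (NN A T lam) ≤ volume.real S + volume.real (bad E lam) := by
    have h13 : NN A T lam ⊆ S ∪ bad E lam := by
      intro x hx
      by_cases h : x ∈ bad E lam
      · exact Or.inr h
      · exact Or.inl ⟨hx, h⟩
    have hfin : volume (bad E lam) ≠ ⊤ :=
      ((vol_bad hd E hl).trans_lt (by finiteness)).ne
    refine (measureReal_mono h13 ?_).trans (measureReal_union_le _ _)
    exact (measure_union_lt_top hSfin.lt_top hfin.lt_top).ne
  calc lam * volume.real (NN A T lam) ≤ lam * (volume.real S + volume.real (bad E lam)) :=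
        mul_le_mul_of_nonneg_left h12 hl.le
    _ ≤ _ := by rw [mul_add]; linarith

end

end Crest.Agent.R234.Sc173
end

-- ▼ part R234/Sc9_173
section

/-!
Row 234, strong constancy lemma (helper173).  Part 9: the `L¹` estimate (Scheffé).
-/

set_option autoImplicit false

open MeasureTheory Metric Set Filter Topology
open scoped ContDiff ENNReal

namespace Crest.Agent.R234.Sc173

noncomputable section

open Crest.Agent.R246.H2x622 (Psi eta deta Psi_contDiff eta_contDiff deta_contDiff Psi_zero eta_zero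
  deta_zero hasFDerivAt_Psi hasFDerivAt_eta G1_nonneg)

variable {d : ℕ}

/-- the cutoff -/
def phb (d : ℕ) : ContDiffBump (0 : Eu d) where
  rIn := 1
  rOut := 2
  rIn_pos := one_pos
  rIn_lt_rOut := by norm_num

/-- the cutoff function -/
def ph (x : Eu d) : ℝ := phb d x

lemma ph_contDiff : ContDiff ℝ ∞ (ph : Eu d → ℝ) := (phb d).contDiff

lemma ph_nonneg (x : Eu d) : 0 ≤ ph x := (phb d).nonneg

lemma ph_le_one (x : Eu d) : ph x ≤ 1 := (phb d).le_one

lemma ph_abs_le (x : Eu d) : |ph x| ≤ 1 := by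
  rw [abs_of_nonneg (ph_nonneg x)]; exact ph_le_one x

lemma ph_one {x : Eu d} (hx : x ∈ ball (0 : Eu d) 1) : ph x = 1 :=
  (phb d).one_of_mem_closedBall (ball_subset_closedBall hx)

lemma ph_zero : ∀ x : Eu d, 2 < ‖x‖ → ph x = 0 := by
  intro x hx
  refine (phb d).zero_of_le_dist ?_
  rw [dist_zero_right]
  exact hx.le

lemma ph_zero' {x : Eu d} (hx : x ∉ ball (0 : Eu d) 2) : ph x = 0 := by
  refine (phb d).zero_of_le_dist ?_
  rw [mem_ball, not_lt] at hx
  exact hx

lemma ph_integrable : Integrable (ph : Eu d → ℝ) :=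
  ph_contDiff.continuous.integrable_of_hasCompactSupport (hasCompactSupport_of_zero ph_zero)

lemma vk_integrable {T : ℝ} (hT : 0 ≤ T) : Integrable (vk T : Eu d → ℝ) :=
  (vk_contDiff T).continuous.integrable_of_hasCompactSupport (vk_hasCompactSupport hT)

lemma integral_abs_vk {T : ℝ} (hT : 0 ≤ T) : ∫ x : Eu d, |vk T x| ≤ ∫ x : Eu d, |g0 x| := by
  unfold vk
  refine (integral_abs_SI_le g0_contDiff.continuous g0_zero hT).trans ?_
  have h1 : (∫ t in (0:ℝ)..T, Real.exp (((d:ℝ) - 2 - d) * t)) ≤ 1 := by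
    have h2 : ∀ t : ℝ, 0 ≤ t → Real.exp (((d:ℝ) - 2 - d) * t) ≤ Real.exp (-t) := by
      intro t ht
      exact Real.exp_le_exp.2 (by nlinarith)
    calc (∫ t in (0:ℝ)..T, Real.exp (((d:ℝ) - 2 - d) * t)) ≤ ∫ t in (0:ℝ)..T, Real.exp (-t) := by
          refine intervalIntegral.integral_mono_on hT
            (Continuous.intervalIntegrable (by fun_prop) _ _)
            (Continuous.intervalIntegrable (by fun_prop) _ _) fun t ht => h2 t ht.1
      _ ≤ 1 := by
          rw [intervalIntegral.integral_comp_neg (fun t => Real.exp t), integral_exp]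
          simp [(Real.exp_pos _).le]
  calc _ ≤ 1 * ∫ x : Eu d, |g0 x| :=
        mul_le_mul_of_nonneg_right h1 (integral_nonneg fun _ => abs_nonneg _)
    _ = _ := one_mul _

lemma D2_cv_ph (i j : Fin d) : ∃ C : ℝ, 0 ≤ C ∧ ∀ T, 0 ≤ T → ∀ y : Eu d,
    |Dd (ee i) (Dd (ee j) (cv ph (vk T))) y| ≤ C := by
  have hcph : HasCompactSupport (ph : Eu d → ℝ) := hasCompactSupport_of_zero ph_zero
  obtain ⟨C, hC0, hC⟩ := bdd_of_cc (Dd_contDiff (a := ee i) (Dd_contDiff (a := ee j) ph_contDiff)).continuous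
    (Dd_hasCompactSupport (Dd_hasCompactSupport hcph))
  refine ⟨C * ∫ x : Eu d, |g0 x|, mul_nonneg hC0 (integral_nonneg fun _ => abs_nonneg _),
    fun T hT y => ?_⟩
  rw [cv_comm, Dd_cv (vk_integrable hT).locallyIntegrable ph_contDiff hcph,
    Dd_cv (vk_integrable hT).locallyIntegrable (Dd_contDiff ph_contDiff) (Dd_hasCompactSupport hcph),
    cv_comm]
  exact (cv_abs_le hC (vk_integrable hT) y).trans
    (mul_le_mul_of_nonneg_left (integral_abs_vk hT) hC0)

/-- test with the cutoff -/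
lemma ph_pair (d : ℕ) : ∃ C : ℝ, 0 ≤ C ∧ ∀ (A E G : Measure (Eu d)) [IsFiniteMeasure A]
    [IsFiniteMeasure E] [IsFiniteMeasure G] (δ : ℝ), H2 A E G → E.real univ ≤ δ → G.real univ ≤ δ →
    ∀ T, 0 ≤ T → |∫ x, ph x * (fA A T x - fA A 0 x)| ≤ C * δ := by
  choose C hC0 hC using D2_cv_ph (d := d)
  set C2 : ℝ := ∑ j, ∫ x : Eu d, |Dd (ee j) g0 x| with hC2
  have hC20 : 0 ≤ C2 := Finset.sum_nonneg fun j _ => integral_nonneg fun _ => abs_nonneg _
  have hC30 : 0 ≤ ∑ i, ∑ j, C i j :=
    Finset.sum_nonneg fun i _ => Finset.sum_nonneg fun j _ => hC0 i j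
  refine ⟨(∑ i, ∑ j, C i j) + C2, by positivity, ?_⟩
  intro A E G _ _ _ δ h2 hE hG T hT
  rw [← pairing_vk ph_integrable hT]
  set U : Eu d → ℝ := cv ph (vk T) with hU
  have hUd : ContDiff ℝ ∞ U := cv_vk_contDiff ph_integrable hT
  have hU0 : ∀ y : Eu d, 2 + 1 < ‖y‖ → U y = 0 := cv_vk_zero ph_zero hT
  have hUc : HasCompactSupport U := hasCompactSupport_of_zero hU0
  have hUt : tsupport U ⊆ ball (0 : Eu d) 4 :=
    (tsupport_of_zero hU0).trans (closedBall_subset_ball (by norm_num))
  have hmain := h2 U hUd hUc hUt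
  have hI1 : ∫ x, ‖fderiv ℝ U x‖ ∂G ≤ C2 * δ := by
    refine (integral_D1_le hUd hUc).trans ?_
    rw [hC2, Finset.sum_mul]
    refine Finset.sum_le_sum fun j _ => ?_
    calc ∫ x, |Dd (ee j) U x| ∂G ≤ ∫ x, (∫ x : Eu d, |Dd (ee j) g0 x|) ∂G := by
          refine integral_mono (integrable_D1 hUd hUc j) (integrable_const _) fun y => ?_
          exact D1_cv_vk ph_integrable ph_abs_le hT j y
      _ = (∫ x : Eu d, |Dd (ee j) g0 x|) * G.real univ := by
          rw [integral_const, smul_eq_mul, mul_comm]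
      _ ≤ _ := mul_le_mul_of_nonneg_left hG (integral_nonneg fun _ => abs_nonneg _)
  have hI2 : ∫ x, ‖fderiv ℝ (fderiv ℝ U) x‖ ∂E ≤ (∑ i, ∑ j, C i j) * δ := by
    refine (integral_D2_le hUd hUc).trans ?_
    rw [Finset.sum_mul]
    refine Finset.sum_le_sum fun i _ => ?_
    rw [Finset.sum_mul]
    refine Finset.sum_le_sum fun j _ => ?_
    calc ∫ x, |Dd (ee i) (Dd (ee j) U) x| ∂E ≤ ∫ x, C i j ∂E := by
          refine integral_mono (integrable_D2 hUd hUc i j) (integrable_const _) fun y => ?_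
          exact hC i j T hT y
      _ = C i j * E.real univ := by
          rw [integral_const, smul_eq_mul, mul_comm]
      _ ≤ _ := mul_le_mul_of_nonneg_left hE (hC0 i j)
  refine hmain.trans ?_
  rw [add_mul]
  linarith

/-- sup bound of the mollification at scale one -/
lemma fA_zero_le (d : ℕ) : ∃ C : ℝ, 0 ≤ C ∧ ∀ (A : Measure (Eu d)) [IsFiniteMeasure A] (M : ℝ),
    A.real univ ≤ M → ∀ x, fA A 0 x ≤ C * M := by
  obtain ⟨C, hC0, hC⟩ := mo_bdd (d := d) (t := 0) le_rfl
  refine ⟨C, hC0, fun A _ M hM x => ?_⟩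
  calc fA A 0 x ≤ ∫ y, C ∂A := by
        refine integral_mono (integrable_fA A le_rfl x) (integrable_const _) fun y => ?_
        exact (le_abs_self _).trans (hC _)
    _ = C * A.real univ := by rw [integral_const, smul_eq_mul, mul_comm]
    _ ≤ _ := mul_le_mul_of_nonneg_left hM hC0

/-- the `L¹` estimate, positive parameters -/
lemma l1_aux (hd : 0 < d) : ∃ C : ℝ, 0 ≤ C ∧ ∀ (A E G : Measure (Eu d)) [IsFiniteMeasure A]
    [IsFiniteMeasure E] [IsFiniteMeasure G] (M δ : ℝ), H2 A E G → 0 < M → 0 < δ → A.real univ ≤ M →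
    E.real univ ≤ δ → G.real univ ≤ δ → ∀ T, 0 ≤ T →
    ∫ x, ph x * |fA A T x - fA A 0 x| ≤ C * (δ + Real.sqrt (M * δ)) := by
  obtain ⟨Ca, hCa0, hCa⟩ := weak (d := d) hd
  obtain ⟨Cb, hCb0, hCb⟩ := ph_pair d
  obtain ⟨Cc, hCc0, hCc⟩ := fA_zero_le d
  have hom := @om_pos d
  refine ⟨Cb + 2 * (2 ^ d * om d + Cc * Ca), by positivity, ?_⟩
  intro A E G _ _ _ M δ h2 hM hδ hAM hE hG T hT
  set lam := Real.sqrt (M * δ) with hlam
  have hl : 0 < lam := Real.sqrt_pos.2 (by positivity)
  have hl2 : lam * lam = M * δ := Real.mul_self_sqrt (by positivity)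
  have hw := hCa A E G δ h2 hE hG T hT lam hl
  have hp := hCb A E G δ h2 hE hG T hT
  set D : Eu d → ℝ := fun x => fA A T x - fA A 0 x with hD
  have hDc : Continuous D := (fA_continuous A hT).sub (fA_continuous A le_rfl)
  have hcph : HasCompactSupport (ph : Eu d → ℝ) := hasCompactSupport_of_zero ph_zero
  have hi1 : Integrable fun x => ph x * D x :=
    (ph_contDiff.continuous.mul hDc).integrable_of_hasCompactSupport hcph.mul_right
  have hi2 : Integrable fun x => ph x * |D x| :=
    (ph_contDiff.continuous.mul hDc.abs).integrable_of_hasCompactSupport hcph.mul_right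
  have hNm := NN_measurable A hT lam
  have hNsub : NN A T lam ⊆ ball 0 2 := fun x hx => hx.1
  have hNfin : volume (NN A T lam) ≠ ⊤ := ((measure_mono hNsub).trans_lt measure_ball_lt_top).ne
  have hi3 : Integrable ((ball (0 : Eu d) 2).indicator fun _ => lam) :=
    (integrable_indicator_iff measurableSet_ball).2 (integrableOn_const measure_ball_lt_top.ne)
  have hi4 : Integrable ((NN A T lam).indicator fun _ => Cc * M) :=
    (integrable_indicator_iff hNm).2 (integrableOn_const hNfin)
  have hi34 : Integrable fun x => (ball (0 : Eu d) 2).indicator (fun _ => lam) x +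
      (NN A T lam).indicator (fun _ => Cc * M) x := hi3.add hi4
  have hpt : ∀ x, ph x * |D x| ≤ ph x * D x + 2 * ((ball (0 : Eu d) 2).indicator (fun _ => lam) x +
      (NN A T lam).indicator (fun _ => Cc * M) x) := by
    intro x
    by_cases hx : x ∈ ball (0 : Eu d) 2
    · have hp0 := ph_nonneg x
      have hp1 := ph_le_one x
      rw [indicator_of_mem hx]
      by_cases hN : x ∈ NN A T lam
      · rw [indicator_of_mem hN]
        have h1 : D x < -lam := hN.2
        have h3 : -D x ≤ Cc * M := by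
          have h4 := fA_nonneg A T x
          have h5 := hCc A M hAM x
          simp only [hD]
          linarith
        rw [abs_of_neg (by linarith)]
        have h6 : 0 ≤ -D x := by linarith
        have h7 : ph x * -D x ≤ 1 * -D x := mul_le_mul_of_nonneg_right hp1 h6
        linarith
      · rw [indicator_of_notMem hN]
        have h1 : -lam ≤ D x := by
          by_contra hcon
          exact hN ⟨hx, not_le.1 hcon⟩
        rcases le_total 0 (D x) with h0 | h0
        · rw [abs_of_nonneg h0]; linarith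
        · rw [abs_of_nonpos h0]
          have h7 : ph x * -D x ≤ 1 * -D x := mul_le_mul_of_nonneg_right hp1 (by linarith)
          linarith
    · have h1 := ph_zero' hx
      rw [indicator_of_notMem hx, indicator_of_notMem fun h => hx (hNsub h), h1]
      simp
  calc ∫ x, ph x * |D x| ≤ ∫ x, (ph x * D x + 2 * ((ball (0 : Eu d) 2).indicator (fun _ => lam) x +
        (NN A T lam).indicator (fun _ => Cc * M) x)) :=
        integral_mono hi2 (hi1.add (hi34.const_mul 2)) hpt
    _ = (∫ x, ph x * D x) + 2 * (2 ^ d * om d * lam + Cc * M * volume.real (NN A T lam)) := by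
        rw [integral_add hi1 (hi34.const_mul 2), integral_const_mul]
        congr 2
        rw [integral_add hi3 hi4, integral_indicator_const _ measurableSet_ball, integral_indicator_const _ hNm,
          smul_eq_mul, smul_eq_mul]
        congr 1
        · congr 1
          rw [Measure.real, vol_ball _ two_pos, ENNReal.toReal_ofReal (by positivity)]
        · ring
    _ ≤ Cb * δ + 2 * (2 ^ d * om d * lam + Cc * (Ca * lam)) := by
        have h1 : M * volume.real (NN A T lam) ≤ Ca * lam := by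
          have h3 : lam * (M * volume.real (NN A T lam)) ≤ lam * (Ca * lam) := by
            calc lam * (M * volume.real (NN A T lam)) = M * (lam * volume.real (NN A T lam)) := by ring
              _ ≤ M * (Ca * δ) := mul_le_mul_of_nonneg_left hw hM.le
              _ = Ca * (lam * lam) := by rw [hl2]; ring
              _ = _ := by ring
          exact le_of_mul_le_mul_left h3 hl
        have h4 : Cc * M * volume.real (NN A T lam) ≤ Cc * (Ca * lam) := by
          rw [mul_assoc]
          exact mul_le_mul_of_nonneg_left h1 hCc0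
        have h5 := le_abs_self (∫ x, ph x * D x)
        linarith
    _ ≤ _ := by
        have h1 : 0 ≤ Cb * lam := by positivity
        have h3 : 0 ≤ (2 * (2 ^ d * om d + Cc * Ca)) * δ := by positivity
        nlinarith

/-- **the `L¹` estimate** -/
theorem l1_est (hd : 0 < d) : ∃ C : ℝ, 0 ≤ C ∧ ∀ (A E G : Measure (Eu d)) [IsFiniteMeasure A]
    [IsFiniteMeasure E] [IsFiniteMeasure G] (M δ : ℝ), H2 A E G → A.real univ ≤ M →
    E.real univ ≤ δ → G.real univ ≤ δ → ∀ T, 0 ≤ T →
    ∫ x in ball 0 1, |fA A T x - fA A 0 x| ≤ C * (δ + Real.sqrt (M * δ)) := by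
  obtain ⟨C, hC0, hC⟩ := l1_aux (d := d) hd
  refine ⟨C, hC0, ?_⟩
  intro A E G _ _ _ M δ h2 hAM hE hG T hT
  have hM : 0 ≤ M := measureReal_nonneg.trans hAM
  have hδ : 0 ≤ δ := measureReal_nonneg.trans hE
  have h1 : ∫ x, ph x * |fA A T x - fA A 0 x| ≤ C * (δ + Real.sqrt (M * δ)) := by
    have ht : Tendsto (fun e : ℝ => C * ((δ + e) + Real.sqrt ((M + e) * (δ + e)))) (𝓝[>] 0)
        (𝓝 (C * ((δ + 0) + Real.sqrt ((M + 0) * (δ + 0))))) := by
      refine (Continuous.tendsto ?_ 0).mono_left nhdsWithin_le_nhds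
      fun_prop
    simp only [add_zero] at ht
    refine ge_of_tendsto ht ?_
    filter_upwards [self_mem_nhdsWithin] with e he
    have he' : 0 < e := he
    exact hC A E G (M + e) (δ + e) h2 (by linarith) (by linarith) (by linarith) (by linarith)
      (by linarith) T hT
  refine le_trans ?_ h1
  have hDc : Continuous fun x => |fA A T x - fA A 0 x| :=
    ((fA_continuous A hT).sub (fA_continuous A le_rfl)).abs
  have hcph : HasCompactSupport (ph : Eu d → ℝ) := hasCompactSupport_of_zero ph_zero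
  have hi2 : Integrable fun x => ph x * |fA A T x - fA A 0 x| :=
    (ph_contDiff.continuous.mul hDc).integrable_of_hasCompactSupport hcph.mul_right
  rw [← integral_indicator measurableSet_ball]
  refine integral_mono_of_nonneg (Eventually.of_forall fun x => ?_) hi2
    (Eventually.of_forall fun x => ?_)
  · exact indicator_nonneg (fun _ _ => abs_nonneg _) x
  · by_cases hx : x ∈ ball (0 : Eu d) 1
    · simp only [indicator_of_mem hx, ph_one hx, one_mul, le_refl]
    · simp only [indicator_of_notMem hx]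
      exact mul_nonneg (ph_nonneg x) (abs_nonneg _)

end

end Crest.Agent.R234.Sc173
end

-- ▼ part R234/Sc10_173
section

/-!
Row 234, strong constancy lemma (helper173).  Part 10: the constancy lemma in the unit ball.
-/

set_option autoImplicit false

open MeasureTheory Metric Set Filter Topology
open scoped ContDiff ENNReal

namespace Crest.Agent.R234.Sc173

noncomputable section

open Crest.Agent.R246.H2x622 (Psi eta deta Psi_contDiff eta_contDiff deta_contDiff Psi_zero eta_zero
  deta_zero hasFDerivAt_Psi hasFDerivAt_eta G1_nonneg)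

variable {d : ℕ}

lemma fubini0 {A : Measure (Eu d)} [IsFiniteMeasure A] {w g : Eu d → ℝ} (hw : Integrable w)
    (hg : Continuous g) (hc : HasCompactSupport g) :
    ∫ y, cv w g y ∂A = ∫ x, w x * ∫ y, g (y - x) ∂A := by
  unfold cv
  obtain ⟨C, hC0, hC⟩ := bdd_of_cc hg hc
  have hint : Integrable (Function.uncurry fun (y x : Eu d) => w x * g (y - x))
      (A.prod volume) := by
    refine (hw.comp_snd A).mul_bdd (c := C)
      (hg.comp (continuous_fst.sub continuous_snd)).aestronglyMeasurable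
      (Eventually.of_forall fun p => by simpa using hC (p.1 - p.2))
  rw [integral_integral_swap hint]
  refine integral_congr_ae (Eventually.of_forall fun x => ?_)
  simp only
  rw [integral_const_mul]

/-- mollified indicator -/
def mi (V : Set (Eu d)) (T : ℝ) : Eu d → ℝ := cv (V.indicator 1) (mo T)

lemma ind_abs_le (V : Set (Eu d)) (x : Eu d) : |V.indicator (1 : Eu d → ℝ) x| ≤ 1 := by
  by_cases hx : x ∈ V <;> simp [hx]

lemma ind_integrable {V : Set (Eu d)} (hV : MeasurableSet V) (hVf : volume V ≠ ⊤) :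
    Integrable (V.indicator (1 : Eu d → ℝ)) :=
  (integrable_indicator_iff hV).2 (integrableOn_const hVf)

lemma fubini_mi {A : Measure (Eu d)} [IsFiniteMeasure A] {V : Set (Eu d)} (hV : MeasurableSet V)
    (hVf : volume V ≠ ⊤) {T : ℝ} (hT : 0 ≤ T) :
    ∫ y, mi V T y ∂A = ∫ x in V, fA A T x := by
  unfold mi
  rw [fubini0 (ind_integrable hV hVf) (mo_continuous T) (mo_hasCompactSupport hT),
    ← integral_indicator hV]
  refine integral_congr_ae (Eventually.of_forall fun x => ?_)
  simp only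
  by_cases hx : x ∈ V
  · simp [hx, fA]
  · simp [hx]

lemma mi_nonneg (V : Set (Eu d)) (T : ℝ) (y : Eu d) : 0 ≤ mi V T y := by
  unfold mi cv
  refine integral_nonneg fun x => mul_nonneg ?_ (mo_nonneg _ _)
  exact indicator_nonneg (fun _ _ => zero_le_one) x

lemma mi_le (V : Set (Eu d)) {T : ℝ} (hT : 0 ≤ T) (y : Eu d) : mi V T y ≤ c0 d := by
  have h1 := cv_abs_le (ind_abs_le V) (mo_integrable hT) y
  have h2 : ∀ x : Eu d, |mo T x| = mo T x := fun x => abs_of_nonneg (mo_nonneg T x)
  simp_rw [h2, integral_mo, one_mul] at h1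
  exact (le_abs_self _).trans h1

lemma mi_continuous {V : Set (Eu d)} (hV : MeasurableSet V) (hVf : volume V ≠ ⊤) {T : ℝ}
    (hT : 0 ≤ T) : Continuous (mi V T) :=
  (cv_contDiff (ind_integrable hV hVf).locallyIntegrable (mo_contDiff T)
    (mo_hasCompactSupport hT)).continuous

lemma mi_integrable {V : Set (Eu d)} (hV : MeasurableSet V) (hVf : volume V ≠ ⊤) {T : ℝ}
    (hT : 0 ≤ T) (A : Measure (Eu d)) [IsFiniteMeasure A] : Integrable (mi V T) A :=
  Integrable.of_bound (mi_continuous hV hVf hT).aestronglyMeasurable (c0 d)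
    (Eventually.of_forall fun y => by
      rw [Real.norm_eq_abs, abs_of_nonneg (mi_nonneg V T y)]
      exact mi_le V hT y)

lemma mi_eq {V : Set (Eu d)} {T : ℝ} {y : Eu d} (h : closedBall y (Real.exp (-T)) ⊆ V) :
    mi V T y = c0 d := by
  unfold mi cv
  rw [← integral_mo T, ← integral_sub_left_eq_self (fun x => mo T x) volume y]
  refine integral_congr_ae (Eventually.of_forall fun x => ?_)
  simp only
  by_cases hx : x ∈ V
  · simp [hx]
  · have h1 : mo T (y - x) = 0 := by
      refine mo_zero ?_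
      have h2 : x ∉ closedBall y (Real.exp (-T)) := fun hh => hx (h hh)
      rw [mem_closedBall, dist_eq_norm, norm_sub_rev, not_le] at h2
      have h3 := mul_lt_mul_of_pos_left h2 (Real.exp_pos T)
      rwa [← Real.exp_add, add_neg_cancel, Real.exp_zero] at h3
    rw [h1, mul_zero]

lemma mi_zero {V : Set (Eu d)} {T : ℝ} {y : Eu d} (h : ∀ x ∈ V, Real.exp (-T) < dist y x) :
    mi V T y = 0 := by
  unfold mi cv
  rw [integral_eq_zero_of_ae]
  refine Eventually.of_forall fun x => ?_
  simp only [Pi.zero_apply]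
  by_cases hx : x ∈ V
  · have h1 : mo T (y - x) = 0 := by
      refine mo_zero ?_
      have h2 := h x hx
      rw [dist_eq_norm] at h2
      have h3 := mul_lt_mul_of_pos_left h2 (Real.exp_pos T)
      rwa [← Real.exp_add, add_neg_cancel, Real.exp_zero] at h3
    rw [h1, mul_zero]
  · simp [hx]

lemma exists_T {e : ℝ} (he : 0 < e) : ∃ T : ℝ, 0 ≤ T ∧ Real.exp (-T) ≤ e := by
  refine ⟨max 0 (-Real.log e), le_max_left _ _, ?_⟩
  calc Real.exp (-max 0 (-Real.log e)) ≤ Real.exp (Real.log e) := by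
        refine Real.exp_le_exp.2 ?_
        have := le_max_right 0 (-Real.log e)
        linarith
    _ = e := Real.exp_log he

/-- **upper bound** -/
lemma upper {A : Measure (Eu d)} [IsFiniteMeasure A] {m B : ℝ}
    (hm : ∀ x ∈ ball (0 : Eu d) 1, fA A 0 x ≤ m) (hm0 : 0 ≤ m)
    (hB : ∀ T, 0 ≤ T → ∫ x in ball (0 : Eu d) 1, |fA A T x - fA A 0 x| ≤ B) {S : Set (Eu d)}
    (hS : MeasurableSet S) (hS1 : S ⊆ ball 0 1) :
    c0 d * A.real S ≤ m * volume.real S + B := by
  have hc := @c0_pos d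
  refine le_of_forall_pos_le_add fun e he => ?_
  set e' : ℝ := e / (c0 d + m) with he'
  have he0 : 0 < e' := by positivity
  have hSf : volume S ≠ ⊤ := ((measure_mono hS1).trans_lt measure_ball_lt_top).ne
  obtain ⟨K, hKS, hK, hKA⟩ := hS.exists_isCompact_lt_add (μ := A) (measure_ne_top A S)
    (ε := ENNReal.ofReal e') (by simpa using he0)
  obtain ⟨V', hSV', hV'o, hV'v⟩ := S.exists_isOpen_lt_add (μ := volume) hSf
    (ε := ENNReal.ofReal e') (by simpa using he0)
  set V := V' ∩ ball 0 1 with hV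
  have hVo : IsOpen V := hV'o.inter isOpen_ball
  have hVm := hVo.measurableSet
  have hSV : S ⊆ V := subset_inter hSV' hS1
  have hV1 : V ⊆ ball 0 1 := inter_subset_right
  have hVf : volume V ≠ ⊤ := ((measure_mono hV1).trans_lt measure_ball_lt_top).ne
  have h1 : A.real S ≤ A.real K + e' := by
    unfold Measure.real
    rw [← ENNReal.toReal_ofReal he0.le, ← ENNReal.toReal_add (measure_ne_top A K) ENNReal.ofReal_ne_top]
    exact ENNReal.toReal_mono (by finiteness) hKA.le
  have h2 : volume.real V ≤ volume.real S + e' := by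
    unfold Measure.real
    rw [← ENNReal.toReal_ofReal he0.le, ← ENNReal.toReal_add hSf ENNReal.ofReal_ne_top]
    refine ENNReal.toReal_mono (by finiteness) ?_
    exact (measure_mono inter_subset_left).trans hV'v.le
  obtain ⟨dl, hdl, hdK⟩ := hK.exists_cthickening_subset_open hVo (hKS.trans hSV)
  obtain ⟨T, hT, hTd⟩ := exists_T hdl
  have h3 : c0 d * A.real K ≤ ∫ y, mi V T y ∂A := by
    calc c0 d * A.real K = ∫ y, K.indicator (fun _ => c0 d) y ∂A := by
          rw [integral_indicator_const _ hK.measurableSet, smul_eq_mul, mul_comm]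
      _ ≤ _ := by
          refine integral_mono ((integrable_indicator_iff hK.measurableSet).2
            (integrableOn_const (measure_ne_top A K))) (mi_integrable hVm hVf hT A) fun y => ?_
          by_cases hy : y ∈ K
          · rw [indicator_of_mem hy]
            rw [mi_eq]
            refine Subset.trans ?_ hdK
            intro x hx
            exact mem_cthickening_of_dist_le x y dl K hy ((mem_closedBall.1 hx).trans hTd)
          · rw [indicator_of_notMem hy]
            exact mi_nonneg _ _ _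
  rw [fubini_mi hVm hVf hT] at h3
  have hcT := fA_continuous A hT
  have hc0 := fA_continuous A (t := 0) le_rfl
  have hio : ∀ {f : Eu d → ℝ}, Continuous f → ∀ {W : Set (Eu d)}, W ⊆ ball 0 1 →
      IntegrableOn f W := by
    intro f hf W hW
    exact (hf.continuousOn.integrableOn_compact (isCompact_closedBall (0 : Eu d) 1)).mono_set
      (hW.trans ball_subset_closedBall)
  have h4 : ∫ x in V, fA A T x ≤ m * volume.real V + B := by
    calc ∫ x in V, fA A T x ≤ ∫ x in V, (m + |fA A T x - fA A 0 x|) := by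
          refine setIntegral_mono_on (hio hcT hV1)
            (hio (continuous_const.add (hcT.sub hc0).abs) hV1) hVm fun x hx => ?_
          have := hm x (hV1 hx)
          have := le_abs_self (fA A T x - fA A 0 x)
          linarith
      _ = m * volume.real V + ∫ x in V, |fA A T x - fA A 0 x| := by
          have hcm : Integrable (fun _ : Eu d => m) (volume.restrict V) := integrableOn_const hVf
          have hcD : Integrable (fun x => |fA A T x - fA A 0 x|) (volume.restrict V) :=
            hio (hcT.sub hc0).abs hV1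
          rw [integral_add hcm hcD, setIntegral_const, smul_eq_mul, mul_comm]
      _ ≤ _ := by
          have h5 : ∫ x in V, |fA A T x - fA A 0 x| ≤ ∫ x in ball (0 : Eu d) 1,
              |fA A T x - fA A 0 x| :=
            setIntegral_mono_set (hio (hcT.sub hc0).abs subset_rfl)
              (Eventually.of_forall fun _ => abs_nonneg _) (hV1.eventuallyLE)
          have := hB T hT
          linarith
  have h6 : m * volume.real V ≤ m * (volume.real S + e') := mul_le_mul_of_nonneg_left h2 hm0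
  have h7 : c0 d * A.real S ≤ c0 d * (A.real K + e') := mul_le_mul_of_nonneg_left h1 hc.le
  have h8 : (c0 d + m) * e' = e := by rw [he']; field_simp
  nlinarith

/-- **lower bound** -/
lemma lower {A : Measure (Eu d)} [IsFiniteMeasure A] {m B : ℝ} (hB0 : 0 ≤ B)
    (hm : ∀ x ∈ ball (0 : Eu d) 1, m ≤ fA A 0 x)
    (hB : ∀ T, 0 ≤ T → ∫ x in ball (0 : Eu d) 1, |fA A T x - fA A 0 x| ≤ B) {S : Set (Eu d)}
    (hS : MeasurableSet S) (hS1 : S ⊆ ball 0 1) :
    m * volume.real S ≤ c0 d * A.real S + B := by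
  have hc := @c0_pos d
  rcases lt_or_ge m 0 with hm1 | hm0
  · have h1 : m * volume.real S ≤ 0 := mul_nonpos_of_nonpos_of_nonneg hm1.le measureReal_nonneg
    have h2 : 0 ≤ c0 d * A.real S := mul_nonneg hc.le measureReal_nonneg
    linarith
  refine le_of_forall_pos_le_add fun e he => ?_
  set e' : ℝ := e / (c0 d + m) with he'
  have he0 : 0 < e' := by positivity
  have hSf : volume S ≠ ⊤ := ((measure_mono hS1).trans_lt measure_ball_lt_top).ne
  obtain ⟨K, hKS, hK, hKA⟩ := hS.exists_isCompact_lt_add (μ := volume) hSf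
    (ε := ENNReal.ofReal e') (by simpa using he0)
  obtain ⟨V, hSV, hVo, hV'v⟩ := S.exists_isOpen_lt_add (μ := A) (measure_ne_top A S)
    (ε := ENNReal.ofReal e') (by simpa using he0)
  have hVm := hVo.measurableSet
  have hK1 : K ⊆ ball 0 1 := hKS.trans hS1
  have hKf : volume K ≠ ⊤ := ((measure_mono hK1).trans_lt measure_ball_lt_top).ne
  have hKm := hK.measurableSet
  have h1 : volume.real S ≤ volume.real K + e' := by
    unfold Measure.real
    rw [← ENNReal.toReal_ofReal he0.le, ← ENNReal.toReal_add hKf ENNReal.ofReal_ne_top]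
    exact ENNReal.toReal_mono (by finiteness) hKA.le
  have h2 : A.real V ≤ A.real S + e' := by
    unfold Measure.real
    rw [← ENNReal.toReal_ofReal he0.le, ← ENNReal.toReal_add (measure_ne_top A S) ENNReal.ofReal_ne_top]
    exact ENNReal.toReal_mono (by finiteness) hV'v.le
  obtain ⟨dl, hdl, hdK⟩ := hK.exists_cthickening_subset_open hVo (hKS.trans hSV)
  obtain ⟨T, hT, hTd⟩ := exists_T hdl
  have h3 : ∫ y, mi K T y ∂A ≤ c0 d * A.real V := by
    calc ∫ y, mi K T y ∂A ≤ ∫ y, V.indicator (fun _ => c0 d) y ∂A := by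
          refine integral_mono (mi_integrable hKm hKf hT A) ((integrable_indicator_iff hVm).2
            (integrableOn_const (measure_ne_top A V))) fun y => ?_
          by_cases hy : y ∈ V
          · rw [indicator_of_mem hy]
            exact mi_le _ hT _
          · rw [indicator_of_notMem hy, mi_zero]
            intro x hx
            by_contra hcon
            exact hy (hdK (mem_cthickening_of_dist_le y x dl K hx ((not_lt.1 hcon).trans hTd)))
      _ = c0 d * A.real V := by
          rw [integral_indicator_const _ hVm, smul_eq_mul, mul_comm]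
  rw [fubini_mi hKm hKf hT] at h3
  have hcT := fA_continuous A hT
  have hc0 := fA_continuous A (t := 0) le_rfl
  have hio : ∀ {f : Eu d → ℝ}, Continuous f → ∀ {W : Set (Eu d)}, W ⊆ ball 0 1 →
      IntegrableOn f W := by
    intro f hf W hW
    exact (hf.continuousOn.integrableOn_compact (isCompact_closedBall (0 : Eu d) 1)).mono_set
      (hW.trans ball_subset_closedBall)
  have h4 : m * volume.real K ≤ (∫ x in K, fA A T x) + B := by
    calc m * volume.real K = ∫ x in K, m := by rw [setIntegral_const, smul_eq_mul, mul_comm]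
      _ ≤ ∫ x in K, (fA A T x + |fA A T x - fA A 0 x|) := by
          refine setIntegral_mono_on (integrableOn_const hKf)
            (hio (hcT.add (hcT.sub hc0).abs) hK1) hKm fun x hx => ?_
          have := hm x (hK1 hx)
          have := neg_abs_le (fA A T x - fA A 0 x)
          linarith
      _ = (∫ x in K, fA A T x) + ∫ x in K, |fA A T x - fA A 0 x| :=
          integral_add (hio hcT hK1) (hio (hcT.sub hc0).abs hK1)
      _ ≤ _ := by
          have h5 : ∫ x in K, |fA A T x - fA A 0 x| ≤ ∫ x in ball (0 : Eu d) 1,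
              |fA A T x - fA A 0 x| :=
            setIntegral_mono_set (hio (hcT.sub hc0).abs subset_rfl)
              (Eventually.of_forall fun _ => abs_nonneg _) (hK1.eventuallyLE)
          have := hB T hT
          linarith
  have h6 : m * volume.real S ≤ m * (volume.real K + e') := mul_le_mul_of_nonneg_left h1 hm0
  have h7 : c0 d * A.real V ≤ c0 d * (A.real S + e') := mul_le_mul_of_nonneg_left h2 hc.le
  have h8 : (c0 d + m) * e' = e := by rw [he']; field_simp
  nlinarith

/-- **strong constancy, unit ball, (H2) version** -/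
theorem sc1_unit (hd : 0 < d) : ∃ C : ℝ, 0 ≤ C ∧ ∀ (A E G : Measure (Eu d)) [IsFiniteMeasure A]
    [IsFiniteMeasure E] [IsFiniteMeasure G] (M δ : ℝ), H2 A E G → A.real univ ≤ M →
    E.real univ ≤ δ → G.real univ ≤ δ → ∀ S : Set (Eu d), MeasurableSet S → S ⊆ ball 0 1 →
    A.real S ≤ C * (M * volume.real S + Real.sqrt (M * δ)) := by
  obtain ⟨Ca, hCa0, hCa⟩ := l1_est (d := d) hd
  obtain ⟨Cb, hCb0, hCb⟩ := fA_zero_le d
  have hc := @c0_pos d
  refine ⟨1 + (Cb + 2 * Ca) / c0 d, by positivity, ?_⟩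
  intro A E G _ _ _ M δ h2 hAM hE hG S hS hS1
  have hM : 0 ≤ M := measureReal_nonneg.trans hAM
  have hδ : 0 ≤ δ := measureReal_nonneg.trans hE
  have hS0 : 0 ≤ M * volume.real S := mul_nonneg hM measureReal_nonneg
  have hs0 : 0 ≤ Real.sqrt (M * δ) := Real.sqrt_nonneg _
  have hK0 : 0 ≤ (Cb + 2 * Ca) / c0 d := by positivity
  rcases le_total M δ with h | h
  · have h1 : M ≤ Real.sqrt (M * δ) := by
      refine Real.le_sqrt_of_sq_le ?_
      nlinarith
    have h3 : A.real S ≤ M := (measureReal_mono (subset_univ S)).trans hAM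
    have h4 : 0 ≤ (Cb + 2 * Ca) / c0 d * (M * volume.real S + Real.sqrt (M * δ)) := by positivity
    linarith
  · have h1 : δ ≤ Real.sqrt (M * δ) := by
      refine Real.le_sqrt_of_sq_le ?_
      nlinarith
    have h3 := upper (A := A) (m := Cb * M) (B := Ca * (δ + Real.sqrt (M * δ)))
      (fun x _ => hCb A M hAM x) (by positivity)
      (fun T hT => hCa A E G M δ h2 hAM hE hG T hT) hS hS1
    have h4 : c0 d * A.real S ≤ (Cb + 2 * Ca) * (M * volume.real S + Real.sqrt (M * δ)) := by
      have h5 : 0 ≤ Cb * Real.sqrt (M * δ) := by positivity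
      have h6 : 0 ≤ Ca * (M * volume.real S) := by positivity
      have h7 : Ca * δ ≤ Ca * Real.sqrt (M * δ) := mul_le_mul_of_nonneg_left h1 hCa0
      nlinarith
    have h5 : A.real S ≤ (Cb + 2 * Ca) / c0 d * (M * volume.real S + Real.sqrt (M * δ)) := by
      rw [div_mul_eq_mul_div, le_div_iff₀ hc]
      linarith
    linarith

end

end Crest.Agent.R234.Sc173
end

-- ▼ part R234/Sc11_173
section

/-!
Row 234, strong constancy lemma (helper173).  Part 11: full constancy in the unit ball from the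
divergence form.
-/

set_option autoImplicit false

open MeasureTheory Metric Set Filter Topology
open scoped ContDiff ENNReal

namespace Crest.Agent.R234.Sc173

noncomputable section

open Crest.Agent.R246.H2x622 (Psi eta deta Psi_contDiff eta_contDiff deta_contDiff Psi_zero eta_zero
  deta_zero hasFDerivAt_Psi hasFDerivAt_eta G1_nonneg)

variable {d : ℕ}

lemma inner_ee (i : Fin d) (v : Eu d) : inner ℝ (ee i) v = v i := by
  simpa using EuclideanSpace.inner_single_left i (1:ℝ) v

lemma inner_ee_ee (i j : Fin d) : inner ℝ (ee i : Eu d) (ee j) = if i = j then (1:ℝ) else 0 := by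
  rw [inner_ee]
  by_cases h : i = j
  · subst h; simp
  · simp [h]


/-- divergence -/
def dv (X : Eu d → Eu d) (x : Eu d) : ℝ := ∑ i, inner ℝ (fderiv ℝ X x (ee i)) (ee i)

/-- the divergence form of the equation -/
def H1 (A E G : Measure (Eu d)) : Prop := ∀ X : Eu d → Eu d, ContDiff ℝ ∞ X → HasCompactSupport X →
  tsupport X ⊆ ball (0 : Eu d) 4 →
  |∫ x, dv X x ∂A| ≤ (∫ x, ‖fderiv ℝ X x‖ ∂E) + ∫ x, ‖X x‖ ∂G

/-- coordinates of a functional -/
def JJ (d : ℕ) : (Eu d →L[ℝ] ℝ) →L[ℝ] Eu d :=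
  ∑ i, (ContinuousLinearMap.apply ℝ ℝ (ee i : Eu d)).smulRight (ee i : Eu d)

lemma JJ_apply (p : Eu d →L[ℝ] ℝ) : JJ d p = ∑ i, p (ee i) • (ee i : Eu d) := by
  simp [JJ]

lemma inner_JJ (p : Eu d →L[ℝ] ℝ) (v : Eu d) : inner ℝ (JJ d p) v = p v := by
  have h1 : v = ∑ i, (v i) • (ee i : Eu d) := by
    have h2 := (EuclideanSpace.basisFun (Fin d) ℝ).sum_repr v
    simp only [EuclideanSpace.basisFun_apply, EuclideanSpace.basisFun_repr] at h2
    exact h2.symm
  rw [JJ_apply, sum_inner]
  conv_rhs => rw [h1, map_sum]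
  refine Finset.sum_congr rfl fun i _ => ?_
  rw [inner_smul_left, map_smul, smul_eq_mul, mul_comm, inner_ee]
  simp

lemma norm_JJ_apply_le (p : Eu d →L[ℝ] ℝ) : ‖JJ d p‖ ≤ ‖p‖ := by
  have h1 : ‖JJ d p‖ * ‖JJ d p‖ ≤ ‖p‖ * ‖JJ d p‖ := by
    rw [← real_inner_self_eq_norm_mul_norm, inner_JJ]
    exact (le_abs_self _).trans (p.le_opNorm _)
  rcases (norm_nonneg (JJ d p)).eq_or_lt with h | h
  · rw [← h]; exact norm_nonneg _
  · exact le_of_mul_le_mul_right h1 h

lemma norm_JJ_apply (p : Eu d →L[ℝ] ℝ) : ‖JJ d p‖ = ‖p‖ := by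
  refine le_antisymm (norm_JJ_apply_le p) (p.opNorm_le_bound (norm_nonneg _) fun v => ?_)
  rw [← inner_JJ]
  exact norm_inner_le_norm _ _

lemma norm_JJ_comp {Z : Type*} [NormedAddCommGroup Z] [NormedSpace ℝ Z]
    (L : Z →L[ℝ] (Eu d →L[ℝ] ℝ)) : ‖(JJ d).comp L‖ = ‖L‖ := by
  refine le_antisymm (((JJ d).comp L).opNorm_le_bound (norm_nonneg L) fun z =>
    (norm_JJ_apply_le _).trans (L.le_opNorm z))
    (L.opNorm_le_bound (norm_nonneg ((JJ d).comp L)) fun z => ?_)
  rw [← norm_JJ_apply (L z)]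
  exact ((JJ d).comp L).le_opNorm z

/-- gradient field -/
def XX (U : Eu d → ℝ) (x : Eu d) : Eu d := JJ d (fderiv ℝ U x)

lemma D_contDiff {U : Eu d → ℝ} (hU : ContDiff ℝ ∞ U) : ContDiff ℝ ∞ (fderiv ℝ U) :=
  hU.fderiv_right (by norm_cast)

lemma XX_contDiff {U : Eu d → ℝ} (hU : ContDiff ℝ ∞ U) : ContDiff ℝ ∞ (XX U) :=
  (JJ d).contDiff.comp (D_contDiff hU)

lemma XX_support (U : Eu d → ℝ) : Function.support (XX U) ⊆ Function.support (fderiv ℝ U) := by
  intro x hx hx0
  refine hx ?_
  unfold XX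
  rw [hx0, map_zero]

lemma fderiv_XX {U : Eu d → ℝ} (hU : ContDiff ℝ ∞ U) (x : Eu d) :
    fderiv ℝ (XX U) x = (JJ d).comp (fderiv ℝ (fderiv ℝ U) x) := by
  have h1 : HasFDerivAt (fderiv ℝ U) (fderiv ℝ (fderiv ℝ U) x) x :=
    ((D_contDiff hU).differentiable (by simp) x).hasFDerivAt
  exact ((JJ d).hasFDerivAt.comp x h1).fderiv

lemma dv_XX {U : Eu d → ℝ} (hU : ContDiff ℝ ∞ U) (x : Eu d) : dv (XX U) x = Lap U x := by
  rw [Lap_eq hU]
  unfold dv
  refine Finset.sum_congr rfl fun i _ => ?_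
  rw [fderiv_XX hU, ContinuousLinearMap.comp_apply, inner_JJ]

lemma norm_fderiv_XX {U : Eu d → ℝ} (hU : ContDiff ℝ ∞ U) (x : Eu d) :
    ‖fderiv ℝ (XX U) x‖ = ‖fderiv ℝ (fderiv ℝ U) x‖ := by
  rw [fderiv_XX hU]
  exact norm_JJ_comp _

lemma H1_toH2 {A E G : Measure (Eu d)} (h : H1 A E G) : H2 A E G := by
  intro U hU hc ht
  have h1 := h (XX U) (XX_contDiff hU) ((hc.fderiv ℝ).mono (XX_support U))
    ((closure_mono (XX_support U)).trans ((tsupport_fderiv_subset ℝ).trans ht))
  simp_rw [dv_XX hU, norm_fderiv_XX hU] at h1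
  have h3 : ∀ x, ‖XX U x‖ = ‖fderiv ℝ U x‖ := fun x => norm_JJ_apply _
  simp_rw [h3] at h1
  exact h1

/-- the mollification at scale one is nearly constant -/
lemma grad_fA (d : ℕ) : ∃ C : ℝ, 0 ≤ C ∧ ∀ (A E G : Measure (Eu d)) [IsFiniteMeasure A]
    [IsFiniteMeasure E] [IsFiniteMeasure G] (δ : ℝ), H1 A E G → E.real univ ≤ δ → G.real univ ≤ δ →
    ∀ x ∈ ball (0 : Eu d) 1, |fA A 0 x - fA A 0 0| ≤ C * δ := by
  have hcc := mo_hasCompactSupport (d := d) (t := 0) le_rfl
  have hdd : ContDiff ℝ ∞ (fderiv ℝ (mo 0 : Eu d → ℝ)) := (mo_contDiff 0).fderiv_right (by norm_cast)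
  obtain ⟨Ca, hCa0, hCa⟩ := mo_bdd (d := d) (t := 0) le_rfl
  obtain ⟨Cb', hCb'⟩ := (hcc.fderiv ℝ).exists_bound_of_continuous hdd.continuous
  set Cb := max Cb' 0 with hCbdef
  have hCb0 : 0 ≤ Cb := le_max_right _ _
  have hCb : ∀ x : Eu d, ‖fderiv ℝ (mo 0) x‖ ≤ Cb := fun x => (hCb' x).trans (le_max_left _ _)
  refine ⟨d * (Cb + Ca), by positivity, ?_⟩
  intro A E G _ _ _ δ h1 hE hG x hx
  have hδ : 0 ≤ δ := measureReal_nonneg.trans hE
  -- bound of the derivative
  have hder : ∀ z ∈ ball (0 : Eu d) 1,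
      ‖(∫ y, -fderiv ℝ (mo 0) (y - z) ∂A : Eu d →L[ℝ] ℝ)‖ ≤ d * (Cb + Ca) * δ := by
    intro z hz
    refine (norm_clm_le _).trans ?_
    have hterm : ∀ i : Fin d, ‖(∫ y, -fderiv ℝ (mo 0) (y - z) ∂A : Eu d →L[ℝ] ℝ) (ee i)‖ ≤
        (Cb + Ca) * δ := by
      intro i
      have hint : Integrable (fun y => -fderiv ℝ (mo 0) (y - z)) A :=
        Integrable.of_bound (hdd.continuous.comp
          (continuous_id.sub continuous_const)).neg.aestronglyMeasurable Cb
          (Eventually.of_forall fun y => by rw [norm_neg]; exact hCb _)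
      rw [ContinuousLinearMap.integral_apply hint]
      -- the vector field
      set X : Eu d → Eu d := fun y => mo 0 (y - z) • (ee i : Eu d) with hX
      have hXd : ContDiff ℝ ∞ X :=
        ((mo_contDiff 0).comp (contDiff_id.sub contDiff_const)).smul contDiff_const
      have hz1 : ‖z‖ < 1 := by simpa using hz
      have hX0 : ∀ y : Eu d, 2 < ‖y‖ → X y = 0 := by
        intro y hy
        rw [hX]
        simp only
        rw [mo_zero' le_rfl, zero_smul]
        have := norm_sub_norm_le y z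
        linarith
      have hXs : tsupport X ⊆ closedBall (0 : Eu d) 2 := by
        refine closure_minimal ?_ isClosed_closedBall
        intro y hy
        by_contra hcon
        exact hy (hX0 y (by simpa using hcon))
      have hXc : HasCompactSupport X :=
        HasCompactSupport.intro (isCompact_closedBall (0 : Eu d) 2) fun y hy =>
          hX0 y (by simpa using hy)
      have hXt : tsupport X ⊆ ball (0 : Eu d) 4 :=
        hXs.trans (closedBall_subset_ball (by norm_num))
      have hXder : ∀ y, fderiv ℝ X y = (fderiv ℝ (mo 0) (y - z)).smulRight (ee i : Eu d) := by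
        intro y
        have a1 : HasFDerivAt (mo 0 : Eu d → ℝ) (fderiv ℝ (mo 0) (y - z)) (y - z) :=
          ((mo_contDiff 0).differentiable (by simp) _).hasFDerivAt
        have a2 : HasFDerivAt (fun y : Eu d => y - z) (ContinuousLinearMap.id ℝ (Eu d)) y :=
          (hasFDerivAt_id y).sub_const z
        have a3 := (a1.comp y a2).smul_const (ee i : Eu d)
        exact a3.fderiv
      have hdv : ∀ y, dv X y = fderiv ℝ (mo 0) (y - z) (ee i) := by
        intro y
        unfold dv
        rw [hXder]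
        rw [Finset.sum_eq_single i]
        · rw [ContinuousLinearMap.smulRight_apply, inner_smul_left, inner_ee_ee]
          simp
        · intro j _ hj
          rw [ContinuousLinearMap.smulRight_apply, inner_smul_left, inner_ee_ee, if_neg hj.symm,
            mul_zero]
        · intro h; exact absurd (Finset.mem_univ i) h
      have h2 := h1 X hXd hXc hXt
      simp_rw [hdv] at h2
      have h3 : ∫ y, (-fderiv ℝ (mo 0) (y - z)) (ee i) ∂A = -∫ y, fderiv ℝ (mo 0) (y - z) (ee i) ∂A := by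
        rw [← integral_neg]
        rfl
      rw [h3, norm_neg, Real.norm_eq_abs]
      refine h2.trans ?_
      have h4 : ∫ y, ‖fderiv ℝ X y‖ ∂E ≤ Cb * δ := by
        calc ∫ y, ‖fderiv ℝ X y‖ ∂E ≤ ∫ y, Cb ∂E := by
              refine integral_mono_of_nonneg
                (Eventually.of_forall fun y => norm_nonneg (fderiv ℝ X y)) (integrable_const _)
                (Eventually.of_forall fun y => ?_)
              simp only
              rw [hXder, ContinuousLinearMap.norm_smulRight_apply]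
              simpa using hCb (y - z)
          _ = Cb * E.real univ := by rw [integral_const, smul_eq_mul, mul_comm]
          _ ≤ _ := mul_le_mul_of_nonneg_left hE hCb0
      have h5 : ∫ y, ‖X y‖ ∂G ≤ Ca * δ := by
        calc ∫ y, ‖X y‖ ∂G ≤ ∫ y, Ca ∂G := by
              refine integral_mono_of_nonneg
                (Eventually.of_forall fun y => norm_nonneg (X y)) (integrable_const _)
                (Eventually.of_forall fun y => ?_)
              simp only [hX, norm_smul]
              simpa using hCa (y - z)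
          _ = Ca * G.real univ := by rw [integral_const, smul_eq_mul, mul_comm]
          _ ≤ _ := mul_le_mul_of_nonneg_left hG hCa0
      linarith
    refine (Finset.sum_le_sum fun i _ => hterm i).trans_eq ?_
    simp
    ring
  have hmv := (convex_ball (0 : Eu d) 1).norm_image_sub_le_of_norm_hasFDerivWithin_le
    (f := fA A 0) (f' := fun z => ∫ y, -fderiv ℝ (mo 0) (y - z) ∂A) (C := d * (Cb + Ca) * δ)
    (fun z _ => (fA_hasFDerivAt A le_rfl z).hasFDerivWithinAt) hder
    (mem_ball_self one_pos) hx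
  rw [Real.norm_eq_abs, sub_zero] at hmv
  refine hmv.trans ?_
  have hx1 : ‖x‖ < 1 := by simpa using hx
  have h0 : 0 ≤ d * (Cb + Ca) * δ := by positivity
  nlinarith [norm_nonneg x]

/-- **strong constancy, unit ball, full version** -/
theorem sc2_unit (hd : 0 < d) : ∃ C : ℝ, 0 ≤ C ∧ ∀ (A E G : Measure (Eu d)) [IsFiniteMeasure A]
    [IsFiniteMeasure E] [IsFiniteMeasure G] (M δ : ℝ), H1 A E G → A.real univ ≤ M →
    E.real univ ≤ δ → G.real univ ≤ δ → ∃ c : ℝ, 0 ≤ c ∧ c ≤ C * M ∧
    ∀ S : Set (Eu d), MeasurableSet S → S ⊆ ball 0 1 →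
    |A.real S - c * volume.real S| ≤ C * Real.sqrt (M * δ) := by
  obtain ⟨Ca, hCa0, hCa⟩ := l1_est (d := d) hd
  obtain ⟨Cb, hCb0, hCb⟩ := fA_zero_le d
  obtain ⟨Cc, hCc0, hCc⟩ := grad_fA d
  have hc := @c0_pos d
  have hom := @om_pos d
  refine ⟨1 + Cb / c0 d + Cb / c0 d * om d + (Cc * om d + 2 * Ca) / c0 d, by positivity, ?_⟩
  intro A E G _ _ _ M δ h1 hAM hE hG
  have hM : 0 ≤ M := measureReal_nonneg.trans hAM
  have hδ : 0 ≤ δ := measureReal_nonneg.trans hE
  have hs0 : 0 ≤ Real.sqrt (M * δ) := Real.sqrt_nonneg _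
  have hf0 : 0 ≤ fA A 0 0 := fA_nonneg A 0 0
  have hf1 : fA A 0 0 ≤ Cb * M := hCb A M hAM 0
  have hcM : fA A 0 0 / c0 d ≤ Cb / c0 d * M := by
    rw [div_mul_eq_mul_div]
    exact div_le_div_of_nonneg_right hf1 hc.le
  have hr1 : 0 ≤ Cb / c0 d := by positivity
  have hr2 : 0 ≤ Cb / c0 d * om d := by positivity
  have hr3 : 0 ≤ (Cc * om d + 2 * Ca) / c0 d := by positivity
  refine ⟨fA A 0 0 / c0 d, by positivity, ?_, ?_⟩
  · refine hcM.trans (mul_le_mul_of_nonneg_right ?_ hM)
    linarith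
  intro S hS hS1
  have hSv : volume.real S ≤ om d := measureReal_mono hS1 measure_ball_lt_top.ne
  have hSv0 : 0 ≤ volume.real S := measureReal_nonneg
  rcases le_total M δ with h | h
  · have h2 : M ≤ Real.sqrt (M * δ) := by
      refine Real.le_sqrt_of_sq_le ?_
      nlinarith
    have h3 : A.real S ≤ M := (measureReal_mono (subset_univ S)).trans hAM
    have h3' : 0 ≤ A.real S := measureReal_nonneg
    have h4 : 0 ≤ fA A 0 0 / c0 d := by positivity
    have h5 : fA A 0 0 / c0 d * volume.real S ≤ Cb / c0 d * om d * M := by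
      calc fA A 0 0 / c0 d * volume.real S ≤ (Cb / c0 d * M) * om d :=
            mul_le_mul hcM hSv hSv0 (by positivity)
        _ = _ := by ring
    have h6 : 0 ≤ fA A 0 0 / c0 d * volume.real S := by positivity
    have h7 : Cb / c0 d * om d * M ≤ Cb / c0 d * om d * Real.sqrt (M * δ) :=
      mul_le_mul_of_nonneg_left h2 hr2
    have h8 : 0 ≤ Cb / c0 d * Real.sqrt (M * δ) := by positivity
    have h9 : 0 ≤ (Cc * om d + 2 * Ca) / c0 d * Real.sqrt (M * δ) := by positivity
    rw [abs_le]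
    constructor <;> nlinarith
  · have h2 : δ ≤ Real.sqrt (M * δ) := by
      refine Real.le_sqrt_of_sq_le ?_
      nlinarith
    have hg := hCc A E G δ h1 hE hG
    have hB0 : 0 ≤ Ca * (δ + Real.sqrt (M * δ)) := by positivity
    have hL := fun T hT => hCa A E G M δ (H1_toH2 h1) hAM hE hG T hT
    have hu := upper (A := A) (m := fA A 0 0 + Cc * δ) (B := Ca * (δ + Real.sqrt (M * δ)))
      (fun x hx => by have := (abs_le.1 (hg x hx)).2; linarith) (by positivity) hL hS hS1
    have hl := lower (A := A) (m := fA A 0 0 - Cc * δ) (B := Ca * (δ + Real.sqrt (M * δ))) hB0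
      (fun x hx => by have := (abs_le.1 (hg x hx)).1; linarith) hL hS hS1
    have h3 : |c0 d * A.real S - fA A 0 0 * volume.real S| ≤
        (Cc * om d + 2 * Ca) * Real.sqrt (M * δ) := by
      have h4 : Cc * δ * volume.real S ≤ Cc * om d * Real.sqrt (M * δ) := by
        calc Cc * δ * volume.real S ≤ Cc * Real.sqrt (M * δ) * om d :=
              mul_le_mul (mul_le_mul_of_nonneg_left h2 hCc0) hSv hSv0 (by positivity)
          _ = _ := by ring
      have h5 : Ca * δ ≤ Ca * Real.sqrt (M * δ) := mul_le_mul_of_nonneg_left h2 hCa0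
      rw [abs_le]
      constructor <;> nlinarith
    have h6 : |A.real S - fA A 0 0 / c0 d * volume.real S| ≤
        (Cc * om d + 2 * Ca) / c0 d * Real.sqrt (M * δ) := by
      have h7 : A.real S - fA A 0 0 / c0 d * volume.real S =
          (c0 d * A.real S - fA A 0 0 * volume.real S) / c0 d := by
        field_simp
      rw [h7, abs_div, abs_of_pos hc, div_mul_eq_mul_div]
      exact div_le_div_of_nonneg_right h3 hc.le
    refine h6.trans (mul_le_mul_of_nonneg_right ?_ hs0)
    linarith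

end

end Crest.Agent.R234.Sc173
end

-- ▼ part R234/Sc12_173
section

/-!
Row 234, strong constancy lemma (helper173).  Part 12: arbitrary balls in finite dimensional inner
product spaces.
-/

set_option autoImplicit false
set_option linter.unusedSectionVars false

open MeasureTheory Metric Set Filter Topology
open scoped ContDiff ENNReal

namespace Crest.Agent.R234.Sc173

noncomputable section

variable {d : ℕ} {V : Type*} [NormedAddCommGroup V] [InnerProductSpace ℝ V] [MeasurableSpace V]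
  [BorelSpace V]

/-- double divergence form of the equation in the ball `B_R(x0)`, no signed measures -/
def H2g (b : OrthonormalBasis (Fin d) ℝ V) (A E G : Measure V) (x0 : V) (R : ℝ) : Prop :=
  ∀ U : V → ℝ, ContDiff ℝ ∞ U → HasCompactSupport U → tsupport U ⊆ ball x0 R →
  |∫ x, ∑ i, fderiv ℝ (fderiv ℝ U) x (b i) (b i) ∂A| ≤
    (∫ x, ‖fderiv ℝ (fderiv ℝ U) x‖ ∂E) + ∫ x, ‖fderiv ℝ U x‖ ∂G

/-- divergence form of the equation in the ball `B_R(x0)` -/
def H1g (b : OrthonormalBasis (Fin d) ℝ V) (A E G : Measure V) (x0 : V) (R : ℝ) : Prop :=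
  ∀ X : V → V, ContDiff ℝ ∞ X → HasCompactSupport X → tsupport X ⊆ ball x0 R →
  |∫ x, ∑ i, inner ℝ (fderiv ℝ X x (b i)) (b i) ∂A| ≤
    (∫ x, ‖fderiv ℝ X x‖ ∂E) + ∫ x, ‖X x‖ ∂G

/-- the rescaling -/
def phi (b : OrthonormalBasis (Fin d) ℝ V) (x0 : V) (r : ℝ) (x : V) : Eu d :=
  r⁻¹ • b.repr (x - x0)

/-- its inverse -/
def psi (b : OrthonormalBasis (Fin d) ℝ V) (x0 : V) (r : ℝ) (y : Eu d) : V :=
  x0 + b.repr.symm (r • y)

variable {b : OrthonormalBasis (Fin d) ℝ V} {x0 : V} {r : ℝ}

lemma psi_phi (hr : 0 < r) (x : V) : psi b x0 r (phi b x0 r x) = x := by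
  unfold psi phi
  rw [smul_inv_smul₀ hr.ne', LinearIsometryEquiv.symm_apply_apply]
  abel

lemma phi_psi (hr : 0 < r) (y : Eu d) : phi b x0 r (psi b x0 r y) = y := by
  unfold psi phi
  rw [add_sub_cancel_left, LinearIsometryEquiv.apply_symm_apply, inv_smul_smul₀ hr.ne']

lemma phi_contDiff : ContDiff ℝ ∞ (phi b x0 r) := by
  unfold phi
  exact (b.repr.toContinuousLinearEquiv.contDiff.comp (contDiff_id.sub contDiff_const)).const_smul _

lemma psi_continuous : Continuous (psi b x0 r) := by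
  unfold psi
  exact continuous_const.add (b.repr.symm.continuous.comp (continuous_const_smul r))

lemma phi_continuous : Continuous (phi b x0 r) := by
  unfold phi
  exact (b.repr.continuous.comp (continuous_id.sub continuous_const)).const_smul (r⁻¹ : ℝ)

/-- the homeomorphism -/
def phiH (b : OrthonormalBasis (Fin d) ℝ V) (x0 : V) (hr : 0 < r) : V ≃ₜ Eu d where
  toFun := phi b x0 r
  invFun := psi b x0 r
  left_inv := psi_phi hr
  right_inv := phi_psi hr
  continuous_toFun := phi_continuous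
  continuous_invFun := psi_continuous

lemma phi_emb (hr : 0 < r) : MeasurableEmbedding (phi b x0 r) :=
  (phiH b x0 hr).measurableEmbedding

lemma norm_phi (hr : 0 < r) (x : V) : ‖phi b x0 r x‖ = r⁻¹ * ‖x - x0‖ := by
  unfold phi
  rw [norm_smul, LinearIsometryEquiv.norm_map, Real.norm_eq_abs, abs_of_pos (by positivity)]

lemma phi_mem_ball (hr : 0 < r) {x : V} {s : ℝ} :
    phi b x0 r x ∈ ball (0 : Eu d) s ↔ x ∈ ball x0 (s * r) := by
  rw [mem_ball_zero_iff, norm_phi hr, mem_ball, dist_eq_norm, inv_mul_lt_iff₀ hr, mul_comm]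

/-- derivative of the rescaling -/
def LL (b : OrthonormalBasis (Fin d) ℝ V) (r : ℝ) : V →L[ℝ] Eu d :=
  r⁻¹ • (b.repr.toContinuousLinearEquiv : V →L[ℝ] Eu d)

lemma LL_apply (v : V) : LL b r v = r⁻¹ • b.repr v := rfl

lemma hasFDerivAt_phi (x : V) : HasFDerivAt (phi b x0 r) (LL b r) x := by
  unfold phi LL
  have h1 : HasFDerivAt (fun x : V => b.repr (x - x0))
      ((b.repr.toContinuousLinearEquiv : V →L[ℝ] Eu d).comp (ContinuousLinearMap.id ℝ V)) x :=
    (b.repr.toContinuousLinearEquiv.hasFDerivAt).comp x ((hasFDerivAt_id x).sub_const x0)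
  rw [ContinuousLinearMap.comp_id] at h1
  exact h1.const_smul r⁻¹

lemma fderiv_comp_phi {W : Type*} [NormedAddCommGroup W] [NormedSpace ℝ W] {f : Eu d → W}
    (hf : Differentiable ℝ f) (x : V) :
    fderiv ℝ (fun x => f (phi b x0 r x)) x = (fderiv ℝ f (phi b x0 r x)).comp (LL b r) :=
  ((hf _).hasFDerivAt.comp x (hasFDerivAt_phi x)).fderiv

lemma fderiv2_comp_phi {U : Eu d → ℝ} (hU : ContDiff ℝ ∞ U) (x v w : V) :
    fderiv ℝ (fderiv ℝ fun x => U (phi b x0 r x)) x v w =
      fderiv ℝ (fderiv ℝ U) (phi b x0 r x) (LL b r v) (LL b r w) := by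
  have h1 : (fun x => fderiv ℝ (fun x => U (phi b x0 r x)) x) =
      fun x => (fderiv ℝ U (phi b x0 r x)).comp (LL b r) := by
    funext x
    exact fderiv_comp_phi (hU.differentiable (by simp)) x
  have hd : ContDiff ℝ ∞ fun x => U (phi b x0 r x) := hU.comp phi_contDiff
  have hd' : DifferentiableAt ℝ (fderiv ℝ fun x => U (phi b x0 r x)) x :=
    (hd.fderiv_right (m := ∞) (by norm_cast)).differentiable (by simp) x
  -- evaluate at `w`
  have h2 : fderiv ℝ (fun x => fderiv ℝ (fun x => U (phi b x0 r x)) x w) x v =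
      fderiv ℝ (fderiv ℝ fun x => U (phi b x0 r x)) x v w := by
    have h3 : HasFDerivAt (fun x => fderiv ℝ (fun x => U (phi b x0 r x)) x w)
        ((ContinuousLinearMap.apply ℝ ℝ w).comp
          (fderiv ℝ (fderiv ℝ fun x => U (phi b x0 r x)) x)) x :=
      (ContinuousLinearMap.apply ℝ ℝ w).hasFDerivAt.comp x hd'.hasFDerivAt
    rw [h3.fderiv]
    simp
  rw [← h2]
  have h4 : (fun x => fderiv ℝ (fun x => U (phi b x0 r x)) x w) =
      fun x => (Dd (LL b r w) U) (phi b x0 r x) := by
    funext x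
    rw [congrFun h1 x]
    rfl
  rw [h4, fderiv_comp_phi ((Dd_contDiff hU).differentiable (by simp))]
  rw [ContinuousLinearMap.comp_apply]
  exact Dd_Dd_eq hU _ _ _

lemma norm_LL (hr : 0 < r) (v : V) : ‖LL b r v‖ = r⁻¹ * ‖v‖ := by
  rw [LL_apply, norm_smul, LinearIsometryEquiv.norm_map, Real.norm_eq_abs,
    abs_of_pos (by positivity)]

lemma norm_comp_LL (hr : 0 < r) {W : Type*} [NormedAddCommGroup W] [NormedSpace ℝ W]
    (f : Eu d →L[ℝ] W) : ‖f.comp (LL b r)‖ = r⁻¹ * ‖f‖ := by
  refine le_antisymm ((f.comp (LL b r)).opNorm_le_bound (by positivity) fun v => ?_) ?_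
  · rw [ContinuousLinearMap.comp_apply]
    refine (f.le_opNorm _).trans_eq ?_
    rw [norm_LL hr]
    ring
  · rw [inv_mul_le_iff₀ hr]
    refine f.opNorm_le_bound (by positivity) fun v => ?_
    have h1 : f v = (f.comp (LL b r)) (b.repr.symm (r • v)) := by
      rw [ContinuousLinearMap.comp_apply, LL_apply, LinearIsometryEquiv.apply_symm_apply,
        inv_smul_smul₀ hr.ne']
    rw [h1]
    refine ((f.comp (LL b r)).le_opNorm _).trans_eq ?_
    rw [LinearIsometryEquiv.norm_map, norm_smul, Real.norm_eq_abs, abs_of_pos hr]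
    ring

lemma norm_fderiv2_comp_phi (hr : 0 < r) {U : Eu d → ℝ} (hU : ContDiff ℝ ∞ U) (x : V) :
    ‖fderiv ℝ (fderiv ℝ fun x => U (phi b x0 r x)) x‖ =
      r⁻¹ ^ 2 * ‖fderiv ℝ (fderiv ℝ U) (phi b x0 r x)‖ := by
  refine le_antisymm ?_ ?_
  · refine ContinuousLinearMap.opNorm_le_bound₂ _ (by positivity) fun v w => ?_
    rw [fderiv2_comp_phi hU]
    refine (ContinuousLinearMap.le_opNorm₂ _ _ _).trans_eq ?_
    rw [norm_LL hr, norm_LL hr]
    ring
  · rw [inv_pow, inv_mul_le_iff₀ (by positivity)]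
    refine ContinuousLinearMap.opNorm_le_bound₂ _ (by positivity) fun v w => ?_
    have h1 : ∀ v : Eu d, v = LL b r (b.repr.symm (r • v)) := by
      intro v
      rw [LL_apply, LinearIsometryEquiv.apply_symm_apply, inv_smul_smul₀ hr.ne']
    have h2 := fderiv2_comp_phi (b := b) (x0 := x0) (r := r) hU x (b.repr.symm (r • v))
      (b.repr.symm (r • w))
    rw [← h1, ← h1] at h2
    rw [← h2]
    refine (ContinuousLinearMap.le_opNorm₂ _ _ _).trans_eq ?_
    rw [LinearIsometryEquiv.norm_map, LinearIsometryEquiv.norm_map, norm_smul, norm_smul,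
      Real.norm_eq_abs, abs_of_pos hr]
    ring

/-! ### transfer of measures -/

/-- the rescaled measure -/
def mp (b : OrthonormalBasis (Fin d) ℝ V) (x0 : V) (r : ℝ) (A : Measure V) : Measure (Eu d) :=
  (A.restrict (ball x0 (4 * r))).map (phi b x0 r)

lemma mp_univ (hr : 0 < r) (A : Measure V) : mp b x0 r A univ = A (ball x0 (4 * r)) := by
  unfold mp
  rw [(phi_emb hr).map_apply, preimage_univ, Measure.restrict_apply_univ]

lemma integral_mp (hr : 0 < r) (A : Measure V) (f : Eu d → ℝ) :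
    ∫ y, f y ∂(mp b x0 r A) = ∫ x in ball x0 (4 * r), f (phi b x0 r x) ∂A := by
  unfold mp
  rw [(phi_emb hr).integral_map]

lemma mp_psi (hr : 0 < r) (A : Measure V) {S : Set V} (hS : MeasurableSet S)
    (hS1 : S ⊆ ball x0 r) : mp b x0 r A (psi b x0 r ⁻¹' S) = A S := by
  unfold mp
  rw [(phi_emb hr).map_apply, ← preimage_comp]
  have h1 : psi b x0 r ∘ phi b x0 r = id := by
    funext x; exact psi_phi hr x
  rw [h1, preimage_id, Measure.restrict_apply hS, inter_eq_left.2]
  exact hS1.trans (ball_subset_ball (by linarith))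

lemma vol_psi [FiniteDimensional ℝ V] (hr : 0 < r) (S : Set V) :
    volume.real (psi b x0 r ⁻¹' S) = volume.real S / r ^ d := by
  have h1 : psi b x0 r ⁻¹' S = (fun y : Eu d => r • y) ⁻¹' (b.repr.symm ⁻¹' ((fun x => x0 + x) ⁻¹' S)) :=
    rfl
  have h2 : MeasurePreserving (b.repr.symm : Eu d → V) := b.measurePreserving_repr_symm
  unfold Measure.real
  rw [h1, Measure.addHaar_preimage_smul volume hr.ne', ENNReal.toReal_mul,
    ENNReal.toReal_ofReal (abs_nonneg _)]
  have h3 : volume (b.repr.symm ⁻¹' ((fun x => x0 + x) ⁻¹' S)) = volume ((fun x => x0 + x) ⁻¹' S) := by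
    have h4 : MeasurableEmbedding (b.repr.symm : Eu d → V) :=
      b.repr.symm.toHomeomorph.measurableEmbedding
    exact h2.measure_preimage_emb h4 _
  rw [h3, measure_preimage_add, finrank_euclideanSpace, Fintype.card_fin, abs_of_pos (by positivity)]
  field_simp

lemma setInt_of_tsupport {A : Measure V} {f : V → ℝ} {R : ℝ} (hf : ∀ x, x ∉ ball x0 R → f x = 0) :
    ∫ x in ball x0 R, f x ∂A = ∫ x, f x ∂A := by
  refine setIntegral_eq_integral_of_forall_compl_eq_zero fun x hx => hf x hx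

end

end Crest.Agent.R234.Sc173
end

-- ▼ part R234/Sc13_173

/-!
Row 234, strong constancy lemma (helper173).  Part 13: the final theorems `SC1`, `SC2`.
-/

set_option autoImplicit false
set_option linter.unusedSectionVars false

open MeasureTheory Metric Set Filter Topology
open scoped ContDiff ENNReal

namespace Crest.Agent.R234.Sc173

noncomputable section

variable {d : ℕ}

/-! ### dimension zero -/

lemma eq_univ_of_zero {S : Set (Eu 0)} (h : S.Nonempty) : S = univ := by
  obtain ⟨x, hx⟩ := h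
  refine eq_univ_of_forall fun y => ?_
  have : y = x := Subsingleton.elim _ _
  rw [this]; exact hx

/-- (H2) version in the unit ball, all dimensions -/
theorem sc1_all (d : ℕ) : ∃ C : ℝ, 0 ≤ C ∧ ∀ (A E G : Measure (Eu d)) [IsFiniteMeasure A]
    [IsFiniteMeasure E] [IsFiniteMeasure G] (M δ : ℝ), H2 A E G → A.real univ ≤ M →
    E.real univ ≤ δ → G.real univ ≤ δ → ∀ S : Set (Eu d), MeasurableSet S → S ⊆ ball 0 1 →
    A.real S ≤ C * (M * volume.real S + Real.sqrt (M * δ)) := by
  rcases Nat.eq_zero_or_pos d with h | h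
  · subst h
    have hom := @om_pos 0
    refine ⟨1 / om 0, by positivity, ?_⟩
    intro A E G _ _ _ M δ _ hAM hE _ S _ _
    have hM : 0 ≤ M := measureReal_nonneg.trans hAM
    rcases S.eq_empty_or_nonempty with hS | hS
    · subst hS
      rw [measureReal_empty]
      have := Real.sqrt_nonneg (M * δ)
      have h2 : 0 ≤ M * volume.real (∅ : Set (Eu 0)) := mul_nonneg hM measureReal_nonneg
      positivity
    · rw [eq_univ_of_zero hS]
      have h1 : volume.real (univ : Set (Eu 0)) = om 0 := by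
        have : (univ : Set (Eu 0)) = ball 0 1 :=
          (eq_univ_of_zero ⟨0, mem_ball_self one_pos⟩).symm
        rw [this]; rfl
      rw [h1]
      have h2 : 0 ≤ 1 / om 0 * Real.sqrt (M * δ) := by positivity
      have h3 : 1 / om 0 * (M * om 0) = M := by field_simp
      rw [mul_add, h3]
      linarith
  · exact sc1_unit h

/-- full constancy in the unit ball, all dimensions -/
theorem sc2_all (d : ℕ) : ∃ C : ℝ, 0 ≤ C ∧ ∀ (A E G : Measure (Eu d)) [IsFiniteMeasure A]
    [IsFiniteMeasure E] [IsFiniteMeasure G] (M δ : ℝ), H1 A E G → A.real univ ≤ M →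
    E.real univ ≤ δ → G.real univ ≤ δ → ∃ c : ℝ, 0 ≤ c ∧ c ≤ C * M ∧
    ∀ S : Set (Eu d), MeasurableSet S → S ⊆ ball 0 1 →
    |A.real S - c * volume.real S| ≤ C * Real.sqrt (M * δ) := by
  rcases Nat.eq_zero_or_pos d with h | h
  · subst h
    have hom := @om_pos 0
    refine ⟨1 / om 0, by positivity, ?_⟩
    intro A E G _ _ _ M δ _ hAM hE _
    have hM : 0 ≤ M := measureReal_nonneg.trans hAM
    refine ⟨A.real univ / om 0, div_nonneg measureReal_nonneg hom.le, ?_, ?_⟩
    · rw [one_div_mul_eq_div]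
      exact div_le_div_of_nonneg_right hAM hom.le
    intro S _ _
    have hR : 0 ≤ 1 / om 0 * Real.sqrt (M * δ) := by positivity
    rcases S.eq_empty_or_nonempty with hS | hS
    · subst hS
      rw [measureReal_empty, measureReal_empty, mul_zero, sub_zero, abs_zero]
      exact hR
    · rw [eq_univ_of_zero hS]
      have h1 : volume.real (univ : Set (Eu 0)) = om 0 := by
        have : (univ : Set (Eu 0)) = ball 0 1 :=
          (eq_univ_of_zero ⟨0, mem_ball_self one_pos⟩).symm
        rw [this]; rfl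
      rw [h1, div_mul_cancel₀ _ hom.ne', sub_self, abs_zero]
      exact hR
  · exact sc2_unit h

/-- the constant of the strong constancy lemma -/
def Csc (d : ℕ) : ℝ := max (sc1_all d).choose (sc2_all d).choose

lemma Csc_nonneg (d : ℕ) : 0 ≤ Csc d := (sc1_all d).choose_spec.1.trans (le_max_left _ _)

variable {V : Type*} [NormedAddCommGroup V] [InnerProductSpace ℝ V] [MeasurableSpace V]
  [BorelSpace V] {b : OrthonormalBasis (Fin d) ℝ V} {x0 : V} {r : ℝ}

lemma norm_zero' {Z W : Type*} [NormedAddCommGroup Z] [NormedSpace ℝ Z] [NormedAddCommGroup W]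
    [NormedSpace ℝ W] {L : Z →L[ℝ] W} (h : L = 0) : ‖L‖ = 0 := by
  rw [h]; exact norm_zero

lemma LL_b (hr : 0 < r) (i : Fin d) : LL b r (b i) = r⁻¹ • (ee i : Eu d) := by
  rw [LL_apply, b.repr_self]

lemma phi_notMem (hr : 0 < r) {x : V} (hx : x ∉ ball x0 (4 * r)) :
    phi b x0 r x ∉ ball (0 : Eu d) 4 := fun h => hx ((phi_mem_ball hr).1 h)

lemma tsupport_comp_phi (hr : 0 < r) {W : Type*} [Zero W] {f : Eu d → W}
    (hf : tsupport f ⊆ ball (0 : Eu d) 4) :
    tsupport (fun x => f (phi b x0 r x)) ⊆ ball x0 (4 * r) := by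
  have h1 : tsupport (fun x => f (phi b x0 r x)) ⊆ phi b x0 r ⁻¹' tsupport f := by
    refine closure_minimal (fun x hx => subset_tsupport f hx)
      ((isClosed_tsupport f).preimage phi_continuous)
  exact fun x hx => (phi_mem_ball hr).1 (hf (h1 hx))

lemma hasCompactSupport_comp_phi (hr : 0 < r) {W : Type*} [Zero W] {f : Eu d → W}
    (hf : HasCompactSupport f) : HasCompactSupport (fun x => f (phi b x0 r x)) :=
  hf.comp_homeomorph (phiH b x0 hr)

lemma notMem_D {U : Eu d → ℝ} {y : Eu d} (hy : y ∉ tsupport U) : fderiv ℝ U y = 0 :=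
  fderiv_of_notMem_tsupport ℝ hy

lemma notMem_D2 {U : Eu d → ℝ} {y : Eu d} (hy : y ∉ tsupport U) :
    fderiv ℝ (fderiv ℝ U) y = 0 :=
  fderiv_of_notMem_tsupport ℝ fun h => hy (tsupport_fderiv_subset ℝ h)

/-- transfer of the double divergence form -/
lemma H2_mp (hr : 0 < r) {A E G : Measure V} (h : H2g b A E G x0 (4 * r)) :
    H2 (mp b x0 r A) (mp b x0 r E) (ENNReal.ofReal r • mp b x0 r G) := by
  intro U hU hc ht
  have h1 := h (fun x => U (phi b x0 r x)) (hU.comp phi_contDiff)
    (hasCompactSupport_comp_phi hr hc) (tsupport_comp_phi hr ht)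
  have hout : ∀ x, x ∉ ball x0 (4 * r) → phi b x0 r x ∉ tsupport U := fun x hx hx2 =>
    phi_notMem hr hx (ht hx2)
  -- left hand side
  have e1 : ∀ x : V, ∑ i, fderiv ℝ (fderiv ℝ fun x => U (phi b x0 r x)) x (b i) (b i) =
      r⁻¹ ^ 2 * Lap U (phi b x0 r x) := by
    intro x
    rw [Lap_eq hU, Finset.mul_sum]
    refine Finset.sum_congr rfl fun i _ => ?_
    rw [fderiv2_comp_phi hU, LL_b hr, map_smul, map_smul]
    simp only [_root_.smul_apply, smul_eq_mul]
    ring
  have f1 : ∫ y, Lap U y ∂(mp b x0 r A) = ∫ x, Lap U (phi b x0 r x) ∂A := by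
    rw [integral_mp hr]
    refine setInt_of_tsupport fun x hx => ?_
    rw [Lap_eq hU, notMem_D2 (hout x hx)]
    simp
  have f2 : ∫ y, ‖fderiv ℝ (fderiv ℝ U) y‖ ∂(mp b x0 r E) =
      ∫ x, ‖fderiv ℝ (fderiv ℝ U) (phi b x0 r x)‖ ∂E := by
    rw [integral_mp hr]
    refine setInt_of_tsupport fun x hx => ?_
    exact norm_zero' (notMem_D2 (hout x hx))
  have f3 : ∫ y, ‖fderiv ℝ U y‖ ∂(mp b x0 r G) = ∫ x, ‖fderiv ℝ U (phi b x0 r x)‖ ∂G := by
    rw [integral_mp hr]
    refine setInt_of_tsupport fun x hx => ?_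
    exact norm_zero' (notMem_D (hout x hx))
  have e2 : ∀ x : V, ‖fderiv ℝ (fun x => U (phi b x0 r x)) x‖ =
      r⁻¹ * ‖fderiv ℝ U (phi b x0 r x)‖ := by
    intro x
    rw [fderiv_comp_phi (hU.differentiable (by simp)), norm_comp_LL hr]
  simp_rw [e1, norm_fderiv2_comp_phi hr hU, e2] at h1
  rw [integral_const_mul, integral_const_mul, integral_const_mul] at h1
  rw [f1, f2, integral_smul_measure, f3, ENNReal.toReal_ofReal hr.le, smul_eq_mul]
  rw [abs_mul, abs_of_pos (show (0:ℝ) < r⁻¹ ^ 2 by positivity)] at h1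
  have h2 : r ^ 2 * (r⁻¹ ^ 2 * |∫ x, Lap U (phi b x0 r x) ∂A|) ≤
      r ^ 2 * (r⁻¹ ^ 2 * (∫ x, ‖fderiv ℝ (fderiv ℝ U) (phi b x0 r x)‖ ∂E) +
        r⁻¹ * ∫ x, ‖fderiv ℝ U (phi b x0 r x)‖ ∂G) :=
    mul_le_mul_of_nonneg_left h1 (by positivity)
  have h3 : ∀ t : ℝ, r ^ 2 * (r⁻¹ ^ 2 * t) = t := by intro t; field_simp
  have h4 : ∀ t : ℝ, r ^ 2 * (r⁻¹ * t) = r * t := by intro t; field_simp
  rw [mul_add, h3, h3, h4] at h2
  exact h2

lemma norm_symm_comp {Z : Type*} [NormedAddCommGroup Z] [NormedSpace ℝ Z] (L : Z →L[ℝ] Eu d) :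
    ‖(b.repr.symm.toContinuousLinearEquiv : Eu d →L[ℝ] V).comp L‖ = ‖L‖ := by
  refine le_antisymm (ContinuousLinearMap.opNorm_le_bound _ (norm_nonneg L) fun z => ?_)
    (L.opNorm_le_bound (norm_nonneg _) fun z => ?_)
  · rw [ContinuousLinearMap.comp_apply]
    refine (le_of_eq ?_).trans (L.le_opNorm z)
    exact b.repr.symm.norm_map _
  · refine (le_of_eq ?_).trans
      (((b.repr.symm.toContinuousLinearEquiv : Eu d →L[ℝ] V).comp L).le_opNorm z)
    exact (b.repr.symm.norm_map _).symm

/-- transfer of the divergence form -/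
lemma H1_mp (hr : 0 < r) {A E G : Measure V} (h : H1g b A E G x0 (4 * r)) :
    H1 (mp b x0 r A) (mp b x0 r E) (ENNReal.ofReal r • mp b x0 r G) := by
  intro X hX hc ht
  have hs : Function.support (fun x => b.repr.symm (X (phi b x0 r x))) ⊆
      Function.support (fun x => X (phi b x0 r x)) := by
    intro x hx hx0
    refine hx ?_
    simp only [hx0, map_zero]
  have h1 := h (fun x => b.repr.symm (X (phi b x0 r x)))
    (b.repr.symm.toContinuousLinearEquiv.contDiff.comp (hX.comp phi_contDiff))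
    ((hasCompactSupport_comp_phi hr hc).mono hs)
    ((closure_mono hs).trans (tsupport_comp_phi hr ht))
  have hout : ∀ x, x ∉ ball x0 (4 * r) → phi b x0 r x ∉ tsupport X := fun x hx hx2 =>
    phi_notMem hr hx (ht hx2)
  have hder : ∀ x : V, fderiv ℝ (fun x => b.repr.symm (X (phi b x0 r x))) x =
      (b.repr.symm.toContinuousLinearEquiv : Eu d →L[ℝ] V).comp
        ((fderiv ℝ X (phi b x0 r x)).comp (LL b r)) := by
    intro x
    have a1 : HasFDerivAt (fun x => X (phi b x0 r x)) ((fderiv ℝ X (phi b x0 r x)).comp (LL b r)) x :=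
      ((hX.differentiable (by simp) _).hasFDerivAt.comp x (hasFDerivAt_phi x))
    exact ((b.repr.symm.toContinuousLinearEquiv.hasFDerivAt).comp x a1).fderiv
  have e1 : ∀ x : V, ∑ i, inner ℝ (fderiv ℝ (fun x => b.repr.symm (X (phi b x0 r x))) x (b i)) (b i) =
      r⁻¹ * dv X (phi b x0 r x) := by
    intro x
    unfold dv
    rw [Finset.mul_sum]
    refine Finset.sum_congr rfl fun i _ => ?_
    rw [hder, ContinuousLinearMap.comp_apply, ContinuousLinearMap.comp_apply, LL_b hr, map_smul]
    have a2 : inner ℝ (b.repr.symm (r⁻¹ • fderiv ℝ X (phi b x0 r x) (ee i))) (b i) =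
        inner ℝ (r⁻¹ • fderiv ℝ X (phi b x0 r x) (ee i)) (b.repr (b i)) := by
      rw [b.repr.symm.inner_map_eq_flip]
      rfl
    refine a2.trans ?_
    rw [b.repr_self, inner_smul_left]
    rfl
  have f1 : ∫ y, dv X y ∂(mp b x0 r A) = ∫ x, dv X (phi b x0 r x) ∂A := by
    rw [integral_mp hr]
    refine setInt_of_tsupport fun x hx => ?_
    unfold dv
    refine Finset.sum_eq_zero fun i _ => ?_
    have : fderiv ℝ X (phi b x0 r x) = 0 := fderiv_of_notMem_tsupport ℝ (hout x hx)
    rw [this]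
    simp
  have f2 : ∫ y, ‖fderiv ℝ X y‖ ∂(mp b x0 r E) = ∫ x, ‖fderiv ℝ X (phi b x0 r x)‖ ∂E := by
    rw [integral_mp hr]
    refine setInt_of_tsupport fun x hx => ?_
    exact norm_zero' (fderiv_of_notMem_tsupport ℝ (hout x hx))
  have f3 : ∫ y, ‖X y‖ ∂(mp b x0 r G) = ∫ x, ‖X (phi b x0 r x)‖ ∂G := by
    rw [integral_mp hr]
    refine setInt_of_tsupport fun x hx => ?_
    rw [image_eq_zero_of_notMem_tsupport (hout x hx), norm_zero]
  have e2 : ∀ x : V, ‖fderiv ℝ (fun x => b.repr.symm (X (phi b x0 r x))) x‖ =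
      r⁻¹ * ‖fderiv ℝ X (phi b x0 r x)‖ := by
    intro x
    rw [hder, norm_symm_comp, norm_comp_LL hr]
  have e3 : ∀ x : V, ‖b.repr.symm (X (phi b x0 r x))‖ = ‖X (phi b x0 r x)‖ := fun x =>
    b.repr.symm.norm_map _
  simp_rw [e1, e2, e3] at h1
  rw [integral_const_mul, integral_const_mul] at h1
  rw [f1, f2, integral_smul_measure, f3, ENNReal.toReal_ofReal hr.le, smul_eq_mul]
  rw [abs_mul, abs_of_pos (show (0:ℝ) < r⁻¹ by positivity)] at h1
  have h2 := mul_le_mul_of_nonneg_left h1 hr.le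
  have h3 : ∀ t : ℝ, r * (r⁻¹ * t) = t := by intro t; field_simp
  rw [mul_add, h3, h3] at h2
  exact h2

lemma mp_real_le (hr : 0 < r) {A : Measure V} {M : ℝ} (hM : 0 ≤ M)
    (hA : A (ball x0 (4 * r)) ≤ ENNReal.ofReal M) : (mp b x0 r A).real univ ≤ M := by
  unfold Measure.real
  rw [mp_univ hr, ← ENNReal.toReal_ofReal hM]
  exact ENNReal.toReal_mono ENNReal.ofReal_ne_top hA

lemma mp_finite (hr : 0 < r) {A : Measure V} {M : ℝ}
    (hA : A (ball x0 (4 * r)) ≤ ENNReal.ofReal M) : IsFiniteMeasure (mp b x0 r A) :=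
  ⟨by rw [mp_univ hr]; exact hA.trans_lt ENNReal.ofReal_lt_top⟩

lemma psi_sub (hr : 0 < r) {S : Set V} (hS : S ⊆ ball x0 r) :
    psi b x0 r ⁻¹' S ⊆ ball (0 : Eu d) 1 := by
  intro y hy
  have h1 : psi b x0 r y ∈ ball x0 (1 * r) := by rw [one_mul]; exact hS hy
  rw [← phi_mem_ball hr, phi_psi hr] at h1
  exact h1

/-- **SC1: strong constancy lemma (Allard)**, double divergence form, compactness free. -/
theorem SC1 [FiniteDimensional ℝ V] (b : OrthonormalBasis (Fin d) ℝ V) {A E G : Measure V} {x0 : V}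
    {r M δ : ℝ} (hr : 0 < r) (hM : 0 ≤ M) (hδ : 0 ≤ δ)
    (hA : A (ball x0 (4 * r)) ≤ ENNReal.ofReal M) (hE : E (ball x0 (4 * r)) ≤ ENNReal.ofReal δ)
    (hG : G (ball x0 (4 * r)) ≤ ENNReal.ofReal (δ / r)) (h : H2g b A E G x0 (4 * r))
    {S : Set V} (hS : MeasurableSet S) (hS1 : S ⊆ ball x0 r) :
    A.real S ≤ Csc d * (M * (volume.real S / r ^ d) + Real.sqrt (M * δ)) := by
  have i1 : IsFiniteMeasure (mp b x0 r A) := mp_finite hr hA
  have i2 : IsFiniteMeasure (mp b x0 r E) := mp_finite hr hE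
  have i3 : IsFiniteMeasure (mp b x0 r G) := mp_finite hr hG
  have i4 : IsFiniteMeasure (ENNReal.ofReal r • mp b x0 r G) :=
    ⟨by
      rw [Measure.smul_apply, smul_eq_mul]
      exact ENNReal.mul_lt_top ENNReal.ofReal_lt_top (measure_lt_top _ _)⟩
  have hGr : (ENNReal.ofReal r • mp b x0 r G).real univ ≤ δ := by
    have h1 := mp_real_le (b := b) hr (by positivity) hG
    rw [measureReal_ennreal_smul_apply, ENNReal.toReal_ofReal hr.le]
    calc r * (mp b x0 r G).real univ ≤ r * (δ / r) := mul_le_mul_of_nonneg_left h1 hr.le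
      _ = δ := by field_simp
  have hSm : MeasurableSet (psi b x0 r ⁻¹' S) := hS.preimage psi_continuous.measurable
  have h1 := (sc1_all d).choose_spec.2 (mp b x0 r A) (mp b x0 r E) (ENNReal.ofReal r • mp b x0 r G)
    M δ (H2_mp hr h) (mp_real_le hr hM hA) (mp_real_le hr hδ hE) hGr (psi b x0 r ⁻¹' S) hSm
    (psi_sub hr hS1)
  rw [vol_psi hr, Measure.real, mp_psi hr A hS hS1] at h1
  refine h1.trans (mul_le_mul_of_nonneg_right (le_max_left _ _) ?_)
  have h2 : 0 ≤ volume.real S / r ^ d := div_nonneg measureReal_nonneg (by positivity)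
  positivity

/-- **SC2: full strong constancy lemma (Allard)**, divergence form, compactness free. -/
theorem SC2 [FiniteDimensional ℝ V] (b : OrthonormalBasis (Fin d) ℝ V) {A E G : Measure V} {x0 : V}
    {r M δ : ℝ} (hr : 0 < r) (hM : 0 ≤ M) (hδ : 0 ≤ δ)
    (hA : A (ball x0 (4 * r)) ≤ ENNReal.ofReal M) (hE : E (ball x0 (4 * r)) ≤ ENNReal.ofReal δ)
    (hG : G (ball x0 (4 * r)) ≤ ENNReal.ofReal (δ / r)) (h : H1g b A E G x0 (4 * r)) :
    ∃ c : ℝ, 0 ≤ c ∧ c * r ^ d ≤ Csc d * M ∧ ∀ S : Set V, MeasurableSet S → S ⊆ ball x0 r →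
      |A.real S - c * volume.real S| ≤ Csc d * Real.sqrt (M * δ) := by
  have i1 : IsFiniteMeasure (mp b x0 r A) := mp_finite hr hA
  have i2 : IsFiniteMeasure (mp b x0 r E) := mp_finite hr hE
  have i3 : IsFiniteMeasure (mp b x0 r G) := mp_finite hr hG
  have i4 : IsFiniteMeasure (ENNReal.ofReal r • mp b x0 r G) :=
    ⟨by
      rw [Measure.smul_apply, smul_eq_mul]
      exact ENNReal.mul_lt_top ENNReal.ofReal_lt_top (measure_lt_top _ _)⟩
  have hGr : (ENNReal.ofReal r • mp b x0 r G).real univ ≤ δ := by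
    have h1 := mp_real_le (b := b) hr (by positivity) hG
    rw [measureReal_ennreal_smul_apply, ENNReal.toReal_ofReal hr.le]
    calc r * (mp b x0 r G).real univ ≤ r * (δ / r) := mul_le_mul_of_nonneg_left h1 hr.le
      _ = δ := by field_simp
  obtain ⟨c, hc0, hcM, hc⟩ := (sc2_all d).choose_spec.2 (mp b x0 r A) (mp b x0 r E)
    (ENNReal.ofReal r • mp b x0 r G) M δ (H1_mp hr h) (mp_real_le hr hM hA) (mp_real_le hr hδ hE) hGr
  refine ⟨c / r ^ d, by positivity, ?_, fun S hS hS1 => ?_⟩
  · rw [div_mul_cancel₀ _ (by positivity)]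
    exact hcM.trans (mul_le_mul_of_nonneg_right (le_max_right _ _) hM)
  · have hSm : MeasurableSet (psi b x0 r ⁻¹' S) := hS.preimage psi_continuous.measurable
    have h1 := hc (psi b x0 r ⁻¹' S) hSm (psi_sub hr hS1)
    rw [vol_psi hr, Measure.real, mp_psi hr A hS hS1] at h1
    have h2 : c / r ^ d * volume.real S = c * (volume.real S / r ^ d) := by ring
    rw [h2]
    exact h1.trans (mul_le_mul_of_nonneg_right (le_max_right _ _) (Real.sqrt_nonneg _))

end

end Crest.Agent.R234.Sc173
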