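import Crest.Agent.R234.Cy5_870
import Crest.Agent.R234.Rig1_300

-- ▼ part R234/Thin1_561
section

/-!
# Row 234, node N4 THIN of the core (helper561), part 1: the exact identity

(7iii) of helper504 (#5747).  `ν` a horizontal unit vector.  With the field `χ ⟨ν, x' - x⟩ ν`:

  `2 b + R = E + s^{2-m} a(ψ) - s^{2-m} e_HH(χ) + s^{-m} ∫ (-2 g') c dV + s^{2-m} δV(χ ⟨ν, x'-x⟩ ν)`

where `ψ = -2 s^{-2} g' ⟨ν, x'-x⟩² ≥ 0`, `e_HH = tl - ⟨(1 - S_hh) ν, ν⟩` is the tilt energy in the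
directions of `H = ν^⊥` and `c = ⟨(1 - S_hh) (x'-x), P_H (x'-x)⟩`.
-/

set_option autoImplicit false
set_option linter.unusedSectionVars false

open MeasureTheory Set Function Filter Topology
open Crest.GeometryTopology.Submanifold
open Crest.Agent.R234.Vf_884 Crest.Agent.R234.Ar_870 Crest.Agent.R234.Cy_870
open scoped ENNReal NNReal InnerProductSpace

noncomputable section

namespace Crest.Agent.R234.Thin_561

variable {m n k : ℕ}

/-- the field `χ(x') ⟨ν, x' - x⟩ ν` -/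
def Xν (π : Euc k →L[ℝ] Euc m) (x ν : Euc m) (g : ℝ → ℝ) (l : ℝ) (p : Euc k) : Euc k :=
  (1 : ℝ) • ContinuousLinearMap.adjoint π
    ((g (Real.exp (-2 * l) * ‖π p - x‖ ^ 2) * ⟪ν, π p - x⟫_ℝ) • ν)

/-- the mixed form `⟨(1 - S_hh) u, v⟩` -/
def qm (π : Euc k →L[ℝ] Euc m) (P : L k) (u v : Euc m) : ℝ := ⟪u, v⟫_ℝ - ⟪u, Shh π P v⟫_ℝ

/-- the functional `∫ ψ dμ - Q ∫ ψ dx` -/
def aF (V : Measure (Euc k × L k)) (π : Euc k →L[ℝ] Euc m) (Q : ℝ) (ψ : Euc m → ℝ) : ℝ :=
  (∫ p, ψ (π p.1) ∂V) - Q * ∫ v, ψ v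

/-- the functional `b(ψ) = ∫ ψ dμ - Q ∫ ψ dx - 1/2 ∫ ψ tl dV` -/
def bF (V : Measure (Euc k × L k)) (π : Euc k →L[ℝ] Euc m) (Q : ℝ) (ψ : Euc m → ℝ) : ℝ :=
  aF V π Q ψ - (∫ p, tl π p.2 * ψ (π p.1) ∂V) / 2

variable {π : Euc k →L[ℝ] Euc m} {κ : Euc k →L[ℝ] Euc n} {x ν : Euc m} {L₀ : ℝ}
  {V : Measure (Euc k × L k)} {g g1 g2 : ℝ → ℝ}

theorem qm_self (π : Euc k →L[ℝ] Euc m) (P : L k) (v : Euc m) : qm π P v v = qf π P v := by
  unfold qm qf
  rw [real_inner_self_eq_norm_sq]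

/-- derivative of `f(..) ⟨ν, v - x⟩` -/
theorem hasFDerivAt_sc {f f' : ℝ → ℝ} (hf : ∀ t, HasDerivAt f (f' t) t) (l : ℝ) (x ν v : Euc m) :
    HasFDerivAt (fun v : Euc m => f (Real.exp (-2 * l) * ‖v - x‖ ^ 2) * ⟪ν, v - x⟫_ℝ)
      (f (Real.exp (-2 * l) * ‖v - x‖ ^ 2) • innerSL ℝ ν +
        ⟪ν, v - x⟫_ℝ • innerSL ℝ
          ((2 * Real.exp (-2 * l) * f' (Real.exp (-2 * l) * ‖v - x‖ ^ 2)) • (v - x))) v := by
  have h1 := hasFDerivAt_rad hf l x v
  have h2 : HasFDerivAt (fun v : Euc m => ⟪ν, v - x⟫_ℝ) (innerSL ℝ ν) v := by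
    have h3 : HasFDerivAt (fun v : Euc m => v - x) (ContinuousLinearMap.id ℝ (Euc m)) v :=
      (hasFDerivAt_id v).sub_const x
    have h4 := ((innerSL ℝ ν).hasFDerivAt (x := v - x)).comp v h3
    rw [ContinuousLinearMap.comp_id] at h4
    exact h4
  exact h1.mul h2

theorem contDiff_sc (hg : Ker g g1) (l : ℝ) (x ν : Euc m) :
    ContDiff ℝ 1 fun v : Euc m => g (Real.exp (-2 * l) * ‖v - x‖ ^ 2) * ⟪ν, v - x⟫_ℝ := by
  have h1 : ContDiff ℝ 1 (fun v : Euc m => v - x) := contDiff_id.sub contDiff_const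
  have h2 : ContDiff ℝ 1 (fun v : Euc m => g (Real.exp (-2 * l) * ‖v - x‖ ^ 2)) :=
    (contDiff_scaled hg.der hg.cont l).comp (h1.norm_sq ℝ)
  exact h2.mul ((innerSL ℝ ν).contDiff.comp h1)

/-- trace of the derivative of `f(..) ⟨ν, v - x⟩ ν` against `S` -/
theorem tr_sc (hg : Ker g g1) (l : ℝ) (x ν v : Euc m) (S : L m) :
    tr (fderiv ℝ (fun v : Euc m =>
        (g (Real.exp (-2 * l) * ‖v - x‖ ^ 2) * ⟪ν, v - x⟫_ℝ) • ν) v ∘L S) =
      g (Real.exp (-2 * l) * ‖v - x‖ ^ 2) * ⟪ν, S ν⟫_ℝ +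
        2 * Real.exp (-2 * l) * (⟪ν, v - x⟫_ℝ * ⟪v - x, S ν⟫_ℝ) *
          g1 (Real.exp (-2 * l) * ‖v - x‖ ^ 2) := by
  have h := (hasFDerivAt_sc hg.der l x ν v).smul_const ν
  rw [h.fderiv, tr_smulRight_comp]
  simp only [add_apply, smul_apply, innerSL_apply_apply,
    smul_eq_mul, real_inner_smul_left]
  ring

/-- **one integration by parts**: `∫ g dv + 2 s^{-2} ∫ g' ⟨ν, v - x⟩² dv = 0` -/
theorem leb_sc (hg : Ker g g1) (l : ℝ) (x : Euc m) (hν : ‖ν‖ = 1) :
    (∫ v : Euc m, 1 * g (Real.exp (-2 * l) * ‖v - x‖ ^ 2)) +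
      2 * Real.exp (-2 * l) * ∫ v : Euc m, ⟪ν, v - x⟫_ℝ ^ 2 *
        g1 (Real.exp (-2 * l) * ‖v - x‖ ^ 2) = 0 := by
  set f : Euc m → ℝ := fun v => g (Real.exp (-2 * l) * ‖v - x‖ ^ 2) * ⟪ν, v - x⟫_ℝ with hf
  have hz : ∀ v : Euc m, Real.exp l ≤ ‖v - x‖ → 1 ≤ Real.exp (-2 * l) * ‖v - x‖ ^ 2 :=
    fun v hv => Ker.one_le_of x hv
  have hcs : ∀ F : Euc m → ℝ, (∀ v, Real.exp l ≤ ‖v - x‖ → F v = 0) → HasCompactSupport F := by
    intro F hF
    refine HasCompactSupport.of_support_subset_isCompact (isCompact_closedBall x (Real.exp l)) ?_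
    intro v hv
    rw [Metric.mem_closedBall, dist_eq_norm]
    by_contra hc
    exact hv (hF v (not_le.1 hc).le)
  have hcont : Continuous f := (contDiff_sc hg l x ν).continuous
  have hfz : ∀ v, Real.exp l ≤ ‖v - x‖ → f v = 0 := by
    intro v hv
    simp only [hf]
    rw [hg.zero _ (hz v hv), zero_mul]
  have hgc : Continuous fun v : Euc m => g (Real.exp (-2 * l) * ‖v - x‖ ^ 2) :=
    hg.continuous.comp (continuous_const.mul ((continuous_id.sub continuous_const).norm.pow 2))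
  have hg1c : Continuous fun v : Euc m => g1 (Real.exp (-2 * l) * ‖v - x‖ ^ 2) :=
    hg.cont.comp (continuous_const.mul ((continuous_id.sub continuous_const).norm.pow 2))
  have hder : ∀ v, fderiv ℝ f v ν = 1 * g (Real.exp (-2 * l) * ‖v - x‖ ^ 2) +
      2 * Real.exp (-2 * l) * (⟪ν, v - x⟫_ℝ ^ 2 * g1 (Real.exp (-2 * l) * ‖v - x‖ ^ 2)) := by
    intro v
    rw [(hasFDerivAt_sc hg.der l x ν v).fderiv]
    simp only [add_apply, smul_apply, innerSL_apply_apply,
      smul_eq_mul, real_inner_smul_left, real_inner_self_eq_norm_sq, hν]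
    rw [real_inner_comm ν (v - x)]
    ring
  have hi1 : Integrable (fun v : Euc m => 1 * g (Real.exp (-2 * l) * ‖v - x‖ ^ 2)) :=
    Continuous.integrable_of_hasCompactSupport (continuous_const.mul hgc)
      (hcs (fun v : Euc m => 1 * g (Real.exp (-2 * l) * ‖v - x‖ ^ 2))
        fun v hv => by rw [hg.zero _ (hz v hv), mul_zero])
  have hi2 : Integrable (fun v : Euc m => ⟪ν, v - x⟫_ℝ ^ 2 *
      g1 (Real.exp (-2 * l) * ‖v - x‖ ^ 2)) := by
    refine Continuous.integrable_of_hasCompactSupport ?_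
      (hcs (fun v : Euc m => ⟪ν, v - x⟫_ℝ ^ 2 * g1 (Real.exp (-2 * l) * ‖v - x‖ ^ 2))
        fun v hv => by rw [hg.zero' _ (hz v hv), mul_zero])
    exact ((continuous_const.inner (continuous_id.sub continuous_const)).pow 2).mul hg1c
  have hfd : Integrable (fun v => fderiv ℝ f v ν) := by
    refine (hi1.add (hi2.const_mul (2 * Real.exp (-2 * l)))).congr
      (Eventually.of_forall fun v => ?_)
    simp only [Pi.add_apply]
    rw [hder]
  have h0 := integral_mul_fderiv_eq_neg_fderiv_mul_of_integrable (𝕜 := ℝ) (μ := volume)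
    (f := f) (g := fun _ => (1:ℝ)) (v := ν) (by simpa using hfd) (by simp)
    (by simpa using hcont.integrable_of_hasCompactSupport (hcs f hfz))
    (fun v _ => (hasFDerivAt_sc hg.der l x ν v).differentiableAt)
    (fun v _ => differentiableAt_const _)
  simp only [fderiv_fun_const, Pi.zero_apply, zero_apply, mul_zero,
    integral_zero, mul_one] at h0
  have h1 : ∫ v, fderiv ℝ f v ν = 0 := by linarith
  rw [← h1, ← integral_const_mul, ← integral_add hi1 (hi2.const_mul _)]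
  exact integral_congr_ae (Eventually.of_forall fun v => (hder v).symm)

/-- **the first variation of `χ ⟨ν, x' - x⟩ ν`** -/
theorem FV_Xν (h : Fr V π κ x L₀) (hg : Ker g g1) {l : ℝ} (hl : l ≤ L₀) (hν : ‖ν‖ = 1) :
    FV V (Xν π x ν g l) =
      (∫ p, 1 * g (Real.exp (-2 * l) * ‖π p.1 - x‖ ^ 2) ∂V)
        - (∫ p, qf π p.2 ν * g (Real.exp (-2 * l) * ‖π p.1 - x‖ ^ 2) ∂V)
        + 2 * Real.exp (-2 * l) * (∫ p, ⟪ν, π p.1 - x⟫_ℝ ^ 2 *
            g1 (Real.exp (-2 * l) * ‖π p.1 - x‖ ^ 2) ∂V)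
        + (-2 * Real.exp (-2 * l)) * (∫ p, (⟪ν, π p.1 - x⟫_ℝ * qm π p.2 (π p.1 - x) ν) *
            g1 (Real.exp (-2 * l) * ‖π p.1 - x‖ ^ 2) ∂V) := by
  have hcv : Continuous fun p : Euc k × L k => π p.1 - x :=
    (π.continuous.comp continuous_fst).sub continuous_const
  have hcq : Continuous fun p : Euc k × L k => qf π p.2 ν := by
    unfold qf
    exact continuous_const.sub (continuous_const.inner
      (((continuous_Shh π).comp continuous_snd).clm_apply continuous_const))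
  have hcm : Continuous fun p : Euc k × L k => ⟪ν, π p.1 - x⟫_ℝ * qm π p.2 (π p.1 - x) ν := by
    unfold qm
    exact (continuous_const.inner hcv).mul ((hcv.inner continuous_const).sub (hcv.inner
      (((continuous_Shh π).comp continuous_snd).clm_apply continuous_const)))
  have hci : Continuous fun p : Euc k × L k => ⟪ν, π p.1 - x⟫_ℝ ^ 2 :=
    (continuous_const.inner hcv).pow 2
  have hle : ∀ p : Euc k × L k, ‖π p.1 - x‖ ^ 2 < Real.exp (2 * L₀) →
      ‖π p.1 - x‖ ≤ Real.exp L₀ := by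
    intro p hp
    have : Real.exp (2 * L₀) = Real.exp L₀ ^ 2 := by rw [← Real.exp_nat_mul]; norm_num
    rw [this] at hp
    exact (lt_of_pow_lt_pow_left₀ 2 (Real.exp_pos _).le hp).le
  have bq : ∀ᵐ p ∂V, ‖π p.1 - x‖ ^ 2 < Real.exp (2 * L₀) → |qf π p.2 ν| ≤ 1 := by
    filter_upwards [h.conc] with p hp _
    rw [abs_of_nonneg (qf_nonneg h.sp.hh (isPr_of_G hp) _)]
    refine (qf_le (isPr_of_G hp) _).trans ?_
    rw [hν]; norm_num
  have bi : ∀ᵐ p ∂V, ‖π p.1 - x‖ ^ 2 < Real.exp (2 * L₀) →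
      |⟪ν, π p.1 - x⟫_ℝ ^ 2| ≤ Real.exp L₀ ^ 2 := by
    refine Eventually.of_forall fun p hp => ?_
    rw [abs_of_nonneg (sq_nonneg _), ← sq_abs]
    refine pow_le_pow_left₀ (abs_nonneg _) ?_ 2
    refine (abs_real_inner_le_norm _ _).trans ?_
    rw [hν, one_mul]
    exact hle p hp
  have bm : ∀ᵐ p ∂V, ‖π p.1 - x‖ ^ 2 < Real.exp (2 * L₀) →
      |⟪ν, π p.1 - x⟫_ℝ * qm π p.2 (π p.1 - x) ν| ≤ Real.exp L₀ * (2 * Real.exp L₀) := by
    filter_upwards [h.conc] with p hp hlt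
    have h1 := hle p hlt
    have h2 : |⟪ν, π p.1 - x⟫_ℝ| ≤ Real.exp L₀ := by
      refine (abs_real_inner_le_norm _ _).trans ?_
      rw [hν, one_mul]
      exact h1
    have h3 : ‖Shh π p.2 ν‖ ≤ 1 := by
      have e1 : ‖Shh π p.2 ν‖ = ‖π (p.2 (ContinuousLinearMap.adjoint π ν))‖ := rfl
      have e2 := h.sp.norm_sq (p.2 (ContinuousLinearMap.adjoint π ν))
      have e3 := norm_pr_le (isPr_of_G hp) (ContinuousLinearMap.adjoint π ν)
      rw [norm_adjoint_co h.sp.hh, hν] at e3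
      have e4 : ‖p.2 (ContinuousLinearMap.adjoint π ν)‖ ^ 2 ≤ 1 := by
        have := pow_le_pow_left₀ (norm_nonneg _) e3 2
        simpa using this
      rw [e1]
      nlinarith [norm_nonneg (π (p.2 (ContinuousLinearMap.adjoint π ν))),
        sq_nonneg ‖κ (p.2 (ContinuousLinearMap.adjoint π ν))‖]
    have h4 : |qm π p.2 (π p.1 - x) ν| ≤ 2 * Real.exp L₀ := by
      unfold qm
      have e1 := abs_real_inner_le_norm (π p.1 - x) ν
      have e2 := abs_real_inner_le_norm (π p.1 - x) (Shh π p.2 ν)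
      rw [hν, mul_one] at e1
      have e3 : ‖π p.1 - x‖ * ‖Shh π p.2 ν‖ ≤ Real.exp L₀ * 1 :=
        mul_le_mul h1 h3 (norm_nonneg _) (Real.exp_pos _).le
      calc |⟪π p.1 - x, ν⟫_ℝ - ⟪π p.1 - x, Shh π p.2 ν⟫_ℝ|
          ≤ |⟪π p.1 - x, ν⟫_ℝ| + |⟪π p.1 - x, Shh π p.2 ν⟫_ℝ| := abs_sub _ _
        _ ≤ Real.exp L₀ + Real.exp L₀ * 1 := add_le_add (e1.trans h1) (e2.trans e3)
        _ = 2 * Real.exp L₀ := by ring
    rw [abs_mul]
    exact mul_le_mul h2 h4 (abs_nonneg _) (Real.exp_pos _).le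
  have i0 := h.integrable_c (C := 1) (c := fun _ => 1) aestronglyMeasurable_const ae_one_bound hg hl
  have i1 := h.integrable_c hcq.aestronglyMeasurable bq hg hl
  have i2 := integrable_k' h hci.aestronglyMeasurable bi hg hl
  have i3 := integrable_k' h hcm.aestronglyMeasurable bm hg hl
  have h0 := int4 i0 i1 i2 i3 1 (-1) (2 * Real.exp (-2 * l)) (-2 * Real.exp (-2 * l))
  rw [neg_one_mul, ← sub_eq_add_neg, one_mul] at h0
  rw [← h0]
  unfold FV
  refine integral_congr_ae (Eventually.of_forall fun p => ?_)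
  have h1 := tr_field (n := n) π κ (F := fun _ => (1:ℝ))
    (ξ := fun v : Euc m => (g (Real.exp (-2 * l) * ‖v - x‖ ^ 2) * ⟪ν, v - x⟫_ℝ) • ν) p.1 p.2
    (differentiableAt_const _)
    (((contDiff_sc hg l x ν).smul contDiff_const).differentiable one_ne_zero _)
  have h2 : tr (fderiv ℝ (Xν π x ν g l) p.1 ∘L p.2) = _ := h1
  simp only
  rw [h2, tr_sc hg]
  simp only [fderiv_fun_const, Pi.zero_apply, zero_apply, add_zero, one_mul]
  have e1 : ⟪ν, Shh π p.2 ν⟫_ℝ = 1 - qf π p.2 ν := by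
    unfold qf; rw [hν]; ring
  have e2 : ⟪π p.1 - x, Shh π p.2 ν⟫_ℝ = ⟪ν, π p.1 - x⟫_ℝ - qm π p.2 (π p.1 - x) ν := by
    unfold qm; rw [real_inner_comm ν (π p.1 - x)]; ring
  rw [e1, e2]
  ring

/-- the weight `ψ = -2 s^{-2} g' ⟨ν, v - x⟩²` -/
def ψν (x ν : Euc m) (g1 : ℝ → ℝ) (l : ℝ) (v : Euc m) : ℝ :=
  -2 * Real.exp (-2 * l) * (⟪ν, v - x⟫_ℝ ^ 2 * g1 (Real.exp (-2 * l) * ‖v - x‖ ^ 2))

/-- tilt in the directions of `ν^⊥` -/
def eH (π : Euc k →L[ℝ] Euc m) (P : L k) (ν : Euc m) : ℝ := tl π P - qf π P ν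

/-- the mixed term `⟨(1 - S_hh) w, w - ⟨ν, w⟩ ν⟩` -/
def cc (π : Euc k →L[ℝ] Euc m) (P : L k) (w ν : Euc m) : ℝ := qf π P w - ⟪ν, w⟫_ℝ * qm π P w ν

theorem sd_bounds (h : Fr V π κ x L₀) (hν : ‖ν‖ = 1) :
    (∀ᵐ p ∂V, ‖π p.1 - x‖ ^ 2 < Real.exp (2 * L₀) → |qf π p.2 ν| ≤ 1) ∧
    (∀ᵐ p ∂V, ‖π p.1 - x‖ ^ 2 < Real.exp (2 * L₀) →
      |⟪ν, π p.1 - x⟫_ℝ ^ 2| ≤ Real.exp L₀ ^ 2) ∧
    (∀ᵐ p ∂V, ‖π p.1 - x‖ ^ 2 < Real.exp (2 * L₀) →
      |⟪ν, π p.1 - x⟫_ℝ * qm π p.2 (π p.1 - x) ν| ≤ Real.exp L₀ * (2 * Real.exp L₀)) := by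
  have hle : ∀ p : Euc k × L k, ‖π p.1 - x‖ ^ 2 < Real.exp (2 * L₀) →
      ‖π p.1 - x‖ ≤ Real.exp L₀ := by
    intro p hp
    have : Real.exp (2 * L₀) = Real.exp L₀ ^ 2 := by rw [← Real.exp_nat_mul]; norm_num
    rw [this] at hp
    exact (lt_of_pow_lt_pow_left₀ 2 (Real.exp_pos _).le hp).le
  refine ⟨?_, ?_, ?_⟩
  · filter_upwards [h.conc] with p hp _
    rw [abs_of_nonneg (qf_nonneg h.sp.hh (isPr_of_G hp) _)]
    refine (qf_le (isPr_of_G hp) _).trans ?_
    rw [hν]; norm_num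
  · refine Eventually.of_forall fun p hp => ?_
    rw [abs_of_nonneg (sq_nonneg _), ← sq_abs]
    refine pow_le_pow_left₀ (abs_nonneg _) ?_ 2
    refine (abs_real_inner_le_norm _ _).trans ?_
    rw [hν, one_mul]
    exact hle p hp
  · filter_upwards [h.conc] with p hp hlt
    have h1 := hle p hlt
    have h2 : |⟪ν, π p.1 - x⟫_ℝ| ≤ Real.exp L₀ := by
      refine (abs_real_inner_le_norm _ _).trans ?_
      rw [hν, one_mul]
      exact h1
    have h3 : ‖Shh π p.2 ν‖ ≤ 1 := by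
      have e1 : ‖Shh π p.2 ν‖ = ‖π (p.2 (ContinuousLinearMap.adjoint π ν))‖ := rfl
      have e2 := h.sp.norm_sq (p.2 (ContinuousLinearMap.adjoint π ν))
      have e3 := norm_pr_le (isPr_of_G hp) (ContinuousLinearMap.adjoint π ν)
      rw [norm_adjoint_co h.sp.hh, hν] at e3
      have e4 : ‖p.2 (ContinuousLinearMap.adjoint π ν)‖ ^ 2 ≤ 1 := by
        have := pow_le_pow_left₀ (norm_nonneg _) e3 2
        simpa using this
      rw [e1]
      nlinarith [norm_nonneg (π (p.2 (ContinuousLinearMap.adjoint π ν))),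
        sq_nonneg ‖κ (p.2 (ContinuousLinearMap.adjoint π ν))‖]
    have h4 : |qm π p.2 (π p.1 - x) ν| ≤ 2 * Real.exp L₀ := by
      unfold qm
      have e1 := abs_real_inner_le_norm (π p.1 - x) ν
      have e2 := abs_real_inner_le_norm (π p.1 - x) (Shh π p.2 ν)
      rw [hν, mul_one] at e1
      have e3 : ‖π p.1 - x‖ * ‖Shh π p.2 ν‖ ≤ Real.exp L₀ * 1 :=
        mul_le_mul h1 h3 (norm_nonneg _) (Real.exp_pos _).le
      calc |⟪π p.1 - x, ν⟫_ℝ - ⟪π p.1 - x, Shh π p.2 ν⟫_ℝ|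
          ≤ |⟪π p.1 - x, ν⟫_ℝ| + |⟪π p.1 - x, Shh π p.2 ν⟫_ℝ| := abs_sub _ _
        _ ≤ Real.exp L₀ + Real.exp L₀ * 1 := add_le_add (e1.trans h1) (e2.trans e3)
        _ = 2 * Real.exp L₀ := by ring
    rw [abs_mul]
    exact mul_le_mul h2 h4 (abs_nonneg _) (Real.exp_pos _).le

/-- **the exact identity of (7iii)** -/
theorem identity (h : Fr V π κ x L₀) (hg : Ker g g1) (Q : ℝ) {l : ℝ} (hl : l ≤ L₀)
    (hν : ‖ν‖ = 1) :
    2 * bb V π x g Q l + RR V π x g1 l =
      EE V π x g Q l + Real.exp ((2 - m) * l) * aF V π Q (ψν x ν g1 l)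
        - Real.exp ((2 - m) * l) *
            (∫ p, eH π p.2 ν * g (Real.exp (-2 * l) * ‖π p.1 - x‖ ^ 2) ∂V)
        + Real.exp (-m * l) * (∫ p, cc π p.2 (π p.1 - x) ν *
            (-2 * g1 (Real.exp (-2 * l) * ‖π p.1 - x‖ ^ 2)) ∂V)
        + Real.exp ((2 - m) * l) * FV V (Xν π x ν g l) := by
  have hcv : Continuous fun p : Euc k × L k => π p.1 - x :=
    (π.continuous.comp continuous_fst).sub continuous_const
  have hcq : Continuous fun p : Euc k × L k => qf π p.2 ν := by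
    unfold qf
    exact continuous_const.sub (continuous_const.inner
      (((continuous_Shh π).comp continuous_snd).clm_apply continuous_const))
  have hcm : Continuous fun p : Euc k × L k => ⟪ν, π p.1 - x⟫_ℝ * qm π p.2 (π p.1 - x) ν := by
    unfold qm
    exact (continuous_const.inner hcv).mul ((hcv.inner continuous_const).sub (hcv.inner
      (((continuous_Shh π).comp continuous_snd).clm_apply continuous_const)))
  have hci : Continuous fun p : Euc k × L k => ⟪ν, π p.1 - x⟫_ℝ ^ 2 :=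
    (continuous_const.inner hcv).pow 2
  obtain ⟨bq, bi, bm⟩ := sd_bounds (κ := κ) h hν
  have i0 := h.integrable_c (C := 1) (c := fun _ => 1) aestronglyMeasurable_const ae_one_bound hg hl
  have i1 := h.integrable_c hcq.aestronglyMeasurable bq hg hl
  have i2 := integrable_k' h hci.aestronglyMeasurable bi hg hl
  have i3 := integrable_k' h hcm.aestronglyMeasurable bm hg hl
  have i4 := h.integrable_c (aestronglyMeasurable_tl π V) h.tl_bound hg hl
  have i5' := integrable_k' h (continuous_qf π x).aestronglyMeasurable h.qf_bound hg hl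
  have e1 : ∫ p, eH π p.2 ν * g (Real.exp (-2 * l) * ‖π p.1 - x‖ ^ 2) ∂V =
      (∫ p, tl π p.2 * g (Real.exp (-2 * l) * ‖π p.1 - x‖ ^ 2) ∂V) -
        ∫ p, qf π p.2 ν * g (Real.exp (-2 * l) * ‖π p.1 - x‖ ^ 2) ∂V := by
    rw [← integral_sub i4 i1]
    refine integral_congr_ae (Eventually.of_forall fun p => ?_)
    simp only [eH]
    ring
  have e2 : ∫ p, cc π p.2 (π p.1 - x) ν * (-2 * g1 (Real.exp (-2 * l) * ‖π p.1 - x‖ ^ 2)) ∂V =
      -2 * (∫ p, qf π p.2 (π p.1 - x) * g1 (Real.exp (-2 * l) * ‖π p.1 - x‖ ^ 2) ∂V) +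
        2 * ∫ p, (⟪ν, π p.1 - x⟫_ℝ * qm π p.2 (π p.1 - x) ν) *
            g1 (Real.exp (-2 * l) * ‖π p.1 - x‖ ^ 2) ∂V := by
    rw [← integral_const_mul, ← integral_const_mul,
      ← integral_add (i5'.const_mul (-2)) (i3.const_mul 2)]
    refine integral_congr_ae (Eventually.of_forall fun p => ?_)
    simp only [cc]
    ring
  have e3 : ∫ p, qf π p.2 (π p.1 - x) * (-2 * g1 (Real.exp (-2 * l) * ‖π p.1 - x‖ ^ 2)) ∂V =
      -2 * ∫ p, qf π p.2 (π p.1 - x) * g1 (Real.exp (-2 * l) * ‖π p.1 - x‖ ^ 2) ∂V := by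
    rw [← integral_const_mul]
    refine integral_congr_ae (Eventually.of_forall fun p => ?_)
    simp only
    ring
  have e4 : aF V π Q (ψν x ν g1 l) =
      -2 * Real.exp (-2 * l) * (∫ p, ⟪ν, π p.1 - x⟫_ℝ ^ 2 *
        g1 (Real.exp (-2 * l) * ‖π p.1 - x‖ ^ 2) ∂V) -
      Q * (-2 * Real.exp (-2 * l) * ∫ v : Euc m, ⟪ν, v - x⟫_ℝ ^ 2 *
        g1 (Real.exp (-2 * l) * ‖v - x‖ ^ 2)) := by
    unfold aF ψν
    rw [integral_const_mul, integral_const_mul]
  have h6 : Real.exp (-m * l) = Real.exp ((2 - m) * l) * Real.exp (-2 * l) := by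
    rw [← Real.exp_add]; congr 1; ring
  have h7 := leb_sc hg l x hν
  unfold bb EE ee RR
  rw [FV_Xν h hg hl hν, e1, e2, e3, e4, h6]
  linear_combination (-(Real.exp ((2 - m) * l) * Q)) * h7

end Crest.Agent.R234.Thin_561
end
end

-- ▼ part R234/Thin2_561
section

/-!
# Row 234, node N4 THIN of the core (helper561), part 2: pointwise inequalities

`eH = tl - ⟨(1 - S_hh) ν, ν⟩` is the trace of `1 - S_hh` over `ν^⊥`.
-/

set_option autoImplicit false
set_option linter.unusedSectionVars false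

open MeasureTheory Set Function Filter Topology
open Crest.GeometryTopology.Submanifold
open Crest.Agent.R234.Vf_884 Crest.Agent.R234.Ar_870 Crest.Agent.R234.Cy_870
open Crest.Agent.R234.Rig_300
open scoped ENNReal NNReal InnerProductSpace

noncomputable section

namespace Crest.Agent.R234.Thin_561

variable {m n k : ℕ}

variable {π : Euc k →L[ℝ] Euc m} {κ : Euc k →L[ℝ] Euc n} {x ν : Euc m} {P : L k}

/-- the operator `1 - S_hh` -/
def qo (π : Euc k →L[ℝ] Euc m) (P : L k) : L m := ContinuousLinearMap.id ℝ (Euc m) - Shh π P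

theorem inner_qo (hP : IsPr P) (u v : Euc m) : inner ℝ (qo π P u) v = qm π P u v := by
  unfold qo qm
  rw [sub_apply, ContinuousLinearMap.id_apply, inner_sub_left, Shh_symm hP]

theorem inner_qo_self (hP : IsPr P) (u : Euc m) : inner ℝ (qo π P u) u = qf π P u := by
  rw [inner_qo hP, qm_self]

theorem psd_qo (hπ : IsCo π) (hP : IsPr P) : PSD (qo π P) where
  symm u v := by
    rw [inner_qo hP, real_inner_comm, inner_qo hP]
    unfold qm
    rw [real_inner_comm u v, ← Shh_symm hP, real_inner_comm (Shh π P u) v]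
  nonneg u := by
    rw [inner_qo_self hP]
    exact qf_nonneg hπ hP u

theorem tl_eq_sum {ι : Type*} [Fintype ι] (b : OrthonormalBasis ι ℝ (Euc m)) :
    tl π P = ∑ i, qf π P (b i) := by
  rw [tl_eq, tr_apply, LinearMap.trace_eq_sum_inner _ b]
  unfold qf
  rw [Finset.sum_sub_distrib]
  congr 1
  have h1 : ∀ i, ‖b i‖ ^ 2 = 1 := fun i => by rw [b.norm_eq_one]; norm_num
  simp only [h1]
  rw [Finset.sum_const, Finset.card_univ, ← Module.finrank_eq_card_basis b.toBasis]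
  simp

theorem exists_basis (hν : ‖ν‖ = 1) :
    ∃ (ι : Type) (_ : Fintype ι) (_ : DecidableEq ι) (b : OrthonormalBasis ι ℝ (Euc m)) (i0 : ι),
      b i0 = ν := by
  classical
  obtain ⟨u, b, hub, hb⟩ := Orthonormal.exists_orthonormalBasis_extension (𝕜 := ℝ) (v := {ν}) (by
    rw [orthonormal_subtype_iff_ite]
    intro a ha b hb
    rw [Set.mem_singleton_iff] at ha hb
    subst ha; subst hb
    simp [hν]) (E := Euc m)
  exact ⟨u, inferInstance, inferInstance, b, ⟨ν, hub (Set.mem_singleton ν)⟩, by rw [hb]⟩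

theorem eH_eq_sum {ι : Type*} [Fintype ι] [DecidableEq ι] (b : OrthonormalBasis ι ℝ (Euc m))
    (i0 : ι) : eH π P (b i0) = ∑ i ∈ Finset.univ.erase i0, qf π P (b i) := by
  unfold eH
  rw [tl_eq_sum b, ← Finset.add_sum_erase _ _ (Finset.mem_univ i0)]
  ring

theorem eH_nonneg (hπ : IsCo π) (hP : IsPr P) (hν : ‖ν‖ = 1) : 0 ≤ eH π P ν := by
  obtain ⟨ι, _, _, b, i0, hb⟩ := exists_basis hν
  rw [← hb, eH_eq_sum b i0]
  exact Finset.sum_nonneg fun i _ => qf_nonneg hπ hP _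

theorem eH_le_tl (hπ : IsCo π) (hP : IsPr P) : eH π P ν ≤ tl π P := by
  unfold eH
  linarith [qf_nonneg hπ hP ν]

/-- `⟨(1 - S_hh) w, w⟩ ≤ |w|² e_H` for `w ⊥ ν` -/
theorem qf_le_eH (hπ : IsCo π) (hP : IsPr P) (hν : ‖ν‖ = 1) {w : Euc m} (hw : ⟪ν, w⟫_ℝ = 0) :
    qf π P w ≤ ‖w‖ ^ 2 * eH π P ν := by
  obtain ⟨ι, _, _, b, i0, hb⟩ := exists_basis hν
  have h1 : w = ∑ i ∈ Finset.univ.erase i0, ⟪b i, w⟫_ℝ • b i := by
    have h2 := b.sum_repr' w
    rw [← Finset.add_sum_erase _ _ (Finset.mem_univ i0), hb, hw, zero_smul, zero_add] at h2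
    exact h2.symm
  have h3 := (psd_qo (P := P) hπ hP).sum_le (Finset.univ.erase i0) (fun i => ⟪b i, w⟫_ℝ)
    (fun i => b i)
  rw [← h1, inner_qo_self hP] at h3
  have h4 : ∑ i ∈ Finset.univ.erase i0, ⟪b i, w⟫_ℝ ^ 2 ≤ ‖w‖ ^ 2 := by
    have h5 := b.sum_sq_inner_right w
    rw [← h5]
    exact Finset.sum_le_sum_of_subset_of_nonneg (Finset.erase_subset _ _)
      fun i _ _ => sq_nonneg _
  have h6 : ∑ i ∈ Finset.univ.erase i0, inner ℝ (qo π P (b i)) (b i) = eH π P ν := by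
    rw [← hb, eH_eq_sum b i0]
    exact Finset.sum_congr rfl fun i _ => inner_qo_self hP _
  rw [h6] at h3
  exact h3.trans (mul_le_mul_of_nonneg_right h4 (eH_nonneg hπ hP hν))

theorem cc_eq (hP : IsPr P) (w ν : Euc m) :
    cc π P w ν = inner ℝ (qo π P w) (w - ⟪ν, w⟫_ℝ • ν) := by
  unfold cc
  rw [inner_sub_right, inner_smul_right, inner_qo_self hP, inner_qo hP]

/-- `|c| ≤ |w|² (t tl + e_H / t) / 2` -/
theorem abs_cc_le (h : Split π κ) (hP : P ∈ G m k) (hν : ‖ν‖ = 1) (w : Euc m) {t : ℝ}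
    (ht : 0 < t) : |cc π P w ν| ≤ ‖w‖ ^ 2 * ((t * tl π P + eH π P ν / t) / 2) := by
  have hPr := isPr_of_G hP
  set w' : Euc m := w - ⟪ν, w⟫_ℝ • ν with hw'
  have h0 : ⟪ν, w'⟫_ℝ = 0 := by
    rw [hw', inner_sub_right, inner_smul_right, real_inner_self_eq_norm_sq, hν]
    ring
  have h1 : ‖w'‖ ^ 2 ≤ ‖w‖ ^ 2 := by
    have e1 : w = w' + ⟪ν, w⟫_ℝ • ν := by rw [hw']; abel
    have e2 : ‖w‖ ^ 2 = ‖w'‖ ^ 2 + ‖⟪ν, w⟫_ℝ • ν‖ ^ 2 := by
      conv_lhs => rw [e1]
      rw [norm_add_sq_real, inner_smul_right, real_inner_comm ν w', h0]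
      ring
    rw [e2]
    linarith [sq_nonneg ‖⟪ν, w⟫_ℝ • ν‖]
  have h2 := (psd_qo (P := P) h.hh hPr).cs w w'
  rw [inner_qo_self hPr, inner_qo_self hPr, ← cc_eq hPr] at h2
  have h3 := qf_le_tl h hP w
  have h4 := (qf_le_eH h.hh hPr hν h0).trans
    (mul_le_mul_of_nonneg_right h1 (eH_nonneg h.hh hPr hν))
  have htl := tl_nonneg h.hh hPr
  have heH := eH_nonneg (ν := ν) h.hh hPr hν
  have h5 : (cc π P w ν) ^ 2 ≤ (‖w‖ ^ 2 * ((t * tl π P + eH π P ν / t) / 2)) ^ 2 := by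
    refine h2.trans ?_
    have e1 : qf π P w * qf π P w' ≤ (‖w‖ ^ 2 * tl π P) * (‖w‖ ^ 2 * eH π P ν) :=
      mul_le_mul h3 h4 (qf_nonneg h.hh hPr _) (by positivity)
    refine e1.trans ?_
    have e2 : (t * tl π P) * (eH π P ν / t) = tl π P * eH π P ν := by
      field_simp
    have e3 : tl π P * eH π P ν ≤ ((t * tl π P + eH π P ν / t) / 2) ^ 2 := by
      rw [← e2]
      nlinarith [sq_nonneg (t * tl π P - eH π P ν / t)]
    calc (‖w‖ ^ 2 * tl π P) * (‖w‖ ^ 2 * eH π P ν)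
        = (‖w‖ ^ 2) ^ 2 * (tl π P * eH π P ν) := by ring
      _ ≤ (‖w‖ ^ 2) ^ 2 * ((t * tl π P + eH π P ν / t) / 2) ^ 2 := by gcongr
      _ = _ := by ring
  exact abs_le_of_sq_le_sq' h5 (by positivity) |> abs_le.2

/-- **pointwise simplex bound**: `d + 1 = m`, `v_j` a fat frame of `ν^⊥` -/
theorem eH_le_simplex (hπ : IsCo π) (hP : IsPr P) (hν : ‖ν‖ = 1) {d : ℕ} {v : Fin d → Euc m}
    {s C : ℝ} (hs : 0 < s)
    (hsp : ∀ u : Euc m, ⟪ν, u⟫_ℝ = 0 → ‖u‖ = 1 →
      ∃ c : Fin d → ℝ, u = ∑ j, c j • v j ∧ ∀ j, |c j| * s ≤ C) (z₀ y : Euc m) :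
    eH π P ν ≤ (m : ℝ) * (2 * (d * (C / s) ^ 2)) *
      ∑ j, (qf π P (y - (z₀ + v j)) + qf π P (y - z₀)) := by
  obtain ⟨ι, _, _, b, i0, hb⟩ := exists_basis hν
  have hpsd := psd_qo (P := P) hπ hP
  have hS0 : 0 ≤ ∑ j, (qf π P (y - (z₀ + v j)) + qf π P (y - z₀)) :=
    Finset.sum_nonneg fun j _ => add_nonneg (qf_nonneg hπ hP _) (qf_nonneg hπ hP _)
  have key : ∀ i ∈ Finset.univ.erase i0, qf π P (b i) ≤ (2 * (d * (C / s) ^ 2)) *
      ∑ j, (qf π P (y - (z₀ + v j)) + qf π P (y - z₀)) := by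
    intro i hi
    have hne : i ≠ i0 := Finset.ne_of_mem_erase hi
    have h0 : ⟪ν, b i⟫_ℝ = 0 := by
      rw [← hb]
      exact b.orthonormal.2 hne.symm
    obtain ⟨c, hc, hcb⟩ := hsp (b i) h0 (b.norm_eq_one i)
    have h1 := hpsd.simplex Finset.univ c z₀ (fun j => z₀ + v j) y
    have h2 : ∑ j, c j • ((fun j => z₀ + v j) j - z₀) = b i := by
      rw [hc]
      exact Finset.sum_congr rfl fun j _ => by simp
    rw [h2, inner_qo_self hP] at h1
    have h3 : ∑ j, (inner ℝ (qo π P (y - (fun j => z₀ + v j) j)) (y - (fun j => z₀ + v j) j) +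
        inner ℝ (qo π P (y - z₀)) (y - z₀)) =
        ∑ j, (qf π P (y - (z₀ + v j)) + qf π P (y - z₀)) :=
      Finset.sum_congr rfl fun j _ => by rw [inner_qo_self hP, inner_qo_self hP]
    rw [h3] at h1
    have h4 : ∑ j, c j ^ 2 ≤ d * (C / s) ^ 2 := by
      have h5 : ∀ j ∈ (Finset.univ : Finset (Fin d)), c j ^ 2 ≤ (C / s) ^ 2 := by
        intro j _
        rw [← sq_abs]
        refine pow_le_pow_left₀ (abs_nonneg _) ?_ 2
        rw [le_div_iff₀ hs]
        exact hcb j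
      refine (Finset.sum_le_sum h5).trans ?_
      rw [Finset.sum_const, Finset.card_univ, Fintype.card_fin, nsmul_eq_mul]
    refine h1.trans ?_
    exact mul_le_mul_of_nonneg_right (by linarith) hS0
  rw [← hb, eH_eq_sum b i0]
  refine (Finset.sum_le_sum key).trans ?_
  rw [Finset.sum_const, nsmul_eq_mul, mul_assoc (m : ℝ)]
  refine mul_le_mul_of_nonneg_right ?_ (by positivity)
  have h7 : (Finset.univ.erase i0).card ≤ Fintype.card ι := Finset.card_le_univ _
  have h8 : Fintype.card ι = m := by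
    rw [← Module.finrank_eq_card_basis b.toBasis]; simp
  rw [h8] at h7
  exact_mod_cast h7

/-- a fat frame of `m - 1` vectors has a unit normal and spans its orthogonal complement -/
theorem exists_normal {d : ℕ} (hd : d + 1 = m) {v : Fin d → Euc m} {s C : ℝ} (hs : 0 < s)
    (hfat : ∀ (c : Fin d → ℝ) (j : Fin d), |c j| * s ≤ C * ‖∑ i, c i • v i‖) :
    ∃ ν : Euc m, ‖ν‖ = 1 ∧ ∀ u : Euc m, ⟪ν, u⟫_ℝ = 0 → ‖u‖ = 1 →
      ∃ c : Fin d → ℝ, u = ∑ j, c j • v j ∧ ∀ j, |c j| * s ≤ C := by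
  have hli : LinearIndependent ℝ v := by
    rw [Fintype.linearIndependent_iff]
    intro c hc i
    have := hfat c i
    rw [hc, norm_zero, mul_zero] at this
    by_contra h
    have : 0 < |c i| * s := mul_pos (abs_pos.2 h) hs
    linarith
  set S : Submodule ℝ (Euc m) := Submodule.span ℝ (range v) with hS
  have hfr : Module.finrank ℝ S = d := by
    have := finrank_span_eq_card hli
    simpa using this
  have hfE : Module.finrank ℝ (Euc m) = m := by simp
  have hperp : Module.finrank ℝ Sᗮ = 1 := by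
    have := Submodule.finrank_add_finrank_orthogonal S
    rw [hfr, hfE] at this
    omega
  obtain ⟨ν', hν', hνs⟩ := finrank_eq_one_iff'.1 hperp
  have hν0 : (ν' : Euc m) ≠ 0 := fun h0 => hν' (Subtype.ext h0)
  refine ⟨‖(ν' : Euc m)‖⁻¹ • (ν' : Euc m), ?_, ?_⟩
  · rw [norm_smul, norm_inv, norm_norm, inv_mul_cancel₀ (norm_ne_zero_iff.2 hν0)]
  · intro u hu hun
    have h1 : u ∈ Sᗮᗮ := by
      rw [Submodule.mem_orthogonal]
      intro w hw
      obtain ⟨c, hc⟩ := hνs ⟨w, hw⟩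
      have h2 : w = c • (ν' : Euc m) := (congrArg Subtype.val hc).symm
      rw [h2, real_inner_smul_left]
      rw [real_inner_smul_left] at hu
      have h3 : ⟪(ν' : Euc m), u⟫_ℝ = 0 := by
        rcases mul_eq_zero.1 hu with h | h
        · exact absurd (inv_eq_zero.1 h) (norm_ne_zero_iff.2 hν0)
        · exact h
      rw [h3, mul_zero]
    rw [Submodule.orthogonal_orthogonal] at h1
    obtain ⟨c, hc⟩ := (Submodule.mem_span_range_iff_exists_fun ℝ).1 h1
    refine ⟨c, hc.symm, fun j => ?_⟩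
    have := hfat c j
    rwa [hc, hun, mul_one] at this

end Crest.Agent.R234.Thin_561
end
end

-- ▼ part R234/Thin3_561

/-!
# Row 234, node N4 THIN of the core (helper561), part 3: the inequality

`thin_core` : if the tilt energy in the directions of `ν^⊥` is at most `t² G` in the ball and the anomaly
functional is at most `ω G` in the ball, then `2 b + R ≥ E - K (t² + 2 t + 2 ω) G` up to the first variation
term of the field `χ ⟨ν, x'-x⟩ ν` (`0` for stationary varifolds).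
-/

set_option autoImplicit false
set_option linter.unusedSectionVars false

open MeasureTheory Set Function Filter Topology
open Crest.GeometryTopology.Submanifold
open Crest.Agent.R234.Vf_884 Crest.Agent.R234.Ar_870 Crest.Agent.R234.Cy_870
open Crest.Agent.R234.Rig_300
open scoped ENNReal NNReal InnerProductSpace

noncomputable section

namespace Crest.Agent.R234.Thin_561

variable {m n k : ℕ}

variable {π : Euc k →L[ℝ] Euc m} {κ : Euc k →L[ℝ] Euc n} {x ν : Euc m} {L₀ : ℝ}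
  {V : Measure (Euc k × L k)} {g g1 g2 : ℝ → ℝ}

/-- the part of `V` over the open ball of radius `e^l` about `x` -/
def BB (π : Euc k →L[ℝ] Euc m) (x : Euc m) (l : ℝ) : Set (Euc k × L k) :=
  {p | ‖π p.1 - x‖ ^ 2 < Real.exp (2 * l)}

/-- sharp tilt energy `s^{2-m} ∫_{B_s(x)} tl dV` -/
def eB (V : Measure (Euc k × L k)) (π : Euc k →L[ℝ] Euc m) (x : Euc m) (l : ℝ) : ℝ :=
  Real.exp ((2 - m) * l) * ∫ p in BB π x l, tl π p.2 ∂V

/-- sharp tilt energy in the directions of `ν^⊥` -/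
def eHB (V : Measure (Euc k × L k)) (π : Euc k →L[ℝ] Euc m) (x ν : Euc m) (l : ℝ) : ℝ :=
  Real.exp ((2 - m) * l) * ∫ p in BB π x l, eH π p.2 ν ∂V

/-- the anomaly functional is at most `B` in the ball of radius `e^l` about `x` -/
def BSm (V : Measure (Euc k × L k)) (π : Euc k →L[ℝ] Euc m) (Q : ℝ) (x : Euc m) (l B : ℝ) : Prop :=
  ∀ ψ : Euc m → ℝ, Continuous ψ → (∀ v, 0 ≤ ψ v) → (∀ v, ψ v ≤ 1) →
    (∀ v, Real.exp l ≤ ‖v - x‖ → ψ v = 0) → |Real.exp ((2 - m) * l) * bF V π Q ψ| ≤ B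

theorem isOpen_BB (π : Euc k →L[ℝ] Euc m) (x : Euc m) (l : ℝ) : IsOpen (BB π x l) :=
  isOpen_lt (((π.continuous.comp continuous_fst).sub continuous_const).norm.pow 2)
    continuous_const

theorem mem_BB {p : Euc k × L k} {l : ℝ} : p ∈ BB π x l ↔ ‖π p.1 - x‖ ^ 2 < Real.exp (2 * l) :=
  Iff.rfl

theorem BB_lt_top (h : Fr V π κ x L₀) {l : ℝ} (hl : l ≤ L₀) : V (BB π x l) < ⊤ := by
  refine (measure_mono ?_).trans_lt h.fin
  intro p hp
  exact lt_of_lt_of_le (mem_BB.1 hp) (Real.exp_le_exp.2 (by linarith))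

theorem scaled_lt {p : Euc k × L k} {l : ℝ} :
    Real.exp (-2 * l) * ‖π p.1 - x‖ ^ 2 < 1 ↔ p ∈ BB π x l := by
  rw [mem_BB]
  have h1 : Real.exp (2 * l) * Real.exp (-2 * l) = 1 := by
    rw [← Real.exp_add]; norm_num
  have h2 := Real.exp_pos (2 * l)
  have h3 := Real.exp_pos (-2 * l)
  constructor
  · intro h
    calc ‖π p.1 - x‖ ^ 2 = Real.exp (2 * l) * (Real.exp (-2 * l) * ‖π p.1 - x‖ ^ 2) := by
          rw [← mul_assoc, h1, one_mul]
      _ < Real.exp (2 * l) * 1 := mul_lt_mul_of_pos_left h h2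
      _ = _ := mul_one _
  · intro h
    calc Real.exp (-2 * l) * ‖π p.1 - x‖ ^ 2 < Real.exp (-2 * l) * Real.exp (2 * l) :=
          mul_lt_mul_of_pos_left h h3
      _ = 1 := by rw [mul_comm, h1]

/-- an integral with a kernel supported in the ball -/
theorem ker_le (h : Fr V π κ x L₀) {l : ℝ} (hl : l ≤ L₀) {c F : Euc k × L k → ℝ}
    (hF : AEStronglyMeasurable F V) {CF : ℝ} (hFb : ∀ᵐ p ∂V, p ∈ BB π x l → |F p| ≤ CF)
    {f : ℝ → ℝ} (hf0 : ∀ t, 1 ≤ t → f t = 0) {K : ℝ} (hK : ∀ t, 0 ≤ t → |f t| ≤ K)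
    (hc : ∀ᵐ p ∂V, p ∈ BB π x l → |c p| ≤ F p) :
    |∫ p, c p * f (Real.exp (-2 * l) * ‖π p.1 - x‖ ^ 2) ∂V| ≤ K * ∫ p in BB π x l, F p ∂V := by
  have hK0 : 0 ≤ K := (abs_nonneg _).trans (hK 0 le_rfl)
  have hBm : MeasurableSet (BB (k := k) π x l) := (isOpen_BB π x l).measurableSet
  have hFi : IntegrableOn F (BB π x l) V := by
    have : IsFiniteMeasure (V.restrict (BB π x l)) :=
      ⟨by rw [Measure.restrict_apply_univ]; exact BB_lt_top h hl⟩
    refine Integrable.mono' (integrable_const CF) hF.restrict ?_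
    rw [ae_restrict_iff' hBm]
    exact hFb
  rw [← integral_const_mul, ← integral_indicator hBm]
  refine (abs_integral_le_integral_abs).trans ?_
  refine integral_mono_of_nonneg (Eventually.of_forall fun p => abs_nonneg _) ?_ ?_
  · rw [integrable_indicator_iff hBm]
    exact hFi.const_mul K
  · filter_upwards [hc] with p hp
    by_cases hpB : p ∈ BB π x l
    · rw [indicator_of_mem hpB, abs_mul, mul_comm]
      exact mul_le_mul (hK _ (by positivity)) (hp hpB) (abs_nonneg _) hK0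
    · rw [indicator_of_notMem hpB]
      have h1 : ¬ (Real.exp (-2 * l) * ‖π p.1 - x‖ ^ 2 < 1) := fun h => hpB (scaled_lt.1 h)
      rw [hf0 _ (not_lt.1 h1), mul_zero, abs_zero]

theorem continuous_qf_const (π : Euc k →L[ℝ] Euc m) (ν : Euc m) :
    Continuous fun p : Euc k × L k => qf π p.2 ν := by
  unfold qf
  exact continuous_const.sub (continuous_const.inner
    (((continuous_Shh π).comp continuous_snd).clm_apply continuous_const))

theorem continuous_eH (π : Euc k →L[ℝ] Euc m) (ν : Euc m) :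
    Continuous fun p : Euc k × L k => eH π p.2 ν := by
  unfold eH
  exact ((measurable_tl π).comp continuous_snd).sub (continuous_qf_const π ν)

theorem eH_bd (h : Fr V π κ x L₀) (hν : ‖ν‖ = 1) : ∀ᵐ p ∂V, |eH π p.2 ν| ≤ m := by
  filter_upwards [h.conc] with p hp
  rw [abs_of_nonneg (eH_nonneg h.sp.hh (isPr_of_G hp) hν)]
  exact (eH_le_tl h.sp.hh (isPr_of_G hp)).trans (tl_le h.sp.hh (isPr_of_G hp))

/-- **N4, core inequality** -/
theorem thin_core (h : Fr V π κ x L₀) (hg : Prof g g1 g2) (Q : ℝ) {l : ℝ} (hl : l ≤ L₀)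
    (hν : ‖ν‖ = 1) {K : ℝ} (hK : ∀ t, 0 ≤ t → |g t| ≤ K) (hK1 : ∀ t, 0 ≤ t → |g1 t| ≤ K)
    {t G ω : ℝ} (ht : 0 < t) (hG : eB V π x l ≤ G) (hH : eHB V π x ν l ≤ t ^ 2 * G)
    (hb : BSm V π Q x l (ω * G)) :
    EE V π x g Q l - K * (t ^ 2 + 2 * t + 2 * ω) * G +
        Real.exp ((2 - m) * l) * FV V (Xν π x ν g l) ≤
      2 * bb V π x g Q l + RR V π x g1 l := by
  have hK0 : 0 ≤ K := (abs_nonneg _).trans (hK 0 le_rfl)
  have hE0 : 0 < Real.exp ((2 - m) * l) := Real.exp_pos _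
  have hBm : MeasurableSet (BB (k := k) π x l) := (isOpen_BB π x l).measurableSet
  have hfin : IsFiniteMeasure (V.restrict (BB π x l)) :=
    ⟨by rw [Measure.restrict_apply_univ]; exact BB_lt_top h hl⟩
  have htlb : ∀ᵐ p ∂V, |tl π p.2| ≤ m := by
    filter_upwards [h.conc] with p hp
    rw [abs_of_nonneg (tl_nonneg h.sp.hh (isPr_of_G hp))]
    exact tl_le h.sp.hh (isPr_of_G hp)
  have hti : IntegrableOn (fun p : Euc k × L k => tl π p.2) (BB π x l) V :=
    Integrable.mono' (integrable_const (m:ℝ)) (aestronglyMeasurable_tl π V).restrict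
      (ae_restrict_of_ae htlb)
  have hei : IntegrableOn (fun p : Euc k × L k => eH π p.2 ν) (BB π x l) V :=
    Integrable.mono' (integrable_const (m:ℝ)) (continuous_eH π ν).aestronglyMeasurable.restrict
      (ae_restrict_of_ae (eH_bd h hν))
  -- term A
  have hA : |∫ p, eH π p.2 ν * g (Real.exp (-2 * l) * ‖π p.1 - x‖ ^ 2) ∂V| ≤
      K * ∫ p in BB π x l, eH π p.2 ν ∂V := by
    refine ker_le h hl (F := fun p => eH π p.2 ν) (continuous_eH π ν).aestronglyMeasurable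
      (CF := m) ?_ hg.k0.zero hK ?_
    · filter_upwards [eH_bd (x := x) h hν] with p hp _ using hp
    · filter_upwards [h.conc] with p hp _
      rw [abs_of_nonneg (eH_nonneg h.sp.hh (isPr_of_G hp) hν)]
  -- term B
  have hB : |∫ p, cc π p.2 (π p.1 - x) ν *
      (-2 * g1 (Real.exp (-2 * l) * ‖π p.1 - x‖ ^ 2)) ∂V| ≤
      (2 * K) * ∫ p in BB π x l,
        Real.exp (2 * l) * ((t * tl π p.2 + eH π p.2 ν / t) / 2) ∂V := by
    refine ker_le h hl (c := fun p => cc π p.2 (π p.1 - x) ν)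
      (F := fun p => Real.exp (2 * l) * ((t * tl π p.2 + eH π p.2 ν / t) / 2))
      (f := fun t => -2 * g1 t) ?_ (CF := Real.exp (2 * l) * ((t * m + m / t) / 2)) ?_ ?_ ?_ ?_
    · exact (continuous_const.mul (((continuous_const.mul
        ((measurable_tl π).comp continuous_snd)).add
          ((continuous_eH π ν).div_const t)).div_const 2)).aestronglyMeasurable
    · filter_upwards [h.conc] with p hp _
      have e1 := tl_nonneg h.sp.hh (isPr_of_G hp)
      have e2 := tl_le h.sp.hh (isPr_of_G hp)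
      have e3 := eH_nonneg h.sp.hh (isPr_of_G hp) hν
      have e4 := (eH_le_tl (ν := ν) h.sp.hh (isPr_of_G hp)).trans e2
      rw [abs_of_nonneg (by positivity)]
      gcongr
    · intro t ht
      rw [hg.k0.zero' t ht, mul_zero]
    · intro t ht
      rw [abs_mul]
      have : |(-2:ℝ)| = 2 := by norm_num
      rw [this]
      exact mul_le_mul_of_nonneg_left (hK1 t ht) two_pos.le
    · filter_upwards [h.conc] with p hp hpB
      have e0 := abs_cc_le h.sp hp hν (π p.1 - x) ht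
      have e1 := tl_nonneg h.sp.hh (isPr_of_G hp)
      have e3 := eH_nonneg h.sp.hh (isPr_of_G hp) hν
      exact e0.trans (mul_le_mul_of_nonneg_right (mem_BB.1 hpB).le (by positivity))
  have hB2 : ∫ p in BB π x l, Real.exp (2 * l) * ((t * tl π p.2 + eH π p.2 ν / t) / 2) ∂V =
      Real.exp (2 * l) * ((t * ∫ p in BB π x l, tl π p.2 ∂V) / 2 +
        (∫ p in BB π x l, eH π p.2 ν ∂V) / t / 2) := by
    rw [integral_const_mul]
    congr 1
    have e1 : ∀ p : Euc k × L k, (t * tl π p.2 + eH π p.2 ν / t) / 2 =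
        (t / 2) * tl π p.2 + (1 / t / 2) * eH π p.2 ν := fun p => by ring
    simp only [e1]
    rw [integral_add (hti.const_mul _) (hei.const_mul _), integral_const_mul, integral_const_mul]
    ring
  -- the weight ψ
  have hψc : Continuous (ψν x ν g1 l) := by
    unfold ψν
    exact continuous_const.mul (((continuous_const.inner (continuous_id.sub
      continuous_const)).pow 2).mul (hg.k0.cont.comp
        (continuous_const.mul ((continuous_id.sub continuous_const).norm.pow 2))))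
  have hψ0 : ∀ v, 0 ≤ ψν x ν g1 l v := by
    intro v
    unfold ψν
    have h1 := hg.anti (Real.exp (-2 * l) * ‖v - x‖ ^ 2) (by positivity)
    have h2 : 0 ≤ ⟪ν, v - x⟫_ℝ ^ 2 * -g1 (Real.exp (-2 * l) * ‖v - x‖ ^ 2) :=
      mul_nonneg (sq_nonneg _) (by linarith)
    have h3 := mul_nonneg (mul_nonneg (zero_le_two (α := ℝ)) (Real.exp_pos (-2 * l)).le) h2
    nlinarith [h3]
  have hψz : ∀ v, Real.exp l ≤ ‖v - x‖ → ψν x ν g1 l v = 0 := by
    intro v hv
    unfold ψν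
    rw [hg.k0.zero' _ (Ker.one_le_of x hv), mul_zero, mul_zero]
  have hψK : ∀ v, ψν x ν g1 l v ≤ 2 * K := by
    intro v
    rcases le_or_gt (Real.exp l) ‖v - x‖ with h1 | h1
    · rw [hψz v h1]; positivity
    · have h2 : Real.exp (-2 * l) * ‖v - x‖ ^ 2 ≤ 1 := by
        have e1 : ‖v - x‖ ^ 2 ≤ Real.exp l ^ 2 := pow_le_pow_left₀ (norm_nonneg _) h1.le 2
        have e2 : Real.exp (-2 * l) * Real.exp l ^ 2 = 1 := by
          rw [← Real.exp_nat_mul, ← Real.exp_add]; norm_num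
        calc Real.exp (-2 * l) * ‖v - x‖ ^ 2 ≤ Real.exp (-2 * l) * Real.exp l ^ 2 := by gcongr
          _ = 1 := e2
      have h3 : ⟪ν, v - x⟫_ℝ ^ 2 ≤ ‖v - x‖ ^ 2 := by
        rw [← sq_abs]
        refine pow_le_pow_left₀ (abs_nonneg _) ?_ 2
        refine (abs_real_inner_le_norm _ _).trans ?_
        rw [hν, one_mul]
      have h4 := hK1 (Real.exp (-2 * l) * ‖v - x‖ ^ 2) (by positivity)
      have h5 := neg_abs_le (g1 (Real.exp (-2 * l) * ‖v - x‖ ^ 2))
      have h6 : Real.exp (-2 * l) * ⟪ν, v - x⟫_ℝ ^ 2 ≤ 1 :=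
        (mul_le_mul_of_nonneg_left h3 (Real.exp_pos _).le).trans h2
      have h7 : 0 ≤ Real.exp (-2 * l) * ⟪ν, v - x⟫_ℝ ^ 2 := by positivity
      unfold ψν
      have h8 : -2 * Real.exp (-2 * l) * (⟪ν, v - x⟫_ℝ ^ 2 *
          g1 (Real.exp (-2 * l) * ‖v - x‖ ^ 2)) =
          2 * ((Real.exp (-2 * l) * ⟪ν, v - x⟫_ℝ ^ 2) *
            -g1 (Real.exp (-2 * l) * ‖v - x‖ ^ 2)) := by ring
      rw [h8]
      have h9 : (Real.exp (-2 * l) * ⟪ν, v - x⟫_ℝ ^ 2) *
            -g1 (Real.exp (-2 * l) * ‖v - x‖ ^ 2) ≤ 1 * K := by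
        refine mul_le_mul h6 (by linarith) ?_ zero_le_one
        linarith [hg.anti (Real.exp (-2 * l) * ‖v - x‖ ^ 2) (by positivity)]
      linarith
  -- lower bound of a(ψ)
  have ha : -(2 * K * (ω * G)) ≤ Real.exp ((2 - m) * l) * aF V π Q (ψν x ν g1 l) := by
    have htl0 : 0 ≤ ∫ p, tl π p.2 * ψν x ν g1 l (π p.1) ∂V := by
      refine integral_nonneg_of_ae ?_
      filter_upwards [h.conc] with p hp
      exact mul_nonneg (tl_nonneg h.sp.hh (isPr_of_G hp)) (hψ0 _)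
    have h1 : Real.exp ((2 - m) * l) * bF V π Q (ψν x ν g1 l) ≤
        Real.exp ((2 - m) * l) * aF V π Q (ψν x ν g1 l) := by
      refine mul_le_mul_of_nonneg_left ?_ hE0.le
      unfold bF
      linarith
    refine le_trans ?_ h1
    rcases eq_or_lt_of_le hK0 with hKz | hKp
    · have h2 : ψν x ν g1 l = fun _ => 0 := by
        funext v
        have := hψK v
        rw [← hKz, mul_zero] at this
        exact le_antisymm this (hψ0 v)
      have h3 : bF V π Q (ψν x ν g1 l) = 0 := by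
        rw [h2]; unfold bF aF; simp
      rw [h3, ← hKz]; simp
    · have h2 := hb (fun v => (2 * K)⁻¹ * ψν x ν g1 l v) (continuous_const.mul hψc)
        (fun v => mul_nonneg (by positivity) (hψ0 v))
        (fun v => by
          rw [inv_mul_le_iff₀ (by positivity), mul_one]
          exact hψK v)
        (fun v hv => by rw [hψz v hv, mul_zero])
      have h3 : bF V π Q (fun v => (2 * K)⁻¹ * ψν x ν g1 l v) =
          (2 * K)⁻¹ * bF V π Q (ψν x ν g1 l) := by
        unfold bF aF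
        rw [integral_const_mul, integral_const_mul]
        have e1 : ∫ p, tl π p.2 * ((2 * K)⁻¹ * ψν x ν g1 l (π p.1)) ∂V =
            (2 * K)⁻¹ * ∫ p, tl π p.2 * ψν x ν g1 l (π p.1) ∂V := by
          rw [← integral_const_mul]
          refine integral_congr_ae (Eventually.of_forall fun p => ?_)
          simp only
          ring
        rw [e1]
        ring
      rw [h3] at h2
      have h4 := (abs_le.1 h2).1
      have h5 : Real.exp ((2 - m) * l) * bF V π Q (ψν x ν g1 l) =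
          2 * K * (Real.exp ((2 - m) * l) * ((2 * K)⁻¹ * bF V π Q (ψν x ν g1 l))) := by
        field_simp
      rw [h5]
      nlinarith [h4, hKp]
  -- assembly
  have hid := identity (g1 := g1) h hg.k0 Q hl hν
  have hA' : Real.exp ((2 - m) * l) *
      (∫ p, eH π p.2 ν * g (Real.exp (-2 * l) * ‖π p.1 - x‖ ^ 2) ∂V) ≤ K * (t ^ 2 * G) := by
    have h1 := (le_abs_self _).trans hA
    calc Real.exp ((2 - m) * l) *
        (∫ p, eH π p.2 ν * g (Real.exp (-2 * l) * ‖π p.1 - x‖ ^ 2) ∂V)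
        ≤ Real.exp ((2 - m) * l) * (K * ∫ p in BB π x l, eH π p.2 ν ∂V) := by gcongr
      _ = K * eHB V π x ν l := by unfold eHB; ring
      _ ≤ K * (t ^ 2 * G) := by gcongr
  have hB' : -(K * (2 * t) * G) ≤ Real.exp (-m * l) * (∫ p, cc π p.2 (π p.1 - x) ν *
      (-2 * g1 (Real.exp (-2 * l) * ‖π p.1 - x‖ ^ 2)) ∂V) := by
    have h1 := (abs_le.1 hB).1
    rw [hB2] at h1
    have h6 : Real.exp (-m * l) * Real.exp (2 * l) = Real.exp ((2 - m) * l) := by
      rw [← Real.exp_add]; congr 1; ring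
    have h2 : Real.exp (-m * l) * ((2 * K) * (Real.exp (2 * l) *
        ((t * ∫ p in BB π x l, tl π p.2 ∂V) / 2 + (∫ p in BB π x l, eH π p.2 ν ∂V) / t / 2))) ≤
        K * (2 * t) * G := by
      have e1 : Real.exp (-m * l) * ((2 * K) * (Real.exp (2 * l) *
        ((t * ∫ p in BB π x l, tl π p.2 ∂V) / 2 + (∫ p in BB π x l, eH π p.2 ν ∂V) / t / 2))) =
          K * (t * eB V π x l + eHB V π x ν l / t) := by
        unfold eB eHB
        rw [← h6]
        ring
      rw [e1]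
      have e2 : eHB V π x ν l / t ≤ t * G := by
        rw [div_le_iff₀ ht]
        calc eHB V π x ν l ≤ t ^ 2 * G := hH
          _ = t * G * t := by ring
      have e3 : t * eB V π x l ≤ t * G := mul_le_mul_of_nonneg_left hG ht.le
      calc K * (t * eB V π x l + eHB V π x ν l / t) ≤ K * (t * G + t * G) := by gcongr
        _ = K * (2 * t) * G := by ring
    have h3 : Real.exp (-m * l) * (-((2 * K) * (Real.exp (2 * l) *
        ((t * ∫ p in BB π x l, tl π p.2 ∂V) / 2 + (∫ p in BB π x l, eH π p.2 ν ∂V) / t / 2)))) ≤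
        Real.exp (-m * l) * (∫ p, cc π p.2 (π p.1 - x) ν *
      (-2 * g1 (Real.exp (-2 * l) * ‖π p.1 - x‖ ^ 2)) ∂V) :=
      mul_le_mul_of_nonneg_left h1 (Real.exp_pos _).le
    linarith
  rw [hid]
  linarith

/-- second half of N4: `b_x(l) ≤ K ω G` -/
theorem bb_le (hg : Prof g g1 g2) (Q : ℝ) {l : ℝ}
    {K : ℝ} (hK : ∀ t, 0 ≤ t → |g t| ≤ K) {B : ℝ}
    (hb : BSm V π Q x l B) : |bb V π x g Q l| ≤ K * B := by
  have hK0 : 0 ≤ K := (abs_nonneg _).trans (hK 0 le_rfl)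
  set φ : Euc m → ℝ := fun v => g (Real.exp (-2 * l) * ‖v - x‖ ^ 2) with hφ
  have hnn : ∀ t, 0 ≤ t → 0 ≤ g t := by
    intro t ht
    by_contra hneg
    have hanti : AntitoneOn g (Ici 0) := by
      refine antitoneOn_of_deriv_nonpos (convex_Ici 0) hg.k0.continuous.continuousOn
        (fun t _ => (hg.k0.der t).differentiableAt.differentiableWithinAt) ?_
      intro t ht
      rw [interior_Ici] at ht
      rw [(hg.k0.der t).deriv]
      exact hg.anti t (le_of_lt ht)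
    have h1 := hanti (mem_Ici.2 ht) (mem_Ici.2 (ht.trans (le_max_left t 1))) (le_max_left t 1)
    rw [hg.k0.zero _ (le_max_right t 1)] at h1
    exact hneg h1
  have hcφ : Continuous φ :=
    hg.k0.continuous.comp (continuous_const.mul ((continuous_id.sub continuous_const).norm.pow 2))
  have hbb : bb V π x g Q l = Real.exp ((2 - m) * l) * bF V π Q φ := by
    unfold bb EE ee bF aF
    simp only [one_mul, hφ]
    ring
  rw [hbb]
  rcases eq_or_lt_of_le hK0 with hKz | hKp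
  · have h2 : φ = fun _ => 0 := by
      funext v
      have := hK (Real.exp (-2 * l) * ‖v - x‖ ^ 2) (by positivity)
      rw [← hKz] at this
      exact abs_eq_zero.1 (le_antisymm this (abs_nonneg _))
    have h3 : bF V π Q φ = 0 := by
      rw [h2]; unfold bF aF; simp
    rw [h3, ← hKz]; simp
  · have h2 := hb (fun v => K⁻¹ * φ v) (continuous_const.mul hcφ)
      (fun v => mul_nonneg (by positivity) (hnn _ (by positivity)))
      (fun v => by
        rw [inv_mul_le_iff₀ hKp, mul_one]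
        exact (le_abs_self _).trans (hK _ (by positivity)))
      (fun v hv => by
        simp only [hφ]
        rw [hg.k0.zero _ (Ker.one_le_of x hv), mul_zero])
    have h3 : bF V π Q (fun v => K⁻¹ * φ v) = K⁻¹ * bF V π Q φ := by
      unfold bF aF
      rw [integral_const_mul, integral_const_mul]
      have e1 : ∫ p, tl π p.2 * (K⁻¹ * φ (π p.1)) ∂V = K⁻¹ * ∫ p, tl π p.2 * φ (π p.1) ∂V := by
        rw [← integral_const_mul]
        refine integral_congr_ae (Eventually.of_forall fun p => ?_)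
        simp only
        ring
      rw [e1]
      ring
    rw [h3] at h2
    have h4 : Real.exp ((2 - m) * l) * (K⁻¹ * bF V π Q φ) =
        K⁻¹ * (Real.exp ((2 - m) * l) * bF V π Q φ) := by ring
    rw [h4, abs_mul, abs_of_pos (inv_pos.2 hKp), inv_mul_le_iff₀ hKp] at h2
    exact h2

end Crest.Agent.R234.Thin_561
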