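import Crest.Agent.R234.N5a_372
import Crest.Agent.R234.Rig1_300
import Crest.Agent.R234.AS_456
import Crest.Agent.R234.Sc13_173
import Crest.Agent.R234.Thin3_561

-- ▼ part R234/N5b_372
section

/-!
Row 234, node N5 (LOCAL) of the core (helper372), part 2: area formula on the base, the measures
`al = a + holes ≥ 0` and `hM` (holes), the lower bound `e ≤ 2 al + qM`, the bound of the anomaly.
-/

set_option autoImplicit false

open MeasureTheory Metric Set Filter Topology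
open Crest.GeometryTopology.Submanifold
open Crest.Agent.R234.Vf_884 Crest.Agent.R234.Ar_870 Crest.Agent.R234.Cy_870
open scoped ENNReal NNReal InnerProductSpace

noncomputable section

namespace Crest.Agent.R234.N5_372

variable {m n k : ℕ} {π : Euc k →L[ℝ] Euc m} {κ : Euc k →L[ℝ] Euc n} {W : Measure (Euc k × L k)}
  {x x₀ : Euc m} {R h₀ : ℝ} {NN : Euc m → ℝ≥0∞} {Q : ℝ≥0∞} {B : Set (Euc m)}

/-- `π_# (Jh W) = NN dx` on `B`. -/
structure AreaAt (W : Measure (Euc k × L k)) (π : Euc k →L[ℝ] Euc m) (NN : Euc m → ℝ≥0∞)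
    (B : Set (Euc m)) : Prop where
  meas : Measurable NN
  mB : MeasurableSet B
  area : (bm W π (Jh π)).restrict B = (volume.withDensity NN).restrict B

theorem AreaAt.mono (h : AreaAt W π NN B) {A : Set (Euc m)} (hA : MeasurableSet A) (hAB : A ⊆ B) :
    AreaAt W π NN A where
  meas := h.meas
  mB := hA
  area := by
    have h1 := congrArg (fun μ : Measure (Euc m) => μ.restrict A) h.area
    simp only [Measure.restrict_restrict hA, inter_eq_self_of_subset_left hAB] at h1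
    exact h1

/-- the mass on the base. -/
def mM (W : Measure (Euc k × L k)) (π : Euc k →L[ℝ] Euc m) : Measure (Euc m) :=
  W.map fun p => π p.1

/-- excess plus holes: a positive measure. -/
def al (W : Measure (Euc k × L k)) (π : Euc k →L[ℝ] Euc m) (NN : Euc m → ℝ≥0∞) (Q : ℝ≥0∞) :
    Measure (Euc m) :=
  bm W π (fun P => 1 - Jh π P) + volume.withDensity fun x => NN x - Q

/-- holes. -/
def hM (NN : Euc m → ℝ≥0∞) (Q : ℝ≥0∞) : Measure (Euc m) := volume.withDensity fun x => Q - NN x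

theorem measurable_of_cont {c : L k → ℝ} (hc : Continuous c) :
    Measurable fun p : Euc k × L k => c p.2 := hc.measurable.comp measurable_snd

theorem bm_integral {c : L k → ℝ} (hc : Continuous c) (h0 : ∀ᵐ p ∂W, 0 ≤ c p.2)
    {φ : Euc m → ℝ} (hφ : Measurable φ) :
    ∫ z, φ z ∂(bm W π c) = ∫ p, c p.2 * φ (π p.1) ∂W := by
  unfold bm
  rw [integral_map (measurable_base π).aemeasurable hφ.aestronglyMeasurable,
    integral_withDensity_eq_integral_toReal_smul (measurable_of_cont hc).ennreal_ofReal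
      (Eventually.of_forall fun _ => ENNReal.ofReal_lt_top)]
  refine integral_congr_ae ?_
  filter_upwards [h0] with p hp
  simp only [smul_eq_mul, ENNReal.toReal_ofReal hp]

theorem bm_mono {c c' : L k → ℝ} (h : ∀ᵐ p ∂W, c p.2 ≤ c' p.2) (A : Set (Euc m)) :
    bm W π c A ≤ bm W π c' A := by
  unfold bm
  refine Measure.map_mono ?_ (measurable_base π) A
  refine withDensity_mono ?_
  filter_upwards [h] with p hp
  exact ENNReal.ofReal_le_ofReal hp

theorem mM_apply {A : Set (Euc m)} (hA : MeasurableSet A) : mM W π A = W (ov π A) := by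
  unfold mM
  rw [Measure.map_apply (measurable_base π) hA]
  rfl

theorem Jh_bounds (h : CF W π κ x₀ R) :
    ∀ᵐ p ∂W, 0 ≤ Jh π p.2 ∧ Jh π p.2 ≤ 1 ∧ 0 ≤ tl π p.2 ∧ tl π p.2 ≤ m ∧
      1 - Jh π p.2 ≤ tl π p.2 ∧ |1 - Jh π p.2 - tl π p.2 / 2| ≤ tl π p.2 ^ 2 / 2 := by
  filter_upwards [h.conc] with p hp
  have hPr := isPr_of_G hp
  exact ⟨Jh_nonneg _ _, Jh_le_one h.sp.hh hPr, tl_nonneg h.sp.hh hPr, tl_le h.sp.hh hPr,
    one_sub_Jh_le h.sp.hh hPr, abs_anom_le h.sp.hh hPr⟩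

theorem continuous_tl (π : Euc k →L[ℝ] Euc m) : Continuous (tl π : L k → ℝ) := measurable_tl π

theorem bm_le_mM {c : L k → ℝ} {C : ℝ} (h : ∀ᵐ p ∂W, c p.2 ≤ C) {A : Set (Euc m)}
    (hA : MeasurableSet A) : bm W π c A ≤ ENNReal.ofReal C * mM W π A := by
  rw [bm_apply _ _ _ hA, mM_apply hA, ← setLIntegral_const]
  refine setLIntegral_mono_ae' (measurableSet_ov hA) ?_
  filter_upwards [h] with p hp _
  exact ENNReal.ofReal_le_ofReal hp

theorem mM_eq (h : CF W π κ x₀ R) {A : Set (Euc m)} (hA : MeasurableSet A) :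
    mM W π A = bm W π (fun P => 1 - Jh π P) A + bm W π (Jh π) A := by
  have hm1 : Measurable fun p : Euc k × L k => ENNReal.ofReal (1 - Jh π p.2) :=
    (measurable_of_cont (c := fun P => 1 - Jh π P)
      (continuous_const.sub (continuous_Jh π))).ennreal_ofReal
  rw [bm_apply _ _ _ hA, bm_apply _ _ _ hA, mM_apply hA, ← lintegral_add_left hm1]
  have h1 : ∀ᵐ p ∂(W.restrict (ov π A)),
      ENNReal.ofReal (1 - Jh π p.2) + ENNReal.ofReal (Jh π p.2) = 1 := by
    filter_upwards [ae_restrict_of_ae (Jh_bounds h)] with p hp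
    rw [← ENNReal.ofReal_add (by linarith [hp.2.1]) hp.1]
    simp
  rw [lintegral_congr_ae h1, lintegral_one, Measure.restrict_apply_univ]

theorem al_add (h : CF W π κ x₀ R) (ha : AreaAt W π NN B) {A : Set (Euc m)}
    (hA : MeasurableSet A) (hAB : A ⊆ B) :
    al W π NN Q A + Q * volume A = mM W π A + hM NN Q A := by
  have h1 : bm W π (Jh π) A = ∫⁻ x in A, NN x := by
    have h2 := congrArg (fun μ : Measure (Euc m) => μ A) ha.area
    simp only [Measure.restrict_apply hA, inter_eq_self_of_subset_left hAB,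
      withDensity_apply _ hA] at h2
    exact h2
  unfold al hM
  have hm1 : Measurable fun x => NN x - Q := ha.meas.sub measurable_const
  rw [Measure.add_apply, withDensity_apply _ hA, withDensity_apply _ hA, mM_eq h hA, h1, add_assoc,
    add_assoc, ← setLIntegral_const, ← lintegral_add_left hm1, ← lintegral_add_left ha.meas]
  congr 2
  funext x
  rw [tsub_add_eq_max, add_comm, tsub_add_eq_max, max_comm]

/-- `al` is at most the tilt energy plus the folds. -/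
theorem al_le (h : CF W π κ x₀ R) {A : Set (Euc m)} (hA : MeasurableSet A) :
    al W π NN Q A ≤ eM W π A + ∫⁻ x in A, (NN x - Q) := by
  unfold al eM
  rw [Measure.add_apply, withDensity_apply _ hA]
  refine add_le_add ?_ le_rfl
  refine bm_mono ?_ A
  filter_upwards [Jh_bounds h] with p hp
  exact hp.2.2.2.2.1

/-- LOW: `e ≤ 2 al + qM`. -/
theorem eM_le (h : CF W π κ x₀ R) {A : Set (Euc m)} (hA : MeasurableSet A) :
    eM W π A ≤ 2 * al W π NN Q A + qM W π A := by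
  have h1 : eM W π A ≤ 2 * bm W π (fun P => 1 - Jh π P) A + qM W π A := by
    unfold eM qM
    have hm1 : Measurable fun p : Euc k × L k => 2 * ENNReal.ofReal (1 - Jh π p.2) :=
      ((measurable_of_cont (c := fun P => 1 - Jh π P)
        (continuous_const.sub (continuous_Jh π))).ennreal_ofReal).const_mul _
    rw [bm_apply _ _ _ hA, bm_apply _ _ _ hA, bm_apply _ _ _ hA, ← lintegral_const_mul' _ _ (by simp),
      ← lintegral_add_left hm1]
    refine setLIntegral_mono_ae' (measurableSet_ov hA) ?_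
    filter_upwards [Jh_bounds h] with p hp _
    have h2 : (2:ℝ≥0∞) = ENNReal.ofReal 2 := by simp
    rw [h2, ← ENNReal.ofReal_mul (by norm_num), ← ENNReal.ofReal_add (by linarith [hp.2.1])
      (sq_nonneg _)]
    refine ENNReal.ofReal_le_ofReal ?_
    have := (abs_le.1 hp.2.2.2.2.2).1
    linarith
  refine h1.trans (add_le_add ?_ le_rfl)
  refine mul_le_mul_right ?_ _
  unfold al
  rw [Measure.add_apply]
  exact le_self_add

/-- the anomaly of a test function is bounded by the quartic energy and `|N - Q|`. -/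
theorem abs_anomaly_le (h : CF W π κ x₀ R) {Qr : ℝ}
    (ha : AreaAt W π NN B) (hfin : volume B < ⊤)
    {φ : Euc m → ℝ} (hφ : Measurable φ) (h1 : ∀ z, |φ z| ≤ 1) (h0 : ∀ z, z ∉ B → φ z = 0) :
    |(∫ p, φ (π p.1) ∂W) - Qr * (∫ z, φ z) - (1 / 2) * (∫ p, tl π p.2 * φ (π p.1) ∂W)| ≤
      (1 / 2) * (qM W π B).toReal + ∫ z in B, |(NN z).toReal - Qr| := by
  have hfW : IsFiniteMeasure W := ⟨h.fin⟩
  have hφm : Measurable fun p : Euc k × L k => φ (π p.1) := hφ.comp (measurable_base π)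
  -- integrability on W
  have hi : ∀ {c : L k → ℝ} {C : ℝ}, Continuous c → (∀ᵐ p ∂W, |c p.2| ≤ C) →
      Integrable (fun p => c p.2 * φ (π p.1)) W := by
    intro c C hc hC
    refine Integrable.of_bound ((measurable_of_cont hc).mul hφm).aestronglyMeasurable C ?_
    filter_upwards [hC] with p hp
    rw [norm_mul]
    calc ‖c p.2‖ * ‖φ (π p.1)‖ ≤ C * 1 := mul_le_mul hp (h1 _) (norm_nonneg _)
          ((abs_nonneg _).trans hp)
      _ = C := mul_one C
  have hbJ : ∀ᵐ p ∂W, |Jh π p.2| ≤ 1 := by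
    filter_upwards [Jh_bounds h] with p hp
    rw [abs_of_nonneg hp.1]; exact hp.2.1
  have hbt : ∀ᵐ p ∂W, |tl π p.2| ≤ m := by
    filter_upwards [Jh_bounds h] with p hp
    rw [abs_of_nonneg hp.2.2.1]; exact hp.2.2.2.1
  have iJ := hi (continuous_Jh π) hbJ
  have it := hi (continuous_tl π) hbt
  have i1 : Integrable (fun p : Euc k × L k => φ (π p.1)) W := by
    have := hi (c := fun _ => 1) (C := 1) continuous_const (Eventually.of_forall fun _ => by simp)
    simpa using this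
  -- the area formula
  have hbJB : bm W π (Jh π) B < ⊤ := by
    refine lt_of_le_of_lt (bm_le_mM (C := 1) ?_ ha.mB) ?_
    · filter_upwards [Jh_bounds h] with p hp using hp.2.1
    · rw [mM_apply ha.mB]
      simp
  have hNB : ∫⁻ x in B, NN x < ⊤ := by
    have h2 := congrArg (fun μ : Measure (Euc m) => μ B) ha.area
    simp only [Measure.restrict_apply ha.mB, inter_self, withDensity_apply _ ha.mB] at h2
    rw [← h2]; exact hbJB
  have hNfin : ∀ᵐ x ∂(volume.restrict B), NN x < ⊤ :=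
    ae_lt_top ha.meas hNB.ne
  have hNint : IntegrableOn (fun z => (NN z).toReal) B := by
    refine ⟨ha.meas.ennreal_toReal.aestronglyMeasurable, ?_⟩
    rw [hasFiniteIntegral_iff_norm]
    refine lt_of_le_of_lt (lintegral_mono fun z => ?_) hNB
    rw [Real.norm_of_nonneg ENNReal.toReal_nonneg]
    exact ENNReal.ofReal_toReal_le
  have harea : ∫ p, Jh π p.2 * φ (π p.1) ∂W = ∫ z in B, (NN z).toReal * φ z := by
    rw [← bm_integral (continuous_Jh π) (by filter_upwards [Jh_bounds h] with p hp using hp.1) hφ]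
    have h2 : ∫ z, φ z ∂(bm W π (Jh π)) = ∫ z in B, φ z ∂(bm W π (Jh π)) :=
      (setIntegral_eq_integral_of_forall_compl_eq_zero fun z hz => h0 z hz).symm
    rw [h2, ha.area, restrict_withDensity ha.mB,
      integral_withDensity_eq_integral_toReal_smul ha.meas hNfin]
    simp only [smul_eq_mul]
  have hQi : Qr * ∫ z, φ z = ∫ z in B, Qr * φ z := by
    rw [integral_const_mul]
    congr 1
    exact (setIntegral_eq_integral_of_forall_compl_eq_zero fun z hz => h0 z hz).symm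
  have hφB : IntegrableOn φ B := by
    refine IntegrableOn.of_bound hfin hφ.aestronglyMeasurable 1 ?_
    exact Eventually.of_forall h1
  have hNφ : IntegrableOn (fun z => (NN z).toReal * φ z) B :=
    hNint.mul_bdd hφ.aestronglyMeasurable (Eventually.of_forall h1)
  have e1 : (∫ p, φ (π p.1) ∂W) - Qr * (∫ z, φ z) - (1 / 2) * (∫ p, tl π p.2 * φ (π p.1) ∂W) =
      (∫ p, (1 - Jh π p.2 - tl π p.2 / 2) * φ (π p.1) ∂W) +
        ∫ z in B, ((NN z).toReal - Qr) * φ z := by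
    have e2 : ∫ p, (1 - Jh π p.2 - tl π p.2 / 2) * φ (π p.1) ∂W =
        ∫ p, φ (π p.1) ∂W - ∫ p, Jh π p.2 * φ (π p.1) ∂W -
          (1 / 2) * ∫ p, tl π p.2 * φ (π p.1) ∂W := by
      have i4 : Integrable (fun p : Euc k × L k => φ (π p.1) - Jh π p.2 * φ (π p.1)) W :=
        i1.sub iJ
      have i5 : Integrable (fun p : Euc k × L k => 1 / 2 * (tl π p.2 * φ (π p.1))) W :=
        it.const_mul _
      rw [← integral_const_mul, ← integral_sub i1 iJ, ← integral_sub i4 i5]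
      refine integral_congr_ae (Eventually.of_forall fun p => ?_)
      simp only
      ring
    have e3 : ∫ z in B, ((NN z).toReal - Qr) * φ z =
        (∫ z in B, (NN z).toReal * φ z) - ∫ z in B, Qr * φ z := by
      have i6 : IntegrableOn (fun z => Qr * φ z) B := hφB.const_mul _
      rw [← integral_sub hNφ i6]
      refine integral_congr_ae (Eventually.of_forall fun p => ?_)
      simp only
      ring
    rw [hQi, e2, e3, harea]
    ring
  rw [e1]
  refine (abs_add_le _ _).trans (add_le_add ?_ ?_)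
  · have h2 : |∫ p, (1 - Jh π p.2 - tl π p.2 / 2) * φ (π p.1) ∂W| ≤
        ∫ p in ov π B, tl π p.2 ^ 2 / 2 ∂W := by
      have h3 : ∫ p, (1 - Jh π p.2 - tl π p.2 / 2) * φ (π p.1) ∂W =
          ∫ p in ov π B, (1 - Jh π p.2 - tl π p.2 / 2) * φ (π p.1) ∂W := by
        refine (setIntegral_eq_integral_of_forall_compl_eq_zero fun p hp => ?_).symm
        rw [h0 _ hp, mul_zero]
      rw [h3]
      have i2 : Integrable (fun p : Euc k × L k => tl π p.2 ^ 2 / 2) W := by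
        refine Integrable.of_bound (((continuous_tl π).comp continuous_snd).pow 2
          |>.div_const 2).aestronglyMeasurable ((m:ℝ) ^ 2 / 2) ?_
        filter_upwards [hbt] with p hp
        rw [Real.norm_eq_abs, abs_div, abs_pow, abs_two]
        gcongr
      rw [← Real.norm_eq_abs]
      refine norm_integral_le_of_norm_le i2.integrableOn ?_
      filter_upwards [ae_restrict_of_ae (Jh_bounds h)] with p hp
      rw [norm_mul]
      calc ‖1 - Jh π p.2 - tl π p.2 / 2‖ * ‖φ (π p.1)‖ ≤ (tl π p.2 ^ 2 / 2) * 1 :=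
            mul_le_mul hp.2.2.2.2.2 (h1 _) (norm_nonneg _) (by positivity)
        _ = _ := mul_one _
    refine h2.trans (le_of_eq ?_)
    have h4 : (qM W π B).toReal = ∫ p in ov π B, tl π p.2 ^ 2 ∂W := by
      unfold qM
      rw [bm_apply _ _ _ ha.mB, integral_eq_lintegral_of_nonneg_ae
        (Eventually.of_forall fun p => sq_nonneg _)]
      exact (((continuous_tl π).comp continuous_snd).pow 2).aestronglyMeasurable
    rw [h4, ← integral_const_mul]
    refine integral_congr_ae (Eventually.of_forall fun p => ?_)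
    simp only
    ring
  · rw [← Real.norm_eq_abs]
    have i3 : IntegrableOn (fun z => |(NN z).toReal - Qr|) B := by
      have : IntegrableOn (fun z => (NN z).toReal - Qr) B :=
        hNint.sub (integrableOn_const (hs := hfin.ne))
      exact this.abs
    refine norm_integral_le_of_norm_le i3 (Eventually.of_forall fun z => ?_)
    rw [norm_mul]
    calc ‖(NN z).toReal - Qr‖ * ‖φ z‖ ≤ |(NN z).toReal - Qr| * 1 :=
          mul_le_mul le_rfl (h1 _) (norm_nonneg _) (abs_nonneg _)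
      _ = _ := mul_one _

end Crest.Agent.R234.N5_372
end
end

-- ▼ part R234/Rig2_300
section

/-! Row 234, VF-RIG (task 1369), part 2: (7)(iii) of #5124: if the tensor `a I - e`
(`a = μ - ν`, `e = p_# (Q dV)`) is divergence free and `e_WW` is small then `a` is almost
invariant under translations along `W`, hence decays like `(r/s)^(dim W)`. -/

namespace Crest.Agent.R234.Rig_300

open MeasureTheory Set Metric

noncomputable section

/-! ### Cauchy-Schwarz -/

theorem integral_cs {α : Type*} [MeasurableSpace α] {μ : Measure α} {f g : α → ℝ}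
    (hf : Integrable (fun x => f x ^ 2) μ) (hg : Integrable (fun x => g x ^ 2) μ)
    (hfg : Integrable (fun x => f x * g x) μ) :
    (∫ x, f x * g x ∂μ) ^ 2 ≤ (∫ x, f x ^ 2 ∂μ) * ∫ x, g x ^ 2 ∂μ := by
  have key : ∀ t : ℝ, 0 ≤ (∫ x, g x ^ 2 ∂μ) * (t * t) + (2 * ∫ x, f x * g x ∂μ) * t +
      ∫ x, f x ^ 2 ∂μ := by
    intro t
    have h1 : 0 ≤ ∫ x, (f x + t * g x) ^ 2 ∂μ := integral_nonneg fun x => sq_nonneg _
    have h2 : ∫ x, (f x + t * g x) ^ 2 ∂μ =
        (∫ x, f x ^ 2 ∂μ) + (2 * t) * (∫ x, f x * g x ∂μ) + t ^ 2 * ∫ x, g x ^ 2 ∂μ := by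
      have e1 : (fun x => (f x + t * g x) ^ 2) =
          fun x => f x ^ 2 + ((2 * t) * (f x * g x) + t ^ 2 * g x ^ 2) := by
        funext x; ring
      have h12 : Integrable (fun x => (2 * t) * (f x * g x) + t ^ 2 * g x ^ 2) μ :=
        (hfg.const_mul _).add (hg.const_mul _)
      rw [e1, integral_add hf h12,
        integral_add (hfg.const_mul _) (hg.const_mul _), integral_const_mul, integral_const_mul]
      ring
    rw [h2] at h1
    linarith
  have := discrim_le_zero key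
  rw [discrim] at this
  nlinarith [this]

variable {F : Type*} [NormedAddCommGroup F] [InnerProductSpace ℝ F]
variable {Ω : Type*} [MeasurableSpace Ω]


variable [FiniteDimensional ℝ F] [MeasurableSpace F] [BorelSpace F]





/-! ### (7)(iii) -/

/-- the shifts `Σ 3 r k_i e_i`. -/
def shift {d : ℕ} (e : Fin d → F) (ρ : ℝ) {K : ℕ} (k : Fin d → Fin K) : F :=
  ∑ i, (ρ * (k i : ℝ)) • e i





end

end Crest.Agent.R234.Rig_300
end

-- ▼ part R234/Proj1_929
section

/-! Row 234, VF-PROJ (task 1505), part 1: projection of a divergence free tensor `a I - e`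
on a subspace `L` (given by an isometry `ι : G → F`): test fields `ζ_i = χ(x_⊥) ∂_i U(P x)`. -/

namespace Crest.Agent.R234.Proj_929

open MeasureTheory Set Metric Crest.Agent.R234.Rig_300
open scoped ENNReal

set_option linter.unusedSectionVars false

noncomputable section

variable {F G : Type*} [NormedAddCommGroup F] [InnerProductSpace ℝ F] [FiniteDimensional ℝ F]
  [NormedAddCommGroup G] [InnerProductSpace ℝ G] [FiniteDimensional ℝ G]
  {I : Type*} [Fintype I]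

/-- the Laplacian with respect to an orthonormal basis. -/
def lap (b : OrthonormalBasis I ℝ G) (U : G → ℝ) (x : G) : ℝ :=
  ∑ i, fderiv ℝ (fderiv ℝ U) x (b i) (b i)

/-- the projection on `L = range ι` in coordinates of `G`. -/
def pr (ι : G →ₗᵢ[ℝ] F) : F →L[ℝ] G := ContinuousLinearMap.adjoint ι.toContinuousLinearMap

/-- the projection on the orthogonal complement of `L`. -/
def nr (ι : G →ₗᵢ[ℝ] F) : F →L[ℝ] F :=
  ContinuousLinearMap.id ℝ F - ι.toContinuousLinearMap ∘L pr ι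

theorem nr_apply (ι : G →ₗᵢ[ℝ] F) (x : F) : nr ι x = x - ι (pr ι x) := rfl

theorem inner_pr (ι : G →ₗᵢ[ℝ] F) (x : F) (g : G) : inner ℝ (pr ι x) g = inner ℝ x (ι g) := by
  rw [pr, ContinuousLinearMap.adjoint_inner_left]; rfl

@[simp] theorem pr_iso (ι : G →ₗᵢ[ℝ] F) (g : G) : pr ι (ι g) = g := by
  refine ext_inner_right ℝ fun v => ?_
  rw [inner_pr, ι.inner_map_map]

@[simp] theorem nr_iso (ι : G →ₗᵢ[ℝ] F) (g : G) : nr ι (ι g) = 0 := by
  rw [nr_apply, pr_iso, sub_self]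

theorem norm_sq_split (ι : G →ₗᵢ[ℝ] F) (x : F) :
    ‖x‖ ^ 2 = ‖pr ι x‖ ^ 2 + ‖nr ι x‖ ^ 2 := by
  have h1 : inner ℝ (ι (pr ι x)) (nr ι x) = 0 := by
    rw [nr_apply, inner_sub_right, ι.inner_map_map, real_inner_comm, ← inner_pr, sub_self]
  have h2 : x = ι (pr ι x) + nr ι x := by rw [nr_apply]; abel
  have h3 : ‖x‖ ^ 2 = ‖ι (pr ι x) + nr ι x‖ ^ 2 := by rw [← h2]
  rw [h3, @norm_add_sq_real, h1, ι.norm_map]
  ring

theorem norm_pr_le (ι : G →ₗᵢ[ℝ] F) (x : F) : ‖pr ι x‖ ≤ ‖x‖ := by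
  have := norm_sq_split ι x
  nlinarith [norm_nonneg x, norm_nonneg (pr ι x), sq_nonneg (‖nr ι x‖)]

theorem norm_nr_le (ι : G →ₗᵢ[ℝ] F) (x : F) : ‖nr ι x‖ ≤ ‖x‖ := by
  have := norm_sq_split ι x
  nlinarith [norm_nonneg x, norm_nonneg (nr ι x), sq_nonneg (‖pr ι x‖)]

/-! ### the cut-off in the normal directions -/

/-- smooth profile on `F`: `1` for `‖y‖ ≤ 1`, `0` for `‖y‖² ≥ 2`. -/
def prof (y : F) : ℝ := Real.smoothTransition (2 - ‖y‖ ^ 2)

theorem prof_contDiff : ContDiff ℝ (⊤ : ℕ∞) (prof (F := F)) :=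
  Real.smoothTransition.contDiff.comp (contDiff_const.sub (contDiff_norm_sq ℝ))

theorem prof_one {y : F} (h : ‖y‖ ≤ 1) : prof y = 1 := by
  refine Real.smoothTransition.one_of_one_le ?_
  nlinarith [norm_nonneg y]

theorem prof_zero {y : F} (h : 2 ≤ ‖y‖ ^ 2) : prof y = 0 :=
  Real.smoothTransition.zero_of_nonpos (by linarith)

theorem prof_nonneg (y : F) : 0 ≤ prof y := Real.smoothTransition.nonneg _

theorem prof_le_one (y : F) : prof y ≤ 1 := Real.smoothTransition.le_one _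

theorem prof_compact : HasCompactSupport (prof (F := F)) := by
  refine HasCompactSupport.intro (isCompact_closedBall (0 : F) 2) fun y hy => prof_zero ?_
  rw [mem_closedBall, dist_zero_right, not_le] at hy
  nlinarith

theorem exists_prof_bound : ∃ C : ℝ, 0 ≤ C ∧ ∀ y : F, ‖fderiv ℝ (prof (F := F)) y‖ ≤ C := by
  obtain ⟨C, hC⟩ := (prof_contDiff (F := F).continuous_fderiv (by simp)).bounded_above_of_compact_support
    (prof_compact.fderiv ℝ)
  exact ⟨C, (norm_nonneg _).trans (hC 0), hC⟩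

/-- the cut-off `χ(x) = prof (N (x - x₀) / s)`. -/
def cut (ι : G →ₗᵢ[ℝ] F) (x₀ : F) (s : ℝ) (x : F) : ℝ := prof (s⁻¹ • nr ι (x - x₀))

theorem cut_contDiff (ι : G →ₗᵢ[ℝ] F) (x₀ : F) (s : ℝ) : ContDiff ℝ (⊤ : ℕ∞) (cut ι x₀ s) :=
  prof_contDiff.comp (contDiff_const.smul ((nr ι).contDiff.comp (contDiff_id.sub contDiff_const)))

theorem cut_one {ι : G →ₗᵢ[ℝ] F} {x₀ : F} {s : ℝ} (hs : 0 < s) {x : F} (h : x ∈ ball x₀ s) :
    cut ι x₀ s x = 1 := by
  refine prof_one ?_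
  rw [norm_smul, norm_inv, Real.norm_of_nonneg hs.le, inv_mul_le_iff₀ hs, mul_one]
  rw [mem_ball, dist_eq_norm] at h
  exact (norm_nr_le ι _).trans h.le

theorem cut_zero {ι : G →ₗᵢ[ℝ] F} {x₀ : F} {s : ℝ} (hs : 0 < s) {x : F}
    (h : 2 * s ^ 2 ≤ ‖nr ι (x - x₀)‖ ^ 2) : cut ι x₀ s x = 0 := by
  refine prof_zero ?_
  rw [norm_smul, norm_inv, Real.norm_of_nonneg hs.le, mul_pow, inv_pow, le_inv_mul_iff₀ (by positivity)]
  linarith

theorem cut_nonneg (ι : G →ₗᵢ[ℝ] F) (x₀ : F) (s : ℝ) (x : F) : 0 ≤ cut ι x₀ s x := prof_nonneg _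

theorem cut_le_one (ι : G →ₗᵢ[ℝ] F) (x₀ : F) (s : ℝ) (x : F) : cut ι x₀ s x ≤ 1 := prof_le_one _

theorem cut_fderiv (ι : G →ₗᵢ[ℝ] F) (x₀ : F) (s : ℝ) (x v : F) :
    fderiv ℝ (cut ι x₀ s) x v = fderiv ℝ (prof (F := F)) (s⁻¹ • nr ι (x - x₀)) (s⁻¹ • nr ι v) := by
  have h1 : HasFDerivAt (prof (F := F)) (fderiv ℝ (prof (F := F)) (s⁻¹ • nr ι (x - x₀)))
      (s⁻¹ • nr ι (x - x₀)) :=
    ((prof_contDiff (F := F)).differentiable (by simp) _).hasFDerivAt
  have h2 : HasFDerivAt (fun x : F => s⁻¹ • nr ι (x - x₀)) (s⁻¹ • nr ι) x := by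
    have := ((nr ι).hasFDerivAt (x := x - x₀)).comp x ((hasFDerivAt_id x).sub_const x₀)
    exact this.const_smul s⁻¹
  have h3 : HasFDerivAt (cut ι x₀ s) _ x := h1.comp x h2
  rw [h3.fderiv]
  rfl

theorem cut_fderiv_iso (ι : G →ₗᵢ[ℝ] F) (x₀ : F) (s : ℝ) (x : F) (g : G) :
    fderiv ℝ (cut ι x₀ s) x (ι g) = 0 := by
  rw [cut_fderiv, nr_iso, smul_zero, map_zero]

theorem cut_fderiv_le {C : ℝ} (hC : ∀ y : F, ‖fderiv ℝ (prof (F := F)) y‖ ≤ C)
    (ι : G →ₗᵢ[ℝ] F) (x₀ : F) {s : ℝ} (hs : 0 < s) (x v : F) :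
    |fderiv ℝ (cut ι x₀ s) x v| ≤ C / s * ‖v‖ := by
  rw [cut_fderiv, ← Real.norm_eq_abs]
  refine (ContinuousLinearMap.le_opNorm _ _).trans ?_
  rw [norm_smul, norm_inv, Real.norm_of_nonneg hs.le]
  have h0 : 0 ≤ C := (norm_nonneg _).trans (hC 0)
  calc ‖fderiv ℝ (prof (F := F)) (s⁻¹ • nr ι (x - x₀))‖ * (s⁻¹ * ‖nr ι v‖)
      ≤ C * (s⁻¹ * ‖v‖) := by
        gcongr
        · exact hC _
        · exact norm_nr_le ι v
    _ = C / s * ‖v‖ := by ring

/-! ### the test functions -/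

/-- `ζ_g(x) = χ(x) (∂_g U)(P x)`. -/
def zet (ι : G →ₗᵢ[ℝ] F) (x₀ : F) (s : ℝ) (U : G → ℝ) (g : G) (x : F) : ℝ :=
  cut ι x₀ s x * fderiv ℝ U (pr ι x) g

variable {ι : G →ₗᵢ[ℝ] F} {x₀ : F} {s : ℝ} {U : G → ℝ}

theorem dU_contDiff (hU : ContDiff ℝ (⊤ : ℕ∞) U) : ContDiff ℝ (⊤ : ℕ∞) (fderiv ℝ U) :=
  hU.fderiv_right (by simp)

theorem zet_contDiff (hU : ContDiff ℝ (⊤ : ℕ∞) U) (g : G) :
    ContDiff ℝ (⊤ : ℕ∞) (zet ι x₀ s U g) := by
  refine (cut_contDiff ι x₀ s).mul ?_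
  exact ((dU_contDiff hU).comp (pr ι).contDiff).clm_apply contDiff_const

theorem zet_support (hs : 0 < s) (g : G) :
    Function.support (zet ι x₀ s U g) ⊆
      {x | pr ι x ∈ tsupport U ∧ ‖nr ι (x - x₀)‖ ^ 2 ≤ 2 * s ^ 2} := by
  intro x hx
  rw [Function.mem_support] at hx
  constructor
  · by_contra h
    refine hx ?_
    have : fderiv ℝ U (pr ι x) = 0 := by
      by_contra h'
      exact h (support_fderiv_subset ℝ (f := U) h')
    rw [zet, this]; simp
  · by_contra h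
    refine hx ?_
    rw [zet, cut_zero hs (by linarith [not_le.1 h]), zero_mul]

theorem set_closed (K : Set G) (hK : IsClosed K) (ι : G →ₗᵢ[ℝ] F) (x₀ : F) (s : ℝ) :
    IsClosed {x | pr ι x ∈ K ∧ ‖nr ι (x - x₀)‖ ^ 2 ≤ 2 * s ^ 2} := by
  refine (hK.preimage (pr ι).continuous).inter ?_
  have h : Continuous fun x : F => ‖nr ι (x - x₀)‖ ^ 2 :=
    (((nr ι).continuous.comp (continuous_id.sub continuous_const)).norm).pow 2
  exact isClosed_le h continuous_const

theorem set_subset (hs : 0 < s) (hU : tsupport U ⊆ ball (pr ι x₀) (4 * s)) :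
    {x | pr ι x ∈ tsupport U ∧ ‖nr ι (x - x₀)‖ ^ 2 ≤ 2 * s ^ 2} ⊆ ball x₀ (6 * s) := by
  rintro x ⟨h1, h2⟩
  have h3 := hU h1
  rw [mem_ball, dist_eq_norm, ← map_sub] at h3
  rw [mem_ball, dist_eq_norm]
  have h4 := norm_sq_split ι (x - x₀)
  have h5 : ‖pr ι (x - x₀)‖ ^ 2 < (4 * s) ^ 2 := by
    have := norm_nonneg (pr ι (x - x₀))
    nlinarith
  refine lt_of_pow_lt_pow_left₀ 2 (by positivity) ?_
  nlinarith

theorem zet_tsupport (hs : 0 < s) (hU : tsupport U ⊆ ball (pr ι x₀) (4 * s)) (g : G) :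
    tsupport (zet ι x₀ s U g) ⊆ ball x₀ (6 * s) :=
  (closure_minimal (zet_support hs g) (set_closed _ (isClosed_tsupport U) ι x₀ s)).trans
    (set_subset hs hU)

theorem zet_compact (hs : 0 < s) (hU : tsupport U ⊆ ball (pr ι x₀) (4 * s)) (g : G) :
    HasCompactSupport (zet ι x₀ s U g) :=
  IsCompact.of_isClosed_subset (isCompact_closedBall x₀ (6 * s)) (isClosed_tsupport _)
    ((zet_tsupport hs hU g).trans ball_subset_closedBall)

theorem zet_fderiv (hU : ContDiff ℝ (⊤ : ℕ∞) U) (g : G) (x v : F) :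
    fderiv ℝ (zet ι x₀ s U g) x v =
      fderiv ℝ (cut ι x₀ s) x v * fderiv ℝ U (pr ι x) g +
        cut ι x₀ s x * fderiv ℝ (fderiv ℝ U) (pr ι x) (pr ι v) g := by
  have h1 : HasFDerivAt (cut ι x₀ s) (fderiv ℝ (cut ι x₀ s) x) x :=
    ((cut_contDiff ι x₀ s).differentiable (by simp) _).hasFDerivAt
  have h2 : HasFDerivAt (fderiv ℝ U) (fderiv ℝ (fderiv ℝ U) (pr ι x)) (pr ι x) :=
    ((dU_contDiff hU).differentiable (by simp) _).hasFDerivAt
  have h3 : HasFDerivAt (fun x => fderiv ℝ U (pr ι x)) _ x := h2.comp x (pr ι).hasFDerivAt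
  have h4 : HasFDerivAt (fun x => fderiv ℝ U (pr ι x) g) _ x := h3.clm_apply (hasFDerivAt_const g x)
  have h5 : HasFDerivAt (zet ι x₀ s U g) _ x := h1.mul h4
  rw [h5.fderiv]
  simp
  ring

/-! ### pointwise identities and bounds -/

theorem zet_fderiv_iso (hU : ContDiff ℝ (⊤ : ℕ∞) U) (g : G) (x : F) :
    fderiv ℝ (zet ι x₀ s U g) x (ι g) = cut ι x₀ s x * fderiv ℝ (fderiv ℝ U) (pr ι x) g g := by
  rw [zet_fderiv hU, cut_fderiv_iso, pr_iso, zero_mul, zero_add]

theorem sum_zet (b : OrthonormalBasis I ℝ G) (hU : ContDiff ℝ (⊤ : ℕ∞) U) (x : F) :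
    ∑ i, fderiv ℝ (zet ι x₀ s U (b i)) x (ι (b i)) = cut ι x₀ s x * lap b U (pr ι x) := by
  simp only [zet_fderiv_iso hU, lap, Finset.mul_sum]

/-- the trace of `q` on `L`. -/
def tL (b : OrthonormalBasis I ℝ G) (ι : G →ₗᵢ[ℝ] F) (q : F →L[ℝ] F) : ℝ :=
  ∑ i, inner ℝ (q (ι (b i))) (ι (b i))

variable {b : OrthonormalBasis I ℝ G} {q : F →L[ℝ] F}

theorem tL_nonneg (h : PSD q) : 0 ≤ tL b ι q := Finset.sum_nonneg fun _ _ => h.nonneg _

theorem le_tL (h : PSD q) (i : I) : inner ℝ (q (ι (b i))) (ι (b i)) ≤ tL b ι q :=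
  Finset.single_le_sum (f := fun i => inner ℝ (q (ι (b i))) (ι (b i)))
    (fun _ _ => h.nonneg _) (Finset.mem_univ i)

theorem norm_pr_q_le (h : PSD q) (i : I) : ‖pr ι (q (ι (b i)))‖ ≤ tL b ι q := by
  refine le_of_sq_le_sq ?_ (tL_nonneg h)
  rw [← b.sum_sq_norm_inner_left (pr ι (q (ι (b i))))]
  have h1 : ∀ j ∈ Finset.univ, ‖inner ℝ (pr ι (q (ι (b i)))) (b j)‖ ^ 2 ≤
      tL b ι q * inner ℝ (q (ι (b j))) (ι (b j)) := by
    intro j _
    rw [Real.norm_eq_abs, sq_abs, inner_pr]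
    refine (h.cs _ _).trans ?_
    exact mul_le_mul_of_nonneg_right (le_tL h i) (h.nonneg _)
  refine (Finset.sum_le_sum h1).trans ?_
  rw [← Finset.mul_sum, sq]
  exact le_refl _

theorem zet_q_le {C : ℝ} (hC : ∀ y : F, ‖fderiv ℝ (prof (F := F)) y‖ ≤ C) (hs : 0 < s)
    (hU : ContDiff ℝ (⊤ : ℕ∞) U) (h : PSD q) (i : I) (x : F) :
    |fderiv ℝ (zet ι x₀ s U (b i)) x (q (ι (b i)))| ≤
      C / s * Real.sqrt (‖q‖ * tL b ι q) * ‖fderiv ℝ U (pr ι x)‖ +
        tL b ι q * ‖fderiv ℝ (fderiv ℝ U) (pr ι x)‖ := by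
  have hC0 : 0 ≤ C := (norm_nonneg _).trans (hC 0)
  have hb : ‖b i‖ = 1 := b.norm_eq_one i
  rw [zet_fderiv hU]
  refine (abs_add_le _ _).trans ?_
  rw [abs_mul, abs_mul, abs_of_nonneg (cut_nonneg ι x₀ s x)]
  have h1 := cut_fderiv_le hC ι x₀ hs x (q (ι (b i)))
  have h2 : |fderiv ℝ U (pr ι x) (b i)| ≤ ‖fderiv ℝ U (pr ι x)‖ := by
    have := (fderiv ℝ U (pr ι x)).le_opNorm (b i)
    rwa [hb, mul_one, Real.norm_eq_abs] at this
  have h3 : ‖q (ι (b i))‖ ≤ Real.sqrt (‖q‖ * tL b ι q) := by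
    refine (h.norm_le_sqrt _).trans ?_
    rw [← Real.sqrt_mul (norm_nonneg _)]
    exact Real.sqrt_le_sqrt (mul_le_mul_of_nonneg_left (le_tL h i) (norm_nonneg _))
  have h4 : |fderiv ℝ (fderiv ℝ U) (pr ι x) (pr ι (q (ι (b i)))) (b i)| ≤
      tL b ι q * ‖fderiv ℝ (fderiv ℝ U) (pr ι x)‖ := by
    rw [← Real.norm_eq_abs]
    refine (ContinuousLinearMap.le_opNorm _ _).trans ?_
    rw [hb, mul_one]
    refine (ContinuousLinearMap.le_opNorm _ _).trans ?_
    rw [mul_comm]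
    exact mul_le_mul_of_nonneg_right (norm_pr_q_le h i) (norm_nonneg _)
  refine add_le_add ?_ ?_
  · refine mul_le_mul (h1.trans ?_) h2 (abs_nonneg _) (by positivity)
    exact mul_le_mul_of_nonneg_left h3 (by positivity)
  · calc cut ι x₀ s x * |fderiv ℝ (fderiv ℝ U) (pr ι x) (pr ι (q (ι (b i)))) (b i)|
        ≤ 1 * |fderiv ℝ (fderiv ℝ U) (pr ι x) (pr ι (q (ι (b i)))) (b i)| :=
          mul_le_mul_of_nonneg_right (cut_le_one _ _ _ _) (abs_nonneg _)
      _ ≤ _ := by rw [one_mul]; exact h4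

theorem zet_le {C : ℝ} (hC : ∀ y : F, ‖fderiv ℝ (prof (F := F)) y‖ ≤ C) (hs : 0 < s)
    (hU : ContDiff ℝ (⊤ : ℕ∞) U) (i : I) (x : F) :
    ‖fderiv ℝ (zet ι x₀ s U (b i)) x‖ + |zet ι x₀ s U (b i) x| / s ≤
      (C + 1) / s * ‖fderiv ℝ U (pr ι x)‖ + ‖fderiv ℝ (fderiv ℝ U) (pr ι x)‖ := by
  have hC0 : 0 ≤ C := (norm_nonneg _).trans (hC 0)
  have hb : ‖b i‖ = 1 := b.norm_eq_one i
  have h2 : |fderiv ℝ U (pr ι x) (b i)| ≤ ‖fderiv ℝ U (pr ι x)‖ := by
    have := (fderiv ℝ U (pr ι x)).le_opNorm (b i)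
    rwa [hb, mul_one, Real.norm_eq_abs] at this
  have h3 : |zet ι x₀ s U (b i) x| / s ≤ 1 / s * ‖fderiv ℝ U (pr ι x)‖ := by
    rw [zet, abs_mul, abs_of_nonneg (cut_nonneg ι x₀ s x), div_mul_eq_mul_div, one_mul]
    refine div_le_div_of_nonneg_right ?_ hs.le
    calc _ ≤ 1 * |fderiv ℝ U (pr ι x) (b i)| :=
          mul_le_mul_of_nonneg_right (cut_le_one _ _ _ _) (abs_nonneg _)
      _ ≤ _ := by rw [one_mul]; exact h2
  have h4 : ‖fderiv ℝ (zet ι x₀ s U (b i)) x‖ ≤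
      C / s * ‖fderiv ℝ U (pr ι x)‖ + ‖fderiv ℝ (fderiv ℝ U) (pr ι x)‖ := by
    refine ContinuousLinearMap.opNorm_le_bound _ (by positivity) fun v => ?_
    rw [zet_fderiv hU, Real.norm_eq_abs]
    refine (abs_add_le _ _).trans ?_
    rw [abs_mul, abs_mul, abs_of_nonneg (cut_nonneg ι x₀ s x), add_mul]
    have h5 := cut_fderiv_le hC ι x₀ hs x v
    have h6 : |fderiv ℝ (fderiv ℝ U) (pr ι x) (pr ι v) (b i)| ≤
        ‖fderiv ℝ (fderiv ℝ U) (pr ι x)‖ * ‖v‖ := by
      rw [← Real.norm_eq_abs]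
      refine (ContinuousLinearMap.le_opNorm _ _).trans ?_
      rw [hb, mul_one]
      refine (ContinuousLinearMap.le_opNorm _ _).trans ?_
      exact mul_le_mul_of_nonneg_left (norm_pr_le ι v) (norm_nonneg _)
    refine add_le_add ?_ ?_
    · calc |fderiv ℝ (cut ι x₀ s) x v| * |fderiv ℝ U (pr ι x) (b i)|
          ≤ (C / s * ‖v‖) * ‖fderiv ℝ U (pr ι x)‖ :=
            mul_le_mul h5 h2 (abs_nonneg _) (by positivity)
        _ = _ := by ring
    · calc cut ι x₀ s x * |fderiv ℝ (fderiv ℝ U) (pr ι x) (pr ι v) (b i)|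
          ≤ 1 * |fderiv ℝ (fderiv ℝ U) (pr ι x) (pr ι v) (b i)| :=
            mul_le_mul_of_nonneg_right (cut_le_one _ _ _ _) (abs_nonneg _)
        _ ≤ _ := by rw [one_mul]; exact h6
  have e : (C + 1) / s * ‖fderiv ℝ U (pr ι x)‖ =
      C / s * ‖fderiv ℝ U (pr ι x)‖ + 1 / s * ‖fderiv ℝ U (pr ι x)‖ := by ring
  rw [e]
  linarith

end

end Crest.Agent.R234.Proj_929
end

-- ▼ part R234/Proj2_929
section

/-! Row 234, VF-PROJ (task 1505), part 2: the projected inequality (H2) (hypothesis of the strong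
constancy lemma VF-SC on `L`) and the energy bound of sets with small projection. -/

namespace Crest.Agent.R234.Proj_929

open MeasureTheory Set Metric Crest.Agent.R234.Rig_300
open scoped ENNReal

set_option linter.unusedSectionVars false

noncomputable section

variable {F G : Type*} [NormedAddCommGroup F] [InnerProductSpace ℝ F] [FiniteDimensional ℝ F]
  [NormedAddCommGroup G] [InnerProductSpace ℝ G] [FiniteDimensional ℝ G]
  [MeasurableSpace F] [BorelSpace F] [MeasurableSpace G] [BorelSpace G]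
  {I : Type*} [Fintype I] {Ω : Type*} [MeasurableSpace Ω]

/-- DIV with an error measure `κ`: `α I - e` is divergence free in `B` up to `κ`,
`e = p_# (Q dV)`. -/
def DivErr (α : Measure F) (V : Measure Ω) (p : Ω → F) (Q : Ω → F →L[ℝ] F) (κ : Measure F)
    (s : ℝ) (B : Set F) : Prop :=
  ∀ ζ : F → ℝ, ContDiff ℝ (⊤ : ℕ∞) ζ → HasCompactSupport ζ → tsupport ζ ⊆ B → ∀ ξ : F,
    |∫ y, fderiv ℝ ζ y ξ ∂α - ∫ ω, fderiv ℝ ζ (p ω) (Q ω ξ) ∂V| ≤
      ‖ξ‖ * ∫ y, (‖fderiv ℝ ζ y‖ + |ζ y| / s) ∂κ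

/-- push forward of a density. -/
def push {X : Type*} [MeasurableSpace X] (μ : Measure X) (f : X → ℝ) (g : X → G) : Measure G :=
  (μ.withDensity fun x => ENNReal.ofReal (f x)).map g

theorem integral_push {X : Type*} [MeasurableSpace X] {μ : Measure X} {f : X → ℝ} {g : X → G}
    (hf : AEMeasurable f μ) (h0 : ∀ᵐ x ∂μ, 0 ≤ f x) (hg : Measurable g) {φ : G → ℝ}
    (hφ : Continuous φ) : ∫ y, φ y ∂(push μ f g) = ∫ x, f x * φ (g x) ∂μ := by
  rw [push, integral_map hg.aemeasurable hφ.aestronglyMeasurable,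
    integral_withDensity_eq_integral_toReal_smul₀ hf.ennreal_ofReal
      (Filter.Eventually.of_forall fun _ => ENNReal.ofReal_lt_top)]
  refine integral_congr_ae ?_
  filter_upwards [h0] with x hx
  rw [ENNReal.toReal_ofReal hx, smul_eq_mul]

theorem push_univ {X : Type*} [MeasurableSpace X] {μ : Measure X} {f : X → ℝ} {g : X → G}
    (hf : Integrable f μ) (h0 : ∀ᵐ x ∂μ, 0 ≤ f x) (hg : Measurable g) :
    push μ f g univ = ENNReal.ofReal (∫ x, f x ∂μ) := by
  rw [push, Measure.map_apply hg MeasurableSet.univ, preimage_univ,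
    withDensity_apply _ MeasurableSet.univ, setLIntegral_univ,
    ofReal_integral_eq_lintegral_ofReal hf h0]

theorem push_apply_le {X : Type*} [MeasurableSpace X] {μ : Measure X} {f : X → ℝ} {g : X → G}
    (hg : Measurable g) {A : Set X} (hA : MeasurableSet A) (h1 : ∀ x ∈ A, f x = 1) {S : Set G}
    (hS : MeasurableSet S) : μ (A ∩ g ⁻¹' S) ≤ push μ f g S := by
  rw [push, Measure.map_apply hg hS, withDensity_apply _ (hg hS)]
  have h2 : MeasurableSet (A ∩ g ⁻¹' S) := hA.inter (hg hS)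
  calc μ (A ∩ g ⁻¹' S) = ∫⁻ _ in A ∩ g ⁻¹' S, 1 ∂μ := by rw [setLIntegral_one]
    _ = ∫⁻ x in A ∩ g ⁻¹' S, ENNReal.ofReal (f x) ∂μ := by
        refine setLIntegral_congr_fun h2 fun x hx => ?_
        simp only [h1 x hx.1, ENNReal.ofReal_one]
    _ ≤ ∫⁻ x in g ⁻¹' S, ENNReal.ofReal (f x) ∂μ := lintegral_mono_set inter_subset_right

variable {α κ : Measure F} {V : Measure Ω} {p : Ω → F} {Q : Ω → F →L[ℝ] F}
  {b : OrthonormalBasis I ℝ G} {ι : G →ₗᵢ[ℝ] F} {x₀ : F} {s C : ℝ}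

/-- `A`: projected excess (with the cut-off). -/
def mA (α : Measure F) (ι : G →ₗᵢ[ℝ] F) (x₀ : F) (s : ℝ) : Measure G :=
  push (α.restrict (ball x₀ (6 * s))) (cut ι x₀ s) (pr ι)

/-- projected `e_LL`. -/
def mE (b : OrthonormalBasis I ℝ G) (V : Measure Ω) (p : Ω → F) (Q : Ω → F →L[ℝ] F)
    (ι : G →ₗᵢ[ℝ] F) (x₀ : F) (s : ℝ) : Measure G :=
  push (V.restrict (p ⁻¹' ball x₀ (6 * s))) (fun ω => tL b ι (Q ω)) (fun ω => pr ι (p ω))

/-- projected lateral error `√(e e_LL)`. -/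
def mH (b : OrthonormalBasis I ℝ G) (V : Measure Ω) (p : Ω → F) (Q : Ω → F →L[ℝ] F)
    (ι : G →ₗᵢ[ℝ] F) (x₀ : F) (s : ℝ) : Measure G :=
  push (V.restrict (p ⁻¹' ball x₀ (6 * s))) (fun ω => Real.sqrt (‖Q ω‖ * tL b ι (Q ω)))
    (fun ω => pr ι (p ω))

/-- projected error measure. -/
def mK (κ : Measure F) (ι : G →ₗᵢ[ℝ] F) (x₀ : F) (s : ℝ) : Measure G :=
  push (κ.restrict (ball x₀ (6 * s))) (fun _ => 1) (pr ι)

theorem measurable_pr : Measurable (pr ι) := (pr ι).continuous.measurable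

theorem aemeas_tL (hI : IntegrableOn Q (p ⁻¹' ball x₀ (6 * s)) V) :
    Integrable (fun ω => tL b ι (Q ω)) (V.restrict (p ⁻¹' ball x₀ (6 * s))) := by
  unfold tL
  refine integrable_finsetSum _ fun i _ => ?_
  exact (hI.apply_continuousLinearMap _).inner_const _

theorem int_sqrt (hQ : ∀ᵐ ω ∂V.restrict (p ⁻¹' ball x₀ (6 * s)), PSD (Q ω))
    (hI : IntegrableOn Q (p ⁻¹' ball x₀ (6 * s)) V) :
    Integrable (fun ω => Real.sqrt (‖Q ω‖ * tL b ι (Q ω)))
      (V.restrict (p ⁻¹' ball x₀ (6 * s))) := by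
  have h1 := aemeas_tL (b := b) (ι := ι) hI
  refine (hI.norm.add h1).mono' ?_ ?_
  · exact Real.continuous_sqrt.comp_aestronglyMeasurable
      (hI.norm.aestronglyMeasurable.mul h1.aestronglyMeasurable)
  · filter_upwards [hQ] with ω h
    rw [Real.norm_of_nonneg (Real.sqrt_nonneg _), Pi.add_apply]
    refine Real.sqrt_le_iff.2 ⟨add_nonneg (norm_nonneg _) (tL_nonneg h), ?_⟩
    nlinarith [norm_nonneg (Q ω), tL_nonneg (b := b) (ι := ι) h]

theorem int_sqrt_le (hQ : ∀ᵐ ω ∂V.restrict (p ⁻¹' ball x₀ (6 * s)), PSD (Q ω))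
    (hI : IntegrableOn Q (p ⁻¹' ball x₀ (6 * s)) V) :
    ∫ ω in p ⁻¹' ball x₀ (6 * s), Real.sqrt (‖Q ω‖ * tL b ι (Q ω)) ∂V ≤
      Real.sqrt ((∫ ω in p ⁻¹' ball x₀ (6 * s), ‖Q ω‖ ∂V) *
        ∫ ω in p ⁻¹' ball x₀ (6 * s), tL b ι (Q ω) ∂V) := by
  have h1 := aemeas_tL (b := b) (ι := ι) hI
  set μ := V.restrict (p ⁻¹' ball x₀ (6 * s)) with hμ
  have e0 : (fun ω => Real.sqrt (‖Q ω‖ * tL b ι (Q ω))) =
      fun ω => Real.sqrt ‖Q ω‖ * Real.sqrt (tL b ι (Q ω)) := by
    funext ω; rw [Real.sqrt_mul (norm_nonneg _)]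
  have e1 : ∀ᵐ ω ∂μ, Real.sqrt ‖Q ω‖ ^ 2 = ‖Q ω‖ :=
    Filter.Eventually.of_forall fun ω => Real.sq_sqrt (norm_nonneg _)
  have e2 : ∀ᵐ ω ∂μ, Real.sqrt (tL b ι (Q ω)) ^ 2 = tL b ι (Q ω) := by
    filter_upwards [hQ] with ω h using Real.sq_sqrt (tL_nonneg h)
  have hcs := integral_cs (μ := μ) (f := fun ω => Real.sqrt ‖Q ω‖)
    (g := fun ω => Real.sqrt (tL b ι (Q ω)))
    (hI.norm.congr (e1.mono fun _ h => h.symm)) (h1.congr (e2.mono fun _ h => h.symm))
    (by have := int_sqrt (b := b) (ι := ι) hQ hI; rwa [e0] at this)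
  rw [integral_congr_ae e1, integral_congr_ae e2] at hcs
  refine Real.le_sqrt_of_sq_le ?_
  rw [e0]
  exact hcs

/-- **the projected inequality (H2)**. -/
theorem proj_H2 (hC : ∀ y : F, ‖fderiv ℝ (prof (F := F)) y‖ ≤ C) (hs : 0 < s)
    (hα : α (ball x₀ (6 * s)) < ∞) (hκ : κ (ball x₀ (6 * s)) < ∞) (hp : Measurable p)
    (hQ : ∀ᵐ ω ∂V.restrict (p ⁻¹' ball x₀ (6 * s)), PSD (Q ω))
    (hI : IntegrableOn Q (p ⁻¹' ball x₀ (6 * s)) V)
    (hD : DivErr α V p Q κ s (ball x₀ (6 * s)))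
    {U : G → ℝ} (hU : ContDiff ℝ (⊤ : ℕ∞) U) (hUc : HasCompactSupport U)
    (hUs : tsupport U ⊆ ball (pr ι x₀) (4 * s)) :
    |∫ y, lap b U y ∂(mA α ι x₀ s)| ≤ (Fintype.card I : ℝ) *
      (∫ y, ‖fderiv ℝ (fderiv ℝ U) y‖ ∂(mE b V p Q ι x₀ s) +
        C / s * ∫ y, ‖fderiv ℝ U y‖ ∂(mH b V p Q ι x₀ s) +
        ∫ y, ‖fderiv ℝ (fderiv ℝ U) y‖ ∂(mK κ ι x₀ s) +
        (C + 1) / s * ∫ y, ‖fderiv ℝ U y‖ ∂(mK κ ι x₀ s)) := by
  set B := ball x₀ (6 * s) with hB
  have hC0 : 0 ≤ C := (norm_nonneg _).trans (hC 0)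
  have hBm : MeasurableSet B := measurableSet_ball
  have : IsFiniteMeasure (α.restrict B) := ⟨by rwa [Measure.restrict_apply_univ]⟩
  have : IsFiniteMeasure (κ.restrict B) := ⟨by rwa [Measure.restrict_apply_univ]⟩
  have c1 : Continuous (fun y => ‖fderiv ℝ U y‖) := (hU.continuous_fderiv (by simp)).norm
  have c2 : Continuous (fun y => ‖fderiv ℝ (fderiv ℝ U) y‖) :=
    ((dU_contDiff hU).continuous_fderiv (by simp)).norm
  have c3 : Continuous (lap b U) := by
    unfold lap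
    refine continuous_finsetSum _ fun i _ => ?_
    exact (((dU_contDiff hU).continuous_fderiv (by simp)).clm_apply continuous_const).clm_apply
      continuous_const
  -- bounds
  obtain ⟨M1, hM1⟩ := (hU.continuous_fderiv (by simp)).bounded_above_of_compact_support
    (hUc.fderiv ℝ)
  obtain ⟨M2, hM2⟩ := ((dU_contDiff hU).continuous_fderiv (by simp)).bounded_above_of_compact_support
    ((hUc.fderiv ℝ).fderiv ℝ)
  have hgp : Measurable (fun ω => pr ι (p ω)) := measurable_pr.comp hp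
  -- S1
  have S1 : ∫ y, lap b U y ∂(mA α ι x₀ s) = ∑ i, ∫ x, fderiv ℝ (zet ι x₀ s U (b i)) x (ι (b i)) ∂α := by
    rw [mA, integral_push (cut_contDiff ι x₀ s).continuous.aemeasurable
      (Filter.Eventually.of_forall fun x => cut_nonneg ι x₀ s x) measurable_pr c3]
    simp only [← sum_zet b hU]
    rw [integral_finsetSum]
    · refine Finset.sum_congr rfl fun i _ => ?_
      refine setIntegral_eq_integral_of_forall_compl_eq_zero fun x hx => ?_
      have : fderiv ℝ (zet ι x₀ s U (b i)) x = 0 := by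
        by_contra h
        exact hx (zet_tsupport hs hUs (b i) (support_fderiv_subset ℝ h))
      rw [this]; rfl
    · intro i _
      have hc : Continuous fun x => fderiv ℝ (zet ι x₀ s U (b i)) x (ι (b i)) :=
        ((zet_contDiff hU (b i)).continuous_fderiv (by simp)).clm_apply continuous_const
      refine hc.integrable_of_hasCompactSupport ?_
      exact (zet_compact hs hUs (b i)).fderiv_apply ℝ (ι (b i))
  -- integrability of the bounds
  have i1 : Integrable (fun ω => Real.sqrt (‖Q ω‖ * tL b ι (Q ω)) * ‖fderiv ℝ U (pr ι (p ω))‖)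
      (V.restrict (p ⁻¹' B)) := by
    refine (int_sqrt (b := b) (ι := ι) hQ hI).mul_bdd (c := M1) ?_ ?_
    · exact (c1.measurable.comp hgp).aestronglyMeasurable
    · exact Filter.Eventually.of_forall fun ω => by rw [Real.norm_eq_abs, abs_norm]; exact hM1 _
  have i2 : Integrable (fun ω => tL b ι (Q ω) * ‖fderiv ℝ (fderiv ℝ U) (pr ι (p ω))‖)
      (V.restrict (p ⁻¹' B)) := by
    refine (aemeas_tL (b := b) (ι := ι) hI).mul_bdd (c := M2) ?_ ?_
    · exact (c2.measurable.comp hgp).aestronglyMeasurable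
    · exact Filter.Eventually.of_forall fun ω => (le_of_eq (abs_of_nonneg (norm_nonneg _))).trans (hM2 _)
  have i3 : Integrable (fun x => ‖fderiv ℝ U (pr ι x)‖) (κ.restrict B) := by
    refine Integrable.of_bound (c1.comp (pr ι).continuous).aestronglyMeasurable M1 ?_
    exact Filter.Eventually.of_forall fun ω => by rw [Real.norm_eq_abs, abs_norm]; exact hM1 _
  have i4 : Integrable (fun x => ‖fderiv ℝ (fderiv ℝ U) (pr ι x)‖) (κ.restrict B) := by
    refine Integrable.of_bound (c2.comp (pr ι).continuous).aestronglyMeasurable M2 ?_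
    exact Filter.Eventually.of_forall fun ω => (le_of_eq (abs_of_nonneg (norm_nonneg _))).trans (hM2 _)
  -- S3
  have S3 : ∀ i, |∫ ω, fderiv ℝ (zet ι x₀ s U (b i)) (p ω) (Q ω (ι (b i))) ∂V| ≤
      C / s * ∫ ω in p ⁻¹' B, Real.sqrt (‖Q ω‖ * tL b ι (Q ω)) * ‖fderiv ℝ U (pr ι (p ω))‖ ∂V +
        ∫ ω in p ⁻¹' B, tL b ι (Q ω) * ‖fderiv ℝ (fderiv ℝ U) (pr ι (p ω))‖ ∂V := by
    intro i
    have h1 : ∫ ω, fderiv ℝ (zet ι x₀ s U (b i)) (p ω) (Q ω (ι (b i))) ∂V =
        ∫ ω in p ⁻¹' B, fderiv ℝ (zet ι x₀ s U (b i)) (p ω) (Q ω (ι (b i))) ∂V := by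
      refine (setIntegral_eq_integral_of_forall_compl_eq_zero fun ω hω => ?_).symm
      have : fderiv ℝ (zet ι x₀ s U (b i)) (p ω) = 0 := by
        by_contra h
        exact hω (zet_tsupport hs hUs (b i) (support_fderiv_subset ℝ h))
      rw [this]; rfl
    rw [h1, ← Real.norm_eq_abs, ← integral_const_mul, ← integral_add (i1.const_mul _) i2]
    refine norm_integral_le_of_norm_le ((i1.const_mul _).add i2) ?_
    filter_upwards [hQ] with ω h
    have := zet_q_le (x₀ := x₀) (b := b) (ι := ι) hC hs hU h i (p ω)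
    rw [Real.norm_eq_abs]
    refine this.trans (le_of_eq ?_)
    ring
  -- S4
  have S4 : ∀ i, ∫ y, (‖fderiv ℝ (zet ι x₀ s U (b i)) y‖ + |zet ι x₀ s U (b i) y| / s) ∂κ ≤
      (C + 1) / s * ∫ x in B, ‖fderiv ℝ U (pr ι x)‖ ∂κ +
        ∫ x in B, ‖fderiv ℝ (fderiv ℝ U) (pr ι x)‖ ∂κ := by
    intro i
    have h1 : ∫ y, (‖fderiv ℝ (zet ι x₀ s U (b i)) y‖ + |zet ι x₀ s U (b i) y| / s) ∂κ =
        ∫ y in B, (‖fderiv ℝ (zet ι x₀ s U (b i)) y‖ + |zet ι x₀ s U (b i) y| / s) ∂κ := by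
      refine (setIntegral_eq_integral_of_forall_compl_eq_zero fun y hy => ?_).symm
      have e1 : fderiv ℝ (zet ι x₀ s U (b i)) y = 0 := by
        by_contra h
        exact hy (zet_tsupport hs hUs (b i) (support_fderiv_subset ℝ h))
      have e2 : zet ι x₀ s U (b i) y = 0 := by
        by_contra h
        exact hy (zet_tsupport hs hUs (b i) (subset_tsupport _ h))
      rw [e1, e2]; simp
    rw [h1, ← integral_const_mul, ← integral_add (i3.const_mul _) i4]
    refine integral_mono_of_nonneg ?_ ((i3.const_mul _).add i4) ?_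
    · exact Filter.Eventually.of_forall fun y => by positivity
    · exact Filter.Eventually.of_forall fun y => zet_le (x₀ := x₀) (ι := ι) hC hs hU i y
  -- conclusion
  have S5 : ∀ i, |∫ x, fderiv ℝ (zet ι x₀ s U (b i)) x (ι (b i)) ∂α| ≤
      (C / s * ∫ ω in p ⁻¹' B, Real.sqrt (‖Q ω‖ * tL b ι (Q ω)) * ‖fderiv ℝ U (pr ι (p ω))‖ ∂V +
        ∫ ω in p ⁻¹' B, tL b ι (Q ω) * ‖fderiv ℝ (fderiv ℝ U) (pr ι (p ω))‖ ∂V) +
      ((C + 1) / s * ∫ x in B, ‖fderiv ℝ U (pr ι x)‖ ∂κ +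
        ∫ x in B, ‖fderiv ℝ (fderiv ℝ U) (pr ι x)‖ ∂κ) := by
    intro i
    have h1 := hD (zet ι x₀ s U (b i)) (zet_contDiff hU (b i)) (zet_compact hs hUs (b i))
      (zet_tsupport hs hUs (b i)) (ι (b i))
    rw [ι.norm_map, b.norm_eq_one, one_mul] at h1
    have h2 := S3 i
    have h3 := S4 i
    rw [abs_le] at h1 h2 ⊢
    constructor <;> linarith [h1.1, h1.2, h2.1, h2.2]
  rw [mE, mH, mK, integral_push (aemeas_tL hI).aestronglyMeasurable.aemeasurable
      (by filter_upwards [hQ] with ω h using tL_nonneg h) hgp c2,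
    integral_push (int_sqrt hQ hI).aestronglyMeasurable.aemeasurable
      (Filter.Eventually.of_forall fun _ => Real.sqrt_nonneg _) hgp c1,
    integral_push aemeasurable_const (Filter.Eventually.of_forall fun _ => zero_le_one)
      measurable_pr c2,
    integral_push aemeasurable_const (Filter.Eventually.of_forall fun _ => zero_le_one)
      measurable_pr c1, S1]
  simp only [one_mul]
  refine (Finset.abs_sum_le_sum_abs _ _).trans ?_
  refine (Finset.sum_le_sum fun i _ => S5 i).trans (le_of_eq ?_)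
  rw [Finset.sum_const, Finset.card_univ, nsmul_eq_mul]
  ring

end

end Crest.Agent.R234.Proj_929
end

-- ▼ part R234/Proj3_929
section

/-! Row 234, VF-PROJ (task 1505), part 3: energy bound of sets with small projection
(`f ≤ η E` of #5124, (4) + (3)) from the strong constancy lemma on `L` (Prop `SC1`). -/

namespace Crest.Agent.R234.Proj_929

open MeasureTheory Set Metric Crest.Agent.R234.Rig_300
open scoped ENNReal

set_option linter.unusedSectionVars false

noncomputable section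

universe u

variable {F G : Type*} [NormedAddCommGroup F] [InnerProductSpace ℝ F] [FiniteDimensional ℝ F]
  [NormedAddCommGroup G] [InnerProductSpace ℝ G] [FiniteDimensional ℝ G]
  [MeasurableSpace F] [BorelSpace F] [MeasurableSpace G] [BorelSpace G]
  {I : Type*} [Fintype I]

/-- the strong constancy lemma VF-SC (helper173, #5425) on `G`, orthonormal basis `b`. -/
def SC1 (b : OrthonormalBasis I ℝ G) : Prop :=
  ∃ C : ℝ, 0 ≤ C ∧ ∀ (A Em Gm : Measure G) [IsFiniteMeasure A] [IsFiniteMeasure Em]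
    [IsFiniteMeasure Gm] (x₀ : G) (r M δ : ℝ), 0 < r → 0 ≤ δ → δ ≤ M →
    A (ball x₀ (4 * r)) ≤ ENNReal.ofReal M → Em (ball x₀ (4 * r)) ≤ ENNReal.ofReal δ →
    Gm (ball x₀ (4 * r)) ≤ ENNReal.ofReal (δ / r) →
    (∀ U : G → ℝ, ContDiff ℝ (⊤ : ℕ∞) U → HasCompactSupport U → tsupport U ⊆ ball x₀ (4 * r) →
      |∫ y, lap b U y ∂A| ≤
        ∫ y, ‖fderiv ℝ (fderiv ℝ U) y‖ ∂Em + ∫ y, ‖fderiv ℝ U y‖ ∂Gm) →
    ∀ S : Set G, MeasurableSet S → S ⊆ ball x₀ r →
      A S ≤ ENNReal.ofReal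
        (C * (M * (volume S).toReal / r ^ Module.finrank ℝ G + Real.sqrt (M * δ)))

theorem push_univ_le {X : Type*} [MeasurableSpace X] {μ : Measure X} {f : X → ℝ} {g : X → G}
    (hg : Measurable g) (h1 : ∀ x, f x ≤ 1) : push μ f g univ ≤ μ univ := by
  rw [push, Measure.map_apply hg MeasurableSet.univ, preimage_univ,
    withDensity_apply _ MeasurableSet.univ, setLIntegral_univ]
  calc ∫⁻ x, ENNReal.ofReal (f x) ∂μ ≤ ∫⁻ _, 1 ∂μ := by
        refine lintegral_mono fun x => ?_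
        rw [← ENNReal.ofReal_one]
        exact ENNReal.ofReal_le_ofReal (h1 x)
    _ = μ univ := lintegral_one

theorem d2_zero {U : G → ℝ} {y : G} (hy : y ∉ tsupport U) : fderiv ℝ (fderiv ℝ U) y = 0 := by
  by_contra h
  exact hy (tsupport_fderiv_subset ℝ (f := U) (support_fderiv_subset ℝ (f := fderiv ℝ U) h))

theorem d2_compact {U : G → ℝ} (hUc : HasCompactSupport U) :
    HasCompactSupport (fun y => ‖fderiv ℝ (fderiv ℝ U) y‖) := by
  refine HasCompactSupport.intro (K := tsupport U) hUc fun y hy => ?_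
  simp only [d2_zero hy]
  exact ContinuousLinearMap.opNorm_zero

theorem integral_comb {μ₁ μ₂ : Measure G} [IsFiniteMeasure μ₁] [IsFiniteMeasure μ₂] {a₁ a₂ : ℝ}
    (h₁ : 0 ≤ a₁) (h₂ : 0 ≤ a₂) {φ : G → ℝ} (hφ : Continuous φ) (hc : HasCompactSupport φ) :
    ∫ y, φ y ∂(ENNReal.ofReal a₁ • μ₁ + ENNReal.ofReal a₂ • μ₂) =
      a₁ * ∫ y, φ y ∂μ₁ + a₂ * ∫ y, φ y ∂μ₂ := by
  have f1 : Integrable φ μ₁ := hφ.integrable_of_hasCompactSupport hc
  have f2 : Integrable φ μ₂ := hφ.integrable_of_hasCompactSupport hc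
  have g1 : Integrable φ (ENNReal.ofReal a₁ • μ₁) := f1.smul_measure ENNReal.ofReal_ne_top
  have g2 : Integrable φ (ENNReal.ofReal a₂ • μ₂) := f2.smul_measure ENNReal.ofReal_ne_top
  rw [integral_add_measure g1 g2, integral_smul_measure, integral_smul_measure,
    ENNReal.toReal_ofReal h₁, ENNReal.toReal_ofReal h₂, smul_eq_mul, smul_eq_mul]

theorem finite_comb {μ₁ μ₂ : Measure G} [IsFiniteMeasure μ₁] [IsFiniteMeasure μ₂] (a₁ a₂ : ℝ) :
    IsFiniteMeasure (ENNReal.ofReal a₁ • μ₁ + ENNReal.ofReal a₂ • μ₂) := by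
  have f1 : IsFiniteMeasure (ENNReal.ofReal a₁ • μ₁) :=
    Measure.smul_finite _ ENNReal.ofReal_ne_top
  have f2 : IsFiniteMeasure (ENNReal.ofReal a₂ • μ₂) :=
    Measure.smul_finite _ ENNReal.ofReal_ne_top
  infer_instance

theorem comb_le {μ₁ μ₂ : Measure G} {a₁ a₂ δ t : ℝ} (h₁ : 0 ≤ a₁) (h₂ : 0 ≤ a₂) (hδ : 0 ≤ δ)
    (m₁ : μ₁ univ ≤ ENNReal.ofReal δ) (m₂ : μ₂ univ ≤ ENNReal.ofReal δ)
    (ht : a₁ * δ + a₂ * δ ≤ t) (S : Set G) :
    (ENNReal.ofReal a₁ • μ₁ + ENNReal.ofReal a₂ • μ₂) S ≤ ENNReal.ofReal t := by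
  refine (measure_mono (subset_univ _)).trans ?_
  rw [Measure.add_apply, Measure.smul_apply, Measure.smul_apply, smul_eq_mul, smul_eq_mul]
  calc ENNReal.ofReal a₁ * μ₁ univ + ENNReal.ofReal a₂ * μ₂ univ
      ≤ ENNReal.ofReal a₁ * ENNReal.ofReal δ + ENNReal.ofReal a₂ * ENNReal.ofReal δ := by gcongr
    _ = ENNReal.ofReal (a₁ * δ + a₂ * δ) := by
        rw [← ENNReal.ofReal_mul h₁, ← ENNReal.ofReal_mul h₂,
          ← ENNReal.ofReal_add (by positivity) (by positivity)]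
    _ ≤ _ := ENNReal.ofReal_le_ofReal ht

/-- the data of the projection lemma: `α ≥ 0` (excess + holes), `κ` (errors), `e = p_# (Q dV)`,
`B = ball x₀ (6 s)`. -/
structure Data {Ω : Type u} [MeasurableSpace Ω] (b : OrthonormalBasis I ℝ G) (ι : G →ₗᵢ[ℝ] F)
    (α κ : Measure F) (V : Measure Ω) (p : Ω → F) (Q : Ω → F →L[ℝ] F) (x₀ : F) (s M δ : ℝ) :
    Prop where
  s_pos : 0 < s
  meas : Measurable p
  psd : ∀ᵐ ω ∂V.restrict (p ⁻¹' ball x₀ (6 * s)), PSD (Q ω)
  int : IntegrableOn Q (p ⁻¹' ball x₀ (6 * s)) V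
  div : DivErr α V p Q κ s (ball x₀ (6 * s))
  δM : δ ≤ M
  mα : α (ball x₀ (6 * s)) ≤ ENNReal.ofReal M
  mκ : κ (ball x₀ (6 * s)) ≤ ENNReal.ofReal δ
  mL : ∫ ω in p ⁻¹' ball x₀ (6 * s), tL b ι (Q ω) ∂V ≤ δ
  mS : Real.sqrt ((∫ ω in p ⁻¹' ball x₀ (6 * s), ‖Q ω‖ ∂V) *
    ∫ ω in p ⁻¹' ball x₀ (6 * s), tL b ι (Q ω) ∂V) ≤ δ

set_option maxHeartbeats 1000000 in
/-- **mass of the excess over sets of `L`**. -/
theorem alpha_le (b : OrthonormalBasis I ℝ G) (hSC : SC1 b) : ∃ C : ℝ, 0 ≤ C ∧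
    ∀ {Ω : Type u} [MeasurableSpace Ω] (ι : G →ₗᵢ[ℝ] F) (α κ : Measure F) (V : Measure Ω)
      (p : Ω → F) (Q : Ω → F →L[ℝ] F) (x₀ : F) (s M δ : ℝ), Data b ι α κ V p Q x₀ s M δ →
      ∀ S : Set G, MeasurableSet S →
        α (ball x₀ s ∩ pr ι ⁻¹' S) ≤ ENNReal.ofReal (C * M / s ^ Module.finrank ℝ G) * volume S +
          ENNReal.ofReal (C * Real.sqrt (M * δ)) := by
  obtain ⟨C₀, hC₀, hSC⟩ := hSC
  obtain ⟨C', hC'0, hC'⟩ := exists_prof_bound (F := F)
  set n : ℝ := (Fintype.card I : ℝ) with hn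
  have hn0 : 0 ≤ n := Nat.cast_nonneg _
  set K : ℝ := 1 + 2 * n + n * (2 * C' + 1) with hK
  have hK1 : 1 ≤ K := by rw [hK]; nlinarith [mul_nonneg hn0 hC'0]
  refine ⟨C₀ * K, by positivity, ?_⟩
  intro Ω _ ι α κ V p Q x₀ s M δ D S hS
  have hs := D.s_pos
  have hδ0 : 0 ≤ δ := (Real.sqrt_nonneg _).trans D.mS
  have hM0 : 0 ≤ M := hδ0.trans D.δM
  have hgp : Measurable (fun ω => pr ι (p ω)) := measurable_pr.comp D.meas
  have hα : α (ball x₀ (6 * s)) < ∞ := D.mα.trans_lt ENNReal.ofReal_lt_top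
  have hκ : κ (ball x₀ (6 * s)) < ∞ := D.mκ.trans_lt ENNReal.ofReal_lt_top
  -- masses
  have mA1 : mA α ι x₀ s univ ≤ ENNReal.ofReal M := by
    refine (push_univ_le measurable_pr (cut_le_one ι x₀ s)).trans ?_
    rw [Measure.restrict_apply_univ]
    exact D.mα
  have mE1 : mE b V p Q ι x₀ s univ ≤ ENNReal.ofReal δ := by
    rw [mE, push_univ (aemeas_tL D.int) (by filter_upwards [D.psd] with ω h using tL_nonneg h) hgp]
    exact ENNReal.ofReal_le_ofReal D.mL
  have mH1 : mH b V p Q ι x₀ s univ ≤ ENNReal.ofReal δ := by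
    rw [mH, push_univ (int_sqrt D.psd D.int)
      (Filter.Eventually.of_forall fun _ => Real.sqrt_nonneg _) hgp]
    exact ENNReal.ofReal_le_ofReal ((int_sqrt_le D.psd D.int).trans D.mS)
  have mK1 : mK κ ι x₀ s univ ≤ ENNReal.ofReal δ := by
    refine (push_univ_le measurable_pr (fun _ => le_refl _)).trans ?_
    rw [Measure.restrict_apply_univ]
    exact D.mκ
  have fA : IsFiniteMeasure (mA α ι x₀ s) := ⟨mA1.trans_lt ENNReal.ofReal_lt_top⟩
  have fE : IsFiniteMeasure (mE b V p Q ι x₀ s) := ⟨mE1.trans_lt ENNReal.ofReal_lt_top⟩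
  have fH : IsFiniteMeasure (mH b V p Q ι x₀ s) := ⟨mH1.trans_lt ENNReal.ofReal_lt_top⟩
  have fK : IsFiniteMeasure (mK κ ι x₀ s) := ⟨mK1.trans_lt ENNReal.ofReal_lt_top⟩
  -- the two measures
  have e1 : 0 ≤ n * (C' / s) := by positivity
  have e2 : 0 ≤ n * ((C' + 1) / s) := by positivity
  have fEm : IsFiniteMeasure (ENNReal.ofReal n • mE b V p Q ι x₀ s +
    ENNReal.ofReal n • mK κ ι x₀ s) := finite_comb _ _
  have fGm : IsFiniteMeasure (ENNReal.ofReal (n * (C' / s)) • mH b V p Q ι x₀ s +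
    ENNReal.ofReal (n * ((C' + 1) / s)) • mK κ ι x₀ s) := finite_comb _ _
  have a1 : mA α ι x₀ s (ball (pr ι x₀) (4 * s)) ≤ ENNReal.ofReal (K * M) := by
    refine (measure_mono (subset_univ _)).trans (mA1.trans (ENNReal.ofReal_le_ofReal ?_))
    nlinarith
  have a2 : (ENNReal.ofReal n • mE b V p Q ι x₀ s + ENNReal.ofReal n • mK κ ι x₀ s)
      (ball (pr ι x₀) (4 * s)) ≤ ENNReal.ofReal (K * δ) := by
    refine comb_le hn0 hn0 hδ0 mE1 mK1 ?_ _
    rw [hK]
    nlinarith [mul_nonneg (mul_nonneg hn0 hC'0) hδ0, mul_nonneg hn0 hδ0]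
  have a3 : (ENNReal.ofReal (n * (C' / s)) • mH b V p Q ι x₀ s +
      ENNReal.ofReal (n * ((C' + 1) / s)) • mK κ ι x₀ s)
      (ball (pr ι x₀) (4 * s)) ≤ ENNReal.ofReal (K * δ / s) := by
    refine comb_le e1 e2 hδ0 mH1 mK1 ?_ _
    rw [le_div_iff₀ hs]
    have e3 : (n * (C' / s) * δ + n * ((C' + 1) / s) * δ) * s = n * (2 * C' + 1) * δ := by
      field_simp
      ring
    rw [e3, hK]
    nlinarith [mul_nonneg (mul_nonneg hn0 hC'0) hδ0, mul_nonneg hn0 hδ0]
  have a4 : ∀ U : G → ℝ, ContDiff ℝ (⊤ : ℕ∞) U → HasCompactSupport U →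
      tsupport U ⊆ ball (pr ι x₀) (4 * s) → |∫ y, lap b U y ∂(mA α ι x₀ s)| ≤
        ∫ y, ‖fderiv ℝ (fderiv ℝ U) y‖ ∂(ENNReal.ofReal n • mE b V p Q ι x₀ s +
          ENNReal.ofReal n • mK κ ι x₀ s) +
        ∫ y, ‖fderiv ℝ U y‖ ∂(ENNReal.ofReal (n * (C' / s)) • mH b V p Q ι x₀ s +
          ENNReal.ofReal (n * ((C' + 1) / s)) • mK κ ι x₀ s) := by
    intro U hU hUc hUs
    have h1 := proj_H2 (b := b) hC' hs hα hκ D.meas D.psd D.int D.div hU hUc hUs
    have c1 : Continuous (fun y => ‖fderiv ℝ U y‖) := (hU.continuous_fderiv (by simp)).norm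
    have c2 : Continuous (fun y => ‖fderiv ℝ (fderiv ℝ U) y‖) :=
      ((dU_contDiff hU).continuous_fderiv (by simp)).norm
    have s1 : HasCompactSupport (fun y => ‖fderiv ℝ U y‖) := (hUc.fderiv ℝ).norm
    have s2 : HasCompactSupport (fun y => ‖fderiv ℝ (fderiv ℝ U) y‖) := d2_compact hUc
    have g1 := integral_comb (μ₁ := mE b V p Q ι x₀ s) (μ₂ := mK κ ι x₀ s) hn0 hn0 c2 s2
    have g2 := integral_comb (μ₁ := mH b V p Q ι x₀ s) (μ₂ := mK κ ι x₀ s) e1 e2 c1 s1
    rw [g1, g2]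
    refine h1.trans (le_of_eq ?_)
    ring
  have a5 : 0 ≤ K * δ := by positivity
  have a6 : K * δ ≤ K * M := mul_le_mul_of_nonneg_left D.δM (by positivity)
  have key := hSC (mA α ι x₀ s) _ _ (pr ι x₀) s (K * M) (K * δ) hs a5 a6 a1 a2 a3 a4
    (S ∩ ball (pr ι x₀) s) (hS.inter measurableSet_ball) inter_subset_right
  -- conclusion
  have h2 : α (ball x₀ s ∩ pr ι ⁻¹' S) ≤ mA α ι x₀ s (S ∩ ball (pr ι x₀) s) := by
    have h3 : ball x₀ s ∩ pr ι ⁻¹' S = ball x₀ s ∩ pr ι ⁻¹' (S ∩ ball (pr ι x₀) s) := by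
      ext x
      constructor
      · rintro ⟨hx1, hx2⟩
        refine ⟨hx1, hx2, ?_⟩
        rw [mem_ball, dist_eq_norm] at hx1 ⊢
        rw [← map_sub]
        exact (norm_pr_le ι _).trans_lt hx1
      · rintro ⟨hx1, hx2, _⟩
        exact ⟨hx1, hx2⟩
    have h4 : α (ball x₀ s ∩ pr ι ⁻¹' (S ∩ ball (pr ι x₀) s)) =
        (α.restrict (ball x₀ (6 * s))) (ball x₀ s ∩ pr ι ⁻¹' (S ∩ ball (pr ι x₀) s)) := by
      rw [Measure.restrict_apply' measurableSet_ball]
      congr 1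
      refine (inter_eq_left.2 ?_).symm
      exact inter_subset_left.trans (ball_subset_ball (by linarith))
    rw [h3, h4]
    exact push_apply_le measurable_pr measurableSet_ball (fun x hx => cut_one hs hx)
      (hS.inter measurableSet_ball)
  refine h2.trans (key.trans ?_)
  set v := (volume (S ∩ ball (pr ι x₀) s)).toReal with hv
  have hv0 : 0 ≤ v := ENNReal.toReal_nonneg
  have e3 : Real.sqrt (K * M * (K * δ)) = K * Real.sqrt (M * δ) := by
    rw [show K * M * (K * δ) = K ^ 2 * (M * δ) by ring, Real.sqrt_mul (by positivity),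
      Real.sqrt_sq (by positivity)]
  have e4 : C₀ * (K * M * v / s ^ Module.finrank ℝ G + Real.sqrt (K * M * (K * δ))) =
      C₀ * K * M / s ^ Module.finrank ℝ G * v + C₀ * K * Real.sqrt (M * δ) := by
    rw [e3]; ring
  rw [e4, ENNReal.ofReal_add (by positivity) (by positivity),
    ENNReal.ofReal_mul (by positivity)]
  gcongr
  rw [hv, ENNReal.ofReal_toReal]
  · exact measure_mono inter_subset_left
  · exact ((measure_mono inter_subset_right).trans_lt measure_ball_lt_top).ne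

/-- **(2): energy of an arbitrary set with small projection** (`e ≤ 2 α + κ` in `ball x₀ s`). -/
theorem energy_le (b : OrthonormalBasis I ℝ G) (hSC : SC1 b) : ∃ C : ℝ, 0 ≤ C ∧
    ∀ {Ω : Type u} [MeasurableSpace Ω] (ι : G →ₗᵢ[ℝ] F) (α κ : Measure F) (V : Measure Ω)
      (p : Ω → F) (Q : Ω → F →L[ℝ] F) (x₀ : F) (s M δ : ℝ), Data b ι α κ V p Q x₀ s M δ →
      ∀ e : Measure F, (∀ A, MeasurableSet A → A ⊆ ball x₀ s → e A ≤ 2 * α A + κ A) →
      ∀ N : Set F, N ⊆ ball x₀ s →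
        e N ≤ ENNReal.ofReal (C * M / s ^ Module.finrank ℝ G) * volume (pr ι '' N) +
          ENNReal.ofReal (C * Real.sqrt (M * δ)) := by
  obtain ⟨C, hC, h⟩ := alpha_le.{u} (F := F) b hSC
  refine ⟨2 * C + 1, by positivity, ?_⟩
  intro Ω _ ι α κ V p Q x₀ s M δ D e he N hN
  have hs := D.s_pos
  have hδ0 : 0 ≤ δ := (Real.sqrt_nonneg _).trans D.mS
  have hM0 : 0 ≤ M := hδ0.trans D.δM
  set S := toMeasurable volume (pr ι '' N) with hS
  have hSm : MeasurableSet S := measurableSet_toMeasurable _ _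
  have h1 : N ⊆ ball x₀ s ∩ pr ι ⁻¹' S := fun x hx =>
    ⟨hN hx, subset_toMeasurable _ _ (mem_image_of_mem _ hx)⟩
  have h2 := h ι α κ V p Q x₀ s M δ D S hSm
  have h3 : κ (ball x₀ s ∩ pr ι ⁻¹' S) ≤ ENNReal.ofReal δ :=
    (measure_mono (inter_subset_left.trans (ball_subset_ball (by linarith)))).trans D.mκ
  have h4 : δ ≤ Real.sqrt (M * δ) := Real.le_sqrt_of_sq_le (by nlinarith [D.δM])
  have hm : MeasurableSet (ball x₀ s ∩ pr ι ⁻¹' S) :=
    measurableSet_ball.inter (measurable_pr hSm)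
  rw [measure_toMeasurable] at h2
  have hq0 : 0 ≤ Real.sqrt (M * δ) := Real.sqrt_nonneg _
  calc e N ≤ e (ball x₀ s ∩ pr ι ⁻¹' S) := measure_mono h1
    _ ≤ 2 * α (ball x₀ s ∩ pr ι ⁻¹' S) + κ (ball x₀ s ∩ pr ι ⁻¹' S) :=
        he _ hm inter_subset_left
    _ ≤ 2 * (ENNReal.ofReal (C * M / s ^ Module.finrank ℝ G) * volume (pr ι '' N) +
          ENNReal.ofReal (C * Real.sqrt (M * δ))) + ENNReal.ofReal (Real.sqrt (M * δ)) := by
        gcongr
        exact h3.trans (ENNReal.ofReal_le_ofReal h4)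
    _ ≤ ENNReal.ofReal ((2 * C + 1) * M / s ^ Module.finrank ℝ G) * volume (pr ι '' N) +
          ENNReal.ofReal ((2 * C + 1) * Real.sqrt (M * δ)) := by
        rw [mul_add, ← mul_assoc, add_assoc]
        have e1 : (2 : ℝ≥0∞) = ENNReal.ofReal 2 := by simp
        rw [e1, ← ENNReal.ofReal_mul (by norm_num), ← ENNReal.ofReal_mul (by norm_num),
          ← ENNReal.ofReal_add (by positivity) hq0]
        refine add_le_add ?_ (ENNReal.ofReal_le_ofReal (by linarith))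
        gcongr
        rw [show 2 * (C * M / s ^ Module.finrank ℝ G) = (2 * C) * M / s ^ Module.finrank ℝ G by ring]
        gcongr
        linarith

end

end Crest.Agent.R234.Proj_929
end

-- ▼ part R234/Proj4_929
section

/-! Row 234, VF-PROJ (task 1505), part 4: `SC1` does not depend on the orthonormal basis and is
invariant under isometries; the results for a subspace `L` of the base. -/

namespace Crest.Agent.R234.Proj_929

open MeasureTheory Set Metric Crest.Agent.R234.Rig_300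
open scoped ENNReal

set_option linter.unusedSectionVars false

noncomputable section

universe u

variable {F G G' : Type*} [NormedAddCommGroup F] [InnerProductSpace ℝ F] [FiniteDimensional ℝ F]
  [NormedAddCommGroup G] [InnerProductSpace ℝ G] [FiniteDimensional ℝ G]
  [NormedAddCommGroup G'] [InnerProductSpace ℝ G'] [FiniteDimensional ℝ G']
  {I J : Type*} [Fintype I] [Fintype J]

theorem sum_basis (b : OrthonormalBasis I ℝ G) (b' : OrthonormalBasis J ℝ G)
    (B : G →L[ℝ] G →L[ℝ] ℝ) : ∑ i, B (b i) (b i) = ∑ j, B (b' j) (b' j) := by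
  have h1 : ∀ i, B (b i) (b i) = ∑ j, inner ℝ (b' j) (b i) * B (b i) (b' j) := by
    intro i
    have h := b'.sum_repr' (b i)
    calc B (b i) (b i) = B (b i) (∑ j, inner ℝ (b' j) (b i) • b' j) := by rw [h]
      _ = _ := by simp [map_sum]
  have h2 : ∀ j, B (b' j) (b' j) = ∑ i, inner ℝ (b' j) (b i) * B (b i) (b' j) := by
    intro j
    have h := b.sum_repr' (b' j)
    calc B (b' j) (b' j) = B (∑ i, inner ℝ (b i) (b' j) • b i) (b' j) := by rw [h]
      _ = ∑ i, inner ℝ (b i) (b' j) * B (b i) (b' j) := by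
          simp [map_sum]
      _ = _ := by
          refine Finset.sum_congr rfl fun i _ => ?_
          rw [real_inner_comm]
  simp only [h1, h2]
  exact Finset.sum_comm

theorem lap_basis (b : OrthonormalBasis I ℝ G) (b' : OrthonormalBasis J ℝ G) (U : G → ℝ) :
    lap b U = lap b' U := by
  funext x
  exact sum_basis b b' _

theorem d2_comp (T : G ≃ₗᵢ[ℝ] G') {U : G' → ℝ} (hU : ContDiff ℝ (⊤ : ℕ∞) U) (y v w : G) :
    fderiv ℝ (fderiv ℝ (U ∘ T)) y v w = fderiv ℝ (fderiv ℝ U) (T y) (T v) (T w) := by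
  have hT : ∀ y, HasFDerivAt (T : G → G') (T.toContinuousLinearEquiv : G →L[ℝ] G') y :=
    fun y => T.toContinuousLinearEquiv.hasFDerivAt
  have h1 : fderiv ℝ (U ∘ T) = fun y => (fderiv ℝ U (T y)).comp
      (T.toContinuousLinearEquiv : G →L[ℝ] G') := by
    funext y
    exact (((hU.differentiable (by simp) (T y)).hasFDerivAt).comp y (hT y)).fderiv
  have h2 : HasFDerivAt (fun y => fderiv ℝ U (T y)) _ y :=
    (((dU_contDiff hU).differentiable (by simp) (T y)).hasFDerivAt).comp y (hT y)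
  have h3 := h2.clm_comp (hasFDerivAt_const (T.toContinuousLinearEquiv : G →L[ℝ] G') y)
  rw [h1, h3.fderiv]
  simp

theorem d1_comp (T : G ≃ₗᵢ[ℝ] G') {U : G' → ℝ} (hU : ContDiff ℝ (⊤ : ℕ∞) U) (y v : G) :
    fderiv ℝ (U ∘ T) y v = fderiv ℝ U (T y) (T v) := by
  have hT : HasFDerivAt (T : G → G') (T.toContinuousLinearEquiv : G →L[ℝ] G') y :=
    T.toContinuousLinearEquiv.hasFDerivAt
  rw [(((hU.differentiable (by simp) (T y)).hasFDerivAt).comp y hT).fderiv]
  rfl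

theorem d1_norm (T : G ≃ₗᵢ[ℝ] G') {U : G' → ℝ} (hU : ContDiff ℝ (⊤ : ℕ∞) U) (y : G) :
    ‖fderiv ℝ (U ∘ T) y‖ ≤ ‖fderiv ℝ U (T y)‖ := by
  refine ContinuousLinearMap.opNorm_le_bound _ (norm_nonneg _) fun v => ?_
  rw [d1_comp T hU]
  refine (ContinuousLinearMap.le_opNorm _ _).trans ?_
  rw [T.norm_map]

theorem d2_norm (T : G ≃ₗᵢ[ℝ] G') {U : G' → ℝ} (hU : ContDiff ℝ (⊤ : ℕ∞) U) (y : G) :
    ‖fderiv ℝ (fderiv ℝ (U ∘ T)) y‖ ≤ ‖fderiv ℝ (fderiv ℝ U) (T y)‖ := by
  refine ContinuousLinearMap.opNorm_le_bound _ (ContinuousLinearMap.opNorm_nonneg _) fun v => ?_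
  refine ContinuousLinearMap.opNorm_le_bound _
    (mul_nonneg (ContinuousLinearMap.opNorm_nonneg _) (norm_nonneg _)) fun w => ?_
  rw [d2_comp T hU]
  refine (ContinuousLinearMap.le_opNorm _ _).trans ?_
  rw [T.norm_map]
  gcongr
  refine (ContinuousLinearMap.le_opNorm _ _).trans ?_
  rw [T.norm_map]

variable [MeasurableSpace F] [BorelSpace F] [MeasurableSpace G] [BorelSpace G]
  [MeasurableSpace G'] [BorelSpace G']

/-- `SC1` is invariant under isometries and independent of the basis. -/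
theorem SC1.congr {b' : OrthonormalBasis J ℝ G'} (h : SC1 b') (T : G ≃ₗᵢ[ℝ] G')
    (b : OrthonormalBasis I ℝ G) : SC1 b := by
  obtain ⟨C, hC, h⟩ := h
  refine ⟨C, hC, ?_⟩
  intro A Em Gm _ _ _ x₀ r M δ hr hδ hδM hA hE hG hH S hS hSr
  have hTm : Measurable (T : G → G') := T.continuous.measurable
  have hTe : MeasurableEmbedding (T : G → G') := T.toHomeomorph.measurableEmbedding
  have hfA : IsFiniteMeasure (A.map T) := inferInstance
  have hfE : IsFiniteMeasure (Em.map T) := inferInstance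
  have hfG : IsFiniteMeasure (Gm.map T) := inferInstance
  have hb : ∀ ρ, (T : G → G') ⁻¹' ball (T x₀) ρ = ball x₀ ρ := fun ρ => T.isometry.preimage_ball _ _
  have hm : ∀ (μ : Measure G) ρ, μ.map T (ball (T x₀) ρ) = μ (ball x₀ ρ) := by
    intro μ ρ
    rw [Measure.map_apply hTm measurableSet_ball, hb]
  have key := h (A.map T) (Em.map T) (Gm.map T) (T x₀) r M δ hr hδ hδM
    (by rw [hm]; exact hA) (by rw [hm]; exact hE) (by rw [hm]; exact hG) (by
      intro U hU hUc hUs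
      have hU' : ContDiff ℝ (⊤ : ℕ∞) (U ∘ T) := hU.comp T.contDiff
      have hUc' : HasCompactSupport (U ∘ T) := hUc.comp_homeomorph T.toHomeomorph
      have hUs' : tsupport (U ∘ T) ⊆ ball x₀ (4 * r) := by
        rw [← hb]
        refine closure_minimal (fun y hy => ?_) ?_ |>.trans (preimage_mono hUs)
        · exact subset_tsupport U hy
        · exact (isClosed_tsupport U).preimage T.continuous
      have h1 := hH (U ∘ T) hU' hUc' hUs'
      have e1 : ∫ y, lap b' U y ∂(A.map T) = ∫ y, lap b (U ∘ T) y ∂A := by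
        rw [hTe.integral_map]
        refine integral_congr_ae (Filter.Eventually.of_forall fun y => ?_)
        show lap b' U (T y) = lap b (U ∘ T) y
        rw [lap_basis b' (b.map T)]
        refine Finset.sum_congr rfl fun i _ => ?_
        rw [d2_comp T hU, b.map_apply]
      have c1 : Continuous (fun y => ‖fderiv ℝ U y‖) := (hU.continuous_fderiv (by simp)).norm
      have c2 : Continuous (fun y => ‖fderiv ℝ (fderiv ℝ U) y‖) :=
        ((dU_contDiff hU).continuous_fderiv (by simp)).norm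
      have s1 : HasCompactSupport (fun y => ‖fderiv ℝ U y‖) := (hUc.fderiv ℝ).norm
      have s2 : HasCompactSupport (fun y => ‖fderiv ℝ (fderiv ℝ U) y‖) := d2_compact hUc
      have f1 : Integrable (fun y => ‖fderiv ℝ U (T y)‖) Gm :=
        (c1.comp T.continuous).integrable_of_hasCompactSupport (s1.comp_homeomorph T.toHomeomorph)
      have f2 : Integrable (fun y => ‖fderiv ℝ (fderiv ℝ U) (T y)‖) Em :=
        (c2.comp T.continuous).integrable_of_hasCompactSupport (s2.comp_homeomorph T.toHomeomorph)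
      rw [e1, hTe.integral_map, hTe.integral_map]
      refine h1.trans (add_le_add ?_ ?_)
      · refine integral_mono_of_nonneg
          (Filter.Eventually.of_forall fun _ => ContinuousLinearMap.opNorm_nonneg _) f2
          (Filter.Eventually.of_forall fun y => d2_norm T hU y)
      · refine integral_mono_of_nonneg (Filter.Eventually.of_forall fun _ => norm_nonneg _) f1
          (Filter.Eventually.of_forall fun y => d1_norm T hU y))
    (T '' S) (hTe.measurableSet_image.2 hS) (by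
      rintro _ ⟨y, hy, rfl⟩
      have := hSr hy
      rw [← hb] at this
      exact this)
  have e2 : A.map T (T '' S) = A S := by
    rw [hTe.map_apply, preimage_image_eq _ T.injective]
  have e3 : volume (T '' S) = volume S := by
    rw [← T.measurePreserving.map_eq, hTe.map_apply, preimage_image_eq _ T.injective]
  have e4 : Module.finrank ℝ G' = Module.finrank ℝ G := T.toLinearEquiv.finrank_eq.symm
  rw [e2, e3, e4] at key
  exact key


end

end Crest.Agent.R234.Proj_929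
end

-- ▼ part R234/N5c_372
section

/-!
Row 234, node N5 (LOCAL) of the core (helper372), part 3: the divergence inequality of the measure
`al` on the base (929's `DivErr`) with error measure `holes + tl² + almost-stationarity errors`;
horizontal almost stationarity `HDiv` from `CylStat` and from `AS π U δ`.
-/

set_option autoImplicit false

open MeasureTheory Metric Set Filter Topology
open Crest.GeometryTopology.Submanifold
open Crest.Agent.R234.Vf_884 Crest.Agent.R234.Ar_870 Crest.Agent.R234.Cy_870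
open scoped ENNReal NNReal InnerProductSpace

noncomputable section

namespace Crest.Agent.R234.N5_372

variable {m n k : ℕ} {π : Euc k →L[ℝ] Euc m} {κ : Euc k →L[ℝ] Euc n} {W : Measure (Euc k × L k)}
  {x x₀ : Euc m} {R h₀ : ℝ} {NN : Euc m → ℝ≥0∞} {Q : ℝ≥0∞} {B : Set (Euc m)}

/-- horizontal almost stationarity over `B`, error measure `kA` on the base. -/
def HDiv (W : Measure (Euc k × L k)) (π : Euc k →L[ℝ] Euc m) (kA : Measure (Euc m))
    (B : Set (Euc m)) : Prop :=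
  ∀ ζ : Euc m → ℝ, ContDiff ℝ (⊤ : ℕ∞) ζ → HasCompactSupport ζ → tsupport ζ ⊆ B → ∀ ξ : Euc m,
    |∫ p, fderiv ℝ ζ (π p.1) (Shh π p.2 ξ) ∂W| ≤ ‖ξ‖ * ∫ y, (‖fderiv ℝ ζ y‖ + |ζ y|) ∂kA

theorem HDiv.mono {kA : Measure (Euc m)} (h : HDiv W π kA B) {A : Set (Euc m)} (hAB : A ⊆ B) :
    HDiv W π kA A := fun ζ h1 h2 h3 ξ => h ζ h1 h2 (h3.trans hAB) ξ

theorem norm_pi_le (hs : Split π κ) (u : Euc k) : ‖π u‖ ≤ ‖u‖ := by
  have h1 := hs.norm_sq u
  nlinarith [norm_nonneg (π u), norm_nonneg u, sq_nonneg ‖κ u‖]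

theorem norm_Shh_le (hs : Split π κ) {P : L k} (hP : IsPr P) (v : Euc m) :
    ‖Shh π P v‖ ≤ ‖v‖ := by
  calc ‖Shh π P v‖ = ‖π (P (ContinuousLinearMap.adjoint π v))‖ := rfl
    _ ≤ ‖P (ContinuousLinearMap.adjoint π v)‖ := norm_pi_le hs _
    _ ≤ ‖ContinuousLinearMap.adjoint π v‖ := norm_pr_le hP _
    _ = ‖v‖ := norm_adjoint_co hs.hh v

theorem int_deriv_zero {ζ : Euc m → ℝ} (h1 : ContDiff ℝ (⊤ : ℕ∞) ζ) (h2 : HasCompactSupport ζ)
    (ξ : Euc m) : ∫ y, fderiv ℝ ζ y ξ = 0 := by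
  have hc : Continuous fun y => fderiv ℝ ζ y ξ :=
    (h1.continuous_fderiv (by simp)).clm_apply continuous_const
  have hs : HasCompactSupport fun y => fderiv ℝ ζ y ξ :=
    h2.fderiv_apply ℝ ξ
  have hi := hc.integrable_of_hasCompactSupport hs (μ := (volume : Measure (Euc m)))
  have hi2 := h1.continuous.integrable_of_hasCompactSupport h2 (μ := (volume : Measure (Euc m)))
  have h := integral_mul_fderiv_eq_neg_fderiv_mul_of_integrable (μ := (volume : Measure (Euc m)))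
    (f := fun _ : Euc m => (1:ℝ)) (g := ζ) (v := ξ) (by simp) (by simpa using hi)
    (by simpa using hi2) (fun _ _ => differentiableAt_const _)
    (fun y _ => h1.differentiable (by simp) y)
  simpa using h

theorem al_restrict (h : CF W π κ x₀ R) (ha : AreaAt W π NN B) :
    (al W π NN Q).restrict B + Q • (volume : Measure (Euc m)).restrict B =
      (mM W π).restrict B + (hM NN Q).restrict B := by
  ext A hA
  have h1 := al_add (Q := Q) h ha (hA.inter ha.mB) inter_subset_right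
  rw [Measure.add_apply, Measure.add_apply, Measure.smul_apply, Measure.restrict_apply hA,
    Measure.restrict_apply hA, Measure.restrict_apply hA, Measure.restrict_apply hA, smul_eq_mul]
  exact h1

theorem mM_finite (h : CF W π κ x₀ R) : IsFiniteMeasure (mM W π) := by
  refine ⟨?_⟩
  rw [mM_apply MeasurableSet.univ]
  exact lt_of_le_of_lt (measure_mono (subset_univ _)) h.fin

theorem hM_le (NN : Euc m → ℝ≥0∞) (Q : ℝ≥0∞) {A : Set (Euc m)} (hA : MeasurableSet A) :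
    hM NN Q A ≤ Q * volume A := by
  unfold hM
  rw [withDensity_apply _ hA, ← setLIntegral_const]
  exact lintegral_mono fun y => tsub_le_self

/-- **DIV** on the base. -/
theorem divErr (h : CF W π κ x₀ R) (ha : AreaAt W π NN B) (hB : volume B < ⊤) (hQ : Q ≠ ⊤)
    {kA : Measure (Euc m)} (hk : kA B < ⊤) (hd : HDiv W π kA B) {s : ℝ} (hs : 0 < s) (hs1 : s ≤ 1) :
    Proj_929.DivErr (al W π NN Q) W (fun p => π p.1) (fun p => qop π p.2)
      (hM NN Q + qM W π + kA) s B := by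
  intro ζ h1 h2 h3 ξ
  have hfW : IsFiniteMeasure W := ⟨h.fin⟩
  have hfM := mM_finite h
  set φ : Euc m → ℝ := fun y => fderiv ℝ ζ y ξ with hφ
  have hcD : Continuous (fderiv ℝ ζ) := h1.continuous_fderiv (by simp)
  have hcφ : Continuous φ := hcD.clm_apply continuous_const
  have hsφ : HasCompactSupport φ := h2.fderiv_apply ℝ ξ
  have hDz : ∀ y, y ∉ B → fderiv ℝ ζ y = 0 := by
    intro y hy
    by_contra hne
    exact hy (h3 (support_fderiv_subset ℝ hne))
  have hφz : ∀ y, y ∉ B → φ y = 0 := by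
    intro y hy
    simp only [hφ, hDz y hy, _root_.zero_apply]
  have hζz : ∀ y, y ∉ B → ζ y = 0 := by
    intro y hy
    exact image_eq_zero_of_notMem_tsupport fun hc => hy (h3 hc)
  obtain ⟨Cφ, hCφ⟩ := hcφ.bounded_above_of_compact_support hsφ
  -- finiteness on B
  have hmMB : mM W π B < ⊤ := measure_lt_top _ _
  have hhB : hM NN Q B < ⊤ := lt_of_le_of_lt (hM_le NN Q ha.mB) (ENNReal.mul_lt_top hQ.lt_top hB)
  have haB : al W π NN Q B < ⊤ := by
    have h4 := al_add (Q := Q) h ha ha.mB subset_rfl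
    refine lt_of_le_of_lt (le_self_add.trans h4.le) (ENNReal.add_lt_top.2 ⟨hmMB, hhB⟩)
  have i1 : IntegrableOn φ B (al W π NN Q) :=
    IntegrableOn.of_bound haB hcφ.aestronglyMeasurable Cφ (Eventually.of_forall hCφ)
  have i2 : IntegrableOn φ B (volume : Measure (Euc m)) :=
    IntegrableOn.of_bound hB hcφ.aestronglyMeasurable Cφ (Eventually.of_forall hCφ)
  have i3 : IntegrableOn φ B (mM W π) :=
    IntegrableOn.of_bound hmMB hcφ.aestronglyMeasurable Cφ (Eventually.of_forall hCφ)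
  have i4 : IntegrableOn φ B (hM NN Q) :=
    IntegrableOn.of_bound hhB hcφ.aestronglyMeasurable Cφ (Eventually.of_forall hCφ)
  have e1 : ∫ y in B, φ y ∂(al W π NN Q) + Q.toReal * ∫ y in B, φ y =
      ∫ y in B, φ y ∂(mM W π) + ∫ y in B, φ y ∂(hM NN Q) := by
    have h5 := congrArg (fun μ : Measure (Euc m) => ∫ y, φ y ∂μ) (al_restrict (Q := Q) h ha)
    rw [integral_add_measure i1 (i2.integrable.smul_measure hQ), integral_add_measure i3 i4,
      integral_smul_measure, smul_eq_mul] at h5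
    exact h5
  have e2 : ∫ y in B, φ y = 0 := by
    rw [setIntegral_eq_integral_of_forall_compl_eq_zero hφz]
    exact int_deriv_zero h1 h2 ξ
  have e3 : ∫ y, φ y ∂(al W π NN Q) = ∫ y in B, φ y ∂(al W π NN Q) :=
    (setIntegral_eq_integral_of_forall_compl_eq_zero hφz).symm
  have e4 : ∫ y in B, φ y ∂(mM W π) = ∫ p, φ (π p.1) ∂W := by
    rw [setIntegral_eq_integral_of_forall_compl_eq_zero hφz]
    unfold mM
    rw [integral_map (measurable_base π).aemeasurable hcφ.aestronglyMeasurable]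
  -- the operator
  have hcp : Continuous fun p : Euc k × L k => π p.1 := π.continuous.comp continuous_fst
  have hcS : Continuous fun p : Euc k × L k => Shh π p.2 ξ :=
    ((continuous_Shh π).comp continuous_snd).clm_apply continuous_const
  obtain ⟨CD, hCD⟩ := hcD.bounded_above_of_compact_support (h2.fderiv ℝ)
  have hφW : Integrable (fun p : Euc k × L k => φ (π p.1)) W :=
    Integrable.of_bound (hcφ.comp hcp).aestronglyMeasurable Cφ
      (Eventually.of_forall fun p => hCφ _)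
  have hSle : ∀ᵐ p ∂W, ‖Shh π p.2 ξ‖ ≤ ‖ξ‖ := by
    filter_upwards [h.conc] with p hp
    exact norm_Shh_le h.sp (isPr_of_G hp) ξ
  have hSW : Integrable (fun p : Euc k × L k => fderiv ℝ ζ (π p.1) (Shh π p.2 ξ)) W := by
    refine Integrable.of_bound ((hcD.comp hcp).clm_apply hcS).aestronglyMeasurable (CD * ‖ξ‖) ?_
    filter_upwards [hSle] with p hp
    calc ‖fderiv ℝ ζ (π p.1) (Shh π p.2 ξ)‖ ≤ ‖fderiv ℝ ζ (π p.1)‖ * ‖Shh π p.2 ξ‖ :=
          ContinuousLinearMap.le_opNorm _ _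
      _ ≤ CD * ‖ξ‖ := mul_le_mul (hCD _) hp (norm_nonneg _) ((norm_nonneg _).trans (hCD (π p.1)))
  have e5 : ∫ p, fderiv ℝ ζ (π p.1) (qop π p.2 ξ) ∂W =
      (∫ p, φ (π p.1) ∂W) - ∫ p, fderiv ℝ ζ (π p.1) (Shh π p.2 ξ) ∂W := by
    rw [← integral_sub hφW hSW]
    refine integral_congr_ae (Eventually.of_forall fun p => ?_)
    simp only [hφ, qop, _root_.sub_apply, ContinuousLinearMap.id_apply, map_sub]
  have e6 : ∫ y, fderiv ℝ ζ y ξ ∂(al W π NN Q) - ∫ p, fderiv ℝ ζ (π p.1) (qop π p.2 ξ) ∂W =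
      (∫ y in B, φ y ∂(hM NN Q)) + ∫ p, fderiv ℝ ζ (π p.1) (Shh π p.2 ξ) ∂W := by
    have e3' : ∫ y, fderiv ℝ ζ y ξ ∂(al W π NN Q) = ∫ y in B, φ y ∂(al W π NN Q) := e3
    rw [e5, e3']
    rw [e2, mul_zero, add_zero, e4] at e1
    rw [e1]
    ring
  rw [e6]
  refine (abs_add_le _ _).trans ?_
  -- the right-hand side
  set ψ : Euc m → ℝ := fun y => ‖fderiv ℝ ζ y‖ + |ζ y| / s with hψ
  have hcψ : Continuous ψ := hcD.norm.add (h1.continuous.abs.div_const s)
  have hψ0 : ∀ y, 0 ≤ ψ y := fun y => by positivity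
  have hψz : ∀ y, y ∉ B → ψ y = 0 := by
    intro y hy
    simp only [hψ, hDz y hy, hζz y hy]
    simp
  have hsψ : HasCompactSupport ψ := by
    refine HasCompactSupport.intro (K := tsupport ζ) h2 fun y hy => ?_
    have h7 : fderiv ℝ ζ y = 0 := by
      by_contra hne
      exact hy (support_fderiv_subset ℝ hne)
    simp only [hψ, h7, image_eq_zero_of_notMem_tsupport hy]
    simp
  obtain ⟨Cψ, hCψ⟩ := hcψ.bounded_above_of_compact_support hsψ
  have hqB : qM W π B < ⊤ := by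
    unfold qM
    refine lt_of_le_of_lt (bm_le_mM (C := (m:ℝ) ^ 2) ?_ ha.mB)
      (ENNReal.mul_lt_top ENNReal.ofReal_lt_top hmMB)
    filter_upwards [Jh_bounds h] with p hp
    exact pow_le_pow_left₀ hp.2.2.1 hp.2.2.2.1 2
  have j1 : IntegrableOn ψ B (hM NN Q) :=
    IntegrableOn.of_bound hhB hcψ.aestronglyMeasurable Cψ (Eventually.of_forall hCψ)
  have j2 : IntegrableOn ψ B (qM W π) :=
    IntegrableOn.of_bound hqB hcψ.aestronglyMeasurable Cψ (Eventually.of_forall hCψ)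
  have j3 : IntegrableOn ψ B kA :=
    IntegrableOn.of_bound hk hcψ.aestronglyMeasurable Cψ (Eventually.of_forall hCψ)
  have r1 : ∫ y, ψ y ∂(hM NN Q + qM W π + kA) =
      ((∫ y in B, ψ y ∂(hM NN Q)) + ∫ y in B, ψ y ∂(qM W π)) + ∫ y in B, ψ y ∂kA := by
    rw [← setIntegral_eq_integral_of_forall_compl_eq_zero (s := B) hψz, Measure.restrict_add,
      Measure.restrict_add, integral_add_measure (j1.integrable.add_measure j2) j3,
      integral_add_measure j1 j2]
  have r2 : |∫ y in B, φ y ∂(hM NN Q)| ≤ ‖ξ‖ * ∫ y in B, ψ y ∂(hM NN Q) := by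
    rw [← Real.norm_eq_abs, ← integral_const_mul]
    refine norm_integral_le_of_norm_le (j1.integrable.const_mul _) (Eventually.of_forall fun y => ?_)
    calc ‖φ y‖ ≤ ‖fderiv ℝ ζ y‖ * ‖ξ‖ := ContinuousLinearMap.le_opNorm _ _
      _ ≤ ψ y * ‖ξ‖ := by
          refine mul_le_mul_of_nonneg_right ?_ (norm_nonneg _)
          simp only [hψ]
          have : 0 ≤ |ζ y| / s := by positivity
          linarith
      _ = ‖ξ‖ * ψ y := mul_comm _ _
  have r3 : ∫ y, (‖fderiv ℝ ζ y‖ + |ζ y|) ∂kA ≤ ∫ y in B, ψ y ∂kA := by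
    rw [setIntegral_eq_integral_of_forall_compl_eq_zero hψz]
    refine integral_mono_of_nonneg (Eventually.of_forall fun y => by positivity) ?_
      (Eventually.of_forall fun y => ?_)
    · rw [← integrableOn_iff_integrable_of_support_subset (s := B)]
      · exact j3
      · intro y hy
        by_contra hyB
        exact hy (hψz y hyB)
    · simp only [hψ]
      have : |ζ y| ≤ |ζ y| / s := by
        rw [le_div_iff₀ hs]
        exact mul_le_of_le_one_right (abs_nonneg _) hs1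
      linarith
  have r4 : 0 ≤ ∫ y in B, ψ y ∂(qM W π) := integral_nonneg hψ0
  have r5 := hd ζ h1 h2 h3 ξ
  rw [r1]
  have hξ := norm_nonneg ξ
  have r6 : ‖ξ‖ * ∫ y, (‖fderiv ℝ ζ y‖ + |ζ y|) ∂kA ≤ ‖ξ‖ * ∫ y in B, ψ y ∂kA :=
    mul_le_mul_of_nonneg_left r3 hξ
  have r7 : 0 ≤ ‖ξ‖ * ∫ y in B, ψ y ∂(qM W π) := mul_nonneg hξ r4
  rw [mul_add, mul_add]
  linarith

/-! ### horizontal fields -/

/-- the horizontal field `ζ(π z) π†ξ`. -/
def hX (π : Euc k →L[ℝ] Euc m) (ζ : Euc m → ℝ) (ξ : Euc m) (z : Euc k) : Euc k :=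
  ζ (π z) • ContinuousLinearMap.adjoint π ξ

theorem contDiff_hX {ζ : Euc m → ℝ} (h : ContDiff ℝ (⊤ : ℕ∞) ζ) (ξ : Euc m) :
    ContDiff ℝ 1 (hX π ζ ξ) := by
  unfold hX
  exact (((h.of_le (by exact_mod_cast le_top)).comp π.contDiff).smul contDiff_const)

theorem fderiv_hX {ζ : Euc m → ℝ} (h : ContDiff ℝ (⊤ : ℕ∞) ζ) (ξ : Euc m) (z : Euc k) :
    fderiv ℝ (hX π ζ ξ) z =
      (fderiv ℝ ζ (π z) ∘L π).smulRight (ContinuousLinearMap.adjoint π ξ) := by
  have h1 : HasFDerivAt (fun z => ζ (π z)) (fderiv ℝ ζ (π z) ∘L π) z :=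
    (h.differentiable (by simp) (π z)).hasFDerivAt.comp z π.hasFDerivAt
  exact (h1.smul_const (ContinuousLinearMap.adjoint π ξ)).fderiv

theorem tr_hX {ζ : Euc m → ℝ} (h : ContDiff ℝ (⊤ : ℕ∞) ζ) (ξ : Euc m) (z : Euc k) (P : L k) :
    tr ((fderiv ℝ (hX π ζ ξ) z) ∘L P) = fderiv ℝ ζ (π z) (Shh π P ξ) := by
  rw [fderiv_hX h, tr_smulRight_comp]
  rfl

theorem hX_zero {ζ : Euc m → ℝ} {ξ : Euc m} (h3 : tsupport ζ ⊆ ball x₀ R) {p : Euc k}
    (hp : R ≤ ‖π p - x₀‖) : hX π ζ ξ p = 0 := by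
  have h5 : ζ (π p) = 0 := image_eq_zero_of_notMem_tsupport fun hc => by
    have := h3 hc
    rw [mem_ball, dist_eq_norm] at this
    linarith
  unfold hX
  rw [h5, zero_smul]


/-- the almost-stationarity error measure on the base. -/
def kAS (W : Measure (Euc k × L k)) (π : Euc k →L[ℝ] Euc m) (δ : ℝ) : Measure (Euc m) :=
  (W.withDensity fun p => ENNReal.ofReal (δ * (tl π p.2 + ‖AS_456.vp π p.1‖ ^ 2))).map
    fun p => π p.1


theorem norm_vp (hs : Split π κ) (z : Euc k) : ‖AS_456.vp π z‖ = ‖κ z‖ := by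
  have h1 : AS_456.vp π z = ContinuousLinearMap.adjoint κ (κ z) := by
    have h2 := congrArg (fun A : L k => A z) hs.sum
    simp only [_root_.add_apply, ContinuousLinearMap.comp_apply,
      ContinuousLinearMap.id_apply] at h2
    unfold AS_456.vp AS_456.hp
    rw [_root_.sub_apply, ContinuousLinearMap.id_apply, ContinuousLinearMap.comp_apply]
    rw [sub_eq_iff_eq_add, add_comm]
    exact h2.symm
  rw [h1]
  exact norm_adjoint_co (π := κ) hs.vv (κ z)

theorem errA_hX (hs : Split π κ) {ζ : Euc m → ℝ} (h : ContDiff ℝ (⊤ : ℕ∞) ζ) (ξ : Euc m) {δ : ℝ}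
    (hδ : 0 ≤ δ) {p : Euc k × L k} (hp : p.2 ∈ G m k) :
    AS_456.err π δ (hX π ζ ξ) p ≤
      ‖ξ‖ * ((δ * (tl π p.2 + ‖AS_456.vp π p.1‖ ^ 2)) * (‖fderiv ℝ ζ (π p.1)‖ + |ζ (π p.1)|)) := by
  have hπξ : π (ContinuousLinearMap.adjoint π ξ) = ξ := by
    have h2 := congrArg (fun A : L m => A ξ) hs.hh
    simpa using h2
  have hvp : AS_456.vp π (ContinuousLinearMap.adjoint π ξ) = 0 := by
    unfold AS_456.vp AS_456.hp
    rw [_root_.sub_apply, ContinuousLinearMap.id_apply, ContinuousLinearMap.comp_apply, hπξ,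
      sub_self]
  have hhp : AS_456.hp π (ContinuousLinearMap.adjoint π ξ) = ContinuousLinearMap.adjoint π ξ := by
    unfold AS_456.hp
    rw [ContinuousLinearMap.comp_apply, hπξ]
  have hπvp : ∀ z, π (AS_456.vp π z) = 0 := by
    intro z
    have h2 := congrArg (fun A : L m => A (π z)) hs.hh
    simp only [ContinuousLinearMap.comp_apply, ContinuousLinearMap.id_apply] at h2
    unfold AS_456.vp AS_456.hp
    rw [_root_.sub_apply, ContinuousLinearMap.id_apply, ContinuousLinearMap.comp_apply, map_sub, h2,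
      sub_self]
  have hπhp : ∀ z, π (AS_456.hp π z) = π z := by
    intro z
    have h2 := congrArg (fun A : L m => A (π z)) hs.hh
    simp only [ContinuousLinearMap.comp_apply, ContinuousLinearMap.id_apply] at h2
    unfold AS_456.hp
    rw [ContinuousLinearMap.comp_apply, h2]
  set A := (fderiv ℝ ζ (π p.1) ∘L π).smulRight (ContinuousLinearMap.adjoint π ξ) with hA
  have a1 : AS_456.hp π ∘L A ∘L AS_456.hp π = A := by
    ext1 z
    simp only [hA, ContinuousLinearMap.comp_apply, ContinuousLinearMap.smulRight_apply, map_smul,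
      hhp, hπhp]
  have a2 : AS_456.hp π ∘L A ∘L AS_456.vp π = 0 := by
    ext1 z
    simp only [hA, ContinuousLinearMap.comp_apply, ContinuousLinearMap.smulRight_apply,
      hπvp, map_zero, zero_smul, _root_.zero_apply]
  have a3 : AS_456.vp π ∘L A ∘L AS_456.hp π = 0 := by
    ext1 z
    simp only [hA, ContinuousLinearMap.comp_apply, ContinuousLinearMap.smulRight_apply, map_smul,
      hvp, smul_zero, _root_.zero_apply]
  have a4 : AS_456.vp π ∘L A ∘L AS_456.vp π = 0 := by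
    ext1 z
    simp only [hA, ContinuousLinearMap.comp_apply, ContinuousLinearMap.smulRight_apply, map_smul,
      hvp, smul_zero, _root_.zero_apply]
  have a5 : AS_456.vp π (hX π ζ ξ p.1) = 0 := by
    unfold hX
    rw [map_smul, hvp, smul_zero]
  have a6 : ‖AS_456.hp π (hX π ζ ξ p.1)‖ = |ζ (π p.1)| * ‖ξ‖ := by
    unfold hX
    rw [map_smul, hhp, norm_smul, norm_adjoint_co hs.hh, Real.norm_eq_abs]
  have a7 : ‖A‖ ≤ ‖fderiv ℝ ζ (π p.1)‖ * ‖ξ‖ := by
    refine ContinuousLinearMap.opNorm_le_bound _ (by positivity) fun z => ?_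
    rw [hA, ContinuousLinearMap.smulRight_apply, norm_smul, norm_adjoint_co hs.hh,
      ContinuousLinearMap.comp_apply]
    calc ‖fderiv ℝ ζ (π p.1) (π z)‖ * ‖ξ‖ ≤ (‖fderiv ℝ ζ (π p.1)‖ * ‖π z‖) * ‖ξ‖ := by
          gcongr
          exact ContinuousLinearMap.le_opNorm _ _
      _ ≤ (‖fderiv ℝ ζ (π p.1)‖ * ‖z‖) * ‖ξ‖ := by
          gcongr
          exact norm_pi_le hs z
      _ = _ := by ring
  unfold AS_456.err AS_456.errA
  rw [fderiv_hX h, ← hA, a1, a2, a3, a4, a5, a6]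
  simp only [norm_zero, add_zero, mul_zero]
  have ht := tl_nonneg hs.hh (isPr_of_G hp)
  have hf : 0 ≤ δ * (tl π p.2 + ‖AS_456.vp π p.1‖ ^ 2) := by positivity
  calc δ * (tl π p.2 + ‖AS_456.vp π p.1‖ ^ 2) * (‖A‖ + |ζ (π p.1)| * ‖ξ‖) ≤
      δ * (tl π p.2 + ‖AS_456.vp π p.1‖ ^ 2) * (‖fderiv ℝ ζ (π p.1)‖ * ‖ξ‖ +
        |ζ (π p.1)| * ‖ξ‖) := by gcongr
    _ = _ := by ring

theorem measurable_kdens (π : Euc k →L[ℝ] Euc m) (δ : ℝ) :
    Continuous fun p : Euc k × L k => δ * (tl π p.2 + ‖AS_456.vp π p.1‖ ^ 2) :=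
  continuous_const.mul (((continuous_tl π).comp continuous_snd).add
    (((AS_456.vp π).continuous.comp continuous_fst).norm.pow 2))

theorem integral_kAS (hs : Split π κ) {δ : ℝ} (hδ : 0 ≤ δ) (hc : ∀ᵐ p ∂W, p.2 ∈ G m k)
    {ψ : Euc m → ℝ} (hψ : Measurable ψ) :
    ∫ y, ψ y ∂(kAS W π δ) =
      ∫ p, (δ * (tl π p.2 + ‖AS_456.vp π p.1‖ ^ 2)) * ψ (π p.1) ∂W := by
  unfold kAS
  rw [integral_map (measurable_base π).aemeasurable hψ.aestronglyMeasurable,
    integral_withDensity_eq_integral_toReal_smul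
      (measurable_kdens π δ).measurable.ennreal_ofReal
      (Eventually.of_forall fun _ => ENNReal.ofReal_lt_top)]
  refine integral_congr_ae ?_
  filter_upwards [hc] with p hp
  have ht := tl_nonneg hs.hh (isPr_of_G hp)
  rw [smul_eq_mul, ENNReal.toReal_ofReal (by positivity)]


theorem kAS_apply_le (hs : Split π κ) {δ : ℝ} (hδ : 0 ≤ δ) (hc : ∀ᵐ p ∂W, p.2 ∈ G m k)
    (hh : ∀ᵐ p ∂W, ‖κ p.1‖ ≤ h₀) {A : Set (Euc m)} (hA : MeasurableSet A) :
    kAS W π δ A ≤ ENNReal.ofReal δ * (eM W π A + ENNReal.ofReal (h₀ ^ 2) * mM W π A) := by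
  unfold kAS eM
  rw [Measure.map_apply (measurable_base π) hA,
    withDensity_apply _ (measurable_base π hA), bm_apply _ _ _ hA, mM_apply hA]
  have hm1 : Measurable fun p : Euc k × L k => ENNReal.ofReal (tl π p.2) :=
    (measurable_of_cont (continuous_tl π)).ennreal_ofReal
  rw [← setLIntegral_const, ← lintegral_add_left hm1, ← lintegral_const_mul' _ _ (by simp)]
  refine setLIntegral_mono_ae' (measurableSet_ov hA) ?_
  filter_upwards [hc, hh] with p hp hpκ _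
  have ht := tl_nonneg hs.hh (isPr_of_G hp)
  rw [← ENNReal.ofReal_add ht (sq_nonneg _), ← ENNReal.ofReal_mul hδ]
  refine ENNReal.ofReal_le_ofReal ?_
  rw [norm_vp hs]
  gcongr

end Crest.Agent.R234.N5_372
end
end

-- ▼ part R234/N5d_372
section

/-!
Row 234, node N5 (LOCAL) of the core (helper372), part 4: the assembly.  At one centre `x` and one
scale `s = e^l`: fat simplex with small radial energies ==> (hole lemma, theta lemma) the anomaly and
the energy over sets with small projection on the span of the simplex are `≤ ω G s^{m-2}`.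
-/

set_option autoImplicit false

open MeasureTheory Metric Set Filter Topology
open Crest.GeometryTopology.Submanifold
open Crest.Agent.R234.Vf_884 Crest.Agent.R234.Ar_870 Crest.Agent.R234.Cy_870
open scoped ENNReal NNReal InnerProductSpace

noncomputable section

namespace Crest.Agent.R234.N5_372

variable {m n k d : ℕ} {π : Euc k →L[ℝ] Euc m} {κ : Euc k →L[ℝ] Euc n}
  {W : Measure (Euc k × L k)} {x x₀ : Euc m} {R h₀ : ℝ} {NN : Euc m → ℝ≥0∞} {Q : ℝ≥0∞}
  {B : Set (Euc m)} {g g1 g2 : ℝ → ℝ}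

theorem norm_qop_le (hs : Split π κ) {P : L k} (hP : P ∈ G m k) : ‖qop π P‖ ≤ tl π P := by
  have hq := psd_qop hs.hh (isPr_of_G hP)
  have ht := tl_nonneg hs.hh (isPr_of_G hP)
  have h1 : ‖qop π P‖ ≤ Real.sqrt (‖qop π P‖ * tl π P) := by
    refine ContinuousLinearMap.opNorm_le_bound _ (Real.sqrt_nonneg _) fun w => ?_
    have h2 := hq.norm_sq_le w
    have h3 : ⟪qop π P w, w⟫_ℝ ≤ ‖w‖ ^ 2 * tl π P := by
      rw [inner_qop]; exact qf_le_tl hs hP w
    have h4 : ‖qop π P w‖ ^ 2 ≤ (Real.sqrt (‖qop π P‖ * tl π P) * ‖w‖) ^ 2 := by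
      rw [mul_pow, Real.sq_sqrt (by positivity)]
      calc ‖qop π P w‖ ^ 2 ≤ ‖qop π P‖ * ⟪qop π P w, w⟫_ℝ := h2
        _ ≤ ‖qop π P‖ * (‖w‖ ^ 2 * tl π P) := by gcongr
        _ = _ := by ring
    exact (sq_le_sq₀ (norm_nonneg _) (by positivity)).1 h4
  have h5 : ‖qop π P‖ ^ 2 ≤ ‖qop π P‖ * tl π P := by
    have := pow_le_pow_left₀ (norm_nonneg _) h1 2
    rwa [Real.sq_sqrt (by positivity)] at this
  rcases eq_or_lt_of_le (norm_nonneg (qop π P)) with h6 | h6
  · rw [← h6]; exact ht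
  · rw [sq] at h5
    exact le_of_mul_le_mul_left h5 h6

/-- the isometry onto a subspace given by its standard orthonormal basis. -/
def iso (S : Submodule ℝ (Euc m)) (h : Module.finrank ℝ S = d) :
    EuclideanSpace ℝ (Fin d) →ₗᵢ[ℝ] Euc m :=
  S.subtypeₗᵢ.comp ((stdOrthonormalBasis ℝ S).reindex (finCongr h)).repr.symm.toLinearIsometry

theorem tL_iso (S : Submodule ℝ (Euc m)) (h : Module.finrank ℝ S = d) (P : L k) :
    Proj_929.tL (EuclideanSpace.basisFun (Fin d) ℝ) (iso S h) (qop π P) = eL π S P := by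
  subst h
  unfold Proj_929.tL eL
  refine Finset.sum_congr rfl fun i _ => ?_
  have h1 : iso S rfl (EuclideanSpace.basisFun (Fin (Module.finrank ℝ S)) ℝ i) =
      (stdOrthonormalBasis ℝ S i : Euc m) := by
    unfold iso
    simp
  rw [h1, inner_qop]


theorem exists_cover (m : ℕ) : ∃ T : Finset (Euc m), (∀ t ∈ T, ‖t‖ ≤ 1) ∧
    closedBall (0 : Euc m) 1 ⊆ ⋃ t ∈ T, ball t (1 / 8) := by
  obtain ⟨t, ht, hf, hc⟩ := (isCompact_closedBall (0 : Euc m) 1).finite_cover_balls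
    (by norm_num : (0:ℝ) < 1 / 8)
  refine ⟨hf.toFinset, fun y hy => ?_, ?_⟩
  · have := ht (hf.mem_toFinset.1 hy)
    simpa using this
  · simpa using hc

theorem finrank_fat {v : Fin d → Euc m} {l K : ℝ}
    (hfat : ∀ (c : Fin d → ℝ) (i : Fin d), |c i| * Real.exp l ≤ K * ‖∑ j, c j • v j‖) :
    Module.finrank ℝ (Submodule.span ℝ (range v)) = d := by
  have h1 : LinearIndependent ℝ v := by
    rw [Fintype.linearIndependent_iff]
    intro c hc i
    have h2 := hfat c i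
    rw [hc, norm_zero, mul_zero] at h2
    have h3 := Real.exp_pos l
    have h4 : |c i| ≤ 0 := by
      by_contra h5
      push Not at h5
      have := mul_pos h5 h3
      linarith
    exact abs_nonpos_iff.1 h4
  rw [finrank_span_eq_card h1, Fintype.card_fin]

theorem bm_real {c : L k → ℝ} (hc : Continuous c) (h0 : ∀ᵐ p ∂W, 0 ≤ c p.2) {A : Set (Euc m)}
    (hA : MeasurableSet A) : (bm W π c A).toReal = ∫ p in ov π A, c p.2 ∂W := by
  rw [bm_apply _ _ _ hA, integral_eq_lintegral_of_nonneg_ae (ae_restrict_of_ae h0)]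
  exact (hc.comp continuous_snd).aestronglyMeasurable

theorem bm_lt_top (h : CF W π κ x₀ R) {c : L k → ℝ} {C : ℝ} (hc : ∀ᵐ p ∂W, c p.2 ≤ C)
    {A : Set (Euc m)} (hA : MeasurableSet A) : bm W π c A < ⊤ := by
  have := mM_finite h
  exact lt_of_le_of_lt (bm_le_mM hc hA) (ENNReal.mul_lt_top ENNReal.ofReal_lt_top
    (measure_lt_top _ _))

theorem AreaAt.ae_lt_top (h : CF W π κ x₀ R) (ha : AreaAt W π NN B) :
    ∀ᵐ z ∂((volume : Measure (Euc m)).restrict B), NN z < ⊤ := by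
  have hbJB : bm W π (Jh π) B < ⊤ := by
    refine bm_lt_top h (C := 1) ?_ ha.mB
    filter_upwards [Jh_bounds h] with p hp using hp.2.1
  have hNB : ∫⁻ x in B, NN x < ⊤ := by
    have h2 := congrArg (fun μ : Measure (Euc m) => μ B) ha.area
    simp only [Measure.restrict_apply ha.mB, inter_self, withDensity_apply _ ha.mB] at h2
    rw [← h2]; exact hbJB
  exact MeasureTheory.ae_lt_top ha.meas hNB.ne

theorem tsub_le_abs {a : ℝ≥0∞} (ha : a < ⊤) (q : ℕ) :
    a - (q : ℝ≥0∞) ≤ ENNReal.ofReal |a.toReal - q| := by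
  lift a to NNReal using ha.ne
  have h1 : (a : ℝ≥0∞) - (q : ℝ≥0∞) = ENNReal.ofReal ((a : ℝ) - q) := by
    rw [ENNReal.ofReal_sub _ (Nat.cast_nonneg q), ENNReal.ofReal_coe_nnreal,
      ENNReal.ofReal_natCast]
  rw [h1]
  exact ENNReal.ofReal_le_ofReal (by simpa using le_abs_self ((a : ℝ) - q))

theorem tsub_le_abs' (a : ℝ≥0∞) (q : ℕ) :
    (q : ℝ≥0∞) - a ≤ ENNReal.ofReal |a.toReal - q| := by
  rcases eq_or_ne a ⊤ with rfl | ha
  · simp
  · lift a to NNReal using ha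
    have h1 : (q : ℝ≥0∞) - (a : ℝ≥0∞) = ENNReal.ofReal (q - (a : ℝ)) := by
      rw [ENNReal.ofReal_sub _ (NNReal.coe_nonneg a), ENNReal.ofReal_coe_nnreal,
        ENNReal.ofReal_natCast]
    rw [h1]
    refine ENNReal.ofReal_le_ofReal ?_
    rw [abs_sub_comm]
    simpa using le_abs_self ((q : ℝ) - (a : ℝ))

theorem exp_six : 400 ≤ Real.exp 6 := by
  have h1 : Real.exp 6 = Real.exp 1 ^ 6 := by
    rw [← Real.exp_nat_mul]; norm_num
  have h2 : (2.7182818283 : ℝ) ≤ Real.exp 1 := Real.exp_one_gt_d9.le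
  rw [h1]
  calc (400:ℝ) ≤ 2.7182818283 ^ 6 := by norm_num
    _ ≤ _ := pow_le_pow_left₀ (by norm_num) h2 6

/-- radii: a point of `B_8s(x)` is within `e^(l+3)/2` of a vertex in `B_2s(x)`. -/
theorem rad_le {x y z : Euc m} {l : ℝ} (hz : z ∈ ball x (8 * Real.exp l))
    (hy : ‖y - x‖ ≤ 2 * Real.exp l) : ‖z - y‖ ^ 2 ≤ 1 / 4 * Real.exp (2 * (l + 3)) := by
  rw [mem_ball, dist_eq_norm] at hz
  have h1 : ‖z - y‖ ≤ 10 * Real.exp l := by
    calc ‖z - y‖ = ‖(z - x) - (y - x)‖ := by congr 1; abel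
      _ ≤ ‖z - x‖ + ‖y - x‖ := norm_sub_le _ _
      _ ≤ _ := by linarith
  have h2 : Real.exp (2 * (l + 3)) = Real.exp l ^ 2 * Real.exp 6 := by
    rw [← Real.exp_nat_mul, ← Real.exp_add]; congr 1; push_cast; ring
  calc ‖z - y‖ ^ 2 ≤ (10 * Real.exp l) ^ 2 := pow_le_pow_left₀ (norm_nonneg _) h1 2
    _ = 100 * Real.exp l ^ 2 := by ring
    _ ≤ 1 / 4 * (Real.exp l ^ 2 * Real.exp 6) := by
        have := exp_six
        have h3 : 0 ≤ Real.exp l ^ 2 := by positivity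
        nlinarith
    _ = _ := by rw [h2]

/-- the energy along the span of the simplex in `B_8s(x)`. -/
theorem lM_ball_le (hd : d + 2 = m) (h : CF W π κ x₀ R) (hg : Prof g g1 g2) {c₀ : ℝ} (hc₀ : 0 < c₀)
    (hc : ∀ t, 0 ≤ t → t ≤ 1 / 4 → c₀ ≤ -g1 t) {y : Euc m} {v : Fin d → Euc m} {l K r : ℝ}
    (hfat : ∀ (c : Fin d → ℝ) (i : Fin d), |c i| * Real.exp l ≤ K * ‖∑ j, c j • v j‖)
    (hy : ‖y - x‖ ≤ 2 * Real.exp l) (hv : ∀ i, ‖y + v i - x‖ ≤ 2 * Real.exp l)
    (hr0 : RR W π y g1 (l + 3) ≤ r) (hrv : ∀ i, RR W π (y + v i) g1 (l + 3) ≤ r) :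
    lM W π (Submodule.span ℝ (range v)) (ball x (8 * Real.exp l)) ≤
      ENNReal.ofReal (2 * d ^ 3 * K ^ 2 / c₀ * Real.exp (3 * m) * r * Real.exp l ^ d) := by
  have h1 := lM_le h hg hc₀ hc hfat (A := ball x (8 * Real.exp l)) measurableSet_ball
    (fun z hz => rad_le hz hy) (fun i z hz => rad_le hz (hv i)) hr0 hrv
  refine h1.trans (le_of_eq ?_)
  congr 1
  have h2 : Real.exp (-2 * l) * Real.exp (m * (l + 3)) = Real.exp (3 * m) * Real.exp l ^ d := by
    rw [← Real.exp_nat_mul, ← Real.exp_add, ← Real.exp_add]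
    congr 1
    have : (m:ℝ) = d + 2 := by rw [← hd]; push_cast; ring
    rw [this]; ring
  calc 2 * (d:ℝ) ^ 3 * K ^ 2 / c₀ * Real.exp (-2 * l) * Real.exp (m * (l + 3)) * r =
      2 * (d:ℝ) ^ 3 * K ^ 2 / c₀ * (Real.exp (-2 * l) * Real.exp (m * (l + 3))) * r := by ring
    _ = _ := by rw [h2]; ring

/-- data of one centre and scale, the estimates in numbers. -/
structure Est (W : Measure (Euc k × L k)) (π : Euc k →L[ℝ] Euc m) (NN : Euc m → ℝ≥0∞) (Q : ℕ)
    (kA : Measure (Euc m)) (S : Submodule ℝ (Euc m)) (x : Euc m) (s d₁ d₂ d₃ Y : ℝ) : Prop where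
  eB : eM W π (ball x (2 * s)) ≤ ENNReal.ofReal Y
  qB : qM W π (ball x (2 * s)) ≤ ENNReal.ofReal (d₁ * Y)
  tB : ∫⁻ z in ball x (2 * s), ENNReal.ofReal |(NN z).toReal - Q| ≤ ENNReal.ofReal (d₂ * Y)
  kB : kA (ball x (2 * s)) ≤ ENNReal.ofReal (d₃ * Y)
  lB : lM W π S (ball x (2 * s)) ≤ ENNReal.ofReal (d₃ * Y)

variable {Qn : ℕ} {kA : Measure (Euc m)} {S : Submodule ℝ (Euc m)} {s d₁ d₂ d₃ Y : ℝ}

theorem Est.nnq_le (hE : Est W π NN Qn kA S x s d₁ d₂ d₃ Y) (h : CF W π κ x₀ R)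
    (ha : AreaAt W π NN (ball x (2 * s))) :
    ∫⁻ z in ball x (2 * s), (NN z - (Qn : ℝ≥0∞)) ≤ ENNReal.ofReal (d₂ * Y) := by
  refine le_trans (lintegral_mono_ae ?_) hE.tB
  filter_upwards [ha.ae_lt_top h] with z hz
  exact tsub_le_abs hz Qn

theorem Est.hM_le (hE : Est W π NN Qn kA S x s d₁ d₂ d₃ Y) :
    hM NN (Qn : ℝ≥0∞) (ball x (2 * s)) ≤ ENNReal.ofReal (d₂ * Y) := by
  unfold hM
  rw [withDensity_apply _ measurableSet_ball]
  exact (lintegral_mono fun z => tsub_le_abs' (NN z) Qn).trans hE.tB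

theorem Est.al_le (hE : Est W π NN Qn kA S x s d₁ d₂ d₃ Y) (h : CF W π κ x₀ R)
    (ha : AreaAt W π NN (ball x (2 * s))) (hY : 0 ≤ Y) (hd₂ : 0 ≤ d₂) (hd₂1 : d₂ ≤ 1) :
    al W π NN (Qn : ℝ≥0∞) (ball x (2 * s)) ≤ ENNReal.ofReal (2 * Y) := by
  refine (N5_372.al_le h measurableSet_ball).trans ?_
  calc eM W π (ball x (2 * s)) + ∫⁻ z in ball x (2 * s), (NN z - (Qn : ℝ≥0∞)) ≤
      ENNReal.ofReal Y + ENNReal.ofReal (d₂ * Y) := add_le_add hE.eB (hE.nnq_le h ha)
    _ = ENNReal.ofReal (Y + d₂ * Y) := (ENNReal.ofReal_add hY (by positivity)).symm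
    _ ≤ _ := ENNReal.ofReal_le_ofReal (by nlinarith)

theorem Est.data (hE : Est W π NN Qn kA S x s d₁ d₂ d₃ Y) (h : CF W π κ x₀ R)
    (ha : AreaAt W π NN (ball x (2 * s))) (hdv : HDiv W π kA (ball x (2 * s)))
    (hs : 0 < s) (hs1 : s ≤ 1) (hY : 0 ≤ Y) (hd₁ : 0 ≤ d₁) (hd₂ : 0 ≤ d₂) (hd₂1 : d₂ ≤ 1)
    (hd₃ : 0 ≤ d₃) {δ : ℝ} (hδ0 : 0 ≤ δ) (hδ1 : δ ≤ 1) (hsum : d₂ + d₁ + d₃ ≤ δ)
    (hd₃δ : d₃ ≤ δ ^ 2) (hS : Module.finrank ℝ S = d) {x' : Euc m} (hx' : ‖x' - x‖ ≤ s) :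
    Proj_929.Data (EuclideanSpace.basisFun (Fin d) ℝ) (iso S hS) (al W π NN (Qn : ℝ≥0∞))
      (hM NN (Qn : ℝ≥0∞) + qM W π + kA) W (fun p => π p.1) (fun p => qop π p.2) x' (s / 8)
      (2 * Y) (δ * Y) := by
  have hsub : ball x' (6 * (s / 8)) ⊆ ball x (2 * s) := by
    intro z hz
    rw [mem_ball, dist_eq_norm] at hz ⊢
    calc ‖z - x‖ = ‖(z - x') + (x' - x)‖ := by congr 1; abel
      _ ≤ ‖z - x'‖ + ‖x' - x‖ := norm_add_le _ _
      _ < _ := by linarith
  have hov : ov π (ball x' (6 * (s / 8))) = (fun p : Euc k × L k => π p.1) ⁻¹' ball x' (6 * (s / 8)) :=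
    rfl
  have hfW : IsFiniteMeasure W := ⟨h.fin⟩
  have htl : ∀ᵐ p ∂W, 0 ≤ tl π p.2 := by
    filter_upwards [Jh_bounds h] with p hp using hp.2.2.1
  have heL : ∀ᵐ p ∂W, 0 ≤ eL π S p.2 := by
    filter_upwards [h.conc] with p hp using eL_nonneg h.sp.hh (isPr_of_G hp) S
  have hLr : ∫ p in (fun p : Euc k × L k => π p.1) ⁻¹' ball x' (6 * (s / 8)),
      Proj_929.tL (EuclideanSpace.basisFun (Fin d) ℝ) (iso S hS) (qop π p.2) ∂W ≤ d₃ * Y := by
    simp only [tL_iso]
    rw [← hov, ← bm_real (continuous_eL π S) heL measurableSet_ball]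
    refine ENNReal.toReal_le_of_le_ofReal (by positivity) ?_
    exact (measure_mono hsub).trans hE.lB
  have hL0 : 0 ≤ ∫ p in (fun p : Euc k × L k => π p.1) ⁻¹' ball x' (6 * (s / 8)),
      Proj_929.tL (EuclideanSpace.basisFun (Fin d) ℝ) (iso S hS) (qop π p.2) ∂W := by
    simp only [tL_iso]
    exact integral_nonneg_of_ae (ae_restrict_of_ae heL)
  have hQc : Continuous fun p : Euc k × L k => qop π p.2 :=
    (continuous_const.sub (continuous_Shh π)).comp continuous_snd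
  have hQr : ∫ p in (fun p : Euc k × L k => π p.1) ⁻¹' ball x' (6 * (s / 8)), ‖qop π p.2‖ ∂W ≤ Y := by
    have h1 : ∫ p in (fun p : Euc k × L k => π p.1) ⁻¹' ball x' (6 * (s / 8)), ‖qop π p.2‖ ∂W ≤
        ∫ p in ov π (ball x' (6 * (s / 8))), tl π p.2 ∂W := by
      refine integral_mono_of_nonneg (Eventually.of_forall fun p => norm_nonneg _) ?_ ?_
      · refine Integrable.integrableOn ?_
        refine Integrable.of_bound ((continuous_tl π).comp
          continuous_snd).aestronglyMeasurable (m : ℝ) ?_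
        filter_upwards [Jh_bounds h] with p hp
        rw [Real.norm_of_nonneg hp.2.2.1]
        exact hp.2.2.2.1
      · filter_upwards [ae_restrict_of_ae h.conc] with p hp
        exact norm_qop_le h.sp hp
    refine h1.trans ?_
    rw [← bm_real (continuous_tl π) htl measurableSet_ball]
    refine ENNReal.toReal_le_of_le_ofReal hY ?_
    exact (measure_mono hsub).trans hE.eB
  have hQ0 : 0 ≤ ∫ p in (fun p : Euc k × L k => π p.1) ⁻¹' ball x' (6 * (s / 8)), ‖qop π p.2‖ ∂W :=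
    integral_nonneg fun p => norm_nonneg _
  have hkt : kA (ball x (2 * s)) < ⊤ := lt_of_le_of_lt hE.kB ENNReal.ofReal_lt_top
  refine ⟨by positivity, measurable_base π, ?_, ?_, ?_, ?_, ?_, ?_, ?_, ?_⟩
  · filter_upwards [ae_restrict_of_ae h.conc] with p hp
    exact psd_qop h.sp.hh (isPr_of_G hp)
  · refine Integrable.integrableOn ?_
    refine Integrable.of_bound hQc.aestronglyMeasurable (m : ℝ) ?_
    filter_upwards [h.conc, Jh_bounds h] with p hp hp2
    exact (norm_qop_le h.sp hp).trans hp2.2.2.2.1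
  · exact divErr h (ha.mono measurableSet_ball hsub) measure_ball_lt_top (ENNReal.natCast_ne_top _)
      (lt_of_le_of_lt (measure_mono hsub) hkt) (hdv.mono hsub) (by positivity) (by linarith)
  · nlinarith
  · exact (measure_mono hsub).trans (hE.al_le h ha hY hd₂ hd₂1)
  · refine (measure_mono hsub).trans ?_
    rw [Measure.add_apply, Measure.add_apply]
    calc hM NN (Qn : ℝ≥0∞) (ball x (2 * s)) + qM W π (ball x (2 * s)) + kA (ball x (2 * s)) ≤
        ENNReal.ofReal (d₂ * Y) + ENNReal.ofReal (d₁ * Y) + ENNReal.ofReal (d₃ * Y) :=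
          add_le_add (add_le_add hE.hM_le hE.qB) hE.kB
      _ = ENNReal.ofReal (d₂ * Y + d₁ * Y + d₃ * Y) := by
          rw [ENNReal.ofReal_add (by positivity) (by positivity),
            ENNReal.ofReal_add (by positivity) (by positivity)]
      _ ≤ _ := ENNReal.ofReal_le_ofReal (by nlinarith)
  · refine hLr.trans ?_
    have : d₃ ≤ δ := by linarith
    gcongr
  · rw [show δ * Y = Real.sqrt ((δ * Y) ^ 2) from (Real.sqrt_sq (by positivity)).symm]
    refine Real.sqrt_le_sqrt ?_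
    calc _ ≤ Y * (d₃ * Y) := mul_le_mul hQr hLr hL0 hY
      _ ≤ Y * (δ ^ 2 * Y) := by gcongr
      _ = _ := by ring

/-- the anomaly of a test function supported in `B_2s(x)`. -/
theorem Est.anomaly (hE : Est W π NN Qn kA S x s d₁ d₂ d₃ Y) (h : CF W π κ x₀ R)
    (ha : AreaAt W π NN (ball x (2 * s))) (hY : 0 ≤ Y) (hd₁ : 0 ≤ d₁) (hd₂ : 0 ≤ d₂)
    {φ : Euc m → ℝ} (hφ : Measurable φ) (h1 : ∀ z, |φ z| ≤ 1)
    (h0 : ∀ z, z ∉ ball x (2 * s) → φ z = 0) :
    |(∫ p, φ (π p.1) ∂W) - Qn * (∫ z, φ z) - (1 / 2) * (∫ p, tl π p.2 * φ (π p.1) ∂W)| ≤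
      (d₁ / 2 + d₂) * Y := by
  refine (abs_anomaly_le h ha measure_ball_lt_top hφ h1 h0).trans ?_
  have e1 : (qM W π (ball x (2 * s))).toReal ≤ d₁ * Y :=
    ENNReal.toReal_le_of_le_ofReal (by positivity) hE.qB
  have e2 : ∫ z in ball x (2 * s), |(NN z).toReal - Qn| ≤ d₂ * Y := by
    have hm : Measurable fun z => |(NN z).toReal - (Qn : ℝ)| :=
      continuous_abs.measurable.comp (ha.meas.ennreal_toReal.sub_const _)
    rw [integral_eq_lintegral_of_nonneg_ae (Eventually.of_forall fun z => abs_nonneg _)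
      hm.aestronglyMeasurable]
    exact ENNReal.toReal_le_of_le_ofReal (by positivity) hE.tB
  linarith

/-- the energy over sets with small projection. -/
theorem exists_energy (m : ℕ) (hSC : Proj_929.SC1 (EuclideanSpace.basisFun (Fin d) ℝ)) :
    ∃ C : ℝ, 0 < C ∧ ∀ {n k : ℕ} {π : Euc k →L[ℝ] Euc m} {κ : Euc k →L[ℝ] Euc n}
      {W : Measure (Euc k × L k)} {x₀ : Euc m} {R : ℝ} {NN : Euc m → ℝ≥0∞} {Qn : ℕ}
      {kA : Measure (Euc m)} {S : Submodule ℝ (Euc m)} {x : Euc m} {s d₁ d₂ d₃ Y δ θ : ℝ},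
      Est W π NN Qn kA S x s d₁ d₂ d₃ Y → CF W π κ x₀ R →
      AreaAt W π NN (ball x (2 * s)) → HDiv W π kA (ball x (2 * s)) →
      0 < s → s ≤ 1 → 0 ≤ Y → 0 ≤ d₁ → 0 ≤ d₂ → d₂ ≤ 1 → 0 ≤ d₃ → 0 ≤ δ → δ ≤ 1 →
      d₂ + d₁ + d₃ ≤ δ → d₃ ≤ δ ^ 2 → 0 ≤ θ → ∀ (hS : Module.finrank ℝ S = d),
      ∀ N : Set (Euc m), N ⊆ closedBall x s →
        volume (Proj_929.pr (iso S hS) '' N) ≤ ENNReal.ofReal (θ * s ^ d) →
        eM W π N ≤ ENNReal.ofReal (C * (θ + Real.sqrt δ) * Y) := by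
  obtain ⟨C, hC0, hC⟩ := Proj_929.energy_le.{0} (F := Euc m) (EuclideanSpace.basisFun (Fin d) ℝ) hSC
  obtain ⟨T, hT1, hTc⟩ := exists_cover m
  refine ⟨(C + 1) * (2 * 8 ^ d) * (T.card + 1), by positivity, ?_⟩
  intro n k π κ W x₀ R NN Qn kA S x s d₁ d₂ d₃ Y δ θ hE h ha hdv hs hs1 hY hd₁ hd₂ hd₂1 hd₃ hδ0 hδ1
    hsum hd₃δ hθ hS N hN hvol
  have hsd : 0 < s ^ d := by positivity
  -- one ball
  have key : ∀ t ∈ T, eM W π (N ∩ ball (x + s • t) (s / 8)) ≤
      ENNReal.ofReal ((C + 1) * (2 * 8 ^ d) * (θ + Real.sqrt δ) * Y) := by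
    intro t ht
    have hx' : ‖(x + s • t) - x‖ ≤ s := by
      rw [add_sub_cancel_left, norm_smul, Real.norm_of_nonneg hs.le]
      exact mul_le_of_le_one_right hs.le (hT1 t ht)
    have D := hE.data h ha hdv hs hs1 hY hd₁ hd₂ hd₂1 hd₃ hδ0 hδ1 hsum hd₃δ hS hx'
    have h1 := hC _ _ _ _ _ _ _ _ _ _ D (eM W π) (fun A hA _ => by
      refine (eM_le (NN := NN) (Q := (Qn : ℝ≥0∞)) h hA).trans (add_le_add le_rfl ?_)
      rw [Measure.add_apply, Measure.add_apply, add_comm (hM NN (Qn : ℝ≥0∞) A)]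
      exact le_self_add.trans le_self_add) (N ∩ ball (x + s • t) (s / 8)) inter_subset_right
    refine h1.trans ?_
    have hfr : Module.finrank ℝ (EuclideanSpace ℝ (Fin d)) = d := finrank_euclideanSpace_fin
    rw [hfr]
    have h2 : volume (Proj_929.pr (iso S hS) '' (N ∩ ball (x + s • t) (s / 8))) ≤
        ENNReal.ofReal (θ * s ^ d) :=
      (measure_mono (image_mono inter_subset_left)).trans hvol
    have hq : Real.sqrt (2 * Y * (δ * Y)) ≤ 2 * Real.sqrt δ * Y := by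
      rw [show 2 * Real.sqrt δ * Y = Real.sqrt ((2 * Real.sqrt δ * Y) ^ 2) from
        (Real.sqrt_sq (by positivity)).symm]
      refine Real.sqrt_le_sqrt ?_
      rw [mul_pow, mul_pow, Real.sq_sqrt hδ0]
      nlinarith [mul_nonneg hδ0 (sq_nonneg Y)]
    calc ENNReal.ofReal (C * (2 * Y) / (s / 8) ^ d) *
          volume (Proj_929.pr (iso S hS) '' (N ∩ ball (x + s • t) (s / 8))) +
          ENNReal.ofReal (C * Real.sqrt (2 * Y * (δ * Y)))
        ≤ ENNReal.ofReal (C * (2 * Y) / (s / 8) ^ d) * ENNReal.ofReal (θ * s ^ d) +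
          ENNReal.ofReal (C * (2 * Real.sqrt δ * Y)) := by
          gcongr
      _ = ENNReal.ofReal (C * (2 * Y) / (s / 8) ^ d * (θ * s ^ d) + C * (2 * Real.sqrt δ * Y)) := by
          rw [← ENNReal.ofReal_mul (by positivity), ← ENNReal.ofReal_add (by positivity)
            (by positivity)]
      _ ≤ _ := by
          refine ENNReal.ofReal_le_ofReal ?_
          have e1 : C * (2 * Y) / (s / 8) ^ d * (θ * s ^ d) = C * (2 * 8 ^ d) * θ * Y := by
            rw [div_pow]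
            field_simp
          rw [e1]
          have e2 : (1:ℝ) ≤ 8 ^ d := one_le_pow₀ (by norm_num)
          have hq0 := Real.sqrt_nonneg δ
          have e3 : C * (2 * Real.sqrt δ * Y) ≤ C * (2 * 8 ^ d) * Real.sqrt δ * Y := by
            have : C * (2 * Real.sqrt δ * Y) * 1 ≤ C * (2 * Real.sqrt δ * Y) * 8 ^ d :=
              mul_le_mul_of_nonneg_left e2 (by positivity)
            calc C * (2 * Real.sqrt δ * Y) = C * (2 * Real.sqrt δ * Y) * 1 := by ring
              _ ≤ _ := this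
              _ = _ := by ring
          have e4 : 0 ≤ (2 * 8 ^ d) * (θ + Real.sqrt δ) * Y := by positivity
          calc C * (2 * 8 ^ d) * θ * Y + C * (2 * Real.sqrt δ * Y) ≤
              C * (2 * 8 ^ d) * θ * Y + C * (2 * 8 ^ d) * Real.sqrt δ * Y := by linarith
            _ = C * ((2 * 8 ^ d) * (θ + Real.sqrt δ) * Y) := by ring
            _ ≤ (C + 1) * ((2 * 8 ^ d) * (θ + Real.sqrt δ) * Y) := by nlinarith
            _ = _ := by ring
  -- the sum
  have hcov : N ⊆ ⋃ t ∈ T, N ∩ ball (x + s • t) (s / 8) := by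
    intro z hz
    have h1 : s⁻¹ • (z - x) ∈ closedBall (0 : Euc m) 1 := by
      have h2 := hN hz
      rw [mem_closedBall, dist_eq_norm] at h2
      rw [mem_closedBall_zero_iff, norm_smul, norm_inv, Real.norm_of_nonneg hs.le,
        inv_mul_le_iff₀ hs, mul_one]
      exact h2
    have h3 := hTc h1
    simp only [mem_iUnion, exists_prop] at h3 ⊢
    obtain ⟨t, ht, h4⟩ := h3
    refine ⟨t, ht, hz, ?_⟩
    rw [mem_ball, dist_eq_norm] at h4 ⊢
    have h5 : z - (x + s • t) = s • (s⁻¹ • (z - x) - t) := by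
      rw [smul_sub, smul_smul, mul_inv_cancel₀ hs.ne', one_smul]
      abel
    rw [h5, norm_smul, Real.norm_of_nonneg hs.le]
    calc s * ‖s⁻¹ • (z - x) - t‖ < s * (1 / 8) := by gcongr
      _ = s / 8 := by ring
  calc eM W π N ≤ eM W π (⋃ t ∈ T, N ∩ ball (x + s • t) (s / 8)) := measure_mono hcov
    _ ≤ ∑ t ∈ T, eM W π (N ∩ ball (x + s • t) (s / 8)) := measure_biUnion_finset_le _ _
    _ ≤ ∑ _t ∈ T, ENNReal.ofReal ((C + 1) * (2 * 8 ^ d) * (θ + Real.sqrt δ) * Y) :=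
        Finset.sum_le_sum key
    _ = ENNReal.ofReal (T.card * ((C + 1) * (2 * 8 ^ d) * (θ + Real.sqrt δ) * Y)) := by
        rw [Finset.sum_const, nsmul_eq_mul, ENNReal.ofReal_mul (Nat.cast_nonneg _),
          ENNReal.ofReal_natCast]
    _ ≤ _ := by
        refine ENNReal.ofReal_le_ofReal ?_
        have hq0 := Real.sqrt_nonneg δ
        have e4 : 0 ≤ (C + 1) * (2 * 8 ^ d) * (θ + Real.sqrt δ) * Y := by positivity
        nlinarith

/-- **N5 LOCAL**, one centre `x`, one scale `s = e^l ≤ 1`.  `ηH` = smallness of the hole lemma,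
`δH` = its input, `C₁` = constant of the theta lemma, `kA` = almost stationarity error. -/
theorem local_small (hd : d + 2 = m)
    (hSC : Proj_929.SC1 (EuclideanSpace.basisFun (Fin d) ℝ)) {c₀ C₁ : ℝ} (hc₀ : 0 < c₀)
    (hC₁ : 0 ≤ C₁) {ω : ℝ} (hω : 0 < ω) :
    ∃ θ > 0, ∃ ηH > 0, ∀ δH K : ℝ, 0 < δH → ∃ η > 0,
      ∀ {n k : ℕ} {π : Euc k →L[ℝ] Euc m} {κ : Euc k →L[ℝ] Euc n} {W : Measure (Euc k × L k)}
        {x₀ : Euc m} {R : ℝ} {NN : Euc m → ℝ≥0∞} {Qn : ℕ} {kA : Measure (Euc m)}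
        {g g1 g2 : ℝ → ℝ} {x y : Euc m} {v : Fin d → Euc m} {l G : ℝ},
        CF W π κ x₀ R → Prof g g1 g2 → (∀ t, 0 ≤ t → t ≤ 1 / 4 → c₀ ≤ -g1 t) → l ≤ 0 →
        AreaAt W π NN (ball x (2 * Real.exp l)) → HDiv W π kA (ball x (2 * Real.exp l)) →
        (∀ (c : Fin d → ℝ) (i : Fin d), |c i| * Real.exp l ≤ K * ‖∑ j, c j • v j‖) →
        ‖y - x‖ ≤ 2 * Real.exp l → (∀ i, ‖y + v i - x‖ ≤ 2 * Real.exp l) →
        RR W π y g1 (l + 3) ≤ η * G → (∀ i, RR W π (y + v i) g1 (l + 3) ≤ η * G) →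
        eM W π (ball x (2 * Real.exp l)) ≤ ENNReal.ofReal (G * Real.exp l ^ d) →
        kA (ball x (2 * Real.exp l)) ≤ ENNReal.ofReal (η * G * Real.exp l ^ d) →
        (∀ S : Submodule ℝ (Euc m), Module.finrank ℝ S = d →
          lM W π S (ball x (8 * Real.exp l)) ≤ ENNReal.ofReal (δH * G * Real.exp l ^ d) →
          qM W π (ball x (4 * Real.exp l)) ≤ ENNReal.ofReal (ηH * G * Real.exp l ^ d)) →
        (∫⁻ z in ball x (2 * Real.exp l), ENNReal.ofReal |(NN z).toReal - Qn| ≤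
          ENNReal.ofReal C₁ * qM W π (ball x (4 * Real.exp l))) →
        (∀ φ : Euc m → ℝ, Measurable φ → (∀ z, |φ z| ≤ 1) →
          (∀ z, z ∉ ball x (2 * Real.exp l) → φ z = 0) →
          |(∫ p, φ (π p.1) ∂W) - Qn * (∫ z, φ z) - (1 / 2) * (∫ p, tl π p.2 * φ (π p.1) ∂W)| ≤
            ω * G * Real.exp l ^ d) ∧
        ∃ hS : Module.finrank ℝ (Submodule.span ℝ (range v)) = d,
          ∀ N : Set (Euc m), N ⊆ closedBall x (Real.exp l) →
            volume (Proj_929.pr (iso _ hS) '' N) ≤ ENNReal.ofReal (θ * Real.exp l ^ d) →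
            eM W π N ≤ ENNReal.ofReal (ω * G * Real.exp l ^ d) := by
  obtain ⟨C, hC0, hC⟩ := exists_energy m hSC
  set δ : ℝ := min 1 ((ω / (2 * C)) ^ 2) with hδdef
  have hδ : 0 < δ := by positivity
  have hδ1 : δ ≤ 1 := min_le_left _ _
  have hδs : Real.sqrt δ ≤ ω / (2 * C) := by
    calc Real.sqrt δ ≤ Real.sqrt ((ω / (2 * C)) ^ 2) := Real.sqrt_le_sqrt (min_le_right _ _)
      _ = _ := Real.sqrt_sq (by positivity)
  set ηH : ℝ := min (δ / (2 * (C₁ + 1))) (ω / (C₁ + 1)) with hηH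
  have hηH0 : 0 < ηH := by positivity
  have hηH1 : (C₁ + 1) * ηH ≤ δ / 2 := by
    calc (C₁ + 1) * ηH ≤ (C₁ + 1) * (δ / (2 * (C₁ + 1))) := by
          gcongr; exact min_le_left _ _
      _ = δ / 2 := by field_simp
  have hηH2 : (C₁ + 1) * ηH ≤ ω := by
    calc (C₁ + 1) * ηH ≤ (C₁ + 1) * (ω / (C₁ + 1)) := by
          gcongr; exact min_le_right _ _
      _ = ω := by field_simp
  refine ⟨ω / (2 * C), by positivity, ηH, hηH0, ?_⟩
  intro δH K hδH
  set CL : ℝ := 2 * d ^ 3 * K ^ 2 / c₀ * Real.exp (3 * m) with hCL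
  have hCL0 : 0 ≤ CL := by positivity
  set η : ℝ := min (δ ^ 2 / 2) (min (δ ^ 2 / 2) δH / (CL + 1)) with hη
  have hη0 : 0 < η := by positivity
  have hη1 : η ≤ δ ^ 2 / 2 := min_le_left _ _
  have hη2 : CL * η ≤ min (δ ^ 2 / 2) δH := by
    calc CL * η ≤ (CL + 1) * η := by nlinarith
      _ ≤ (CL + 1) * (min (δ ^ 2 / 2) δH / (CL + 1)) := by
          gcongr; exact min_le_right _ _
      _ = _ := by field_simp
  have hη3 : CL * η ≤ δ ^ 2 / 2 := hη2.trans (min_le_left _ _)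
  have hη4 : CL * η ≤ δH := hη2.trans (min_le_right _ _)
  refine ⟨η, hη0, ?_⟩
  intro n k π κ W x₀ R NN Qn kA g g1 g2 x y v l G h hg hc hl ha hdv hfat hy hv hr0 hrv he hk hH hT
  set s := Real.exp l with hs
  have hs0 : 0 < s := Real.exp_pos l
  have hs1 : s ≤ 1 := Real.exp_le_one_iff.2 hl
  have hS := finrank_fat hfat
  set S := Submodule.span ℝ (range v) with hSdef
  have hG : 0 ≤ G := by
    have h1 := (h.RR_nonneg hg (l + 3)).trans hr0
    by_contra h2
    push Not at h2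
    have := mul_neg_of_pos_of_neg hη0 h2
    linarith
  set Y : ℝ := G * s ^ d with hY
  have hY0 : 0 ≤ Y := by positivity
  have hl8 := lM_ball_le (x := x) hd h hg hc₀ hc hfat hy hv hr0 hrv
  have hl8' : lM W π S (ball x (8 * s)) ≤ ENNReal.ofReal (CL * η * Y) := by
    refine hl8.trans (le_of_eq ?_)
    congr 1
    rw [hCL, hY]; ring
  have hq4 : qM W π (ball x (4 * s)) ≤ ENNReal.ofReal (ηH * Y) := by
    have h1 := hH S hS (hl8'.trans (ENNReal.ofReal_le_ofReal (by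
      rw [hY]
      calc CL * η * (G * s ^ d) ≤ δH * (G * s ^ d) := by gcongr
        _ = _ := by ring)))
    rw [mul_assoc] at h1
    exact h1
  have hb24 : ball x (2 * s) ⊆ ball x (4 * s) := ball_subset_ball (by linarith)
  have hb28 : ball x (2 * s) ⊆ ball x (8 * s) := ball_subset_ball (by linarith)
  have hE : Est W π NN Qn kA S x s ηH (C₁ * ηH) (δ ^ 2 / 2) Y := by
    refine ⟨he, (measure_mono hb24).trans hq4, ?_, ?_, ?_⟩
    · refine hT.trans ?_
      calc ENNReal.ofReal C₁ * qM W π (ball x (4 * s)) ≤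
          ENNReal.ofReal C₁ * ENNReal.ofReal (ηH * Y) := by gcongr
        _ = ENNReal.ofReal (C₁ * (ηH * Y)) := (ENNReal.ofReal_mul hC₁).symm
        _ = _ := by ring_nf
    · refine hk.trans (ENNReal.ofReal_le_ofReal ?_)
      rw [mul_assoc]
      gcongr
    · refine (measure_mono hb28).trans (hl8'.trans (ENNReal.ofReal_le_ofReal ?_))
      gcongr
  have hd1 : C₁ * ηH ≤ 1 := by nlinarith
  have hδ2 : δ ^ 2 ≤ δ := by nlinarith
  refine ⟨fun φ hφ h1 h0 => ?_, hS, fun N hN hvol => ?_⟩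
  · refine (hE.anomaly h ha hY0 hηH0.le (by positivity) hφ h1 h0).trans ?_
    rw [mul_assoc, ← hY]
    gcongr
    nlinarith
  · have h3 := hC hE h ha hdv hs0 hs1 hY0 hηH0.le (by positivity) hd1 (by positivity) hδ.le hδ1
      (by nlinarith) (by nlinarith) (by positivity : (0:ℝ) ≤ ω / (2 * C)) hS N hN hvol
    refine h3.trans (ENNReal.ofReal_le_ofReal ?_)
    rw [mul_assoc ω, ← hY]
    have h4 : C * (ω / (2 * C) + Real.sqrt δ) ≤ ω := by
      calc C * (ω / (2 * C) + Real.sqrt δ) ≤ C * (ω / (2 * C) + ω / (2 * C)) := by gcongr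
        _ = ω := by field_simp; ring
    gcongr

end Crest.Agent.R234.N5_372
end
end

-- ▼ part R234/N5e_372

/-!
Row 234, node N5 (LOCAL) of the core (helper372), part 5: the strong constancy lemma of helper173 in
helper929's form, and the output of N5 in the form `BSm` of helper561.
-/

set_option autoImplicit false

open MeasureTheory Metric Set Filter Topology
open Crest.GeometryTopology.Submanifold
open Crest.Agent.R234.Vf_884 Crest.Agent.R234.Ar_870 Crest.Agent.R234.Cy_870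
open scoped ENNReal NNReal InnerProductSpace

noncomputable section

namespace Crest.Agent.R234.N5_372

/-- the strong constancy lemma in helper929's form. -/
theorem sc1 (d : ℕ) : Proj_929.SC1 (EuclideanSpace.basisFun (Fin d) ℝ) := by
  refine ⟨Sc173.Csc d, Sc173.Csc_nonneg d, ?_⟩
  intro A Em Gm _ _ _ x₀ r M δ hr hδ hδM hA hE hG hH S hS hSr
  have hM : 0 ≤ M := hδ.trans hδM
  have h1 := Sc173.SC1 (EuclideanSpace.basisFun (Fin d) ℝ) hr hM hδ hA hE hG
    (fun U h1 h2 h3 => hH U h1 h2 h3) hS hSr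
  have hfr : Module.finrank ℝ (EuclideanSpace ℝ (Fin d)) = d := finrank_euclideanSpace_fin
  rw [hfr, ← ENNReal.ofReal_toReal (measure_ne_top A S)]
  refine ENNReal.ofReal_le_ofReal ?_
  have h2 : M * (volume S).toReal / r ^ d = M * (volume.real S / r ^ d) := by
    rw [mul_div_assoc]; rfl
  rw [h2]
  exact h1

variable {m n k d : ℕ} {π : Euc k →L[ℝ] Euc m} {W : Measure (Euc k × L k)} {x : Euc m}

theorem bsm_of (hd : d + 2 = m) {Q B l : ℝ}
    (h : ∀ φ : Euc m → ℝ, Measurable φ → (∀ z, |φ z| ≤ 1) →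
      (∀ z, z ∉ ball x (2 * Real.exp l) → φ z = 0) →
      |(∫ p, φ (π p.1) ∂W) - Q * (∫ z, φ z) - (1 / 2) * (∫ p, tl π p.2 * φ (π p.1) ∂W)| ≤
        B * Real.exp l ^ d) : Thin_561.BSm W π Q x l B := by
  intro ψ hψ h0 h1 hz
  have h2 := h ψ hψ.measurable (fun z => by rw [abs_of_nonneg (h0 z)]; exact h1 z) (fun z hz' => by
    refine hz z ?_
    rw [mem_ball, dist_eq_norm, not_lt] at hz'
    have := Real.exp_pos l
    linarith)
  unfold Thin_561.bF Thin_561.aF
  have e1 : (∫ p, ψ (π p.1) ∂W) - Q * (∫ z, ψ z) - (∫ p, tl π p.2 * ψ (π p.1) ∂W) / 2 =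
      (∫ p, ψ (π p.1) ∂W) - Q * (∫ z, ψ z) - (1 / 2) * (∫ p, tl π p.2 * ψ (π p.1) ∂W) := by
    ring
  rw [e1, abs_mul, abs_of_pos (Real.exp_pos _)]
  have e2 : Real.exp ((2 - m) * l) * Real.exp l ^ d = 1 := by
    rw [← Real.exp_nat_mul, ← Real.exp_add]
    have : (m : ℝ) = d + 2 := by rw [← hd]; push_cast; ring
    rw [this]
    have : (2 - ((d:ℝ) + 2)) * l + d * l = 0 := by ring
    rw [this, Real.exp_zero]
  calc Real.exp ((2 - m) * l) * |_| ≤ Real.exp ((2 - m) * l) * (B * Real.exp l ^ d) := by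
        gcongr
    _ = B * (Real.exp ((2 - m) * l) * Real.exp l ^ d) := by ring
    _ = B := by rw [e2, mul_one]

end Crest.Agent.R234.N5_372
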