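import Crest.Agent.R234.Thin3_561
import Crest.Agent.R234.Avg5_387
import Crest.Agent.R234.Asl2_214
import Crest.Agent.R234.N5e_372
import Crest.Agent.R234.Core2_809

-- ▼ part R234/Thin4_561
section

/-!
# Row 234, node N4 THIN of the core (helper561), part 4: fat simplices of centres with small radial energy
-/

set_option autoImplicit false
set_option linter.unusedSectionVars false

open MeasureTheory Set Function Filter Topology
open Crest.GeometryTopology.Submanifold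
open Crest.Agent.R234.Vf_884 Crest.Agent.R234.Ar_870 Crest.Agent.R234.Cy_870
open Crest.Agent.R234.Rig_300
open scoped ENNReal NNReal InnerProductSpace

noncomputable section

namespace Crest.Agent.R234.Thin_561

variable {m n k : ℕ}

variable {π : Euc k →L[ℝ] Euc m} {κ : Euc k →L[ℝ] Euc n} {x z ν : Euc m} {L₀ : ℝ}
  {V : Measure (Euc k × L k)} {g g1 g2 : ℝ → ℝ}

theorem exp_six : (9 : ℝ) * Real.exp (-6) ≤ 1 / 4 := by
  have h1 : (2 : ℝ) ≤ Real.exp 1 := by linarith [Real.add_one_le_exp (1:ℝ)]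
  have h2 : (2 : ℝ) ^ 6 ≤ Real.exp 1 ^ 6 := pow_le_pow_left₀ (by norm_num) h1 6
  have h3 : Real.exp 1 ^ 6 = Real.exp 6 := by rw [← Real.exp_nat_mul]; norm_num
  rw [h3] at h2
  rw [Real.exp_neg, ← div_eq_mul_inv, div_le_iff₀ (Real.exp_pos _)]
  linarith

/-- the sharp radial energy about a centre `z` near `x` is controlled by the weighted one -/
theorem ball_le_RR (h : Fr V π κ z L₀) (hg : Prof g g1 g2) {l : ℝ} (hl : l + 3 ≤ L₀)
    {c₁ : ℝ} (hc : 0 < c₁) (hc1 : ∀ t, 0 ≤ t → t ≤ 1 / 4 → c₁ ≤ -g1 t)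
    (hz : ‖z - x‖ ≤ 2 * Real.exp l) :
    IntegrableOn (fun p : Euc k × L k => qf π p.2 (π p.1 - z)) (BB π x l) V ∧
    Real.exp (-m * l) * ∫ p in BB π x l, qf π p.2 (π p.1 - z) ∂V ≤
      Real.exp (3 * m) / (2 * c₁) * RR V π z g1 (l + 3) := by
  have hBm : MeasurableSet (BB (k := k) π x l) := (isOpen_BB π x l).measurableSet
  have i0 := integrable_k' h (continuous_qf π z).aestronglyMeasurable h.qf_bound hg.k0 hl
  have i1 : Integrable (fun p : Euc k × L k => qf π p.2 (π p.1 - z) *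
      (-2 * g1 (Real.exp (-2 * (l + 3)) * ‖π p.1 - z‖ ^ 2))) V := by
    refine (i0.const_mul (-2)).congr (Eventually.of_forall fun p => ?_)
    simp only
    ring
  have key : ∀ p : Euc k × L k, p.2 ∈ G m k → p ∈ BB π x l →
      qf π p.2 (π p.1 - z) ≤ (1 / (2 * c₁)) * (qf π p.2 (π p.1 - z) *
        (-2 * g1 (Real.exp (-2 * (l + 3)) * ‖π p.1 - z‖ ^ 2))) := by
    intro p hp hpB
    have h1 : ‖π p.1 - x‖ < Real.exp l := by
      have : Real.exp (2 * l) = Real.exp l ^ 2 := by rw [← Real.exp_nat_mul]; norm_num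
      rw [mem_BB, this] at hpB
      exact lt_of_pow_lt_pow_left₀ 2 (Real.exp_pos _).le hpB
    have h2 : ‖π p.1 - z‖ ≤ 3 * Real.exp l := by
      have e1 : π p.1 - z = (π p.1 - x) - (z - x) := by abel
      rw [e1]
      refine (norm_sub_le _ _).trans ?_
      linarith
    have h3 : Real.exp (-2 * (l + 3)) * ‖π p.1 - z‖ ^ 2 ≤ 1 / 4 := by
      have e1 : ‖π p.1 - z‖ ^ 2 ≤ (3 * Real.exp l) ^ 2 := pow_le_pow_left₀ (norm_nonneg _) h2 2
      have e2 : Real.exp (-2 * (l + 3)) * (3 * Real.exp l) ^ 2 = 9 * Real.exp (-6) := by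
        rw [mul_pow, ← Real.exp_nat_mul]
        have : Real.exp (-2 * (l + 3)) * (3 ^ 2 * Real.exp (((2:ℕ):ℝ) * l)) =
            9 * (Real.exp (-2 * (l + 3)) * Real.exp (((2:ℕ):ℝ) * l)) := by ring
        rw [this, ← Real.exp_add]
        congr 2
        push_cast
        ring
      calc Real.exp (-2 * (l + 3)) * ‖π p.1 - z‖ ^ 2
          ≤ Real.exp (-2 * (l + 3)) * (3 * Real.exp l) ^ 2 := by gcongr
        _ ≤ 1 / 4 := by rw [e2]; exact exp_six
    have h4 := hc1 _ (by positivity) h3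
    have h5 := qf_nonneg h.sp.hh (isPr_of_G hp) (π p.1 - z)
    have h6 : (1 / (2 * c₁)) * (qf π p.2 (π p.1 - z) *
        (-2 * g1 (Real.exp (-2 * (l + 3)) * ‖π p.1 - z‖ ^ 2))) =
        qf π p.2 (π p.1 - z) * (-g1 (Real.exp (-2 * (l + 3)) * ‖π p.1 - z‖ ^ 2) / c₁) := by
      field_simp
    rw [h6]
    have h7 : 1 ≤ -g1 (Real.exp (-2 * (l + 3)) * ‖π p.1 - z‖ ^ 2) / c₁ := by
      rw [le_div_iff₀ hc]; linarith
    exact le_mul_of_one_le_right h5 h7
  have hI : IntegrableOn (fun p : Euc k × L k => qf π p.2 (π p.1 - z)) (BB π x l) V := by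
    refine Integrable.mono' ((i1.const_mul (1 / (2 * c₁))).integrableOn (s := BB π x l))
      (continuous_qf π z).aestronglyMeasurable.restrict ?_
    rw [ae_restrict_iff' hBm]
    filter_upwards [h.conc] with p hp hpB
    rw [Real.norm_eq_abs, abs_of_nonneg (qf_nonneg h.sp.hh (isPr_of_G hp) _)]
    exact key p hp hpB
  refine ⟨hI, ?_⟩
  have h1 : ∫ p in BB π x l, qf π p.2 (π p.1 - z) ∂V ≤
      (1 / (2 * c₁)) * ∫ p, qf π p.2 (π p.1 - z) *
        (-2 * g1 (Real.exp (-2 * (l + 3)) * ‖π p.1 - z‖ ^ 2)) ∂V := by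
    rw [← integral_const_mul, ← integral_indicator hBm]
    refine integral_mono_ae ?_ (i1.const_mul _) ?_
    · rw [integrable_indicator_iff hBm]; exact hI
    · filter_upwards [h.conc] with p hp
      by_cases hpB : p ∈ BB π x l
      · rw [indicator_of_mem hpB]
        exact key p hp hpB
      · rw [indicator_of_notMem hpB]
        refine mul_nonneg (by positivity) (mul_nonneg (qf_nonneg h.sp.hh (isPr_of_G hp) _) ?_)
        have := hg.anti (Real.exp (-2 * (l + 3)) * ‖π p.1 - z‖ ^ 2) (by positivity)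
        linarith
  have h2 : Real.exp (-m * l) = Real.exp (3 * m) * Real.exp (-m * (l + 3)) := by
    rw [← Real.exp_add]; congr 1; ring
  calc Real.exp (-m * l) * ∫ p in BB π x l, qf π p.2 (π p.1 - z) ∂V
      ≤ Real.exp (-m * l) * ((1 / (2 * c₁)) * ∫ p, qf π p.2 (π p.1 - z) *
        (-2 * g1 (Real.exp (-2 * (l + 3)) * ‖π p.1 - z‖ ^ 2)) ∂V) := by gcongr
    _ = Real.exp (3 * m) / (2 * c₁) * RR V π z g1 (l + 3) := by
        rw [h2]; unfold RR; ring

/-- **a fat `(m-1)`-simplex of centres with small radial energy makes the tilt energy in the directions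
of its plane small** -/
theorem eHB_le (h : ∀ z L₀, Fr V π κ z L₀) (hg : Prof g g1 g2) {l : ℝ}
    {c₁ : ℝ} (hc : 0 < c₁) (hc1 : ∀ t, 0 ≤ t → t ≤ 1 / 4 → c₁ ≤ -g1 t)
    {d : ℕ} (hν : ‖ν‖ = 1) {v : Fin d → Euc m} {C : ℝ}
    (hsp : ∀ u : Euc m, ⟪ν, u⟫_ℝ = 0 → ‖u‖ = 1 →
      ∃ c : Fin d → ℝ, u = ∑ j, c j • v j ∧ ∀ j, |c j| * Real.exp l ≤ C)
    {z₀ : Euc m} (hz : ‖z₀ - x‖ ≤ Real.exp l) (hv : ∀ j, ‖v j‖ ≤ Real.exp l)
    {B : ℝ} (hR0 : RR V π z₀ g1 (l + 3) ≤ B) (hRj : ∀ j, RR V π (z₀ + v j) g1 (l + 3) ≤ B) :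
    eHB V π x ν l ≤ 2 * m * d ^ 2 * C ^ 2 * Real.exp (3 * m) / c₁ * B := by
  have hs : 0 < Real.exp l := Real.exp_pos l
  have hfr := h x l
  have hBm : MeasurableSet (BB (k := k) π x l) := (isOpen_BB π x l).measurableSet
  have hz2 : ‖z₀ - x‖ ≤ 2 * Real.exp l := by linarith
  have hzj : ∀ j, ‖z₀ + v j - x‖ ≤ 2 * Real.exp l := by
    intro j
    have e1 : z₀ + v j - x = (z₀ - x) + v j := by abel
    rw [e1]
    refine (norm_add_le _ _).trans ?_
    linarith [hv j]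
  obtain ⟨I0, J0⟩ := ball_le_RR (x := x) (l := l) (h z₀ (l + 3)) hg le_rfl hc hc1 hz2
  have IJ := fun j => ball_le_RR (x := x) (l := l) (h (z₀ + v j) (l + 3)) hg le_rfl hc hc1 (hzj j)
  have hei : IntegrableOn (fun p : Euc k × L k => eH π p.2 ν) (BB π x l) V := by
    have : IsFiniteMeasure (V.restrict (BB π x l)) :=
      ⟨by rw [Measure.restrict_apply_univ]; exact BB_lt_top hfr le_rfl⟩
    exact Integrable.mono' (integrable_const (m:ℝ))
      (continuous_eH π ν).aestronglyMeasurable.restrict (ae_restrict_of_ae (eH_bd hfr hν))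
  have hI1 : ∀ j ∈ (Finset.univ : Finset (Fin d)),
      Integrable (fun p : Euc k × L k => qf π p.2 (π p.1 - (z₀ + v j)) + qf π p.2 (π p.1 - z₀))
        (V.restrict (BB π x l)) := fun j _ => (IJ j).1.add I0
  have hI2 := integrable_finsetSum (Finset.univ : Finset (Fin d)) hI1
  set A : ℝ := (m : ℝ) * (2 * (d * (C / Real.exp l) ^ 2)) with hA
  have hA0 : 0 ≤ A := by positivity
  have h1 : ∫ p in BB π x l, eH π p.2 ν ∂V ≤ A * ∑ j : Fin d,
      ((∫ p in BB π x l, qf π p.2 (π p.1 - (z₀ + v j)) ∂V) +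
        ∫ p in BB π x l, qf π p.2 (π p.1 - z₀) ∂V) := by
    have e1 : ∑ j : Fin d, ((∫ p in BB π x l, qf π p.2 (π p.1 - (z₀ + v j)) ∂V) +
        ∫ p in BB π x l, qf π p.2 (π p.1 - z₀) ∂V) =
        ∫ p in BB π x l, ∑ j : Fin d, (qf π p.2 (π p.1 - (z₀ + v j)) +
          qf π p.2 (π p.1 - z₀)) ∂V := by
      rw [integral_finsetSum _ hI1]
      exact Finset.sum_congr rfl fun j _ => (integral_add (IJ j).1 I0).symm
    rw [e1, ← integral_const_mul]
    refine integral_mono_ae hei (hI2.const_mul A) ?_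
    refine ae_restrict_of_ae ?_
    filter_upwards [hfr.conc] with p hp
    exact eH_le_simplex hfr.sp.hh (isPr_of_G hp) hν hs hsp z₀ (π p.1)
  have h2 : Real.exp (-m * l) * ∑ j : Fin d,
      ((∫ p in BB π x l, qf π p.2 (π p.1 - (z₀ + v j)) ∂V) +
        ∫ p in BB π x l, qf π p.2 (π p.1 - z₀) ∂V) ≤
      d * (Real.exp (3 * m) / c₁ * B) := by
    rw [Finset.mul_sum]
    have e1 : ∀ j ∈ (Finset.univ : Finset (Fin d)), Real.exp (-m * l) *
        ((∫ p in BB π x l, qf π p.2 (π p.1 - (z₀ + v j)) ∂V) +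
        ∫ p in BB π x l, qf π p.2 (π p.1 - z₀) ∂V) ≤ Real.exp (3 * m) / c₁ * B := by
      intro j _
      have e2 := (IJ j).2
      have e3 : Real.exp (3 * m) / (2 * c₁) * RR V π (z₀ + v j) g1 (l + 3) ≤
          Real.exp (3 * m) / (2 * c₁) * B := by
        gcongr
        exact hRj j
      have e4 : Real.exp (3 * m) / (2 * c₁) * RR V π z₀ g1 (l + 3) ≤
          Real.exp (3 * m) / (2 * c₁) * B := by gcongr
      have e5 : Real.exp (3 * m) / c₁ * B = Real.exp (3 * m) / (2 * c₁) * B +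
          Real.exp (3 * m) / (2 * c₁) * B := by
        field_simp
        ring
      rw [mul_add, e5]
      exact add_le_add (e2.trans e3) (J0.trans e4)
    refine (Finset.sum_le_sum e1).trans ?_
    rw [Finset.sum_const, Finset.card_univ, Fintype.card_fin, nsmul_eq_mul]
  have h3 : Real.exp ((2 - m) * l) * A = 2 * m * d * C ^ 2 * Real.exp (-m * l) := by
    have e1 : Real.exp ((2 - m) * l) = Real.exp (-m * l) * Real.exp l ^ 2 := by
      rw [← Real.exp_nat_mul, ← Real.exp_add]; congr 1; push_cast; ring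
    rw [hA, e1]
    field_simp
  unfold eHB
  calc Real.exp ((2 - m) * l) * ∫ p in BB π x l, eH π p.2 ν ∂V
      ≤ Real.exp ((2 - m) * l) * (A * ∑ j : Fin d,
      ((∫ p in BB π x l, qf π p.2 (π p.1 - (z₀ + v j)) ∂V) +
        ∫ p in BB π x l, qf π p.2 (π p.1 - z₀) ∂V)) := by gcongr
    _ = (2 * m * d * C ^ 2) * (Real.exp (-m * l) * ∑ j : Fin d,
      ((∫ p in BB π x l, qf π p.2 (π p.1 - (z₀ + v j)) ∂V) +
        ∫ p in BB π x l, qf π p.2 (π p.1 - z₀) ∂V)) := by
        rw [← mul_assoc, h3]; ring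
    _ ≤ (2 * m * d * C ^ 2) * (d * (Real.exp (3 * m) / c₁ * B)) := by gcongr
    _ = _ := by ring

theorem contDiff_Xν (hg : Ker g g1) (π : Euc k →L[ℝ] Euc m) (x ν : Euc m) (l : ℝ) :
    ContDiff ℝ 1 (Xν π x ν g l) := by
  have h1 : ContDiff ℝ 1 fun p : Euc k =>
      (g (Real.exp (-2 * l) * ‖π p - x‖ ^ 2) * ⟪ν, π p - x⟫_ℝ) :=
    (contDiff_sc hg l x ν).comp π.contDiff
  have h2 : ContDiff ℝ 1 fun p : Euc k =>
      (g (Real.exp (-2 * l) * ‖π p - x‖ ^ 2) * ⟪ν, π p - x⟫_ℝ) • ν := h1.smul contDiff_const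
  exact ((ContinuousLinearMap.adjoint π).contDiff.comp h2).const_smul (1 : ℝ)

theorem Xν_zero (hg : Ker g g1) {l : ℝ} {p : Euc k} (hp : Real.exp l ≤ ‖π p - x‖) :
    Xν π x ν g l p = 0 := by
  unfold Xν
  rw [hg.zero _ (Ker.one_le_of x hp), zero_mul, zero_smul, map_zero, smul_zero]

/-- **N4 THIN** for stationary varifolds in a cylinder: `z₀, z₀ + v_j` (`m` centres near `x`) span a
hyperplane quantitatively, their radial energies at scale `l + 3` are small, the anomaly functional is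
small in the ball; then `dE/dl = 2 b + R ≥ E - small` and `b` is small. -/
theorem thin {W : Measure (Euc k × L k)} {x₀ : Euc m} {R h₀ : ℝ}
    (h : CylStat W π κ x₀ R h₀) (hg : Prof g g1 g2) (Q : ℝ) {l : ℝ}
    (hl : ‖x - x₀‖ + Real.exp l ≤ R) {K : ℝ} (hK : ∀ t, 0 ≤ t → |g t| ≤ K)
    (hK1 : ∀ t, 0 ≤ t → |g1 t| ≤ K) {c₁ : ℝ} (hc : 0 < c₁)
    (hc1 : ∀ t, 0 ≤ t → t ≤ 1 / 4 → c₁ ≤ -g1 t) {d : ℕ} (hd : d + 1 = m)
    {v : Fin d → Euc m} {C : ℝ}
    (hfat : ∀ (c : Fin d → ℝ) (j : Fin d), |c j| * Real.exp l ≤ C * ‖∑ i, c i • v i‖)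
    {z₀ : Euc m} (hz : ‖z₀ - x‖ ≤ Real.exp l) (hv : ∀ j, ‖v j‖ ≤ Real.exp l)
    {η G t ω : ℝ} (ht : 0 < t)
    (hη : 2 * m * d ^ 2 * C ^ 2 * Real.exp (3 * m) / c₁ * η ≤ t ^ 2)
    (hG : eB W π x l ≤ G)
    (hR0 : RR W π z₀ g1 (l + 3) ≤ η * G) (hRj : ∀ j, RR W π (z₀ + v j) g1 (l + 3) ≤ η * G)
    (hb : BSm W π Q x l (ω * G)) :
    EE W π x g Q l - K * (t ^ 2 + 2 * t + 2 * ω) * G ≤ 2 * bb W π x g Q l + RR W π x g1 l ∧
      |bb W π x g Q l| ≤ K * (ω * G) := by
  obtain ⟨ν, hν, hsp⟩ := exists_normal hd (Real.exp_pos l) hfat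
  have hG0 : 0 ≤ G := by
    refine le_trans ?_ hG
    unfold eB
    refine mul_nonneg (Real.exp_pos _).le (integral_nonneg_of_ae ?_)
    refine ae_restrict_of_ae ?_
    filter_upwards [h.conc] with p hp
    exact tl_nonneg h.sp.hh (isPr_of_G hp)
  have h1 := eHB_le (V := W) (κ := κ) (fun z L₀ => h.fr z L₀) hg hc hc1 hν hsp hz hv hR0 hRj
  have h2 : eHB W π x ν l ≤ t ^ 2 * G := by
    refine h1.trans ?_
    rw [← mul_assoc]
    exact mul_le_mul_of_nonneg_right hη hG0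
  have h3 := thin_core (h.fr x l) hg Q le_rfl hν hK hK1 ht hG h2 hb
  have h4 : FV W (Xν π x ν g l) = 0 :=
    h.stat _ (contDiff_Xν hg.k0 π x ν l) fun p hp =>
      Xν_zero hg.k0 (CylStat.le_of_R (x := x) hl hp)
  rw [h4, mul_zero, add_zero] at h3
  exact ⟨h3, bb_le hg Q hK hb⟩

end Crest.Agent.R234.Thin_561
end
end

-- ▼ part R234/Thin5_561
section

/-!
# Row 234, node N4 THIN of the core (helper561), part 5: averaged centres

`thin_all` : the inequality of N4 without smallness assumption (the radial energies of the vertices appear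
on the right), hence it can be averaged over translations: `thin_av`.
-/

set_option autoImplicit false
set_option linter.unusedSectionVars false

open MeasureTheory Set Function Filter Topology Metric
open Crest.GeometryTopology.Submanifold
open Crest.Agent.R234.Vf_884 Crest.Agent.R234.Ar_870 Crest.Agent.R234.Cy_870
open Crest.Agent.R234.Rig_300 Crest.Agent.R234.Avg_387
open scoped ENNReal NNReal InnerProductSpace

noncomputable section

namespace Crest.Agent.R234.Thin_561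

variable {m n k : ℕ}

variable {π : Euc k →L[ℝ] Euc m} {κ : Euc k →L[ℝ] Euc n} {x y z ν : Euc m} {L₀ : ℝ}
  {V W : Measure (Euc k × L k)} {g g1 g2 : ℝ → ℝ} {x₀ : Euc m} {R h₀ τ : ℝ} {dw : Euc m → ℝ}

theorem norm_lt_of_BB {p : Euc k × L k} {l : ℝ} : p ∈ BB π x l ↔ ‖π p.1 - x‖ < Real.exp l := by
  have h1 : Real.exp (2 * l) = Real.exp l ^ 2 := by rw [← Real.exp_nat_mul]; norm_num
  rw [mem_BB, h1]
  exact pow_lt_pow_iff_left₀ (norm_nonneg _) (Real.exp_pos _).le two_ne_zero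

theorem tl_ae (h : CylStat W π κ x₀ R h₀) : ∀ᵐ p ∂W, 0 ≤ tl π p.2 ∧ tl π p.2 ≤ m := by
  filter_upwards [h.conc] with p hp
  exact ⟨tl_nonneg h.sp.hh (isPr_of_G hp), tl_le h.sp.hh (isPr_of_G hp)⟩

theorem integrable_tl (h : CylStat W π κ x₀ R h₀) :
    Integrable (fun p : Euc k × L k => tl π p.2) W := by
  have : IsFiniteMeasure W := ⟨h.fin⟩
  refine Integrable.mono' (integrable_const (m:ℝ)) (aestronglyMeasurable_tl π W) ?_
  filter_upwards [tl_ae h] with p hp
  rw [Real.norm_eq_abs, abs_of_nonneg hp.1]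
  exact hp.2

/-- sharp energies: change of centre and scale -/
theorem eB_mono (h : CylStat W π κ x₀ R h₀) {l l' : ℝ}
    (hy : ‖y - x‖ + Real.exp l ≤ Real.exp l') :
    eB W π y l ≤ Real.exp ((m - 2) * (l' - l)) * eB W π x l' := by
  have h1 : ∫ p in BB π y l, tl π p.2 ∂W ≤ ∫ p in BB π x l', tl π p.2 ∂W := by
    refine setIntegral_mono_set (integrable_tl h).integrableOn ?_ ?_
    · exact ae_restrict_of_ae (by filter_upwards [tl_ae h] with p hp using hp.1)
    · refine LE.le.eventuallyLE ?_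
      intro p hp
      rw [norm_lt_of_BB] at hp ⊢
      have e1 : π p.1 - x = (π p.1 - y) + (y - x) := by abel
      rw [e1]
      refine (norm_add_le _ _).trans_lt ?_
      linarith
  have h2 : Real.exp ((2 - m) * l) =
      Real.exp ((m - 2) * (l' - l)) * Real.exp ((2 - m) * l') := by
    rw [← Real.exp_add]; congr 1; ring
  unfold eB
  rw [h2, mul_assoc]
  gcongr


theorem BSm.mono {Q B : ℝ} {l l' : ℝ} (hb : BSm V π Q x l' B)
    (hy : ‖y - x‖ + Real.exp l ≤ Real.exp l') :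
    BSm V π Q y l (Real.exp ((m - 2) * (l' - l)) * B) := by
  intro ψ hc h0 h1 hz
  have h2 := hb ψ hc h0 h1 fun v hv => hz v (by
    have e1 : v - x = (v - y) + (y - x) := by abel
    rw [e1] at hv
    have := norm_add_le (v - y) (y - x)
    linarith)
  have h3 : Real.exp ((2 - m) * l) =
      Real.exp ((m - 2) * (l' - l)) * Real.exp ((2 - m) * l') := by
    rw [← Real.exp_add]; congr 1; ring
  rw [h3, mul_assoc, abs_mul, abs_of_pos (Real.exp_pos _)]
  gcongr

theorem ee_le_eB (h : CylStat W π κ x₀ R h₀) (hg : Ker g g1) {K : ℝ}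
    (hK : ∀ t, 0 ≤ t → |g t| ≤ K) (x : Euc m) (l : ℝ) : ee W π x g l ≤ K * eB W π x l := by
  have h1 := ker_le (h.fr x l) le_rfl (c := fun p => tl π p.2) (F := fun p => tl π p.2)
    (aestronglyMeasurable_tl π W) (CF := m)
    (by filter_upwards [tl_ae h] with p hp _; rw [abs_of_nonneg hp.1]; exact hp.2)
    hg.zero hK (by filter_upwards [tl_ae h] with p hp _; rw [abs_of_nonneg hp.1])
  unfold ee eB
  calc _ ≤ Real.exp ((2 - m) * l) * (K * ∫ p in BB π x l, tl π p.2 ∂W) := by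
        gcongr; exact (le_abs_self _).trans h1
    _ = _ := by ring

/-- **N4 without smallness of the radial energies** -/
theorem thin_all (h : CylStat W π κ x₀ R h₀) (hg : Prof g g1 g2) (Q : ℝ) {l : ℝ}
    (hl : ‖x - x₀‖ + Real.exp l ≤ R) {K : ℝ} (hK : ∀ t, 0 ≤ t → |g t| ≤ K)
    (hK1 : ∀ t, 0 ≤ t → |g1 t| ≤ K) {c₁ : ℝ} (hc : 0 < c₁)
    (hc1 : ∀ t, 0 ≤ t → t ≤ 1 / 4 → c₁ ≤ -g1 t) {N : ℕ} (hd : N + 1 = m)
    {v : Fin N → Euc m} {C : ℝ}
    (hfat : ∀ (c : Fin N → ℝ) (j : Fin N), |c j| * Real.exp l ≤ C * ‖∑ i, c i • v i‖)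
    {z₀ : Euc m} (hz : ‖z₀ - x‖ ≤ Real.exp l) (hv : ∀ j, ‖v j‖ ≤ Real.exp l)
    {η G t ω : ℝ} (ht : 0 < t) (hη0 : 0 < η)
    (hη : 2 * m * N ^ 2 * C ^ 2 * Real.exp (3 * m) / c₁ * η ≤ t ^ 2)
    (hω : 0 ≤ ω) (hG : eB W π x l ≤ G) (hb : BSm W π Q x l (ω * G)) :
    EE W π x g Q l ≤ RR W π x g1 l + K * (t ^ 2 + 2 * t + 4 * ω) * G +
      K * (ω + 1) / η * (RR W π z₀ g1 (l + 3) + ∑ j, RR W π (z₀ + v j) g1 (l + 3)) := by
  have hK0 : 0 ≤ K := (abs_nonneg _).trans (hK 0 le_rfl)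
  have hR : ∀ y l, 0 ≤ RR W π y g1 l := fun y l => h.RR_nonneg hg l
  have hG0 : 0 ≤ G := by
    refine le_trans ?_ hG
    unfold eB
    refine mul_nonneg (Real.exp_pos _).le (integral_nonneg_of_ae ?_)
    exact ae_restrict_of_ae (by filter_upwards [tl_ae h] with p hp using hp.1)
  have hS0 : 0 ≤ ∑ j, RR W π (z₀ + v j) g1 (l + 3) := Finset.sum_nonneg fun j _ => hR _ _
  have hc0 : 0 ≤ K * (ω + 1) / η := by positivity
  have hP : 0 ≤ K * (ω + 1) / η *
      (RR W π z₀ g1 (l + 3) + ∑ j, RR W π (z₀ + v j) g1 (l + 3)) :=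
    mul_nonneg hc0 (add_nonneg (hR _ _) hS0)
  by_cases hsm : RR W π z₀ g1 (l + 3) ≤ η * G ∧ ∀ j, RR W π (z₀ + v j) g1 (l + 3) ≤ η * G
  · obtain ⟨h1, h2⟩ := thin h hg Q hl hK hK1 hc hc1 hd hfat hz hv ht hη hG hsm.1 hsm.2 hb
    have h3 := (abs_le.1 h2).2
    linarith
  · have hbig : η * G ≤ RR W π z₀ g1 (l + 3) + ∑ j, RR W π (z₀ + v j) g1 (l + 3) := by
      by_cases h1 : RR W π z₀ g1 (l + 3) ≤ η * G
      · have h2 : ∃ j, η * G < RR W π (z₀ + v j) g1 (l + 3) := by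
          by_contra hcon
          push Not at hcon
          exact hsm ⟨h1, hcon⟩
        obtain ⟨j, hj⟩ := h2
        have h3 := Finset.single_le_sum (f := fun j => RR W π (z₀ + v j) g1 (l + 3))
          (fun i _ => hR _ _) (Finset.mem_univ j)
        linarith [hR z₀ (l + 3)]
      · push Not at h1
        linarith
    have h2 := (abs_le.1 (bb_le (g := g) hg Q hK hb)).2
    have h3 := ee_le_eB h hg.k0 hK x l
    have h4 : EE W π x g Q l ≤ K * (ω + 1) * G := by
      have e1 : EE W π x g Q l = bb W π x g Q l + ee W π x g l / 2 := by unfold bb; ring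
      have e2 : ee W π x g l ≤ K * G := h3.trans (by gcongr)
      have e3 : 0 ≤ K * G := by positivity
      rw [e1]
      linarith
    have h5 : K * (ω + 1) * G ≤ K * (ω + 1) / η *
        (RR W π z₀ g1 (l + 3) + ∑ j, RR W π (z₀ + v j) g1 (l + 3)) := by
      have e1 : K * (ω + 1) * G = K * (ω + 1) / η * (η * G) := by field_simp
      rw [e1]
      gcongr
    have h6 : 0 ≤ K * (t ^ 2 + 2 * t + 4 * ω) * G := by positivity
    linarith [hR x l]

/-- **N4 for averaged centres** -/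
theorem thin_av (h : CylStat W π κ x₀ R h₀) (hw : CW dw τ) (hg : Prof g g1 g2) (Q : ℝ) {l : ℝ}
    (hl : ‖x - x₀‖ + τ + Real.exp l ≤ R) (hτl : τ ≤ Real.exp l) {K : ℝ}
    (hK : ∀ t, 0 ≤ t → |g t| ≤ K)
    (hK1 : ∀ t, 0 ≤ t → |g1 t| ≤ K) {c₁ : ℝ} (hc : 0 < c₁)
    (hc1 : ∀ t, 0 ≤ t → t ≤ 1 / 4 → c₁ ≤ -g1 t) {N : ℕ} (hd : N + 1 = m)
    {v : Fin N → Euc m} {C : ℝ}
    (hfat : ∀ (c : Fin N → ℝ) (j : Fin N), |c j| * Real.exp l ≤ C * ‖∑ i, c i • v i‖)
    {z₀ : Euc m} (hz : ‖z₀ - x‖ ≤ Real.exp l) (hv : ∀ j, ‖v j‖ ≤ Real.exp l)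
    {η G t ω : ℝ} (ht : 0 < t) (hη0 : 0 < η)
    (hη : 2 * m * N ^ 2 * C ^ 2 * Real.exp (3 * m) / c₁ * η ≤ t ^ 2)
    (hω : 0 ≤ ω) (hG : Real.exp (m - 2) * eB W π x (l + 1) ≤ G)
    (hb : BSm W π Q x (l + 1) (Real.exp (-(m - 2)) * (ω * G))) :
    EEa dw W π g Q x l ≤ RRa dw W π g1 x l +
      K * (t ^ 2 + 2 * t + 4 * ω) * ((∫ h, dw h) * G) +
      K * (ω + 1) / η * (RRa dw W π g1 z₀ (l + 3) + ∑ j, RRa dw W π g1 (z₀ + v j) (l + 3)) := by
  have he : (2 : ℝ) ≤ Real.exp 1 := by linarith [Real.add_one_le_exp (1:ℝ)]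
  have hexp : τ + Real.exp l ≤ Real.exp (l + 1) := by
    rw [Real.exp_add]
    nlinarith [Real.exp_pos l]
  have cE := cont2_EE h hg.k0 Q
  have cR := cont2_RR h hg.k1
  have iE : Integrable fun y : Euc m => dw y * EE W π (x - y) g Q l :=
    (CO_of_cont cE x τ (l + 1)).integrable hw (by linarith : l < l + 1)
  have iR : ∀ (z : Euc m) (l : ℝ), Integrable fun y : Euc m => dw y * RR W π (z - y) g1 l :=
    fun z l => (CO_of_cont cR z τ (l + 1)).integrable hw (by linarith : l < l + 1)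
  have iG : Integrable fun y : Euc m => dw y * G :=
    hw.integrable (f := fun _ => G) continuousOn_const
  have iS : Integrable fun y : Euc m => ∑ j, dw y * RR W π (z₀ + v j - y) g1 (l + 3) :=
    integrable_finsetSum _ fun j _ => iR _ _
  have key : ∀ y : Euc m, dw y * EE W π (x - y) g Q l ≤
      dw y * RR W π (x - y) g1 l + K * (t ^ 2 + 2 * t + 4 * ω) * (dw y * G) +
        K * (ω + 1) / η * (dw y * RR W π (z₀ - y) g1 (l + 3) +
          ∑ j, dw y * RR W π (z₀ + v j - y) g1 (l + 3)) := by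
    intro y
    by_cases hy : y ∈ closedBall (0 : Euc m) τ
    · have hy1 : ‖y‖ ≤ τ := by simpa using hy
      have e0 : ‖x - y - x‖ ≤ τ := by
        have : x - y - x = -y := by abel
        rw [this, norm_neg]; exact hy1
      have e1 : ‖x - y - x₀‖ + Real.exp l ≤ R := by
        have : x - y - x₀ = (x - x₀) - y := by abel
        rw [this]
        have := norm_sub_le (x - x₀) y
        linarith
      have e2 : ‖z₀ - y - (x - y)‖ ≤ Real.exp l := by
        have : z₀ - y - (x - y) = z₀ - x := by abel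
        rw [this]; exact hz
      have e3 : eB W π (x - y) l ≤ G := by
        refine (eB_mono h (x := x) (l' := l + 1) (by linarith)).trans ?_
        have : ((m:ℝ) - 2) * (l + 1 - l) = m - 2 := by ring
        rw [this]
        exact hG
      have e4 : BSm W π Q (x - y) l (ω * G) := by
        have h1 := BSm.mono (y := x - y) (l := l) hb (by linarith)
        have h2 : Real.exp ((m - 2) * (l + 1 - l)) * (Real.exp (-(m - 2)) * (ω * G)) = ω * G := by
          rw [← mul_assoc, ← Real.exp_add]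
          have : ((m:ℝ) - 2) * (l + 1 - l) + -(m - 2) = 0 := by ring
          rw [this, Real.exp_zero, one_mul]
        rw [h2] at h1
        exact h1
      have h1 := thin_all h hg Q e1 hK hK1 hc hc1 hd hfat e2 hv ht hη0 hη hω e3 e4
      have h2 := mul_le_mul_of_nonneg_left h1 (hw.nonneg y)
      refine h2.trans (le_of_eq ?_)
      have e5 : ∀ j, z₀ - y + v j = z₀ + v j - y := fun j => by abel
      simp only [e5]
      rw [← Finset.mul_sum]
      ring
    · simp only [hw.zero' hy, zero_mul, mul_zero, Finset.sum_const_zero, add_zero]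
      exact le_rfl
  have iQ : Integrable fun y : Euc m => dw y * RR W π (z₀ - y) g1 (l + 3) +
      ∑ j, dw y * RR W π (z₀ + v j - y) g1 (l + 3) := (iR z₀ (l + 3)).add iS
  have iP : Integrable fun y : Euc m => dw y * RR W π (x - y) g1 l +
      K * (t ^ 2 + 2 * t + 4 * ω) * (dw y * G) := (iR x l).add (iG.const_mul _)
  have iT : Integrable fun y : Euc m => dw y * RR W π (x - y) g1 l +
      K * (t ^ 2 + 2 * t + 4 * ω) * (dw y * G) +
        K * (ω + 1) / η * (dw y * RR W π (z₀ - y) g1 (l + 3) +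
          ∑ j, dw y * RR W π (z₀ + v j - y) g1 (l + 3)) := iP.add (iQ.const_mul _)
  have h1 := integral_mono iE iT key
  refine h1.trans (le_of_eq ?_)
  have q1 := integral_add iP (iQ.const_mul (K * (ω + 1) / η))
  have q2 := integral_add (iR x l) (iG.const_mul (K * (t ^ 2 + 2 * t + 4 * ω)))
  have q3 := integral_add (iR z₀ (l + 3)) iS
  have q4 := integral_finsetSum (μ := (volume : Measure (Euc m))) Finset.univ
    (f := fun j y => dw y * RR W π (z₀ + v j - y) g1 (l + 3)) (fun j _ => iR _ _)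
  rw [q1, q2, integral_const_mul, integral_const_mul, q3, q4, integral_mul_const]
  rfl

end Crest.Agent.R234.Thin_561
end
end

-- ▼ part R234/Thin6_561
section

/-!
# Row 234, node N4 THIN of the core (helper561), part 6: general varifolds, first variation kept

Parts 4 and 5 for a finite measure `W` on planes (no stationarity): the first variation of the field
`χ ⟨ν, x' - x⟩ ν` is at most `ρ` for every unit vector `ν`.
-/

set_option autoImplicit false
set_option linter.unusedSectionVars false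

open MeasureTheory Set Function Filter Topology Metric
open Crest.GeometryTopology.Submanifold
open Crest.Agent.R234.Vf_884 Crest.Agent.R234.Ar_870 Crest.Agent.R234.Cy_870
open Crest.Agent.R234.Rig_300 Crest.Agent.R234.Avg_387
open scoped ENNReal NNReal InnerProductSpace

noncomputable section

namespace Crest.Agent.R234.Thin_561

variable {m n k : ℕ}

variable {π : Euc k →L[ℝ] Euc m} {κ : Euc k →L[ℝ] Euc n} {x y z ν : Euc m} {L₀ : ℝ}
  {V W : Measure (Euc k × L k)} {g g1 g2 : ℝ → ℝ} {x₀ : Euc m} {R h₀ τ : ℝ} {dw : Euc m → ℝ}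

/-- finite measures on planes over a cylinder -/
structure Gen (W : Measure (Euc k × L k)) (π : Euc k →L[ℝ] Euc m) (κ : Euc k →L[ℝ] Euc n) :
    Prop where
  sp : Split π κ
  conc : ∀ᵐ p ∂W, p.2 ∈ G m k
  fin : W univ < ⊤

theorem _root_.Crest.Agent.R234.Cy_870.CylStat.gen (h : Gen W π κ) : Gen W π κ :=
  ⟨h.sp, h.conc, h.fin⟩

namespace Gen

theorem fr (h : Gen W π κ) (x : Euc m) (L₀ : ℝ) : Fr W π κ x L₀ :=
  ⟨h.sp, h.conc, lt_of_le_of_lt (measure_mono (subset_univ _)) h.fin⟩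

theorem afr (h : Gen W π κ) (hτ : 0 ≤ τ) (x : Euc m) (L₀ : ℝ) :
    AFr W π κ x τ L₀ (Real.log (Real.exp L₀ + τ)) where
  fr := h.fr x _
  τ0 := hτ
  le := by
    rw [Real.exp_log (by positivity)]

theorem cont2_EE (h : Gen W π κ) (hg : Ker g g1) (Q : ℝ) :
    Continuous (uncurry fun y l => EE W π y g Q l) :=
  cont_of_CO fun x L₀ => (h.afr zero_le_one x L₀).co_EE hg Q

theorem cont2_ee (h : Gen W π κ) (hg : Ker g g1) :
    Continuous (uncurry fun y l => ee W π y g l) :=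
  cont_of_CO fun x L₀ => (h.afr zero_le_one x L₀).co_ee hg

theorem cont2_bb (h : Gen W π κ) (hg : Ker g g1) (Q : ℝ) :
    Continuous (uncurry fun y l => bb W π y g Q l) :=
  cont_of_CO fun x L₀ => (h.afr zero_le_one x L₀).co_bb hg Q

theorem cont2_RR (h : Gen W π κ) (hg : Ker g1 g2) :
    Continuous (uncurry fun y l => RR W π y g1 l) :=
  cont_of_CO fun x L₀ => (h.afr zero_le_one x L₀).co_RR hg

theorem RR_nonneg (h : Gen W π κ) (hg : Prof g g1 g2) (x : Euc m) (l : ℝ) :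
    0 ≤ RR W π x g1 l := by
  unfold RR
  refine mul_nonneg (Real.exp_pos _).le (integral_nonneg_of_ae ?_)
  filter_upwards [h.conc] with p hp
  have := hg.anti (Real.exp (-2 * l) * ‖π p.1 - x‖ ^ 2) (by positivity)
  exact mul_nonneg (qf_nonneg h.sp.hh (isPr_of_G hp) _) (by linarith)

theorem tl_ae (h : Gen W π κ) : ∀ᵐ p ∂W, 0 ≤ tl π p.2 ∧ tl π p.2 ≤ m := by
  filter_upwards [h.conc] with p hp
  exact ⟨tl_nonneg h.sp.hh (isPr_of_G hp), tl_le h.sp.hh (isPr_of_G hp)⟩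

theorem integrable_tl (h : Gen W π κ) :
    Integrable (fun p : Euc k × L k => tl π p.2) W := by
  have : IsFiniteMeasure W := ⟨h.fin⟩
  refine Integrable.mono' (integrable_const (m:ℝ)) (aestronglyMeasurable_tl π W) ?_
  filter_upwards [h.tl_ae] with p hp
  rw [Real.norm_eq_abs, abs_of_nonneg hp.1]
  exact hp.2

/-- sharp energies: change of centre and scale -/
theorem eB_mono (h : Gen W π κ) {l l' : ℝ}
    (hy : ‖y - x‖ + Real.exp l ≤ Real.exp l') :
    eB W π y l ≤ Real.exp ((m - 2) * (l' - l)) * eB W π x l' := by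
  have h1 : ∫ p in BB π y l, tl π p.2 ∂W ≤ ∫ p in BB π x l', tl π p.2 ∂W := by
    refine setIntegral_mono_set (h.integrable_tl).integrableOn ?_ ?_
    · exact ae_restrict_of_ae (by filter_upwards [h.tl_ae] with p hp using hp.1)
    · refine LE.le.eventuallyLE ?_
      intro p hp
      rw [norm_lt_of_BB] at hp ⊢
      have e1 : π p.1 - x = (π p.1 - y) + (y - x) := by abel
      rw [e1]
      refine (norm_add_le _ _).trans_lt ?_
      linarith
  have h2 : Real.exp ((2 - m) * l) =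
      Real.exp ((m - 2) * (l' - l)) * Real.exp ((2 - m) * l') := by
    rw [← Real.exp_add]; congr 1; ring
  unfold eB
  rw [h2, mul_assoc]
  gcongr


theorem ee_le_eB (h : Gen W π κ) (hg : Ker g g1) {K : ℝ}
    (hK : ∀ t, 0 ≤ t → |g t| ≤ K) (x : Euc m) (l : ℝ) : ee W π x g l ≤ K * eB W π x l := by
  have h1 := ker_le (h.fr x l) le_rfl (c := fun p => tl π p.2) (F := fun p => tl π p.2)
    (aestronglyMeasurable_tl π W) (CF := m)
    (by filter_upwards [h.tl_ae] with p hp _; rw [abs_of_nonneg hp.1]; exact hp.2)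
    hg.zero hK (by filter_upwards [h.tl_ae] with p hp _; rw [abs_of_nonneg hp.1])
  unfold ee eB
  calc _ ≤ Real.exp ((2 - m) * l) * (K * ∫ p in BB π x l, tl π p.2 ∂W) := by
        gcongr; exact (le_abs_self _).trans h1
    _ = _ := by ring

/-- **N4 THIN, general form** -/
theorem thin (h : Gen W π κ) (hg : Prof g g1 g2) (Q : ℝ) {l : ℝ} {K : ℝ}
    (hK : ∀ t, 0 ≤ t → |g t| ≤ K)
    (hK1 : ∀ t, 0 ≤ t → |g1 t| ≤ K) {c₁ : ℝ} (hc : 0 < c₁)
    (hc1 : ∀ t, 0 ≤ t → t ≤ 1 / 4 → c₁ ≤ -g1 t) {d : ℕ} (hd : d + 1 = m)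
    {v : Fin d → Euc m} {C : ℝ}
    (hfat : ∀ (c : Fin d → ℝ) (j : Fin d), |c j| * Real.exp l ≤ C * ‖∑ i, c i • v i‖)
    {z₀ : Euc m} (hz : ‖z₀ - x‖ ≤ Real.exp l) (hv : ∀ j, ‖v j‖ ≤ Real.exp l)
    {η G t ω ρ : ℝ} (ht : 0 < t)
    (hη : 2 * m * d ^ 2 * C ^ 2 * Real.exp (3 * m) / c₁ * η ≤ t ^ 2)
    (hG : eB W π x l ≤ G)
    (hR0 : RR W π z₀ g1 (l + 3) ≤ η * G) (hRj : ∀ j, RR W π (z₀ + v j) g1 (l + 3) ≤ η * G)
    (hb : BSm W π Q x l (ω * G))
    (hρ : ∀ ν : Euc m, ‖ν‖ = 1 → Real.exp ((2 - m) * l) * |FV W (Xν π x ν g l)| ≤ ρ) :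
    EE W π x g Q l - K * (t ^ 2 + 2 * t + 2 * ω) * G - ρ ≤ 2 * bb W π x g Q l + RR W π x g1 l ∧
      |bb W π x g Q l| ≤ K * (ω * G) := by
  obtain ⟨ν, hν, hsp⟩ := exists_normal hd (Real.exp_pos l) hfat
  have hG0 : 0 ≤ G := by
    refine le_trans ?_ hG
    unfold eB
    refine mul_nonneg (Real.exp_pos _).le (integral_nonneg_of_ae ?_)
    refine ae_restrict_of_ae ?_
    filter_upwards [h.conc] with p hp
    exact tl_nonneg h.sp.hh (isPr_of_G hp)
  have h1 := eHB_le (V := W) (κ := κ) (fun z L₀ => h.fr z L₀) hg hc hc1 hν hsp hz hv hR0 hRj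
  have h2 : eHB W π x ν l ≤ t ^ 2 * G := by
    refine h1.trans ?_
    rw [← mul_assoc]
    exact mul_le_mul_of_nonneg_right hη hG0
  have h3 := thin_core (h.fr x l) hg Q le_rfl hν hK hK1 ht hG h2 hb
  have h4 := hρ ν hν
  have h5 : -(Real.exp ((2 - m) * l) * |FV W (Xν π x ν g l)|) ≤
      Real.exp ((2 - m) * l) * FV W (Xν π x ν g l) := by
    rw [← mul_neg]
    exact mul_le_mul_of_nonneg_left (neg_abs_le _) (Real.exp_pos _).le
  exact ⟨by linarith, bb_le hg Q hK hb⟩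

/-- **N4 without smallness of the radial energies** -/
theorem thin_all (h : Gen W π κ) (hg : Prof g g1 g2) (Q : ℝ) {l : ℝ}
    {K : ℝ} (hK : ∀ t, 0 ≤ t → |g t| ≤ K)
    (hK1 : ∀ t, 0 ≤ t → |g1 t| ≤ K) {c₁ : ℝ} (hc : 0 < c₁)
    (hc1 : ∀ t, 0 ≤ t → t ≤ 1 / 4 → c₁ ≤ -g1 t) {N : ℕ} (hd : N + 1 = m)
    {v : Fin N → Euc m} {C : ℝ}
    (hfat : ∀ (c : Fin N → ℝ) (j : Fin N), |c j| * Real.exp l ≤ C * ‖∑ i, c i • v i‖)
    {z₀ : Euc m} (hz : ‖z₀ - x‖ ≤ Real.exp l) (hv : ∀ j, ‖v j‖ ≤ Real.exp l)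
    {η G t ω ρ : ℝ} (ht : 0 < t) (hη0 : 0 < η)
    (hη : 2 * m * N ^ 2 * C ^ 2 * Real.exp (3 * m) / c₁ * η ≤ t ^ 2)
    (hω : 0 ≤ ω) (hG : eB W π x l ≤ G) (hb : BSm W π Q x l (ω * G))
    (hρ : ∀ ν : Euc m, ‖ν‖ = 1 → Real.exp ((2 - m) * l) * |FV W (Xν π x ν g l)| ≤ ρ)
    (hρ0 : 0 ≤ ρ) :
    EE W π x g Q l ≤ RR W π x g1 l + K * (t ^ 2 + 2 * t + 4 * ω) * G + ρ +
      K * (ω + 1) / η * (RR W π z₀ g1 (l + 3) + ∑ j, RR W π (z₀ + v j) g1 (l + 3)) := by
  have hK0 : 0 ≤ K := (abs_nonneg _).trans (hK 0 le_rfl)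
  have hR : ∀ y l, 0 ≤ RR W π y g1 l := fun y l => h.RR_nonneg hg y l
  have hG0 : 0 ≤ G := by
    refine le_trans ?_ hG
    unfold eB
    refine mul_nonneg (Real.exp_pos _).le (integral_nonneg_of_ae ?_)
    exact ae_restrict_of_ae (by filter_upwards [h.tl_ae] with p hp using hp.1)
  have hS0 : 0 ≤ ∑ j, RR W π (z₀ + v j) g1 (l + 3) := Finset.sum_nonneg fun j _ => hR _ _
  have hc0 : 0 ≤ K * (ω + 1) / η := by positivity
  have hP : 0 ≤ K * (ω + 1) / η *
      (RR W π z₀ g1 (l + 3) + ∑ j, RR W π (z₀ + v j) g1 (l + 3)) :=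
    mul_nonneg hc0 (add_nonneg (hR _ _) hS0)
  by_cases hsm : RR W π z₀ g1 (l + 3) ≤ η * G ∧ ∀ j, RR W π (z₀ + v j) g1 (l + 3) ≤ η * G
  · obtain ⟨h1, h2⟩ := h.thin hg Q hK hK1 hc hc1 hd hfat hz hv ht hη hG hsm.1 hsm.2 hb hρ
    have h3 := (abs_le.1 h2).2
    linarith
  · have hbig : η * G ≤ RR W π z₀ g1 (l + 3) + ∑ j, RR W π (z₀ + v j) g1 (l + 3) := by
      by_cases h1 : RR W π z₀ g1 (l + 3) ≤ η * G
      · have h2 : ∃ j, η * G < RR W π (z₀ + v j) g1 (l + 3) := by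
          by_contra hcon
          push Not at hcon
          exact hsm ⟨h1, hcon⟩
        obtain ⟨j, hj⟩ := h2
        have h3 := Finset.single_le_sum (f := fun j => RR W π (z₀ + v j) g1 (l + 3))
          (fun i _ => hR _ _) (Finset.mem_univ j)
        linarith [hR z₀ (l + 3)]
      · push Not at h1
        linarith
    have h2 := (abs_le.1 (bb_le (g := g) hg Q hK hb)).2
    have h3 := h.ee_le_eB hg.k0 hK x l
    have h4 : EE W π x g Q l ≤ K * (ω + 1) * G := by
      have e1 : EE W π x g Q l = bb W π x g Q l + ee W π x g l / 2 := by unfold bb; ring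
      have e2 : ee W π x g l ≤ K * G := h3.trans (by gcongr)
      have e3 : 0 ≤ K * G := by positivity
      rw [e1]
      linarith
    have h5 : K * (ω + 1) * G ≤ K * (ω + 1) / η *
        (RR W π z₀ g1 (l + 3) + ∑ j, RR W π (z₀ + v j) g1 (l + 3)) := by
      have e1 : K * (ω + 1) * G = K * (ω + 1) / η * (η * G) := by field_simp
      rw [e1]
      gcongr
    have h6 : 0 ≤ K * (t ^ 2 + 2 * t + 4 * ω) * G := by positivity
    linarith [hR x l]

/-- **N4 for averaged centres** (`ρ y` bounds the first variation at the centre `y`) -/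
theorem thin_av (h : Gen W π κ) (hw : CW dw τ) (hg : Prof g g1 g2) (Q : ℝ) {l : ℝ}
    (hτl : τ ≤ Real.exp l) {K : ℝ}
    (hK : ∀ t, 0 ≤ t → |g t| ≤ K)
    (hK1 : ∀ t, 0 ≤ t → |g1 t| ≤ K) {c₁ : ℝ} (hc : 0 < c₁)
    (hc1 : ∀ t, 0 ≤ t → t ≤ 1 / 4 → c₁ ≤ -g1 t) {N : ℕ} (hd : N + 1 = m)
    {v : Fin N → Euc m} {C : ℝ}
    (hfat : ∀ (c : Fin N → ℝ) (j : Fin N), |c j| * Real.exp l ≤ C * ‖∑ i, c i • v i‖)
    {z₀ : Euc m} (hz : ‖z₀ - x‖ ≤ Real.exp l) (hv : ∀ j, ‖v j‖ ≤ Real.exp l)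
    {η G t ω : ℝ} {ρ : Euc m → ℝ} (ht : 0 < t) (hη0 : 0 < η)
    (hη : 2 * m * N ^ 2 * C ^ 2 * Real.exp (3 * m) / c₁ * η ≤ t ^ 2)
    (hω : 0 ≤ ω) (hG : Real.exp (m - 2) * eB W π x (l + 1) ≤ G)
    (hb : BSm W π Q x (l + 1) (Real.exp (-(m - 2)) * (ω * G)))
    (hρ : ∀ y : Euc m, ‖y - x‖ ≤ τ → ∀ ν : Euc m, ‖ν‖ = 1 →
      Real.exp ((2 - m) * l) * |FV W (Xν π y ν g l)| ≤ ρ y) (hρ0 : ∀ y, 0 ≤ ρ y)
    (hρc : Continuous ρ) :
    EEa dw W π g Q x l ≤ RRa dw W π g1 x l +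
      K * (t ^ 2 + 2 * t + 4 * ω) * G * (∫ h, dw h) + (∫ h, dw h * ρ (x - h)) +
      K * (ω + 1) / η * (RRa dw W π g1 z₀ (l + 3) + ∑ j, RRa dw W π g1 (z₀ + v j) (l + 3)) := by
  have he : (2 : ℝ) ≤ Real.exp 1 := by linarith [Real.add_one_le_exp (1:ℝ)]
  have hexp : τ + Real.exp l ≤ Real.exp (l + 1) := by
    rw [Real.exp_add]
    nlinarith [Real.exp_pos l]
  have cE := h.cont2_EE hg.k0 Q
  have cR := h.cont2_RR hg.k1
  have iE : Integrable fun y : Euc m => dw y * EE W π (x - y) g Q l :=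
    (CO_of_cont cE x τ (l + 1)).integrable hw (by linarith : l < l + 1)
  have iR : ∀ (z : Euc m) (l : ℝ), Integrable fun y : Euc m => dw y * RR W π (z - y) g1 l :=
    fun z l => (CO_of_cont cR z τ (l + 1)).integrable hw (by linarith : l < l + 1)
  set A : ℝ := K * (t ^ 2 + 2 * t + 4 * ω) * G with hA
  have iG : Integrable fun y : Euc m => dw y * A :=
    hw.integrable (f := fun _ => A) continuousOn_const
  have iρ : Integrable fun y : Euc m => dw y * ρ (x - y) :=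
    hw.integrable (f := fun y => ρ (x - y))
      (hρc.comp (continuous_const.sub continuous_id)).continuousOn
  have iS : Integrable fun y : Euc m => ∑ j, dw y * RR W π (z₀ + v j - y) g1 (l + 3) :=
    integrable_finsetSum _ fun j _ => iR _ _
  have key : ∀ y : Euc m, dw y * EE W π (x - y) g Q l ≤
      dw y * RR W π (x - y) g1 l + dw y * A + dw y * ρ (x - y) +
        K * (ω + 1) / η * (dw y * RR W π (z₀ - y) g1 (l + 3) +
          ∑ j, dw y * RR W π (z₀ + v j - y) g1 (l + 3)) := by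
    intro y
    by_cases hy : y ∈ closedBall (0 : Euc m) τ
    · have hy1 : ‖y‖ ≤ τ := by simpa using hy
      have e0 : ‖x - y - x‖ ≤ τ := by
        have : x - y - x = -y := by abel
        rw [this, norm_neg]; exact hy1
      have e2 : ‖z₀ - y - (x - y)‖ ≤ Real.exp l := by
        have : z₀ - y - (x - y) = z₀ - x := by abel
        rw [this]; exact hz
      have e3 : eB W π (x - y) l ≤ G := by
        refine (h.eB_mono (x := x) (l' := l + 1) (by linarith)).trans ?_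
        have : ((m:ℝ) - 2) * (l + 1 - l) = m - 2 := by ring
        rw [this]
        exact hG
      have e4 : BSm W π Q (x - y) l (ω * G) := by
        have h1 := BSm.mono (y := x - y) (l := l) hb (by linarith)
        have h2 : Real.exp ((m - 2) * (l + 1 - l)) * (Real.exp (-(m - 2)) * (ω * G)) = ω * G := by
          rw [← mul_assoc, ← Real.exp_add]
          have : ((m:ℝ) - 2) * (l + 1 - l) + -(m - 2) = 0 := by ring
          rw [this, Real.exp_zero, one_mul]
        rw [h2] at h1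
        exact h1
      have h1 := h.thin_all hg Q hK hK1 hc hc1 hd hfat e2 hv ht hη0 hη hω e3 e4 (hρ _ e0)
        (hρ0 _)
      have h2 := mul_le_mul_of_nonneg_left h1 (hw.nonneg y)
      refine h2.trans (le_of_eq ?_)
      have e5 : ∀ j, z₀ - y + v j = z₀ + v j - y := fun j => by abel
      simp only [e5]
      rw [← Finset.mul_sum]
      ring
    · simp only [hw.zero' hy, zero_mul, mul_zero, Finset.sum_const_zero, add_zero]
      exact le_rfl
  have iQ : Integrable fun y : Euc m => dw y * RR W π (z₀ - y) g1 (l + 3) +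
      ∑ j, dw y * RR W π (z₀ + v j - y) g1 (l + 3) := (iR z₀ (l + 3)).add iS
  have iP0 : Integrable fun y : Euc m => dw y * RR W π (x - y) g1 l + dw y * A :=
    (iR x l).add iG
  have iP : Integrable fun y : Euc m => dw y * RR W π (x - y) g1 l + dw y * A +
      dw y * ρ (x - y) := iP0.add iρ
  have iT : Integrable fun y : Euc m => dw y * RR W π (x - y) g1 l + dw y * A +
      dw y * ρ (x - y) +
        K * (ω + 1) / η * (dw y * RR W π (z₀ - y) g1 (l + 3) +
          ∑ j, dw y * RR W π (z₀ + v j - y) g1 (l + 3)) := iP.add (iQ.const_mul _)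
  have h1 := integral_mono iE iT key
  refine h1.trans (le_of_eq ?_)
  have q1 := integral_add iP (iQ.const_mul (K * (ω + 1) / η))
  have q0 := integral_add iP0 iρ
  have q2 := integral_add (iR x l) iG
  have q3 := integral_add (iR z₀ (l + 3)) iS
  have q4 := integral_finsetSum (μ := (volume : Measure (Euc m))) Finset.univ
    (f := fun j y => dw y * RR W π (z₀ + v j - y) g1 (l + 3)) (fun j _ => iR _ _)
  rw [q1, q0, q2, integral_const_mul, q3, q4, integral_mul_const, mul_comm (∫ h, dw h) A]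
  rfl

end Gen

end Crest.Agent.R234.Thin_561
end
end

-- ▼ part R234/Thin7_561
section

/-!
# Row 234, node N4 THIN of the core (helper561), part 7: almost stationary varifolds

The first variation of `χ ⟨ν, x' - x⟩ ν` for `CylAS` (helper214) and N4 for ordinary and averaged centres.
The error is `2 δ s^{2-m} ∫ (tl + |κ|²) (g - 2 t g') dW`, `t = s^{-2} |π p - x|²`.
-/

set_option autoImplicit false
set_option linter.unusedSectionVars false

open MeasureTheory Set Function Filter Topology Metric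
open Crest.GeometryTopology.Submanifold
open Crest.Agent.R234.Vf_884 Crest.Agent.R234.Ar_870 Crest.Agent.R234.Cy_870
open Crest.Agent.R234.Rig_300 Crest.Agent.R234.Avg_387 Crest.Agent.R234.Asl_214
open scoped ENNReal NNReal InnerProductSpace

noncomputable section

namespace Crest.Agent.R234.Thin_561

variable {m n k : ℕ}

variable {π : Euc k →L[ℝ] Euc m} {κ : Euc k →L[ℝ] Euc n} {x y z ν : Euc m} {L₀ : ℝ}
  {V W : Measure (Euc k × L k)} {g g1 g2 : ℝ → ℝ} {x₀ : Euc m} {R h₀ τ δ : ℝ} {dw : Euc m → ℝ}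

theorem _root_.Crest.Agent.R234.Asl_214.CylAS.gen (h : CylAS W π κ x₀ R h₀ δ) : Gen W π κ :=
  ⟨h.sp, h.conc, h.fin⟩

/-- the weight `g - 2 t g'`, `t = e^{-2l} |v - x|²` -/
def wE (g g1 : ℝ → ℝ) (x : Euc m) (l : ℝ) (v : Euc m) : ℝ :=
  g (Real.exp (-2 * l) * ‖v - x‖ ^ 2) -
    2 * (Real.exp (-2 * l) * ‖v - x‖ ^ 2) * g1 (Real.exp (-2 * l) * ‖v - x‖ ^ 2)

/-- the error of N4 in the class `AS δ` (to be multiplied by `2 δ`) -/
def rE (W : Measure (Euc k × L k)) (π : Euc k →L[ℝ] Euc m) (κ : Euc k →L[ℝ] Euc n) (g g1 : ℝ → ℝ)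
    (l : ℝ) (x : Euc m) : ℝ :=
  Real.exp ((2 - m) * l) * ∫ p, (tl π p.2 + ‖κ p.1‖ ^ 2) * wE g g1 x l (π p.1) ∂W

theorem wE_nonneg (hg : Prof g g1 g2) (x : Euc m) (l : ℝ) (v : Euc m) : 0 ≤ wE g g1 x l v := by
  unfold wE
  have ht : 0 ≤ Real.exp (-2 * l) * ‖v - x‖ ^ 2 := by positivity
  have h1 := Prof.nonneg hg _ ht
  have h2 := mul_nonneg ht (neg_nonneg.2 (hg.anti _ ht))
  nlinarith

theorem wE_zero (hg : Prof g g1 g2) {l : ℝ} {v : Euc m} (hv : Real.exp l ≤ ‖v - x‖) :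
    wE g g1 x l v = 0 := by
  unfold wE
  rw [hg.k0.zero _ (Ker.one_le_of x hv), hg.k0.zero' _ (Ker.one_le_of x hv)]
  ring

theorem continuous_wE' (hg : Prof g g1 g2) (x : Euc m) (l : ℝ) :
    Continuous (wE g g1 x l) := by
  have c0 : Continuous fun v : Euc m => Real.exp (-2 * l) * ‖v - x‖ ^ 2 :=
    continuous_const.mul ((continuous_id.sub continuous_const).norm.pow 2)
  exact (hg.k0.continuous.comp c0).sub (((continuous_const.mul c0)).mul (hg.k0.cont.comp c0))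

theorem continuous_wE_c (hg : Prof g g1 g2) (l : ℝ) (v : Euc m) :
    Continuous fun x : Euc m => wE g g1 x l v := by
  have c0 : Continuous fun x : Euc m => Real.exp (-2 * l) * ‖v - x‖ ^ 2 :=
    continuous_const.mul ((continuous_const.sub continuous_id).norm.pow 2)
  exact (hg.k0.continuous.comp c0).sub (((continuous_const.mul c0)).mul (hg.k0.cont.comp c0))

theorem continuous_ξ (hg : Ker g g1) (l : ℝ) (x ν : Euc m) : Continuous fun v : Euc m =>
    (g (Real.exp (-2 * l) * ‖v - x‖ ^ 2) * ⟪ν, v - x⟫_ℝ) • ν := by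
  have c1 : Continuous fun v : Euc m => v - x := continuous_id.sub continuous_const
  have c0 : Continuous fun v : Euc m => Real.exp (-2 * l) * ‖v - x‖ ^ 2 :=
    continuous_const.mul (c1.norm.pow 2)
  exact ((hg.continuous.comp c0).mul (continuous_const.inner c1)).smul continuous_const

/-- the gradient of `g ⟨ν, v - x⟩` -/
def ζv (g g1 : ℝ → ℝ) (l : ℝ) (x ν v : Euc m) : Euc m :=
  g (Real.exp (-2 * l) * ‖v - x‖ ^ 2) • ν +
    (⟪ν, v - x⟫_ℝ * (2 * Real.exp (-2 * l) * g1 (Real.exp (-2 * l) * ‖v - x‖ ^ 2))) • (v - x)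

/-- the derivative of `(g ⟨ν, v - x⟩) ν` -/
def dξ (g g1 : ℝ → ℝ) (l : ℝ) (x ν v : Euc m) : L m :=
  (innerSL ℝ (ζv g g1 l x ν v)).smulRight ν

theorem hasFDerivAt_ξ (hg : Ker g g1) (l : ℝ) (x ν v : Euc m) :
    HasFDerivAt (fun v : Euc m => (g (Real.exp (-2 * l) * ‖v - x‖ ^ 2) * ⟪ν, v - x⟫_ℝ) • ν)
      (dξ g g1 l x ν v) v := by
  have h1 := (hasFDerivAt_sc hg.der l x ν v).smul_const ν
  refine h1.congr_fderiv ?_
  unfold dξ ζv
  congr 1
  rw [map_add, map_smul, map_smul, map_smul, smul_smul]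

theorem continuous_ζv (hg : Ker g g1) (l : ℝ) (x ν : Euc m) : Continuous (ζv g g1 l x ν) := by
  have c0 : Continuous fun v : Euc m => v - x := continuous_id.sub continuous_const
  have c1 : Continuous fun v : Euc m => Real.exp (-2 * l) * ‖v - x‖ ^ 2 :=
    continuous_const.mul (c0.norm.pow 2)
  have c2 : Continuous fun v : Euc m => g (Real.exp (-2 * l) * ‖v - x‖ ^ 2) :=
    hg.continuous.comp c1
  have c3 : Continuous fun v : Euc m => g1 (Real.exp (-2 * l) * ‖v - x‖ ^ 2) := hg.cont.comp c1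
  exact (c2.smul continuous_const).add
    (((continuous_const.inner c0).mul (continuous_const.mul c3)).smul c0)

theorem continuous_dξ (hg : Ker g g1) (l : ℝ) (x ν : Euc m) : Continuous (dξ g g1 l x ν) := by
  have c4 : Continuous fun v : Euc m => innerSL ℝ (ζv g g1 l x ν v) :=
    (innerSL ℝ).continuous.comp (continuous_ζv hg l x ν)
  have c5 : Continuous fun v : Euc m => (ContinuousLinearMap.smulRightL ℝ (Euc m) (Euc m)
      (innerSL ℝ (ζv g g1 l x ν v))) ν :=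
    ((ContinuousLinearMap.smulRightL ℝ (Euc m) (Euc m)).continuous.comp c4).clm_apply
      continuous_const
  exact c5

theorem norm_dξ_le (hg : Prof g g1 g2) (l : ℝ) (x v : Euc m) (hν : ‖ν‖ = 1) :
    ‖dξ g g1 l x ν v‖ ≤ wE g g1 x l v := by
  have ht : 0 ≤ Real.exp (-2 * l) * ‖v - x‖ ^ 2 := by positivity
  have h1 := Prof.nonneg hg _ ht
  have h2 := hg.anti _ ht
  unfold dξ wE ζv
  rw [ContinuousLinearMap.norm_smulRight_apply, hν, mul_one, innerSL_apply_norm]
  refine (norm_add_le _ _).trans ?_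
  rw [norm_smul, norm_smul, hν, mul_one,
    Real.norm_eq_abs, Real.norm_eq_abs, abs_of_nonneg h1, abs_mul, abs_mul,
    abs_of_nonpos h2, abs_of_nonneg (by positivity : (0:ℝ) ≤ 2 * Real.exp (-2 * l))]
  have h3 : |⟪ν, v - x⟫_ℝ| ≤ ‖v - x‖ := by
    refine (abs_real_inner_le_norm _ _).trans ?_
    rw [hν, one_mul]
  have h4 : 0 ≤ 2 * Real.exp (-2 * l) * -g1 (Real.exp (-2 * l) * ‖v - x‖ ^ 2) * ‖v - x‖ := by
    have := neg_nonneg.2 h2
    positivity
  have h5 := mul_le_mul_of_nonneg_right h3 h4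
  nlinarith

theorem norm_ξ_le (hg : Prof g g1 g2) {l : ℝ} (hl0 : l ≤ 0) (x v : Euc m) (hν : ‖ν‖ = 1) :
    ‖(g (Real.exp (-2 * l) * ‖v - x‖ ^ 2) * ⟪ν, v - x⟫_ℝ) • ν‖ ≤ wE g g1 x l v := by
  have ht : 0 ≤ Real.exp (-2 * l) * ‖v - x‖ ^ 2 := by positivity
  have h1 := Prof.nonneg hg _ ht
  have h2 := mul_nonneg ht (neg_nonneg.2 (hg.anti _ ht))
  rw [norm_smul, hν, mul_one, Real.norm_eq_abs]
  rcases le_or_gt (Real.exp l) ‖v - x‖ with h3 | h3
  · rw [hg.k0.zero _ (Ker.one_le_of x h3), zero_mul, abs_zero]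
    exact wE_nonneg hg x l v
  · have h4 : |⟪ν, v - x⟫_ℝ| ≤ 1 := by
      refine (abs_real_inner_le_norm _ _).trans ?_
      rw [hν, one_mul]
      exact h3.le.trans (Real.exp_le_one_iff.2 hl0)
    rw [abs_mul, abs_of_nonneg h1]
    unfold wE
    have h5 := mul_le_mul_of_nonneg_left h4 h1
    nlinarith

theorem int_le_aux (h : CylAS W π κ x₀ R h₀ δ) (h0 : 0 ≤ δ) {D B w : Euc m → ℝ}
    (hD : Continuous D) (hB : Continuous B) (hw : Continuous w) (h1 : ∀ v, D v + B v ≤ w v + w v) :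
    ∫ p, (δ * (tl π p.2 + ‖κ p.1‖ ^ 2) * (|(1:ℝ)| * (D (π p.1) + B (π p.1))) +
        δ * (√(tl π p.2) + ‖κ p.1‖) * (‖(0 : Euc n →L[ℝ] ℝ)‖ * B (π p.1))) ∂W ≤
      2 * δ * ∫ p, (tl π p.2 + ‖κ p.1‖ ^ 2) * w (π p.1) ∂W := by
  have c1 := Asl_214.CylAS.continuous_tl (k := k) π
  have c2 : Continuous fun p : Euc k × L k => ‖κ p.1‖ :=
    (κ.continuous.comp continuous_fst).norm
  have c3 : Continuous fun p : Euc k × L k => π p.1 := π.continuous.comp continuous_fst
  have c4 : Continuous fun p : Euc k × L k => D (π p.1) := hD.comp c3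
  have c5 : Continuous fun p : Euc k × L k => B (π p.1) := hB.comp c3
  have c7 : Continuous fun p : Euc k × L k => w (π p.1) := hw.comp c3
  have c8 : Continuous fun p : Euc k × L k => tl π p.2 + ‖κ p.1‖ ^ 2 := c1.add (c2.pow 2)
  have c9 : Continuous fun p : Euc k × L k => (tl π p.2 + ‖κ p.1‖ ^ 2) * w (π p.1) := c8.mul c7
  rw [← integral_const_mul]
  refine integral_mono_ae (h.integrable_continuous ?_) (h.integrable_continuous
    (continuous_const.mul c9)) ?_
  · have d1 : Continuous fun p : Euc k × L k =>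
        δ * (tl π p.2 + ‖κ p.1‖ ^ 2) * (|(1:ℝ)| * (D (π p.1) + B (π p.1))) :=
      (continuous_const.mul c8).mul (continuous_const.mul (c4.add c5))
    have d2 : Continuous fun p : Euc k × L k =>
        δ * (√(tl π p.2) + ‖κ p.1‖) * (‖(0 : Euc n →L[ℝ] ℝ)‖ * B (π p.1)) :=
      (continuous_const.mul (c1.sqrt.add c2)).mul (continuous_const.mul c5)
    exact d1.add d2
  · filter_upwards [h.conc] with p hp
    have ht := tl_nonneg h.sp.hh (isPr_of_G hp)
    have e3 : 0 ≤ δ * (tl π p.2 + ‖κ p.1‖ ^ 2) := by positivity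
    have e4 := mul_le_mul_of_nonneg_left (h1 (π p.1)) e3
    rw [norm_zero, zero_mul, mul_zero, add_zero, abs_one, one_mul]
    refine e4.trans (le_of_eq ?_)
    ring

/-- **the first variation of the field of N4 in the class `AS δ`** -/
theorem FVν_le (h : CylAS W π κ x₀ R h₀ δ) (h0 : 0 ≤ δ) (hg : Prof g g1 g2) (hν : ‖ν‖ = 1)
    {l : ℝ} (hl : ‖x - x₀‖ + Real.exp l ≤ R) (hl0 : l ≤ 0) :
    Real.exp ((2 - m) * l) * |FV W (Xν π x ν g l)| ≤ 2 * δ * rE W π κ g g1 l x := by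
  have hz : ∀ v, R ≤ ‖v - x₀‖ →
      (g (Real.exp (-2 * l) * ‖v - x‖ ^ 2) * ⟪ν, v - x⟫_ℝ) • ν = 0 := by
    intro v hv
    have h1 : ‖v - x₀‖ ≤ ‖v - x‖ + ‖x - x₀‖ := norm_sub_le_norm_sub_add_norm_sub v x x₀
    rw [hg.k0.zero _ (Ker.one_le_of x (by linarith)), zero_mul, zero_smul]
  have h1 := h.fv_hor h0 (f := fun _ => (1:ℝ)) (df := fun _ => 0)
    (fun y => hasFDerivAt_const _ _) continuous_const (hasFDerivAt_ξ hg.k0 l x ν)
    (continuous_dξ hg.k0 l x ν) hz
  have e0 : Xν π x ν g l = fun p => (1:ℝ) • ContinuousLinearMap.adjoint π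
    ((g (Real.exp (-2 * l) * ‖π p - x‖ ^ 2) * ⟪ν, π p - x⟫_ℝ) • ν) := rfl
  rw [← e0] at h1
  have h2 := int_le_aux h h0 (continuous_dξ hg.k0 l x ν).norm (continuous_ξ hg.k0 l x ν).norm
    (continuous_wE' hg x l) fun v => add_le_add (norm_dξ_le hg l x v hν) (norm_ξ_le hg hl0 x v hν)
  have h4 := h1.trans h2
  have h5 := mul_le_mul_of_nonneg_left h4 (Real.exp_pos ((2 - m) * l)).le
  refine h5.trans (le_of_eq ?_)
  unfold rE
  ring

theorem rE_nonneg (h : CylAS W π κ x₀ R h₀ δ) (hg : Prof g g1 g2) (l : ℝ) (x : Euc m) :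
    0 ≤ rE W π κ g g1 l x := by
  unfold rE
  refine mul_nonneg (Real.exp_pos _).le (integral_nonneg_of_ae ?_)
  filter_upwards [h.conc] with p hp
  exact mul_nonneg (add_nonneg (tl_nonneg h.sp.hh (isPr_of_G hp)) (sq_nonneg _))
    (wE_nonneg hg x l _)

theorem wE_le {K : ℝ} (hg : Prof g g1 g2) (hK : ∀ t, 0 ≤ t → |g t| ≤ K)
    (hK1 : ∀ t, 0 ≤ t → |g1 t| ≤ K) (x : Euc m) (l : ℝ) (v : Euc m) : wE g g1 x l v ≤ 3 * K := by
  have hK0 : 0 ≤ K := (abs_nonneg _).trans (hK 0 le_rfl)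
  rcases le_or_gt (Real.exp l) ‖v - x‖ with h1 | h1
  · rw [wE_zero hg h1]; positivity
  · have h2 : Real.exp (-2 * l) * ‖v - x‖ ^ 2 ≤ 1 := by
      have e1 : ‖v - x‖ ^ 2 ≤ Real.exp l ^ 2 := pow_le_pow_left₀ (norm_nonneg _) h1.le 2
      have e2 : Real.exp (-2 * l) * Real.exp l ^ 2 = 1 := by
        rw [← Real.exp_nat_mul, ← Real.exp_add]; norm_num
      calc Real.exp (-2 * l) * ‖v - x‖ ^ 2 ≤ Real.exp (-2 * l) * Real.exp l ^ 2 := by gcongr
        _ = 1 := e2
    have ht : 0 ≤ Real.exp (-2 * l) * ‖v - x‖ ^ 2 := by positivity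
    unfold wE
    have e1 := (abs_le.1 (hK _ ht)).2
    have e2 := (abs_le.1 (hK1 _ ht)).1
    have e3 := hg.anti _ ht
    have e4 : Real.exp (-2 * l) * ‖v - x‖ ^ 2 * -g1 (Real.exp (-2 * l) * ‖v - x‖ ^ 2) ≤ 1 * K :=
      mul_le_mul h2 (by linarith) (by linarith) zero_le_one
    linarith

theorem continuous_rE (h : CylAS W π κ x₀ R h₀ δ) (hg : Prof g g1 g2) (l : ℝ) :
    Continuous (rE W π κ g g1 l) := by
  have : IsFiniteMeasure W := ⟨h.fin⟩
  obtain ⟨K, -, hK, hK1, -⟩ := hg.k0.exists_bound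
  have c1 := Asl_214.CylAS.continuous_tl (k := k) π
  have c2 : Continuous fun p : Euc k × L k => ‖κ p.1‖ :=
    (κ.continuous.comp continuous_fst).norm
  have c3 : Continuous fun p : Euc k × L k => π p.1 := π.continuous.comp continuous_fst
  have c8 : Continuous fun p : Euc k × L k => tl π p.2 + ‖κ p.1‖ ^ 2 := c1.add (c2.pow 2)
  unfold rE
  refine continuous_const.mul ?_
  refine continuous_of_dominated (bound := fun _ => ((m:ℝ) + h₀ ^ 2) * (3 * K)) ?_ ?_ ?_ ?_
  · intro x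
    exact (c8.mul ((continuous_wE' hg x l).comp c3)).aestronglyMeasurable
  · intro x
    filter_upwards [h.conc, h.hgt] with p hp hh
    have ht := tl_nonneg h.sp.hh (isPr_of_G hp)
    have ht1 := tl_le h.sp.hh (isPr_of_G hp)
    have h1 : 0 ≤ tl π p.2 + ‖κ p.1‖ ^ 2 := by positivity
    have h2 := wE_nonneg hg x l (π p.1)
    have h3 : ‖κ p.1‖ ^ 2 ≤ h₀ ^ 2 := pow_le_pow_left₀ (norm_nonneg _) hh 2
    rw [Real.norm_eq_abs, abs_of_nonneg (mul_nonneg h1 h2)]
    exact mul_le_mul (add_le_add ht1 h3) (wE_le hg hK hK1 x l _) h2 (by positivity)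
  · exact integrable_const _
  · refine Eventually.of_forall fun p => ?_
    exact continuous_const.mul (continuous_wE_c hg l (π p.1))

/-- the error by sharp energy and mass -/
theorem rE_le (h : CylAS W π κ x₀ R h₀ δ) (hg : Prof g g1 g2) {K : ℝ}
    (hK : ∀ t, 0 ≤ t → |g t| ≤ K) (hK1 : ∀ t, 0 ≤ t → |g1 t| ≤ K) (l : ℝ) (x : Euc m) :
    rE W π κ g g1 l x ≤ 3 * K * (eB W π x l +
      h₀ ^ 2 * (Real.exp ((2 - m) * l) * (W (BB π x l)).toReal)) := by
  have : IsFiniteMeasure W := ⟨h.fin⟩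
  have hK0 : 0 ≤ K := (abs_nonneg _).trans (hK 0 le_rfl)
  have hBm : MeasurableSet (BB (k := k) π x l) := (isOpen_BB π x l).measurableSet
  have c1 := Asl_214.CylAS.continuous_tl (k := k) π
  have c2 : Continuous fun p : Euc k × L k => ‖κ p.1‖ :=
    (κ.continuous.comp continuous_fst).norm
  have c3 : Continuous fun p : Euc k × L k => π p.1 := π.continuous.comp continuous_fst
  have c8 : Continuous fun p : Euc k × L k => tl π p.2 + ‖κ p.1‖ ^ 2 := c1.add (c2.pow 2)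
  have i1 : Integrable (fun p : Euc k × L k => tl π p.2) (W.restrict (BB π x l)) :=
    (h.integrable_continuous c1).restrict
  have h1 : ∫ p, (tl π p.2 + ‖κ p.1‖ ^ 2) * wE g g1 x l (π p.1) ∂W ≤
      ∫ p in BB π x l, (3 * K) * (tl π p.2 + h₀ ^ 2) ∂W := by
    rw [← integral_indicator hBm]
    refine integral_mono_ae (h.integrable_continuous (c8.mul ((continuous_wE' hg x l).comp c3)))
      ?_ ?_
    · rw [integrable_indicator_iff hBm]
      exact (i1.add (integrable_const _)).const_mul _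
    · filter_upwards [h.conc, h.hgt] with p hp hh
      have ht := tl_nonneg h.sp.hh (isPr_of_G hp)
      by_cases hpB : p ∈ BB π x l
      · rw [indicator_of_mem hpB]
        have h3 : ‖κ p.1‖ ^ 2 ≤ h₀ ^ 2 := pow_le_pow_left₀ (norm_nonneg _) hh 2
        calc (tl π p.2 + ‖κ p.1‖ ^ 2) * wE g g1 x l (π p.1) ≤ (tl π p.2 + h₀ ^ 2) * (3 * K) :=
              mul_le_mul (by linarith) (wE_le hg hK hK1 x l _) (wE_nonneg hg x l _)
                (by positivity)
          _ = (3 * K) * (tl π p.2 + h₀ ^ 2) := by ring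
      · rw [indicator_of_notMem hpB]
        have h4 : Real.exp l ≤ ‖π p.1 - x‖ := by
          rw [norm_lt_of_BB] at hpB
          exact not_lt.1 hpB
        rw [wE_zero hg h4, mul_zero]
  have h2 : ∫ p in BB π x l, (3 * K) * (tl π p.2 + h₀ ^ 2) ∂W =
      3 * K * ((∫ p in BB π x l, tl π p.2 ∂W) + h₀ ^ 2 * (W (BB π x l)).toReal) := by
    rw [integral_const_mul]
    have e1 : ∫ p in BB π x l, (tl π p.2 + h₀ ^ 2) ∂W =
        (∫ p in BB π x l, tl π p.2 ∂W) + ∫ p in (BB π x l : Set (Euc k × L k)), h₀ ^ 2 ∂W :=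
      integral_add i1 (integrable_const _)
    rw [e1, integral_const]
    simp only [Measure.real, Measure.restrict_apply_univ, smul_eq_mul]
    ring
  rw [h2] at h1
  have h3 := mul_le_mul_of_nonneg_left h1 (Real.exp_pos ((2 - m) * l)).le
  unfold rE eB
  refine h3.trans (le_of_eq ?_)
  ring


/-- **N4 THIN in the class `AS δ`**, averaged centres -/
theorem thin_av_as (h : CylAS W π κ x₀ R h₀ δ) (h0 : 0 ≤ δ) (hw : CW dw τ)
    (hg : Prof g g1 g2) (Q : ℝ) {l : ℝ}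
    (hl : ‖x - x₀‖ + τ + Real.exp l ≤ R) (hl0 : l ≤ 0)
    (hτl : τ ≤ Real.exp l) {K : ℝ}
    (hK : ∀ t, 0 ≤ t → |g t| ≤ K)
    (hK1 : ∀ t, 0 ≤ t → |g1 t| ≤ K) {c₁ : ℝ} (hc : 0 < c₁)
    (hc1 : ∀ t, 0 ≤ t → t ≤ 1 / 4 → c₁ ≤ -g1 t) {N : ℕ} (hd : N + 1 = m)
    {v : Fin N → Euc m} {C : ℝ}
    (hfat : ∀ (c : Fin N → ℝ) (j : Fin N), |c j| * Real.exp l ≤ C * ‖∑ i, c i • v i‖)
    {z₀ : Euc m} (hz : ‖z₀ - x‖ ≤ Real.exp l) (hv : ∀ j, ‖v j‖ ≤ Real.exp l)
    {η G t ω : ℝ} (ht : 0 < t) (hη0 : 0 < η)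
    (hη : 2 * m * N ^ 2 * C ^ 2 * Real.exp (3 * m) / c₁ * η ≤ t ^ 2)
    (hω : 0 ≤ ω) (hG : Real.exp (m - 2) * eB W π x (l + 1) ≤ G)
    (hb : BSm W π Q x (l + 1) (Real.exp (-(m - 2)) * (ω * G))) :
    EEa dw W π g Q x l ≤ RRa dw W π g1 x l +
      K * (t ^ 2 + 2 * t + 4 * ω) * G * (∫ h, dw h) +
      (∫ h, dw h * (2 * δ * rE W π κ g g1 l (x - h))) +
      K * (ω + 1) / η * (RRa dw W π g1 z₀ (l + 3) + ∑ j, RRa dw W π g1 (z₀ + v j) (l + 3)) := by
  refine h.gen.thin_av hw hg Q hτl hK hK1 hc hc1 hd hfat hz hv ht hη0 hη hω hG hb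
    (ρ := fun y => 2 * δ * rE W π κ g g1 l y) ?_ ?_ ?_
  · intro y hy ν hν
    refine FVν_le h h0 hg hν ?_ hl0
    have h1 : ‖y - x₀‖ ≤ ‖y - x‖ + ‖x - x₀‖ := norm_sub_le_norm_sub_add_norm_sub y x x₀
    linarith
  · intro y
    exact mul_nonneg (by positivity) (rE_nonneg h hg l y)
  · exact continuous_const.mul (continuous_rE h hg l)

end Crest.Agent.R234.Thin_561
end
end

-- ▼ part R234/Thv1_561

/-!
# Row 234, N4-AV (helper561), part 1: averaged vertices

`Gen.eM_le_eea` : energy over a ball by the averaged energy; `Gen.exists_vertex` : one translation for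
which all the ordinary radial energies of the vertices are small; `N5K` : class level form of N5 (ordinary
vertices); `n5_av` : the same for averaged vertices.
-/

set_option autoImplicit false
set_option linter.unusedSectionVars false

open MeasureTheory Set Function Filter Topology Metric
open Crest.GeometryTopology.Submanifold
open Crest.Agent.R234.Vf_884 Crest.Agent.R234.Ar_870 Crest.Agent.R234.Cy_870
open Crest.Agent.R234.Avg_387 Crest.Agent.R234.N5_372
open scoped ENNReal NNReal InnerProductSpace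

noncomputable section

namespace Crest.Agent.R234.Thin_561

variable {m n k d : ℕ}

variable {π : Euc k →L[ℝ] Euc m} {κ : Euc k →L[ℝ] Euc n} {x y z ν : Euc m} {L₀ : ℝ}
  {V W : Measure (Euc k × L k)} {g g1 g2 : ℝ → ℝ} {x₀ : Euc m} {R h₀ τ δ : ℝ} {dw : Euc m → ℝ}

/-- the energy over a base set as a real integral -/
theorem Gen.eM_eq (h : Gen W π κ) {A : Set (Euc m)} (hA : MeasurableSet A) :
    eM W π A = ENNReal.ofReal (∫ p in ov π A, tl π p.2 ∂W) := by
  rw [eM, bm_apply W π _ hA, ofReal_integral_eq_lintegral_ofReal h.integrable_tl.integrableOn]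
  exact ae_restrict_of_ae (by filter_upwards [h.tl_ae] with p hp using hp.1)

theorem Gen.eM_toReal (h : Gen W π κ) {A : Set (Euc m)} (hA : MeasurableSet A) :
    (eM W π A).toReal = ∫ p in ov π A, tl π p.2 ∂W := by
  rw [h.eM_eq hA, ENNReal.toReal_ofReal]
  refine integral_nonneg_of_ae ?_
  exact ae_restrict_of_ae (by filter_upwards [h.tl_ae] with p hp using hp.1)

/-- the energy over a ball by the averaged energy -/
theorem Gen.eM_le_eea (h : Gen W π κ) (hw : CW dw τ) (hg : Prof g g1 g2) {c r l : ℝ}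
    (hcr : ∀ t, 0 ≤ t → t ≤ 1 / 4 → c ≤ g t) (hr : r + τ ≤ Real.exp l / 2) (x : Euc m) :
    c * (∫ h, dw h) * (Real.exp ((2 - m) * l) * (eM W π (closedBall x r)).toReal) ≤
      eea dw W π g x l := by
  rw [h.eM_toReal measurableSet_closedBall]
  set T : ℝ := ∫ p in ov π (closedBall x r), tl π p.2 ∂W with hT
  have hBm : MeasurableSet (ov (k := k) π (closedBall x r)) :=
    measurableSet_ov measurableSet_closedBall
  have key : ∀ y ∈ closedBall (0 : Euc m) τ,
      c * (Real.exp ((2 - m) * l) * T) ≤ ee W π (x - y) g l := by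
    intro y hy
    have hy1 : ‖y‖ ≤ τ := by simpa using hy
    have i1 : Integrable (fun p : Euc k × L k => tl π p.2 *
        g (Real.exp (-2 * l) * ‖π p.1 - (x - y)‖ ^ 2)) W :=
      (h.fr (x - y) l).integrable_c (aestronglyMeasurable_tl π W) (h.fr (x - y) l).tl_bound hg.k0
        le_rfl
    have h1 : c * T ≤ ∫ p, tl π p.2 * g (Real.exp (-2 * l) * ‖π p.1 - (x - y)‖ ^ 2) ∂W := by
      rw [hT, ← integral_const_mul, ← integral_indicator hBm]
      refine integral_mono_ae ?_ i1 ?_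
      · rw [integrable_indicator_iff hBm]
        exact h.integrable_tl.integrableOn.const_mul c
      · filter_upwards [h.tl_ae] with p hp
        by_cases hpB : p ∈ ov π (closedBall x r)
        · rw [indicator_of_mem hpB]
          have h2 : ‖π p.1 - x‖ ≤ r := by
            have : π p.1 ∈ closedBall x r := hpB
            rwa [mem_closedBall, dist_eq_norm] at this
          have h3 : ‖π p.1 - (x - y)‖ ≤ Real.exp l / 2 := by
            have e1 : π p.1 - (x - y) = (π p.1 - x) + y := by abel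
            rw [e1]
            refine (norm_add_le _ _).trans ?_
            linarith
          have h4 : Real.exp (-2 * l) * ‖π p.1 - (x - y)‖ ^ 2 ≤ 1 / 4 := by
            have e1 : ‖π p.1 - (x - y)‖ ^ 2 ≤ (Real.exp l / 2) ^ 2 :=
              pow_le_pow_left₀ (norm_nonneg _) h3 2
            have e2 : Real.exp (-2 * l) * (Real.exp l / 2) ^ 2 = 1 / 4 := by
              have e3 : Real.exp (-2 * l) * Real.exp l ^ 2 = 1 := by
                rw [← Real.exp_nat_mul, ← Real.exp_add]; norm_num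
              rw [div_pow, ← mul_div_assoc, e3]; norm_num
            calc _ ≤ Real.exp (-2 * l) * (Real.exp l / 2) ^ 2 := by gcongr
              _ = 1 / 4 := e2
          have h5 := hcr _ (by positivity) h4
          rw [mul_comm]
          exact mul_le_mul_of_nonneg_left h5 hp.1
        · rw [indicator_of_notMem hpB]
          exact mul_nonneg hp.1 (Prof.nonneg hg _ (by positivity))
    have h2 := mul_le_mul_of_nonneg_left h1 (Real.exp_pos ((2 - m) * l)).le
    unfold ee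
    calc c * (Real.exp ((2 - m) * l) * T) = Real.exp ((2 - m) * l) * (c * T) := by ring
      _ ≤ _ := h2
  have i2 : Integrable fun y : Euc m => dw y * (c * (Real.exp ((2 - m) * l) * T)) :=
    hw.integrable (f := fun _ => c * (Real.exp ((2 - m) * l) * T)) continuousOn_const
  have i3 : Integrable fun y : Euc m => dw y * ee W π (x - y) g l :=
    (CO_of_cont (h.cont2_ee hg.k0) x τ (l + 1)).integrable hw (by linarith : l < l + 1)
  have h6 : ∫ y, dw y * (c * (Real.exp ((2 - m) * l) * T)) ≤ ∫ y, dw y * ee W π (x - y) g l := by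
    refine integral_mono i2 i3 fun y => ?_
    by_cases hy : y ∈ closedBall (0 : Euc m) τ
    · exact mul_le_mul_of_nonneg_left (key y hy) (hw.nonneg y)
    · simp only [hw.zero' hy, zero_mul]; exact le_rfl
  rw [integral_mul_const] at h6
  calc _ = (∫ h, dw h) * (c * (Real.exp ((2 - m) * l) * T)) := by ring
    _ ≤ _ := h6

/-- one translation for which all the radial energies of the vertices are small -/
theorem Gen.exists_vertex (h : Gen W π κ) (hw : CW dw τ) (hM : 0 < ∫ h, dw h)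
    (hg : Prof g g1 g2) {v : Fin d → Euc m} {l B : ℝ} (h0 : RRa dw W π g1 y l ≤ B)
    (hi : ∀ i, RRa dw W π g1 (y + v i) l ≤ B) :
    ∃ a ∈ closedBall (0 : Euc m) τ, RR W π (y - a) g1 l ≤ (d + 1) * B / (∫ h, dw h) ∧
      ∀ i, RR W π (y - a + v i) g1 l ≤ (d + 1) * B / (∫ h, dw h) := by
  have cR := h.cont2_RR hg.k1
  set q : Euc m → ℝ → ℝ := fun z t => RR W π z g1 t + ∑ i, RR W π (z + v i) g1 t with hq
  have cq : Continuous (uncurry q) := by
    refine cR.add ?_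
    refine continuous_finsetSum _ fun i _ => ?_
    exact cR.comp (((continuous_fst.add continuous_const).prodMk continuous_snd))
  have hco := CO_of_cont cq y τ (l + 1)
  obtain ⟨a, ha, h1⟩ := exists_le_mean hw hM hco (by linarith : l < l + 1)
  have h2 : av dw q y l ≤ (d + 1) * B := by
    have iR : ∀ (z : Euc m), Integrable fun u : Euc m => dw u * RR W π (z - u) g1 l :=
      fun z => (CO_of_cont cR z τ (l + 1)).integrable hw (by linarith : l < l + 1)
    have e1 : av dw q y l = RRa dw W π g1 y l + ∑ i, RRa dw W π g1 (y + v i) l := by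
      have iS : Integrable fun u : Euc m => ∑ i, dw u * RR W π (y + v i - u) g1 l :=
        integrable_finsetSum _ fun i _ => iR _
      have q3 := integral_add (iR y) iS
      have q4 := integral_finsetSum (μ := (volume : Measure (Euc m))) Finset.univ
        (f := fun i u => dw u * RR W π (y + v i - u) g1 l) (fun i _ => iR _)
      have e2 : av dw q y l = ∫ u, (dw u * RR W π (y - u) g1 l +
          ∑ i, dw u * RR W π (y + v i - u) g1 l) := by
        unfold av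
        refine integral_congr_ae (Eventually.of_forall fun u => ?_)
        simp only [hq]
        rw [mul_add, Finset.mul_sum]
        congr 1
        refine Finset.sum_congr rfl fun i _ => ?_
        have : y - u + v i = y + v i - u := by abel
        rw [this]
      rw [e2, q3, q4]
      rfl
    rw [e1]
    have e3 : ∑ i, RRa dw W π g1 (y + v i) l ≤ ∑ _i : Fin d, B := Finset.sum_le_sum fun i _ => hi i
    rw [Finset.sum_const, Finset.card_univ, Fintype.card_fin, nsmul_eq_mul] at e3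
    linarith
  have h3 : q (y - a) l ≤ (d + 1) * B / (∫ h, dw h) := by
    rw [le_div_iff₀ hM]
    exact h1.trans h2
  have h4 : 0 ≤ ∑ i, RR W π (y - a + v i) g1 l := Finset.sum_nonneg fun i _ => h.RR_nonneg hg _ _
  have h5 := h.RR_nonneg hg (y - a) l
  refine ⟨a, ha, ?_, fun i => ?_⟩
  · simp only [hq] at h3; linarith
  · have h6 := Finset.single_le_sum (f := fun i => RR W π (y - a + v i) g1 l)
      (fun i _ => h.RR_nonneg hg _ _) (Finset.mem_univ i)
    simp only [hq] at h3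
    linarith

/-- the conclusions of N5 at one centre and one scale -/
def N5out (W : Measure (Euc k × L k)) (π : Euc k →L[ℝ] Euc m) (Qn d : ℕ) (v : Fin d → Euc m)
    (x : Euc m) (l ω θ G : ℝ) : Prop :=
  (∀ φ : Euc m → ℝ, Measurable φ → (∀ z, |φ z| ≤ 1) →
    (∀ z, z ∉ ball x (2 * Real.exp l) → φ z = 0) →
    |(∫ p, φ (π p.1) ∂W) - Qn * (∫ z, φ z) - (1 / 2) * (∫ p, tl π p.2 * φ (π p.1) ∂W)| ≤
      ω * G * Real.exp l ^ d) ∧
  ∃ hS : Module.finrank ℝ (Submodule.span ℝ (range v)) = d,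
    ∀ N : Set (Euc m), N ⊆ closedBall x (Real.exp l) →
      volume (Proj_929.pr (iso _ hS) '' N) ≤ ENNReal.ofReal (θ * Real.exp l ^ d) →
      eM W π N ≤ ENNReal.ofReal (ω * G * Real.exp l ^ d)

/-- **class level form of N5**, ordinary vertices: centres `x ∈ X`, scales `e^l`, `lmin ≤ l ≤ lmax`,
`gm l` a lower bound of the energy parameter `G` -/
def N5K (W : Measure (Euc k × L k)) (π : Euc k →L[ℝ] Euc m) (g1 : ℝ → ℝ) (Qn d : ℕ)
    (X : Set (Euc m)) (lmin lmax : ℝ) (gm : ℝ → ℝ) (ω θ K η : ℝ) : Prop :=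
  ∀ x ∈ X, ∀ l, lmin ≤ l → l ≤ lmax → ∀ (y : Euc m) (v : Fin d → Euc m),
    (∀ (c : Fin d → ℝ) (i : Fin d), |c i| * Real.exp l ≤ K * ‖∑ j, c j • v j‖) →
    ‖y - x‖ ≤ 2 * Real.exp l → (∀ i, ‖y + v i - x‖ ≤ 2 * Real.exp l) → ∀ G, gm l ≤ G →
    eM W π (closedBall x (8 * Real.exp l)) ≤ ENNReal.ofReal (G * Real.exp l ^ d) →
    RR W π y g1 (l + 3) ≤ η * G → (∀ i, RR W π (y + v i) g1 (l + 3) ≤ η * G) →
    N5out W π Qn d v x l ω θ G

/-- the constant between the averaged energy and `G` -/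
def Cg (d : ℕ) (c M : ℝ) : ℝ := Real.exp (3 * d) / (c * M)

theorem exp_three : (20 : ℝ) ≤ Real.exp 3 := by
  have h1 : (2.7182818283 : ℝ) < Real.exp 1 := Real.exp_one_gt_d9
  have h2 : Real.exp 3 = Real.exp 1 ^ 3 := by rw [← Real.exp_nat_mul]; norm_num
  rw [h2]
  have h3 : (2.7182818283 : ℝ) ^ 3 ≤ Real.exp 1 ^ 3 := pow_le_pow_left₀ (by norm_num) h1.le 3
  linarith [show (20 : ℝ) ≤ 2.7182818283 ^ 3 by norm_num]

/-- energy over `closedBall x (8 e^l)` by the averaged energy at scale `l + 3` -/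
theorem Gen.eM8 (h : Gen W π κ) (hdm : d + 2 = m) (hw : CW dw τ) (hg : Prof g g1 g2)
    {c l A : ℝ} (hc : 0 < c) (hM : 0 < ∫ h, dw h)
    (hcr : ∀ t, 0 ≤ t → t ≤ 1 / 4 → c ≤ g t) (hτ : τ ≤ 2 * Real.exp l)
    (hA : eea dw W π g x (l + 3) ≤ A) :
    (eM W π (closedBall x (8 * Real.exp l))).toReal ≤ Cg d c (∫ h, dw h) * A * Real.exp l ^ d := by
  have h1 := h.eM_le_eea hw hg (c := c) (r := 8 * Real.exp l) (l := l + 3) hcr (by
    rw [Real.exp_add]
    nlinarith [exp_three, Real.exp_pos l]) x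
  have hm : ((m : ℕ) : ℝ) = d + 2 := by rw [← hdm]; push_cast; ring
  have h2 : Real.exp ((2 - m) * (l + 3)) = (Real.exp l ^ d)⁻¹ * (Real.exp (3 * d))⁻¹ := by
    rw [← Real.exp_nat_mul, ← Real.exp_neg, ← Real.exp_neg, ← Real.exp_add, hm]
    congr 1
    ring
  rw [h2] at h1
  have h3 := h1.trans hA
  have hE : 0 < Real.exp l ^ d := by positivity
  have hE3 : 0 < Real.exp (3 * (d:ℝ)) := Real.exp_pos _
  unfold Cg
  have h4 : (eM W π (closedBall x (8 * Real.exp l))).toReal =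
      (Real.exp (3 * d) / (c * (∫ h, dw h))) * (c * (∫ h, dw h) *
        ((Real.exp l ^ d)⁻¹ * (Real.exp (3 * d))⁻¹ *
          (eM W π (closedBall x (8 * Real.exp l))).toReal)) * Real.exp l ^ d := by
    field_simp
  rw [h4]
  gcongr

theorem Gen.eM_ne_top (h : Gen W π κ) {A : Set (Euc m)} (hA : MeasurableSet A) :
    eM W π A ≠ ⊤ := by
  rw [h.eM_eq hA]
  exact ENNReal.ofReal_ne_top

/-- **N5 for averaged vertices** -/
theorem n5_av (hdm : d + 2 = m) (h : Gen W π κ) (hw : CW dw τ) (hM : 0 < ∫ h, dw h)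
    (hg : Prof g g1 g2) {c : ℝ} (hc : 0 < c) (hcr : ∀ t, 0 ≤ t → t ≤ 1 / 4 → c ≤ g t)
    {Qn : ℕ} {X : Set (Euc m)} {lmin lmax : ℝ} {gm : ℝ → ℝ} {ω θ K η : ℝ}
    (hN : N5K W π g1 Qn d X lmin lmax gm ω θ K η) {l : ℝ} (hx : x ∈ X) (hl1 : lmin ≤ l)
    (hl2 : l ≤ lmax) (hτ : τ ≤ 2 * Real.exp l) {v : Fin d → Euc m}
    (hfat : ∀ (c : Fin d → ℝ) (i : Fin d), |c i| * Real.exp l ≤ K * ‖∑ j, c j • v j‖)
    (hy : ‖y - x‖ + τ ≤ 2 * Real.exp l) (hv : ∀ i, ‖y + v i - x‖ + τ ≤ 2 * Real.exp l)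
    {A η₁ : ℝ} (hA : eea dw W π g x (l + 3) ≤ A) (hgm : gm l ≤ Cg d c (∫ h, dw h) * A)
    (hR : RRa dw W π g1 y (l + 3) ≤ η₁ * A) (hRi : ∀ i, RRa dw W π g1 (y + v i) (l + 3) ≤ η₁ * A)
    (hη : (d + 1) * η₁ / (∫ h, dw h) ≤ η * Cg d c (∫ h, dw h)) :
    N5out W π Qn d v x l ω θ (Cg d c (∫ h, dw h) * A) := by
  have hA0 : 0 ≤ A := by
    refine le_trans ?_ hA
    unfold eea av
    refine integral_nonneg fun u => mul_nonneg (hw.nonneg u) ?_
    unfold ee
    refine mul_nonneg (Real.exp_pos _).le (integral_nonneg_of_ae ?_)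
    filter_upwards [h.tl_ae] with p hp
    exact mul_nonneg hp.1 (Prof.nonneg hg _ (by positivity))
  obtain ⟨a, ha, h1, h2⟩ := h.exists_vertex hw hM hg hR hRi
  have ha1 : ‖a‖ ≤ τ := by simpa using ha
  have hle : (d + 1) * (η₁ * A) / (∫ h, dw h) ≤ η * (Cg d c (∫ h, dw h) * A) := by
    calc (d + 1) * (η₁ * A) / (∫ h, dw h) = ((d + 1) * η₁ / (∫ h, dw h)) * A := by ring
      _ ≤ (η * Cg d c (∫ h, dw h)) * A := by gcongr
      _ = _ := by ring
  refine hN x hx l hl1 hl2 (y - a) v hfat ?_ ?_ _ hgm ?_ (h1.trans hle)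
    (fun i => (h2 i).trans hle)
  · have e1 : y - a - x = (y - x) - a := by abel
    rw [e1]
    refine (norm_sub_le _ _).trans ?_
    linarith
  · intro i
    have e1 : y - a + v i - x = (y + v i - x) - a := by abel
    rw [e1]
    refine (norm_sub_le _ _).trans ?_
    linarith [hv i]
  · rw [← ENNReal.ofReal_toReal (h.eM_ne_top measurableSet_closedBall)]
    exact ENNReal.ofReal_le_ofReal (h.eM8 hdm hw hg hc hM hcr hτ hA)

end Crest.Agent.R234.Thin_561
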