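import Crest.Agent.R234.Log9_113_Mg
import Crest.Agent.R234.Hol7_746
import Crest.Agent.R234.Pas7_762
import Crest.Agent.R234.Core0_809
import Crest.Agent.R234.Ex3_46
import Crest.Agent.R234.N5h_372
import Crest.Agent.R234.Ins1_387
import Crest.Agent.R234.Crs6_173
import Crest.Agent.R234.Thv1_561
import Crest.Agent.R234.Th15_164

-- ▼ part R234/La5_300
section

/-! Row 234, VF-LOGAS (task 1612, helper300), part 5: **(LOG) for almost stationary varifolds**,
final form (113's exact theorem as input). -/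

set_option autoImplicit false
set_option linter.unusedSectionVars false

open MeasureTheory Filter Topology Set Metric
open Crest.GeometryTopology.Submanifold Crest.Agent.R234.Vf_884 Crest.Agent.R234.Ar_870
open Crest.Agent.R234.Vc_164 Crest.Agent.R234.Cp914 Crest.Agent.R234.Pers_540
open Crest.Agent.R234.N5_372 Crest.Agent.R234.Cy_870
open scoped ENNReal NNReal InnerProductSpace

noncomputable section

namespace Crest.Agent.R234.La_300

variable {m n k d : ℕ} {π : Euc k →L[ℝ] Euc m} {V : Measure (Euc k × L k)}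

theorem tr_vp_eq (π : Euc k →L[ℝ] Euc m) {P : L k} (hP : P ∈ G m k) :
    Cacc_113.tr (Log_113.vp π ∘L P) = tl π P := by
  have h1 : Log_113.vp π ∘L P = P - Log_113.hp π ∘L P := by
    ext1 x; rfl
  have h2 : Log_113.hp π ∘L P = ContinuousLinearMap.adjoint π ∘L (π ∘L P) := rfl
  have h3 : tr (Log_113.hp π ∘L P) = tr (Shh π P) := by
    rw [h2, tr_cyc]
    rfl
  change tr (Log_113.vp π ∘L P) = _
  rw [h1, map_sub, h3, hP.2.2]
  rfl

theorem tr_lp_eq (π : Euc k →L[ℝ] Euc m) (S : Submodule ℝ (Euc m)) (P : L k)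
    (hπ : IsCo π) : Cacc_113.tr (Log_113.lp π S ∘L (1 - P)) = eL π S P := by
  have h1 : Log_113.lp π S ∘L (1 - P) =
      ContinuousLinearMap.adjoint π ∘L (S.starProjection ∘L π ∘L (1 - P)) := rfl
  have h2 : tr (Log_113.lp π S ∘L (1 - P)) =
      tr (S.starProjection ∘L (ContinuousLinearMap.id ℝ (Euc m) - Shh π P)) := by
    rw [h1, tr_cyc]
    congr 1
    ext1 v
    change S.starProjection (π (ContinuousLinearMap.adjoint π v - P (ContinuousLinearMap.adjoint π v))) =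
      S.starProjection (v - π (P (ContinuousLinearMap.adjoint π v)))
    rw [map_sub, show π (ContinuousLinearMap.adjoint π v) = v from
      congrArg (fun T : Euc m →L[ℝ] Euc m => T v) hπ]
  change tr (Log_113.lp π S ∘L (1 - P)) = _
  rw [h2, eL_eq, ContinuousLinearMap.comp_sub, map_sub, ContinuousLinearMap.comp_id]
  congr 1
  have h3 : S.starProjection ∈ G (Module.finrank ℝ S) m := starProjection_mem_G S rfl
  exact h3.2.2

theorem cy_eq (π : Euc k →L[ℝ] Euc m) (R : ℝ) : Log_113.cy π (ball 0 R) = cy π R := by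
  ext x
  change π x ∈ ball 0 R ↔ ‖π x‖ < R
  rw [mem_ball_zero_iff]

theorem ofReal_en (hπ : IsCo π) {A : Set (Euc m)} (hA : MeasurableSet A)
    (hc : ∀ᵐ p ∂V, p.2 ∈ G m k) (hfin : V (ov π A) < ⊤) :
    ENNReal.ofReal (Cacc_113.en V (Log_113.vp π) (Log_113.cy π A)) = eM V π A := by
  have hov : (Cacc_113.ov (Log_113.cy π A) : Set (Euc k × L k)) = ov π A := rfl
  unfold Cacc_113.en
  rw [hov, eM, bm_apply _ _ _ hA]
  have hae : ∀ᵐ p ∂(V.restrict (ov π A)), Cacc_113.tr (Log_113.vp π ∘L p.2) = tl π p.2 := by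
    filter_upwards [ae_restrict_of_ae hc] with p hp
    exact tr_vp_eq π hp
  rw [integral_congr_ae hae]
  refine ofReal_integral_eq_lintegral_ofReal ?_ ?_
  · have : IsFiniteMeasure (V.restrict (ov π A)) := ⟨by rwa [Measure.restrict_apply_univ]⟩
    refine Integrable.of_bound (C := (m : ℝ))
      (((measurable_tl' π).comp measurable_snd).aestronglyMeasurable) ?_
    filter_upwards [ae_restrict_of_ae hc] with p hp
    have h1 := tl_nonneg hπ (isPr_of_G hp)
    have h2 := tl_le hπ (isPr_of_G hp)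
    rw [Real.norm_eq_abs]
    exact abs_le.2 ⟨by linarith, h2⟩
  · filter_upwards [ae_restrict_of_ae hc] with p hp
    exact tl_nonneg hπ (isPr_of_G hp)

theorem el_eq_zero (hπ : IsCo π) (S : Submodule ℝ (Euc m)) {R : ℝ} {B : Set (Euc k)}
    (hB : B ⊆ cy π R) (hBm : MeasurableSet B) (hc : ∀ᵐ p ∂V, p.2 ∈ G m k)
    (h0 : lM V π S (ball 0 R) = 0) : Cacc_113.el V (Log_113.lp π S) B = 0 := by
  unfold Cacc_113.el
  have h1 : ∀ᵐ p ∂V, p ∈ ov π (ball 0 R) → eL π S p.2 = 0 := by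
    rw [lM, bm_apply _ _ _ measurableSet_ball] at h0
    have h2 := (lintegral_eq_zero_iff
      (((continuous_eL π S).measurable.comp measurable_snd).ennreal_ofReal :
        Measurable fun p : Euc k × L k => ENNReal.ofReal (eL π S p.2))).1 h0
    have h3 := (ae_restrict_iff' (measurableSet_ov (π := π) measurableSet_ball)).1 h2
    filter_upwards [h3, hc] with p hp hpc hpo
    have h4 : ENNReal.ofReal (eL π S p.2) = 0 := hp hpo
    exact le_antisymm (ENNReal.ofReal_eq_zero.1 h4) (eL_nonneg hπ (isPr_of_G hpc) S)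
  refine integral_eq_zero_of_ae ?_
  have h5 : ∀ᵐ p ∂V, p ∈ Cacc_113.ov B → Cacc_113.tr (Log_113.lp π S ∘L (1 - p.2)) = 0 := by
    filter_upwards [h1] with p hp hpB
    rw [tr_lp_eq π S p.2 hπ]
    refine hp ?_
    change π p.1 ∈ ball 0 R
    rw [mem_ball_zero_iff]
    exact hB hpB
  exact (ae_restrict_iff' (Cacc_113.measurableSet_ov hBm)).2 h5

theorem exL (hπ : IsCo π) (hd : d + 2 = m) : ExL π d := by
  intro C c hC hc τ hτ K
  obtain ⟨M0, hM0, h⟩ := Log_113.log_ball hπ hd C hC hc hτ K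
  refine ⟨M0, fun M hM V S hst hmass hlow hS hen hlM => ?_⟩
  obtain ⟨dA, hdA, h1⟩ := h M hM
  have hM20 : 20 ≤ M := hM0.trans hM
  have hUn : Log_113.Un π C c (2 * M) V :=
    { co := hπ
      one_le := by linarith
      C₀_nonneg := hC
      st := by rw [cy_eq]; exact hst
      mass := fun r hr hrM => by
        rw [cy_eq, ← ov_ball]
        exact hmass r hr hrM
      low := by rw [cy_eq]; exact hlow }
  have hfin : ∀ r, r ≤ 2 * M → V (ov π (ball 0 r)) < ⊤ := by
    intro r hr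
    refine lt_of_le_of_lt (measure_mono fun p hp => ?_)
      ((hmass (2 * M) (by linarith) le_rfl).trans_lt ENNReal.ofReal_lt_top)
    exact ball_subset_ball hr hp
  have hZ : Log_113.Zc π M ⊆ cy π (2 * M) := by
    intro x hx
    have h2 : π x ∈ closedBall 0 (3 / 2 * M) := hx
    rw [mem_closedBall_zero_iff] at h2
    change ‖π x‖ < 2 * M
    linarith
  have hel := el_eq_zero (V := V) hπ S (R := 2 * M) hZ (Log_113.isClosed_Zc M).measurableSet
    hst.conc hlM
  have hτen : τ ≤ Cacc_113.en V (Log_113.vp π) (Log_113.cy π (ball 0 1)) := by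
    have h2 := hen
    rw [← ofReal_en hπ measurableSet_ball hst.conc (hfin 1 (by linarith))] at h2
    by_contra hcon
    rw [not_le] at hcon
    have h3 := (ENNReal.ofReal_lt_ofReal_iff hτ).2 hcon
    exact absurd h2 (not_le.2 h3)
  have h4 := h1 V S hS hUn (by rw [hel]; exact hdA.le) hτen
  rw [← ofReal_en hπ measurableSet_ball hst.conc (hfin M (by linarith))]
  exact ENNReal.ofReal_le_ofReal h4

/-- **(LOG) for approximately stationary varifolds**: tip centre `y`, tip radius `t ≤ 1`; the mass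
bound is only used at the centre `y` for the radii `t ≤ r ≤ 2Mt`. -/
theorem log_as (hd : d + 2 = m) {C c : ℝ} (hC : 0 ≤ C) (hc : 0 < c) {τ : ℝ} (hτ : 0 < τ) (K : ℝ) :
    ∃ M0 : ℝ, 3 ≤ M0 ∧ ∀ M : ℝ, M0 ≤ M → ∃ dA : ℝ, 0 < dA ∧
    ∀ π : Euc k →L[ℝ] Euc m, IsCo π →
    ∀ (W : Measure (Euc k × L k)) (S : Submodule ℝ (Euc m)) (y : Euc m) (t : ℝ), 0 < t → t ≤ 1 →
    App m k dA {z | ‖π z - y‖ < 2 * M * t} W →
    (∀ r, t ≤ r → r ≤ 2 * M * t → W (ov π (ball y r)) ≤ ENNReal.ofReal (C * r ^ m)) →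
    LowD m {z | ‖π z - y‖ < 2 * M * t} c W →
    Module.finrank ℝ S = d → ENNReal.ofReal (τ * t ^ m) ≤ eM W π (ball y t) →
    lM W π S (ball y (2 * M * t)) ≤ ENNReal.ofReal (dA * t ^ m) →
    ENNReal.ofReal (K * M ^ d * t ^ m) ≤ eM W π (ball y (M * t)) :=
  log_app (fun _ hπ => exL hπ hd) hC hc hτ K

end Crest.Agent.R234.La_300
end
end

-- ▼ part R234/La6_300
section

/-! Row 234, VF-LOGAS (task 1612, helper300), part 6: the hypothesis `LogH` of 746's `Hol6`. -/

set_option autoImplicit false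
set_option linter.unusedSectionVars false

open MeasureTheory Filter Topology Set Metric
open Crest.GeometryTopology.Submanifold Crest.Agent.R234.Vf_884 Crest.Agent.R234.Ar_870
open Crest.Agent.R234.Vc_164 Crest.Agent.R234.Cp914 Crest.Agent.R234.Pers_540
open Crest.Agent.R234.N5_372 Crest.Agent.R234.Cy_870
open scoped ENNReal NNReal InnerProductSpace

noncomputable section

namespace Crest.Agent.R234.La_300

variable {m n k d : ℕ} {π : Euc k →L[ℝ] Euc m} {W : Measure (Euc k × L k)}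

/-- bounded weights give finite base measures. -/
theorem bm_lt_top (hc : ∀ᵐ p ∂W, p.2 ∈ G m k) {g : L k → ℝ} (hg : ∀ P ∈ G m k, g P ≤ m)
    {A : Set (Euc m)} (hA : MeasurableSet A) (hfin : W (ov π A) < ⊤) : bm W π g A < ⊤ := by
  rw [bm_apply _ _ _ hA]
  calc ∫⁻ p in ov π A, ENNReal.ofReal (g p.2) ∂W ≤ ∫⁻ _p in ov π A, ENNReal.ofReal m ∂W := by
        refine lintegral_mono_ae ?_
        filter_upwards [ae_restrict_of_ae hc] with p hp
        exact ENNReal.ofReal_le_ofReal (hg _ hp)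
    _ = ENNReal.ofReal m * W (ov π A) := by rw [setLIntegral_const]
    _ < ⊤ := ENNReal.mul_lt_top ENNReal.ofReal_lt_top hfin

/-- **(LOG) for approximately stationary varifolds, in real numbers** (746 #7553, `LogH`). -/
theorem logH (m k : ℕ) {C c : ℝ} (hC : 0 ≤ C) (hc : 0 < c) :
    ∀ s : ℝ, 0 < s → ∀ K : ℝ, ∃ M0 : ℝ, ∀ M : ℝ, M0 ≤ M → ∃ dA : ℝ, 0 < dA ∧
    ∀ π : Euc k →L[ℝ] Euc m, IsCo π →
    ∀ (W : Measure (Euc k × L k)) (y : Euc m) (t : ℝ), 0 < t → t ≤ 1 →
    App m k dA {z | ‖π z - y‖ < 2 * M * t} W →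
    LowD m {z | ‖π z - y‖ < 2 * M * t} c W →
    (∀ r, t ≤ r → r ≤ 2 * M * t → W (ov π (ball y r)) ≤ ENNReal.ofReal (C * r ^ m)) →
    ∀ S : Submodule ℝ (Euc m), Module.finrank ℝ S + 2 = m →
    s ^ 2 * t ^ m ≤ (eM W π).real (ball y t) →
    (lM W π S).real (ball y (2 * M * t)) ≤ dA * t ^ m →
    K * M ^ (m - 2) * t ^ m ≤ (eM W π).real (ball y (M * t)) := by
  intro s hs K
  rcases lt_or_ge m 2 with hm | hm
  · exact ⟨0, fun M _ => ⟨1, one_pos, fun π _ W y t _ _ _ _ _ S hS => by omega⟩⟩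
  obtain ⟨M0, hM03, h⟩ := log_as (m := m) (k := k) (d := m - 2) (by omega) hC hc
    (τ := s ^ 2) (by positivity) K
  refine ⟨M0, fun M hM => ?_⟩
  obtain ⟨dA, hdA, h1⟩ := h M hM
  have hM3 : 3 ≤ M := hM03.trans hM
  refine ⟨dA, hdA, fun π hπ W y t ht ht1 happ hlow hmass S hS hen hlM => ?_⟩
  have hfin : ∀ r, r ≤ 2 * M * t → W (ov π (ball y r)) < ⊤ := by
    intro r hr
    refine lt_of_le_of_lt (measure_mono fun p hp => ?_)
      ((hmass (2 * M * t) (by nlinarith) le_rfl).trans_lt ENNReal.ofReal_lt_top)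
    exact ball_subset_ball hr hp
  have hb1 : ∀ P ∈ G m k, tl π P ≤ m := fun P hP => tl_le hπ (isPr_of_G hP)
  have hb2 : ∀ P ∈ G m k, eL π S P ≤ m := fun P hP => eL_le (isPr_of_G hP) S
  have hf1 : (eM W π) (ball y (M * t)) ≠ ⊤ :=
    (bm_lt_top happ.conc hb1 measurableSet_ball (hfin _ (by nlinarith))).ne
  have hf2 : (lM W π S) (ball y (2 * M * t)) ≠ ⊤ :=
    (bm_lt_top happ.conc hb2 measurableSet_ball (hfin _ le_rfl)).ne
  have h2 := h1 π hπ W S y t ht ht1 happ hmass hlow (by omega)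
    (ENNReal.ofReal_le_of_le_toReal hen) (ENNReal.le_ofReal_iff_toReal_le hf2 (by positivity) |>.2 hlM)
  exact (ENNReal.ofReal_le_iff_le_toReal hf1).1 h2

end Crest.Agent.R234.La_300
end
end

-- ▼ part R234/Hol8_746
section

/-!
# Row 234, VF-HOLE (helper746), part 8: the two inputs of `hole_at` are theorems

`logH` (113, 300) and `dvH` (762) give **`hole`**, the unconditional hole lemma in the class `HSit`.
-/

set_option autoImplicit false

open Set Filter Topology MeasureTheory Metric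
open Crest.GeometryTopology.Submanifold
open Crest.Agent.R234.Vf_884 Crest.Agent.R234.Ar_870 Crest.Agent.R234.Cy_870
open Crest.Agent.R234.AS_456 Crest.Agent.R234.Asl_214
open Crest.Agent.R234.Th_164 Crest.Agent.R234.N5_372 Crest.Agent.R234.Pers_540
open Crest.Agent.R234.La_300
open scoped ENNReal NNReal ContDiff InnerProductSpace

noncomputable section

namespace Crest.Agent.R234.Hol_746

variable {m n k : ℕ}

theorem logH (m k : ℕ) {C c : ℝ} (hC : 0 ≤ C) (hc : 0 < c) : LogH m k C c :=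
  La_300.logH m k hC hc

theorem ov_eq (π : Euc k →L[ℝ] Euc m) (y : Euc m) (s : ℝ) :
    Pair6_762.ov π y s = N5_372.ov π (ball y s) := by
  ext p
  show ‖π p.1 - y‖ < s ↔ π p.1 ∈ ball y s
  rw [mem_ball, dist_eq_norm]

variable {W : Measure (Euc k × L k)} {π : Euc k →L[ℝ] Euc m}
  {κ : Euc k →L[ℝ] Euc n} {x₀ : Euc m} {R h₀ δ : ℝ}

theorem ctl (π : Euc k →L[ℝ] Euc m) : Continuous (tl π : L k → ℝ) := measurable_tl π

theorem bm_real {c : L k → ℝ} (hc : Continuous c) (h0 : ∀ᵐ p ∂W, 0 ≤ c p.2) (y : Euc m) (s : ℝ) :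
    (bm W π c).real (ball y s) = ∫ p in Pair6_762.ov π y s, c p.2 ∂W := by
  rw [measureReal_def, bm_apply _ _ _ measurableSet_ball, ov_eq,
    integral_eq_lintegral_of_nonneg_ae (ae_restrict_of_ae h0)
      ((hc.comp continuous_snd).aestronglyMeasurable)]

theorem eb_eq (H : CylAS W π κ x₀ R h₀ δ) (y : Euc m) (s : ℝ) :
    Pair6_762.eb W π y s = (eM W π).real (ball y s) := by
  refine (bm_real (ctl π) ?_ y s).symm
  filter_upwards [H.conc] with p hp
  exact tl_nonneg H.sp.hh (isPr_of_G hp)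

theorem qb_eq (H : CylAS W π κ x₀ R h₀ δ) (y : Euc m) (s : ℝ) :
    ∫ p in Pair6_762.ov π y s, tl π p.2 ^ 2 ∂W = (qM W π).real (ball y s) :=
  (bm_real (c := fun P => tl π P ^ 2) ((ctl π).pow 2)
    (Filter.Eventually.of_forall fun p => sq_nonneg _) y s).symm

theorem eM_le_vol (H : CylAS W π κ x₀ R h₀ δ) (y : Euc m) (s : ℝ) :
    (eM W π).real (ball y s) ≤ m * W.real (N5_372.ov π (ball y s)) := by
  have hfin : IsFiniteMeasure W := ⟨H.fin⟩
  have h1 : eM W π (ball y s) ≤ ENNReal.ofReal m * W (N5_372.ov π (ball y s)) := by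
    unfold eM
    rw [bm_apply _ _ _ measurableSet_ball, ← setLIntegral_const]
    refine lintegral_mono_ae (ae_restrict_of_ae ?_)
    filter_upwards [H.conc] with p hp
    exact ENNReal.ofReal_le_ofReal (tl_le H.sp.hh (isPr_of_G hp))
  have h2 := ENNReal.toReal_mono (ENNReal.mul_ne_top ENNReal.ofReal_ne_top
    (measure_ne_top W _)) h1
  rw [ENNReal.toReal_mul, ENNReal.toReal_ofReal (Nat.cast_nonneg m)] at h2
  exact h2

theorem yb_le_vol (H : CylAS W π κ x₀ R h₀ δ) (h1 : h₀ ≤ 1) (y : Euc m) (s : ℝ) :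
    Pas_762.yb W π y s ≤ W.real (N5_372.ov π (ball y s)) := by
  have hfin : IsFiniteMeasure W := ⟨H.fin⟩
  unfold Pas_762.yb
  rw [ov_eq]
  calc ∫ p in N5_372.ov π (ball y s), ‖AS_456.vp π p.1‖ ^ 2 ∂W
      ≤ ∫ _p in N5_372.ov π (ball y s), (1 : ℝ) ∂W := by
        refine integral_mono_of_nonneg (Filter.Eventually.of_forall fun p => sq_nonneg _)
          (integrable_const _) (ae_restrict_of_ae ?_)
        filter_upwards [H.hgt] with p hp
        show ‖AS_456.vp π p.1‖ ^ 2 ≤ 1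
        rw [Pas_762.norm_vp_eq H.sp]
        have h2 : ‖κ p.1‖ ≤ 1 := hp.trans h1
        exact pow_le_one₀ (norm_nonneg _) h2
    _ = _ := by
        rw [integral_const, smul_eq_mul, mul_one, measureReal_restrict_apply_univ]

set_option maxHeartbeats 1600000 in
theorem dvH (m k : ℕ) {C c : ℝ} (hC : 0 < C) (hc : 0 < c) : DvH m k C c := by
  set B : ℝ := 240 * (m + 1) + 67 with hB
  refine ⟨k / c * (320 * C * √C + 43 * √C + 11 * C * (C * ((m + 1) * B))), by positivity, ?_⟩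
  intro n π κ W x₀ R h₀ δ H hδ0 hδ1 hh0 hh1 x r h σ hR hh hhr hr1 hσ hσ1 hM hV he hd
  have hfin : IsFiniteMeasure W := ⟨H.fin⟩
  have hr : 0 < r := hh.trans_le hhr
  have hdv := Pas_762.dv_cylAS (x := x) (r := r) (h := h) (M := C) (σ := σ) (c := c) H
    (by linarith) hh1 hδ0 hδ1 hh hhr hr1 hC hσ hc
    (by
      intro y hy
      rw [ov_eq]
      exact hM y (by rw [mem_ball, dist_eq_norm]; exact hy))
    (by
      intro y hy
      rw [eb_eq H]
      exact he y (by rw [mem_ball, dist_eq_norm]; exact hy))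
    (by
      filter_upwards [hd] with z hz hzx
      refine hz ?_
      rw [mem_ball, dist_eq_norm]
      linarith)
  rw [qb_eq H, eb_eq H, ov_eq] at hdv
  unfold Pas_762.ea at hdv
  rw [eb_eq H, ov_eq] at hdv
  refine hdv.trans ?_
  -- abbreviations
  set e := (eM W π).real (ball x (2 * r)) with hedef
  set v := W.real (N5_372.ov π (ball x (2 * r))) with hvdef
  set Y := Pas_762.yb W π x (2 * r) with hYdef
  set ρ := r ^ m with hρdef
  have hρ : 0 < ρ := by positivity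
  have he0 : 0 ≤ e := measureReal_nonneg
  have hv0 : 0 ≤ v := measureReal_nonneg
  have hY0 : 0 ≤ Y := Pas_762.yb_nonneg _ _
  have hmn : (0 : ℝ) ≤ m := Nat.cast_nonneg m
  have hev : e ≤ m * v := eM_le_vol H x (2 * r)
  have hYv : Y ≤ v := yb_le_vol H hh1 x (2 * r)
  have heρ : e ≤ m * (C * ρ) := hev.trans (by gcongr)
  have hYρ : Y ≤ C * ρ := hYv.trans hV
  have hCρ : 0 < C * ρ := by positivity
  have hsd0 : 0 ≤ √δ := Real.sqrt_nonneg _
  have hsd1 : √δ ≤ 1 := by
    rw [Real.sqrt_le_one]; exact hδ1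
  have hds : δ ≤ √δ := by
    calc δ = √δ * √δ := (Real.mul_self_sqrt hδ0).symm
      _ ≤ √δ * 1 := by gcongr
      _ = √δ := mul_one _
  have hd2s : δ ^ 2 ≤ √δ := by nlinarith
  have hhr1 : h / r ≤ 1 := by rw [div_le_one hr]; exact hhr
  have hhr0 : 0 ≤ h / r := by positivity
  -- first term
  have t1 : √(e * v) ≤ √C * √(e * ρ) := by
    rw [← Real.sqrt_mul hC.le]
    apply Real.sqrt_le_sqrt
    calc e * v ≤ e * (C * ρ) := by gcongr
      _ = C * (e * ρ) := by ring
  have t2 : √(e * Y) ≤ (m + 1) * (C * ρ) := by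
    rw [← Real.sqrt_sq (show 0 ≤ (m + 1) * (C * ρ) by positivity)]
    apply Real.sqrt_le_sqrt
    calc e * Y ≤ (m * (C * ρ)) * (C * ρ) := by gcongr
      _ ≤ ((m + 1) * (C * ρ)) ^ 2 := by nlinarith [sq_nonneg (C * ρ), sq_nonneg ((m : ℝ) * (C * ρ))]
  have t3 : √((e + Y) * v) ≤ (m + 1) * (C * ρ) := by
    rw [← Real.sqrt_sq (show 0 ≤ (m + 1) * (C * ρ) by positivity)]
    apply Real.sqrt_le_sqrt
    calc (e + Y) * v ≤ (m * (C * ρ) + C * ρ) * (C * ρ) := by gcongr
      _ ≤ ((m + 1) * (C * ρ)) ^ 2 := by nlinarith [sq_nonneg (C * ρ), sq_nonneg ((m : ℝ) * (C * ρ))]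
  have hh1' : h ≤ 1 := hhr.trans hr1
  have u1 : δ * (e + √(e * Y)) ≤ √δ * (2 * (m + 1) * (C * ρ)) := by
    have : e + √(e * Y) ≤ 2 * (m + 1) * (C * ρ) := by nlinarith
    exact mul_le_mul hds this (by positivity) hsd0
  have u2 : δ ^ 2 * Y ≤ √δ * (C * ρ) := mul_le_mul hd2s hYρ hY0 hsd0
  have u3 : δ * (h / r) * √((e + Y) * v) ≤ √δ * ((m + 1) * (C * ρ)) := by
    have h1 : δ * (h / r) ≤ √δ := by nlinarith
    exact mul_le_mul h1 t3 (Real.sqrt_nonneg _) hsd0
  have u4 : √δ * h * e ≤ √δ * (m * (C * ρ)) := by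
    have h1 : √δ * h ≤ √δ := mul_le_of_le_one_right hsd0 hh1'
    exact mul_le_mul h1 heρ he0 hsd0
  have hea : 120 * (m + 1) * δ * (e + √(e * Y)) + 34 * (m + 1) * δ ^ 2 * Y +
      32 * δ * (h / r) * √((e + Y) * v) + √δ * h * e ≤ √δ * (C * ρ) * ((m + 1) * B) := by
    have w1 : 120 * (m + 1) * δ * (e + √(e * Y)) ≤
        120 * (m + 1) * (√δ * (2 * (m + 1) * (C * ρ))) := by
      calc 120 * (m + 1) * δ * (e + √(e * Y)) = 120 * (m + 1) * (δ * (e + √(e * Y))) := by ring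
        _ ≤ _ := by gcongr
    have w2 : 34 * (m + 1) * δ ^ 2 * Y ≤ 34 * (m + 1) * (√δ * (C * ρ)) := by
      calc 34 * (m + 1) * δ ^ 2 * Y = 34 * (m + 1) * (δ ^ 2 * Y) := by ring
        _ ≤ _ := by gcongr
    have w3 : 32 * δ * (h / r) * √((e + Y) * v) ≤ 32 * (√δ * ((m + 1) * (C * ρ))) := by
      calc 32 * δ * (h / r) * √((e + Y) * v) = 32 * (δ * (h / r) * √((e + Y) * v)) := by ring
        _ ≤ _ := by gcongr
    calc _ ≤ 120 * (m + 1) * (√δ * (2 * (m + 1) * (C * ρ))) + 34 * (m + 1) * (√δ * (C * ρ)) +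
          32 * (√δ * ((m + 1) * (C * ρ))) + √δ * (m * (C * ρ)) := by
          linarith
      _ ≤ _ := by
          have w5 : 0 ≤ √δ * (C * ρ) := by positivity
          rw [hB]
          nlinarith [mul_nonneg w5 hmn]
  have hsum : 320 * C * (h / r) * √(e * v) + 43 * σ * √C * e +
      11 * C * (120 * (m + 1) * δ * (e + √(e * Y)) + 34 * (m + 1) * δ ^ 2 * Y +
      32 * δ * (h / r) * √((e + Y) * v) + √δ * h * e) ≤
      (320 * C * √C + 43 * √C + 11 * C * (C * ((m + 1) * B))) *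
        ((h / r) * √(e * ρ) + σ * e + √δ * ρ) := by
    have z1 : 320 * C * (h / r) * √(e * v) ≤ (320 * C * √C) * ((h / r) * √(e * ρ)) := by
      calc 320 * C * (h / r) * √(e * v) ≤ 320 * C * (h / r) * (√C * √(e * ρ)) := by gcongr
        _ = _ := by ring
    have z3 : 11 * C * (120 * (m + 1) * δ * (e + √(e * Y)) + 34 * (m + 1) * δ ^ 2 * Y +
        32 * δ * (h / r) * √((e + Y) * v) + √δ * h * e) ≤
        (11 * C * (C * ((m + 1) * B))) * (√δ * ρ) := by
      calc _ ≤ 11 * C * (√δ * (C * ρ) * ((m + 1) * B)) := by gcongr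
        _ = _ := by ring
    have p1 : 0 ≤ 320 * C * √C := by positivity
    have p2 : 0 ≤ 43 * √C := by positivity
    have p3 : 0 ≤ 11 * C * (C * ((m + 1) * B)) := by positivity
    have q1 : 0 ≤ (h / r) * √(e * ρ) := by positivity
    have q2 : 0 ≤ σ * e := by positivity
    have q3 : 0 ≤ √δ * ρ := by positivity
    generalize (320 * C * √C) = a1 at *
    generalize (11 * C * (C * ((m + 1) * B))) = a3 at *
    have z2 : 43 * σ * √C * e = (43 * √C) * (σ * e) := by ring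
    rw [z2]
    generalize (43 * √C) = a2 at *
    generalize (h / r) * √(e * ρ) = b1 at *
    generalize σ * e = b2 at *
    generalize √δ * ρ = b3 at *
    nlinarith [mul_nonneg p1 q2, mul_nonneg p1 q3, mul_nonneg p2 q1, mul_nonneg p2 q3,
      mul_nonneg p3 q1, mul_nonneg p3 q2]
  refine (mul_le_mul_of_nonneg_left hsum (by positivity)).trans (le_of_eq ?_)
  ring

/-- **HOLE** (unconditional) in the class `HSit`. -/
theorem hole {m k : ℕ} (hm : 2 ≤ m) {C₀ c₀ : ℝ} (hC₀ : 0 < C₀) (hc₀ : 0 < c₀)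
    {η : ℝ} (hη : 0 < η) :
    ∃ δH > 0, ∃ lam > 0, ∃ d0 > 0, ∀ (n : ℕ) (π : Euc k →L[ℝ] Euc m) (κ : Euc k →L[ℝ] Euc n)
      (W : Measure (Euc k × L k)) (x₀ : Euc m) (R h₀ δ : ℝ), HSit C₀ c₀ W π κ x₀ R h₀ δ → δ ≤ d0 →
      ∀ S : Submodule ℝ (Euc m), Module.finrank ℝ S + 2 = m → ∀ (x : Euc m) (s E : ℝ), 0 < s →
      s ≤ 1 → h₀ ≤ s → ‖x - x₀‖ + 2 * s ≤ R → (eM W π).real (ball x (2 * s)) ≤ E * s ^ (m - 2) →
      lam * E ≤ s ^ 2 → (lM W π S).real (ball x (2 * s)) ≤ δH * E * s ^ (m - 2) →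
      (qM W π).real (ball x s) ≤ η * E * s ^ (m - 2) :=
  hole_at hm hC₀ hc₀ (fun _ hC _ hc => logH m k hC.le hc) (fun _ hC _ hc => dvH m k hC hc) hη

end Crest.Agent.R234.Hol_746
end
end

-- ▼ part R234/Hol9_746
section

/-!
# Row 234, VF-HOLE (helper746), part 9: the class `HSit` contains the class `Cls` of the core
-/

set_option autoImplicit false

open Set Filter Topology MeasureTheory Metric
open Crest.GeometryTopology.Submanifold
open Crest.Agent.R234.Vf_884 Crest.Agent.R234.Ar_870 Crest.Agent.R234.Cy_870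
open Crest.Agent.R234.AS_456 Crest.Agent.R234.Asl_214
open Crest.Agent.R234.Th_164 Crest.Agent.R234.N5_372 Crest.Agent.R234.Pers_540
open Crest.Agent.R234.La_300
open scoped ENNReal NNReal ContDiff InnerProductSpace

noncomputable section

namespace Crest.Agent.R234.Hol_746

open Crest.Agent.R234.Core_809 (Cls part)

variable {m n k : ℕ}

/-- the constant of the upper mass bound in `Cls`. -/
def CU0 (m Q : ℕ) : ℝ := 3 ^ m * ((Q + 1) * (ome m * 5 ^ m))

/-- the constant of the lower mass bound in `Cls`. -/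
def cL0 (m : ℕ) : ℝ := ome m / 2 ^ m / 16 ^ m

theorem CU0_pos (m Q : ℕ) : 0 < CU0 m Q := by
  have := ome_pos m
  unfold CU0
  positivity

theorem cL0_pos (m : ℕ) : 0 < cL0 m := by
  have := ome_pos m
  unfold cL0
  positivity

variable {π : Euc k →L[ℝ] Euc m} {κ : Euc k →L[ℝ] Euc n} {U : Set (Euc k)}
  {Dd : VarifoldData m k} {Q : ℕ} {δ D : ℝ}

theorem mcyl (π : Euc k →L[ℝ] Euc m) (κ : Euc k →L[ℝ] Euc n) (x : Euc m) (R h : ℝ) :
    MeasurableSet (cyl π κ x R h ×ˢ (univ : Set (L k))) :=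
  (isClosed_cyl π κ x R h).measurableSet.prod MeasurableSet.univ

theorem cls_cylAS (h : Cls Q δ D π κ U Dd) (hD1 : D < 1) :
    CylAS (part π κ Dd) π κ 0 4 (√D) δ := by
  refine cylAS_of_AS h.as h.sp (h₁ := 1) ?_ one_pos h.dom ?_
  · rw [Real.sqrt_lt' one_pos]
    simpa using hD1
  · filter_upwards [h.hgt] with p hp hpc
    exact Real.le_sqrt_of_sq_le (hp hpc)

theorem cls_fin (h : Cls Q δ D π κ U Dd) : VD Dd (cyl π κ 0 5 2 ×ˢ univ) < ⊤ :=
  h.as.fin _ (isCompact_cyl h.sp 0 5 2) h.dom'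

/-- heights of support points -/
theorem sp_hgt (h : Cls Q δ D π κ U Dd) {z : Euc k} (hz : Sp (part π κ Dd) z) : ‖κ z‖ ≤ √D := by
  by_contra hcon
  push Not at hcon
  have hopen : IsOpen {w : Euc k | √D < ‖κ w‖} :=
    isOpen_lt continuous_const (by fun_prop)
  obtain ⟨s, hs, hsub⟩ := Metric.isOpen_iff.1 hopen z hcon
  have h1 : part π κ Dd (ball z s ×ˢ univ) = 0 := by
    unfold part
    have h2 : ∀ᵐ p ∂((VD Dd).restrict (cyl π κ 0 4 1 ×ˢ univ)), ‖κ p.1‖ ≤ √D := by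
      filter_upwards [ae_restrict_mem (mcyl π κ 0 4 1), ae_restrict_of_ae h.hgt] with p hp hp2
      exact Real.le_sqrt_of_sq_le (hp2 hp.1)
    refine measure_mono_null ?_ h2
    rintro p ⟨hp, -⟩
    show ¬ (‖κ p.1‖ ≤ √D)
    exact not_le.2 (hsub hp)
  exact absurd (hz s hs) (by rw [h1]; exact lt_irrefl _)

theorem sp_support (h : Cls Q δ D π κ U Dd) {z : Euc k} (hz : Sp (part π κ Dd) z) :
    z ∈ support Dd := by
  intro r hr
  rw [← VD_prod_univ h.int measurableSet_ball]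
  exact (hz r hr).trans_le (Measure.restrict_apply_le _ _)

theorem low_cls (hm : 1 ≤ m) (h : Cls Q δ D π κ U Dd) (hD1 : D ≤ 1 / 4) :
    LowD m {z | ‖π z - 0‖ < 4} (cL0 m) (part π κ Dd) := by
  obtain ⟨T, T', hT, hg, hst⟩ := h.ex
  intro z hz r hr hsub
  have hzc : ‖π z‖ < 4 := by
    have h1 : ‖π z - 0‖ < 4 := hsub (mem_ball_self hr)
    rwa [sub_zero] at h1
  have hz1 := sp_hgt h hz
  have hD2 : √D ≤ 1 / 2 := by
    rw [Real.sqrt_le_left (by norm_num)]
    linarith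
  -- `r ≤ 8`
  have hr8 : r ≤ 8 := by
    by_contra hcon
    push Not at hcon
    have : NeZero m := ⟨by lia⟩
    set e : Euc m := EuclideanSpace.single 0 1 with he
    have hen : ‖e‖ = 1 := by rw [he]; simp
    have had : ‖ContinuousLinearMap.adjoint π e‖ = 1 := by
      have h1 : ‖ContinuousLinearMap.adjoint π e‖ ^ 2 = 1 := by
        rw [← real_inner_self_eq_norm_sq, ContinuousLinearMap.adjoint_inner_left,
          show π (ContinuousLinearMap.adjoint π e) = e from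
            congrArg (fun A : L m => A e) h.sp.hh, real_inner_self_eq_norm_sq, hen, one_pow]
      nlinarith [norm_nonneg (ContinuousLinearMap.adjoint π e)]
    have hpe : π (ContinuousLinearMap.adjoint π e) = e := congrArg (fun A : L m => A e) h.sp.hh
    have h1 : z + (4 : ℝ) • ContinuousLinearMap.adjoint π e ∈ ball z r := by
      rw [mem_ball, dist_eq_norm, add_sub_cancel_left, norm_smul, had]
      norm_num
      linarith
    have h2 : z - (4 : ℝ) • ContinuousLinearMap.adjoint π e ∈ ball z r := by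
      rw [mem_ball, dist_eq_norm, sub_sub_cancel_left, norm_neg, norm_smul, had]
      norm_num
      linarith
    have h3 : ‖π (z + (4 : ℝ) • ContinuousLinearMap.adjoint π e) - 0‖ < 4 := hsub h1
    have h4 : ‖π (z - (4 : ℝ) • ContinuousLinearMap.adjoint π e) - 0‖ < 4 := hsub h2
    rw [sub_zero, map_add, map_smul, hpe] at h3
    rw [sub_zero, map_sub, map_smul, hpe] at h4
    have h5 : ‖(8 : ℝ) • e‖ ≤ ‖π z + (4 : ℝ) • e‖ + ‖π z - (4 : ℝ) • e‖ := by
      have h6 : (8 : ℝ) • e = (π z + (4 : ℝ) • e) - (π z - (4 : ℝ) • e) := by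
        have : (8 : ℝ) = 4 + 4 := by norm_num
        rw [this, add_smul]
        abel
      rw [h6]
      exact norm_sub_le _ _
    rw [norm_smul, hen] at h5
    norm_num at h5
    linarith
  set ρ := r / 16 with hρ
  have hρ0 : 0 < ρ := by positivity
  have hρ1 : ρ ≤ 1 / 2 := by rw [hρ]; linarith
  have hcyl : ball z ρ ⊆ cyl π κ 0 4 1 := by
    intro w hw
    have h1 : w ∈ ball z r := ball_subset_ball (by rw [hρ]; linarith) hw
    refine ⟨(show ‖π w - 0‖ < 4 from hsub h1).le, ?_⟩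
    have h2 : ‖w - z‖ < ρ := by rwa [mem_ball, dist_eq_norm] at hw
    have h3 : κ w = κ z + κ (w - z) := by rw [map_sub]; abel
    rw [h3]
    refine (norm_add_le _ _).trans ?_
    have := Ex_46.norm_vert_le h.sp (w - z)
    linarith
  have h6 := Ex_46.low_mass h.int h.isOpen hT hg hst hm (sp_support h hz) hρ0
    (hcyl.trans h.dom)
  have h7 : part π κ Dd (ball z ρ ×ˢ univ) = weight Dd (ball z ρ) := by
    unfold part
    rw [Measure.restrict_apply (measurableSet_ball.prod MeasurableSet.univ), Set.prod_inter_prod,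
      univ_inter, inter_eq_left.2 hcyl, VD_prod_univ h.int measurableSet_ball]
  calc ENNReal.ofReal (cL0 m * r ^ m) = ENNReal.ofReal (ome m / 2 ^ m * ρ ^ m) := by
        congr 1
        unfold cL0
        rw [hρ, div_pow]
        ring
    _ ≤ weight Dd (ball z ρ) := h6
    _ = part π κ Dd (ball z ρ ×ˢ univ) := h7.symm
    _ ≤ _ := measure_mono (prod_mono (ball_subset_ball (by rw [hρ]; linarith)) subset_rfl)

theorem up_cls (hm : 1 ≤ m) (h : Cls Q δ D π κ U Dd) (z : Euc k) {r : ℝ} (hr : 0 < r) :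
    part π κ Dd (closedBall z r ×ˢ univ) ≤ ENNReal.ofReal (CU0 m Q * r ^ m) := by
  obtain ⟨T, T', hT, hg, hst⟩ := h.ex
  set K : ℝ := (Q + 1) * (ome m * 5 ^ m) with hKdef
  have hK : 0 ≤ K := measureReal_nonneg.trans h.big
  have hm5 := Ex_46.measurableSet_cyl π κ 0 5 2
  have h45 : cyl π κ 0 4 1 ⊆ cyl π κ 0 5 2 := fun w hw =>
    ⟨hw.1.trans (by norm_num), hw.2.trans (by norm_num)⟩
  have hK' : weight Dd (cyl π κ 0 5 2) ≤ ENNReal.ofReal K := by
    rw [← VD_prod_univ h.int hm5]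
    exact ENNReal.le_ofReal_iff_toReal_le (cls_fin h).ne hK |>.2 h.big
  have hset : (closedBall z r ×ˢ univ : Set (Euc k × L k)) ∩ cyl π κ 0 4 1 ×ˢ univ =
      (closedBall z r ∩ cyl π κ 0 4 1) ×ˢ univ := by
    rw [Set.prod_inter_prod, univ_inter]
  unfold part CU0
  rw [Measure.restrict_apply (measurableSet_closedBall.prod MeasurableSet.univ),
    hset, VD_prod_univ h.int (measurableSet_closedBall.inter (Ex_46.measurableSet_cyl π κ 0 4 1))]
  rcases (closedBall z r ∩ cyl π κ 0 4 1).eq_empty_or_nonempty with h0 | ⟨z₁, hz₁, hz₁c⟩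
  · rw [h0, measure_empty]; exact bot_le
  have hrr : closedBall z r ⊆ closedBall z₁ (2 * r) := by
    refine closedBall_subset_closedBall' ?_
    rw [mem_closedBall, dist_comm] at hz₁
    linarith
  rcases le_or_gt 1 (2 * r) with h1 | h1
  · refine (measure_mono (inter_subset_right.trans h45)).trans (hK'.trans ?_)
    refine ENNReal.ofReal_le_ofReal ?_
    have h2 : 1 ≤ (3 * r) ^ m := one_le_pow₀ (by linarith)
    calc K = 1 * K := (one_mul K).symm
      _ ≤ (3 * r) ^ m * K := mul_le_mul_of_nonneg_right h2 hK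
      _ = _ := by rw [mul_pow]; ring
  · have hb : ball z₁ 1 ⊆ U :=
      (ball_subset_closedBall.trans (Ex_46.closedBall_subset_cyl h.sp hz₁c)).trans h.dom'
    have h2 := Ex_46.up_mass h.int hT hg hst hm (z := z₁) (by positivity : 0 < 2 * r) h1 hb
    refine (measure_mono (inter_subset_left.trans hrr)).trans (h2.trans ?_)
    have h3 : weight Dd (ball z₁ 1) ≤ ENNReal.ofReal K :=
      (measure_mono (ball_subset_closedBall.trans
        (Ex_46.closedBall_subset_cyl h.sp hz₁c))).trans hK'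
    refine (mul_le_mul_right h3 _).trans ?_
    rw [← ENNReal.ofReal_mul (by positivity)]
    refine ENNReal.ofReal_le_ofReal ?_
    have h4 : ((17 / 15 : ℝ) ^ 2 * (2 * r / 1)) ^ m ≤ (3 * r) ^ m := by
      refine pow_le_pow_left₀ (by positivity) ?_ m
      linarith
    calc ((17 / 15 : ℝ) ^ 2 * (2 * r / 1)) ^ m * K ≤ (3 * r) ^ m * K :=
          mul_le_mul_of_nonneg_right h4 hK
      _ = _ := by rw [mul_pow]; ring

theorem area_cls (h : Cls Q δ D π κ U Dd) (S : Sheets Dd π) :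
    Area (part π κ Dd) π (ball 0 4) (S.N (cyl π κ 0 4 1)) := by
  refine area_VD h.int h.sp.hh S (isClosed_cyl π κ 0 4 1).measurableSet measurableSet_ball ?_
  refine (measure_mono ?_).trans_lt (cls_fin h)
  refine prod_mono ?_ subset_rfl
  rintro w ⟨hw, -⟩
  exact ⟨hw.1.trans (by norm_num), hw.2.trans (by norm_num)⟩

theorem fn_cls (h : Cls Q δ D π κ U Dd) : ∃ T : Euc k → ℝ≥0∞, Measurable T ∧
    ∀ᵐ p ∂(part π κ Dd), ENNReal.ofReal (tl π p.2) = T p.1 := by
  obtain ⟨T, hT, h1⟩ := exists_fun h.int (c := fun P => ENNReal.ofReal (tl π P))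
    (ctl π).measurable.ennreal_ofReal
  exact ⟨T, hT, ae_restrict_of_ae h1⟩

/-- **`HSit` from `Cls`**. -/
theorem hsit_of_cls (hm : 1 ≤ m) (h : Cls Q δ D π κ U Dd) (hδ : 0 ≤ δ) (hδ1 : δ ≤ 1)
    (hD : D ≤ 1 / 4) : HSit (CU0 m Q) (cL0 m) (part π κ Dd) π κ 0 4 (√D) δ where
  as := cls_cylAS h (by linarith)
  δ_nonneg := hδ
  δ_le := hδ1
  h_nonneg := Real.sqrt_nonneg _
  h_le := by
    rw [Real.sqrt_le_one]
    linarith
  area := by
    obtain ⟨S⟩ := exists_sheets_VD h.int π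
    exact ⟨_, area_cls h S⟩
  fn := fn_cls h
  low := low_cls hm h hD
  up z _ hr := up_cls hm h z hr

end Crest.Agent.R234.Hol_746
end
end

-- ▼ part R234/N5i_372

/-!
Row 234, node N5 (LOCAL) of the core (helper372), part 9: helper561's `N5K` for the class `Cls` of the
core (all inputs discharged).
-/

set_option autoImplicit false

open MeasureTheory Metric Set Filter Topology
open Crest.GeometryTopology.Submanifold
open Crest.Agent.R234.Vf_884 Crest.Agent.R234.Ar_870 Crest.Agent.R234.Cy_870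
open Crest.Agent.R234.Core_809
open scoped ENNReal NNReal InnerProductSpace

noncomputable section

namespace Crest.Agent.R234.N5_372

theorem holeC {m k : ℕ} (hm : 2 ≤ m) {C₀ c₀ : ℝ} (hC₀ : 0 < C₀) (hc₀ : 0 < c₀) :
    HoleC m k C₀ c₀ := fun _ hη => Hol_746.hole hm hC₀ hc₀ hη

/-- a split fixes the dimension -/
theorem dim_split {m n k : ℕ} {π : Euc k →L[ℝ] Euc m} {κ : Euc k →L[ℝ] Euc n} (h : Split π κ) :
    k = m + n := by
  have e1 : LinearMap.trace ℝ (Euc k) (((ContinuousLinearMap.adjoint π).toLinearMap) ∘ₗ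
      π.toLinearMap) = m := by
    rw [LinearMap.trace_comp_comm']
    have h1 : π.toLinearMap ∘ₗ (ContinuousLinearMap.adjoint π).toLinearMap = LinearMap.id := by
      ext1 v
      exact congrArg (fun T : Euc m →L[ℝ] Euc m => T v) h.hh
    rw [h1, LinearMap.trace_id, finrank_euclideanSpace_fin]
  have e2 : LinearMap.trace ℝ (Euc k) (((ContinuousLinearMap.adjoint κ).toLinearMap) ∘ₗ
      κ.toLinearMap) = n := by
    rw [LinearMap.trace_comp_comm']
    have h1 : κ.toLinearMap ∘ₗ (ContinuousLinearMap.adjoint κ).toLinearMap = LinearMap.id := by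
      ext1 v
      exact congrArg (fun T : Euc n →L[ℝ] Euc n => T v) h.vv
    rw [h1, LinearMap.trace_id, finrank_euclideanSpace_fin]
  have e3 : ((ContinuousLinearMap.adjoint π).toLinearMap) ∘ₗ π.toLinearMap +
      ((ContinuousLinearMap.adjoint κ).toLinearMap) ∘ₗ κ.toLinearMap = LinearMap.id := by
    ext1 v
    exact congrArg (fun T : L k => T v) h.sum
  have e4 := congrArg (LinearMap.trace ℝ (Euc k)) e3
  rw [map_add, e1, e2, LinearMap.trace_id, finrank_euclideanSpace_fin] at e4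
  exact_mod_cast e4.symm

/-- multiplicity, anomaly, mass and energy at the scales `A h₀ ≤ s ≤ 1/64` (164, 173) -/
theorem t1_in (m Q : ℕ) {C₀ : ℝ} (hC₀ : 0 ≤ C₀) : ∃ A C₁ c : ℝ, 1 ≤ A ∧ 0 ≤ C₁ ∧ 0 < c ∧ c ≤ 1 ∧
    ∀ {n k : ℕ} {π : Euc k →L[ℝ] Euc m} {κ : Euc k →L[ℝ] Euc n} {W : Measure (Euc k × L k)}
      {N : Euc m → ℝ≥0∞} {h₀ δ : ℝ}, Crs_173.In W π κ N Q C₀ h₀ δ → δ ≤ c → h₀ ^ 2 ≤ c →
      ∫ p, tl π p.2 ∂W ≤ c → ∀ x ∈ closedBall (0 : Euc m) 3, ∀ s, 0 < s → A * h₀ ≤ s → s ≤ 1 / 64 →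
        (∫ y in ball x (2 * s), |(N y).toReal - Q| ≤ C₁ * (qM W π).real (ball x (4 * s))) ∧
        (∀ φ : Euc m → ℝ, Measurable φ → (∀ z, |φ z| ≤ 1) → (∀ z, z ∉ ball x (2 * s) → φ z = 0) →
          |(∫ p, φ (π p.1) ∂W) - Q * (∫ z, φ z) - (1 / 2) * (∫ p, tl π p.2 * φ (π p.1) ∂W)| ≤
            C₁ * (qM W π).real (ball x (4 * s))) ∧
        W.real (ov π (ball x (2 * s))) ≤ A * s ^ m ∧
        (eM W π).real (ball x (8 * s)) ≤ A * (h₀ / s) ^ 2 * s ^ m := by
  obtain ⟨σ, δ₁, ε, KT, hσ, -, -, -, hε, -, hKT, hwin⟩ := Th_164.win m Q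
  have h4m : (0:ℝ) < 4 ^ m := by positivity
  obtain ⟨A₀, c₀, hA₀, hc₀, hc₁, hcrs⟩ := Crs_173.coarse m Q hC₀ (ε := ε / 4 ^ m) (by positivity)
  have h41 : (1:ℝ) ≤ 4 ^ m := one_le_pow₀ (by norm_num)
  have h8m : (0:ℝ) < 8 ^ m := by positivity
  have h81 : (1:ℝ) ≤ 8 ^ m := one_le_pow₀ (by norm_num)
  have h28 : (2:ℝ) ^ m ≤ 8 ^ m := pow_le_pow_left₀ (by norm_num) (by norm_num) m
  set A : ℝ := A₀ * 8 ^ m + A₀ * 4 ^ m / ε with hA
  have hAA : A₀ * 8 ^ m ≤ A := by rw [hA]; have : 0 ≤ A₀ * 4 ^ m / ε := by positivity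
                                  linarith
  have hA0A : A₀ ≤ A := le_trans (by nlinarith) hAA
  have hAε : A₀ * 4 ^ m / ε ≤ A := by
    rw [hA]; have : 0 ≤ A₀ * 8 ^ m := by positivity
    linarith
  have hA1 : 1 ≤ A := hA₀.trans hA0A
  have hm0 : (0:ℝ) ≤ m := Nat.cast_nonneg m
  refine ⟨A, 1 / 2 + KT / σ, min c₀ (min (ε / (m + 1)) 1), hA1, by positivity, by positivity,
    (min_le_right _ _).trans (min_le_right _ _), ?_⟩
  intro n k π κ W N h₀ δ h hδ hh hE x hx s hs hAs hs1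
  have hcf := cf_of_cylAS h.cyl
  have hfW : IsFiniteMeasure W := ⟨h.cyl.fin⟩
  have hδ1 : δ ≤ 1 := hδ.trans ((min_le_right _ _).trans (min_le_right _ _))
  have hh1 : h₀ ^ 2 ≤ 1 := hh.trans ((min_le_right _ _).trans (min_le_right _ _))
  have hδε : δ * (m + 1) ≤ ε := by
    have h1 : δ ≤ ε / (m + 1) := hδ.trans ((min_le_right _ _).trans (min_le_left _ _))
    rwa [le_div_iff₀ (by positivity)] at h1
  have hh0 := h.hh
  have hA0s : A₀ * h₀ ≤ s := le_trans (by gcongr) hAs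
  have hx3 : ‖x‖ ≤ 3 := by simpa using hx
  -- scales
  have hcr : ∀ a : ℝ, 1 ≤ a → a ≤ 16 → ∫ y in ball x (a * s), |(N y).toReal - Q| ≤
      ε / 4 ^ m * (a * s) ^ m ∧ Asl_214.MB W π x (a * s) ≤ A₀ * (a * s) ^ m ∧
      Asl_214.TB W π x (a * s) ≤ A₀ * (h₀ / (a * s)) ^ 2 * (a * s) ^ m := fun a ha ha' =>
    hcrs h (hδ.trans (min_le_left _ _)) (hh.trans (min_le_left _ _))
      (hE.trans (min_le_left _ _)) x hx (a * s) (by positivity) (hA0s.trans (by nlinarith))
      (by nlinarith)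
  have hTB : ∀ ρ : ℝ, Asl_214.TB W π x ρ = (eM W π).real (ball x ρ) := by
    intro ρ
    rw [hcf.eM_real measurableSet_ball]
    unfold Asl_214.TB
    rw [Crs_173.ovr_eq]
    rfl
  -- the number `h₀ / s`
  have hq : h₀ / s ≤ 1 / A := by
    rw [div_le_div_iff₀ hs (by linarith)]
    linarith
  have hq0 : 0 ≤ h₀ / s := by positivity
  obtain ⟨w1, w2, w3⟩ := hcr 16 (by norm_num) le_rfl
  have hset := Hol_746.setup_of_cylAS h.cyl h.δ0 hδ1 h.area
  have hT16 : ∫ p in (fun p : Euc k × L k => π p.1) ⁻¹' ball x (4 * (4 * s)), tl π p.2 ∂W ≤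
      ε * (4 * s) ^ m := by
    have e1 : (4:ℝ) * (4 * s) = 16 * s := by ring
    rw [e1]
    have h1 : ∫ p in (fun p : Euc k × L k => π p.1) ⁻¹' ball x (16 * s), tl π p.2 ∂W =
        Asl_214.TB W π x (16 * s) := by
      unfold Asl_214.TB
      rw [Crs_173.ovr_eq]
    rw [h1]
    refine w3.trans ?_
    have h2 : (h₀ / (16 * s)) ^ 2 ≤ 1 / A := by
      have e2 : h₀ / (16 * s) = (h₀ / s) / 16 := by field_simp
      have h5 : (h₀ / s) / 16 ≤ 1 := by
        have : 1 / A ≤ 1 := by rw [div_le_one (by linarith)]; exact hA1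
        linarith
      calc (h₀ / (16 * s)) ^ 2 = (h₀ / s / 16) * (h₀ / s / 16) := by rw [e2]; ring
        _ ≤ (h₀ / s / 16) * 1 := by gcongr
        _ ≤ 1 / A := by linarith
    calc A₀ * (h₀ / (16 * s)) ^ 2 * (16 * s) ^ m ≤ A₀ * (1 / A) * (16 * s) ^ m := by gcongr
      _ = (A₀ * 4 ^ m / A) * (4 * s) ^ m := by
          have e3 : (16 * s) ^ m = 4 ^ m * (4 * s) ^ m := by rw [← mul_pow]; ring_nf
          rw [e3]; field_simp
      _ ≤ ε * (4 * s) ^ m := by
          gcongr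
          rw [div_le_iff₀ (by linarith)]
          rw [div_le_iff₀ hε] at hAε
          linarith
  have hw := hwin k π W (ball 0 4) N δ (h₀ ^ 2) _ hset (by nlinarith [h.δ0, sq_nonneg h₀])
    x (4 * s) (by positivity) (by
      apply ball_subset_ball'
      rw [dist_zero_right]
      linarith) (by
      have h3 : δ * (m + h₀ ^ 2) * (4 * s) ≤ δ * (m + 1) * 1 := by
        have := h.δ0
        gcongr
        linarith
      linarith) (by
      rw [show 4 * (4 * s) = 16 * s by ring]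
      refine w1.trans (le_of_eq ?_)
      have e3 : (16 * s) ^ m = 4 ^ m * (4 * s) ^ m := by rw [← mul_pow]; ring_nf
      rw [e3]; field_simp) hT16
  obtain ⟨-, -, -, -, -, -, hT1, hT2⟩ := hw
  have hqe : (∫ p in (fun p : Euc k × L k => π p.1) ⁻¹' ball x (4 * s), tl π p.2 ^ 2 ∂W) =
      (qM W π).real (ball x (4 * s)) := by
    rw [CF.qM_real measurableSet_ball]; rfl
  have h42 : (4 * s) / 2 = 2 * s := by ring
  rw [hqe, h42] at hT1
  have hq0' : 0 ≤ (qM W π).real (ball x (4 * s)) := measureReal_nonneg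
  refine ⟨hT1.trans (by gcongr; linarith), fun φ h1 h2 h3 => ?_, ?_, ?_⟩
  · have h4 := hT2 φ h1 h2 (by rw [h42]; exact h3)
    rw [hqe] at h4
    exact h4
  · obtain ⟨-, m1, -⟩ := hcr 2 (by norm_num) (by norm_num)
    have e1 : W.real (ov π (ball x (2 * s))) = Asl_214.MB W π x (2 * s) := by
      unfold Asl_214.MB
      rw [Crs_173.ovr_eq]
      rfl
    rw [e1]
    refine m1.trans ?_
    rw [mul_pow, ← mul_assoc]
    gcongr
    exact le_trans (by gcongr) hAA
  · obtain ⟨-, -, m1⟩ := hcr 8 (by norm_num) (by norm_num)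
    rw [hTB] at m1
    refine m1.trans ?_
    have e2 : (h₀ / (8 * s)) ^ 2 ≤ (h₀ / s) ^ 2 := by
      apply pow_le_pow_left₀ (by positivity)
      apply div_le_div_of_nonneg_left hh0 hs
      linarith
    calc A₀ * (h₀ / (8 * s)) ^ 2 * (8 * s) ^ m ≤ A₀ * (h₀ / s) ^ 2 * (8 * s) ^ m := by gcongr
      _ = A₀ * 8 ^ m * (h₀ / s) ^ 2 * s ^ m := by rw [mul_pow]; ring
      _ ≤ _ := by gcongr

theorem CF.qM_real_le {m n k : ℕ} {W : Measure (Euc k × L k)} {π : Euc k →L[ℝ] Euc m}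
    {κ : Euc k →L[ℝ] Euc n} {x₀ : Euc m} {R : ℝ} (h : CF W π κ x₀ R) {A : Set (Euc m)}
    (hA : MeasurableSet A) : (qM W π).real A ≤ m * (eM W π).real A := by
  have hfW : IsFiniteMeasure W := ⟨h.fin⟩
  rw [CF.qM_real hA, h.eM_real hA, ← integral_const_mul]
  have hm : AEStronglyMeasurable (fun p : Euc k × L k => tl π p.2) W :=
    ((continuous_tl π).comp continuous_snd).aestronglyMeasurable
  have i1 : Integrable (fun p : Euc k × L k => tl π p.2) W := by
    refine Integrable.of_bound hm m ?_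
    filter_upwards [Jh_bounds h] with p hp
    rw [Real.norm_eq_abs, abs_of_nonneg hp.2.2.1]
    exact hp.2.2.2.1
  have i2 : Integrable (fun p : Euc k × L k => tl π p.2 ^ 2) W := by
    refine Integrable.of_bound (hm.pow 2) ((m:ℝ) ^ 2) ?_
    filter_upwards [Jh_bounds h] with p hp
    rw [Real.norm_eq_abs, abs_of_nonneg (sq_nonneg _)]
    exact pow_le_pow_left₀ hp.2.2.1 hp.2.2.2.1 2
  refine integral_mono_ae i2.integrableOn (i1.const_mul _).integrableOn ?_
  refine ae_restrict_of_ae ?_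
  filter_upwards [Jh_bounds h] with p hp
  have h1 := hp.2.2.1
  have h2 := hp.2.2.2.1
  show tl π p.2 ^ 2 ≤ m * tl π p.2
  rw [pow_two]
  exact mul_le_mul_of_nonneg_right h2 h1

/-- **561's `N5K` for the class of the core**, unconditional. -/
theorem n5K_cls {m d : ℕ} (hd : d + 2 = m) (n Q : ℕ) {cP : ℝ} (hcP : 0 < cP) {ω : ℝ}
    (hω : 0 < ω) :
    ∃ θ > 0, ∀ K : ℝ, ∃ η > 0, ∃ A ≥ 1, ∃ c > 0, c ≤ 1 ∧
      ∀ {k : ℕ} {π : Euc k →L[ℝ] Euc m} {κ : Euc k →L[ℝ] Euc n} {U : Set (Euc k)}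
        {Dd : VarifoldData m k} {δ D : ℝ} {g g1 g2 : ℝ → ℝ} {lmin lmax : ℝ} {gm : ℝ → ℝ},
        Cls Q δ D π κ U Dd → 0 ≤ δ → δ ≤ c → D ≤ c → Prof g g1 g2 →
        (∀ t, 0 ≤ t → t ≤ 1 / 4 → cP ≤ -g1 t) → A * √D ≤ Real.exp lmin → Real.exp lmax ≤ c →
        (∀ l, lmin ≤ l → l ≤ lmax → δ * D * Real.exp l ^ 2 ≤ η * gm l) →
        Thin_561.N5K (part π κ Dd) π g1 Q d (closedBall 0 3) lmin lmax gm ω θ K η := by
  have hm1 : 1 ≤ m := by omega
  have hm2 : 2 ≤ m := by omega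
  obtain ⟨A₁, C₁, c₁, hA₁, hC₁, hc₁, hc₁', hT1⟩ := t1_in m Q (Ins_387.C0_nonneg m Q)
  obtain ⟨θ, hθ, hloc⟩ := local_class hd (holeC (k := m + n) hm2 (Hol_746.CU0_pos m Q)
    (Hol_746.cL0_pos m)) hcP hC₁ (CM := A₁) (by linarith) hω
  refine ⟨θ, hθ, ?_⟩
  intro K
  obtain ⟨η, hη, lam, hlam, hloc⟩ := hloc K
  have hm0 : (0:ℝ) ≤ m := Nat.cast_nonneg m
  set A : ℝ := A₁ + A₁ * (C₁ * m + 1) / (ω * lam) with hA
  have hAA : A₁ ≤ A := by
    rw [hA]; have : 0 ≤ A₁ * (C₁ * m + 1) / (ω * lam) := by positivity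
    linarith
  have hA1 : 1 ≤ A := hA₁.trans hAA
  have hAω : A₁ * (C₁ * m + 1) / (ω * lam) ≤ A := by rw [hA]; linarith
  refine ⟨η, hη, A, hA1, min c₁ (min η (1 / 64)), by positivity, (min_le_left _ _).trans hc₁', ?_⟩
  intro k π κ U Dd δ D g g1 g2 lmin lmax gm hcls hδ0 hδ hD hg hc hlmin hlmax hgm
  obtain rfl : k = m + n := dim_split hcls.sp
  have hD1 : D ≤ 1 / 64 := hD.trans ((min_le_right _ _).trans (min_le_right _ _))
  obtain ⟨S⟩ := exists_sheets_VD hcls.int π
  have hin := Ins_387.in_of_cls hcls hm1 (by linarith) hδ0 S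
  have hδη : δ ≤ η := hδ.trans ((min_le_right _ _).trans (min_le_left _ _))
  have hsit := Hol_746.hsit_of_cls hm1 hcls hδ0
    (hδ.trans ((min_le_left _ _).trans hc₁')) (by linarith)
  have hD0 : 0 ≤ D := by
    refine le_trans (integral_nonneg_of_ae ?_) hcls.en
    filter_upwards [Jh_bounds (cf_of_cylAS hin.cyl)] with p hp using hp.2.2.1
  have hsq : √D ^ 2 = D := Real.sq_sqrt hD0
  have hcf := cf_of_cylAS hin.cyl
  intro x hx l hl1 hl2 y v hfat hy hv G hG he hr0 hrv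
  set s := Real.exp l with hs
  have hs0 : 0 < s := Real.exp_pos l
  have hsmin : A * √D ≤ s := hlmin.trans (Real.exp_le_exp.2 hl1)
  have hs1 : s ≤ 1 / 64 := (Real.exp_le_exp.2 hl2).trans
    (hlmax.trans ((min_le_right _ _).trans (min_le_right _ _)))
  have hsD := Real.sqrt_nonneg D
  obtain ⟨t1, t2, t3, t4⟩ := hT1 hin (hδ.trans (min_le_left _ _))
    (by rw [hsq]; exact hD.trans (min_le_left _ _))
    (hcls.en.trans (hD.trans (min_le_left _ _))) x hx s hs0
    (le_trans (by gcongr) hsmin) hs1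
  have hx3 : ‖x‖ ≤ 3 := by simpa using hx
  have hG0 : 0 ≤ G := by
    have h1 := (hcf.RR_nonneg hg (l + 3)).trans hr0
    by_contra h2
    push Not at h2
    have := mul_neg_of_pos_of_neg hη h2
    linarith
  have hsd : 0 < s ^ d := by positivity
  have hsm : s ^ m = s ^ d * s ^ 2 := by rw [← pow_add, hd]
  rcases le_or_gt G (lam * s ^ 2) with hGl | hGl
  · -- the main case
    have h8 : (eM (part π κ Dd) π).real (ball x (8 * s)) ≤ G * s ^ d :=
      real_le_of_le_ofReal (by positivity) ((measure_mono ball_subset_closedBall).trans he)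
    have h1 := hloc (N := S.N (Cy_870.cyl π κ 0 4 1)) (Q := Q) hsit hδη hin.area hg hc
      (by rw [← hs]; linarith) (by
        rw [← hs]
        have : 1 * √D ≤ A * √D := by gcongr
        linarith) (by rw [← hs, sub_zero]; linarith) t3 hfat hy hv hr0 hrv h8 (by
        rw [hsq]
        exact (hgm l hl1 hl2).trans (by gcongr)) hGl t1
    exact ⟨h1.1, h1.2.2⟩
  · -- the trivial case
    have hq : √D / s ≤ 1 / A := by
      rw [div_le_div_iff₀ hs0 (by linarith)]
      linarith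
    have hq0 : 0 ≤ √D / s := by positivity
    have hq2 : (√D / s) ^ 2 ≤ 1 / A := by
      have h5 : √D / s ≤ 1 := by
        have : 1 / A ≤ 1 := by rw [div_le_one (by linarith)]; exact hA1
        linarith
      calc (√D / s) ^ 2 = (√D / s) * (√D / s) := by ring
        _ ≤ (√D / s) * 1 := by gcongr
        _ ≤ 1 / A := by linarith
    have hmain : (C₁ * m + 1) * (A₁ * (√D / s) ^ 2 * s ^ m) ≤ ω * G * s ^ d := by
      have h5 : (C₁ * m + 1) * (A₁ * (1 / A)) ≤ ω * lam := by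
        have h6 := hAω
        rw [div_le_iff₀ (by positivity)] at h6
        rw [mul_one_div, ← mul_div_assoc, div_le_iff₀ (by linarith)]
        linarith
      calc (C₁ * m + 1) * (A₁ * (√D / s) ^ 2 * s ^ m) ≤
            (C₁ * m + 1) * (A₁ * (1 / A) * s ^ m) := by gcongr
        _ = ((C₁ * m + 1) * (A₁ * (1 / A))) * (s ^ d * s ^ 2) := by rw [hsm]; ring
        _ ≤ (ω * lam) * (s ^ d * s ^ 2) := by gcongr
        _ = ω * (lam * s ^ 2) * s ^ d := by ring
        _ ≤ ω * G * s ^ d := by gcongr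
    have he8 : (eM (part π κ Dd) π).real (ball x (8 * s)) ≤ ω * G * s ^ d := by
      refine t4.trans (le_trans ?_ hmain)
      have h5 : 0 ≤ C₁ * m := by positivity
      have h6 : 0 ≤ A₁ * (√D / s) ^ 2 * s ^ m := by positivity
      nlinarith
    refine ⟨fun φ h1 h2 h3 => ?_, finrank_fat hfat, fun N hN _ => ?_⟩
    · refine (t2 φ h1 h2 h3).trans ?_
      have h4 : (qM (part π κ Dd) π).real (ball x (4 * s)) ≤
          m * (A₁ * (√D / s) ^ 2 * s ^ m) := by
        refine (hcf.qM_real_le measurableSet_ball).trans ?_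
        have h5 : (eM (part π κ Dd) π).real (ball x (4 * s)) ≤
            (eM (part π κ Dd) π).real (ball x (8 * s)) :=
          measureReal_mono (ball_subset_ball (by linarith)) (hcf.eM_lt measurableSet_ball).ne
        exact mul_le_mul_of_nonneg_left (h5.trans t4) hm0
      have h5 := mul_le_mul_of_nonneg_left h4 hC₁
      have h6 : 0 ≤ A₁ * (√D / s) ^ 2 * s ^ m := by positivity
      nlinarith
    · have h1 : N ⊆ ball x (8 * s) := hN.trans (closedBall_subset_ball (by linarith))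
      refine (measure_mono h1).trans ?_
      exact le_ofReal_of_real (hcf.eM_lt measurableSet_ball).ne he8

end Crest.Agent.R234.N5_372
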