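import Crest.Agent.R234.Well8_761
import Crest.Agent.R234.Sml4_870
import Crest.Agent.R234.Wi5_870
import Crest.Agent.R234.We11_822
import Crest.Agent.R234.Wfl1_214
import Crest.Agent.R234.Core4_809
import Crest.Agent.R234.Rep1_387
import Crest.Agent.R234.We12_822
import Crest.Agent.R234.Ins1_387
import Crest.Agent.R234.Crs6_173
import Crest.Agent.R234.Core5_809
import Crest.Agent.R234.Par2_504

-- ▼ part R234/Rn0_870
section

/-!
# Row 234, N9-AV, part 0 (helper870): 761's THEOREM RUN with the integrated drift as hypothesis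

`run2`, `hrun2` = helper761's `run` (Well6) and `hrun` (Well8) where the pointwise drift bound
`DriftAt` at the contact centre is replaced by the integrated bound which is used in the proof
(in the class AS the pointwise bound needs an additional term).
-/

set_option autoImplicit false
set_option linter.unusedSectionVars false

open Set Filter Topology MeasureTheory Metric Module
open scoped ContDiff InnerProductSpace ENNReal

noncomputable section

namespace Crest.Agent.R234.Rn_870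

open Crest.Agent.R234.Well_761

section run

variable {H : Type*} [PseudoMetricSpace H] [MeasurableSpace H] [OpensMeasurableSpace H]
variable {W : Type*} [NormedAddCommGroup W] [InnerProductSpace ℝ W] [MeasurableSpace W]
  [BorelSpace W]
variable {m : ℕ} {κ : ℝ → ℝ} {Kκ cκ : ℝ} {mu en : Measure (H × W)}
  {R : H → ℝ → ℝ} {er : H → ℝ → ℝ → ℝ} {K : ℝ} {x₀ : H} {ρ₀ : ℝ}

/-- **THEOREM RUN**, with the integrated drift as hypothesis. -/
theorem run2 (hfl : Flow m κ mu en R er K x₀ ρ₀) (hκ : Ker κ Kκ cκ)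
    {erw : H → ℝ → ℝ → ℝ} {θ₁ θw : ℝ} (hwf : WFlow m κ mu en erw K θ₁ x₀ ρ₀)
    {T : Set (H × W)} {Cμ c0 : ℝ} (hg : Geo m mu T c0 x₀ ρ₀)
    {n : ℕ} (hn1 : 1 ≤ n) (hn : 2 ^ m * Cμ / c0 ≤ n)
    {x : H} {lmin lmax : ℝ} {N : ℝ → (W → ℝ) → ℝ} {C₅ : ℝ}
    (hN : Centre m κ mu x lmin lmax N C₅)
    (τ r lam : ℕ → ℝ) (xs : ℕ → H) {θ : ℝ}
    (hr0 : ∀ i ≤ n, 0 < r i) (hr : ∀ i < n, 2 * r i ≤ r (i + 1))
    (hdist : ∀ i ≤ n, dist x (xs i) ≤ Real.exp (τ i) / 16)
    (hlmin : ∀ i ≤ n, lmin ≤ τ i - Real.log 4) (hlmax : ∀ i ≤ n, τ i ≤ lmax)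
    (hgood : ∀ i ≤ n, ∀ q, r i ≤ q →
      Good m mu en er Cμ x₀ ρ₀ (xs i) (Real.log (r i / 16)) (τ i + Real.log 4) (lam i) θ q)
    (hθw : 0 ≤ θw)
    (herw : ∀ i < n, ∀ l ∈ Icc (Real.log (r i / 16)) (τ i + Real.log 4),
      erw (xs i) l (r (i + 1) / 2) ≤ θw * (r (i + 1) / 2) ^ 2)
    (hθ₁ : ∀ i ≤ n, θ₁ * (τ i + Real.log 4 - Real.log (r i / 16)) ≤ 1)
    (hrs : ∀ i ≤ n, r i ≤ 4 * Real.exp (τ i))
    (hlam : ∀ i ≤ n, 0 ≤ lam i) (hθ : 0 ≤ θ)
    (h1 : ∀ i ≤ n, 8 * K * lam i * Real.exp (2 * τ i) ≤ b1 m cκ c0 / (16 * C₅ ^ 2) * r i ^ 2)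
    (h2 : ∀ i ≤ n, (K * lam i + θ) * (τ i + Real.log 4 - Real.log (r i / 16)) ≤
      b1 m cκ c0 / (16 * C₅ ^ 2))
    (hne : ∀ i ≤ n, (Ht T (xs i) (r i / 16)).Nonempty)
    (_hτ : ∀ i < n, τ i ≤ τ (i + 1))
    (hdr : ∀ i < n, ∀ p : W, N (τ (i + 1) + Real.log 4) (bump p (r (i + 1))) -
      N (τ i - Real.log 4) (bump p (r (i + 1))) ≤ b1 m cκ c0 / (4 * C₅) * r (i + 1) ^ 2) :
    ∃ i < n, ∃ C : Finset W, (C : Set W) ⊆ Ht T (xs i) (r i / 16) ∧ C.Nonempty ∧ C.card ≤ n ∧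
      Well_761.Sep C (r (i + 1) / 2) ∧
      (∀ l ∈ Icc (τ i - Real.log 4) (τ i), N l (wells C (r (i + 1) / 2)) ≤
        C₅ * (3 * ((Kκ * Cμ / 2 + b1 m cκ c0 / 16) * r i ^ 2 +
          (K * lam i + θw) * (τ i + Real.log 4 - Real.log (r i / 16)) *
            (r (i + 1) / 2) ^ 2))) := by
  have hb1 : 0 < b1 m cκ c0 := by
    unfold b1
    have := hκ.cpos
    have := hg.cpos
    positivity
  have hC₅ : 0 < C₅ := lt_of_lt_of_le one_pos hN.C1
  have hlog4 : 0 < Real.log 4 := Real.log_pos (by norm_num)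
  have hexp4 : Real.exp (Real.log 4) = 4 := Real.exp_log (by norm_num)
  have hmono : ∀ i < n, r i ≤ r (i + 1) := fun i hi => by
    have := hr i hi
    have := hr0 i hi.le
    linarith
  -- one-sided closeness
  have hclose : ∀ i < n, ∀ p' ∈ Ht T (xs (i + 1)) (r (i + 1) / 16),
      ∃ p ∈ Ht T (xs i) (r i / 16), dist p p' ≤ r (i + 1) / 4 := by
    intro i hi p' hp'
    set q := r (i + 1) with hqdef
    have hq : 0 < q := hr0 (i + 1) hi
    have hi1 : i + 1 ≤ n := hi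
    -- mass at the next good centre
    have g1 := hgood (i + 1) hi1 q le_rfl
    have hD0 : 0 < r (i + 1) / 16 := by positivity
    have hlogD : Real.log (r (i + 1) / 16) ≤ Real.log (4 * (r (i + 1) / 16)) :=
      Real.log_le_log hD0 (by linarith)
    have hlogD2 : Real.log (4 * (r (i + 1) / 16)) ≤ τ (i + 1) := by
      rw [Real.log_le_iff_le_exp (by positivity)]
      have := hrs (i + 1) hi1
      linarith
    have g2 : Good m mu en er Cμ x₀ ρ₀ (xs (i + 1)) (Real.log (4 * (r (i + 1) / 16))) (τ (i + 1))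
        (lam (i + 1)) θ q := g1.mono hlogD (by linarith) hlogD2
    have e1 := heights_mass hfl hκ hg hD0 (by rw [hqdef]) g2 hp'
    have e2 : K * lam (i + 1) * (Real.exp (2 * τ (i + 1)) / 2) ≤
        b1 m cκ c0 / (16 * C₅ ^ 2) * q ^ 2 := by
      have := h1 (i + 1) hi1
      have h0 : 0 ≤ K * lam (i + 1) * Real.exp (2 * τ (i + 1)) := by
        have := hfl.K0
        have := hlam (i + 1) hi1
        positivity
      linarith
    have e3 : (K * lam (i + 1) + θ) * (τ (i + 1) - Real.log (4 * (r (i + 1) / 16))) * q ^ 2 ≤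
        b1 m cκ c0 / (16 * C₅ ^ 2) * q ^ 2 := by
      refine mul_le_mul_of_nonneg_right (le_trans ?_ (h2 (i + 1) hi1)) (sq_nonneg q)
      refine mul_le_mul_of_nonneg_left (by linarith) ?_
      have := hfl.K0
      have := hlam (i + 1) hi1
      positivity
    have hbC : b1 m cκ c0 / (16 * C₅ ^ 2) ≤ b1 m cκ c0 / 16 := by
      refine div_le_div_of_nonneg_left hb1.le (by norm_num) ?_
      nlinarith [hN.C1]
    have e4 : b1 m cκ c0 / 2 * q ^ 2 ≤ nu m κ mu (xs (i + 1)) (τ (i + 1)) (bump p' q) := by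
      have e5 : q ^ 2 * (3 / 512) * cκ * (c0 / 4 ^ m) = b1 m cκ c0 * q ^ 2 := by
        unfold b1; ring
      rw [e5] at e1
      have e6 : b1 m cκ c0 / (16 * C₅ ^ 2) * q ^ 2 ≤ b1 m cκ c0 / 16 * q ^ 2 :=
        mul_le_mul_of_nonneg_right hbC (sq_nonneg q)
      have e7 : 0 ≤ b1 m cκ c0 * q ^ 2 := by positivity
      linarith
    -- to the contact centre
    have e8 := hN.nu_le (xs (i + 1)) (τ (i + 1)) (bump p' q) (q ^ 2 / 32)
      (by have := hlmin (i + 1) hi1; linarith) (hlmax (i + 1) hi1)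
      (by have := hdist (i + 1) hi1; have := Real.exp_pos (τ (i + 1)); linarith)
      (test_bump p' hq).meas (bump_nonneg p' q) (bump_le p' q)
    -- drift
    have e9 : N (τ (i + 1) + Real.log 4) (bump p' q) - N (τ i - Real.log 4) (bump p' q) ≤
        b1 m cκ c0 / (4 * C₅) * q ^ 2 := hdr i hi p'
    have e11 : b1 m cκ c0 / (2 * C₅) * q ^ 2 ≤ N (τ (i + 1) + Real.log 4) (bump p' q) := by
      have e12 := e4.trans e8
      have : b1 m cκ c0 / (2 * C₅) * q ^ 2 = b1 m cκ c0 / 2 * q ^ 2 / C₅ := by field_simp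
      rw [this, div_le_iff₀ hC₅]
      linarith
    have e13 : b1 m cκ c0 / (4 * C₅) * q ^ 2 ≤ N (τ i - Real.log 4) (bump p' q) := by
      have e14 : b1 m cκ c0 / (2 * C₅) * q ^ 2 = 2 * (b1 m cκ c0 / (4 * C₅) * q ^ 2) := by
        field_simp; ring
      linarith
    -- to the good centre of scale `i`
    have e16 := hN.le_nu (xs i) (τ i - Real.log 4) (bump p' q) (q ^ 2 / 32)
      (hlmin i hi.le) (by have := hlmax i hi.le; linarith)
      (by
        rw [Real.exp_sub, hexp4]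
        have := hdist i hi.le
        linarith)
      (test_bump p' hq).meas (bump_nonneg p' q) (bump_le p' q)
    rw [sub_add_cancel] at e16
    have e17 : b1 m cκ c0 / (4 * C₅ ^ 2) * q ^ 2 ≤ nu m κ mu (xs i) (τ i) (bump p' q) := by
      have e18 := e13.trans e16
      have : b1 m cκ c0 / (4 * C₅ ^ 2) * q ^ 2 = b1 m cκ c0 / (4 * C₅) * q ^ 2 / C₅ := by
        field_simp
      rw [this, div_le_iff₀ hC₅]
      linarith
    have hi0 := hi.le
    have hDi : 0 < r i / 16 := by have := hr0 i hi0; positivity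
    have g3 := hgood i hi0 q (hmono i hi)
    have hlogD3 : Real.log (r i / 16) ≤ τ i := by
      rw [Real.log_le_iff_le_exp hDi]
      have := hrs i hi0
      have := hr0 i hi0
      linarith
    have g4 : Good m mu en er Cμ x₀ ρ₀ (xs i) (Real.log (r i / 16)) (τ i) (lam i) θ q :=
      g3.mono le_rfl (by linarith) hlogD3
    refine mass_heights hfl hκ hg hDi hq g4 (lt_of_lt_of_le ?_ e17)
    have e19 : K * lam i * (Real.exp (2 * τ i) / 2) ≤ b1 m cκ c0 / (16 * C₅ ^ 2) * q ^ 2 := by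
      have h5 := h1 i hi0
      have h0 : 0 ≤ K * lam i * Real.exp (2 * τ i) := by
        have := hfl.K0
        have := hlam i hi0
        positivity
      have h6 : b1 m cκ c0 / (16 * C₅ ^ 2) * r i ^ 2 ≤ b1 m cκ c0 / (16 * C₅ ^ 2) * q ^ 2 := by
        refine mul_le_mul_of_nonneg_left ?_ (by positivity)
        exact pow_le_pow_left₀ (hr0 i hi0).le (hmono i hi) 2
      linarith
    have e20 : (K * lam i + θ) * (τ i - Real.log (r i / 16)) * q ^ 2 ≤
        b1 m cκ c0 / (16 * C₅ ^ 2) * q ^ 2 := by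
      refine mul_le_mul_of_nonneg_right (le_trans ?_ (h2 i hi0)) (sq_nonneg q)
      refine mul_le_mul_of_nonneg_left (by linarith) ?_
      have := hfl.K0
      have := hlam i hi0
      positivity
    have e21 : b1 m cκ c0 / (4 * C₅ ^ 2) * q ^ 2 =
        4 * (b1 m cκ c0 / (16 * C₅ ^ 2) * q ^ 2) := by field_simp; ring
    have e22 : 0 < b1 m cκ c0 / (16 * C₅ ^ 2) * q ^ 2 := by positivity
    linarith
  -- the metric lemma
  obtain ⟨i, hi, C, hC1, hC2, hC3, hC4, hC5⟩ := exists_run (N := n)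
    (fun i => Ht T (xs i) (r i / 16)) r (fun i => r i / 4) hne hn1 (hr0 0 (Nat.zero_le _))
    (by
      intro i hi k hk
      have hri := hr0 i hi
      have h7 := card_heights hg (D := r i / 16) (r := r i) (by positivity) (by linarith)
        (hgood i hi (r i) le_rfl) (by
          rw [Real.exp_add, hexp4]
          have := hrs i hi
          linarith) hk
      exact_mod_cast h7.trans hn)
    hclose
    (by
      intro i hi
      have := hr i hi
      linarith)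
  have hq : 0 < r (i + 1) / 2 := by
    have := hr0 (i + 1) hi
    positivity
  have hsep : Well_761.Sep C (r (i + 1) / 2) := by
    intro c hc c' hc' hne'
    have := hC5 c hc c' hc' hne'
    linarith
  refine ⟨i, hi, C, hC1, hC2, hC3, hsep, fun l hl => ?_⟩
  have hi0 := hi.le
  have hri := hr0 i hi0
  have hDi : 0 < r i / 16 := by positivity
  have g3 := hgood i hi0 (r (i + 1) / 2) (by have := hr i hi; linarith)
  have e1 := hN.le_nu (xs i) l (wells C (r (i + 1) / 2)) ((r (i + 1) / 2) ^ 2)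
    ((hlmin i hi0).trans hl.1) (hl.2.trans (hlmax i hi0))
    (by
      have h5 := hdist i hi0
      have h6 := Real.exp_le_exp.2 hl.1
      rw [Real.exp_sub, hexp4] at h6
      linarith)
    (test_wells hq hsep).meas (wells_nonneg hq hsep)
    (fun y => (le_abs_self _).trans ((test_wells hq hsep).bF y))
  have hlogD3 : Real.log (r i / 16) ≤ l + Real.log 4 := by
    rw [Real.log_le_iff_le_exp hDi, Real.exp_add, hexp4]
    have h6 := Real.exp_le_exp.2 hl.1
    rw [Real.exp_sub, hexp4] at h6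
    have := hrs i hi0
    linarith
  have g4 : Good m mu en er Cμ x₀ ρ₀ (xs i) (Real.log (r i / 16)) (l + Real.log 4) (lam i) θ
      (r (i + 1) / 2) := g3.mono le_rfl (by linarith [hl.2]) hlogD3
  have e2 := wells_small hwf hκ hg hDi hq g4 (hlam i hi0) hθw
    (fun l' hl' => herw i hi l' ⟨hl'.1, by linarith [hl'.2, hl.2]⟩) hsep (r := r i)
    (fun y hy => by
      obtain ⟨c, hc, hd⟩ := hC4 y hy
      exact ⟨c, hc, hd.le⟩)
  have hKl : 0 ≤ K * lam i := mul_nonneg hfl.K0 (hlam i hi0)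
  have e3 : K * lam i * (Real.exp (2 * (l + Real.log 4)) / 2) ≤ b1 m cκ c0 / 16 * r i ^ 2 := by
    have h5 : Real.exp (2 * (l + Real.log 4)) ≤ 16 * Real.exp (2 * τ i) := by
      have : 2 * (l + Real.log 4) = 2 * l + (Real.log 4 + Real.log 4) := by ring
      rw [this, Real.exp_add, Real.exp_add, hexp4]
      have := Real.exp_le_exp.2 (show 2 * l ≤ 2 * τ i by linarith [hl.2])
      linarith
    have h6 : K * lam i * (Real.exp (2 * (l + Real.log 4)) / 2) ≤
        K * lam i * (16 * Real.exp (2 * τ i) / 2) :=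
      mul_le_mul_of_nonneg_left (by linarith) hKl
    have h7 := h1 i hi0
    have hbC : b1 m cκ c0 / (16 * C₅ ^ 2) ≤ b1 m cκ c0 / 16 := by
      refine div_le_div_of_nonneg_left hb1.le (by norm_num) ?_
      nlinarith [hN.C1]
    have h8 : b1 m cκ c0 / (16 * C₅ ^ 2) * r i ^ 2 ≤ b1 m cκ c0 / 16 * r i ^ 2 :=
      mul_le_mul_of_nonneg_right hbC (sq_nonneg _)
    linarith
  have e4 : (K * lam i + θw) * (l + Real.log 4 - Real.log (r i / 16)) * (r (i + 1) / 2) ^ 2 ≤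
      (K * lam i + θw) * (τ i + Real.log 4 - Real.log (r i / 16)) * (r (i + 1) / 2) ^ 2 := by
    refine mul_le_mul_of_nonneg_right (mul_le_mul_of_nonneg_left (by linarith [hl.2]) ?_)
      (sq_nonneg _)
    linarith
  refine e1.trans (mul_le_mul_of_nonneg_left ?_ hC₅.le)
  have e5 : Real.exp (θ₁ * (l + Real.log 4 - Real.log (r i / 16))) ≤ 3 := by
    have h6 : θ₁ * (l + Real.log 4 - Real.log (r i / 16)) ≤ 1 :=
      (mul_le_mul_of_nonneg_left (by linarith [hl.2]) hwf.θ0).trans (hθ₁ i hi0)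
    have h7 := Real.exp_le_exp.2 h6
    have h8 := Real.exp_one_lt_d9
    linarith
  have e6 : 0 ≤ r i ^ 2 / 2 * Kκ * Cμ + K * lam i * (Real.exp (2 * (l + Real.log 4)) / 2) +
      (K * lam i + θw) * (l + Real.log 4 - Real.log (r i / 16)) * (r (i + 1) / 2) ^ 2 := by
    have h6 := hκ.Kpos
    have h7 := g4.Cpos
    have h8 : 0 ≤ l + Real.log 4 - Real.log (r i / 16) := by linarith
    positivity
  refine e2.trans ((mul_le_mul_of_nonneg_right e5 e6).trans ?_)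
  linarith

end run

section hrun

variable {H : Type*} [NormedAddCommGroup H] [NormedSpace ℝ H] [FiniteDimensional ℝ H]
  [MeasurableSpace H] [BorelSpace H]
variable {W : Type*} [NormedAddCommGroup W] [InnerProductSpace ℝ W] [MeasurableSpace W]
  [BorelSpace W]
variable {m : ℕ} {κ : ℝ → ℝ} {Kκ cκ : ℝ} {mu en : Measure (H × W)}
  {R : H → ℝ → ℝ} {er : H → ℝ → ℝ → ℝ} {K : ℝ} {x₀ : H} {ρ₀ : ℝ}

set_option maxHeartbeats 2000000 in
/-- **THEOREM RUN**, in the form of `Core1_809.pt_false`; integrated drift. -/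
theorem hrun2 (hm : finrank ℝ H = m) (hfl : Flow m κ mu en R er K x₀ ρ₀)
    {erw : H → ℝ → ℝ → ℝ} {θ₁ θw : ℝ} (hwf : WFlow m κ mu en erw K θ₁ x₀ ρ₀) (hκ : Ker κ Kκ cκ)
    {S : Set (H × W)} {Cμ c0 : ℝ} (hCμ : 0 ≤ Cμ) (hg : Geo m mu S c0 x₀ ρ₀)
    {n : ℕ} (hn1 : 1 ≤ n) (hn : 2 ^ m * Cμ / c0 ≤ n)
    {x : H} {lmin lmax : ℝ} {N : ℝ → (W → ℝ) → ℝ} {C₅ : ℝ}
    (hN : Centre m κ mu x lmin lmax N C₅)
    {L0 a0 T M A θ Ce c1 Lg : ℝ} {U e : ℝ → ℝ}
    (hlmin : lmin ≤ L0 + a0 - Real.log 4) (hlmax : L0 + T ≤ lmax)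
    (hdom : dist x x₀ + 17 * Real.exp (L0 + T) ≤ ρ₀)
    (hfin : en (cyl x (17 * Real.exp (L0 + T)) univ) ≠ ⊤)
    (hM : 0 < M) (hCe : 0 ≤ Ce) (hθ : 0 ≤ θ)
    -- the energy `e`
    (he : ∀ t ∈ Icc a0 T, (en (cyl x (17 * Real.exp (L0 + t)) univ)).toReal ≤
      Ce * Real.exp (m * (L0 + t)) * Real.exp (-(2 * (L0 + t))) * e (t + 3))
    -- `U`
    (hUa : 0 < U a0) (hUm : ∀ a b, a0 ≤ a → a ≤ b → b ≤ T → U a ≤ U b)
    -- the errors
    (her : ∀ x' l q, dist x x' ≤ Real.exp (L0 + T) → Real.exp l ≤ 4 * Real.exp (L0 + T) →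
      M * √(U a0) ≤ q → M * √(U a0) ≤ 16 * Real.exp l →
      (en (cyl x' (Real.exp l) univ)).toReal ≤ Real.exp (m * l) →
      (en (cyl x' (Real.exp l) univ)).toReal * Real.exp (2 * l) ≤ q ^ 2 * Real.exp (m * l) →
      mu (cyl x' (Real.exp l) univ) ≤ ENNReal.ofReal (Cμ * Real.exp (m * l)) →
      er x' l q ≤ θ * q ^ 2)
    (herw : ∀ x' l q, dist x x' ≤ Real.exp (L0 + T) → Real.exp l ≤ 4 * Real.exp (L0 + T) →
      M * √(U a0) ≤ q → M * √(U a0) ≤ 16 * Real.exp l →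
      (en (cyl x' (Real.exp l) univ)).toReal ≤ Real.exp (m * l) →
      (en (cyl x' (Real.exp l) univ)).toReal * Real.exp (2 * l) ≤ q ^ 2 * Real.exp (m * l) →
      mu (cyl x' (Real.exp l) univ) ≤ ENNReal.ofReal (Cμ * Real.exp (m * l)) →
      erw x' l q ≤ θw * q ^ 2)
    -- mass at good centres
    (hms : ∀ x' l0 l1 lam, dist x x' ≤ Real.exp l1 / 64 → L0 + a0 + Real.log 4 ≤ l1 →
      l1 ≤ L0 + T + Real.log 4 → l0 ≤ l1 → M * √(U a0) ≤ 16 * Real.exp l0 →
      l1 + Real.log 4 - l0 ≤ 3 * Lg → 0 ≤ lam → lam ≤ 1 →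
      (∀ l ∈ Icc l0 (l1 + Real.log 4),
        (en (cyl x' (Real.exp l) univ)).toReal ≤ lam * Real.exp (m * l)) →
      lam * (l1 + Real.log 4 - l0) ≤ 1 →
      ∀ l ∈ Icc l0 l1, mu (cyl x' (Real.exp l) univ) ≤ ENNReal.ofReal (Cμ * Real.exp (m * l)))
    (hdr : ∀ τ₁ τ₂ q, a0 ≤ τ₁ → 1 ≤ τ₁ → 16 * τ₁ ≤ τ₂ → τ₂ ≤ T → 0 < q →
      q ^ 2 = M ^ 2 * (U τ₂ * τ₂) → A * e (τ₂ + 3) ≤ M ^ 2 * (U τ₂ * τ₂) → ∀ p : W,
      N (L0 + τ₂ + Real.log 4) (bump p q) - N (L0 + τ₁ - Real.log 4) (bump p q) ≤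
        b1 m cκ c0 / (4 * C₅) * q ^ 2)
    -- mass at the contact centre
    (hmass : ∀ t ∈ Icc a0 T, c1 ≤ N (L0 + t) (fun _ => (1 : ℝ)))
    (hb1 : b1 m cκ c0 / (8 * C₅) < c1)
    -- the window
    (hLg1 : 1 ≤ Lg) (hLg : Real.log (64 * Real.exp (L0 + T) / (M * √(U a0))) ≤ Lg)
    (hw1 : M ^ 2 * (U T * T) * Lg ≤ Real.exp (2 * (L0 + a0)))
    (hθw : 0 ≤ θw) (hw2 : θw * Lg * (U T * T) ≤ U a0) (hw5 : θ₁ * Lg ≤ 1) (hw3 : θ * Lg ≤ b1 m cκ c0 / (32 * C₅ ^ 2))
    -- the constants `A`, `M`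
    (hA0 : 0 < A) (hA1 : 16 * (2 * 80 ^ m * Ce * K) / A ≤ b1 m cκ c0 / (32 * C₅ ^ 2))
    (hA2 : 32 * 80 ^ m * Ce ≤ A) (hA3 : 2 * 80 ^ m * Ce * K ≤ A) :
    ∀ τ : ℕ → ℝ, (∀ i ≤ n, a0 ≤ τ i ∧ τ i ≤ T ∧ 1 ≤ τ i) →
      (∀ i < n, 16 * τ i ≤ τ (i + 1)) →
      (∀ i ≤ n, A * e (τ i + 3) ≤ M ^ 2 * (U (τ i) * τ i)) →
      ∃ i < n, ∃ w : WCfg W, w.q ^ 2 = M ^ 2 * (U (τ (i + 1)) * τ (i + 1)) / 4 ∧
        2 * N (L0 + τ i) (wells w.C w.q) ≤
          (6 * C₅ * (Kκ * Cμ / 2 + b1 m cκ c0 / 16 + 1 / 2)) * M ^ 2 * (U (τ i) * τ i) := by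
  intro τ hτ hτ16 hτe
  have hb : 0 < b1 m cκ c0 := by
    unfold b1
    have := hκ.cpos
    have := hg.cpos
    positivity
  have hC₅ : 0 < C₅ := lt_of_lt_of_le one_pos hN.C1
  have hlog4 : 0 < Real.log 4 := Real.log_pos (by norm_num)
  have hlog42 : Real.log 4 ≤ 2 := by
    have h1 : Real.log 4 = 2 * Real.log 2 := by
      rw [show (4 : ℝ) = 2 ^ 2 by norm_num, Real.log_pow]; norm_num
    have := Real.log_two_lt_d9
    rw [h1]; linarith
  have hexp4 : Real.exp (Real.log 4) = 4 := Real.exp_log (by norm_num)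
  have hK := hfl.K0
  have haT : a0 ≤ T := (hτ 0 (Nat.zero_le _)).1.trans (hτ 0 (Nat.zero_le _)).2.1
  have hT1 : 1 ≤ T := (hτ 0 (Nat.zero_le _)).2.2.trans (hτ 0 (Nat.zero_le _)).2.1
  have hUmono := hUm
  have hUpos : ∀ i ≤ n, U a0 ≤ U (τ i) := fun i hi =>
    hUmono _ _ le_rfl (hτ i hi).1 (hτ i hi).2.1
  have hUi : ∀ i ≤ n, 0 < U (τ i) := fun i hi => lt_of_lt_of_le hUa (hUpos i hi)
  obtain ⟨r, hrdef⟩ : ∃ r : ℕ → ℝ, ∀ i, r i = M * √(U (τ i) * τ i) := ⟨_, fun _ => rfl⟩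
  have hr2 : ∀ i ≤ n, r i ^ 2 = M ^ 2 * (U (τ i) * τ i) := by
    intro i hi
    have h1 := (hUi i hi).le
    have h2 := (hτ i hi).2.2
    rw [hrdef, mul_pow, Real.sq_sqrt (by positivity)]
  have hrpos : ∀ i ≤ n, 0 < r i := by
    intro i hi
    have h1 := hUi i hi
    have h2 := (hτ i hi).2.2
    have : 0 < U (τ i) * τ i := by positivity
    rw [hrdef]
    exact mul_pos hM (Real.sqrt_pos.2 this)
  have hrmin : ∀ i ≤ n, M * √(U a0) ≤ r i := by
    intro i hi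
    rw [hrdef]
    refine mul_le_mul_of_nonneg_left (Real.sqrt_le_sqrt ?_) hM.le
    have h1 := hUpos i hi
    have h2 := (hτ i hi).2.2
    exact h1.trans (le_mul_of_one_le_right (hUi i hi).le h2)
  have hrmax : ∀ i ≤ n, r i ≤ M * √(U T * T) := by
    intro i hi
    rw [hrdef]
    refine mul_le_mul_of_nonneg_left (Real.sqrt_le_sqrt ?_) hM.le
    have h1 := hUmono (τ i) T (hτ i hi).1 (hτ i hi).2.1 le_rfl
    have h2 := (hτ i hi).2.2
    have h3 := (hτ i hi).2.1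
    have h4 := hUi i hi
    exact mul_le_mul h1 h3 (by linarith only [h2]) (h4.le.trans h1)
  have hUT : 0 < U T := lt_of_lt_of_le hUa (hUmono _ _ le_rfl haT le_rfl)
  have hrT : ∀ i ≤ n, r i ^ 2 * Lg ≤ Real.exp (2 * (L0 + a0)) := by
    intro i hi
    have h1 : r i ^ 2 ≤ M ^ 2 * (U T * T) := by
      have h2 := pow_le_pow_left₀ (hrpos i hi).le (hrmax i hi) 2
      have h3 : 0 ≤ U T * T := by positivity
      rwa [mul_pow M, Real.sq_sqrt h3] at h2
    calc r i ^ 2 * Lg ≤ M ^ 2 * (U T * T) * Lg := mul_le_mul_of_nonneg_right h1 (by linarith)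
      _ ≤ _ := hw1
  have hexpa : ∀ i ≤ n, Real.exp (2 * (L0 + a0)) ≤ Real.exp (L0 + τ i) ^ 2 := by
    intro i hi
    rw [← Real.exp_nat_mul]
    refine Real.exp_le_exp.2 ?_
    push_cast
    linarith [(hτ i hi).1]
  have hrs : ∀ i ≤ n, r i ≤ Real.exp (L0 + τ i) := by
    intro i hi
    have h1 := (hrT i hi).trans (hexpa i hi)
    have h2 : r i ^ 2 ≤ r i ^ 2 * Lg := le_mul_of_one_le_right (sq_nonneg _) hLg1
    exact (pow_le_pow_iff_left₀ (hrpos i hi).le (Real.exp_pos _).le two_ne_zero).1 (h2.trans h1)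
  -- the good centres
  obtain ⟨s, hsdef⟩ : ∃ s : ℕ → ℝ, ∀ i, s i = Real.exp (L0 + τ i) := ⟨_, fun _ => rfl⟩
  have hs0 : ∀ i, 0 < s i := fun i => by rw [hsdef]; exact Real.exp_pos _
  have hsT : ∀ i ≤ n, s i ≤ Real.exp (L0 + T) := fun i hi => by
    rw [hsdef]
    exact Real.exp_le_exp.2 (by linarith [(hτ i hi).2.1])
  have hfini : ∀ i ≤ n, en (cyl x (17 * s i) univ) ≠ ⊤ := by
    intro i hi
    refine ne_top_of_le_ne_top hfin (measure_mono (prod_mono (closedBall_subset_closedBall ?_)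
      le_rfl))
    linarith [hsT i hi]
  have hex : ∀ i, ∃ x', i ≤ n → dist x x' ≤ s i / 16 ∧ ∀ ρ, 0 < ρ → ρ ≤ 16 * s i →
      (en (cyl x' ρ univ)).toReal ≤
        2 * 80 ^ m * (en (cyl x (17 * s i) univ)).toReal / s i ^ m * ρ ^ m := by
    intro i
    by_cases hi : i ≤ n
    · obtain ⟨x', h1, h2⟩ := exists_good m hm en x (hs0 i) (hfini i hi)
      exact ⟨x', fun _ => ⟨h1, h2⟩⟩
    · exact ⟨x, fun h => absurd h hi⟩
  choose xs hxs using hex
  obtain ⟨lam, hlamdef⟩ : ∃ lam : ℕ → ℝ, ∀ i, lam i =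
      2 * 80 ^ m * (en (cyl x (17 * s i) univ)).toReal / s i ^ m := ⟨_, fun _ => rfl⟩
  have hlam0 : ∀ i, 0 ≤ lam i := by
    intro i
    have : 0 ≤ (en (cyl x (17 * s i) univ)).toReal := ENNReal.toReal_nonneg
    have := (hs0 i).le
    rw [hlamdef]
    positivity
  -- `lam i * s i ^ 2 ≤ 2 * 80 ^ m * Ce / A * r i ^ 2`
  have hlams : ∀ i ≤ n, lam i * s i ^ 2 ≤ 2 * 80 ^ m * Ce / A * r i ^ 2 := by
    intro i hi
    have h1 := he (τ i) ⟨(hτ i hi).1, (hτ i hi).2.1⟩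
    have h2 : Real.exp (m * (L0 + τ i)) = s i ^ m := by
      rw [hsdef, ← Real.exp_nat_mul]
    have h3 : Real.exp (-(2 * (L0 + τ i))) = 1 / s i ^ 2 := by
      rw [hsdef, ← Real.exp_nat_mul, Real.exp_neg, one_div]
      push_cast
      rfl
    rw [h2, h3, ← hsdef] at h1
    have hs2 : 0 < s i ^ 2 := pow_pos (hs0 i) 2
    have hsm : 0 < s i ^ m := pow_pos (hs0 i) m
    have h4 : lam i * s i ^ 2 ≤ 2 * 80 ^ m * Ce * e (τ i + 3) := by
      have h5 : lam i * s i ^ 2 = 2 * 80 ^ m *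
          ((en (cyl x (17 * s i) univ)).toReal * (s i ^ 2 / s i ^ m)) := by
        rw [hlamdef]
        field_simp
      rw [h5]
      have h6 : (en (cyl x (17 * s i) univ)).toReal * (s i ^ 2 / s i ^ m) ≤
          Ce * s i ^ m * (1 / s i ^ 2) * e (τ i + 3) * (s i ^ 2 / s i ^ m) :=
        mul_le_mul_of_nonneg_right h1 (by positivity)
      have h7 : Ce * s i ^ m * (1 / s i ^ 2) * e (τ i + 3) * (s i ^ 2 / s i ^ m) =
          Ce * e (τ i + 3) := by
        calc _ = Ce * e (τ i + 3) * (s i ^ m / s i ^ m) * (s i ^ 2 / s i ^ 2) := by ring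
          _ = _ := by rw [div_self hsm.ne', div_self hs2.ne', mul_one, mul_one]
      rw [h7] at h6
      calc _ ≤ 2 * 80 ^ m * (Ce * e (τ i + 3)) := mul_le_mul_of_nonneg_left h6 (by positivity)
        _ = _ := by ring
    have h8 : e (τ i + 3) ≤ r i ^ 2 / A := by
      rw [le_div_iff₀ hA0, hr2 i hi]
      linarith [hτe i hi]
    calc lam i * s i ^ 2 ≤ 2 * 80 ^ m * Ce * e (τ i + 3) := h4
      _ ≤ 2 * 80 ^ m * Ce * (r i ^ 2 / A) := mul_le_mul_of_nonneg_left h8 (by positivity)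
      _ = _ := by ring
  have hCA : 2 * 80 ^ m * Ce / A ≤ 1 / 16 := by
    rw [div_le_iff₀ hA0]
    linarith
  have hlam1 : ∀ i ≤ n, lam i ≤ 1 := by
    intro i hi
    have h1 := hlams i hi
    have h2 := hrs i hi
    rw [← hsdef] at h2
    have h3 : r i ^ 2 ≤ s i ^ 2 := pow_le_pow_left₀ (hrpos i hi).le h2 2
    have hs2 : 0 < s i ^ 2 := pow_pos (hs0 i) 2
    have h4 : 2 * 80 ^ m * Ce / A * r i ^ 2 ≤ 1 / 16 * s i ^ 2 := by
      calc 2 * 80 ^ m * Ce / A * r i ^ 2 ≤ 1 / 16 * r i ^ 2 :=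
            mul_le_mul_of_nonneg_right hCA (sq_nonneg _)
        _ ≤ _ := by linarith
    exact le_of_mul_le_mul_right (by linarith only [h1, h4, h3, hs2] : lam i * s i ^ 2 ≤ 1 * s i ^ 2) hs2
  -- smallness
  have hsm2 : ∀ i, Real.exp (2 * (L0 + τ i)) = s i ^ 2 := by
    intro i
    rw [hsdef, ← Real.exp_nat_mul]; push_cast; rfl
  have h1 : ∀ i ≤ n, 8 * K * lam i * Real.exp (2 * (L0 + τ i)) ≤
      b1 m cκ c0 / (16 * C₅ ^ 2) * r i ^ 2 := by
    intro i hi
    rw [hsm2]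
    have h2 := hlams i hi
    have h3 : 8 * K * lam i * s i ^ 2 ≤ 8 * K * (2 * 80 ^ m * Ce / A * r i ^ 2) := by
      rw [mul_assoc]
      exact mul_le_mul_of_nonneg_left h2 (by positivity)
    have h4 : 8 * K * (2 * 80 ^ m * Ce / A * r i ^ 2) =
        (16 * (2 * 80 ^ m * Ce * K) / A) / 2 * r i ^ 2 := by ring
    rw [h4] at h3
    refine h3.trans (mul_le_mul_of_nonneg_right ?_ (sq_nonneg _))
    have h5 : b1 m cκ c0 / (16 * C₅ ^ 2) = 2 * (b1 m cκ c0 / (32 * C₅ ^ 2)) := by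
      field_simp; ring
    rw [h5]
    have h6 : 0 ≤ 16 * (2 * 80 ^ m * Ce * K) / A := by positivity
    linarith
  have hlog : ∀ i ≤ n, L0 + τ i + Real.log 4 - Real.log (r i / 16) ≤ Lg := by
    intro i hi
    have hri := hrpos i hi
    have hsi := hs0 i
    refine le_trans (le_of_eq ?_) ((Real.log_le_log (by positivity)
      (?_ : 64 * s i / r i ≤ 64 * Real.exp (L0 + T) / (M * √(U a0)))).trans hLg)
    · rw [Real.log_div (by positivity) hri.ne', Real.log_mul (by norm_num) (hs0 i).ne',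
        Real.log_div hri.ne' (by norm_num)]
      have h5 : Real.log 64 = Real.log 4 + Real.log 16 := by
        rw [← Real.log_mul (by norm_num) (by norm_num)]; norm_num
      have h6 : Real.log (s i) = L0 + τ i := by rw [hsdef]; exact Real.log_exp _
      rw [h5, h6]; ring
    · have h7 : 0 < M * √(U a0) := mul_pos hM (Real.sqrt_pos.2 hUa)
      exact div_le_div₀ (by positivity) (by linarith [hsT i hi]) h7 (hrmin i hi)
  have hgood : ∀ i ≤ n, ∀ q, r i ≤ q →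
      Good m mu en er Cμ x₀ ρ₀ (xs i) (Real.log (r i / 16)) (L0 + τ i + Real.log 4) (lam i)
        θ q := by
    intro i hi q hq
    obtain ⟨h1', h2⟩ := hxs i hi
    have hri := hrpos i hi
    have hen' : ∀ l ∈ Icc (Real.log (r i / 16)) (L0 + τ i + Real.log 4 + Real.log 4),
        (en (cyl (xs i) (Real.exp l) univ)).toReal ≤ lam i * Real.exp (m * l) := by
      intro l hl
      have h3 := h2 (Real.exp l) (Real.exp_pos l) (by
        have h4 := Real.exp_le_exp.2 hl.2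
        rw [Real.exp_add, Real.exp_add, hexp4, ← hsdef] at h4
        have := hs0 i
        linarith)
      rw [← Real.exp_nat_mul, ← hlamdef] at h3
      exact h3
    have hen : ∀ l ∈ Icc (Real.log (r i / 16)) (L0 + τ i + Real.log 4),
        (en (cyl (xs i) (Real.exp l) univ)).toReal ≤ lam i * Real.exp (m * l) :=
      fun l hl => hen' l ⟨hl.1, by linarith [hl.2]⟩
    have hle : Real.log (r i / 16) ≤ L0 + τ i + Real.log 4 := by
      rw [Real.log_le_iff_le_exp (by positivity), Real.exp_add, hexp4]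
      have := hrs i hi
      have := Real.exp_pos (L0 + τ i)
      linarith
    have hmass' : ∀ l ∈ Icc (Real.log (r i / 16)) (L0 + τ i + Real.log 4),
        mu (cyl (xs i) (Real.exp l) univ) ≤ ENNReal.ofReal (Cμ * Real.exp (m * l)) := by
      refine hms (xs i) _ _ (lam i) ?_ ?_ ?_ hle ?_ ?_ (hlam0 i) (hlam1 i hi) hen' ?_
      · rw [Real.exp_add, hexp4, ← hsdef]
        linarith
      · linarith [(hτ i hi).1]
      · linarith [(hτ i hi).2.1]
      · rw [Real.exp_log (by positivity)]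
        linarith [hrmin i hi]
      · have := hlog i hi
        linarith
      · have h3 : L0 + τ i + Real.log 4 + Real.log 4 - Real.log (r i / 16) ≤ 3 * Lg := by
          have := hlog i hi
          linarith
        have hs2 : 0 < s i ^ 2 := pow_pos (hs0 i) 2
        have h4 : lam i ≤ 2 * 80 ^ m * Ce / A * r i ^ 2 / s i ^ 2 := by
          rw [le_div_iff₀ hs2]
          exact hlams i hi
        have h5 : r i ^ 2 * Lg / s i ^ 2 ≤ 1 := by
          rw [div_le_one hs2, hsdef]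
          exact (hrT i hi).trans (hexpa i hi)
        have h6 : 0 ≤ 2 * 80 ^ m * Ce / A := by positivity
        calc lam i * (L0 + τ i + Real.log 4 + Real.log 4 - Real.log (r i / 16))
            ≤ lam i * (3 * Lg) := mul_le_mul_of_nonneg_left h3 (hlam0 i)
          _ ≤ 2 * 80 ^ m * Ce / A * r i ^ 2 / s i ^ 2 * (3 * Lg) :=
              mul_le_mul_of_nonneg_right h4 (by linarith)
          _ = 3 * (2 * 80 ^ m * Ce / A) * (r i ^ 2 * Lg / s i ^ 2) := by ring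
          _ ≤ 3 * (1 / 16) * 1 := by
              refine mul_le_mul ?_ h5 (by positivity) (by norm_num)
              linarith
          _ ≤ 1 := by norm_num
    refine ⟨?_, ?_, hen, ?_, hCμ, hmass'⟩
    · exact hle
    · rw [Real.exp_add, hexp4, ← hsdef]
      have h3 := hsT i hi
      have h4 := dist_triangle (xs i) x x₀
      rw [dist_comm (xs i) x] at h4
      have := hs0 i
      linarith
    · intro l hl
      have h3 := hen l hl
      have h4 : Real.exp l ≤ 4 * s i := by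
        have h5 := Real.exp_le_exp.2 hl.2
        rw [Real.exp_add, hexp4, ← hsdef] at h5
        linarith
      have h5 : r i / 16 ≤ Real.exp l := by
        rw [← Real.log_le_iff_le_exp (by positivity)]
        exact hl.1
      refine her (xs i) l q ?_ ?_ ((hrmin i hi).trans hq) ?_ ?_ ?_ (hmass' l hl)
      · have := hsT i hi
        have := hs0 i
        linarith
      · have := hsT i hi
        linarith
      · have := hrmin i hi
        linarith
      · refine h3.trans ?_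
        have := Real.exp_pos (m * l)
        exact mul_le_of_le_one_left this.le (hlam1 i hi)
      · have h6 : Real.exp (2 * l) ≤ 16 * s i ^ 2 := by
          have h7 : Real.exp (2 * l) = Real.exp l ^ 2 := by
            rw [← Real.exp_nat_mul]; push_cast; rfl
          rw [h7]
          calc Real.exp l ^ 2 ≤ (4 * s i) ^ 2 := pow_le_pow_left₀ (Real.exp_pos l).le h4 2
            _ = _ := by ring
        have h8 : lam i * Real.exp (2 * l) ≤ q ^ 2 := by
          calc lam i * Real.exp (2 * l) ≤ lam i * (16 * s i ^ 2) :=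
                mul_le_mul_of_nonneg_left h6 (hlam0 i)
            _ = 16 * (lam i * s i ^ 2) := by ring
            _ ≤ 16 * (2 * 80 ^ m * Ce / A * r i ^ 2) :=
                mul_le_mul_of_nonneg_left (hlams i hi) (by norm_num)
            _ ≤ 16 * (1 / 16 * r i ^ 2) := by
                refine mul_le_mul_of_nonneg_left ?_ (by norm_num)
                exact mul_le_mul_of_nonneg_right hCA (sq_nonneg _)
            _ = r i ^ 2 := by ring
            _ ≤ q ^ 2 := pow_le_pow_left₀ hri.le hq 2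
        calc (en (cyl (xs i) (Real.exp l) univ)).toReal * Real.exp (2 * l)
            ≤ lam i * Real.exp (m * l) * Real.exp (2 * l) :=
              mul_le_mul_of_nonneg_right h3 (Real.exp_pos _).le
          _ = lam i * Real.exp (2 * l) * Real.exp (m * l) := by ring
          _ ≤ q ^ 2 * Real.exp (m * l) := mul_le_mul_of_nonneg_right h8 (Real.exp_pos _).le
  have hlogpos : ∀ i ≤ n, 0 ≤ L0 + τ i + Real.log 4 - Real.log (r i / 16) := by
    intro i hi
    have := (hgood i hi (r i) le_rfl).le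
    linarith
  have hKlog : ∀ i ≤ n, K * lam i * (L0 + τ i + Real.log 4 - Real.log (r i / 16)) ≤
      2 * 80 ^ m * Ce * K / A * (r i ^ 2 * Lg / s i ^ 2) := by
    intro i hi
    have hs2 : 0 < s i ^ 2 := pow_pos (hs0 i) 2
    have h2 : lam i ≤ 2 * 80 ^ m * Ce / A * r i ^ 2 / s i ^ 2 := by
      rw [le_div_iff₀ hs2]
      exact hlams i hi
    calc K * lam i * (L0 + τ i + Real.log 4 - Real.log (r i / 16))
        ≤ K * lam i * Lg :=
          mul_le_mul_of_nonneg_left (hlog i hi) (mul_nonneg hK (hlam0 i))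
      _ ≤ K * (2 * 80 ^ m * Ce / A * r i ^ 2 / s i ^ 2) * Lg :=
          mul_le_mul_of_nonneg_right (mul_le_mul_of_nonneg_left h2 hK) (by linarith)
      _ = _ := by ring
  have hrLs : ∀ i ≤ n, r i ^ 2 * Lg / s i ^ 2 ≤ 1 := by
    intro i hi
    rw [div_le_one (pow_pos (hs0 i) 2), hsdef]
    exact (hrT i hi).trans (hexpa i hi)
  have h2 : ∀ i ≤ n, (K * lam i + θ) * (L0 + τ i + Real.log 4 - Real.log (r i / 16)) ≤
      b1 m cκ c0 / (16 * C₅ ^ 2) := by
    intro i hi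
    have h3 := hKlog i hi
    have h4 := hrLs i hi
    have h5 : 2 * 80 ^ m * Ce * K / A * (r i ^ 2 * Lg / s i ^ 2) ≤
        b1 m cκ c0 / (32 * C₅ ^ 2) := by
      have h6 : 0 ≤ 2 * 80 ^ m * Ce * K / A := by positivity
      have h7 : 16 * (2 * 80 ^ m * Ce * K) / A = 16 * (2 * 80 ^ m * Ce * K / A) := by ring
      rw [h7] at hA1
      calc 2 * 80 ^ m * Ce * K / A * (r i ^ 2 * Lg / s i ^ 2) ≤
            2 * 80 ^ m * Ce * K / A * 1 := mul_le_mul_of_nonneg_left h4 h6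
        _ ≤ _ := by linarith
    have h8 : θ * (L0 + τ i + Real.log 4 - Real.log (r i / 16)) ≤ b1 m cκ c0 / (32 * C₅ ^ 2) :=
      (mul_le_mul_of_nonneg_left (hlog i hi) hθ).trans hw3
    have h9 : b1 m cκ c0 / (16 * C₅ ^ 2) = 2 * (b1 m cκ c0 / (32 * C₅ ^ 2)) := by
      field_simp; ring
    rw [h9, add_mul]
    linarith
  have hne : ∀ i ≤ n, (Ht S (xs i) (r i / 16)).Nonempty := by
    intro i hi
    have hri := hrpos i hi
    have g := hgood i hi (r i) le_rfl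
    have e1 := hN.le_nu (xs i) (L0 + τ i) (fun _ => (1 : ℝ)) 1
      (by linarith [(hτ i hi).1]) (by linarith [(hτ i hi).2.1])
      (by have := (hxs i hi).1; have := hs0 i; rw [← hsdef]; linarith)
      measurable_const (fun _ => zero_le_one) (fun _ => le_rfl)
    have e2 := hmass (τ i) ⟨(hτ i hi).1, (hτ i hi).2.1⟩
    have e3 : c1 / C₅ ≤ nu m κ mu (xs i) (L0 + τ i + Real.log 4) (fun _ : W => (1 : ℝ)) := by
      rw [div_le_iff₀ hC₅]; linarith
    refine heights_nonempty hfl hκ hg (by positivity) hri g e3 ?_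
    have e4 : K * lam i * (Real.exp (2 * (L0 + τ i + Real.log 4)) / 2) ≤
        b1 m cκ c0 / (16 * C₅ ^ 2) * r i ^ 2 := by
      have e5 : Real.exp (2 * (L0 + τ i + Real.log 4)) = 16 * Real.exp (2 * (L0 + τ i)) := by
        have : 2 * (L0 + τ i + Real.log 4) = 2 * (L0 + τ i) + (Real.log 4 + Real.log 4) := by ring
        rw [this, Real.exp_add, Real.exp_add, hexp4]; ring
      rw [e5]
      have := h1 i hi
      linarith
    have e6 := mul_le_mul_of_nonneg_right (h2 i hi) (sq_nonneg (r i))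
    have e7 : b1 m cκ c0 / (16 * C₅ ^ 2) * r i ^ 2 + b1 m cκ c0 / (16 * C₅ ^ 2) * r i ^ 2 =
        b1 m cκ c0 / (8 * C₅) / C₅ * r i ^ 2 := by field_simp; ring
    have e8 : b1 m cκ c0 / (8 * C₅) / C₅ * r i ^ 2 < c1 / C₅ * r i ^ 2 :=
      mul_lt_mul_of_pos_right (div_lt_div_of_pos_right hb1 hC₅) (by positivity)
    linarith
  have hτmono : ∀ i < n, τ i ≤ τ (i + 1) := by
    intro i hi
    have := hτ16 i hi
    have := (hτ i hi.le).2.2
    linarith
  have hr : ∀ i < n, 2 * r i ≤ r (i + 1) := by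
    intro i hi
    have h3 : (2 * r i) ^ 2 ≤ r (i + 1) ^ 2 := by
      rw [mul_pow, hr2 i hi.le, hr2 (i + 1) hi]
      have h4 := hUmono (τ i) (τ (i + 1)) (hτ i hi.le).1 (hτmono i hi) (hτ (i + 1) hi).2.1
      have h5 := hτ16 i hi
      have h6 := (hτ i hi.le).2.2
      have h7 := hUi i hi.le
      have h8 : 16 * (U (τ i) * τ i) ≤ U (τ (i + 1)) * τ (i + 1) := by
        calc 16 * (U (τ i) * τ i) = U (τ i) * (16 * τ i) := by ring
          _ ≤ U (τ (i + 1)) * τ (i + 1) :=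
              mul_le_mul h4 h5 (by positivity) (hUi (i + 1) hi).le
      have h9 : M ^ 2 * (16 * (U (τ i) * τ i)) ≤ M ^ 2 * (U (τ (i + 1)) * τ (i + 1)) :=
        mul_le_mul_of_nonneg_left h8 (sq_nonneg M)
      have h10 : 0 ≤ M ^ 2 * (U (τ i) * τ i) := by positivity
      linarith
    exact (pow_le_pow_iff_left₀ (by have := hrpos i hi.le; positivity)
      (hrpos (i + 1) hi).le two_ne_zero).1 h3
  -- the error of the wells
  have herw' : ∀ i < n, ∀ l ∈ Icc (Real.log (r i / 16)) (L0 + τ i + Real.log 4),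
      erw (xs i) l (r (i + 1) / 2) ≤ θw * (r (i + 1) / 2) ^ 2 := by
    intro i hi l hl
    have hi0 := hi.le
    have hri := hrpos i hi0
    have hq := hr i hi
    have h3 := (hgood i hi0 (r i) le_rfl).en l hl
    have h4 : Real.exp l ≤ 4 * s i := by
      have h5 := Real.exp_le_exp.2 hl.2
      rw [Real.exp_add, hexp4, ← hsdef] at h5
      linarith
    have h5 : r i / 16 ≤ Real.exp l := by
      rw [← Real.log_le_iff_le_exp (by positivity)]
      exact hl.1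
    have hmin := hrmin i hi0
    have hsT' := hsT i hi0
    have hs0' := hs0 i
    refine herw (xs i) l _ ?_ ?_ ?_ ?_ ?_ ?_ ((hgood i hi0 (r i) le_rfl).mass l hl)
    · have := (hxs i hi0).1
      linarith
    · linarith
    · linarith
    · linarith
    · refine h3.trans ?_
      have := Real.exp_pos (m * l)
      exact mul_le_of_le_one_left this.le (hlam1 i hi0)
    · have h6 : Real.exp (2 * l) ≤ 16 * s i ^ 2 := by
        have h7 : Real.exp (2 * l) = Real.exp l ^ 2 := by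
          rw [← Real.exp_nat_mul]; push_cast; rfl
        rw [h7]
        calc Real.exp l ^ 2 ≤ (4 * s i) ^ 2 := pow_le_pow_left₀ (Real.exp_pos l).le h4 2
          _ = _ := by ring
      have h8 : lam i * Real.exp (2 * l) ≤ (r (i + 1) / 2) ^ 2 := by
        calc lam i * Real.exp (2 * l) ≤ lam i * (16 * s i ^ 2) :=
              mul_le_mul_of_nonneg_left h6 (hlam0 i)
          _ = 16 * (lam i * s i ^ 2) := by ring
          _ ≤ 16 * (2 * 80 ^ m * Ce / A * r i ^ 2) :=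
              mul_le_mul_of_nonneg_left (hlams i hi0) (by norm_num)
          _ ≤ 16 * (1 / 16 * r i ^ 2) := by
              refine mul_le_mul_of_nonneg_left ?_ (by norm_num)
              exact mul_le_mul_of_nonneg_right hCA (sq_nonneg _)
          _ = r i ^ 2 := by ring
          _ ≤ (r (i + 1) / 2) ^ 2 := pow_le_pow_left₀ hri.le (by linarith) 2
      calc (en (cyl (xs i) (Real.exp l) univ)).toReal * Real.exp (2 * l)
          ≤ lam i * Real.exp (m * l) * Real.exp (2 * l) :=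
            mul_le_mul_of_nonneg_right h3 (Real.exp_pos _).le
        _ = lam i * Real.exp (2 * l) * Real.exp (m * l) := by ring
        _ ≤ (r (i + 1) / 2) ^ 2 * Real.exp (m * l) :=
            mul_le_mul_of_nonneg_right h8 (Real.exp_pos _).le
  obtain ⟨i, hi, C, hC1, hC2, hC3, hC4, hC5⟩ := run2 hfl hκ hwf hg hn1 hn hN
    (fun i => L0 + τ i) r lam xs hrpos hr
    (fun i hi => by rw [← hsdef]; exact (hxs i hi).1)
    (fun i hi => by linarith [(hτ i hi).1]) (fun i hi => by linarith [(hτ i hi).2.1]) hgood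
    hθw herw'
    (fun i hi => (mul_le_mul_of_nonneg_left (hlog i hi) hwf.θ0).trans hw5)
    (fun i hi => by
      have := hrs i hi
      have := Real.exp_pos (L0 + τ i)
      linarith)
    (fun i _ => hlam0 i) hθ h1 h2 hne (fun i hi => by linarith [hτmono i hi])
    (fun i hi p => hdr (τ i) (τ (i + 1)) (r (i + 1)) (hτ i hi.le).1 (hτ i hi.le).2.2
      (hτ16 i hi) (hτ (i + 1) hi).2.1 (hrpos (i + 1) hi) (hr2 (i + 1) hi) (hτe (i + 1) hi) p)
  refine ⟨i, hi, ⟨C, r (i + 1) / 2, by have := hrpos (i + 1) hi; positivity, hC4⟩, ?_, ?_⟩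
  · simp only
    rw [div_pow, hr2 (i + 1) hi]
    norm_num
  · have h3 := hC5 (L0 + τ i) ⟨by linarith, le_rfl⟩
    have hi0 := hi.le
    have h4 : (K * lam i + θw) * (L0 + τ i + Real.log 4 - Real.log (r i / 16)) *
        (r (i + 1) / 2) ^ 2 ≤ 1 / 2 * r i ^ 2 := by
      have hs2 : 0 < s i ^ 2 := pow_pos (hs0 i) 2
      have h5 := mul_le_mul_of_nonneg_right (hKlog i hi0) (sq_nonneg (r (i + 1)))
      have h6 : 2 * 80 ^ m * Ce * K / A * (r i ^ 2 * Lg / s i ^ 2) * r (i + 1) ^ 2 ≤ r i ^ 2 := by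
        have h7 : 2 * 80 ^ m * Ce * K / A ≤ 1 := by
          rw [div_le_one hA0]; exact hA3
        have h8 : r (i + 1) ^ 2 * Lg / s i ^ 2 ≤ 1 := by
          rw [div_le_one hs2, hsdef]
          exact (hrT (i + 1) hi).trans (hexpa i hi0)
        calc 2 * 80 ^ m * Ce * K / A * (r i ^ 2 * Lg / s i ^ 2) * r (i + 1) ^ 2
            = 2 * 80 ^ m * Ce * K / A * (r (i + 1) ^ 2 * Lg / s i ^ 2) * r i ^ 2 := by ring
          _ ≤ 1 * 1 * r i ^ 2 := by
              refine mul_le_mul_of_nonneg_right ?_ (sq_nonneg _)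
              exact mul_le_mul h7 h8 (by positivity) zero_le_one
          _ = r i ^ 2 := by ring
      have h9 : θw * (L0 + τ i + Real.log 4 - Real.log (r i / 16)) * r (i + 1) ^ 2 ≤ r i ^ 2 := by
        have h10 : r (i + 1) ^ 2 ≤ M ^ 2 * (U T * T) := by
          have h2 := pow_le_pow_left₀ (hrpos (i + 1) hi).le (hrmax (i + 1) hi) 2
          rwa [mul_pow, Real.sq_sqrt (by positivity)] at h2
        have h11 : M ^ 2 * U a0 ≤ r i ^ 2 := by
          have h2 := pow_le_pow_left₀ (by positivity) (hrmin i hi0) 2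
          rwa [mul_pow, Real.sq_sqrt hUa.le] at h2
        calc θw * (L0 + τ i + Real.log 4 - Real.log (r i / 16)) * r (i + 1) ^ 2
            ≤ θw * Lg * (M ^ 2 * (U T * T)) :=
              mul_le_mul (mul_le_mul_of_nonneg_left (hlog i hi0) hθw) h10 (sq_nonneg _)
                (by positivity)
          _ = M ^ 2 * (θw * Lg * (U T * T)) := by ring
          _ ≤ M ^ 2 * U a0 := mul_le_mul_of_nonneg_left hw2 (sq_nonneg M)
          _ ≤ r i ^ 2 := h11
      have h12 : (K * lam i + θw) * (L0 + τ i + Real.log 4 - Real.log (r i / 16)) *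
          (r (i + 1) / 2) ^ 2 = (K * lam i * (L0 + τ i + Real.log 4 - Real.log (r i / 16)) *
          r (i + 1) ^ 2 + θw * (L0 + τ i + Real.log 4 - Real.log (r i / 16)) *
          r (i + 1) ^ 2) / 4 := by ring
      rw [h12]
      have : 0 ≤ r i ^ 2 := sq_nonneg _
      linarith
    have h13 : C₅ * (3 * ((Kκ * Cμ / 2 + b1 m cκ c0 / 16) * r i ^ 2 +
        (K * lam i + θw) * (L0 + τ i + Real.log 4 - Real.log (r i / 16)) *
          (r (i + 1) / 2) ^ 2)) ≤
        C₅ * (3 * ((Kκ * Cμ / 2 + b1 m cκ c0 / 16 + 1 / 2) * r i ^ 2)) := by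
      refine mul_le_mul_of_nonneg_left ?_ hC₅.le
      linarith
    have h14 := h3.trans h13
    rw [hr2 i hi0] at h14
    linarith

end hrun

end Crest.Agent.R234.Rn_870
end
end

-- ▼ part R234/Rn1_870
section

/-!
# Row 234, N9-AV, part 1 (helper870): the integrated drift

`drift_int`: `|f'| ≤ C₄ q √R + C₆ R + θ₂ q²`, `R = U'`.  `hdr_of`: hypothesis `hdr` of `hrun2` from
the pointwise drift with `R' (l) + R' (l + 1/2)`.
-/

set_option autoImplicit false

open Set Filter Topology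

noncomputable section

namespace Crest.Agent.R234.Rn_870

open Crest.Agent.R234.Well_761 (sqrt_le_half le_of_deriv_le)

/-- integrated drift -/
theorem drift_int {f U R : ℝ → ℝ} {a b C₄ C₆ θ₂ q β : ℝ}
    (h : ∀ l ∈ Icc a b, ∃ d, HasDerivAt f d l ∧ |d| ≤ C₄ * q * √(R l) + C₆ * R l + θ₂ * q ^ 2)
    (hab : a < b) (hC : 0 < C₄) (hq : 0 < q) (hβ : 0 < β)
    (hR : ∀ l ∈ Icc a b, 0 ≤ R l) (hU : ∀ l ∈ Icc a b, HasDerivAt U (R l) l)
    (h1 : 4 * C₄ ^ 2 * (b - a) * (U b - U a) ≤ β ^ 2 * q ^ 2) :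
    f b - f a ≤ β * q ^ 2 / 2 + C₆ * (U b - U a) + θ₂ * (b - a) * q ^ 2 := by
  set α : ℝ := 2 * C₄ * (b - a) / (β * q) with hα
  have hba : 0 < b - a := sub_pos.2 hab
  have hα0 : 0 < α := by positivity
  have key := le_of_deriv_le (f := f)
    (g := fun l => C₄ * q * (α * U l + l / α) / 2 + C₆ * U l + θ₂ * q ^ 2 * l) hab.le ?_
  · refine key.trans ?_
    have e1 : C₄ * q * ((b - a) / α) / 2 = β * q ^ 2 / 4 := by
      rw [hα]; field_simp; ring
    have e2 : C₄ * q * (α * (U b - U a)) / 2 ≤ β * q ^ 2 / 4 := by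
      have : C₄ * q * (α * (U b - U a)) / 2 = (4 * C₄ ^ 2 * (b - a) * (U b - U a)) / (4 * β) := by
        rw [hα]; field_simp
      rw [this, div_le_iff₀ (by positivity)]
      calc 4 * C₄ ^ 2 * (b - a) * (U b - U a) ≤ β ^ 2 * q ^ 2 := h1
        _ = β * q ^ 2 / 4 * (4 * β) := by ring
    have e3 : C₄ * q * (α * U b + b / α) / 2 + C₆ * U b + θ₂ * q ^ 2 * b -
        (C₄ * q * (α * U a + a / α) / 2 + C₆ * U a + θ₂ * q ^ 2 * a) =
        C₄ * q * (α * (U b - U a)) / 2 + C₄ * q * ((b - a) / α) / 2 + C₆ * (U b - U a) +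
          θ₂ * (b - a) * q ^ 2 := by
      ring
    rw [e3]
    linarith
  · intro l hl
    obtain ⟨d, hd, hd1⟩ := h l hl
    have h2 : HasDerivAt (fun l => C₄ * q * (α * U l + l / α) / 2 + C₆ * U l + θ₂ * q ^ 2 * l)
        (C₄ * q * (α * R l + 1 / α) / 2 + C₆ * R l + θ₂ * q ^ 2 * 1) l := by
      have e1 := (hU l hl).const_mul α
      have e2 := (hasDerivAt_id l).div_const α
      have e3 := ((e1.add e2).const_mul (C₄ * q)).div_const 2
      exact (e3.add ((hU l hl).const_mul C₆)).add ((hasDerivAt_id l).const_mul (θ₂ * q ^ 2))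
    refine ⟨d, _, hd, h2, (le_abs_self d).trans (hd1.trans ?_)⟩
    have h3 := sqrt_le_half hα0 (hR l hl)
    have h4 : C₄ * q * √(R l) ≤ C₄ * q * ((α * R l + 1 / α) / 2) :=
      mul_le_mul_of_nonneg_left h3 (by positivity)
    linarith

theorem log4_pos : 0 < Real.log 4 := Real.log_pos (by norm_num)

theorem log4_le : Real.log 4 ≤ 3 / 2 := by
  have h1 : Real.log 4 = 2 * Real.log 2 := by
    rw [show (4 : ℝ) = 2 ^ 2 by norm_num, Real.log_pow]; norm_num
  have := Real.log_two_lt_d9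
  rw [h1]; linarith

/-- **the integrated drift bound of `hrun2`** -/
theorem hdr_of {f : ℝ → ℝ} {U e R' : ℝ → ℝ} {L0 a0 T M A CR C₄ C₆ θ₂ b : ℝ}
    (hC₄ : 0 < C₄) (hC₆ : 0 ≤ C₆) (hθ₂ : 0 ≤ θ₂) (hb : 0 < b) (hA : 0 < A)
    (hCR : 0 ≤ CR)
    (hR0 : ∀ l ∈ Icc (L0 + a0 - Real.log 4) (L0 + T + Real.log 4 + 1 / 2), 0 ≤ R' l)
    (hU : ∀ l ∈ Icc (L0 + a0 - Real.log 4) (L0 + T + Real.log 4 + 1 / 2),
      HasDerivAt (fun l => U (l - L0)) (R' l) l)
    (hU0 : 0 ≤ U (a0 - Real.log 4))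
    (hUe : ∀ t ∈ Icc a0 T, U (t + Real.log 4 + 1 / 2) ≤ CR * e (t + 3))
    (hM1 : 16 * C₄ ^ 2 ≤ (b / 16) ^ 2 * M ^ 2) (hM2 : 32 * C₆ ≤ b * M ^ 2)
    (hA1 : 16 * C₄ ^ 2 * CR ≤ (b / 16) ^ 2 * A) (hA2 : 32 * (C₆ * CR) ≤ b * A)
    (hθ : θ₂ * (T + 4) ≤ b / 16)
    {τ₁ τ₂ q : ℝ} (h1 : a0 ≤ τ₁) (h11 : 1 ≤ τ₁) (h12 : 16 * τ₁ ≤ τ₂) (h2 : τ₂ ≤ T) (hq : 0 < q)
    (hq2 : q ^ 2 = M ^ 2 * (U τ₂ * τ₂)) (hqe : A * e (τ₂ + 3) ≤ M ^ 2 * (U τ₂ * τ₂))
    (hdr : ∀ l ∈ Icc (L0 + a0 - Real.log 4) (L0 + T + Real.log 4), ∃ d, HasDerivAt f d l ∧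
      |d| ≤ C₄ * q * √(R' l + R' (l + 1 / 2)) + C₆ * (R' l + R' (l + 1 / 2)) + θ₂ * q ^ 2) :
    f (L0 + τ₂ + Real.log 4) - f (L0 + τ₁ - Real.log 4) ≤ b / 4 * q ^ 2 := by
  have hl4 := log4_pos
  have hl4' := log4_le
  have hτ2 : 1 ≤ τ₂ := by linarith
  -- monotonicity
  have hUmono : ∀ a b, a0 - Real.log 4 ≤ a → a ≤ b → b ≤ T + Real.log 4 + 1 / 2 → U a ≤ U b := by
    intro a b h1 h2 h3
    have h4 := le_of_deriv_le (f := fun _ : ℝ => (0 : ℝ)) (g := fun l => U (l - L0))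
      (a := L0 + a) (b := L0 + b) (by linarith) (fun l hl => by
        have hl' : l ∈ Icc (L0 + a0 - Real.log 4) (L0 + T + Real.log 4 + 1 / 2) :=
          ⟨by linarith [hl.1], by linarith [hl.2]⟩
        exact ⟨0, R' l, hasDerivAt_const _ _, hU l hl', hR0 l hl'⟩)
    rw [add_sub_cancel_left, add_sub_cancel_left] at h4
    linarith
  have hUnn : ∀ t, a0 - Real.log 4 ≤ t → t ≤ T + Real.log 4 + 1 / 2 → 0 ≤ U t := fun t h1 h2 =>
    hU0.trans (hUmono _ _ le_rfl h1 h2)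
  set V : ℝ → ℝ := fun l => U (l - L0) + U (l + 1 / 2 - L0) with hV
  set S : ℝ → ℝ := fun l => R' l + R' (l + 1 / 2) with hS
  have hVd : ∀ l ∈ Icc (L0 + a0 - Real.log 4) (L0 + T + Real.log 4), HasDerivAt V (S l) l := by
    intro l hl
    have e1 := hU l ⟨hl.1, by linarith [hl.2]⟩
    have e2 := (hU (l + 1 / 2) ⟨by linarith [hl.1], by linarith [hl.2]⟩).comp l
      ((hasDerivAt_id l).add_const (1 / 2))
    rw [mul_one] at e2
    exact e1.add e2
  have hS0 : ∀ l ∈ Icc (L0 + a0 - Real.log 4) (L0 + T + Real.log 4), 0 ≤ S l := by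
    intro l hl
    exact add_nonneg (hR0 l ⟨hl.1, by linarith [hl.2]⟩)
      (hR0 (l + 1 / 2) ⟨by linarith [hl.1], by linarith [hl.2]⟩)
  have hβ : 0 < b / 16 := by positivity
  have hq20 : 0 < q ^ 2 := by positivity
  have hUt : 0 ≤ U τ₂ * τ₂ := mul_nonneg (hUnn τ₂ (by linarith) (by linarith)) (by linarith)
  -- first part
  have hsub1 : ∀ l ∈ Icc (L0 + τ₁ - Real.log 4) (L0 + τ₂ - 1 / 2),
      l ∈ Icc (L0 + a0 - Real.log 4) (L0 + T + Real.log 4) := fun l hl =>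
    ⟨by linarith [hl.1], by linarith [hl.2]⟩
  have hV1 : V (L0 + τ₂ - 1 / 2) - V (L0 + τ₁ - Real.log 4) ≤ 2 * U τ₂ := by
    simp only [hV]
    have e1 : L0 + τ₂ - 1 / 2 - L0 = τ₂ - 1 / 2 := by ring
    have e2 : L0 + τ₂ - 1 / 2 + 1 / 2 - L0 = τ₂ := by ring
    have e3 : L0 + τ₁ - Real.log 4 - L0 = τ₁ - Real.log 4 := by ring
    have e4 : L0 + τ₁ - Real.log 4 + 1 / 2 - L0 = τ₁ - Real.log 4 + 1 / 2 := by ring
    rw [e1, e2, e3, e4]
    have := hUmono (τ₂ - 1 / 2) τ₂ (by linarith) (by linarith) (by linarith)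
    have := hUnn (τ₁ - Real.log 4) (by linarith) (by linarith)
    have := hUnn (τ₁ - Real.log 4 + 1 / 2) (by linarith) (by linarith)
    linarith
  have p1 := drift_int (f := f) (U := V) (R := S) (a := L0 + τ₁ - Real.log 4)
    (b := L0 + τ₂ - 1 / 2) (C₄ := C₄) (C₆ := C₆) (θ₂ := θ₂) (q := q) (β := b / 16)
    (fun l hl => hdr l (hsub1 l hl)) (by linarith) hC₄ hq hβ (fun l hl => hS0 l (hsub1 l hl))
    (fun l hl => hVd l (hsub1 l hl)) (by
      have e5 : L0 + τ₂ - 1 / 2 - (L0 + τ₁ - Real.log 4) ≤ 2 * τ₂ := by linarith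
      have e6 : 0 ≤ L0 + τ₂ - 1 / 2 - (L0 + τ₁ - Real.log 4) := by linarith
      calc 4 * C₄ ^ 2 * (L0 + τ₂ - 1 / 2 - (L0 + τ₁ - Real.log 4)) *
            (V (L0 + τ₂ - 1 / 2) - V (L0 + τ₁ - Real.log 4))
          ≤ 4 * C₄ ^ 2 * (L0 + τ₂ - 1 / 2 - (L0 + τ₁ - Real.log 4)) * (2 * U τ₂) :=
            mul_le_mul_of_nonneg_left hV1 (by positivity)
        _ ≤ 4 * C₄ ^ 2 * (2 * τ₂) * (2 * U τ₂) := by
            refine mul_le_mul_of_nonneg_right ?_
              (mul_nonneg zero_le_two (hUnn τ₂ (by linarith) (by linarith)))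
            exact mul_le_mul_of_nonneg_left e5 (by positivity)
        _ = 16 * C₄ ^ 2 * (U τ₂ * τ₂) := by ring
        _ ≤ (b / 16) ^ 2 * M ^ 2 * (U τ₂ * τ₂) := mul_le_mul_of_nonneg_right hM1 hUt
        _ = (b / 16) ^ 2 * q ^ 2 := by rw [hq2]; ring)
  -- second part
  have hsub2 : ∀ l ∈ Icc (L0 + τ₂ - 1 / 2) (L0 + τ₂ + Real.log 4),
      l ∈ Icc (L0 + a0 - Real.log 4) (L0 + T + Real.log 4) := fun l hl =>
    ⟨by linarith [hl.1], by linarith [hl.2]⟩
  have he : e (τ₂ + 3) ≤ q ^ 2 / A := by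
    rw [le_div_iff₀ hA, hq2]; linarith
  have hV2 : V (L0 + τ₂ + Real.log 4) - V (L0 + τ₂ - 1 / 2) ≤ 2 * (CR * (q ^ 2 / A)) := by
    simp only [hV]
    have e1 : L0 + τ₂ + Real.log 4 - L0 = τ₂ + Real.log 4 := by ring
    have e2 : L0 + τ₂ + Real.log 4 + 1 / 2 - L0 = τ₂ + Real.log 4 + 1 / 2 := by ring
    have e3 : L0 + τ₂ - 1 / 2 - L0 = τ₂ - 1 / 2 := by ring
    have e4 : L0 + τ₂ - 1 / 2 + 1 / 2 - L0 = τ₂ := by ring
    rw [e1, e2, e3, e4]
    have c1 := hUmono (τ₂ + Real.log 4) (τ₂ + Real.log 4 + 1 / 2) (by linarith) (by linarith)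
      (by linarith)
    have c2 := hUnn (τ₂ - 1 / 2) (by linarith) (by linarith)
    have c3 := hUnn τ₂ (by linarith) (by linarith)
    have c4 := (hUe τ₂ ⟨by linarith, h2⟩).trans (mul_le_mul_of_nonneg_left he hCR)
    linarith
  have hqA : 0 ≤ q ^ 2 / A := by positivity
  have p2 := drift_int (f := f) (U := V) (R := S) (a := L0 + τ₂ - 1 / 2)
    (b := L0 + τ₂ + Real.log 4) (C₄ := C₄) (C₆ := C₆) (θ₂ := θ₂) (q := q) (β := b / 16)
    (fun l hl => hdr l (hsub2 l hl)) (by linarith) hC₄ hq hβ (fun l hl => hS0 l (hsub2 l hl))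
    (fun l hl => hVd l (hsub2 l hl)) (by
      have e5 : L0 + τ₂ + Real.log 4 - (L0 + τ₂ - 1 / 2) ≤ 2 := by linarith
      have e6 : 0 ≤ L0 + τ₂ + Real.log 4 - (L0 + τ₂ - 1 / 2) := by linarith
      calc 4 * C₄ ^ 2 * (L0 + τ₂ + Real.log 4 - (L0 + τ₂ - 1 / 2)) *
            (V (L0 + τ₂ + Real.log 4) - V (L0 + τ₂ - 1 / 2))
          ≤ 4 * C₄ ^ 2 * (L0 + τ₂ + Real.log 4 - (L0 + τ₂ - 1 / 2)) *
              (2 * (CR * (q ^ 2 / A))) := mul_le_mul_of_nonneg_left hV2 (by positivity)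
        _ ≤ 4 * C₄ ^ 2 * 2 * (2 * (CR * (q ^ 2 / A))) := by
            refine mul_le_mul_of_nonneg_right ?_ (by positivity)
            exact mul_le_mul_of_nonneg_left e5 (by positivity)
        _ = 16 * C₄ ^ 2 * CR * (q ^ 2 / A) := by ring
        _ ≤ (b / 16) ^ 2 * A * (q ^ 2 / A) := mul_le_mul_of_nonneg_right hA1 hqA
        _ = (b / 16) ^ 2 * q ^ 2 := by field_simp)
  -- the sum
  have s1 : C₆ * (V (L0 + τ₂ - 1 / 2) - V (L0 + τ₁ - Real.log 4)) ≤ b / 16 * q ^ 2 := by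
    have c1 : C₆ * (V (L0 + τ₂ - 1 / 2) - V (L0 + τ₁ - Real.log 4)) ≤ C₆ * (2 * U τ₂) :=
      mul_le_mul_of_nonneg_left hV1 hC₆
    have c2 : U τ₂ ≤ U τ₂ * τ₂ :=
      le_mul_of_one_le_right (hUnn τ₂ (by linarith) (by linarith)) hτ2
    have c3 : C₆ * (2 * U τ₂) ≤ C₆ * (2 * (U τ₂ * τ₂)) :=
      mul_le_mul_of_nonneg_left (by linarith) hC₆
    have c4 : C₆ * (2 * (U τ₂ * τ₂)) = 32 * C₆ * (U τ₂ * τ₂) / 16 := by ring
    have c5 : 32 * C₆ * (U τ₂ * τ₂) ≤ b * M ^ 2 * (U τ₂ * τ₂) :=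
      mul_le_mul_of_nonneg_right hM2 hUt
    rw [hq2]
    linarith
  have s2 : C₆ * (V (L0 + τ₂ + Real.log 4) - V (L0 + τ₂ - 1 / 2)) ≤ b / 16 * q ^ 2 := by
    have c1 := mul_le_mul_of_nonneg_left hV2 hC₆
    have c2 : 32 * (C₆ * CR) * (q ^ 2 / A) ≤ b * A * (q ^ 2 / A) :=
      mul_le_mul_of_nonneg_right hA2 hqA
    have c3 : b * A * (q ^ 2 / A) = b * q ^ 2 := by field_simp
    have c4 : C₆ * (2 * (CR * (q ^ 2 / A))) = 32 * (C₆ * CR) * (q ^ 2 / A) / 16 := by ring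
    linarith
  have s3 : θ₂ * (L0 + τ₂ - 1 / 2 - (L0 + τ₁ - Real.log 4)) * q ^ 2 +
      θ₂ * (L0 + τ₂ + Real.log 4 - (L0 + τ₂ - 1 / 2)) * q ^ 2 ≤ b / 16 * q ^ 2 := by
    have e : θ₂ * (L0 + τ₂ - 1 / 2 - (L0 + τ₁ - Real.log 4)) * q ^ 2 +
      θ₂ * (L0 + τ₂ + Real.log 4 - (L0 + τ₂ - 1 / 2)) * q ^ 2 =
      θ₂ * (τ₂ - τ₁ + 2 * Real.log 4) * q ^ 2 := by ring
    rw [e]
    refine mul_le_mul_of_nonneg_right (le_trans ?_ hθ) (sq_nonneg q)
    exact mul_le_mul_of_nonneg_left (by linarith) hθ₂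
  have hb4 : b / 4 * q ^ 2 = 4 * (b / 16 * q ^ 2) := by ring
  rw [hb4]
  linarith

end Crest.Agent.R234.Rn_870
end
end

-- ▼ part R234/Rn2_870
section

/-!
# Row 234, N9-AV, part 2 (helper870): the environment of a contact situation

`Env W π κ h₀ δ c0 Cc`: `CylAS`, lower density, coarse bounds of mass and energy.
Instances of 761's `Flow`, `WFlow`, `Ker`, `Geo`, `Centre`, error bounds, mass at good centres, mass at
the contact centre, all for the profile `(1 - t)₊⁴`.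
-/

set_option autoImplicit false

open MeasureTheory Set Function Filter Topology Metric
open Crest.GeometryTopology.Submanifold
open Crest.Agent.R234.Vf_884 Crest.Agent.R234.Ar_870 Crest.Agent.R234.Cy_870
open Crest.Agent.R234.Wi_870 Crest.Agent.R234.Asl_214
open Crest.Agent.R234.Avg_387 (CW av dd cw_dd Md integral_dd Md_pos eea RRa)
open Crest.Agent.R234.Core_809 (w0 w2 prof0 Cls part Lam)
open Crest.Agent.R234.We_822 (BB BB_one erAS erAS_le CAS CAS_nonneg flow_as enR muR tb_le_enR mb_le_muR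
  mass_as CMU CMU_nonneg)
open Crest.Agent.R234.Well_761 (etaC etaC_nonneg)
open scoped ENNReal NNReal

noncomputable section

namespace Crest.Agent.R234.Rn_870

variable {m n k : ℕ} {π : Euc k →L[ℝ] Euc m} {κ : Euc k →L[ℝ] Euc n}
  {W : Measure (Euc k × L k)} {h₀ δ c0 Cc : ℝ}

/-! ### the profile -/

theorem w0θ' (t : ℝ) : w0.θ' t = -(4 * (max (1 - t) 0) ^ 3) := rfl

theorem mx_le {t : ℝ} (ht : 0 ≤ t) : max (1 - t) 0 ≤ 1 := max_le (by linarith) zero_le_one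

theorem mx_nonneg (t : ℝ) : 0 ≤ max (1 - t) 0 := le_max_right _ _

theorem w0_nonneg (t : ℝ) : 0 ≤ w0.θ t := pow_nonneg (mx_nonneg t) 4

theorem w0_le {t : ℝ} (ht : 0 ≤ t) : w0.θ t ≤ 1 := pow_le_one₀ (mx_nonneg t) (mx_le ht)

theorem abs_w0' {t : ℝ} (ht : 0 ≤ t) : |w0.θ' t| ≤ 4 := by
  rw [w0θ', abs_neg, abs_of_nonneg (by have := mx_nonneg t; positivity)]
  have := pow_le_one₀ (n := 3) (mx_nonneg t) (mx_le ht)
  linarith

theorem abs_w2 {t : ℝ} (ht : 0 ≤ t) : |w2 t| ≤ 12 := by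
  unfold w2
  rw [abs_of_nonneg (by have := mx_nonneg t; positivity)]
  have := pow_le_one₀ (n := 2) (mx_nonneg t) (mx_le ht)
  linarith

theorem t_mx {t : ℝ} (ht : 0 ≤ t) (j : ℕ) : t * (max (1 - t) 0) ^ (j + 1) ≤ 1 := by
  rcases le_total t 1 with h | h
  · have h1 := pow_le_one₀ (n := j + 1) (mx_nonneg t) (mx_le ht)
    have h2 := pow_nonneg (mx_nonneg t) (j + 1)
    calc t * (max (1 - t) 0) ^ (j + 1) ≤ 1 * 1 := mul_le_mul h h1 h2 zero_le_one
      _ = 1 := one_mul 1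
  · rw [max_eq_right (by linarith), zero_pow (by lia), mul_zero]
    exact zero_le_one

theorem bdA : Bd w0.θ w0.θ' 12 where
  b0 t ht := by rw [abs_of_nonneg (w0_nonneg t)]; exact (w0_le ht).trans (by norm_num)
  b1 t ht := (abs_w0' ht).trans (by norm_num)
  b2 t ht := by
    have h1 := t_mx ht 2
    have h2 : t * w0.θ' t = -(4 * (t * (max (1 - t) 0) ^ (2 + 1))) := by rw [w0θ']; ring
    rw [h2, abs_neg, abs_of_nonneg (by have := mx_nonneg t; positivity)]
    linarith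

theorem bdB : Bd w0.θ' w2 12 where
  b0 t ht := (abs_w0' ht).trans (by norm_num)
  b1 t ht := abs_w2 ht
  b2 t ht := by
    have h1 := t_mx ht 1
    have h2 : t * w2 t = 12 * (t * (max (1 - t) 0) ^ (1 + 1)) := by unfold w2; ring
    rw [h2, abs_of_nonneg (by have := mx_nonneg t; positivity)]
    linarith

theorem w0_low {t : ℝ} (ht : t ≤ 1 / 4) : ((3:ℝ) / 4) ^ 4 ≤ w0.θ t :=
  pow_le_pow_left₀ (by norm_num) (le_max_of_le_left (by linarith)) 4

theorem w0'_low {t : ℝ} (ht : t ≤ 1 / 4) : w0.θ' t ≤ -(27 / 16) := by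
  rw [w0θ']
  have h1 : ((3:ℝ) / 4) ^ 3 ≤ (max (1 - t) 0) ^ 3 :=
    pow_le_pow_left₀ (by norm_num) (le_max_of_le_left (by linarith)) 3
  norm_num at h1 ⊢
  linarith

theorem ker0 : Well_761.Ker (kap w0.θ') (2 * 4) (2 * (27 / 16)) :=
  ker_kap prof0 (fun _ ht => abs_w0' ht) (by norm_num) (fun _ _ ht => w0'_low ht)

theorem w0_low1 : ∀ t, 0 ≤ t → t ≤ Real.exp (-2 * 1) → ((3:ℝ) / 4) ^ 4 ≤ w0.θ t :=
  fun _ _ ht => w0_low (ht.trans Sml_870.exp_neg_two_le)

/-! ### the environment -/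

/-- what is used of the varifold -/
structure Env (W : Measure (Euc k × L k)) (π : Euc k →L[ℝ] Euc m) (κ : Euc k →L[ℝ] Euc n)
    (h₀ δ c0 Cc : ℝ) : Prop where
  as : CylAS W π κ 0 4 h₀ δ
  δ0 : 0 ≤ δ
  δ1 : δ ≤ 1 / 16
  hh : 0 ≤ h₀
  hh1 : h₀ ≤ 1 / 16
  cpos : 0 < c0
  Cnn : 0 ≤ Cc
  low : ∀ᵐ z ∂W, ∀ r, 0 < r → ‖π z.1 - 0‖ + r ≤ 4 →
    ENNReal.ofReal (c0 * r ^ m) ≤ W (closedBall z.1 r ×ˢ univ)
  mass : ∀ y : Euc m, ‖y‖ ≤ 3 → ∀ r, 0 < r → h₀ ≤ r → r ≤ 1 / 4 → MB W π y r ≤ Cc * r ^ m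
  ener : ∀ y : Euc m, ‖y‖ ≤ 3 → ∀ r, 0 < r → h₀ ≤ r → r ≤ 1 / 4 →
    TB W π y r ≤ Cc * (h₀ / r) ^ 2 * r ^ m

/-- the common constant of the flows -/
def KF : ℝ := (12 * BB + 6 * 12) + (1 * (1 + etaC / 8) + 12 * (22 + 3 / 2 * (2 + etaC / 8)))

theorem KF_pos : 0 < KF := by
  have := BB_one
  have := etaC_nonneg
  unfold KF; positivity

theorem flow_mono {H V : Type*} [PseudoMetricSpace H] [MeasurableSpace H]
    [NormedAddCommGroup V] [InnerProductSpace ℝ V] [MeasurableSpace V] {m : ℕ} {κ : ℝ → ℝ}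
    {mu en : Measure (H × V)} {R : H → ℝ → ℝ} {er : H → ℝ → ℝ → ℝ} {K K' : ℝ} {x₀ : H} {ρ₀ : ℝ}
    (h : Well_761.Flow m κ mu en R er K x₀ ρ₀) (hK : K ≤ K') :
    Well_761.Flow m κ mu en R er K' x₀ ρ₀ where
  K0 := h.K0.trans hK
  Rnn := h.Rnn
  flow x l hx F G A q hq hT := by
    obtain ⟨d, hd, h1, h2⟩ := h.flow x l hx F G A q hq hT
    refine ⟨d, hd, h1.trans ?_, fun S hS hF => (h2 S hS hF).trans ?_⟩
    · have : K * q ^ 2 * Real.exp (-(m * l)) * (en (Well_761.cyl x (Real.exp l) univ)).toReal ≤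
          K' * q ^ 2 * Real.exp (-(m * l)) * (en (Well_761.cyl x (Real.exp l) univ)).toReal := by
        gcongr
      linarith
    · have : K * (Real.exp (2 * l) + q ^ 2) * Real.exp (-(m * l)) *
          (en (Well_761.cyl x (Real.exp l) S)).toReal ≤ K' * (Real.exp (2 * l) + q ^ 2) *
            Real.exp (-(m * l)) * (en (Well_761.cyl x (Real.exp l) S)).toReal := by
        gcongr
      linarith

theorem wflow_mono {H V : Type*} [PseudoMetricSpace H] [MeasurableSpace H]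
    [NormedAddCommGroup V] [InnerProductSpace ℝ V] [MeasurableSpace V] {m : ℕ} {κ : ℝ → ℝ}
    {mu en : Measure (H × V)} {er : H → ℝ → ℝ → ℝ} {K K' θ₁ : ℝ} {x₀ : H} {ρ₀ : ℝ}
    (h : Well_761.WFlow m κ mu en er K θ₁ x₀ ρ₀) (hK : K ≤ K') :
    Well_761.WFlow m κ mu en er K' θ₁ x₀ ρ₀ where
  K0 := h.K0.trans hK
  θ0 := h.θ0
  flow x l hx C q hq hC := by
    obtain ⟨d, hd, h1⟩ := h.flow x l hx C q hq hC
    refine ⟨d, hd, h1.trans ?_⟩
    have : K * (Real.exp (2 * l) + q ^ 2) * Real.exp (-(m * l)) *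
          (en (Well_761.cyl x (Real.exp l) univ)).toReal ≤ K' * (Real.exp (2 * l) + q ^ 2) *
            Real.exp (-(m * l)) * (en (Well_761.cyl x (Real.exp l) univ)).toReal := by
      gcongr
    linarith

namespace Env

variable (h : Env W π κ h₀ δ c0 Cc)

include h

theorem flow : Well_761.Flow m (kap w0.θ') (muOf W π κ) (enOf W π κ)
    (fun x l => RR W π x w0.θ' l) (erAS W π 12 δ h₀) KF 0 4 :=
  flow_mono (flow_as h.as h.δ0 h.hh le_rfl prof0 bdA bdB (fun t _ => w0_nonneg t)) (by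
    have := etaC_nonneg
    unfold KF
    have : 0 ≤ 1 * (1 + etaC / 8) + 12 * (22 + 3 / 2 * (2 + etaC / 8)) := by positivity
    linarith)

theorem wflow : Well_761.WFlow m (kap w0.θ') (muOf W π κ) (enOf W π κ)
    (CylAS.erwF W π κ (12 * (15 + etaC / 8)) δ h₀) KF (4 * δ) 0 4 :=
  wflow_mono (h.as.wflow h.δ0 (by linarith [h.δ1]) le_rfl le_rfl prof0 (Kg := 1)
    (fun _ ht => w0_le ht) bdA bdB) (by
    have := BB_one
    unfold KF
    linarith)

theorem geo : Well_761.Geo m (muOf W π κ) (TT W π κ) c0 0 4 where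
  null := null_TT W π κ
  cpos := h.cpos
  lower _ _ hxy _ hr hd := lower_TT h.as.sp h.low hxy hr hd

theorem fin_en (x : Euc m) (r : ℝ) : enOf W π κ (Well_761.cyl x r univ) ≠ ⊤ :=
  We_822.enOf_cyl_ne_top (fun _ => h.as.fr x _) r

theorem fin_mu (x : Euc m) (r : ℝ) : muOf W π κ (Well_761.cyl x r univ) ≠ ⊤ :=
  We_822.muOf_cyl_ne_top (fun _ => h.as.fr x _) r

end Env

theorem exp_mul_sq (l : ℝ) : Real.exp (2 * l) = Real.exp l ^ 2 := by
  have := Real.exp_nat_mul l 2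
  exact_mod_cast this

theorem exp_cancel (a : ℝ) : Real.exp (-a) * Real.exp a = 1 := by
  rw [← Real.exp_add]; simp

/-- `erAS` grows at most quadratically in `q ≥ 1` -/
theorem erAS_quad (has : CylAS W π κ 0 4 h₀ δ) (h0 : 0 ≤ δ) (hh : 0 ≤ h₀) {K : ℝ} (hK : 0 ≤ K)
    (x : Euc m) (l : ℝ) {q : ℝ} (hq : 1 ≤ q) :
    erAS W π K δ h₀ x l q ≤ q ^ 2 * erAS W π K δ h₀ x l 1 := by
  have ht := has.tb_nonneg x l
  have hm := mb_nonneg (W := W) (π := π) x l
  have hBB := BB_one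
  have hE := Real.exp_pos l
  have hs1 := Real.sqrt_nonneg (tb W π x l)
  have hs2 := Real.sqrt_nonneg (mb W π x l)
  have hs3 := Real.sqrt_nonneg δ
  have hq1 : q ≤ q ^ 2 := by nlinarith
  have hq2 : 1 ≤ q ^ 2 := by nlinarith
  unfold erAS
  have a1 : 0 ≤ K * (4 + Real.exp l) * δ *
      (√(tb W π x l) * √(mb W π x l) + h₀ * Real.exp l * mb W π x l) := by positivity
  have a2 : 0 ≤ K * BB * δ * h₀ * Real.exp l * (√(tb W π x l) * √(mb W π x l)) := by positivity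
  have a3 : 0 ≤ K * (δ * BB) * tb W π x l := by positivity
  have a4 : 0 ≤ K * √δ * tb W π x l := by positivity
  nlinarith [mul_le_mul_of_nonneg_left hq1 a1, mul_le_mul_of_nonneg_left hq2 a2,
    mul_le_mul_of_nonneg_left hq2 a3, mul_le_mul_of_nonneg_left hq1 a4]

namespace Env

variable (h : Env W π κ h₀ δ c0 Cc)

include h

/-- **error of the flow at good centres** -/
theorem her {x : Euc m} {l q Cμ β : ℝ} (hCμ : 0 ≤ Cμ) (hβ : 0 ≤ β) (hq : 0 < q) (hl : l ≤ 0)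
    (hb : δ * h₀ * Real.exp l ≤ β * min q 1)
    (h1 : (enOf W π κ (Well_761.cyl x (Real.exp l) univ)).toReal ≤ Real.exp (m * l))
    (h2 : (enOf W π κ (Well_761.cyl x (Real.exp l) univ)).toReal * Real.exp (2 * l) ≤
      q ^ 2 * Real.exp (m * l))
    (h3 : muOf W π κ (Well_761.cyl x (Real.exp l) univ) ≤
      ENNReal.ofReal (Cμ * Real.exp (m * l))) :
    erAS W π 12 δ h₀ x l q ≤ CAS 12 1 1 Cμ * (√δ + β) * q ^ 2 := by
  have hE : Real.exp l ≤ 1 := Real.exp_le_one_iff.2 hl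
  have htbE := tb_le_enR (κ := κ) h.as x l
  have hen : enR W π κ x l = (enOf W π κ (Well_761.cyl x (Real.exp l) univ)).toReal := rfl
  have htb1 : tb W π x l ≤ Real.exp (2 * l) := by
    refine htbE.trans ?_
    rw [hen]
    refine (mul_le_mul_of_nonneg_left h1 (Real.exp_pos _).le).trans (le_of_eq ?_)
    rw [← Real.exp_add]; congr 1; ring
  have htb2 : tb W π x l ≤ q ^ 2 := by
    refine htbE.trans ?_
    rw [hen]
    have e : Real.exp ((2 - m) * l) = Real.exp (2 * l) * Real.exp (-(m * l)) := by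
      rw [← Real.exp_add]; congr 1; ring
    rw [e]
    have h4 := mul_le_mul_of_nonneg_right h2 (Real.exp_pos (-(m * l))).le
    have h5 : q ^ 2 * Real.exp (m * l) * Real.exp (-(m * l)) = q ^ 2 := by
      have := exp_cancel (m * l)
      linear_combination q ^ 2 * this
    rw [h5] at h4
    linarith
  have htb3 : Real.exp (-2 * l) * tb W π x l ≤ 1 := by
    have h4 := mul_le_mul_of_nonneg_left htb1 (Real.exp_pos (-2 * l)).le
    have h5 : Real.exp (-2 * l) * Real.exp (2 * l) = 1 := by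
      rw [← Real.exp_add]
      have : -2 * l + 2 * l = 0 := by ring
      rw [this, Real.exp_zero]
    rwa [h5] at h4
  have hmb : mb W π x l ≤ Cμ := by
    refine (mb_le_muR (κ := κ) h.as x l).trans ?_
    have h4 : muR W π κ x l ≤ Cμ * Real.exp (m * l) :=
      ENNReal.toReal_le_of_le_ofReal (by positivity) h3
    refine (mul_le_mul_of_nonneg_left h4 (Real.exp_pos _).le).trans (le_of_eq ?_)
    have h5 : Real.exp (-m * l) * Real.exp (m * l) = 1 := by
      rw [← Real.exp_add]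
      have : -m * l + m * l = 0 := by ring
      rw [this, Real.exp_zero]
    linear_combination Cμ * h5
  have hδ1 : δ ≤ 1 := by linarith [h.δ1]
  have hh1 : h₀ ≤ 1 := by linarith [h.hh1]
  rcases le_or_gt q 1 with hq1 | hq1
  · exact erAS_le h.as (by norm_num) h.δ0 hδ1 h.hh hh1 hq hq1 hl zero_le_one hβ zero_le_one
      (by rw [one_mul]; exact htb2) htb3 hmb (by rwa [min_eq_left hq1] at hb)
  · have h4 := erAS_quad h.as h.δ0 h.hh (by norm_num : (0:ℝ) ≤ 12) x l hq1.le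
    have h5 := erAS_le h.as (K := 12) (by norm_num) h.δ0 hδ1 h.hh hh1 (q := 1) one_pos le_rfl hl
      (a := 1) (b := β) (lam := 1) (Cμ := Cμ) zero_le_one hβ zero_le_one
      (by
        have : Real.exp (2 * l) ≤ 1 := Real.exp_le_one_iff.2 (by linarith)
        linarith) htb3 hmb (by rwa [min_eq_right hq1.le] at hb)
    refine h4.trans ((mul_le_mul_of_nonneg_left h5 (sq_nonneg q)).trans (le_of_eq ?_))
    ring

/-- **error of the wells at good centres** -/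
theorem herw {x : Euc m} {l q Cμ β s₁ : ℝ} (hCμ : 0 ≤ Cμ) (hs : Real.exp l ≤ s₁) (hq : 0 < q)
    (hb : h₀ * s₁ ≤ β * q)
    (h3 : muOf W π κ (Well_761.cyl x (Real.exp l) univ) ≤
      ENNReal.ofReal (Cμ * Real.exp (m * l))) :
    CylAS.erwF W π κ (12 * (15 + etaC / 8)) δ h₀ x l q ≤
      12 * (15 + etaC / 8) * δ * Cμ * (β ^ 2 + s₁ ^ 2 + h₀ ^ 2) * q ^ 2 := by
  have hη := etaC_nonneg
  have hδ := h.δ0
  have hh := h.hh
  have hE := Real.exp_pos l
  have hs0 : 0 < s₁ := hE.trans_le hs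
  have h4 : muR W π κ x l ≤ Cμ * Real.exp (m * l) :=
    ENNReal.toReal_le_of_le_ofReal (by positivity) h3
  have h5 : Real.exp (-(m * l)) * (muOf W π κ (Well_761.cyl x (Real.exp l) univ)).toReal ≤
      Cμ := by
    refine (mul_le_mul_of_nonneg_left h4 (Real.exp_pos _).le).trans (le_of_eq ?_)
    have := exp_cancel (m * l)
    linear_combination Cμ * this
  have h50 : 0 ≤ Real.exp (-(m * l)) *
      (muOf W π κ (Well_761.cyl x (Real.exp l) univ)).toReal :=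
    mul_nonneg (Real.exp_pos _).le ENNReal.toReal_nonneg
  have h6 : (h₀ ^ 2 + q ^ 2) * Real.exp (2 * l) + h₀ ^ 2 * q ^ 2 ≤
      (β ^ 2 + s₁ ^ 2 + h₀ ^ 2) * q ^ 2 := by
    rw [exp_mul_sq]
    have e1 : Real.exp l ^ 2 ≤ s₁ ^ 2 := pow_le_pow_left₀ hE.le hs 2
    have e2 : (h₀ * s₁) ^ 2 ≤ (β * q) ^ 2 := pow_le_pow_left₀ (by positivity) hb 2
    have e3 : h₀ ^ 2 * Real.exp l ^ 2 ≤ h₀ ^ 2 * s₁ ^ 2 :=
      mul_le_mul_of_nonneg_left e1 (sq_nonneg _)
    have e4 : q ^ 2 * Real.exp l ^ 2 ≤ q ^ 2 * s₁ ^ 2 :=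
      mul_le_mul_of_nonneg_left e1 (sq_nonneg _)
    nlinarith
  unfold CylAS.erwF
  calc _ ≤ 12 * (15 + etaC / 8) * δ * ((β ^ 2 + s₁ ^ 2 + h₀ ^ 2) * q ^ 2) * Cμ := by
        refine mul_le_mul (mul_le_mul_of_nonneg_left h6 (by positivity)) h5 h50 (by positivity)
    _ = _ := by ring

/-- coarse mass of a solid cylinder -/
theorem mu_coarse {y : Euc m} (hy : ‖y‖ ≤ 3) {r : ℝ} (hr : 0 < r) (hr0 : h₀ ≤ 2 * r)
    (hr1 : r ≤ 1 / 8) : (muOf W π κ (Well_761.cyl y r univ)).toReal ≤ Cc * 2 ^ m * r ^ m := by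
  have hcm : MeasurableSet (Well_761.cyl y r (univ : Set (Euc n))) :=
    Metric.isClosed_closedBall.measurableSet.prod MeasurableSet.univ
  have h1 := h.mass y hy (2 * r) (by positivity) hr0 (by linarith)
  have h2 : (muOf W π κ (Well_761.cyl y r univ)).toReal ≤ MB W π y (2 * r) := by
    unfold muOf MB
    rw [Measure.map_apply (measurable_bh π κ) hcm]
    refine ENNReal.toReal_mono (lt_of_le_of_lt (measure_mono (subset_univ _)) h.as.fin).ne
      (measure_mono ?_)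
    rintro p ⟨hp, -⟩
    change ‖π p.1 - y‖ < 2 * r
    rw [mem_closedBall, dist_eq_norm] at hp
    change ‖π p.1 - y‖ ≤ r at hp
    linarith
  refine h2.trans (h1.trans (le_of_eq ?_))
  rw [mul_pow]; ring


/-- the constant of the mass at good centres -/
def _root_.Crest.Agent.R234.Rn_870.CMr (m : ℕ) (Cc : ℝ) : ℝ :=
  CMU m ((3 / 4) ^ 4) 1 12 (Cc * 2 ^ m) 1

/-- **mass at good centres** -/
theorem hms {x' : Euc m} {l0 l1 lam : ℝ} (hx : ‖x'‖ ≤ 3) (hl : l0 ≤ l1)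
    (hr0 : h₀ ≤ 2 * Real.exp l1) (hr1 : Real.exp l1 ≤ 1 / 8) (hlam : 0 ≤ lam)
    (hen : ∀ l ∈ Icc l0 l1,
      (enOf W π κ (Well_761.cyl x' (Real.exp l) univ)).toReal ≤ lam * Real.exp (m * l))
    (hA : lam * (l1 - l0) ≤ 1)
    (hsmall : (((3:ℝ) / 4) ^ 4)⁻¹ * Real.exp (m * 1) * (4 * 12 * δ * h₀ ^ 2) * (l1 - l0) ≤ 1 / 2) :
    ∀ l ∈ Icc l0 l1, muOf W π κ (Well_761.cyl x' (Real.exp l) univ) ≤
      ENNReal.ofReal (CMr m Cc * Real.exp (m * l)) := by
  intro l hl'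
  have hCc := h.Cnn
  have hl10 : l1 ≤ 0 := by
    have : Real.exp l1 ≤ 1 := by linarith
    exact Real.exp_le_one_iff.1 this
  have htop : muR W π κ x' l1 ≤ Cc * 2 ^ m * Real.exp (m * l1) := by
    have h1 := h.mu_coarse hx (Real.exp_pos l1) hr0 hr1
    rw [← Real.exp_nat_mul] at h1
    exact h1
  have h2 := mass_as h.as h.δ0 (by linarith [h.δ1]) h.hh prof0
    (fun t _ => w0_nonneg t) bdA (c := (3 / 4) ^ 4) (a := 1) (by norm_num) zero_le_one w0_low1 hl
    hl10 (x := x') (by rw [sub_zero]; linarith) hlam (C1 := Cc * 2 ^ m) (A := 1) (by positivity) hA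
    hen htop hsmall l hl'
  exact (ENNReal.le_ofReal_iff_toReal_le (h.fin_mu x' _) (by
    have := CMU_nonneg (m := m) (c := (3 / 4) ^ 4) (a := 1) (K := 12) (C1 := Cc * 2 ^ m) (A := 1)
      (by norm_num) (by norm_num) (by positivity) zero_le_one
    unfold CMr
    positivity)).2 h2


/-- a point of the support near `x` -/
theorem exists_TT {x : Euc m} {ρ : ℝ} (hpos : 0 < W {p | ‖π p.1 - x‖ ≤ ρ}) :
    ∃ (x' : Euc m) (p : Euc n), (x', p) ∈ TT W π κ ∧ dist x' x ≤ ρ := by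
  by_contra hcon
  push Not at hcon
  have hcm : MeasurableSet (Well_761.cyl x ρ (univ : Set (Euc n))) :=
    Metric.isClosed_closedBall.measurableSet.prod MeasurableSet.univ
  have h1 : muOf W π κ (Well_761.cyl x ρ univ) = 0 := by
    refine measure_mono_null ?_ (null_TT W π κ)
    rintro ⟨x', p⟩ ⟨hz, -⟩ hT
    have := hcon x' p hT
    rw [mem_closedBall] at hz
    linarith
  unfold muOf at h1
  rw [Measure.map_apply (measurable_bh π κ) hcm] at h1
  refine hpos.ne' (measure_mono_null ?_ h1)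
  intro p hp
  refine ⟨?_, mem_univ _⟩
  rw [mem_closedBall, dist_eq_norm]
  exact hp

/-- **mass at the contact centre** -/
theorem hmass {x : Euc m} {lmin lmax : ℝ} {N : ℝ → (Euc n → ℝ) → ℝ} {C₅ : ℝ}
    (hN : Well_761.Centre m (kap w0.θ') (muOf W π κ) x lmin lmax N C₅) {l ρ : ℝ}
    (hl : lmin ≤ l - Real.log 4) (hl2 : l ≤ lmax)
    (hpos : 0 < W {p | ‖π p.1 - x‖ ≤ ρ}) (hρ : ρ ≤ Real.exp l / 16)
    (hx : ‖x‖ + Real.exp l ≤ 4) :
    2 * (27 / 16) * (c0 / 4 ^ m) / C₅ ≤ N l (fun _ => (1:ℝ)) := by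
  have hlog : 0 < Real.log 4 := Real.log_pos (by norm_num)
  have hC₅ : 0 < C₅ := one_pos.trans_le hN.C1
  have hE := Real.exp_pos l
  obtain ⟨x', p, hT, hd⟩ := h.exists_TT hpos
  have e1 : Real.exp (l - Real.log 4) = Real.exp l / 4 := by
    rw [Real.exp_sub, Real.exp_log (by norm_num)]
  have h1 := Well_761.nu_ge (m := m) ker0 (x := x) (x' := x') (p := p) (l := l - Real.log 4)
    (F := fun _ : Euc n => (1:ℝ)) (mu := muOf W π κ) measurable_const (M := 1)
    (fun _ => by simp) (fun _ => zero_le_one) (b := 1) zero_le_one (fun _ _ => le_rfl)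
    (by rw [e1]; linarith) (c0 := c0) h.cpos.le (h.fin_mu x _) (by
      refine h.geo.lower x' p hT _ (by positivity) ?_
      rw [e1, dist_zero_right]
      have := norm_sub_norm_le x' x
      rw [← dist_eq_norm] at this
      linarith)
  rw [one_mul] at h1
  have h2 := hN.nu_le x (l - Real.log 4) (fun _ => (1:ℝ)) 1 hl (by linarith)
    (by rw [dist_self]; positivity) measurable_const (fun _ => zero_le_one) (fun _ => le_rfl)
  rw [sub_add_cancel] at h2
  rw [div_le_iff₀ hC₅]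
  calc 2 * (27 / 16) * (c0 / 4 ^ m) ≤ C₅ * N l (fun _ => (1:ℝ)) := h1.trans h2
    _ = _ := mul_comm _ _

end Env

/-! ### the class of the core -/

/-- the constant of the lower density -/
def clow (m : ℕ) : ℝ := ome m / 2 ^ m / 8 ^ m

theorem clow_pos (m : ℕ) : 0 < clow m := by
  have := ome_pos m
  unfold clow
  positivity

/-- lower density of the part, all radii -/
theorem low_cls {Q : ℕ} {D : ℝ} {U : Set (Euc k)} {Dd : VarifoldData m k}
    (h : Cls Q δ D π κ U Dd) (hm : 1 ≤ m) (hD1 : D ≤ 1 / 4) :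
    ∀ᵐ z ∂(part π κ Dd), ∀ r, 0 < r → ‖π z.1 - 0‖ + r ≤ 4 →
      ENNReal.ofReal (clow m * r ^ m) ≤ part π κ Dd (closedBall z.1 r ×ˢ univ) := by
  have hcm : MeasurableSet (Cy_870.cyl π κ 0 4 1 ×ˢ (univ : Set (L k))) :=
    (isClosed_cyl π κ 0 4 1).measurableSet.prod MeasurableSet.univ
  obtain ⟨T, T', hT, hg, hst⟩ := h.ex
  unfold part
  filter_upwards [ae_restrict_mem hcm, ae_restrict_of_ae h.hgt,
    ae_restrict_of_ae (Sml_870.ae_mem_support h.int)] with z hz hh hsup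
  have hh' := hh hz.1
  have h1 : ‖κ z.1‖ ≤ 1 / 2 :=
    (sq_le_sq₀ (norm_nonneg _) (by norm_num)).1 (by linarith)
  have key : ∀ r, 0 < r → r ≤ 1 / 2 → ‖π z.1 - 0‖ + r ≤ 4 →
      ENNReal.ofReal (ome m / 2 ^ m * r ^ m) ≤
        (VD Dd).restrict (Cy_870.cyl π κ 0 4 1 ×ˢ univ) (closedBall z.1 r ×ˢ univ) := by
    intro r hr hr1 hdom
    have hsub : Metric.closedBall z.1 r ⊆ Cy_870.cyl π κ 0 4 1 := by
      intro w hw
      rw [Metric.mem_closedBall, dist_eq_norm] at hw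
      have hn := h.sp.norm_sq (w - z.1)
      have h2 : ‖π (w - z.1)‖ ≤ r :=
        (sq_le_sq₀ (norm_nonneg _) hr.le).1
          (by nlinarith [sq_nonneg ‖κ (w - z.1)‖, norm_nonneg (w - z.1)])
      have h3 : ‖κ (w - z.1)‖ ≤ r :=
        (sq_le_sq₀ (norm_nonneg _) hr.le).1
          (by nlinarith [sq_nonneg ‖π (w - z.1)‖, norm_nonneg (w - z.1)])
      have h4 : π w - 0 = (π z.1 - 0) + π (w - z.1) := by rw [map_sub]; abel
      have h5 : κ w = κ z.1 + κ (w - z.1) := by rw [map_sub]; abel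
      refine ⟨?_, ?_⟩
      · rw [h4]; exact (norm_add_le _ _).trans (by linarith)
      · rw [h5]; exact (norm_add_le _ _).trans (by linarith)
    have h6 := Ex_46.low_mass h.int h.isOpen hT hg hst hm hsup hr
      (Metric.ball_subset_closedBall.trans (hsub.trans h.dom))
    rw [Measure.restrict_apply (Metric.isClosed_closedBall.measurableSet.prod MeasurableSet.univ),
      Set.prod_inter_prod, univ_inter, inter_eq_left.2 hsub,
      VD_prod_univ h.int Metric.isClosed_closedBall.measurableSet]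
    exact h6.trans (measure_mono Metric.ball_subset_closedBall)
  intro r hr hdom
  have hom := ome_pos m
  rcases le_or_gt r (1 / 2) with hr1 | hr1
  · refine le_trans (ENNReal.ofReal_le_ofReal ?_) (key r hr hr1 hdom)
    have h8 : (1:ℝ) ≤ 8 ^ m := one_le_pow₀ (by norm_num)
    have : clow m ≤ ome m / 2 ^ m := by
      unfold clow
      exact div_le_self (by positivity) h8
    gcongr
  · refine le_trans (ENNReal.ofReal_le_ofReal ?_) ((key (1 / 2) (by norm_num) le_rfl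
      (by linarith)).trans (measure_mono (prod_mono (closedBall_subset_closedBall hr1.le) le_rfl)))
    have hr4 : r ≤ 4 := by
      have := norm_nonneg (π z.1 - 0)
      linarith
    have h9 : r ^ m ≤ 8 ^ m * (1 / 2) ^ m := by
      rw [← mul_pow]
      norm_num
      exact pow_le_pow_left₀ hr.le hr4 m
    unfold clow
    calc ome m / 2 ^ m / 8 ^ m * r ^ m ≤ ome m / 2 ^ m / 8 ^ m * (8 ^ m * (1 / 2) ^ m) := by gcongr
      _ = _ := by
        have h8 : (8:ℝ) ^ m ≠ 0 := by positivity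
        field_simp

/-- **the class of the core gives `Env`** -/
theorem env_cls (m Q : ℕ) (hm : 1 ≤ m) : ∃ Cc : ℝ, 1 ≤ Cc ∧ ∀ {n k : ℕ}
    {π : Euc k →L[ℝ] Euc m} {κ : Euc k →L[ℝ] Euc n} {U : Set (Euc k)} {Dd : VarifoldData m k}
    {δ D : ℝ}, Cls Q δ D π κ U Dd → D ≤ 1 / 256 → 0 ≤ δ → δ ≤ 1 / 16 →
      Env (part π κ Dd) π κ (√D) δ (clow m) Cc := by
  obtain ⟨C, hC, hen⟩ := Crs_173.energy m (Ins_387.C0_nonneg m Q)
  refine ⟨C, hC, ?_⟩
  intro n k π κ U Dd δ D h hD h0 hδ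
  have has := Ins_387.cylAS h (by linarith : D < 1)
  have h1 := hen has (fun z r hr _ => Ins_387.ubd h hm z hr) h0 hδ
  have hs : √D ≤ 1 / 16 := by
    rw [show (1:ℝ) / 16 = √(1 / 256) by
      rw [show (1:ℝ) / 256 = (1 / 16) ^ 2 by norm_num, Real.sqrt_sq (by norm_num)]]
    exact Real.sqrt_le_sqrt hD
  exact
    { as := has
      δ0 := h0
      δ1 := hδ
      hh := Real.sqrt_nonneg D
      hh1 := hs
      cpos := clow_pos m
      Cnn := by linarith
      low := low_cls h hm (by linarith)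
      mass := fun y hy r hr hr0 hr1 => (h1 y (by rwa [mem_closedBall_zero_iff]) r hr hr0 hr1).1
      ener := fun y hy r hr hr0 hr1 => (h1 y (by rwa [mem_closedBall_zero_iff]) r hr hr0 hr1).2 }

end Crest.Agent.R234.Rn_870
end
end

-- ▼ part R234/Rn3_870

/-!
# Row 234, N9-AV, part 3 (helper870): assembly of `NRun`

`USide` = what is used of `U, R', e` at a contact point, `DriftSide` = the drift of bumps,
`NumRun` = the numbers.  `nRun_of : UProp → DrProp → NumRun → NRun`.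
-/

set_option autoImplicit false

open MeasureTheory Set Function Filter Topology Metric
open Crest.GeometryTopology.Submanifold
open Crest.Agent.R234.Vf_884 Crest.Agent.R234.Ar_870 Crest.Agent.R234.Cy_870
open Crest.Agent.R234.Wi_870 Crest.Agent.R234.Asl_214
open Crest.Agent.R234.Avg_387 (CW av dd cw_dd Md integral_dd Md_pos eea RRa)
open Crest.Agent.R234.Core_809
open Crest.Agent.R234.N5_372 (eM)
open Crest.Agent.R234.Well_761 (etaC etaC_nonneg bump b1 WCfg wells)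
open scoped ENNReal NNReal

noncomputable section

namespace Crest.Agent.R234.Rn_870

/-! ### the targets of the partner -/

/-- what is used of `U, R', e` at the contact point `x` -/
structure USide {m n : ℕ} {a : ℝ} (Q : ℕ) (K cS : ℝ) (X : Sit m n a) (cU CU CR Ce : ℝ)
    (x : Euc m) : Prop where
  low : cU * Par_504.Dmin m a X.D ≤
    X.sU Q K cS x (Real.log (Lam X.D) + Real.log (s0Of m a X.D))
  up : X.sU Q K cS x (TOf m a X.D + Real.log (s0Of m a X.D)) ≤ CU * X.D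
  R0 : ∀ l ∈ Icc (Real.log (s0Of m a X.D) + Real.log (Lam X.D) - Real.log 4)
      (Real.log (s0Of m a X.D) + TOf m a X.D + Real.log 4 + 1 / 2), 0 ≤ X.sR Q K cS x l
  der : ∀ l ∈ Icc (Real.log (s0Of m a X.D) + Real.log (Lam X.D) - Real.log 4)
      (Real.log (s0Of m a X.D) + TOf m a X.D + Real.log 4 + 1 / 2),
      HasDerivAt (fun l => X.sU Q K cS x l) (X.sR Q K cS x l) l
  U0 : 0 ≤ X.sU Q K cS x (Real.log (s0Of m a X.D) + Real.log (Lam X.D) - Real.log 4)
  Ue : ∀ t ∈ Icc (Real.log (Lam X.D)) (TOf m a X.D),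
    X.sU Q K cS x (Real.log (s0Of m a X.D) + t + Real.log 4 + 1 / 2) ≤
      CR * X.se Q K cS x (Real.log (s0Of m a X.D) + t + 3)
  en : ∀ t ∈ Icc (Real.log (Lam X.D)) (TOf m a X.D),
    (enOf X.V X.π X.κ (Well_761.cyl x (17 * Real.exp (Real.log (s0Of m a X.D) + t))
      univ)).toReal ≤
      Ce * Real.exp (m * (Real.log (s0Of m a X.D) + t)) *
        Real.exp (-(2 * (Real.log (s0Of m a X.D) + t))) *
        X.se Q K cS x (Real.log (s0Of m a X.D) + t + 3)

/-- **target (A)** -/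
def UProp (m n Q : ℕ) (K cS a : ℝ) : Prop :=
  ∃ cU CU CR Ce l0 : ℝ, 0 < cU ∧ 0 ≤ CU ∧ 0 ≤ CR ∧ 0 ≤ Ce ∧
    ∀ X : Sit m n a, IsSit Q K cS X → l0 ≤ Real.log (Lam X.D) → ∀ x ∈ X.Z,
      USide Q K cS X cU CU CR Ce x

/-- **target (B)** -/
def DrProp (m n Q : ℕ) (K cS a : ℝ) : Prop :=
  ∃ C₄ C₆ : ℝ, 0 < C₄ ∧ 0 ≤ C₆ ∧ ∀ c η : ℝ, 0 < c → 0 < η → ∃ l0 : ℝ,
    ∀ X : Sit m n a, IsSit Q K cS X → l0 ≤ Real.log (Lam X.D) → ∀ x ∈ X.Z, ∀ q : ℝ, 0 < q →
      q ≤ 1 → c * Par_504.Dmin m a X.D ≤ q ^ 2 →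
      ∃ θ₂ : ℝ, 0 ≤ θ₂ ∧ θ₂ * (TOf m a X.D + 4) ≤ η ∧ ∀ p : Euc n,
        ∀ l ∈ Icc (Real.log (s0Of m a X.D) + Real.log (Lam X.D) - Real.log 4)
          (Real.log (s0Of m a X.D) + TOf m a X.D + Real.log 4),
          ∃ d, HasDerivAt (fun l => Nav (dd m (tauOf a X.D)) X.V X.π X.κ w0.θ' x l (bump p q)) d l ∧
            |d| ≤ C₄ * q * √(X.sR Q K cS x l + X.sR Q K cS x (l + 1 / 2)) +
              C₆ * (X.sR Q K cS x l + X.sR Q K cS x (l + 1 / 2)) + θ₂ * q ^ 2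

/-! ### the numbers -/

/-- `b h₀ st / q` -/
def beR (m : ℕ) (a c D : ℝ) : ℝ := 4 * stOf m a D * √D / √(c * Par_504.Dmin m a D)

def thR (m : ℕ) (a c Cμ δ D : ℝ) : ℝ := We_822.CAS 12 1 1 Cμ * (√δ + beR m a c D)

def thwR (m : ℕ) (a c Cμ δ D : ℝ) : ℝ :=
  12 * (15 + etaC / 8) * δ * Cμ * (beR m a c D ^ 2 + (4 * stOf m a D) ^ 2 + √D ^ 2)

/-- the numbers of NRUN (504) -/
def NumRun (m : ℕ) (a : ℝ) : Prop :=
  ∀ C c M Cμ b η : ℝ, 0 ≤ C → 0 < c → c ≤ 1 → 1 ≤ M → 0 ≤ Cμ → 0 < b → 0 < η →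
    ∃ l0 : ℝ, ∀ D δ Ua UT : ℝ, 0 < D → D < 1 → l0 ≤ Real.log (Lam D) → 0 ≤ δ →
      δ ≤ Lam D ^ (-4 : ℝ) → c * Par_504.Dmin m a D ≤ Ua → 0 ≤ UT → UT ≤ C * D →
      Real.log (64 * stOf m a D / (M * √Ua)) ≤ Lam D ∧
      M ^ 2 * (UT * TOf m a D) * Lam D ≤ (s0Of m a D * Lam D) ^ 2 ∧
      thwR m a c Cμ δ D * Lam D * (UT * TOf m a D) ≤ Ua ∧
      4 * δ * Lam D ≤ 1 ∧
      thR m a c Cμ δ D * Lam D ≤ b ∧
      η * (δ * D) * (3 * Lam D) ≤ 1 / 2 ∧
      4 * stOf m a D ≤ 1 / 64 ∧ D ≤ 1 / 256 ∧ 1 ≤ Lam D ∧ √(c * Par_504.Dmin m a D) ≤ 1 ∧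
      M ^ 2 * (UT * TOf m a D) ≤ 1

end Crest.Agent.R234.Rn_870
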