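import Mathlib

/-!
# R234 / Par_504 : the numbers of the contact situation (decision D7)

`X α β Λ = exp (α Λ + β log Λ)` (`= D^(-α) Λ^β` for `D = exp (-Λ)`).  Every number of the core is a
constant times an `X`; `ev_le` compares two of them for large `Λ`.
-/

set_option autoImplicit false

namespace Crest.Agent.R234.Par_504

open Filter Real

noncomputable section

/-- `X α β Λ = exp (α Λ + β log Λ)` -/
def X (α β Λ : ℝ) : ℝ := Real.exp (α * Λ + β * Real.log Λ)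

variable {α β α' β' Λ : ℝ}

theorem X_pos (α β Λ : ℝ) : 0 < X α β Λ := Real.exp_pos _

theorem X_nonneg (α β Λ : ℝ) : 0 ≤ X α β Λ := (Real.exp_pos _).le

theorem X_ne (α β Λ : ℝ) : X α β Λ ≠ 0 := (X_pos α β Λ).ne'

theorem X_zero (Λ : ℝ) : X 0 0 Λ = 1 := by simp [X]

theorem X_mul (α β α' β' Λ : ℝ) : X α β Λ * X α' β' Λ = X (α + α') (β + β') Λ := by
  unfold X
  rw [← Real.exp_add]
  congr 1
  ring

theorem X_inv (α β Λ : ℝ) : (X α β Λ)⁻¹ = X (-α) (-β) Λ := by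
  unfold X
  rw [← Real.exp_neg]
  congr 1
  ring

theorem X_div (α β α' β' Λ : ℝ) : X α β Λ / X α' β' Λ = X (α - α') (β - β') Λ := by
  rw [div_eq_mul_inv, X_inv, X_mul, sub_eq_add_neg, sub_eq_add_neg]

theorem X_pow (α β Λ : ℝ) (n : ℕ) : X α β Λ ^ n = X (n * α) (n * β) Λ := by
  unfold X
  rw [← Real.exp_nat_mul]
  congr 1
  ring

theorem X_rpow (α β Λ p : ℝ) : X α β Λ ^ p = X (p * α) (p * β) Λ := by
  unfold X
  rw [← Real.exp_mul]
  congr 1
  ring

theorem X_sqrt (α β Λ : ℝ) : √(X α β Λ) = X (α / 2) (β / 2) Λ := by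
  rw [Real.sqrt_eq_rpow, X_rpow]
  congr 1 <;> ring

theorem log_X (α β Λ : ℝ) : Real.log (X α β Λ) = α * Λ + β * Real.log Λ := Real.log_exp _

/-- `Λ ^ β` -/
theorem rpow_eq_X (hΛ : 0 < Λ) (β : ℝ) : Λ ^ β = X 0 β Λ := by
  unfold X
  rw [Real.rpow_def_of_pos hΛ]
  congr 1
  ring

theorem self_eq_X (hΛ : 0 < Λ) : Λ = X 0 1 Λ := by
  rw [← rpow_eq_X hΛ, Real.rpow_one]


/-- `D = X (-1) 0 Λ` for `Λ = log (1 / D)` -/
theorem D_eq_X {D : ℝ} (hD : 0 < D) : D = X (-1) 0 (Real.log (1 / D)) := by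
  unfold X
  rw [one_div, Real.log_inv]
  have : -1 * -Real.log D + 0 * Real.log (-Real.log D) = Real.log D := by ring
  rw [this, Real.exp_log hD]

theorem sqrt_D_eq_X {D : ℝ} (hD : 0 < D) : √D = X (-1 / 2) 0 (Real.log (1 / D)) := by
  conv_lhs => rw [D_eq_X hD]
  rw [X_sqrt]
  congr 1
  ring


/-- comparison of the exponents -/
def Lt (α β α' β' : ℝ) : Prop := α < α' ∨ (α = α' ∧ β < β')

theorem ev_lin {α β : ℝ} (γ : ℝ) (h : Lt 0 0 α β) :
    ∀ᶠ Λ : ℝ in atTop, γ ≤ α * Λ + β * Real.log Λ := by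
  rcases h with h | ⟨h, hβ⟩
  · have h1 : Tendsto (fun Λ : ℝ => α * Λ + β * Real.log Λ) atTop atTop := by
      have h2 : Tendsto (fun Λ : ℝ => Λ * (α + β * (Real.log Λ / Λ))) atTop atTop := by
        have h3 : Tendsto (fun Λ : ℝ => α + β * (Real.log Λ / Λ)) atTop (nhds (α + β * 0)) := by
          refine tendsto_const_nhds.add (tendsto_const_nhds.mul ?_)
          have := Real.isLittleO_log_id_atTop.tendsto_div_nhds_zero
          exact this
        rw [mul_zero, add_zero] at h3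
        exact tendsto_id.atTop_mul_pos h h3
      refine h2.congr' ?_
      filter_upwards [eventually_gt_atTop (0 : ℝ)] with Λ hΛ
      field_simp
    exact h1.eventually_ge_atTop γ
  · subst h
    have h1 : Tendsto (fun Λ : ℝ => 0 * Λ + β * Real.log Λ) atTop atTop := by
      simp only [zero_mul, zero_add]
      exact Real.tendsto_log_atTop.const_mul_atTop hβ
    exact h1.eventually_ge_atTop γ

/-- **comparison of two numbers for large `Λ`** -/
theorem ev_le {α β α' β' : ℝ} (C : ℝ) (h : Lt α β α' β') :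
    ∀ᶠ Λ : ℝ in atTop, C * X α β Λ ≤ X α' β' Λ := by
  have h0 : Lt 0 0 (α' - α) (β' - β) := by
    rcases h with h | ⟨h1, h2⟩
    · exact Or.inl (by linarith)
    · exact Or.inr ⟨by linarith, by linarith⟩
  filter_upwards [ev_lin (Real.log (max C 1)) h0] with Λ h1
  have h2 : max C 1 ≤ X (α' - α) (β' - β) Λ := by
    unfold X
    rw [← Real.log_le_iff_le_exp (lt_of_lt_of_le one_pos (le_max_right _ _))]
    exact h1
  calc C * X α β Λ ≤ X (α' - α) (β' - β) Λ * X α β Λ :=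
        mul_le_mul_of_nonneg_right ((le_max_left _ _).trans h2) (X_nonneg _ _ _)
    _ = X α' β' Λ := by rw [X_mul]; congr 1 <;> ring

theorem ev_le' {α β α' β' : ℝ} {c : ℝ} (C : ℝ) (hc : 0 < c) (h : Lt α β α' β') :
    ∀ᶠ Λ : ℝ in atTop, C * X α β Λ ≤ c * X α' β' Λ := by
  filter_upwards [ev_le (C / c) h] with Λ h1
  have h2 := mul_le_mul_of_nonneg_left h1 hc.le
  have h3 : c * (C / c * X α β Λ) = C * X α β Λ := by field_simp
  linarith

/-- a constant is small against a large number -/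
theorem ev_const {α β : ℝ} (C : ℝ) (h : Lt 0 0 α β) : ∀ᶠ Λ : ℝ in atTop, C ≤ X α β Λ := by
  have := ev_le C h
  simpa [X_zero] using this

/-- a small number is below a constant -/
theorem ev_small {α β : ℝ} {c : ℝ} (C : ℝ) (hc : 0 < c) (h : Lt α β 0 0) :
    ∀ᶠ Λ : ℝ in atTop, C * X α β Λ ≤ c := by
  have := ev_le' C hc h
  simpa [X_zero] using this


/-! ### the numbers of D7 -/

/-- `a = Cs + 1` -/
def pa (Cs : ℝ) : ℝ := Cs + 1

/-- `A = (2 m + 6) (a + 1)` -/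
def pA (m : ℕ) (Cs : ℝ) : ℝ := (2 * m + 6) * (pa Cs + 1)

/-- heights `√D` -/
def h0 (Λ : ℝ) : ℝ := X (-1 / 2) 0 Λ
/-- `h = √D Λ^-a` -/
def hh (Cs Λ : ℝ) : ℝ := X (-1 / 2) (-pa Cs) Λ
/-- `t = √D Λ^a` -/
def ht (Cs Λ : ℝ) : ℝ := X (-1 / 2) (pa Cs) Λ
/-- bottom of the window `s0 = √D Λ^A` -/
def s0 (m : ℕ) (Cs Λ : ℝ) : ℝ := X (-1 / 2) (pA m Cs) Λ
/-- top of the window `Λ^-A` -/
def s1 (m : ℕ) (Cs Λ : ℝ) : ℝ := X 0 (-pA m Cs) Λ
/-- `L0 = log s0` -/
def L0 (m : ℕ) (Cs Λ : ℝ) : ℝ := -1 / 2 * Λ + pA m Cs * Real.log Λ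
/-- length of the window -/
def Tw (m : ℕ) (Cs Λ : ℝ) : ℝ := 1 / 2 * Λ - 2 * pA m Cs * Real.log Λ














end

end Crest.Agent.R234.Par_504
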