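import Mathlib
import Crest.Agent.R234.We13_822
import Crest.Agent.R234.Thv1_561
import Crest.Agent.R234.Core4_809
import Crest.Agent.R234.Shp8_98
import Crest.Agent.R234.Ins1_387
import Crest.Agent.R234.Sml3_870

-- ▼ part R234/We14_822
section

/-!
Row 234 (helper822): the numbers of the well half at a contact situation.
-/

set_option autoImplicit false

open Filter Topology

noncomputable section

namespace Crest.Agent.R234.We_822

theorem log_eight_le : Real.log 8 ≤ 3 := by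
  have h1 : Real.log 8 = 3 * Real.log 2 := by
    rw [show (8:ℝ) = 2 ^ 3 by norm_num, Real.log_pow]
    norm_num
  have := Real.log_two_lt_d9
  rw [h1]
  linarith

/-- **numbers of a contact situation**: `L = Λ`, `y = √D = e^{-Λ/2}`, `b = 100 (m+1) (a+1)`,
`s0 = y Λ^b`, `st = Λ^-b`, `log Λ ≤ t`, `t + 8 ≤ log (st / s0)`, `E = e^l = s0 e^t` -/
theorem num_sit {L y b a δ t q E A : ℝ} (hL : 20 ≤ L) (hy : y = Real.exp (-(L / 2)))
    (hb : 0 ≤ b) (ha : 0 ≤ a) (hδ : δ ≤ L ^ (-4 : ℝ)) (ht : Real.log L ≤ t)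
    (htT : t + 8 ≤ Real.log (L ^ (-b) / (y * L ^ b)))
    (hE : E = y * L ^ b * Real.exp t) (hq0 : 0 < q) (hq1 : q ^ 2 ≤ L ^ (2:ℝ) * y ^ 2)
    (hA : L ^ (-b) * y ^ 2 ≤ A) (hqA : A ≤ q ^ 2) :
    20 * (y * L ^ (-a) / 4) ≤ E ∧ E ≤ 1 / 1000 ∧ q ≤ 1 ∧ q ≤ E ∧ y ≤ E / 2 ∧
      1 + Real.log (8 * E / q) ≤ (5 + 2 * b) * t ∧
      (√δ + δ * y * E / q) * (1 + Real.log (8 * E / q)) ≤ 10 / L := by
  have hL0 : 0 < L := by linarith
  have hL1 : 1 ≤ L := by linarith
  have hy0 : 0 < y := by rw [hy]; exact Real.exp_pos _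
  have hlogL : 1 ≤ Real.log L := by
    rw [Real.le_log_iff_exp_le hL0]
    have := Real.exp_one_lt_d9
    linarith
  have ht1 : 1 ≤ t := hlogL.trans ht
  have hLb : 1 ≤ L ^ b := Real.one_le_rpow hL1 hb
  have hLnb : L ^ (-b) ≤ 1 := Real.rpow_le_one_of_one_le_of_nonpos hL1 (by linarith)
  have hLnb0 : 0 < L ^ (-b) := Real.rpow_pos_of_pos hL0 _
  have hexpt : L ≤ Real.exp t := by
    rw [← Real.log_le_iff_le_exp hL0]
    exact ht
  have hE0 : 0 < E := by rw [hE]; positivity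
  have hyE : L * y ≤ E := by
    rw [hE]
    have h1 : y * 1 ≤ y * L ^ b := mul_le_mul_of_nonneg_left hLb hy0.le
    have h2 : y * L ≤ y * L ^ b * Real.exp t :=
      mul_le_mul (by linarith) hexpt hL0.le (by positivity)
    linarith
  -- the top
  have hs0 : 0 < y * L ^ b := by positivity
  have hEtop : E ≤ L ^ (-b) * Real.exp (-8) := by
    have h1 : Real.exp (t + 8) ≤ L ^ (-b) / (y * L ^ b) := by
      rw [← Real.le_log_iff_exp_le (by positivity)]
      exact htT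
    rw [le_div_iff₀ hs0] at h1
    rw [Real.exp_add] at h1
    have h2 : Real.exp 8 * Real.exp (-8) = 1 := by rw [← Real.exp_add]; simp
    calc E = (Real.exp t * Real.exp 8 * (y * L ^ b)) * Real.exp (-8) := by
          rw [hE]; linear_combination (-(y * L ^ b * Real.exp t)) * h2
      _ ≤ _ := mul_le_mul_of_nonneg_right h1 (Real.exp_pos _).le
  have he8 : Real.exp (-8) ≤ 1 / 1000 := by
    have h1 : (2.7:ℝ) ≤ Real.exp 1 := by
      have := Real.exp_one_gt_d9
      linarith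
    have h2 : Real.exp 8 = Real.exp 1 ^ 8 := by rw [← Real.exp_nat_mul]; norm_num
    have h3 : (2.7:ℝ) ^ 8 ≤ Real.exp 1 ^ 8 := pow_le_pow_left₀ (by norm_num) h1 8
    rw [Real.exp_neg, inv_eq_one_div]
    refine one_div_le_one_div_of_le (by norm_num) ?_
    rw [h2]
    exact le_trans (by norm_num) h3
  have hE1000 : E ≤ 1 / 1000 := by
    refine hEtop.trans ?_
    calc L ^ (-b) * Real.exp (-8) ≤ 1 * (1 / 1000) :=
          mul_le_mul hLnb he8 (Real.exp_pos _).le zero_le_one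
      _ = _ := one_mul _
  -- `q`
  have hq2 : q ≤ L * y := by
    have h1 : L ^ (2:ℝ) = L ^ 2 := by norm_cast
    rw [h1, ← mul_pow] at hq1
    exact (sq_le_sq₀ hq0.le (by positivity)).1 hq1
  have hqlow : L ^ (-(b / 2)) * y ≤ q := by
    have h1 : (L ^ (-(b / 2)) * y) ^ 2 = L ^ (-b) * y ^ 2 := by
      rw [mul_pow, ← Real.rpow_natCast, ← Real.rpow_mul hL0.le]
      congr 2
      push_cast
      ring
    have h2 : (L ^ (-(b / 2)) * y) ^ 2 ≤ q ^ 2 := by rw [h1]; exact hA.trans hqA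
    exact (sq_le_sq₀ (by positivity) hq0.le).1 h2
  have hL2 : 0 < L ^ (-(b / 2)) := Real.rpow_pos_of_pos hL0 _
  have hL2' : L ^ (-(b / 2)) * L ^ (b / 2) = 1 := by
    rw [← Real.rpow_add hL0]; simp
  have hqi : y / q ≤ L ^ (b / 2) := by
    rw [div_le_iff₀ hq0]
    calc y = (L ^ (-(b / 2)) * L ^ (b / 2)) * y := by rw [hL2', one_mul]
      _ = L ^ (b / 2) * (L ^ (-(b / 2)) * y) := by ring
      _ ≤ _ := mul_le_mul_of_nonneg_left hqlow (by positivity)
  have hEq0 : 0 < 8 * E / q := by positivity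
  have h8 := log_eight_le
  -- the first logarithm
  have hlog1 : Real.log (8 * E / q) ≤ 3 + (3 / 2 * b) * Real.log L + t := by
    have h1 : 8 * E / q ≤ 8 * (L ^ (3 / 2 * b) * Real.exp t) := by
      have e1 : L ^ (3 / 2 * b) = L ^ b * L ^ (b / 2) := by
        rw [← Real.rpow_add hL0]; congr 1; ring
      calc 8 * E / q = 8 * (L ^ b * Real.exp t) * (y / q) := by rw [hE]; ring
        _ ≤ 8 * (L ^ b * Real.exp t) * L ^ (b / 2) :=
          mul_le_mul_of_nonneg_left hqi (by positivity)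
        _ = _ := by rw [e1]; ring
    have h2 := Real.log_le_log hEq0 h1
    rw [Real.log_mul (by norm_num) (by positivity), Real.log_mul (by positivity)
      (Real.exp_pos _).ne', Real.log_rpow hL0, Real.log_exp] at h2
    linarith
  have hbt : (3 / 2 * b) * Real.log L ≤ (3 / 2 * b) * t :=
    mul_le_mul_of_nonneg_left ht (by positivity)
  -- the second logarithm
  have hlog2 : 1 + Real.log (8 * E / q) ≤ L := by
    have h1 : 8 * E / q ≤ 8 * (L ^ (-(b / 2)) / y) := by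
      have e0 : E ≤ L ^ (-b) := hEtop.trans (by
        have : Real.exp (-8) ≤ 1 := by linarith
        calc L ^ (-b) * Real.exp (-8) ≤ L ^ (-b) * 1 :=
              mul_le_mul_of_nonneg_left this hLnb0.le
          _ = _ := mul_one _)
      have e1 : L ^ (-b) * L ^ (b / 2) = L ^ (-(b / 2)) := by
        rw [← Real.rpow_add hL0]; congr 1; ring
      calc 8 * E / q = 8 * E * (y / q) / y := by field_simp
        _ ≤ 8 * L ^ (-b) * L ^ (b / 2) / y := by gcongr
        _ = 8 * ((L ^ (-b) * L ^ (b / 2)) / y) := by ring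
        _ = _ := by rw [e1]
    have h2 := Real.log_le_log hEq0 h1
    rw [Real.log_mul (by norm_num) (by positivity), Real.log_div hL2.ne' hy0.ne',
      Real.log_rpow hL0, hy, Real.log_exp] at h2
    have h3 : 0 ≤ b / 2 * Real.log L := by positivity
    linarith
  have hlog0 : 0 ≤ 1 + Real.log (8 * E / q) := by
    have : 0 ≤ Real.log (8 * E / q) := by
      refine Real.log_nonneg ?_
      rw [le_div_iff₀ hq0]
      linarith
    linarith
  refine ⟨?_, hE1000, ?_, ?_, ?_, ?_, ?_⟩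
  · have h1 : L ^ (-a) ≤ 1 := Real.rpow_le_one_of_one_le_of_nonpos hL1 (by linarith)
    have h2 : y * L ^ (-a) ≤ y * 1 := mul_le_mul_of_nonneg_left h1 hy0.le
    have h3 : 20 * y ≤ L * y := mul_le_mul_of_nonneg_right hL hy0.le
    linarith
  · linarith
  · linarith
  · have h3 : 20 * y ≤ L * y := mul_le_mul_of_nonneg_right hL hy0.le
    linarith
  · have : 0 ≤ b * t := by positivity
    nlinarith
  · -- the last one
    have hδ2 : L ^ (-4 : ℝ) = (L ^ (-2 : ℝ)) ^ 2 := by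
      rw [← Real.rpow_natCast, ← Real.rpow_mul hL0.le]; norm_num
    have hs : √δ ≤ L ^ (-2 : ℝ) := by
      rw [Real.sqrt_le_left (by positivity)]
      rw [← hδ2]; exact hδ
    have hb2 : δ * y * E / q ≤ L ^ (-2 : ℝ) := by
      have e0 : E ≤ L ^ (-b) := hEtop.trans (by
        have : Real.exp (-8) ≤ 1 := by linarith
        calc L ^ (-b) * Real.exp (-8) ≤ L ^ (-b) * 1 :=
              mul_le_mul_of_nonneg_left this hLnb0.le
          _ = _ := mul_one _)
      have e1 : L ^ (-b) * L ^ (b / 2) = L ^ (-(b / 2)) := by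
        rw [← Real.rpow_add hL0]; congr 1; ring
      have e2 : L ^ (-(b / 2)) ≤ 1 := Real.rpow_le_one_of_one_le_of_nonpos hL1 (by linarith)
      have e3 : L ^ (-4 : ℝ) ≤ L ^ (-2 : ℝ) := Real.rpow_le_rpow_of_exponent_le hL1 (by norm_num)
      calc δ * y * E / q = δ * (E * (y / q)) := by ring
        _ ≤ L ^ (-4 : ℝ) * (L ^ (-b) * L ^ (b / 2)) := by gcongr
        _ = L ^ (-4 : ℝ) * L ^ (-(b / 2)) := by rw [e1]
        _ ≤ L ^ (-4 : ℝ) * 1 := mul_le_mul_of_nonneg_left e2 (by positivity)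
        _ ≤ L ^ (-2 : ℝ) := by rw [mul_one]; exact e3
    have h2 : L ^ (-2 : ℝ) = 1 / L ^ 2 := by
      rw [Real.rpow_neg hL0.le, inv_eq_one_div]; norm_cast
    calc (√δ + δ * y * E / q) * (1 + Real.log (8 * E / q))
        ≤ (L ^ (-2 : ℝ) + L ^ (-2 : ℝ)) * L := by gcongr
      _ = 2 / L := by rw [h2]; field_simp; ring
      _ ≤ 10 / L := by
        apply div_le_div_of_nonneg_right _ hL0.le
        norm_num

end Crest.Agent.R234.We_822
end
end

-- ▼ part R234/We15_822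

/-!
Row 234 (helper822): the well half of `HLoc` at a contact situation `X : Core_809.Sit` (form of
helper561, post 8468).
-/

set_option autoImplicit false

open MeasureTheory Set Function Filter Topology
open Crest.GeometryTopology.Submanifold
open Crest.Agent.R234.Vf_884 Crest.Agent.R234.Ar_870 Crest.Agent.R234.Cy_870
open Crest.Agent.R234.Wi_870 Crest.Agent.R234.Asl_214 Crest.Agent.R234.Avg_387
open Crest.Agent.R234.Shp_98 Crest.Agent.R234.Core_809
open Crest.Agent.R234.Well_761 (WCfg)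
open Crest.Agent.R234.N5_372 (eM)
open scoped ENNReal NNReal InnerProductSpace

noncomputable section

namespace Crest.Agent.R234.We_822

/-! ### the profile -/

theorem mx_bd {t : ℝ} (ht : 0 ≤ t) : 0 ≤ max (1 - t) 0 ∧ max (1 - t) 0 ≤ 1 ∧
    t * max (1 - t) 0 ≤ 1 := by
  have h0 : 0 ≤ max (1 - t) 0 := le_max_right _ _
  have h1 : max (1 - t) 0 ≤ 1 := max_le (by linarith) zero_le_one
  refine ⟨h0, h1, ?_⟩
  rcases le_total t 1 with h | h
  · exact (mul_le_mul h h1 h0 zero_le_one).trans (by norm_num)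
  · rw [max_eq_right (by linarith)]; norm_num

theorem bd_w0 : Bd w0.θ w0.θ' 12 where
  b0 t ht := by
    obtain ⟨h0, h1, -⟩ := mx_bd ht
    change |(max (1 - t) 0) ^ 4| ≤ 12
    rw [abs_of_nonneg (by positivity)]
    have := pow_le_one₀ (n := 4) h0 h1
    linarith
  b1 t ht := by
    obtain ⟨h0, h1, -⟩ := mx_bd ht
    change |-(4 * (max (1 - t) 0) ^ 3)| ≤ 12
    rw [abs_neg, abs_of_nonneg (by positivity)]
    have := pow_le_one₀ (n := 3) h0 h1
    linarith
  b2 t ht := by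
    obtain ⟨h0, h1, h2⟩ := mx_bd ht
    change |t * -(4 * (max (1 - t) 0) ^ 3)| ≤ 12
    have e1 : t * -(4 * (max (1 - t) 0) ^ 3) =
        -(4 * ((t * max (1 - t) 0) * (max (1 - t) 0) ^ 2)) := by ring
    rw [e1, abs_neg, abs_of_nonneg (by positivity)]
    have h3 := pow_le_one₀ (n := 2) h0 h1
    have h4 : (t * max (1 - t) 0) * (max (1 - t) 0) ^ 2 ≤ 1 * 1 :=
      mul_le_mul h2 h3 (by positivity) zero_le_one
    linarith

theorem bd_w1 : Bd w0.θ' w2 12 where
  b0 t ht := bd_w0.b1 t ht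
  b1 t ht := by
    obtain ⟨h0, h1, -⟩ := mx_bd ht
    change |12 * (max (1 - t) 0) ^ 2| ≤ 12
    rw [abs_of_nonneg (by positivity)]
    have := pow_le_one₀ (n := 2) h0 h1
    linarith
  b2 t ht := by
    obtain ⟨h0, h1, h2⟩ := mx_bd ht
    change |t * (12 * (max (1 - t) 0) ^ 2)| ≤ 12
    have e1 : t * (12 * (max (1 - t) 0) ^ 2) = 12 * ((t * max (1 - t) 0) * max (1 - t) 0) := by
      ring
    rw [e1, abs_of_nonneg (by positivity)]
    have h4 : (t * max (1 - t) 0) * max (1 - t) 0 ≤ 1 * 1 := mul_le_mul h2 h1 h0 zero_le_one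
    linarith

theorem w0_low : ∀ t, 0 ≤ t → t ≤ 1 / 4 → ((3:ℝ) / 4) ^ 4 ≤ w0.θ t := by
  intro t _ ht
  change ((3:ℝ) / 4) ^ 4 ≤ (max (1 - t) 0) ^ 4
  exact pow_le_pow_left₀ (by norm_num) (le_max_of_le_left (by linarith)) 4

theorem ker_w0 : Well_761.Ker (kap w0.θ') (2 * 12) (2 * (27 / 16)) :=
  ker_kap prof0 (fun t ht => bd_w0.b1 t ht) (by norm_num) fun t _ ht => by
    change -(4 * (max (1 - t) 0) ^ 3) ≤ -(27 / 16)
    have h1 : ((3:ℝ) / 4) ^ 3 ≤ (max (1 - t) 0) ^ 3 :=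
      pow_le_pow_left₀ (by norm_num) (le_max_of_le_left (by linarith)) 3
    norm_num at h1
    linarith

theorem w0_nonneg : ∀ t, 0 ≤ t → 0 ≤ w0.θ t := fun t _ => by
  change 0 ≤ (max (1 - t) 0) ^ 4
  positivity

/-! ### the situation -/

variable {m n : ℕ} {a : ℝ}

theorem aI_eq (X : Sit m n a) (x : Euc m) (c : WCfg (Euc n)) (l : ℝ) :
    X.aI x c l = IFw (dd m (tauOf a X.D)) X.V X.π X.κ w0.θ' x (toWP c) l := by
  unfold Sit.aI Nav IFw IFa
  rw [FW_toWP, ← av_const_mul]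
  unfold av
  refine integral_congr_ae (Eventually.of_forall fun y => ?_)
  simp only [IF_eq_nuG]
  ring

theorem Z_norm {Q : ℕ} {K cS : ℝ} {X : Sit m n a} (h : IsSit Q K cS X) {x : Euc m}
    (hx : x ∈ X.Z) : ‖x‖ ≤ 1 - blOf a X.D + tauOf a X.D := by
  obtain ⟨y, hy, rfl⟩ := hx
  exact h.out.nrm y hy

theorem sqrt_D {D : ℝ} (hD : 0 < D) : √D = Real.exp (-(Lam D / 2)) := by
  have h1 : Real.exp (-(Lam D / 2)) ^ 2 = D := by
    rw [← Real.exp_nat_mul]
    have : ((2:ℕ):ℝ) * -(Lam D / 2) = -Lam D := by push_cast; ring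
    rw [this]
    unfold Lam
    rw [one_div, Real.log_inv, neg_neg, Real.exp_log hD]
  calc √D = √(Real.exp (-(Lam D / 2)) ^ 2) := by rw [h1]
    _ = _ := Real.sqrt_sq (Real.exp_pos _).le

theorem aux_fin {Cg cG θ A P t C Lg M q2 : ℝ} (hCg : 0 ≤ Cg) (hcG : 0 ≤ cG * θ) (hA : 0 ≤ A)
    (hP : 0 ≤ P) (_hC : 0 ≤ C) (ht : 0 ≤ t) (hLg : Lg ≤ C * t) (h2 : Cg * C ≤ M * (cG * θ))
    (hq : M * t * A ≤ q2) : Cg * A * P * Lg ≤ cG * (θ * P) * q2 := by
  have h3 : 0 ≤ t * (A * P) := by positivity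
  calc Cg * A * P * Lg ≤ Cg * A * P * (C * t) := mul_le_mul_of_nonneg_left hLg (by positivity)
    _ = (Cg * C) * (t * (A * P)) := by ring
    _ ≤ (M * (cG * θ)) * (t * (A * P)) := mul_le_mul_of_nonneg_right h2 h3
    _ = (cG * θ) * P * (M * t * A) := by ring
    _ ≤ (cG * θ) * P * q2 := mul_le_mul_of_nonneg_left hq (by positivity)
    _ = _ := by ring

set_option maxHeartbeats 1000000 in
/-- **THE WELL HALF OF HLoc AT A CONTACT SITUATION** -/
theorem well_sit {d : ℕ} (hdm : d + 2 = m) (n Q : ℕ) {a : ℝ} (ha : 0 ≤ a) :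
    ∃ c1 CW : ℝ, 0 < c1 ∧ 0 < CW ∧ ∀ θ : ℝ, 0 < θ → ∃ Θ : ℝ, 0 < Θ ∧ ∃ l0 : ℝ,
    ∀ (K cS : ℝ) (X : Sit m n a), IsSit Q K cS X → l0 ≤ Real.log (Lam X.D) →
    ∀ x ∈ X.Z, ∀ t, Real.log (Lam X.D) ≤ t → t + 8 ≤ TOf m a X.D →
    ∀ c : WCfg (Euc n), c.q ^ 2 ≤ q1Of X.D →
    ∀ A : ℝ, eea (dd m (tauOf a X.D)) X.V X.π w0.θ x (t + Real.log (s0Of m a X.D) + 4) ≤ A →
      Lam X.D ^ (-(100 * (m + 1) * (a + 1))) * X.D ≤ A → Θ * t * A ≤ c.q ^ 2 →
      X.aI x c (t + Real.log (s0Of m a X.D) + 1) ≤ c1 * c.q ^ 2 →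
    ∀ {pL : Euc m → Euc d}, LipschitzWith 1 pL → ∀ {w : ℝ}, 0 ≤ w →
      (∀ N : Set (Euc m),
        N ⊆ Metric.closedBall x (Real.exp (t + Real.log (s0Of m a X.D) + 1)) →
        volume (pL '' N) ≤
          ENNReal.ofReal (θ * Real.exp (t + Real.log (s0Of m a X.D) + 1) ^ d) →
        eM X.V X.π N ≤ ENNReal.ofReal w) →
      eea (dd m (tauOf a X.D)) X.V X.π w0.θ x (t + Real.log (s0Of m a X.D)) ≤
        Fm (dd m (tauOf a X.D)) X.V X.π X.κ w0.θ x (toWP c) (t + Real.log (s0Of m a X.D)) +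
        av (dd m (tauOf a X.D)) (f2 X.V X.π X.κ (dFW (toWP c)) w0.θ) x
          (t + Real.log (s0Of m a X.D)) +
        CW * (Real.exp ((2 - m) * (t + Real.log (s0Of m a X.D))) * w) := by
  have hm : 1 ≤ m := by lia
  have hMd := Md_pos (m := m) (by lia)
  have hC0 := Ins_387.C0_nonneg m Q
  have home : 0 < ome m := ome_pos m
  obtain ⟨cs, c1, cG, hcs, hc1, hcG, hmain⟩ := well_half hdm prof0 w0_nonneg bd_w0 bd_w1
    (c := ((3:ℝ) / 4) ^ 4) (by norm_num) w0_low ker_w0 (c0 := ome m / 2 ^ m)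
    (C1 := Ins_387.C0 m Q) (M := Md m) (by positivity) hC0 hMd
  have hBB := BB_one
  set b : ℝ := 100 * (m + 1) * (a + 1) with hb
  have hb0 : 0 ≤ b := by positivity
  refine ⟨c1, (1 + BB) * 12 * Md m, hc1, by positivity, fun θ hθ => ?_⟩
  have hCg : 0 < Thin_561.Cg d (((3:ℝ) / 4) ^ 4) (Md m) := by unfold Thin_561.Cg; positivity
  set Cg := Thin_561.Cg d (((3:ℝ) / 4) ^ 4) (Md m) with hCgdef
  refine ⟨max 1 (Cg * (5 + 2 * b) / (cG * θ)), lt_max_of_lt_left one_pos,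
    Real.log (max 20 (10 / cs)), ?_⟩
  intro K cS X hX hl0 x hx t ht htT c hq1 A hA hAlow hqA hIF pL hpL w hw hN5
  obtain ⟨hδ0, hδ1, hD0, hD1⟩ : 0 ≤ X.δ ∧ X.δ ≤ Lam X.D ^ (-4 : ℝ) ∧ 0 < X.D ∧ X.D < 1 :=
    ⟨hX.δ0, hX.δ1, hX.D0, hX.D1⟩
  have hLpos : 0 < Lam X.D := by
    unfold Lam
    exact Real.log_pos (by rw [one_div]; exact (one_lt_inv₀ hD0).2 hD1)
  have hLmax : max 20 (10 / cs) ≤ Lam X.D := (Real.log_le_log_iff (by positivity) hLpos).1 hl0
  have hL20 : 20 ≤ Lam X.D := (le_max_left _ _).trans hLmax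
  have hLcs : 10 / Lam X.D ≤ cs := by
    have h1 : 10 / cs ≤ Lam X.D := (le_max_right _ _).trans hLmax
    rw [div_le_iff₀ hcs] at h1
    rw [div_le_iff₀ hLpos]
    linarith
  set L := Lam X.D with hL
  set y := √X.D with hy
  have hy0 : 0 < y := Real.sqrt_pos.2 hD0
  have hyD : y ^ 2 = X.D := Real.sq_sqrt hD0.le
  have hs0 : s0Of m a X.D = y * L ^ b := rfl
  have hs00 : 0 < s0Of m a X.D := by rw [hs0]; positivity
  set l := t + Real.log (s0Of m a X.D) with hl
  have hlogL : 1 ≤ Real.log L := by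
    rw [Real.le_log_iff_exp_le hLpos]
    have := Real.exp_one_lt_d9
    linarith
  have ht1 : 1 ≤ t := hlogL.trans ht
  have hEl : Real.exp l = y * L ^ b * Real.exp t := by
    rw [hl, Real.exp_add, Real.exp_log hs00, hs0]; ring
  have hqpos : 0 < c.q := c.hq
  have hA0 : 0 < A := lt_of_lt_of_le (by positivity) hAlow
  have hΘ1 : 1 ≤ max 1 (Cg * (5 + 2 * b) / (cG * θ)) := le_max_left _ _
  have hqA' : A ≤ c.q ^ 2 := by
    refine le_trans ?_ hqA
    have h1 : 1 ≤ max 1 (Cg * (5 + 2 * b) / (cG * θ)) * t := by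
      have := mul_le_mul hΘ1 ht1 zero_le_one (by positivity)
      linarith
    calc A = 1 * A := (one_mul A).symm
      _ ≤ _ := mul_le_mul_of_nonneg_right h1 hA0.le
  obtain ⟨n1, n2, n3, n4, n5, n6, n7⟩ := num_sit (L := L) (y := y) (b := b) (a := a) (δ := X.δ)
    (t := t) (q := c.q) (E := Real.exp l) (A := A) hL20 (by rw [hy]; exact sqrt_D hD0) hb0 ha hδ1
    ht htT hEl hqpos (by rw [hyD]; exact hq1) (by rw [hyD]; exact hAlow) hqA'
  have hτ0 : 0 < tauOf a X.D := by unfold tauOf hOf; positivity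
  have hl0' : l ≤ 0 := by
    have : Real.exp l ≤ 1 := by linarith
    exact Real.exp_le_one_iff.1 this
  have he1 : Real.exp (l + 1) ≤ 3 * Real.exp l := by
    rw [Real.exp_add]
    have := Real.exp_one_lt_d9
    nlinarith [Real.exp_pos l]
  have hbl : 0 < blOf a X.D := by unfold blOf; positivity
  have hZ := Z_norm hX hx
  have hτ20 : 20 * tauOf a X.D ≤ Real.exp l := n1
  have hdx : dist x 0 + Real.exp (l + 1) ≤ 4 := by
    rw [dist_zero_right]
    linarith
  have hcyl : CylAS X.V X.π X.κ 0 4 (√X.D) X.δ := Ins_387.cylAS hX.cls hD1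
  have hδ1' : X.δ ≤ 1 := hδ1.trans (Real.rpow_le_one_of_one_le_of_nonpos (by linarith)
    (by norm_num))
  have hD4 : X.D ≤ 1 / 4 := by
    have h1 : y ≤ 1 / 2 := by linarith
    have h2 : y ^ 2 ≤ (1 / 2) ^ 2 := pow_le_pow_left₀ hy0.le h1 2
    rw [hyD] at h2
    norm_num at h2 ⊢
    exact h2
  have hgen : Thin_561.Gen X.V X.π X.κ := ⟨hcyl.sp, hcyl.conc, hcyl.fin⟩
  have hG := hgen.eM8 hdm (cw_dd hτ0) prof0 (x := x) (c := ((3:ℝ) / 4) ^ 4) (l := l + 1) (A := A)
    (by norm_num) (by rw [integral_dd hτ0]; exact hMd) w0_low (by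
      have : Real.exp l ≤ Real.exp (l + 1) := Real.exp_le_exp.2 (by linarith)
      linarith) (by
      have e1 : l + 1 + 3 = t + Real.log (s0Of m a X.D) + 4 := by rw [hl]; ring
      rw [e1]; exact hA)
  rw [integral_dd hτ0] at hG
  have hG' : eM X.V X.π (Metric.closedBall x (Real.exp (l + 1))) ≤
      ENNReal.ofReal (Cg * A * Real.exp (l + 1) ^ d) := by
    refine (measure_mono (Metric.closedBall_subset_closedBall (by
      have := Real.exp_pos (l + 1)
      linarith : Real.exp (l + 1) ≤ 8 * Real.exp (l + 1)))).trans ?_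
    rw [← ENNReal.ofReal_toReal (hgen.eM_ne_top measurableSet_closedBall)]
    exact ENNReal.ofReal_le_ofReal hG
  have hR := hmain (n := n) (k := X.k) (π := X.π) (κ := X.κ) (x := x) (x₀ := 0) (W := X.V)
    (R := 4) (h₀ := √X.D) (δ := X.δ) (τ := tauOf a X.D) (dw := dd m (tauOf a X.D)) hcyl hδ0 hδ1'
    hy0.le (by linarith) (cw_dd hτ0) (integral_dd hτ0) hτ0.le
    (fun r hr hr1 => Sml_870.low_part hX.cls hm hD4 hr hr1)
    (v := toWP c) (l := l) (b := X.δ * y * Real.exp l / c.q) hτ20 hl0' hdx n3 n4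
    (by
      rw [← aI_eq]
      exact hIF)
    (fun x' _ => by
      have h1 := Crs_173.mass_cyl hcyl (fun z r hr _ => Ins_387.ubd hX.cls hm z hr) x'
        (r := Real.exp l / 2) (by positivity) (by linarith) n5
      have e1 : 2 * (Real.exp l / 2) = Real.exp l := by ring
      rwa [e1] at h1)
    (by positivity)
    (by
      change X.δ * √X.D * Real.exp l ≤ X.δ * y * Real.exp l / c.q * c.q
      rw [div_mul_cancel₀ _ hqpos.ne'])
    (n7.trans hLcs) hpL (G := Cg * A * Real.exp (l + 1) ^ d)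
    (θ := θ * Real.exp (l + 1) ^ d) (w := w) (by positivity) hG' ?_ hw hN5
  · exact hR.2
  · change Cg * A * Real.exp (l + 1) ^ d * (1 + Real.log (8 * Real.exp l / c.q)) ≤
      cG * (θ * Real.exp (l + 1) ^ d) * c.q ^ 2
    have h2 : Cg * (5 + 2 * b) / (cG * θ) ≤ max 1 (Cg * (5 + 2 * b) / (cG * θ)) :=
      le_max_right _ _
    rw [div_le_iff₀ (by positivity)] at h2
    have h4 : 0 < Real.exp (l + 1) ^ d := by positivity
    exact aux_fin (by positivity) (by positivity) hA0.le h4.le (by positivity) (by linarith) n6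
      h2 hqA

end Crest.Agent.R234.We_822
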