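import Crest.Agent.R234.Well8_761
import Crest.Agent.R234.Wi5_870
import Crest.Agent.R234.Wfl1_214
import Crest.Agent.R234.We12_822
import Crest.Agent.R234.Shp5_98

-- ▼ part R234/Well9_761
section

/-!
Row 234, VF-WELL (helper761), file 9: N8 (wells at one scale) in the literal form used by the core.
-/

set_option autoImplicit false
set_option linter.unusedSectionVars false

open Set Filter Topology MeasureTheory Metric Module
open scoped ContDiff InnerProductSpace ENNReal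

noncomputable section

namespace Crest.Agent.R234.Well_761

variable {H : Type*} [NormedAddCommGroup H] [NormedSpace ℝ H] [FiniteDimensional ℝ H]
  [MeasurableSpace H] [BorelSpace H]
variable {W : Type*} [NormedAddCommGroup W] [InnerProductSpace ℝ W] [MeasurableSpace W]
  [BorelSpace W]

variable {m : ℕ} {κ : ℝ → ℝ} {Kκ cκ : ℝ} {mu en : Measure (H × W)}
  {K : ℝ} {x₀ : H} {ρ₀ : ℝ}

/-- there are heights over a small ball of a good centre (only `WFlow`). -/
theorem heights_nonempty' {erw er : H → ℝ → ℝ → ℝ} {θ₁ θw : ℝ}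
    (hwf : WFlow m κ mu en erw K θ₁ x₀ ρ₀) (hκ : Ker κ Kκ cκ)
    {T : Set (H × W)} {Cμ c0 : ℝ} (hg : Geo m mu T c0 x₀ ρ₀) {x : H} {D l lam θ q q' c : ℝ}
    (hD : 0 < D) (hq : 0 < q) (hx : Good m mu en er Cμ x₀ ρ₀ x (Real.log D) l lam θ q')
    (hlam : 0 ≤ lam) (hθw : 0 ≤ θw)
    (herw : ∀ l' ∈ Icc (Real.log D) l, erw x l' q ≤ θw * q ^ 2)
    (hc0 : 0 ≤ c) (hc : c ≤ nu m κ mu x l (fun _ => (1 : ℝ)))
    (herr : Real.exp (θ₁ * (l - Real.log D)) * (K * lam * (Real.exp (2 * l) / 2) +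
      (K * lam + θw) * (l - Real.log D) * q ^ 2) < c * q ^ 2 / 128) : (Ht T x D).Nonempty := by
  by_contra hcon
  rw [not_nonempty_iff_eq_empty] at hcon
  have h1 := wells_small hwf hκ hg hD hq hx hlam hθw herw (C := ∅) (r := 0)
    (fun c hc => absurd hc (Finset.notMem_empty c))
    (fun y hy => by rw [hcon] at hy; exact absurd hy (notMem_empty y))
  have h2 : wells (∅ : Finset W) q = fun _ => wellTop q * (1 : ℝ) := by
    funext y
    simp [wells]
  rw [h2, nu_const_mul] at h1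
  have h3 : c * q ^ 2 / 128 ≤ wellTop q * nu m κ mu x l (fun _ => (1 : ℝ)) := by
    calc c * q ^ 2 / 128 = q ^ 2 / 128 * c := by ring
      _ ≤ wellTop q * nu m κ mu x l (fun _ => (1 : ℝ)) :=
          mul_le_mul (wellTop_ge q) hc hc0 (wellTop_nonneg q)
  have h4 : (0 : ℝ) ^ 2 / 2 * Kκ * Cμ = 0 := by ring
  rw [h4, zero_add] at h1
  linarith

set_option maxHeartbeats 1000000 in
/-- **N8**: wells at one scale, literal form. -/
theorem hnet (hm : finrank ℝ H = m)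
    {erw : H → ℝ → ℝ → ℝ} {θ₁ θw : ℝ} (hwf : WFlow m κ mu en erw K θ₁ x₀ ρ₀) (hκ : Ker κ Kκ cκ)
    {S : Set (H × W)} {Cμ c0 : ℝ} (hCμ : 0 ≤ Cμ) (hg : Geo m mu S c0 x₀ ρ₀)
    {n : ℕ} (hn1 : 1 ≤ n) (hn : 2 ^ m * Cμ / c0 ≤ n)
    {x : H} {lmin lmax : ℝ} {N : ℝ → (W → ℝ) → ℝ} {C₅ : ℝ}
    (hN : Centre m κ mu x lmin lmax N C₅)
    {L0 t A Θ Ce C3 cm c1 Lg E e3 : ℝ}
    (hlmin : lmin ≤ L0 + t) (hlmax : L0 + t + 1 ≤ lmax)
    (hdom : dist x x₀ + 17 * Real.exp (L0 + t) ≤ ρ₀)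
    (hfin : en (cyl x (17 * Real.exp (L0 + t)) univ) ≠ ⊤)
    (ht : 1 ≤ t) (hE : 0 < E) (hCe : 0 ≤ Ce) (hC3 : 0 ≤ C3) (hA : 1 ≤ A) (hΘ : 0 < Θ)
    (hθw : 0 ≤ θw)
    -- the energy at the scale `t`
    (he : (en (cyl x (17 * Real.exp (L0 + t)) univ)).toReal ≤
      Ce * Real.exp (m * (L0 + t)) * Real.exp (-(2 * (L0 + t))) * e3)
    (he3 : e3 ≤ C3 * E)
    -- the errors
    (herw : ∀ x' l q, dist x x' ≤ Real.exp (L0 + t) → Real.exp l ≤ 16 * Real.exp (L0 + t) →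
      √(Θ * t * E) ≤ q → √(Θ * t * E) ≤ 16 * Real.exp l →
      (en (cyl x' (Real.exp l) univ)).toReal ≤ Real.exp (m * l) →
      (en (cyl x' (Real.exp l) univ)).toReal * Real.exp (2 * l) ≤ q ^ 2 * Real.exp (m * l) →
      mu (cyl x' (Real.exp l) univ) ≤ ENNReal.ofReal (Cμ * Real.exp (m * l)) →
      erw x' l q ≤ θw * q ^ 2)
    -- mass at good centres
    (hms : ∀ x' l0 l1 lam, dist x x' ≤ Real.exp l1 / 64 → L0 + t ≤ l1 →
      l1 ≤ L0 + t + 1 + Real.log 4 → l0 ≤ l1 → √(Θ * t * E) ≤ 16 * Real.exp l0 →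
      l1 + 1 / 4 - l0 ≤ 2 * Lg → 0 ≤ lam → lam ≤ 1 →
      (∀ l ∈ Icc l0 (l1 + 1 / 4),
        (en (cyl x' (Real.exp l) univ)).toReal ≤ lam * Real.exp (m * l)) →
      lam * (l1 + 1 / 4 - l0) ≤ 1 →
      ∀ l ∈ Icc l0 l1, mu (cyl x' (Real.exp l) univ) ≤ ENNReal.ofReal (Cμ * Real.exp (m * l)))
    -- mass at the contact centre
    (hcm : 0 ≤ cm) (hmass : cm ≤ N (L0 + t + 1) (fun _ => (1 : ℝ)))
    -- the window
    (hLg1 : 1 ≤ Lg)
    (hLg : Real.log (64 * Real.exp (L0 + t + 1) / √(Θ * t * E)) ≤ Lg)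
    (hw1 : Θ * t * E * Lg ≤ Real.exp (2 * (L0 + t))) (hw5 : θ₁ * Lg ≤ 1)
    -- the constants
    (hA1 : 3 * C₅ * (Kκ * Cμ / (2 * A ^ 2) + 60 * K * (2 * 80 ^ m * Ce * C3 / Θ) +
      (K * (2 * 80 ^ m * Ce * C3 / Θ) + θw * Lg)) ≤ c1 / 2)
    (hA2 : 128 * (2 * 80 ^ m * Ce * C3) ≤ Θ)
    (hA3 : 3 * (60 * K * (2 * 80 ^ m * Ce * C3 / Θ) +
      (K * (2 * 80 ^ m * Ce * C3 / Θ) + θw * Lg)) < cm / C₅ / 128) :
    ∃ w : WCfg W, Θ * t * E ≤ w.q ^ 2 ∧ w.q ^ 2 ≤ A ^ (2 * n) * (Θ * t * E) ∧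
      ∀ l ∈ Icc (L0 + t) (L0 + t + 1), 2 * N l (wells w.C w.q) ≤ c1 * w.q ^ 2 := by
  have hC₅ : 0 < C₅ := lt_of_lt_of_le one_pos hN.C1
  have hlog4 : 0 < Real.log 4 := Real.log_pos (by norm_num)
  have hexp4 : Real.exp (Real.log 4) = 4 := Real.exp_log (by norm_num)
  have hK := hwf.K0
  have hA0 : 0 < A := lt_of_lt_of_le one_pos hA
  obtain ⟨s, hs⟩ : ∃ s : ℝ, s = Real.exp (L0 + t) := ⟨_, rfl⟩
  have hs0 : 0 < s := by rw [hs]; exact Real.exp_pos _
  obtain ⟨r, hr⟩ : ∃ r : ℝ, r = √(Θ * t * E) := ⟨_, rfl⟩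
  have hΘt : 0 < Θ * t * E := by positivity
  have hr0 : 0 < r := by rw [hr]; exact Real.sqrt_pos.2 hΘt
  have hr2 : r ^ 2 = Θ * t * E := by rw [hr]; exact Real.sq_sqrt hΘt.le
  have hs2 : 0 < s ^ 2 := pow_pos hs0 2
  have hsm : 0 < s ^ m := pow_pos hs0 m
  have hse : Real.exp (2 * (L0 + t)) = s ^ 2 := by
    rw [hs, ← Real.exp_nat_mul]; push_cast; rfl
  rw [hse, ← hr2] at hw1
  have hrs : r ≤ s := by
    have h2 : r ^ 2 ≤ r ^ 2 * Lg := le_mul_of_one_le_right (sq_nonneg _) hLg1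
    exact (pow_le_pow_iff_left₀ hr0.le hs0.le two_ne_zero).1 (h2.trans hw1)
  -- the good centre
  rw [← hs] at hfin hdom
  obtain ⟨x', hx1, hx2⟩ := exists_good m hm en x hs0 hfin
  obtain ⟨lam, hlam⟩ : ∃ lam : ℝ, lam =
      2 * 80 ^ m * (en (cyl x (17 * s) univ)).toReal / s ^ m := ⟨_, rfl⟩
  have hlam0 : 0 ≤ lam := by
    have : 0 ≤ (en (cyl x (17 * s) univ)).toReal := ENNReal.toReal_nonneg
    rw [hlam]; positivity
  obtain ⟨B, hB⟩ : ∃ B : ℝ, B = 2 * 80 ^ m * Ce * C3 / Θ := ⟨_, rfl⟩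
  rw [← hB] at hA1 hA3
  have hB0 : 0 ≤ B := by rw [hB]; positivity
  have hB1 : B ≤ 1 / 128 := by
    rw [hB, div_le_iff₀ hΘ]; linarith
  have hlams : lam * s ^ 2 ≤ B * r ^ 2 := by
    have h2 : Real.exp (m * (L0 + t)) = s ^ m := by rw [hs, ← Real.exp_nat_mul]
    have h3 : Real.exp (-(2 * (L0 + t))) = 1 / s ^ 2 := by
      rw [Real.exp_neg, hse, one_div]
    rw [h2, h3, ← hs] at he
    have h4 : lam * s ^ 2 = 2 * 80 ^ m *
        ((en (cyl x (17 * s) univ)).toReal * (s ^ 2 / s ^ m)) := by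
      rw [hlam]; field_simp
    have h6 : (en (cyl x (17 * s) univ)).toReal * (s ^ 2 / s ^ m) ≤
        Ce * s ^ m * (1 / s ^ 2) * e3 * (s ^ 2 / s ^ m) :=
      mul_le_mul_of_nonneg_right he (by positivity)
    have h7 : Ce * s ^ m * (1 / s ^ 2) * e3 * (s ^ 2 / s ^ m) = Ce * e3 := by
      calc _ = Ce * e3 * (s ^ m / s ^ m) * (s ^ 2 / s ^ 2) := by ring
        _ = _ := by rw [div_self hsm.ne', div_self hs2.ne', mul_one, mul_one]
    rw [h7] at h6
    have h8 : E ≤ r ^ 2 / Θ := by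
      rw [hr2, le_div_iff₀ hΘ]
      have : E * Θ * 1 ≤ E * Θ * t := mul_le_mul_of_nonneg_left ht (by positivity)
      linarith
    calc lam * s ^ 2 = 2 * 80 ^ m *
          ((en (cyl x (17 * s) univ)).toReal * (s ^ 2 / s ^ m)) := h4
      _ ≤ 2 * 80 ^ m * (Ce * e3) := mul_le_mul_of_nonneg_left h6 (by positivity)
      _ ≤ 2 * 80 ^ m * (Ce * (C3 * (r ^ 2 / Θ))) := by
          refine mul_le_mul_of_nonneg_left ?_ (by positivity)
          refine mul_le_mul_of_nonneg_left ?_ hCe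
          exact he3.trans (mul_le_mul_of_nonneg_left h8 hC3)
      _ = B * r ^ 2 := by rw [hB]; ring
  have hlam1 : lam ≤ 1 := by
    have h3 : r ^ 2 ≤ s ^ 2 := pow_le_pow_left₀ hr0.le hrs 2
    have h4 : B * r ^ 2 ≤ 1 * s ^ 2 := mul_le_mul (by linarith) h3 (sq_nonneg _) zero_le_one
    exact le_of_mul_le_mul_right (by linarith only [hlams, h4] : lam * s ^ 2 ≤ 1 * s ^ 2) hs2
  obtain ⟨T1, hT1⟩ : ∃ T1 : ℝ, T1 = L0 + t + 1 + Real.log 4 := ⟨_, rfl⟩
  have hexpT : Real.exp T1 = 4 * (s * Real.exp 1) := by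
    rw [hT1, Real.exp_add, hexp4, Real.exp_add, ← hs]; ring
  have he1 : Real.exp 1 < 2.72 := by
    have := Real.exp_one_lt_d9
    linarith
  have he1' : 1 ≤ Real.exp 1 := Real.one_le_exp (by norm_num)
  have hexpT2 : Real.exp T1 ≤ 11 * s := by rw [hexpT]; nlinarith only [hs0, he1, mul_pos hs0 (sub_pos.2 he1)]
  have hlogT : T1 - Real.log (r / 16) ≤ Lg := by
    refine le_trans (le_of_eq ?_) hLg
    rw [← hr, Real.log_div (by positivity) hr0.ne', Real.log_mul (by norm_num)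
      (Real.exp_pos _).ne', Real.log_exp, Real.log_div hr0.ne' (by norm_num), hT1]
    have h5 : Real.log 64 = Real.log 4 + Real.log 16 := by
      rw [← Real.log_mul (by norm_num) (by norm_num)]; norm_num
    rw [h5]; ring
  have hle : Real.log (r / 16) ≤ T1 := by
    rw [Real.log_le_iff_le_exp (by positivity), hexpT]
    nlinarith only [hrs, hs0, hr0, mul_nonneg hs0.le (sub_nonneg.2 he1')]
  have hen : ∀ l ∈ Icc (Real.log (r / 16)) (T1 + 1 / 4),
      (en (cyl x' (Real.exp l) univ)).toReal ≤ lam * Real.exp (m * l) := by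
    intro l hl
    have h3 := hx2 (Real.exp l) (Real.exp_pos l) (by
      have h4 := Real.exp_le_exp.2 hl.2
      rw [Real.exp_add] at h4
      have h5 : Real.exp (1 / 4 : ℝ) ≤ 4 / 3 := by
        have h6 := Real.exp_bound_div_one_sub_of_interval (x := 1 / 4) (by norm_num) (by norm_num)
        norm_num at h6 ⊢
        exact h6
      have h7 : Real.exp T1 * Real.exp (1 / 4 : ℝ) ≤ 11 * s * (4 / 3) :=
        mul_le_mul hexpT2 h5 (Real.exp_pos _).le (by positivity)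
      linarith)
    rw [← Real.exp_nat_mul, ← hlam] at h3
    exact h3
  have hKl : lam * Lg ≤ B := by
    have h3 : lam ≤ B * r ^ 2 / s ^ 2 := by
      rw [le_div_iff₀ hs2]; exact hlams
    calc lam * Lg ≤ B * r ^ 2 / s ^ 2 * Lg := mul_le_mul_of_nonneg_right h3 (by linarith)
      _ = B * (r ^ 2 * Lg / s ^ 2) := by ring
      _ ≤ B * 1 := by
          refine mul_le_mul_of_nonneg_left ?_ hB0
          rw [div_le_one hs2]; exact hw1
      _ = B := mul_one B
  have hmass' : ∀ l ∈ Icc (Real.log (r / 16)) T1,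
      mu (cyl x' (Real.exp l) univ) ≤ ENNReal.ofReal (Cμ * Real.exp (m * l)) := by
    refine hms x' _ _ lam ?_ (by linarith) (by linarith) hle
      (by rw [Real.exp_log (by positivity), ← hr]; linarith) (by linarith) hlam0 hlam1 hen ?_
    · rw [hexpT]
      nlinarith only [hx1, hs0, mul_nonneg hs0.le (sub_nonneg.2 he1')]
    · have h3 : T1 + 1 / 4 - Real.log (r / 16) ≤ 2 * Lg := by linarith
      calc lam * (T1 + 1 / 4 - Real.log (r / 16)) ≤ lam * (2 * Lg) :=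
            mul_le_mul_of_nonneg_left h3 hlam0
        _ = 2 * (lam * Lg) := by ring
        _ ≤ 2 * B := by linarith
        _ ≤ 1 := by linarith
  have hsize : ∀ q, r ≤ q → ∀ l ∈ Icc (Real.log (r / 16)) T1, erw x' l q ≤ θw * q ^ 2 := by
    intro q hq l hl
    have h3 := hen l ⟨hl.1, by linarith [hl.2]⟩
    have h4 : Real.exp l ≤ 11 * s := (Real.exp_le_exp.2 hl.2).trans hexpT2
    have h5 : r / 16 ≤ Real.exp l := by
      rw [← Real.log_le_iff_le_exp (by positivity)]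
      exact hl.1
    refine herw x' l q ?_ ?_ ?_ ?_ ?_ ?_ (hmass' l hl)
    · rw [← hs]; linarith
    · rw [← hs]; linarith
    · rw [← hr]; exact hq
    · rw [← hr]; linarith
    · refine h3.trans ?_
      have := Real.exp_pos (m * l)
      exact mul_le_of_le_one_left this.le hlam1
    · have h6 : Real.exp (2 * l) ≤ 128 * s ^ 2 := by
        have h7 : Real.exp (2 * l) = Real.exp l ^ 2 := by
          rw [← Real.exp_nat_mul]; push_cast; rfl
        rw [h7]
        calc Real.exp l ^ 2 ≤ (11 * s) ^ 2 := pow_le_pow_left₀ (Real.exp_pos l).le h4 2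
          _ ≤ 128 * s ^ 2 := by nlinarith only [hs2]
      have h8 : lam * Real.exp (2 * l) ≤ q ^ 2 := by
        calc lam * Real.exp (2 * l) ≤ lam * (128 * s ^ 2) :=
              mul_le_mul_of_nonneg_left h6 hlam0
          _ = 128 * (lam * s ^ 2) := by ring
          _ ≤ 128 * (B * r ^ 2) := mul_le_mul_of_nonneg_left hlams (by norm_num)
          _ ≤ 128 * (1 / 128 * r ^ 2) := by
              refine mul_le_mul_of_nonneg_left ?_ (by norm_num)
              exact mul_le_mul_of_nonneg_right hB1 (sq_nonneg _)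
          _ = r ^ 2 := by ring
          _ ≤ q ^ 2 := pow_le_pow_left₀ hr0.le hq 2
      calc (en (cyl x' (Real.exp l) univ)).toReal * Real.exp (2 * l)
          ≤ lam * Real.exp (m * l) * Real.exp (2 * l) :=
            mul_le_mul_of_nonneg_right h3 (Real.exp_pos _).le
        _ = lam * Real.exp (2 * l) * Real.exp (m * l) := by ring
        _ ≤ q ^ 2 * Real.exp (m * l) := mul_le_mul_of_nonneg_right h8 (Real.exp_pos _).le
  have hgood : ∀ q, r ≤ q →
      Good m mu en erw Cμ x₀ ρ₀ x' (Real.log (r / 16)) T1 lam θw q := by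
    intro q hq
    refine ⟨hle, ?_, fun l hl => hen l ⟨hl.1, by linarith [hl.2]⟩, hsize q hq, hCμ, hmass'⟩
    have h4 := dist_triangle x' x x₀
    rw [dist_comm x' x] at h4
    linarith
  have h1 : K * lam * (Real.exp (2 * T1) / 2) ≤ 60 * K * B * r ^ 2 := by
    have h2 : Real.exp (2 * T1) ≤ 120 * s ^ 2 := by
      have h7 : Real.exp (2 * T1) = Real.exp T1 ^ 2 := by
        rw [← Real.exp_nat_mul]; push_cast; rfl
      rw [h7, hexpT]
      have h8 : 0 ≤ Real.exp 1 := by linarith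
      have h9 : Real.exp 1 ^ 2 ≤ 7.5 := by nlinarith only [he1, h8]
      calc (4 * (s * Real.exp 1)) ^ 2 = 16 * s ^ 2 * Real.exp 1 ^ 2 := by ring
        _ ≤ 16 * s ^ 2 * 7.5 := mul_le_mul_of_nonneg_left h9 (by positivity)
        _ = 120 * s ^ 2 := by ring
    calc K * lam * (Real.exp (2 * T1) / 2) ≤ K * lam * (120 * s ^ 2 / 2) :=
          mul_le_mul_of_nonneg_left (by linarith) (mul_nonneg hK hlam0)
      _ = 60 * K * (lam * s ^ 2) := by ring
      _ ≤ 60 * K * (B * r ^ 2) := mul_le_mul_of_nonneg_left hlams (by positivity)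
      _ = _ := by ring
  have hlognn : 0 ≤ T1 - Real.log (r / 16) := by linarith
  have h2 : (K * lam + θw) * (T1 - Real.log (r / 16)) ≤ K * B + θw * Lg := by
    have h3 : K * lam * (T1 - Real.log (r / 16)) ≤ K * B := by
      calc K * lam * (T1 - Real.log (r / 16)) ≤ K * lam * Lg :=
            mul_le_mul_of_nonneg_left hlogT (mul_nonneg hK hlam0)
        _ = K * (lam * Lg) := by ring
        _ ≤ K * B := mul_le_mul_of_nonneg_left hKl hK
    have h4 : θw * (T1 - Real.log (r / 16)) ≤ θw * Lg := mul_le_mul_of_nonneg_left hlogT hθw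
    rw [add_mul]
    linarith
  have hθ₁ : θ₁ * (T1 - Real.log (r / 16)) ≤ 1 :=
    (mul_le_mul_of_nonneg_left hlogT hwf.θ0).trans hw5
  have hex3 : Real.exp (θ₁ * (T1 - Real.log (r / 16))) ≤ 3 := by
    have h7 := Real.exp_le_exp.2 hθ₁
    linarith
  have hne : (Ht S x' (r / 16)).Nonempty := by
    have e1 := hN.le_nu x' (L0 + t + 1) (fun _ => (1 : ℝ)) 1 (by linarith) hlmax
      (by
        rw [Real.exp_add, ← hs]
        nlinarith only [hx1, hs0, mul_nonneg hs0.le (sub_nonneg.2 he1')])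
      measurable_const (fun _ => zero_le_one) (fun _ => le_rfl)
    have e3' : cm / C₅ ≤ nu m κ mu x' T1 (fun _ : W => (1 : ℝ)) := by
      rw [div_le_iff₀ hC₅, hT1]; linarith
    refine heights_nonempty' hwf hκ hg (by positivity) hr0 (hgood r le_rfl) hlam0 hθw
      (hsize r le_rfl) (by positivity) e3' ?_
    have e4 : 0 ≤ K * lam * (Real.exp (2 * T1) / 2) +
        (K * lam + θw) * (T1 - Real.log (r / 16)) * r ^ 2 := by positivity
    have e5 := mul_le_mul_of_nonneg_right h2 (sq_nonneg r)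
    calc Real.exp (θ₁ * (T1 - Real.log (r / 16))) * (K * lam * (Real.exp (2 * T1) / 2) +
          (K * lam + θw) * (T1 - Real.log (r / 16)) * r ^ 2)
        ≤ 3 * (K * lam * (Real.exp (2 * T1) / 2) +
          (K * lam + θw) * (T1 - Real.log (r / 16)) * r ^ 2) :=
          mul_le_mul_of_nonneg_right hex3 e4
      _ ≤ 3 * (60 * K * B * r ^ 2 + (K * B + θw * Lg) * r ^ 2) := by linarith
      _ = 3 * (60 * K * B + (K * B + θw * Lg)) * r ^ 2 := by ring
      _ < cm / C₅ / 128 * r ^ 2 := mul_lt_mul_of_pos_right hA3 (by positivity)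
      _ = cm / C₅ * r ^ 2 / 128 := by ring
  subst hT1
  obtain ⟨j, hj, C, hC1, hC2, hC3', hC4, hC5⟩ := net hwf hκ hg hn1 hn hN (x' := x')
    (τ := L0 + t) (r₀ := r) (A := A) (a₁ := 60 * K * B) (a₂ := K * B + θw * Lg) (θ := θw)
    (er := erw) hA hr0
    (by rw [← hs]; exact hrs) (by rw [← hs]; linarith) hlmin hlmax hgood hlam0 hθw
    (fun q hq l hl => hsize q hq l hl) hθ₁ h1 h2 hne
  have hAj : 1 ≤ A ^ (j + 1) := one_le_pow₀ hA
  have hq0 : 0 < A ^ (j + 1) * r := by positivity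
  refine ⟨⟨C, A ^ (j + 1) * r, hq0, hC4⟩, ?_, ?_, ?_⟩
  · rw [← hr2]
    exact pow_le_pow_left₀ hr0.le (le_mul_of_one_le_left hr0.le hAj) 2
  · simp only
    rw [mul_pow, hr2, ← pow_mul]
    refine mul_le_mul_of_nonneg_right ?_ hΘt.le
    exact pow_le_pow_right₀ hA (by lia)
  · intro l hl
    have h3 := hC5 l hl
    simp only
    set q := A ^ (j + 1) * r with hq
    have h4 : (A ^ j * r) ^ 2 = q ^ 2 / A ^ 2 := by
      rw [hq]; field_simp; ring
    have h5 : r ^ 2 ≤ q ^ 2 :=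
      pow_le_pow_left₀ hr0.le (le_mul_of_one_le_left hr0.le hAj) 2
    have h6 : Kκ * Cμ / 2 * (A ^ j * r) ^ 2 + 60 * K * B * r ^ 2 + (K * B + θw * Lg) * q ^ 2 ≤
        (Kκ * Cμ / (2 * A ^ 2) + 60 * K * B + (K * B + θw * Lg)) * q ^ 2 := by
      rw [h4]
      have h7 : 60 * K * B * r ^ 2 ≤ 60 * K * B * q ^ 2 :=
        mul_le_mul_of_nonneg_left h5 (by positivity)
      have h8 : Kκ * Cμ / 2 * (q ^ 2 / A ^ 2) = Kκ * Cμ / (2 * A ^ 2) * q ^ 2 := by
        field_simp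
      rw [h8]
      linarith
    have h9 : C₅ * (3 * (Kκ * Cμ / 2 * (A ^ j * r) ^ 2 + 60 * K * B * r ^ 2 +
        (K * B + θw * Lg) * q ^ 2)) ≤ c1 / 2 * q ^ 2 := by
      calc C₅ * (3 * (Kκ * Cμ / 2 * (A ^ j * r) ^ 2 + 60 * K * B * r ^ 2 +
            (K * B + θw * Lg) * q ^ 2))
          ≤ C₅ * (3 * ((Kκ * Cμ / (2 * A ^ 2) + 60 * K * B + (K * B + θw * Lg)) * q ^ 2)) := by
            refine mul_le_mul_of_nonneg_left ?_ hC₅.le
            linarith
        _ = 3 * C₅ * (Kκ * Cμ / (2 * A ^ 2) + 60 * K * B + (K * B + θw * Lg)) * q ^ 2 := by ring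
        _ ≤ _ := mul_le_mul_of_nonneg_right hA1 (sq_nonneg _)
    linarith

end Crest.Agent.R234.Well_761
end
end

-- ▼ part R234/Well10_761

/-!
Row 234, VF-N8AV (helper761), file 10: supply lemmas in the class `CylAS` for N8 (and N9) at an
averaged contact centre.
-/

set_option autoImplicit false
set_option linter.unusedSectionVars false

open MeasureTheory Set Function Filter Topology Metric
open Crest.GeometryTopology.Submanifold
open Crest.Agent.R234.Vf_884 Crest.Agent.R234.Ar_870 Crest.Agent.R234.Cy_870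
open Crest.Agent.R234.Wi_870 Crest.Agent.R234.Asl_214 Crest.Agent.R234.Avg_387
open scoped ENNReal NNReal InnerProductSpace

noncomputable section

namespace Crest.Agent.R234.Well_761

section abstr
variable {H : Type*} [NormedAddCommGroup H] [NormedSpace ℝ H] [FiniteDimensional ℝ H]
  [MeasurableSpace H] [BorelSpace H]
variable {W : Type*} [NormedAddCommGroup W] [InnerProductSpace ℝ W] [MeasurableSpace W]
  [BorelSpace W]
variable {m : ℕ} {κ : ℝ → ℝ} {Kκ cκ : ℝ} {mu en : Measure (H × W)} {K : ℝ} {x₀ : H} {ρ₀ : ℝ}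

theorem WFlow.mono {erw : H → ℝ → ℝ → ℝ} {K' θ₁ θ₁' ρ₁ : ℝ}
    (h : WFlow m κ mu en erw K θ₁ x₀ ρ₀) (hκ : Ker κ Kκ cκ) (hK : K ≤ K') (hθ : θ₁ ≤ θ₁')
    (hρ : ρ₁ ≤ ρ₀) : WFlow m κ mu en erw K' θ₁' x₀ ρ₁ where
  K0 := h.K0.trans hK
  θ0 := h.θ0.trans hθ
  flow x l hx C q hq hC := by
    obtain ⟨d, h1, h2⟩ := h.flow x l (hx.trans hρ) C q hq hC
    refine ⟨d, h1, h2.trans ?_⟩
    have h3 : 0 ≤ nu m κ mu x l (wells C q) := nu_nonneg hκ x l (wells_nonneg hq hC)
    have h4 := mul_le_mul_of_nonneg_right hθ h3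
    have h5 : 0 ≤ (Real.exp (2 * l) + q ^ 2) * Real.exp (-(m * l)) *
        (en (cyl x (Real.exp l) univ)).toReal := by
      have : 0 ≤ (en (cyl x (Real.exp l) univ)).toReal := ENNReal.toReal_nonneg
      positivity
    have h6 := mul_le_mul_of_nonneg_right hK h5
    have h7 : ∀ a : ℝ, a * (Real.exp (2 * l) + q ^ 2) * Real.exp (-(m * l)) *
        (en (cyl x (Real.exp l) univ)).toReal = a * ((Real.exp (2 * l) + q ^ 2) *
        Real.exp (-(m * l)) * (en (cyl x (Real.exp l) univ)).toReal) := fun a => by ring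
    rw [h7, h7]
    linarith

theorem nu_one_ge (hκ : Ker κ Kκ cκ) {x y : H} {r l : ℝ} (hfin : mu (cyl y (Real.exp l) univ) ≠ ⊤)
    (hr : r + dist x y ≤ Real.exp l / 2) :
    Real.exp (-(m * l)) * (cκ * (mu (cyl x r univ)).toReal) ≤
      nu m κ mu y l (fun _ : W => (1 : ℝ)) := by
  have hB : MeasurableSet (cyl x r (univ : Set W)) := cyl_meas _ _ MeasurableSet.univ
  have hsub : cyl x r (univ : Set W) ⊆ cyl y (Real.exp l) univ := by
    refine prod_mono (closedBall_subset_closedBall' ?_) le_rfl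
    have := Real.exp_pos l
    linarith
  have hfin2 : mu (cyl x r univ) ≠ ⊤ := ne_top_of_le_ne_top hfin (measure_mono hsub)
  have hint := kerF_integrable (W := W) hκ (F := fun _ => (1 : ℝ)) measurable_const (M := 1)
    (fun _ => by simp) hfin
  have key : cκ * (mu (cyl x r univ)).toReal ≤
      ∫ z : H × W, κ (dist z.1 y * Real.exp (-l)) * 1 ∂mu := by
    have e1 : cκ * (mu (cyl x r univ)).toReal = ∫ _z in cyl x r (univ : Set W), cκ ∂mu := by
      rw [setIntegral_const, smul_eq_mul, mul_comm]; rfl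
    rw [e1, ← integral_indicator hB]
    refine integral_mono ((integrable_indicator_iff hB).2 (integrableOn_const hfin2)) hint ?_
    intro z
    simp only
    by_cases hz : z ∈ cyl x r (univ : Set W)
    · rw [indicator_of_mem hz, mul_one]
      refine hκ.ge _ (by positivity) ?_
      have h1 : dist z.1 x ≤ r := mem_closedBall.1 hz.1
      have h2 := dist_triangle z.1 x y
      rw [Real.exp_neg, ← div_eq_mul_inv, div_le_iff₀ (Real.exp_pos l)]
      linarith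
    · rw [indicator_of_notMem hz, mul_one]
      exact hκ.nonneg _
  unfold nu
  exact mul_le_mul_of_nonneg_left key (Real.exp_pos _).le

end abstr

variable {m n k : ℕ} {π : Euc k →L[ℝ] Euc m} {κ : Euc k →L[ℝ] Euc n} {x x₀ : Euc m}
  {R h₀ δ τ ρ₀ : ℝ} {V W : Measure (Euc k × L k)} {g g1 g2 : ℝ → ℝ} {d : Euc m → ℝ}

/-- the energy measure of a cylinder is bounded by the kernel energy at a near centre -/
theorem enOf_cyl_le_ee {y : Euc m} {L₀ : ℝ} (h : Fr V π κ y L₀) (hg : Prof g g1 g2)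
    (hg0 : ∀ t, 0 ≤ t → 0 ≤ g t) {cg ρ : ℝ} (hcg : 0 < cg) (hρ : ρ ≤ 1)
    (hgc : ∀ t, 0 ≤ t → t ≤ ρ ^ 2 → cg ≤ g t) {r l : ℝ}
    (hr : r + dist x y ≤ ρ * Real.exp l) (hl : l < L₀) :
    (enOf V π κ (cyl x r univ)).toReal ≤
      cg⁻¹ * (Real.exp ((m - 2) * l) * ee V π y g l) := by
  have hcm : MeasurableSet (cyl x r (univ : Set (Euc n))) :=
    Metric.isClosed_closedBall.measurableSet.prod MeasurableSet.univ
  have hpre : MeasurableSet (bh π κ ⁻¹' cyl x r (univ : Set (Euc n))) :=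
    measurable_bh (m := m) π κ hcm
  have hy : ∀ p ∈ bh π κ ⁻¹' cyl x r (univ : Set (Euc n)), ‖π p.1 - y‖ ≤ ρ * Real.exp l := by
    intro p hp
    have h1 : dist (π p.1) x ≤ r := by
      have := hp.1
      rwa [Metric.mem_closedBall, bh] at this
    have h2 := dist_triangle (π p.1) x y
    rw [← dist_eq_norm]
    linarith
  have hsub1 : bh π κ ⁻¹' cyl x r (univ : Set (Euc n)) ⊆
      {p | ‖π p.1 - y‖ ^ 2 < Real.exp (2 * L₀)} := by
    intro p hp
    have h1 := hy p hp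
    have h2 : ‖π p.1 - y‖ ≤ Real.exp l :=
      h1.trans (mul_le_of_le_one_left (Real.exp_pos l).le hρ)
    have h3 : ‖π p.1 - y‖ ^ 2 ≤ Real.exp l ^ 2 := pow_le_pow_left₀ (norm_nonneg _) h2 2
    rw [← Real.exp_nat_mul] at h3
    refine lt_of_le_of_lt h3 (Real.exp_lt_exp.2 ?_)
    push_cast
    linarith
  have hint : IntegrableOn (fun p => tl π p.2) (bh π κ ⁻¹' cyl x r (univ : Set (Euc n))) V :=
    (integrableOn_tl h).mono_set hsub1
  have hnn : ∀ᵐ p ∂V, 0 ≤ tl π p.2 := by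
    filter_upwards [h.conc] with p hp
    exact tl_nonneg h.sp.hh (isPr_of_G hp)
  have e1 : enOf V π κ (cyl x r (univ : Set (Euc n))) =
      ∫⁻ p in bh π κ ⁻¹' cyl x r (univ : Set (Euc n)), ENNReal.ofReal (tl π p.2) ∂V := by
    unfold enOf
    rw [Measure.map_apply (measurable_bh π κ) hcm, withDensity_apply _ hpre]
  rw [e1, ← ofReal_integral_eq_lintegral_ofReal hint (ae_restrict_of_ae hnn),
    ENNReal.toReal_ofReal (integral_nonneg_of_ae (ae_restrict_of_ae hnn))]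
  have hI := h.integrable_c (aestronglyMeasurable_tl π V) h.tl_bound hg.k0 hl.le
  have e2 : Real.exp ((m - 2) * l) * ee V π y g l =
      ∫ p, tl π p.2 * g (Real.exp (-2 * l) * ‖π p.1 - y‖ ^ 2) ∂V := by
    unfold ee
    rw [← mul_assoc, ← Real.exp_add]
    have : ((m : ℝ) - 2) * l + (2 - m) * l = 0 := by ring
    rw [this, Real.exp_zero, one_mul]
  rw [e2, ← integral_const_mul, ← integral_indicator hpre]
  refine integral_mono_ae ((integrable_indicator_iff hpre).2 hint) (hI.const_mul _) ?_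
  filter_upwards [hnn] with p hp
  by_cases hps : p ∈ bh π κ ⁻¹' cyl x r (univ : Set (Euc n))
  · rw [indicator_of_mem hps]
    have h1 := hy p hps
    have h2 : Real.exp (-2 * l) * ‖π p.1 - y‖ ^ 2 ≤ ρ ^ 2 := by
      have h3 : ‖π p.1 - y‖ ^ 2 ≤ (ρ * Real.exp l) ^ 2 := pow_le_pow_left₀ (norm_nonneg _) h1 2
      calc Real.exp (-2 * l) * ‖π p.1 - y‖ ^ 2 ≤ Real.exp (-2 * l) * (ρ * Real.exp l) ^ 2 :=
            mul_le_mul_of_nonneg_left h3 (Real.exp_pos _).le
        _ = ρ ^ 2 * (Real.exp (-2 * l) * Real.exp l ^ 2) := by ring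
        _ = ρ ^ 2 := by
            rw [← Real.exp_nat_mul, ← Real.exp_add]
            have : -2 * l + ((2 : ℕ) : ℝ) * l = 0 := by push_cast; ring
            rw [this, Real.exp_zero, mul_one]
    have h4 := hgc _ (by positivity) h2
    have h5 : 1 ≤ cg⁻¹ * g (Real.exp (-2 * l) * ‖π p.1 - y‖ ^ 2) := by
      rw [← div_eq_inv_mul, le_div_iff₀ hcg, one_mul]
      exact h4
    calc tl π p.2 = tl π p.2 * 1 := (mul_one _).symm
      _ ≤ tl π p.2 * (cg⁻¹ * g (Real.exp (-2 * l) * ‖π p.1 - y‖ ^ 2)) :=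
          mul_le_mul_of_nonneg_left h5 hp
      _ = _ := by ring
  · rw [indicator_of_notMem hps]
    have := hg0 (Real.exp (-2 * l) * ‖π p.1 - y‖ ^ 2) (by positivity)
    have : 0 < cg⁻¹ := inv_pos.2 hcg
    positivity

/-- ... by the averaged energy -/
theorem enOf_cyl_le_eea (hfr : ∀ x L, Fr V π κ x L) (hτ : 0 ≤ τ) (hd : CW d τ)
    (hg : Prof g g1 g2) (hg0 : ∀ t, 0 ≤ t → 0 ≤ g t) {cg ρ : ℝ} (hcg : 0 < cg) (hρ : ρ ≤ 1)
    (hgc : ∀ t, 0 ≤ t → t ≤ ρ ^ 2 → cg ≤ g t) {r l : ℝ} (hr : r + τ ≤ ρ * Real.exp l) :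
    (enOf V π κ (cyl x r univ)).toReal * ∫ h, d h ≤
      cg⁻¹ * (Real.exp ((m - 2) * l) * eea d V π g x l) := by
  have hl1 : l < l + 1 := by linarith
  have hco1 : CO x τ (l + 1) (fun (_ : Euc m) (_ : ℝ) => (enOf V π κ (cyl x r univ)).toReal) :=
    CO_const _ continuous_const
  have hco2 : CO x τ (l + 1) (fun y t => ee V π y g t) := (afr_of hfr hτ x (l + 1)).co_ee hg.k0
  have h1 := av_mono hd hco1 (hco2.const_mul (cg⁻¹ * Real.exp ((m - 2) * l))) hl1 (by
    intro y hy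
    have h2 := enOf_cyl_le_ee (x := x) (hfr y (l + 1)) hg hg0 hcg hρ hgc (r := r) (l := l) (by
      have : dist y x ≤ τ := mem_closedBall.1 hy
      rw [dist_comm x y]
      linarith) hl1
    rw [← mul_assoc] at h2
    exact h2)
  rw [av_const, av_const_mul, mul_assoc] at h1
  exact h1

/-- lower bound of the averaged mass -/
theorem le_Nav (hfr : ∀ x L, Fr V π κ x L) (hτ : 0 ≤ τ) (hd : CW d τ) (hg : Prof g g1 g2)
    {Kκ cκ : ℝ} (hκ : Ker (kap g1) Kκ cκ) {r l : ℝ} (hr : r + τ ≤ Real.exp l / 2) :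
    Real.exp (-(m * l)) * (cκ * (muOf V π κ (cyl x r univ)).toReal) * ∫ h, d h ≤
      Nav d V π κ g1 x l (fun _ => (1 : ℝ)) := by
  have hl1 : l < l + 1 := by linarith
  have hco1 : CO x τ (l + 1) (fun (_ : Euc m) (_ : ℝ) =>
      Real.exp (-(m * l)) * (cκ * (muOf V π κ (cyl x r univ)).toReal)) :=
    CO_const _ continuous_const
  have hco2 := co_nuG (κ := κ) hfr hτ hg (F := fun _ => (1 : ℝ)) measurable_const (M := 1)
    (fun _ => by simp) x (l + 1)
  have h1 := av_mono hd hco1 hco2 hl1 (by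
    intro y hy
    have hfin : muOf V π κ (cyl y (Real.exp l) univ) ≠ ⊤ := by
      have hcm : MeasurableSet (cyl y (Real.exp l) (univ : Set (Euc n))) :=
        Metric.isClosed_closedBall.measurableSet.prod MeasurableSet.univ
      unfold muOf
      rw [Measure.map_apply (measurable_bh π κ) hcm]
      refine ne_top_of_le_ne_top (hfr y (l + 1)).fin.ne (measure_mono ?_)
      intro p hp
      have h4 : ‖π p.1 - y‖ ≤ Real.exp l := by
        have := hp.1
        rwa [Metric.mem_closedBall, bh, dist_eq_norm] at this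
      have h5 : ‖π p.1 - y‖ ^ 2 ≤ Real.exp l ^ 2 := pow_le_pow_left₀ (norm_nonneg _) h4 2
      rw [← Real.exp_nat_mul] at h5
      refine lt_of_le_of_lt h5 (Real.exp_lt_exp.2 ?_)
      push_cast
      linarith
    have h2 := nu_one_ge (W := Euc n) (m := m) (mu := muOf V π κ) hκ (x := x) (y := y) (r := r)
      (l := l) hfin (by
        have : dist y x ≤ τ := mem_closedBall.1 hy
        rw [dist_comm x y]
        linarith)
    rw [nu_eq hg V π κ y l measurable_const] at h2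
    exact h2)
  rw [av_const] at h1
  exact h1


/-- the additive error of the wells -/
theorem erwF_le {C Cμ : ℝ} (hC : 0 ≤ C) (h0 : 0 ≤ δ) (hCμ : 0 ≤ Cμ) {l q : ℝ}
    (hmu : muOf W π κ (cyl x (Real.exp l) univ) ≤ ENNReal.ofReal (Cμ * Real.exp (m * l)))
    (h1 : h₀ ^ 2 * Real.exp (2 * l) ≤ q ^ 2) (h2 : Real.exp (2 * l) ≤ 1) (h3 : h₀ ^ 2 ≤ 1) :
    CylAS.erwF W π κ C δ h₀ x l q ≤ 3 * C * Cμ * δ * q ^ 2 := by
  have h4 : (muOf W π κ (cyl x (Real.exp l) univ)).toReal ≤ Cμ * Real.exp (m * l) :=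
    ENNReal.toReal_le_of_le_ofReal (by positivity) hmu
  have h5 : Real.exp (-(m * l)) * (muOf W π κ (cyl x (Real.exp l) univ)).toReal ≤ Cμ := by
    calc Real.exp (-(m * l)) * (muOf W π κ (cyl x (Real.exp l) univ)).toReal
        ≤ Real.exp (-(m * l)) * (Cμ * Real.exp (m * l)) :=
          mul_le_mul_of_nonneg_left h4 (Real.exp_pos _).le
      _ = Cμ * (Real.exp (-(m * l)) * Real.exp (m * l)) := by ring
      _ = Cμ := by rw [← Real.exp_add, neg_add_cancel, Real.exp_zero, mul_one]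
  have h6 : (h₀ ^ 2 + q ^ 2) * Real.exp (2 * l) + h₀ ^ 2 * q ^ 2 ≤ 3 * q ^ 2 := by
    have h7 : q ^ 2 * Real.exp (2 * l) ≤ q ^ 2 * 1 := mul_le_mul_of_nonneg_left h2 (sq_nonneg q)
    have h8 : h₀ ^ 2 * q ^ 2 ≤ 1 * q ^ 2 := mul_le_mul_of_nonneg_right h3 (sq_nonneg q)
    linarith
  unfold CylAS.erwF
  calc C * δ * ((h₀ ^ 2 + q ^ 2) * Real.exp (2 * l) + h₀ ^ 2 * q ^ 2) *
        (Real.exp (-(m * l)) * (muOf W π κ (cyl x (Real.exp l) univ)).toReal)
      ≤ C * δ * (3 * q ^ 2) * Cμ :=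
        mul_le_mul (mul_le_mul_of_nonneg_left h6 (by positivity)) h5 (by positivity)
          (by positivity)
    _ = _ := by ring

/-- **mass at good centres** (`hms` of `hnet` and `hrun`) in the class `CylAS` -/
theorem hms_as (h : CylAS W π κ x₀ R h₀ δ) (h0 : 0 ≤ δ) (hδ : δ ≤ 1) (hh : 0 ≤ h₀)
    (hg : Prof g g1 g2) (hg0 : ∀ t, 0 ≤ t → 0 ≤ g t) {K : ℝ} (hK : Bd g g1 K) {c : ℝ}
    (hc : 0 < c) (hgc : ∀ t, 0 ≤ t → t ≤ Real.exp (-2 * (1 / 4)) → c ≤ g t) {l0 l1 a lam C1 : ℝ}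
    (hl : l0 ≤ l1) (ha : 0 ≤ a) (hl1 : l1 ≤ 0) (hdom : dist x x₀ + Real.exp l1 ≤ R)
    (hlam : 0 ≤ lam) (hC1 : 0 ≤ C1) (hA : lam * (l1 + a - l0) ≤ 1)
    (hen : ∀ t ∈ Icc l0 (l1 + a), (enOf W π κ (cyl x (Real.exp t) univ)).toReal ≤
      lam * Real.exp (m * t))
    (htop : We_822.muR W π κ x l1 ≤ C1 * Real.exp (m * l1))
    (hsmall : c⁻¹ * Real.exp (m * (1 / 4)) * (4 * K * δ * h₀ ^ 2) * (l1 - l0) ≤ 1 / 2) :
    ∀ l ∈ Icc l0 l1, muOf W π κ (cyl x (Real.exp l) univ) ≤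
      ENNReal.ofReal (We_822.CMU m c (1 / 4) K C1 1 * Real.exp (m * l)) := by
  intro l hl'
  have hA' : lam * (l1 - l0) ≤ 1 :=
    (mul_le_mul_of_nonneg_left (by linarith) hlam).trans hA
  have h1 := We_822.mass_as h h0 hδ hh hg hg0 hK hc (by norm_num : (0:ℝ) ≤ 1 / 4) hgc hl hl1
    (by rw [← dist_eq_norm]; exact hdom) hlam hC1 hA'
    (fun t ht => hen t ⟨ht.1, ht.2.trans (by linarith)⟩) htop hsmall l hl'
  unfold We_822.muR at h1
  rw [← ENNReal.ofReal_toReal (a := muOf W π κ (cyl x (Real.exp l) univ))]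
  · exact ENNReal.ofReal_le_ofReal h1
  · have : IsFiniteMeasure W := ⟨h.fin⟩
    unfold muOf
    have : IsFiniteMeasure (W.map (bh π κ)) := inferInstance
    exact measure_ne_top _ _

end Crest.Agent.R234.Well_761
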