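import Crest.Agent.R234.Fld3_387
import Crest.Agent.R234.Shp6_98
import Crest.Agent.R234.N0d_309
import Crest.Agent.R234.Th15_164
import Crest.Agent.R234.Raw2_387
import Crest.Agent.R234.Crs7_173
import Crest.Agent.R234.Core4_809
import Crest.Agent.R234.Ins1_387
import Crest.Agent.R234.Bds3_214
import Crest.Agent.R234.Shp7_98
import Crest.Agent.R234.Shp9_98

-- ▼ part R234/Fld4_387
section

/-!
# Row 234 (helper387): `Core_809.Fld` in `CylAS` with the well part of helper98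

`Da.OkAS`, `Da.AtAS` (no first variation hypothesis left), `fld_AS`.
-/

set_option autoImplicit false

open MeasureTheory Set Function Filter Topology Metric
open Crest.GeometryTopology.Submanifold
open Crest.Agent.R234.Vf_884 Crest.Agent.R234.Ar_870 Crest.Agent.R234.Cy_870
open Crest.Agent.R234.Pot_425 Crest.Agent.R234.Avg_387 Crest.Agent.R234.Rep_387
open Crest.Agent.R234.Raw_387 Crest.Agent.R234.Asl_214
open scoped ENNReal NNReal InnerProductSpace

noncomputable section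

namespace Crest.Agent.R234.Fld_387

variable {m n k : ℕ}

namespace Da

/-- properties of the data, `CylAS` version; `δA` = the almost stationarity, `δ' = 7 δA` -/
structure OkAS (D : Da m n k) (R h₀ δA c₀ K₀ KB : ℝ) (g2 : ℝ → ℝ) : Prop where
  m2 : 2 ≤ m
  cyl : CylAS D.W D.π D.κ 0 R h₀ δA
  h0 : 0 ≤ h₀
  R1 : 1 ≤ R
  δA0 : 0 ≤ δA
  τ0 : 0 < D.τ
  prof : Prof D.w.θ D.w.θ' g2
  fβ : IsFiniteMeasure D.β
  fγ : IsFiniteMeasure D.γ
  fb₂ : IsFiniteMeasure D.b₂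
  rep : Rep (D.β + D.γ) D.b₂ D.W D.π D.Q
  δ0 : 0 < D.δ
  δe : D.δ' = 7 * δA
  δδ : 7 * δA ≤ D.δ
  δ1 : D.δ ≤ 1
  K9 : 9 ≤ D.K
  c0 : 0 < c₀
  wl : ∀ t, 0 ≤ t → t ≤ 1 / 12 → c₀ ≤ D.w.θ t ∧ c₀ ≤ -D.w.θ' t
  wu : ∀ t, 0 ≤ t → D.w.θ t ≤ K₀ ∧ -D.w.θ' t ≤ K₀
  bd : Bd D.w.θ' g2 KB

/-- hypotheses at one contact centre, logarithmic scales `l ∈ [a, T]`, `CylAS` version -/
structure AtAS (D : Da m n k) (A D₀ a T δA h₀ KB κ' q1 : ℝ) (tM mM : ℝ → ℝ) (x : Euc m) :
    Prop where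
  hT : ‖x‖ + Real.exp T + 2 * D.τ ≤ 1
  tall : D₀ ≤ D.Us x a
  hB : ∀ l, a ≤ l → l ≤ T → 0 ≤ D.B x l
  hEe : ∀ l, a ≤ l → l + 1 ≤ T → D.E x l ≤ A * D.e x (l + 1)
  PT : D.P x T ≤ D₀
  htM : ∀ l ∈ Icc a T, 0 ≤ tM l
  htb : ∀ l ∈ Icc a T, ∀ y ∈ closedBall x D.τ, tb D.W D.π y l ≤ tM l
  hmb : ∀ l ∈ Icc a T, ∀ y ∈ closedBall x D.τ, mb D.W D.π y l ≤ mM l
  ht : ∀ q : ℝ, q ^ 2 ≤ q1 → ∀ l ∈ Icc a T,
    4 * Shp_98.tw KB δA h₀ (∫ z, dd m D.τ z) q (tM l) (mM l) l ^ 2 ≤ κ' * D.δ * D₀ ^ 2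

variable {D : Da m n k} {R h₀ δA c₀ K₀ KB A D₀ a T κ' q1 : ℝ} {g2 : ℝ → ℝ} {tM mM : ℝ → ℝ}
  {x : Euc m}

theorem OkAS.ok (h : D.OkAS R h₀ δA c₀ K₀ KB g2) : D.Ok h₀ c₀ K₀ g2 where
  m2 := h.m2
  ff := Shp_98.ff_of_cylAS h.cyl
  hh := h.cyl.hgt
  τ0 := h.τ0
  prof := h.prof
  fβ := h.fβ
  fγ := h.fγ
  fb₂ := h.fb₂
  rep := h.rep
  δ0 := h.δ0
  δ'0 := by rw [h.δe]; linarith [h.δA0]
  δδ := by rw [h.δe]; exact h.δδ
  K2 := by linarith [h.K9]
  c0 := h.c0
  wl := h.wl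
  wu := h.wu

theorem AtAS.at' (h : D.OkAS R h₀ δA c₀ K₀ KB g2)
    (hx : D.AtAS A D₀ a T δA h₀ KB κ' q1 tM mM x) : D.At A D₀ a T x where
  hT := hx.hT
  hf := fun y hy l hl => by
    have hff := Shp_98.ff_of_cylAS h.cyl
    have hw := Shp_98.window (x := x) h.τ0 hx.hT hl
    have hyx : ‖y - x‖ ≤ D.τ := by rwa [mem_closedBall_iff_norm] at hy
    have hy2 : ‖y - 0‖ + Real.exp l ≤ R := by
      have := norm_sub_le_norm_sub_add_norm_sub y x (0 : Euc m)
      linarith [hw.1, h.R1]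
    refine (Shp_98.abs_f1_le h.cyl h.δA0 h.prof hy2 hw.2).trans ?_
    rw [h.δe]
    refine mul_le_mul_of_nonneg_right (by linarith [h.δA0]) ?_
    have hcy := cf_yc (W := D.W) (κ := D.κ) h.cyl.hgt
    have a1 : 0 ≤ ee D.W D.π y D.w.θ l := by
      rw [ee_eq_kk hff]
      exact kk_nonneg (cf_tc hff) h.prof y l
    have a2 := Shp_98.et_nonneg hff h.prof y l
    have a3 := kk_nonneg (π := D.π) hcy h.prof y l
    have a4 := kt_nonneg (π := D.π) hcy h.prof y l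
    linarith
  tall := hx.tall
  hB := hx.hB
  hEe := hx.hEe
  PT := hx.PT

/-- the centre as a `Ctr` -/
theorem AtAS.ctr (h : D.OkAS R h₀ δA c₀ K₀ KB g2)
    (hx : D.AtAS A D₀ a T δA h₀ KB κ' q1 tM mM x) (hA : Real.exp ((m:ℝ) - 2) ≤ A)
    (hD₀ : 0 < D₀) (haT : a ≤ T) :
    Ctr m D.K D.δ (K₀ / c₀) A D₀ a T (D.E x) (D.e x) (D.et x) (D.b x) (D.g x) (D.R x) (D.f x)
      (D.p x) (D.P x) (D.B x) :=
  (hx.at' h).ctr h.ok hA hD₀ haT

/-- `eF = IF' / 2` of the family of wells -/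
def eF (D : Da m n k) (g2 : ℝ → ℝ) (x : Euc m) (v : Shp_98.WP n) (l : ℝ) : ℝ :=
  Shp_98.Fm (dd m D.τ) D.W D.π D.κ D.w.θ x v l + Shp_98.Gm (dd m D.τ) D.W D.π D.κ D.w.θ' g2 x v l

/-- `IF` of the family of wells -/
def IF (D : Da m n k) (x : Euc m) (v : Shp_98.WP n) (l : ℝ) : ℝ :=
  Shp_98.IFw (dd m D.τ) D.W D.π D.κ D.w.θ' x v l

theorem AtAS.ptDat (h : D.OkAS R h₀ δA c₀ K₀ KB g2)
    (hx : D.AtAS A D₀ a T δA h₀ KB κ' q1 tM mM x) (hA : Real.exp ((m:ℝ) - 2) ≤ A)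
    (hD₀ : 0 < D₀) (hκ : 0 ≤ κ') {a' : ℝ} (haa : a ≤ a') (haT : a' ≤ T) :
    Core_809.PtDat (Shp_98.qW : Shp_98.WP n → ℝ) κ' a' T q1 (D.Us x) (D.Es x) (D.Rs x)
      (D.eF g2 x) (D.IF x) (fun _ _ => 0) := by
  have f1 := h.fβ
  have f2 := h.fγ
  have f3 := h.fb₂
  have hm := h.m2
  have hc := hx.ctr h hA hD₀ (haa.trans haT)
  have hU := hc.U_pos haa haT
  have hP : PY (7 * δA) D.W D.π D.κ D.τ D.w x = D.P x := by rw [← h.δe]; rfl
  have hp : pY (7 * δA) D.W D.π D.κ D.τ D.w x = D.p x := by rw [← h.δe]; rfl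
  have hsub : ∀ {l}, l ∈ Icc a' T → l ∈ Icc a T := fun {l} hl => ⟨haa.trans hl.1, hl.2⟩
  have key := Shp_98.ptDat_AS (x := x) (K := D.K) (δ := D.δ) (T := T) (a := a') (q1 := q1)
    (κ' := κ') (tM := tM) (mM := mM) (β := D.β) (γ := D.γ) (b₂ := D.b₂) (Q := D.Q) (w := D.w)
    (by lia) h.cyl h.h0 h.R1 h.δA0 h.τ0 h.prof rfl h.rep h.δ0 h.δδ h.δ1 h.K9 haT hx.hT hκ
    (by rw [hP]; exact hD₀.trans_le hU) (fun l hl => hx.hB l (hsub hl).1 hl.2) h.bd
    (fun l hl => hx.htM l (hsub hl)) (fun l hl => hx.htb l (hsub hl))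
    (fun l hl => hx.hmb l (hsub hl)) (fun v hv l hl => by
      refine (hx.ht _ hv l (hsub hl)).trans ?_
      rw [hP]
      refine mul_le_mul_of_nonneg_left ?_ (mul_nonneg hκ h.δ0.le)
      exact pow_le_pow_left₀ hD₀.le hU 2)
  rw [hP, hp] at key
  exact key

theorem AtAS.cs (h : D.OkAS R h₀ δA c₀ K₀ KB g2)
    (hx : D.AtAS A D₀ a T δA h₀ KB κ' q1 tM mM x) (hA : Real.exp ((m:ℝ) - 2) ≤ A)
    (hD₀ : 0 < D₀) (hκ : 0 ≤ κ') {v : Shp_98.WP n} (hv : Shp_98.qW v ^ 2 ≤ q1) {l : ℝ}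
    (hl : l ∈ Icc a T) :
    D.eF g2 x v l ^ 2 ≤ D.Rs x l * D.IF x v l + κ' * D.Us x l ^ 2 := by
  have f1 := h.fβ
  have f2 := h.fγ
  have f3 := h.fb₂
  have hm := h.m2
  have haT : a ≤ T := hl.1.trans hl.2
  have hc := hx.ctr h hA hD₀ haT
  have hU := hc.U_pos le_rfl haT
  have hP : PY (7 * δA) D.W D.π D.κ D.τ D.w x = D.P x := by rw [← h.δe]; rfl
  have hp : pY (7 * δA) D.W D.π D.κ D.τ D.w x = D.p x := by rw [← h.δe]; rfl
  have key := Shp_98.cs_AS (x := x) (K := D.K) (δ := D.δ) (T := T) (a := a) (q1 := q1)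
    (κ' := κ') (tM := tM) (mM := mM) (β := D.β) (γ := D.γ) (b₂ := D.b₂) (Q := D.Q) (w := D.w)
    (by lia) h.cyl h.h0 h.R1 h.δA0 h.τ0 h.prof rfl h.rep h.δ0 h.δδ h.δ1 h.K9 hx.hT hκ
    (by rw [hP]; exact hD₀.trans_le hU) h.bd
    hx.htM hx.htb hx.hmb (fun v hv l hl => by
      refine (hx.ht _ hv l hl).trans ?_
      rw [hP]
      refine mul_le_mul_of_nonneg_left ?_ (mul_nonneg hκ h.δ0.le)
      exact pow_le_pow_left₀ hD₀.le hU 2) hv hl
  rw [hP, hp, mul_comm (Shp_98.IFw _ _ _ _ _ _ _ _)] at key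
  exact key

end Da

/-- **`Core_809.Fld` in `CylAS`**, wells of helper98, `t = l - L₀`, `e^{L₀} = 2 r₀` -/
theorem fld_AS {d : ℕ} {D : Da (d + 2) n k} {R h₀ δA c₀ K₀ KB : ℝ} {g2 : ℝ → ℝ}
    (ok : D.OkAS R h₀ δA c₀ K₀ KB g2) {Z : Set (Euc (d + 2))}
    {A D₀ r0 L₀ a0 T κ' q1 : ℝ} {tM mM : ℝ → ℝ}
    (hA : Real.exp d ≤ A) (hD₀ : 0 < D₀) (hr : Real.exp L₀ = 2 * r0) (haT : a0 ≤ T)
    (hκ : 0 ≤ κ')
    (hZ : ∀ x ∈ Z, D.AtAS A D₀ (L₀ + a0 - 1) (L₀ + T) δA h₀ KB κ' q1 tM mM x) :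
    Core_809.Fld Z (Shp_98.qW : Shp_98.WP n → ℝ) d κ' a0 T q1 r0 (48 * A)
      (6 * (K₀ / c₀) * Real.exp (4 * ((d + 2 : ℕ) : ℝ))) A (Da.CK (d + 2) c₀ K₀ + 2 * A)
      (fun x t => D.Us x (L₀ + t)) (fun x t => D.Es x (L₀ + t)) (fun x t => D.Rs x (L₀ + t))
      (fun x t => D.es x (L₀ + t)) (fun x w t => D.eF g2 x w (L₀ + t))
      (fun x w t => D.IF x w (L₀ + t)) (fun _ _ _ => 0) := by
  have hm : (((d + 2 : ℕ) : ℝ) - 2) = d := by push_cast; ring
  refine fld ok.ok hA hD₀ hr haT (fun x hx => (hZ x hx).at' ok) (er := fun _ _ _ => 0)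
    (fun x hx => (hZ x hx).ptDat ok (by rw [hm]; exact hA) hD₀ hκ (by linarith) (by linarith))
    (fun x hx w hw l hl => (hZ x hx).cs ok (by rw [hm]; exact hA) hD₀ hκ hw
      ⟨by linarith [hl.1], hl.2⟩)

end Crest.Agent.R234.Fld_387
end
end

-- ▼ part R234/N0t_309
section

/-!
Row 234, node N0 (helper309), tall centres: lower bound of the averaged energy at the points of
`supp ε` at all scales `e^l ≥ 4 (t + 3 τ)`, and the lower bound of the sharp radial energy `Us`.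
-/

set_option autoImplicit false

open MeasureTheory Filter Topology Set Metric
open scoped ENNReal NNReal

namespace Crest.Agent.R234.N0_309

open Crest.GeometryTopology.Submanifold
open Crest.Agent.R234.Vf_884 Crest.Agent.R234.Ar_870 Crest.Agent.R234.Cy_870
open Crest.Agent.R234.Pot_425 Crest.Agent.R234.Rep_387
open Crest.Agent.R234.Raw_387 Crest.Agent.R234.Avg_387
open Crest.Agent.R234.N5_372 (eM bm_apply measurableSet_ov ov)

noncomputable section

variable {m n k : ℕ} {π : Euc k →L[ℝ] Euc m} {κ : Euc k →L[ℝ] Euc n}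
  {W : Measure (Euc k × L k)} {g g1 : ℝ → ℝ} {τ : ℝ}

theorem eM_real (h : FF W π κ) {A : Set (Euc m)} (hA : MeasurableSet A) :
    (eM W π).real A = ∫ p in ov π A, tl π p.2 ∂W := by
  have hf : IsFiniteMeasure W := ⟨h.fin⟩
  unfold eM
  rw [measureReal_def, bm_apply W π _ hA, integral_eq_lintegral_of_nonneg_ae]
  · filter_upwards [ae_restrict_of_ae h.conc] with p hp
    exact tl_nonneg h.sp.hh (isPr_of_G hp)
  · exact ((measurable_tl π).measurable.comp measurable_snd).aestronglyMeasurable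

theorem integrable_tl (h : FF W π κ) : Integrable (fun p : Euc k × L k => tl π p.2) W := by
  have hf : IsFiniteMeasure W := ⟨h.fin⟩
  refine Integrable.of_bound ((measurable_tl π).measurable.comp
    measurable_snd).aestronglyMeasurable m ?_
  filter_upwards [h.conc] with p hp
  rw [Real.norm_eq_abs, abs_of_nonneg (tl_nonneg h.sp.hh (isPr_of_G hp))]
  exact tl_le h.sp.hh (isPr_of_G hp)

theorem eM_ne_top (h : FF W π κ) {A : Set (Euc m)} (hA : MeasurableSet A) : eM W π A ≠ ⊤ := by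
  have hf : IsFiniteMeasure W := ⟨h.fin⟩
  unfold eM
  rw [bm_apply W π _ hA]
  exact ((integrable_tl h).integrableOn.lintegral_lt_top).ne

/-- the energy at an ordinary centre from below -/
theorem ee_ge (h : FF W π κ) (hg : Ker g g1) (hg0 : ∀ t, 0 ≤ g t) {c0 : ℝ}
    (hgc : ∀ t, 0 ≤ t → t ≤ 1 / 12 → c0 ≤ g t) {y : Euc m} {l : ℝ} {A : Set (Euc m)}
    (hA : MeasurableSet A) (hAy : ∀ z ∈ A, ‖z - y‖ ≤ Real.exp l / 4) :
    Real.exp ((2 - m) * l) * (c0 * (eM W π).real A) ≤ ee W π y g l := by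
  unfold ee
  refine mul_le_mul_of_nonneg_left ?_ (Real.exp_pos _).le
  rw [eM_real h hA, ← integral_const_mul]
  have i2 : Integrable (fun p : Euc k × L k =>
      tl π p.2 * g (Real.exp (-2 * l) * ‖π p.1 - y‖ ^ 2)) W :=
    (h.fr y (l + 1)).integrable_c (aestronglyMeasurable_tl π W) (h.fr y (l + 1)).tl_bound hg
      (by linarith : l ≤ l + 1)
  have h0 : 0 ≤ᵐ[W] fun p : Euc k × L k =>
      tl π p.2 * g (Real.exp (-2 * l) * ‖π p.1 - y‖ ^ 2) := by
    filter_upwards [h.conc] with p hp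
    exact mul_nonneg (tl_nonneg h.sp.hh (isPr_of_G hp)) (hg0 _)
  refine le_trans ?_ (setIntegral_le_integral (s := ov π A) i2 h0)
  refine integral_mono_ae ((integrable_tl h).integrableOn.const_mul c0) i2.integrableOn ?_
  filter_upwards [ae_restrict_of_ae h.conc, ae_restrict_mem (measurableSet_ov hA)] with p hp hpA
  have h1 := hAy _ hpA
  have h2 : Real.exp (-2 * l) * ‖π p.1 - y‖ ^ 2 ≤ 1 / 12 := by
    have h3 : ‖π p.1 - y‖ ^ 2 ≤ (Real.exp l / 4) ^ 2 := pow_le_pow_left₀ (norm_nonneg _) h1 2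
    have h4 : Real.exp (-2 * l) * (Real.exp l / 4) ^ 2 = 1 / 16 := by
      have h5 : Real.exp (-2 * l) * Real.exp l ^ 2 = 1 := by
        rw [← Real.exp_nat_mul, ← Real.exp_add]
        norm_num
      calc Real.exp (-2 * l) * (Real.exp l / 4) ^ 2 =
          (Real.exp (-2 * l) * Real.exp l ^ 2) / 16 := by ring
        _ = 1 / 16 := by rw [h5]
    calc Real.exp (-2 * l) * ‖π p.1 - y‖ ^ 2 ≤ Real.exp (-2 * l) * (Real.exp l / 4) ^ 2 :=
          mul_le_mul_of_nonneg_left h3 (Real.exp_pos _).le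
      _ ≤ 1 / 12 := by rw [h4]; norm_num
  have h3 := hgc _ (by positivity) h2
  have h4 := tl_nonneg h.sp.hh (isPr_of_G hp)
  nlinarith

/-- the averaged energy from below -/
theorem eea_ge (h : FF W π κ) (hτ : 0 < τ) (hg : Ker g g1) (hg0 : ∀ t, 0 ≤ g t) {c0 : ℝ}
    (hgc : ∀ t, 0 ≤ t → t ≤ 1 / 12 → c0 ≤ g t) {x : Euc m} {l r : ℝ}
    (hr : r + τ ≤ Real.exp l / 4) :
    Real.exp ((2 - m) * l) * (c0 * (eM W π).real (closedBall x r)) * Md m ≤
      eea (dd m τ) W π g x l := by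
  set C := Real.exp ((2 - m) * l) * (c0 * (eM W π).real (closedBall x r)) with hC
  have h1 : av (dd m τ) (fun _ _ => C) x l = C * Md m := by
    unfold av
    rw [← integral_dd (m := m) hτ, ← integral_const_mul]
    refine integral_congr_ae (Eventually.of_forall fun h => ?_)
    simp only
    ring
  rw [← h1]
  unfold eea
  have cE : CO x τ (l + 1) (fun y l => ee W π y g l) := CO_of_cont (cont2_ee' h hg) x τ (l + 1)
  refine av_mono (cw_dd hτ) (CO_const (x := x) (τ := τ) (L₀ := l + 1) (fun _ => C)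
    continuous_const) cE (by linarith : l < l + 1) fun y hy => ?_
  refine ee_ge h hg hg0 hgc measurableSet_closedBall fun z hz => ?_
  rw [mem_closedBall, dist_eq_norm] at hy hz
  have h2 : ‖z - y‖ ≤ ‖z - x‖ + ‖x - y‖ := norm_sub_le_norm_sub_add_norm_sub _ _ _
  rw [norm_sub_rev x y] at h2
  linarith

variable {Dd : VarifoldData m k} {W₀ : Set (Euc k)} {Q h t lam bl c M : ℝ}

/-- **tall centres**: averaged energy at the contact points -/
theorem Out.eea_ge {S : Sheets Dd π} {ε : Measure (XB (Euc m) τ)}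
    (hO : Out S W₀ Q τ h t lam bl c M ε)
    (hF : FF ((VD Dd).restrict (W₀ ×ˢ univ)) π κ) (hτ : 0 < τ) (hh : 0 < h) (hlam : 0 ≤ lam)
    (hg : Ker g g1) (hg0 : ∀ t, 0 ≤ g t) {c0 : ℝ} (hc0 : 0 ≤ c0)
    (hgc : ∀ t, 0 ≤ t → t ≤ 1 / 12 → c0 ≤ g t) {x : XB (Euc m) τ} (hx : x ∈ ε.support)
    {l : ℝ} (hl : t + 3 * τ ≤ Real.exp l / 4) :
    Real.exp ((2 - m) * l) * (c0 * (lam * h ^ m)) * Md m ≤
      eea (dd m τ) ((VD Dd).restrict (W₀ ×ˢ univ)) π g (x : Euc m) l := by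
  obtain ⟨s, hs, hes⟩ := hO.tl x hx
  have h1 := N0_309.eea_ge hF hτ hg hg0 hgc (x := (x : Euc m)) (l := l) (r := s + 2 * τ)
    (by linarith [hs.2])
  refine le_trans ?_ h1
  have hMd : 0 ≤ Md m := by
    unfold Md
    exact integral_nonneg fun v => d1_nonneg v
  refine mul_le_mul_of_nonneg_right (mul_le_mul_of_nonneg_left (mul_le_mul_of_nonneg_left ?_ hc0)
    (Real.exp_pos _).le) hMd
  have h2 : lam * s ^ m ≤ (eM ((VD Dd).restrict (W₀ ×ˢ univ)) π).real
      (closedBall (x : Euc m) (s + 2 * τ)) :=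
    (ENNReal.ofReal_le_iff_le_toReal (eM_ne_top hF measurableSet_closedBall)).1 hes
  refine le_trans (mul_le_mul_of_nonneg_left (pow_le_pow_left₀ hh.le hs.1 m) hlam) h2

end

end Crest.Agent.R234.N0_309
end

-- ▼ part R234/Th16_164
section

/-!
Row 234, FLD-EB (helper164): `|E(l)| ≤ A e(l + 1)` in the window (ordinary and averaged centres).
-/

set_option autoImplicit false

open Set Filter Topology MeasureTheory Metric Function
open Crest.GeometryTopology.Submanifold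
open Crest.Agent.R234.Vf_884 Crest.Agent.R234.Ar_870 Crest.Agent.R234.Cy_870
open Crest.Agent.R234.Avg_387 Crest.Agent.R234.Raw_387
open scoped ENNReal NNReal ContDiff InnerProductSpace

noncomputable section

namespace Crest.Agent.R234.Th_164

variable {m n k : ℕ} {π : Euc k →L[ℝ] Euc m} {κ : Euc k →L[ℝ] Euc n}

/-- finite cover of the unit ball by small balls -/
theorem exists_cover_ball (m : ℕ) {η : ℝ} (hη : 0 < η) :
    ∃ F : Finset (Euc m), (∀ f ∈ F, ‖f‖ ≤ 1) ∧ closedBall (0 : Euc m) 1 ⊆ ⋃ f ∈ F, ball f η := by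
  obtain ⟨t, ht, htf, hc⟩ := (isCompact_closedBall (0 : Euc m) 1).finite_cover_balls hη
  refine ⟨htf.toFinset, fun f hf => ?_, ?_⟩
  · simpa using ht (htf.mem_toFinset.1 hf)
  · simpa using hc

theorem setIntegral_biUnion_le {α ι : Type*} [MeasurableSpace α] {μ : Measure α} (F : Finset ι)
    {A : ι → Set α} (hA : ∀ i, MeasurableSet (A i)) {f : α → ℝ} (hf0 : ∀ x, 0 ≤ f x)
    (hf : ∀ i ∈ F, IntegrableOn f (A i) μ) :
    ∫ x in ⋃ i ∈ F, A i, f x ∂μ ≤ ∑ i ∈ F, ∫ x in A i, f x ∂μ := by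
  classical
  induction F using Finset.induction_on with
  | empty => simp
  | insert i F hi ih =>
    rw [Finset.sum_insert hi, Finset.set_biUnion_insert]
    have h1 : MeasurableSet (⋃ j ∈ F, A j) := F.measurableSet_biUnion fun j _ => hA j
    have h2 : IntegrableOn f (⋃ j ∈ F, A j) μ :=
      (integrableOn_finset_iUnion).2 fun j hj => hf j (Finset.mem_insert_of_mem hj)
    have h3 : A i ∪ ⋃ j ∈ F, A j = A i ∪ ((⋃ j ∈ F, A j) \ A i) := (union_sdiff_self).symm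
    rw [h3, setIntegral_union disjoint_sdiff_right (h1.diff (hA i))
      (hf i (Finset.mem_insert_self i F)) (h2.mono_set sdiff_subset)]
    refine add_le_add le_rfl (le_trans ?_ (ih fun j hj => hf j (Finset.mem_insert_of_mem hj)))
    exact setIntegral_mono_set h2 (Eventually.of_forall fun x => hf0 x) sdiff_subset.eventuallyLE

set_option maxHeartbeats 800000 in
/-- **eb, ordinary centres**: `|E(l)| ≤ A e(l + 1)`. -/
theorem eb (m Q : ℕ) {c0 Cg : ℝ} (hc0 : 0 < c0) (hCg : 0 < Cg) : ∃ ε A : ℝ, 0 < ε ∧ 1 ≤ A ∧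
    ∀ (k : ℕ) (π : Euc k →L[ℝ] Euc m) (W : Measure (Euc k × L k)) (R : Set (Euc m))
      (N : Euc m → ℝ≥0∞) (δ h : ℝ) (q : Euc k → ℝ), Setup π W R N δ h q → δ * h ≤ ε →
      ∀ (g : ℝ → ℝ), Continuous g → (∀ t, 0 ≤ t → 0 ≤ g t) → (∀ t, 0 ≤ t → g t ≤ Cg) →
      (∀ t, 1 ≤ t → g t = 0) → (∀ t, 0 ≤ t → t ≤ 1 / 6 → c0 ≤ g t) →
      ∀ (x : Euc m) (l : ℝ), ball x (2 * Real.exp l) ⊆ R → δ * (m + h) * Real.exp l ≤ ε →
      (∀ y ∈ closedBall x (Real.exp l),
        ∫ z in ball y (Real.exp l / 4), |(N z).toReal - Q| ≤ ε * Real.exp l ^ m ∧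
        ∫ p in (fun p => π p.1) ⁻¹' ball y (Real.exp l / 4), tl π p.2 ∂W ≤ ε * Real.exp l ^ m) →
      |EE W π x g Q l| ≤ A * ee W π x g (l + 1) := by
  obtain ⟨σ, δ₁, ε₁, K, hσ, hσ1, hδ1, hδ1', hε1, hε1', hK, hT⟩ := win m Q
  obtain ⟨F, hF1, hF⟩ := exists_cover_ball m (η := 1 / 32) (by norm_num)
  set ε : ℝ := ε₁ / 16 ^ m with hε
  have h16 : (1 : ℝ) ≤ 16 ^ m := one_le_pow₀ (by norm_num)
  have hε0 : 0 < ε := by positivity
  have hεε : ε ≤ ε₁ := div_le_self hε1.le h16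
  set B : ℝ := Cg * ((1 + m) / 2 + K * F.card) * Real.exp (m - 2) / c0 with hB
  have hB0 : 0 ≤ B := by positivity
  refine ⟨ε, max B 1, hε0, le_max_right _ _, ?_⟩
  intro k π W R N δ h q hS hδh g hgc hg0 hgC hg1 hlow x l hxR hgr hcl
  have := hS.fin
  set s : ℝ := Real.exp l with hs
  have hs0 : 0 < s := Real.exp_pos l
  have hsm : 0 < s ^ m := pow_pos hs0 m
  -- the tilt over `ball x (17/16 s)`
  set I : ℝ := ∫ p in (fun p => π p.1) ⁻¹' ball x (17 / 16 * s), tl π p.2 ∂W with hI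
  have hI0 : 0 ≤ I := integral_nonneg_of_ae (ae_restrict_of_ae hS.ae_tl_nonneg)
  have hti := hS.integrable_tl
  -- `∫ |N - Q|` over `ball x s`
  have hNint : IntegrableOn (fun y => |(N y).toReal - (Q : ℝ)|) (ball x (2 * s)) := by
    have hS4 := hS.mono isOpen_ball hxR
    exact ((hS4.area.integrableOn hS.co hS.conc measurableSet_ball).sub
      (integrableOn_const measure_ball_lt_top.ne)).abs
  have hNQ : ∫ z in ball x s, |(N z).toReal - Q| ≤ K * F.card * I := by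
    have hcov : ball x s ⊆ ⋃ f ∈ F, ball (x + s • f) (s / 32) := by
      intro z hz
      have h1 : s⁻¹ • (z - x) ∈ closedBall (0 : Euc m) 1 := by
        rw [mem_closedBall_zero_iff, norm_smul, norm_inv, Real.norm_eq_abs, abs_of_pos hs0]
        rw [mem_ball_iff_norm] at hz
        rw [inv_mul_le_iff₀ hs0]
        linarith
      obtain ⟨f, hf, hzf⟩ := mem_iUnion₂.1 (hF h1)
      refine mem_iUnion₂.2 ⟨f, hf, ?_⟩
      rw [mem_ball_iff_norm] at hzf ⊢
      have h2 : z - (x + s • f) = s • (s⁻¹ • (z - x) - f) := by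
        rw [smul_sub, smul_smul, mul_inv_cancel₀ hs0.ne', one_smul]
        abel
      rw [h2, norm_smul, Real.norm_eq_abs, abs_of_pos hs0]
      calc s * ‖s⁻¹ • (z - x) - f‖ < s * (1 / 32) := by gcongr
        _ = s / 32 := by ring
    have hcen : ∀ f ∈ F, x + s • f ∈ closedBall x s := by
      intro f hf
      rw [mem_closedBall_iff_norm, add_sub_cancel_left, norm_smul, Real.norm_eq_abs, abs_of_pos hs0]
      calc s * ‖f‖ ≤ s * 1 := by gcongr; exact hF1 f hf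
        _ = s := mul_one s
    have hsub : ∀ f ∈ F, ∀ ρ : ℝ, ball (x + s • f) ρ ⊆ ball x (s + ρ) := by
      intro f hf ρ
      have h1 := hcen f hf
      rw [mem_closedBall] at h1
      exact ball_subset_ball' (by linarith)
    have hone : ∀ f ∈ F, ∫ z in ball (x + s • f) (s / 32), |(N z).toReal - Q| ≤ K * I := by
      intro f hf
      obtain ⟨a1, a2⟩ := hcl _ (hcen f hf)
      have e1 : (4 : ℝ) * (s / 16) = s / 4 := by ring
      have e2 : s / 16 / 2 = s / 32 := by ring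
      have e3 : ε * s ^ m = ε₁ * (s / 16) ^ m := by
        rw [hε, div_pow]; ring
      have h1 := hT k π W R N δ h q hS (hδh.trans hεε) (x + s • f) (s / 16) (by positivity)
        (by rw [e1]; exact (hsub f hf _).trans ((ball_subset_ball (by linarith)).trans hxR))
        (by
          have h0 : 0 ≤ δ * (m + h) * s := by
            have := hS.δ_nonneg
            have := hS.h_nonneg
            positivity
          calc δ * (m + h) * (s / 16) = δ * (m + h) * s / 16 := by ring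
            _ ≤ δ * (m + h) * s := by linarith
            _ ≤ ε₁ := hgr.trans hεε)
        (by rw [e1, ← e3]; exact a1) (by rw [e1, ← e3]; exact a2)
      obtain ⟨_, _, _, _, t5, _, _, _⟩ := h1
      rw [e2] at t5
      refine t5.trans ?_
      gcongr
      calc ∫ p in (fun p => π p.1) ⁻¹' ball (x + s • f) (s / 16), ws π σ p ∂W
          ≤ ∫ p in (fun p => π p.1) ⁻¹' ball (x + s • f) (s / 16), tl π p.2 ∂W :=
            integral_mono_ae (hS.integrable_ws σ).integrableOn hti.integrableOn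
              (ae_restrict_of_ae (hS.ws_le_tl σ))
        _ ≤ I := by
            refine setIntegral_mono_set hti.integrableOn (ae_restrict_of_ae hS.ae_tl_nonneg)
              (preimage_mono ?_).eventuallyLE
            refine (hsub f hf _).trans (ball_subset_ball ?_)
            linarith
    have hint : ∀ f ∈ F, IntegrableOn (fun y => |(N y).toReal - (Q : ℝ)|)
        (ball (x + s • f) (s / 32)) := fun f hf =>
      hNint.mono_set ((hsub f hf _).trans (ball_subset_ball (by linarith)))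
    calc ∫ z in ball x s, |(N z).toReal - Q|
        ≤ ∫ z in ⋃ f ∈ F, ball (x + s • f) (s / 32), |(N z).toReal - Q| :=
          setIntegral_mono_set ((integrableOn_finset_iUnion).2 hint)
            (Eventually.of_forall fun y => abs_nonneg _) hcov.eventuallyLE
      _ ≤ ∑ f ∈ F, ∫ z in ball (x + s • f) (s / 32), |(N z).toReal - Q| :=
          setIntegral_biUnion_le F (fun f => measurableSet_ball) (fun y => abs_nonneg _) hint
      _ ≤ ∑ _f ∈ F, K * I := Finset.sum_le_sum hone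
      _ = K * F.card * I := by rw [Finset.sum_const, nsmul_eq_mul]; ring
  -- the test function
  have hS2 := hS.mono isOpen_ball hxR
  set f : Euc m → ℝ := fun v => 1 * g (Real.exp (-2 * l) * ‖v - x‖ ^ 2) with hf
  have hfm : Measurable f := by
    have : Continuous f := by rw [hf]; fun_prop
    exact this.measurable
  have hexp : Real.exp (-2 * l) * s ^ 2 = 1 := by
    rw [hs, ← Real.exp_nat_mul, ← Real.exp_add]
    norm_num
  have harg : ∀ v : Euc m, 0 ≤ Real.exp (-2 * l) * ‖v - x‖ ^ 2 := fun v => by positivity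
  have hfb : ∀ v, |f v| ≤ Cg := by
    intro v
    rw [hf]
    simp only [one_mul]
    rw [abs_of_nonneg (hg0 _ (harg v))]
    exact hgC _ (harg v)
  have hf0 : ∀ v, v ∉ ball x s → f v = 0 := by
    intro v hv
    rw [mem_ball_iff_norm, not_lt] at hv
    rw [hf]
    simp only [one_mul]
    refine hg1 _ ?_
    calc (1 : ℝ) = Real.exp (-2 * l) * s ^ 2 := hexp.symm
      _ ≤ Real.exp (-2 * l) * ‖v - x‖ ^ 2 := by gcongr
  have h1 := abs_test_le (W := W) hS.co hS.conc measurableSet_ball measure_ball_lt_top.ne hS2.area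
    (Q : ℝ) hfm hCg hfb (B := ball x s) measurableSet_ball (ball_subset_ball (by linarith)) hf0
  have h2 : ∫ p in (fun p => π p.1) ⁻¹' ball x s, tl π p.2 ∂W ≤ I :=
    setIntegral_mono_set hti.integrableOn (ae_restrict_of_ae hS.ae_tl_nonneg)
      (preimage_mono (ball_subset_ball (by linarith))).eventuallyLE
  have h3 : |(∫ p, f (π p.1) ∂W) - Q * (∫ x, f x)| ≤ Cg * ((1 + m) / 2 + K * F.card) * I := by
    refine h1.trans ?_
    calc Cg * ((1 + m) / 2 * (∫ p in (fun p => π p.1) ⁻¹' ball x s, tl π p.2 ∂W) +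
          ∫ z in ball x s, |(N z).toReal - Q|) ≤ Cg * ((1 + m) / 2 * I + K * F.card * I) := by
          gcongr
      _ = _ := by ring
  have h4 : |EE W π x g Q l| ≤
      Real.exp ((2 - m) * l) * (Cg * ((1 + m) / 2 + K * F.card) * I) := by
    unfold EE
    rw [abs_mul, abs_of_pos (Real.exp_pos _)]
    gcongr
  -- lower bound of `e (l + 1)`
  have h5 : Real.exp ((2 - m) * (l + 1)) * (c0 * I) ≤ ee W π x g (l + 1) := by
    unfold ee
    gcongr
    rw [hI, ← integral_const_mul, ← integral_indicator (measurable_base π measurableSet_ball)]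
    have hge : Integrable (fun p : Euc k × L k => tl π p.2 *
        g (Real.exp (-2 * (l + 1)) * ‖π p.1 - x‖ ^ 2)) W := by
      refine hti.mul_bdd (c := Cg) ?_ ?_
      · have hc : Continuous fun z : Euc k => g (Real.exp (-2 * (l + 1)) * ‖π z - x‖ ^ 2) := by
          fun_prop
        exact (hc.measurable.comp measurable_fst).aestronglyMeasurable
      · refine Eventually.of_forall fun p => ?_
        rw [Real.norm_eq_abs, abs_of_nonneg (hg0 _ (by positivity))]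
        exact hgC _ (by positivity)
    refine integral_mono_ae ((hti.const_mul c0).indicator (measurable_base π measurableSet_ball))
      hge ?_
    filter_upwards [hS.ae_tl_nonneg] with p hp0
    change ((fun p : Euc k × L k => π p.1) ⁻¹' ball x (17 / 16 * s)).indicator
      (fun p => c0 * tl π p.2) p ≤ tl π p.2 * g (Real.exp (-2 * (l + 1)) * ‖π p.1 - x‖ ^ 2)
    by_cases hp : π p.1 ∈ ball x (17 / 16 * s)
    · have hmem : p ∈ (fun p : Euc k × L k => π p.1) ⁻¹' ball x (17 / 16 * s) := hp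
      rw [Set.indicator_of_mem hmem, mul_comm]
      refine mul_le_mul_of_nonneg_left (hlow _ (by positivity) ?_) hp0
      rw [mem_ball_iff_norm] at hp
      have e1 : Real.exp (-2 * (l + 1)) = Real.exp (-2) * Real.exp (-2 * l) := by
        rw [← Real.exp_add]; ring_nf
      have e2 : ‖π p.1 - x‖ ^ 2 ≤ (17 / 16 * s) ^ 2 := by
        have := norm_nonneg (π p.1 - x)
        gcongr
      have e3 : Real.exp (-2) ≤ 1 / 7.38 := by
        have h1 : Real.exp (-2) = (Real.exp 1 ^ 2)⁻¹ := by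
          rw [← Real.exp_nat_mul, ← Real.exp_neg]; norm_num
        rw [h1, one_div]
        apply inv_anti₀ (by norm_num)
        have := Real.exp_one_gt_d9
        nlinarith
      calc Real.exp (-2 * (l + 1)) * ‖π p.1 - x‖ ^ 2
          ≤ Real.exp (-2 * (l + 1)) * (17 / 16 * s) ^ 2 := by gcongr
        _ = Real.exp (-2) * (17 / 16) ^ 2 * (Real.exp (-2 * l) * s ^ 2) := by rw [e1]; ring
        _ = Real.exp (-2) * (17 / 16) ^ 2 := by rw [hexp, mul_one]
        _ ≤ 1 / 7.38 * (17 / 16) ^ 2 := by gcongr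
        _ ≤ 1 / 6 := by norm_num
    · have hmem : p ∉ (fun p : Euc k × L k => π p.1) ⁻¹' ball x (17 / 16 * s) := hp
      rw [Set.indicator_of_notMem hmem]
      exact mul_nonneg hp0 (hg0 _ (by positivity))
  have h6 : Real.exp ((2 - m) * l) * (Cg * ((1 + m) / 2 + K * F.card) * I) =
      B * (Real.exp ((2 - m) * (l + 1)) * (c0 * I)) := by
    have e1 : Real.exp ((2 - m) * l) = Real.exp (m - 2) * Real.exp ((2 - m) * (l + 1)) := by
      rw [← Real.exp_add]; congr 1; ring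
    rw [hB, e1]
    field_simp
  have h7 : 0 ≤ ee W π x g (l + 1) := le_trans (by positivity) h5
  calc |EE W π x g Q l| ≤ _ := h4
    _ = B * (Real.exp ((2 - m) * (l + 1)) * (c0 * I)) := h6
    _ ≤ B * ee W π x g (l + 1) := by gcongr
    _ ≤ max B 1 * ee W π x g (l + 1) := by gcongr; exact le_max_left _ _


end Crest.Agent.R234.Th_164
end
end

-- ▼ part R234/Th17_164
section

/-!
Row 234, FLD-EB (helper164): THETA and `|E(l)| ≤ A e(l + 1)` at class level (173's `In`), all scales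
`≥ A h₀`.
-/

set_option autoImplicit false

open Set Filter Topology MeasureTheory Metric Function
open Crest.GeometryTopology.Submanifold
open Crest.Agent.R234.Vf_884 Crest.Agent.R234.Ar_870 Crest.Agent.R234.Cy_870
open Crest.Agent.R234.Avg_387 Crest.Agent.R234.Raw_387 Crest.Agent.R234.Crs_173
open Crest.Agent.R234.Asl_214
open scoped ENNReal NNReal ContDiff InnerProductSpace

noncomputable section

namespace Crest.Agent.R234.Th_164

/-- closeness at all scales `≥ A h₀`: both quantities `≤ ε r^m` -/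
theorem close_In (m Q : ℕ) {C₀ : ℝ} (hC₀ : 0 ≤ C₀) {ε : ℝ} (hε : 0 < ε) :
    ∃ A c : ℝ, 1 ≤ A ∧ 0 < c ∧ c ≤ 1 / 16 ∧
      ∀ {n k : ℕ} {π : Euc k →L[ℝ] Euc m} {κ : Euc k →L[ℝ] Euc n}
      {W : Measure (Euc k × L k)} {N : Euc m → ℝ≥0∞} {h₀ δ : ℝ}, In W π κ N Q C₀ h₀ δ →
      δ ≤ c → h₀ ^ 2 ≤ c → ∫ p, tl π p.2 ∂W ≤ c → ∀ x ∈ closedBall (0 : Euc m) 3,
      ∀ r, 0 < r → A * h₀ ≤ r → r ≤ 1 / 4 →
        ∫ y in ball x r, |(N y).toReal - Q| ≤ ε * r ^ m ∧
        ∫ p in (fun p => π p.1) ⁻¹' ball x r, tl π p.2 ∂W ≤ ε * r ^ m := by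
  obtain ⟨A, c, hA, hc, hc', hT⟩ := coarse m Q hC₀ hε
  set B : ℝ := A / ε + A with hB
  have hB1 : A ≤ B := by rw [hB]; have : 0 ≤ A / ε := by positivity
                         linarith
  have hB1' : 1 ≤ B := hA.trans hB1
  refine ⟨B, c, hB1', hc, hc', ?_⟩
  intro n k π κ W N h₀ δ h hδ hh hE x hx r hr hBr hr1
  have hh0 := h.hh
  obtain ⟨h1, _, h3⟩ := hT h hδ hh hE x hx r hr
    ((mul_le_mul_of_nonneg_right hB1 hh0).trans hBr) hr1
  refine ⟨h1, ?_⟩
  have e1 : TB W π x r = ∫ p in (fun p => π p.1) ⁻¹' ball x r, tl π p.2 ∂W := by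
    unfold TB
    rw [Crs_173.ovr_eq]
  rw [← e1]
  refine h3.trans ?_
  have h4 : h₀ / r ≤ 1 / B := by
    rw [div_le_div_iff₀ hr (by linarith)]
    linarith
  have h5 : 0 ≤ h₀ / r := by positivity
  have h6 : (h₀ / r) ^ 2 ≤ 1 / B := by
    calc (h₀ / r) ^ 2 = h₀ / r * (h₀ / r) := by ring
      _ ≤ 1 / B * 1 := by
          have : 1 / B ≤ 1 := by rw [div_le_one (by linarith)]; exact hB1'
          have h7 : h₀ / r ≤ 1 := h4.trans this
          gcongr
      _ = 1 / B := mul_one _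
  have h8 : A * (1 / B) ≤ ε := by
    rw [mul_one_div, div_le_iff₀ (by linarith), hB]
    have : ε * (A / ε + A) = A + ε * A := by field_simp
    rw [this]
    have : 0 ≤ ε * A := by positivity
    linarith
  calc A * (h₀ / r) ^ 2 * r ^ m ≤ A * (1 / B) * r ^ m := by gcongr
    _ ≤ ε * r ^ m := by gcongr


/-- **eb at class level**, ordinary centres, all scales `A h₀ ≤ e^l ≤ 1`. -/
theorem eb_In (m Q : ℕ) {C₀ c0 Cg : ℝ} (hC₀ : 0 ≤ C₀) (hc0 : 0 < c0) (hCg : 0 < Cg) :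
    ∃ A c : ℝ, 1 ≤ A ∧ 0 < c ∧ c ≤ 1 / 16 ∧
      ∀ {n k : ℕ} {π : Euc k →L[ℝ] Euc m} {κ : Euc k →L[ℝ] Euc n}
      {W : Measure (Euc k × L k)} {N : Euc m → ℝ≥0∞} {h₀ δ : ℝ}, In W π κ N Q C₀ h₀ δ →
      δ ≤ c → h₀ ^ 2 ≤ c → ∫ p, tl π p.2 ∂W ≤ c →
      ∀ {g g1 : ℝ → ℝ}, Ker g g1 → (∀ t, 0 ≤ t → 0 ≤ g t) → (∀ t, 0 ≤ t → g t ≤ Cg) →
      (∀ t, 0 ≤ t → t ≤ 1 / 6 → c0 ≤ g t) →
      ∀ x ∈ closedBall (0 : Euc m) 2, ∀ l, l ≤ 0 → A * h₀ ≤ Real.exp l →
        |EE W π x g Q l| ≤ A * ee W π x g (l + 1) := by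
  obtain ⟨ε, A₁, hε, hA₁, hT⟩ := eb m Q hc0 hCg
  have h4m : (1 : ℝ) ≤ 4 ^ m := one_le_pow₀ (by norm_num)
  obtain ⟨A, c, hA, hc, hc', hcl⟩ := close_In m Q hC₀ (ε := ε) hε
  set c' : ℝ := min c (ε / (m + 1)) with hc'def
  have hm0 : (0 : ℝ) ≤ m := Nat.cast_nonneg m
  have hc'0 : 0 < c' := lt_min hc (by positivity)
  have hc'c : c' ≤ c := min_le_left _ _
  have hc'ε : c' * (m + 1) ≤ ε := by
    have : c' ≤ ε / (m + 1) := min_le_right _ _
    rwa [le_div_iff₀ (by positivity)] at this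
  set B : ℝ := max A₁ (4 * A) with hB
  have hB1 : A₁ ≤ B := le_max_left _ _
  have hB2 : 4 * A ≤ B := le_max_right _ _
  refine ⟨B, c', hA₁.trans hB1, hc'0, hc'c.trans hc', ?_⟩
  intro n k π κ W N h₀ δ h hδ hh hE g g1 hg hg0 hgC hlow x hx l hl hAl
  have hδ0 := h.δ0
  have hh0 := h.hh
  have hc1 : c' ≤ 1 := hc'c.trans (hc'.trans (by norm_num))
  have hS := Crs_173.setup_of_cylAS h.cyl hδ0 (hδ.trans hc1) h.area
  have hh1 : h₀ ^ 2 ≤ 1 := hh.trans hc1
  have hx' : ‖x‖ ≤ 2 := by simpa using hx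
  have hl1 : Real.exp l ≤ 1 := Real.exp_le_one_iff.2 hl
  have hl0 : 0 < Real.exp l := Real.exp_pos l
  have hsub : ball x (2 * Real.exp l) ⊆ ball (0 : Euc m) 4 := by
    refine ball_subset_ball' ?_
    rw [dist_zero_right]
    linarith
  have hδh : δ * h₀ ^ 2 ≤ ε := by
    calc δ * h₀ ^ 2 ≤ c' * 1 := by gcongr
      _ ≤ c' * (m + 1) := by gcongr; linarith
      _ ≤ ε := hc'ε
  have hδm : δ * (m + h₀ ^ 2) * Real.exp l ≤ ε := by
    calc δ * (m + h₀ ^ 2) * Real.exp l ≤ c' * (m + 1) * 1 := by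
          gcongr
      _ ≤ ε := by rw [mul_one]; exact hc'ε
  have hgc : Continuous g := continuous_iff_continuousAt.2 fun t => (hg.der t).continuousAt
  have hAl' : A * h₀ ≤ Real.exp l / 4 := by
    have : 4 * A * h₀ ≤ Real.exp l := (mul_le_mul_of_nonneg_right hB2 hh0).trans hAl
    linarith
  have hfin : |EE W π x g Q l| ≤ A₁ * ee W π x g (l + 1) := by
    refine hT k π W (ball 0 4) N δ (h₀ ^ 2) _ hS hδh g hgc hg0 hgC (fun t ht => hg.zero t ht) hlow x l
      hsub hδm fun y hy => ?_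
    have hy' : y ∈ closedBall (0 : Euc m) 3 := by
      rw [mem_closedBall] at hy
      rw [mem_closedBall_zero_iff]
      have := norm_le_norm_add_norm_sub' y x
      rw [dist_eq_norm] at hy
      linarith
    obtain ⟨a1, a2⟩ := hcl h (hδ.trans hc'c) (hh.trans hc'c) (hE.trans hc'c) y hy'
      (Real.exp l / 4) (by positivity) hAl' (by linarith)
    have e1 : ε * (Real.exp l / 4) ^ m ≤ ε * Real.exp l ^ m := by
      gcongr
      linarith
    exact ⟨a1.trans e1, a2.trans e1⟩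
  refine hfin.trans (mul_le_mul_of_nonneg_right hB1 ?_)
  unfold ee
  refine mul_nonneg (Real.exp_pos _).le (integral_nonneg_of_ae ?_)
  filter_upwards [hS.ae_tl_nonneg] with p hp
  exact mul_nonneg hp (hg0 _ (by positivity))

/-- **eb at class level**, averaged centres: any weight `d` supported in `closedBall 0 τ`, `τ ≤ 1`. -/
theorem eb_av_In (m Q : ℕ) {C₀ c0 Cg : ℝ} (hC₀ : 0 ≤ C₀) (hc0 : 0 < c0) (hCg : 0 < Cg) :
    ∃ A c : ℝ, 1 ≤ A ∧ 0 < c ∧ c ≤ 1 / 16 ∧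
      ∀ {n k : ℕ} {π : Euc k →L[ℝ] Euc m} {κ : Euc k →L[ℝ] Euc n}
      {W : Measure (Euc k × L k)} {N : Euc m → ℝ≥0∞} {h₀ δ : ℝ}, In W π κ N Q C₀ h₀ δ →
      δ ≤ c → h₀ ^ 2 ≤ c → ∫ p, tl π p.2 ∂W ≤ c →
      ∀ {g g1 : ℝ → ℝ}, Ker g g1 → (∀ t, 0 ≤ t → 0 ≤ g t) → (∀ t, 0 ≤ t → g t ≤ Cg) →
      (∀ t, 0 ≤ t → t ≤ 1 / 6 → c0 ≤ g t) →
      ∀ {d : Euc m → ℝ} {τ : ℝ}, CW d τ →
      ∀ x : Euc m, ‖x‖ + τ ≤ 2 → ∀ l, l ≤ 0 → A * h₀ ≤ Real.exp l →
        |EEa d W π g Q x l| ≤ A * eea d W π g x (l + 1) := by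
  obtain ⟨A, c, hA, hc, hc', hT⟩ := eb_In m Q hC₀ hc0 hCg
  refine ⟨A, c, hA, hc, hc', ?_⟩
  intro n k π κ W N h₀ δ h hδ hh hE g g1 hg hg0 hgC hlow d τ hd x hx l hl hAl
  have hF : FF W π κ := ⟨h.cyl.sp, h.cyl.conc, h.cyl.fin⟩
  have hpt : ∀ y ∈ closedBall x τ, |EE W π y g Q l| ≤ A * ee W π y g (l + 1) := by
    intro y hy
    refine hT h hδ hh hE hg hg0 hgC hlow y ?_ l hl hAl
    rw [mem_closedBall, dist_eq_norm] at hy
    rw [mem_closedBall_zero_iff]
    have := norm_le_norm_add_norm_sub' y x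
    linarith
  have c1 : CO x τ (l + 1) (fun y l => EE W π y g Q l) := CO_of_cont (cont2_EE' hF hg Q) x τ (l + 1)
  have c2 : CO x τ (l + 1) (fun y l => A * ee W π y g (l + 1)) := by
    refine CO_of_cont ?_ x τ (l + 1)
    have h1 : Continuous fun p : Euc m × ℝ => ((p.1, p.2 + 1) : Euc m × ℝ) := by fun_prop
    exact continuous_const.mul ((cont2_ee' hF hg).comp h1)
  have e1 : av d (fun y l => A * ee W π y g (l + 1)) x l = A * eea d W π g x (l + 1) := by
    unfold av eea av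
    rw [← integral_const_mul]
    refine integral_congr_ae (Eventually.of_forall fun z => ?_)
    simp only
    ring
  have h1 := av_mono hd c1 c2 (by linarith : l < l + 1) fun y hy => (le_abs_self _).trans (hpt y hy)
  have h2 := av_mono hd c1.neg c2 (by linarith : l < l + 1)
    fun y hy => (neg_le_abs _).trans (hpt y hy)
  have e2 : av d (fun y l => -EE W π y g Q l) x l = -EEa d W π g Q x l := by
    unfold av EEa av
    rw [← integral_neg]
    refine integral_congr_ae (Eventually.of_forall fun z => ?_)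
    simp only
    ring
  rw [e1] at h1 h2
  rw [e2] at h2
  exact abs_le.2 ⟨by linarith, h1⟩

end Crest.Agent.R234.Th_164
end
end

-- ▼ part R234/Fldc1_387

/-!
# Row 234 (helper387), NBASE-FLD, part 1: the data `daOf` of a contact situation

`daOf X Q K cS ds : Da m n X.k` for a situation `X : Core_809.Sit m n a`; `okAS` = its properties
(constants `c₀ = 1/3`, `K₀ = 4`, `KB = 12` of the profile `(1-t)₊⁴`).
-/

set_option autoImplicit false

open MeasureTheory Set Function Filter Topology Metric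
open Crest.GeometryTopology.Submanifold
open Crest.Agent.R234.Vf_884 Crest.Agent.R234.Ar_870 Crest.Agent.R234.Cy_870
open Crest.Agent.R234.Pot_425 Crest.Agent.R234.Avg_387 Crest.Agent.R234.Rep_387
open Crest.Agent.R234.Raw_387 Crest.Agent.R234.N0_309 Crest.Agent.R234.Asl_214
open Crest.Agent.R234.Core_809
open Crest.Agent.R234.N5_372 (eM)
open scoped ENNReal NNReal

noncomputable section

namespace Crest.Agent.R234.Fld_387

variable {m n : ℕ} {a : ℝ}

/-! ### the profile -/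

theorem w0_low {t : ℝ} (_h0 : 0 ≤ t) (h1 : t ≤ 1 / 6) : 1 / 3 ≤ w0.θ t ∧ 1 / 3 ≤ -w0.θ' t := by
  have h2 : max (1 - t) 0 = 1 - t := max_eq_left (by linarith)
  have h3 : (5 / 6 : ℝ) ≤ 1 - t := by linarith
  change 1 / 3 ≤ (max (1 - t) 0) ^ 4 ∧ 1 / 3 ≤ -(-(4 * (max (1 - t) 0) ^ 3))
  rw [h2]
  have h4 := pow_le_pow_left₀ (by norm_num : (0:ℝ) ≤ 5 / 6) h3 4
  have h5 := pow_le_pow_left₀ (by norm_num : (0:ℝ) ≤ 5 / 6) h3 3
  norm_num at h4 h5 ⊢
  constructor <;> linarith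

theorem mx_le {t : ℝ} (h0 : 0 ≤ t) : 0 ≤ max (1 - t) 0 ∧ max (1 - t) 0 ≤ 1 :=
  ⟨le_max_right _ _, max_le (by linarith) zero_le_one⟩

theorem w0_up {t : ℝ} (h0 : 0 ≤ t) : w0.θ t ≤ 4 ∧ -w0.θ' t ≤ 4 := by
  obtain ⟨h1, h2⟩ := mx_le h0
  change (max (1 - t) 0) ^ 4 ≤ 4 ∧ -(-(4 * (max (1 - t) 0) ^ 3)) ≤ 4
  have h4 := pow_le_one₀ h1 h2 (n := 4)
  have h5 := pow_le_one₀ h1 h2 (n := 3)
  constructor <;> linarith

theorem w0_bd : Bd w0.θ' w2 12 where
  b0 t ht := by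
    obtain ⟨h1, h2⟩ := mx_le ht
    have h5 := pow_le_one₀ h1 h2 (n := 3)
    have h6 := pow_nonneg h1 3
    change |(-(4 * (max (1 - t) 0) ^ 3))| ≤ 12
    rw [abs_neg, abs_of_nonneg (by positivity)]
    linarith
  b1 t ht := by
    obtain ⟨h1, h2⟩ := mx_le ht
    have h5 := pow_le_one₀ h1 h2 (n := 2)
    have h6 := pow_nonneg h1 2
    change |12 * (max (1 - t) 0) ^ 2| ≤ 12
    rw [abs_of_nonneg (by positivity)]
    linarith
  b2 t ht := by
    obtain ⟨h1, h2⟩ := mx_le ht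
    have h5 := pow_le_one₀ h1 h2 (n := 2)
    have h6 := pow_nonneg h1 2
    change |t * (12 * (max (1 - t) 0) ^ 2)| ≤ 12
    rcases le_or_gt t 1 with h | h
    · rw [abs_of_nonneg (by positivity)]
      have h7 : t * (12 * (max (1 - t) 0) ^ 2) ≤ 1 * (12 * (max (1 - t) 0) ^ 2) :=
        mul_le_mul_of_nonneg_right h (by positivity)
      linarith
    · rw [max_eq_right (by linarith)]
      norm_num

/-! ### the data -/

/-- **the data of a contact situation** -/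
def daOf (X : Sit m n a) (Q : ℕ) (K cS ds : ℝ) : Da m n X.k where
  W := X.V
  π := X.π
  κ := X.κ
  w := w0
  τ := tauOf a X.D
  Q := Q
  K := K
  δ := ds
  δ' := 7 * X.δ
  β := X.β Q cS
  γ := X.γ Q cS
  b₂ := b2 X.S (Cy_870.cyl X.π X.κ 0 4 1) Q (tauOf a X.D)

variable {X : Sit m n a} {Q : ℕ} {K cS ds : ℝ}

theorem Lam_pos {D : ℝ} (hD : 0 < D) (hD1 : D < 1) : 0 < Lam D := by
  unfold Lam
  exact Real.log_pos (by rw [lt_div_iff₀ hD]; linarith)

theorem tauOf_pos {D : ℝ} (hD : 0 < D) (hD1 : D < 1) : 0 < tauOf a D := by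
  have h1 := Real.rpow_pos_of_pos (Lam_pos hD hD1) (-a)
  have h2 := Real.sqrt_pos.2 hD
  unfold tauOf hOf
  positivity

/-- **the properties of the data** -/
theorem okAS (hm : 2 ≤ m) (hc : Cls Q X.δ X.D X.π X.κ X.U X.Dd) (hD : 0 < X.D) (hD1 : X.D < 1)
    (hδ : 0 ≤ X.δ) (hds : 0 < ds) (h7 : 7 * X.δ ≤ ds) (hds1 : ds ≤ 1) (hK : 9 ≤ K) :
    (daOf X Q K cS ds).OkAS 4 (√X.D) X.δ (1 / 3) 4 12 w2 := by
  have hW := Ins_387.measurableSet_cyl4 X.π X.κ
  have hf := Ins_387.fin4 hc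
  have hT : MeasurableSet (X.T₀ cS) := measurableSet_tall measurableSet_tallT
  refine
    { m2 := hm
      cyl := Ins_387.cylAS hc hD1
      h0 := Real.sqrt_nonneg _
      R1 := by norm_num
      δA0 := hδ
      τ0 := tauOf_pos hD hD1
      prof := prof0
      fβ := finite_beta X.S hc.int hc.sp.hh hW hf _
      fγ := finite_beta X.S hc.int hc.sp.hh hW hf _
      fb₂ := finite_b2 X.S hc.int hc.sp.hh hW hf
      rep := ?_
      δ0 := hds
      δe := rfl
      δδ := h7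
      δ1 := hds1
      K9 := hK
      c0 := by norm_num
      wl := fun t h0 h1 => w0_low h0 (h1.trans (by norm_num))
      wu := fun t h0 => w0_up h0
      bd := w0_bd }
  have h1 : (daOf X Q K cS ds).β + (daOf X Q K cS ds).γ =
      b1 X.S (Cy_870.cyl X.π X.κ 0 4 1) Q (tauOf a X.D) := beta_add_gamma X.S hT
  rw [h1]
  exact rep X.S hc.int hc.sp.hh hW hf

end Crest.Agent.R234.Fld_387
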