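import Crest.Agent.R234.Well12_761
import Crest.Agent.R234.Ins1_387
import Crest.Agent.R234.Sml3_870
import Crest.Agent.R234.Core4_809
import Crest.Agent.R234.Fldc1_387
import Crest.Agent.R234.Fldc5_387
import Crest.Agent.R234.Bds6_214

-- ▼ part R234/Well13_761
section

/-!
Row 234, VF-N8AV (helper761), file 13: mass bounds of the class, the profile `(1 - t)₊⁴`.
-/

set_option autoImplicit false
set_option linter.unusedSectionVars false

open MeasureTheory Set Function Filter Topology Metric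
open Crest.GeometryTopology.Submanifold
open Crest.Agent.R234.Vf_884 Crest.Agent.R234.Ar_870 Crest.Agent.R234.Cy_870
open Crest.Agent.R234.Wi_870 Crest.Agent.R234.Asl_214 Crest.Agent.R234.Avg_387
open Crest.Agent.R234.Core_809
open scoped ENNReal NNReal InnerProductSpace

noncomputable section

namespace Crest.Agent.R234.Well_761

variable {m n k : ℕ} {π : Euc k →L[ℝ] Euc m} {κ : Euc k →L[ℝ] Euc n} {x₀ : Euc m}
  {R h₀ δ : ℝ} {W : Measure (Euc k × L k)}

/-- **lower mass bound of the cylinders** at the scales above `A h₀` -/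
theorem mass_low (m Q : ℕ) (hQ : 1 ≤ Q) {C₀ : ℝ} (hC₀ : 0 ≤ C₀) : ∃ A c : ℝ, 1 ≤ A ∧ 0 < c ∧
    ∀ {n k : ℕ} {π : Euc k →L[ℝ] Euc m} {κ : Euc k →L[ℝ] Euc n} {W : Measure (Euc k × L k)}
      {N : Euc m → ℝ≥0∞} {h₀ δ : ℝ}, Crs_173.In W π κ N Q C₀ h₀ δ → δ ≤ c → h₀ ^ 2 ≤ c →
      ∫ p, tl π p.2 ∂W ≤ c → ∀ x ∈ closedBall (0 : Euc m) 3, ∀ l : ℝ, A * h₀ ≤ Real.exp l →
      Real.exp l ≤ 1 / 4 → Th_164.om m / 2 * Real.exp (m * l) ≤ We_822.muR W π κ x l := by
  have hom := Th_164.om_pos m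
  obtain ⟨A, c, hA, hc, -, hT⟩ := Crs_173.coarse m Q hC₀ (ε := Th_164.om m / 2) (by positivity)
  refine ⟨A, c, hA, hc, ?_⟩
  intro n k π κ W N h₀ δ h hδ hh hE x hx l hl hl4
  have hfin : IsFiniteMeasure W := ⟨h.cyl.fin⟩
  have hr := Real.exp_pos l
  obtain ⟨h1, -, -⟩ := hT h hδ hh hE x hx (Real.exp l) hr hl hl4
  obtain ⟨r, hrd⟩ : ∃ r, r = Real.exp l := ⟨_, rfl⟩
  rw [← hrd] at h1 hr hl4
  have hB4 : ball x r ⊆ ball (0 : Euc m) 4 := by
    intro y hy
    rw [mem_closedBall_zero_iff] at hx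
    rw [mem_ball_iff_norm] at hy
    rw [mem_ball_zero_iff]
    have := norm_add_le (y - x) x
    rw [sub_add_cancel] at this
    linarith
  have hNi : IntegrableOn (fun y => (N y).toReal) (ball x r) :=
    (h.area.integrableOn h.cyl.sp.hh h.cyl.conc measurableSet_ball).mono_set hB4
  have hci : IntegrableOn (fun _ : Euc m => (Q : ℝ)) (ball x r) :=
    integrableOn_const measure_ball_lt_top.ne
  have h2 : (Q : ℝ) * (Th_164.om m * r ^ m) - Th_164.om m / 2 * r ^ m ≤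
      ∫ y in ball x r, (N y).toReal := by
    have h3 : ∫ y in ball x r, ((N y).toReal - (Q : ℝ)) =
        (∫ y in ball x r, (N y).toReal) - (Q : ℝ) * (Th_164.om m * r ^ m) := by
      rw [integral_sub hNi hci, setIntegral_const, Th_164.vol_ball x hr, smul_eq_mul]
      ring
    have h4 : |∫ y in ball x r, ((N y).toReal - (Q : ℝ))| ≤
        ∫ y in ball x r, |(N y).toReal - (Q : ℝ)| := abs_integral_le_integral_abs
    have h5 := (abs_le.1 (h4.trans h1)).1
    rw [h3] at h5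
    linarith
  have hQ1 : (1 : ℝ) ≤ Q := by exact_mod_cast hQ
  have h3 : Th_164.om m / 2 * r ^ m ≤ ∫ y in ball x r, (N y).toReal := by
    refine le_trans ?_ h2
    have h4 : 0 ≤ Th_164.om m * r ^ m := by positivity
    have h5 := mul_le_mul_of_nonneg_right hQ1 h4
    linarith
  have hlt : ∀ᵐ y ∂(volume.restrict (ball x r)), N y < ⊤ := by
    have h4 := h.area.ae_lt_top h.cyl.sp.hh h.cyl.conc measurableSet_ball
    exact ae_restrict_of_ae_restrict_of_subset hB4 h4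
  have h4 : ∫ y in ball x r, (N y).toReal = (∫⁻ y in ball x r, N y).toReal :=
    integral_toReal h.area.meas.aemeasurable hlt
  have h5 : ∫⁻ y in ball x r, N y ≤ W ((fun p : Euc k × L k => π p.1) ⁻¹' ball x r) := by
    rw [h.area.lintegral_N measurableSet_ball hB4]
    calc ∫⁻ p in (fun p : Euc k × L k => π p.1) ⁻¹' ball x r, ENNReal.ofReal (Jh π p.2) ∂W
        ≤ ∫⁻ _p in (fun p : Euc k × L k => π p.1) ⁻¹' ball x r, 1 ∂W := by
          refine lintegral_mono_ae (ae_restrict_of_ae ?_)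
          filter_upwards [h.cyl.conc] with p hp
          rw [ENNReal.ofReal_le_one]
          exact Jh_le_one h.cyl.sp.hh (isPr_of_G hp)
      _ = _ := by rw [setLIntegral_one]
  have h6 : W ((fun p : Euc k × L k => π p.1) ⁻¹' ball x r) ≤
      muOf W π κ (cyl x (Real.exp l) univ) := by
    have hcm : MeasurableSet (cyl x (Real.exp l) (univ : Set (Euc n))) :=
      Metric.isClosed_closedBall.measurableSet.prod MeasurableSet.univ
    unfold muOf
    rw [Measure.map_apply (measurable_bh π κ) hcm]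
    refine measure_mono ?_
    intro p hp
    refine ⟨?_, mem_univ _⟩
    rw [← hrd]
    exact ball_subset_closedBall hp
  have h7 : muOf W π κ (cyl x (Real.exp l) univ) ≠ ⊤ := by
    have hcm : MeasurableSet (cyl x (Real.exp l) (univ : Set (Euc n))) :=
      Metric.isClosed_closedBall.measurableSet.prod MeasurableSet.univ
    unfold muOf
    rw [Measure.map_apply (measurable_bh π κ) hcm]
    exact measure_ne_top W _
  have h8 : (∫⁻ y in ball x r, N y).toReal ≤ We_822.muR W π κ x l :=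
    ENNReal.toReal_mono h7 (h5.trans h6)
  have h9 : Real.exp (m * l) = r ^ m := by
    rw [hrd, ← Real.exp_nat_mul]
  rw [h9]
  rw [h4] at h3
  exact h3.trans h8

/-- **upper mass bound of the cylinders** -/
theorem mass_up {C₀ : ℝ} (h : CylAS W π κ x₀ R h₀ δ)
    (hub : ∀ (z : Euc k) (r : ℝ), 0 < r → W.real (closedBall z r ×ˢ univ) ≤ C₀ * r ^ m)
    (y : Euc m) {l : ℝ} (hl : h₀ ≤ Real.exp l) :
    We_822.muR W π κ y l ≤ C₀ * 2 ^ m * Real.exp (m * l) := by
  have : IsFiniteMeasure W := ⟨h.fin⟩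
  have hr := Real.exp_pos l
  have h1 := hub (ContinuousLinearMap.adjoint π y) (2 * Real.exp l) (by positivity)
  have hcm : MeasurableSet (cyl y (Real.exp l) (univ : Set (Euc n))) :=
    Metric.isClosed_closedBall.measurableSet.prod MeasurableSet.univ
  have h9 : Real.exp (m * l) = Real.exp l ^ m := by
    rw [← Real.exp_nat_mul]
  have e1 : C₀ * 2 ^ m * Real.exp (m * l) = C₀ * (2 * Real.exp l) ^ m := by
    rw [h9, mul_pow]; ring
  rw [e1]
  refine le_trans ?_ h1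
  unfold We_822.muR muOf Measure.real
  rw [Measure.map_apply (measurable_bh π κ) hcm]
  refine ENNReal.toReal_mono (measure_ne_top W _) ?_
  refine measure_mono_ae ?_
  filter_upwards [h.hgt] with p hp hpm
  refine ⟨?_, mem_univ _⟩
  rw [mem_closedBall, dist_eq_norm]
  have h2 : ContinuousLinearMap.adjoint π (π p.1) + ContinuousLinearMap.adjoint κ (κ p.1) = p.1 :=
    congrArg (fun T : L k => T p.1) h.sp.sum
  have h3 : p.1 - ContinuousLinearMap.adjoint π y =
      ContinuousLinearMap.adjoint π (π p.1 - y) + ContinuousLinearMap.adjoint κ (κ p.1) := by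
    nth_rewrite 1 [← h2]
    rw [map_sub]
    abel
  rw [h3]
  have h4 : ‖π p.1 - y‖ ≤ Real.exp l := by
    have h5 : π p.1 ∈ closedBall y (Real.exp l) := hpm.1
    rwa [mem_closedBall_iff_norm] at h5
  calc _ ≤ ‖ContinuousLinearMap.adjoint π (π p.1 - y)‖ +
        ‖ContinuousLinearMap.adjoint κ (κ p.1)‖ := norm_add_le _ _
    _ ≤ ‖π p.1 - y‖ + ‖κ p.1‖ :=
        add_le_add (norm_adj_pi_apply h.sp _) (norm_adj_kap_apply h.sp _)
    _ ≤ Real.exp l + Real.exp l := add_le_add h4 (hp.trans hl)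
    _ = 2 * Real.exp l := by ring

/-- **lower density bound at all radii at once** -/
theorem low_all {Q : ℕ} {D : ℝ} {U : Set (Euc k)} {Dd : VarifoldData m k}
    (h : Cls Q δ D π κ U Dd) (hm : 1 ≤ m) (hD1 : D ≤ 1 / 4) :
    ∀ᵐ p ∂(part π κ Dd), ∀ r, 0 < r → ‖π p.1‖ + r ≤ 1 →
      ENNReal.ofReal (ome m / 2 ^ m / 4 ^ m * r ^ m) ≤
        part π κ Dd (Metric.closedBall p.1 r ×ˢ univ) := by
  have h1 : ∀ᵐ p ∂(part π κ Dd), ∀ q : ℚ, 0 < (q : ℝ) → (q : ℝ) ≤ 1 / 2 → ‖π p.1 - 0‖ + q ≤ 4 →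
      ENNReal.ofReal (ome m / 2 ^ m * (q : ℝ) ^ m) ≤
        part π κ Dd (Metric.closedBall p.1 q ×ˢ univ) := by
    rw [ae_all_iff]
    intro q
    by_cases hq : 0 < (q : ℝ) ∧ (q : ℝ) ≤ 1 / 2
    · filter_upwards [Sml_870.low_part h hm hD1 hq.1 hq.2] with p hp _ _ hp2
      exact hp hp2
    · exact Eventually.of_forall fun p h1 h2 => absurd ⟨h1, h2⟩ hq
  filter_upwards [h1] with p hp r hr hpr
  obtain ⟨q, hq1, hq2⟩ := exists_rat_btwn (show r / 4 < r / 2 by linarith)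
  have hr1 : r ≤ 1 := by linarith [norm_nonneg (π p.1)]
  have hq0 : (0 : ℝ) < q := by linarith
  have h2 := hp q hq0 (by linarith) (by rw [sub_zero]; linarith)
  have hom := ome_pos m
  refine le_trans (ENNReal.ofReal_le_ofReal ?_) (h2.trans (measure_mono ?_))
  · have h3 : (r / 4) ^ m ≤ (q : ℝ) ^ m := pow_le_pow_left₀ (by linarith) hq1.le m
    have h4 : ome m / 2 ^ m / 4 ^ m * r ^ m = ome m / 2 ^ m * (r / 4) ^ m := by
      rw [div_pow]; ring
    rw [h4]
    exact mul_le_mul_of_nonneg_left h3 (by positivity)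
  · exact prod_mono (closedBall_subset_closedBall (by linarith)) subset_rfl

/-! ### the profile -/

theorem bd_w0 : Bd w0.θ w0.θ' 12 where
  b0 t ht := by
    obtain ⟨h1, h2⟩ := Fld_387.mx_le ht
    have h5 := pow_le_one₀ h1 h2 (n := 4)
    have h6 := pow_nonneg h1 4
    change |(max (1 - t) 0) ^ 4| ≤ 12
    rw [abs_of_nonneg h6]
    linarith
  b1 t ht := Fld_387.w0_bd.b0 t ht
  b2 t ht := by
    obtain ⟨h1, h2⟩ := Fld_387.mx_le ht
    have h5 := pow_le_one₀ h1 h2 (n := 3)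
    have h6 := pow_nonneg h1 3
    change |t * (-(4 * (max (1 - t) 0) ^ 3))| ≤ 12
    rcases le_or_gt t 1 with h | h
    · rw [mul_neg, abs_neg, abs_of_nonneg (by positivity)]
      have h7 : t * (4 * (max (1 - t) 0) ^ 3) ≤ 1 * (4 * (max (1 - t) 0) ^ 3) :=
        mul_le_mul_of_nonneg_right h (by positivity)
      linarith
    · rw [max_eq_right (by linarith)]
      norm_num

theorem exp_half_le : Real.exp (-2 * (1 / 4)) ≤ 2 / 3 := by
  have h1 := Real.add_one_le_exp (2 * (1 / 4) : ℝ)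
  have h2 : Real.exp (-2 * (1 / 4)) * Real.exp (2 * (1 / 4)) = 1 := by
    rw [← Real.exp_add]; simp
  have h3 := Real.exp_pos (-2 * (1 / 4))
  have h4 : Real.exp (-2 * (1 / 4)) * (3 / 2) ≤ Real.exp (-2 * (1 / 4)) * Real.exp (2 * (1 / 4)) :=
    mul_le_mul_of_nonneg_left (by linarith) h3.le
  linarith

/-- the profile facts for `(1 - t)₊⁴` -/
theorem pc0 : PC w0.θ w0.θ' w2 12 1 (1 / 81) where
  pr := prof0
  b := bd_w0
  b1 := Fld_387.w0_bd
  g0 t _ := w0.nonneg t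
  c0 := one_pos
  g1c t h0 h1 := by
    change -(4 * (max (1 - t) 0) ^ 3) ≤ -1
    have h2 : max (1 - t) 0 = 1 - t := max_eq_left (by linarith)
    rw [h2]
    have h3 := pow_le_pow_left₀ (by norm_num : (0:ℝ) ≤ 3 / 4) (show 3 / 4 ≤ 1 - t by linarith) 3
    norm_num at h3 ⊢
    linarith
  cg0 := by norm_num
  gc t h0 h1 := by
    have h4 := exp_half_le
    change 1 / 81 ≤ (max (1 - t) 0) ^ 4
    have h2 : max (1 - t) 0 = 1 - t := max_eq_left (by linarith)
    rw [h2]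
    have h3 := pow_le_pow_left₀ (by norm_num : (0:ℝ) ≤ 1 / 3) (show 1 / 3 ≤ 1 - t by linarith) 4
    norm_num at h3 ⊢
    linarith

end Crest.Agent.R234.Well_761
end
end

-- ▼ part R234/Well14_761

/-!
Row 234, VF-N8AV (helper761), file 14: **`Core_809.NNet`**.
-/

set_option autoImplicit false
set_option linter.unusedSectionVars false

open MeasureTheory Set Function Filter Topology Metric
open Crest.GeometryTopology.Submanifold
open Crest.Agent.R234.Vf_884 Crest.Agent.R234.Ar_870 Crest.Agent.R234.Cy_870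
open Crest.Agent.R234.Wi_870 Crest.Agent.R234.Asl_214 Crest.Agent.R234.Avg_387
open Crest.Agent.R234.Core_809 Crest.Agent.R234.Fld_387
open scoped ENNReal NNReal InnerProductSpace

noncomputable section

namespace Crest.Agent.R234.Well_761

local notation "PX" => Crest.Agent.R234.Par_504.X

/-- the comparisons of powers used by N8 -/
theorem net_num {b c : ℝ} (β Cm : ℝ) (hb : 1 < b) (hb2 : β < 2 * b) (hc : 0 < c) :
    ∀ᶠ Λ : ℝ in atTop, 32 ≤ Λ ∧ PX (-1) 0 Λ ≤ c ∧ PX 0 (-4) Λ ≤ c ∧ Cm * PX (-1 / 2) 0 Λ ≤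
      PX (-1 / 2) b Λ ∧ 1 * PX 0 (-b) Λ ≤ 1 / 4 ∧ 1 * PX 0 (β - 2 * b) Λ ≤ 1 ∧
      PX (-1 / 2) 0 Λ ≤ 1 / 4 := by
  filter_upwards [eventually_ge_atTop (32:ℝ),
    Par_504.ev_small 1 hc (show Par_504.Lt (-1) 0 0 0 from Or.inl (by norm_num)),
    Par_504.ev_small 1 hc (show Par_504.Lt 0 (-4) 0 0 from Or.inr ⟨rfl, by norm_num⟩),
    Par_504.ev_le Cm (show Par_504.Lt (-1 / 2) 0 (-1 / 2) b from Or.inr ⟨rfl, by linarith⟩),
    Par_504.ev_small 1 (show (0:ℝ) < 1 / 4 by norm_num)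
      (show Par_504.Lt 0 (-b) 0 0 from Or.inr ⟨rfl, by linarith⟩),
    Par_504.ev_small 1 one_pos (show Par_504.Lt 0 (β - 2 * b) 0 0 from Or.inr ⟨rfl, by linarith⟩),
    Par_504.ev_small 1 (show (0:ℝ) < 1 / 4 by norm_num)
      (show Par_504.Lt (-1 / 2) 0 0 0 from Or.inl (by norm_num))]
    with Λ h1 h2 h3 h4 h5 h6 h7
  rw [one_mul] at h2 h3 h7
  exact ⟨h1, h2, h3, h4, h5, h6, h7⟩

set_option maxHeartbeats 1000000 in
/-- **the class facts of N8 for a contact situation** -/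
theorem exists_netHyp (m n Q : ℕ) (hm : 3 ≤ m) (hQ : 1 ≤ Q) {K cS a : ℝ} (hK : 9 ≤ K)
    (hcS : 0 < cS) (ha : 1 ≤ a) :
    ∃ c0 c2 C1 CE β l0 : ℝ, 0 < c0 ∧ 0 < c2 ∧ 0 ≤ C1 ∧ 0 ≤ CE ∧
      ∀ X : Sit m n a, IsSit Q K cS X → l0 ≤ Real.log (Lam X.D) →
      NetHyp w0.θ w0.θ' (Md m) c0 c2 C1 CE β (dd m (tauOf a X.D)) X.V X.π X.κ 4 (√X.D) X.δ
        (tauOf a X.D) (Lam X.D) (s0Of m a X.D) (X.cd Q K cS).l (X.cd Q K cS).T
        (X.cd Q K cS).q1 (X.cd Q K cS).Z (X.cd Q K cS).E (X.cd Q K cS).e (X.cd Q K cS).IF := by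
  have hm0 : 0 < m := by lia
  obtain ⟨A, C, l1, hA1, hA, hC, hl1, H⟩ := exists_sit m n Q (by lia) hK hcS ha
  obtain ⟨CV, l2, hCV, hco⟩ := Bds_214.e_coarse (m := m) (by lia) n Q K cS a ha
  obtain ⟨Am, cm, hAm, hcm, hml⟩ := mass_low m Q hQ (Ins_387.C0_nonneg m Q)
  have hcD := cD_pos hm0 hcS
  have hA0 : 0 < A := by linarith
  have hom := Th_164.om_pos m
  have home := ome_pos m
  have hC0 := Ins_387.C0_nonneg m Q
  obtain ⟨b, hbd⟩ : ∃ b : ℝ, b = 100 * (m + 1) * (a + 1) := ⟨_, rfl⟩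
  obtain ⟨β, hβd⟩ : ∃ β : ℝ, β = (2 * m + 3) * a + 1 := ⟨_, rfl⟩
  have hmr : (0:ℝ) ≤ m := Nat.cast_nonneg m
  have hma : 0 ≤ (m:ℝ) * a := by positivity
  have hb1 : 1 < b := by
    rw [hbd]; nlinarith
  have hβb : β < 2 * b := by
    rw [hβd, hbd]; nlinarith
  obtain ⟨l3, hl3, hnum⟩ := exists_l0 ((net_num (b := b) (c := min cm 1) β Am hb1 hβb
    (lt_min hcm one_pos)).and (eventually_ge_atTop (A / cD m cS)))
  refine ⟨ome m / 2 ^ m / 4 ^ m, Th_164.om m / 2, Ins_387.C0 m Q * 2 ^ m,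
    Bds_214.Ce m K A * CV, β, max (max l1 l2) (max l3 1), by positivity, by positivity,
    by positivity, ?_, ?_⟩
  · unfold Bds_214.Ce
    have : 0 ≤ K := by linarith
    positivity
  intro X hX hl
  have hla : l1 ≤ Real.log (Lam X.D) := (le_max_left _ _).trans ((le_max_left _ _).trans hl)
  have hlb : l2 ≤ Real.log (Lam X.D) := (le_max_right _ _).trans ((le_max_left _ _).trans hl)
  have hlc : l3 ≤ Real.log (Lam X.D) := (le_max_left _ _).trans ((le_max_right _ _).trans hl)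
  have hld : 1 ≤ Real.log (Lam X.D) := (le_max_right _ _).trans ((le_max_right _ _).trans hl)
  have hD := hX.D0
  have hD1 := hX.D1
  have hL := Lam_pos hD hD1
  obtain ⟨hok, hD0, hs0, hsT, hT0, hZ⟩ := H X hX hla
  obtain ⟨⟨n1, n2, n3, n4, n5, n6, n7⟩, n8⟩ := hnum _ hL hlc
  obtain ⟨Λ, hΛ⟩ : ∃ Λ, Λ = Lam X.D := ⟨_, rfl⟩
  have hΛ' : Real.log (1 / X.D) = Λ := by rw [hΛ]; rfl
  have hDX : X.D = PX (-1) 0 Λ := by rw [← hΛ']; exact Par_504.D_eq_X hD
  have hsD : √X.D = PX (-1 / 2) 0 Λ := by rw [← hΛ']; exact Par_504.sqrt_D_eq_X hD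
  rw [← hΛ] at n1 n2 n3 n4 n5 n6 n7 n8 hL hla hlb hlc hld
  have hpow : ∀ p : ℝ, Λ ^ p = PX 0 p Λ := fun p => Par_504.rpow_eq_X hL p
  have hs0X : s0Of m a X.D = PX (-1 / 2) b Λ := by
    unfold s0Of
    rw [← hΛ, hpow, hsD, Par_504.X_mul, hbd]
    congr 1 <;> ring
  have hstX : stOf m a X.D = PX 0 (-b) Λ := by
    unfold stOf
    rw [← hΛ, hpow, hbd]
  have hst0 : 0 < stOf m a X.D := by rw [hstX]; exact Par_504.X_pos _ _ _
  have hexpD : Real.exp (-Λ) = X.D := by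
    rw [hDX]
    unfold Par_504.X
    congr 1; ring
  have hsexp : s0Of m a X.D * Real.exp (TOf m a X.D) = stOf m a X.D := by
    unfold TOf
    rw [Real.exp_log (div_pos hst0 hs0)]
    field_simp
  have hδ4 : X.δ ≤ PX 0 (-4) Λ := by
    have := hX.δ1
    rw [← hΛ, hpow] at this
    exact this
  have hδcm : X.δ ≤ cm := hδ4.trans (n3.trans (min_le_left _ _))
  have hDcm : X.D ≤ cm := by
    rw [hDX]
    exact n2.trans (min_le_left _ _)
  have hcyl := Ins_387.cylAS hX.cls hD1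
  have hsD0 : 0 < √X.D := Real.sqrt_pos.2 hD
  have hsDs0 : √X.D ≤ s0Of m a X.D := by
    have h1 : √X.D * 1 ≤ √X.D * Am := mul_le_mul_of_nonneg_left hAm hsD0.le
    rw [hs0X]
    rw [hsD] at h1 ⊢
    linarith
  have hτ0 : 0 < tauOf a X.D := tauOf_pos hD hD1
  -- one centre
  have hpt : ∀ x ∈ X.Z, Bds_214.Pt (da X Q K cS) (CV * X.D) A (D0f m cS a X.D)
      (Real.log (s0Of m a X.D) - 4) (Real.log (s0Of m a X.D) + TOf m a X.D + 5) x := by
    intro x hx
    obtain ⟨h1, h2⟩ := hZ x hx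
    have h3 := h1.at' hok
    have hx1 : ‖x‖ ≤ 1 := by
      have := h1.hT
      have e1 := Real.exp_pos (Real.log (s0Of m a X.D) + TOf m a X.D + 5)
      have e2 : 0 < (da X Q K cS).τ := hok.τ0
      linarith
    exact Bds_214.pt hok.ok h3 hA hD0 (by linarith) hok.δ1
      (fun l h4 h5 => hco X hX (by rw [← hΛ]; exact hlb) x hx1 l h4 h5) h2
  have htop : (X.cd Q K cS).T = TOf m a X.D := rfl
  have hbot : (X.cd Q K cS).l = Real.log Λ := by rw [hΛ]; rfl
  have hdomx : ∀ x ∈ X.Z, ‖x‖ + stOf m a X.D ≤ 1 ∧ stOf m a X.D ≤ 1 := by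
    intro x hx
    have h1 := (hZ x hx).1.hT
    have h2 : stOf m a X.D ≤ Real.exp (Real.log (s0Of m a X.D) + TOf m a X.D + 5) := by
      rw [Real.exp_add, Real.exp_add, Real.exp_log hs0, hsexp]
      exact le_mul_of_one_le_right hst0.le (Real.one_le_exp (by norm_num))
    have h3 : 0 < (da X Q K cS).τ := hok.τ0
    exact ⟨by linarith, by linarith [norm_nonneg x]⟩
  have hst4 : stOf m a X.D ≤ 1 / 4 := by rw [hstX]; linarith
  rw [← hΛ]
  refine
    { as := hcyl
      R1 := by norm_num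
      δ0 := hX.δ0
      δ1 := ?_
      h0 := hsD0.le
      hD := ?_
      cw := cw_dd hτ0
      cM := integral_dd hτ0
      τ0 := hτ0.le
      τr := ?_
      s0 := hs0
      ha0 := by rw [hbot]; exact hld
      low := low_all hX.cls (by lia) ?_
      top := fun y l _ hl => mass_up hcyl (fun z r hr => Ins_387.ubd hX.cls (by lia) z hr) y
        (hsDs0.trans hl)
      mas := ?_
      dom := ?_
      sbot := ?_
      stop := ?_
      E0 := ?_
      ee := ?_
      el := ?_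
      eu := ?_
      hq1 := ?_
      IFe := ?_ }
  · -- δ1
    have h1 : Λ ^ 2 = PX 0 2 Λ := by
      rw [← hpow]; exact (Real.rpow_two Λ).symm
    rw [h1]
    have h2 : X.δ * PX 0 2 Λ ≤ PX 0 (-4) Λ * PX 0 2 Λ :=
      mul_le_mul_of_nonneg_right hδ4 (Par_504.X_nonneg _ _ _)
    refine h2.trans ?_
    rw [Par_504.X_mul]
    have h3 : PX (0 + 0) (-4 + 2) Λ = Λ ^ (-2 : ℝ) := by
      rw [hpow]; congr 1 <;> norm_num
    rw [h3]
    exact Real.rpow_le_one_of_one_le_of_nonpos (by linarith) (by norm_num)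
  · -- hD
    rw [Real.sq_sqrt hD.le, hexpD]
  · -- τr
    have h1 : tauOf a X.D ≤ √X.D := by
      unfold tauOf hOf
      rw [← hΛ]
      have h2 : Λ ^ (-a) ≤ 1 :=
        Real.rpow_le_one_of_one_le_of_nonpos (by linarith) (by linarith)
      have h3 : √X.D * Λ ^ (-a) ≤ √X.D * 1 := mul_le_mul_of_nonneg_left h2 hsD0.le
      have h4 : 0 ≤ Λ ^ (-a) := Real.rpow_nonneg hL.le _
      have h5 : 0 ≤ √X.D * Λ ^ (-a) := by positivity
      linarith
    have h6 : tauOf a X.D ≤ √X.D / 4 := by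
      unfold tauOf hOf
      rw [← hΛ]
      have h2 : Λ ^ (-a) ≤ 1 :=
        Real.rpow_le_one_of_one_le_of_nonpos (by linarith) (by linarith)
      have h3 : √X.D * Λ ^ (-a) ≤ √X.D * 1 := mul_le_mul_of_nonneg_left h2 hsD0.le
      linarith
    linarith
  · -- D ≤ 1/4
    have h1 : √X.D ≤ 1 / 4 := by rw [hsD]; exact n7
    have h2 : X.D = √X.D * √X.D := (Real.mul_self_sqrt hD.le).symm
    rw [h2]
    nlinarith
  · -- mas
    intro x hx l h1 h2
    rw [htop, hsexp] at h2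
    have hx3 : x ∈ closedBall (0 : Euc m) 3 := by
      rw [mem_closedBall_zero_iff]
      have := (hdomx x hx).1
      linarith
    have hin := Ins_387.in_of_cls hX.cls (by lia) hD1 hX.δ0 X.S
    refine hml hin hδcm (by rw [Real.sq_sqrt hD.le]; exact hDcm) (hX.cls.en.trans hDcm) x hx3 l
      (le_trans ?_ h1) (h2.trans hst4)
    rw [hs0X, hsD]
    exact n4
  · -- dom
    intro x hx
    rw [htop, hsexp]
    exact (hdomx x hx).1
  · -- sbot
    have h1 : Λ ^ 2 = PX 0 2 Λ := by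
      rw [← hpow]; exact (Real.rpow_two Λ).symm
    rw [hexpD, hs0X, hDX, h1, Par_504.X_mul, Par_504.X_pow]
    unfold Par_504.X
    apply Real.exp_le_exp.2
    push_cast
    have h2 : 0 ≤ Real.log Λ := by linarith
    nlinarith
  · -- stop
    rw [htop, hsexp, hstX, hpow, Par_504.X_pow, Par_504.X_mul]
    refine le_trans (le_of_eq ?_) n6
    rw [one_mul]
    congr 1 <;> push_cast <;> ring
  · -- E0
    intro x hx t ht
    have h1 := hpt x hx
    have hc := (hZ x hx).1.ctr hok hA hD0 (by linarith)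
    rw [htop, hbot] at ht
    have e1 : (X.cd Q K cS).E x t = (da X Q K cS).Es x (Real.log (s0Of m a X.D) + t) := by
      rw [add_comm]; rfl
    rw [e1]
    have h2 := h1.Ulow (Real.log (s0Of m a X.D) + t) (by linarith [ht.1]) (by linarith [ht.2])
    have h3 := hc.UE (l := Real.log (s0Of m a X.D) + t) (by linarith [ht.1]) (by linarith [ht.2])
    have h4 : (da X Q K cS).Us x (Real.log (s0Of m a X.D) + t) ≤
        (da X Q K cS).Es x (Real.log (s0Of m a X.D) + t) := h3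
    linarith
  · -- ee
    intro x hx t ht
    have hr := hok.raw (hZ x hx).1.hT
    rw [htop, hbot] at ht
    have e1 : (X.cd Q K cS).e x t = (da X Q K cS).es x (Real.log (s0Of m a X.D) + t) := by
      rw [add_comm]; rfl
    rw [e1]
    exact hr.e_le_es (l := Real.log (s0Of m a X.D) + t) (by linarith [ht.2])
  · -- el
    intro x hx t ht
    have h1 := hpt x hx
    rw [htop, hbot] at ht
    have e1 : (X.cd Q K cS).e x t = (da X Q K cS).es x (Real.log (s0Of m a X.D) + t) := by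
      rw [add_comm]; rfl
    rw [e1, hexpD]
    have h2 := h1.elow (Real.log (s0Of m a X.D) + t) (by linarith [ht.1]) (by linarith [ht.2])
    have hβ : 0 < Λ ^ β := Real.rpow_pos_of_pos hL _
    refine le_trans ?_ (mul_le_mul_of_nonneg_left h2 hβ.le)
    unfold D0f
    rw [← hΛ]
    have h3 : Λ ^ β * Λ ^ (-((2 * m + 3) * a)) = Λ := by
      rw [← Real.rpow_add hL, hβd]
      have : (2 * m + 3) * a + 1 + -((2 * m + 3) * a) = 1 := by ring
      rw [this, Real.rpow_one]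
    have h4 : Λ ^ β * (cD m cS * (Λ ^ (-((2 * m + 3) * a)) * X.D) / A) =
        (Λ ^ β * Λ ^ (-((2 * m + 3) * a))) * cD m cS / A * X.D := by ring
    rw [h4, h3]
    have h5 : 1 ≤ Λ * cD m cS / A := by
      rw [le_div_iff₀ hA0, one_mul]
      rw [div_le_iff₀ hcD] at n8
      exact n8
    exact le_mul_of_one_le_left hD.le h5
  · -- eu
    intro x hx t ht
    have h1 := hpt x hx
    rw [htop, hbot] at ht
    have e1 : (X.cd Q K cS).e x t = (da X Q K cS).es x (Real.log (s0Of m a X.D) + t) := by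
      rw [add_comm]; rfl
    rw [e1, hexpD]
    have h2 := h1.eup (Real.log (s0Of m a X.D) + t) (by linarith [ht.1]) (by linarith [ht.2])
    refine h2.trans (le_of_eq ?_)
    have hKa : (da X Q K cS).K = K := rfl
    rw [hKa]
    ring
  · -- q1
    rw [hexpD]
    have h1 : (X.cd Q K cS).q1 = Λ ^ (2:ℝ) * X.D := by rw [hΛ]; rfl
    rw [h1, Real.rpow_two]
  · -- IF
    intro x _ w t
    change X.aI x w (t + Real.log (s0Of m a X.D)) = _
    rw [add_comm t]
    rfl

/-- **NNET** : node N8 of the core, literally -/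
theorem nnet (m n Q : ℕ) (hm : 3 ≤ m) (hQ : 1 ≤ Q) {K cS a c1 : ℝ} (hK : 9 ≤ K)
    (hcS : 0 < cS) (ha : 1 ≤ a) (hc1 : 0 < c1) : NNet m n Q K cS a c1 := by
  obtain ⟨c0, c2, C1, CE, β, l1, hc0, hc2, hC1, hCE, H⟩ := exists_netHyp m n Q hm hQ hK hcS ha
  intro Θ C3 hΘ
  have hMd : 0 < Md m := Md_pos (by lia)
  obtain ⟨C0, hC0, Λ0, h⟩ := hnet_family m n pc0 hMd hc0 hc2 hC1 hCE β
    (C3 := C3) hc1 hΘ.le
  obtain ⟨l2, hl2, hlam⟩ := exists_l0 (eventually_ge_atTop Λ0)
  refine ⟨C0, hC0, max l1 l2, ?_⟩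
  intro X hX hl
  exact h (Lam X.D) (hlam _ (Lam_pos hX.D0 hX.D1) ((le_max_right _ _).trans hl))
    (H X hX ((le_max_left _ _).trans hl))

end Crest.Agent.R234.Well_761
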