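import Crest.Agent.R234.Core5_809
import Crest.Agent.R234.Fldc5_387
import Crest.Agent.R234.Bds6_214
import Crest.Agent.R234.Par2_504
import Crest.Agent.R234.Thv5_561
import Crest.Agent.R234.We15_822
import Crest.Agent.R234.N5i_372
import Crest.Agent.R234.Shp9_98
import Crest.Agent.R234.Ins1_387
import Crest.Agent.R234.Core4_809
import Crest.Agent.R234.Shp7_98
import Crest.Agent.R234.Fldc4_387
import Crest.Agent.R234.Well14_761
import Crest.Agent.R234.N0z_309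
import Crest.Agent.R234.Rn3_870
import Crest.Agent.R234.We12_822
import Crest.Agent.R234.Well10_761
import Crest.Agent.R234.Shp6_98
import Crest.Agent.R234.Rn4_870
import Crest.Agent.R234.Fx11_281_Mg

-- ▼ part R234/Core6_809
section

/-!
# R234 / Core6_809 : the literal targets of the node owners and `CoreProp` from them
-/

set_option autoImplicit false

noncomputable section

namespace Crest.Agent.R234.Core_809

/-- target of NBASE (387, 98, 214) -/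
def NBaseP : Prop :=
  ∀ m n Q : ℕ, 3 ≤ m → 1 ≤ n → 1 ≤ Q → ∃ K0 : ℝ, ∀ K : ℝ, K0 ≤ K → ∀ cS a : ℝ, 0 < cS → 1 ≤ a →
    NBase m n Q K cS a

/-- target of NTHIN (561) -/
def NThinP : Prop :=
  ∀ m n Q : ℕ, 3 ≤ m → 1 ≤ n → 1 ≤ Q → ∃ K0 : ℝ, ∀ K : ℝ, K0 ≤ K → ∀ cS a : ℝ, 0 < cS → 1 ≤ a →
    NThin m n Q K cS a

/-- target of NLOC (561, 822, 372) -/
def NLocP : Prop :=
  ∀ m n Q : ℕ, 3 ≤ m → 1 ≤ n → 1 ≤ Q → ∃ K0 : ℝ, ∀ K : ℝ, K0 ≤ K → ∀ cS a : ℝ, 0 < cS → 1 ≤ a →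
    ∃ c1 : ℝ, 0 < c1 ∧ NLoc m n Q K cS a c1

/-- target of NNET (761) -/
def NNetP : Prop :=
  ∀ m n Q : ℕ, 3 ≤ m → 1 ≤ n → 1 ≤ Q → ∃ K0 : ℝ, ∀ K : ℝ, K0 ≤ K → ∀ cS a c1 : ℝ, 0 < cS →
    1 ≤ a → 0 < c1 → NNet m n Q K cS a c1

/-- target of NRUN (870) -/
def NRunP : Prop :=
  ∀ m n Q : ℕ, 3 ≤ m → 1 ≤ n → 1 ≤ Q → ∃ K0 : ℝ, ∀ K : ℝ, K0 ≤ K → ∀ cS a : ℝ, 0 < cS → 1 ≤ a →
    NRun m n Q K cS a

/-- **`CoreProp` from N0 and the five node targets** -/
theorem coreProp_of (h0 : N0Prop) (hB : NBaseP) (hT : NThinP) (hL : NLocP) (hN : NNetP)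
    (hR : NRunP) : CoreProp := by
  refine coreProp_of_nodes h0 fun m n Q hm hn hQ => ?_
  obtain ⟨K1, h1⟩ := hB m n Q hm hn hQ
  obtain ⟨K2, h2⟩ := hT m n Q hm hn hQ
  obtain ⟨K3, h3⟩ := hL m n Q hm hn hQ
  obtain ⟨K4, h4⟩ := hN m n Q hm hn hQ
  obtain ⟨K5, h5⟩ := hR m n Q hm hn hQ
  obtain ⟨K, hK⟩ : ∃ K : ℝ, K = max 0 (max (max K1 K2) (max K3 (max K4 K5))) := ⟨_, rfl⟩
  have k0 : 0 ≤ K := by rw [hK]; exact le_max_left _ _
  have kk : max (max K1 K2) (max K3 (max K4 K5)) ≤ K := by rw [hK]; exact le_max_right _ _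
  have k1 : K1 ≤ K := ((le_max_left _ _).trans (le_max_left _ _)).trans kk
  have k2 : K2 ≤ K := ((le_max_right _ _).trans (le_max_left _ _)).trans kk
  have k3 : K3 ≤ K := ((le_max_left _ _).trans (le_max_right _ _)).trans kk
  have k4 : K4 ≤ K :=
    (((le_max_left _ _).trans (le_max_right _ _)).trans (le_max_right _ _)).trans kk
  have k5 : K5 ≤ K :=
    (((le_max_right _ _).trans (le_max_right _ _)).trans (le_max_right _ _)).trans kk
  refine ⟨K, k0, fun cS a hcS ha => ?_⟩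
  obtain ⟨c1, hc1, hloc⟩ := h3 K k3 cS a hcS ha
  exact ⟨h1 K k1 cS a hcS ha, h2 K k2 cS a hcS ha,
    ⟨c1, hc1, hloc, h4 K k4 cS a c1 hcS ha hc1⟩, h5 K k5 cS a hcS ha⟩

end Crest.Agent.R234.Core_809
end
end

-- ▼ part R234/NBase_387
section

/-!
# Row 234 (helper387): `NBaseP` (target of NBASE in Core6_809)

`FldP`, `AtP` of helper214 from `Fldc5_387`, then `Bds_214.nBase_of`.
-/

set_option autoImplicit false

open MeasureTheory Set Filter Metric
open Crest.GeometryTopology.Submanifold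
open Crest.Agent.R234.Core_809

noncomputable section

namespace Crest.Agent.R234.Fld_387

variable {m n Q : ℕ} {K cS a : ℝ}


theorem fldP (hm : 2 ≤ m) (hK : 9 ≤ K) (hcS : 0 < cS) (ha : 1 ≤ a) :
    Bds_214.FldP m n Q K cS a := by
  obtain ⟨Cm, CR, Cb, Cn, l0, h1, h2, h3, h4, H⟩ := exists_fld m n Q hm hK hcS ha
  obtain ⟨l1, hl1⟩ := Par_504.ev_T m a 1
  refine ⟨Cm, CR, Cb, Cn, max l0 l1, h1, h2, h3, h4, fun X hX hl => ?_⟩
  obtain ⟨-, -, -, e4, -, -⟩ := hl1 X.D hX.D0 hX.D1 ((le_max_right _ _).trans hl)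
  rw [one_mul] at e4
  exact H X hX ((le_max_left _ _).trans hl) e4

/-- `Λ^-c D` as `exp (-(c log Λ)) D` -/
theorem D0f_eq (m : ℕ) (cS a : ℝ) {D : ℝ} (hD : 0 < D) (hD1 : D < 1) :
    D0f m cS a D = cD m cS * Real.exp (-((2 * m + 3) * a * Real.log (Lam D))) * D := by
  unfold D0f
  rw [Real.rpow_def_of_pos (Lam_pos hD hD1)]
  have : Real.log (Lam D) * -((2 * m + 3) * a) = -((2 * m + 3) * a * Real.log (Lam D)) := by ring
  rw [this]
  ring

theorem atP (hm : 2 ≤ m) (hK : 9 ≤ K) (hcS : 0 < cS) (ha : 1 ≤ a) :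
    Bds_214.AtP m n Q K cS a := by
  obtain ⟨A, C, l0, hA1, hA, hC, hl0, H⟩ := exists_sit m n Q hm hK hcS ha
  refine ⟨A, cD m cS, (2 * m + 3) * a, 1 / 3, 4, l0, hA, cD_pos (by lia) hcS, by norm_num,
    by norm_num, fun X hX hl => ?_⟩
  obtain ⟨h1, h2, h3, h4, h5, h6⟩ := H X hX hl
  refine ⟨h1.ok, fun x hx => ?_⟩
  obtain ⟨h7, h8⟩ := h6 x hx
  have h9 := h7.at' h1
  rw [D0f_eq m cS a hX.D0 hX.D1] at h8 h9
  exact ⟨h9, h8⟩

/-- **NBASE** -/
theorem nBaseP : NBaseP := by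
  intro m n Q hm _ _
  refine ⟨9, fun K hK cS a hcS ha => ?_⟩
  exact Bds_214.nBase_of hm ha (by linarith) (fldP (by lia) hK hcS ha) (atP (by lia) hK hcS ha)

end Crest.Agent.R234.Fld_387
end
end

-- ▼ part R234/Thf1_561
section

/-!
# Row 234 (helper561): the facts about contact situations used by NTHIN and NLOC

`Facts` : averaged setting, comparison of the sharp quantities with the averages, lower bound,
masses, for `X : Sit`; `FactsP` : for all situations with large `Λ`; `N5Sit` : N5 at the situations.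
-/

set_option autoImplicit false
set_option linter.unusedSectionVars false

open MeasureTheory Set Function Filter Topology Metric
open Crest.GeometryTopology.Submanifold
open Crest.Agent.R234.Vf_884 Crest.Agent.R234.Ar_870 Crest.Agent.R234.Cy_870
open Crest.Agent.R234.Avg_387 Crest.Agent.R234.N5_372 Crest.Agent.R234.Asl_214
open Crest.Agent.R234.Raw_387 Crest.Agent.R234.Shp_98 Crest.Agent.R234.Core_809
open Crest.Agent.R234.Pot_425
open Crest.Agent.R234.Well_761 (WCfg)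
open scoped ENNReal NNReal InnerProductSpace

noncomputable section

namespace Crest.Agent.R234.Thin_561

/-- log of the bottom scale -/
def L0 {m n : ℕ} {a : ℝ} (X : Sit m n a) : ℝ := Real.log (s0Of m a X.D)

/-- first admissible `t` -/
def ll {m n : ℕ} {a : ℝ} (X : Sit m n a) : ℝ := Real.log (Lam X.D)

/-- length of the window -/
def TT' {m n : ℕ} {a : ℝ} (X : Sit m n a) : ℝ := TOf m a X.D

/-- lower bound of the profile on `[0, 1/4]` -/
def cg0 : ℝ := 81 / 256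

/-- lower bound of minus its derivative on `[0, 1/4]` -/
def cg1 : ℝ := 27 / 16

/-- **the facts about one contact situation** (`om` = small number) -/
structure Facts {m n : ℕ} {a : ℝ} (Q : ℕ) (K cS CE CM c' om : ℝ) (X : Sit m n a) : Prop where
  avs : AvS X.V X.π X.κ 0 4 (√X.D) X.δ (dd m (tauOf a X.D)) (tauOf a X.D) w0.θ w0.θ' w2 4 cg0 cg1
    (Md m) X.Z (ll X) (TT' X) (s0Of m a X.D / 2)
  aR : ∀ x ∈ X.Z, ∀ l, L0 X + ll X ≤ l → l ≤ L0 X + TT' X → X.aR x l ≤ X.sR Q K cS x l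
  ae : ∀ x ∈ X.Z, ∀ l, L0 X + ll X ≤ l → l ≤ L0 X + TT' X → X.ae x l ≤ X.se Q K cS x l
  sE : ∀ x ∈ X.Z, ∀ l, L0 X + ll X ≤ l → l + 4 ≤ L0 X + TT' X →
    X.sE Q K x l ≤ X.aE Q x l + om * X.se Q K cS x (l + 4)
  sE' : ∀ x ∈ X.Z, ∀ l, L0 X + ll X ≤ l → l + 4 ≤ L0 X + TT' X →
    X.sE Q K x l ≤ CE * X.se Q K cS x (l + 4)
  sE0 : ∀ x ∈ X.Z, ∀ l, L0 X + ll X ≤ l → l ≤ L0 X + TT' X → 0 ≤ X.sE Q K x l
  low : ∀ x ∈ X.Z, ∀ l, L0 X + ll X ≤ l → l ≤ L0 X + TT' X →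
    Lam X.D ^ (-c') * X.D ≤ X.se Q K cS x l
  mb : ∀ x ∈ X.Z, ∀ l, L0 X + ll X ≤ l → l ≤ L0 X + TT' X → ∀ y ∈ closedBall x (tauOf a X.D),
    mb X.V X.π y l ≤ CM
  ball : X.Z ⊆ closedBall 0 1

/-- **the facts for all contact situations** with large `Λ` -/
def FactsP (m n Q : ℕ) (K cS a : ℝ) : Prop :=
  ∃ CE CM c' : ℝ, 0 ≤ CE ∧ 0 ≤ CM ∧ 0 ≤ c' ∧ c' + 1 ≤ 100 * (m + 1) * (a + 1) ∧
    ∀ om : ℝ, 0 < om → ∃ l0 : ℝ, ∀ X : Sit m n a, IsSit Q K cS X → l0 ≤ Real.log (Lam X.D) →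
      Facts Q K cS CE CM c' om X

/-- **N5 at the contact situations** (helper372's `n5K_cls` at `V`) -/
def N5Sit (m n Q : ℕ) (K cS a : ℝ) : Prop :=
  ∀ om : ℝ, 0 < om → ∃ θ : ℝ, 0 < θ ∧ ∀ kf : ℝ, ∃ η : ℝ, 0 < η ∧ ∃ l0 : ℝ,
    ∀ X : Sit m n a, IsSit Q K cS X → l0 ≤ Real.log (Lam X.D) →
      N5K X.V X.π w0.θ' Q (m - 2) (closedBall 0 2) (Real.log (s0Of m a X.D))
        (Real.log (stOf m a X.D)) (fun _ => Lam X.D ^ (-(100 * (m + 1) * (a + 1))) * X.D)
        om θ kf η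


end Crest.Agent.R234.Thin_561
end
end

-- ▼ part R234/Thv6_561
section

/-!
# Row 234 (helper561): NLOC of the core from the facts, N5 and the well half

`nLoc_of : FactsP → N5Sit → ∃ c1 > 0, NLoc`.
-/

set_option autoImplicit false
set_option linter.unusedSectionVars false

open MeasureTheory Set Function Filter Topology Metric
open Crest.GeometryTopology.Submanifold
open Crest.Agent.R234.Vf_884 Crest.Agent.R234.Ar_870 Crest.Agent.R234.Cy_870
open Crest.Agent.R234.Avg_387 Crest.Agent.R234.N5_372 Crest.Agent.R234.Asl_214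
open Crest.Agent.R234.Raw_387 Crest.Agent.R234.Shp_98 Crest.Agent.R234.Core_809
open Crest.Agent.R234.Pot_425 Crest.Agent.R234.Par_504
open Crest.Agent.R234.Well_761 (WCfg)
open Crest.Agent.R234.We_822 (well_sit aI_eq bd_w0 bd_w1)
open scoped ENNReal NNReal InnerProductSpace

noncomputable section

namespace Crest.Agent.R234.Thin_561

/-- the numbers of NLOC (and NTHIN) for large `Λ` -/
theorem nums (m : ℕ) {a : ℝ} (ha : 1 ≤ a) {c' : ℝ} (hc' : 0 ≤ c')
    (hb : c' + 1 ≤ 100 * (m + 1) * (a + 1)) {ε cm CM B' : ℝ} (hε : 0 < ε) (hcm : 0 < cm)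
    (hCM : 0 ≤ CM) (hB' : 0 ≤ B') :
    ∃ l0 : ℝ, ∀ D δ : ℝ, 0 < D → D < 1 → l0 ≤ Real.log (Lam D) → 0 ≤ δ →
      δ ≤ Lam D ^ (-4 : ℝ) →
      √δ ≤ ε ∧ q1Of D ≤ ε * s0Of m a D ^ 2 ∧
      δ * (D + q1Of D) * (stOf m a D ^ 2 * CM) ≤ ε * (Lam D ^ (-c') * D) ∧
      3 * δ * (TOf m a D * B') ≤ ε ∧
      Lam D ^ (-(100 * (m + 1) * (a + 1))) * D ≤ cm * (Lam D ^ (-c') * D) ∧
      1 ≤ Real.log (Lam D) ∧ 0 ≤ TOf m a D ∧ 1 ≤ Lam D := by
  have h4 : (0 : ℝ) ≤ m := Nat.cast_nonneg m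
  have hbb : bb m a = 100 * (m + 1) * (a + 1) := rfl
  have hb2 : c' + 2 < 2 * bb m a := by
    rw [hbb]
    nlinarith
  have hb3 : c' < bb m a := by rw [hbb]; linarith
  have hb4 : 2 < 2 * bb m a := by rw [hbb]; nlinarith
  obtain ⟨l1, hl1⟩ := ev_T m a 1
  obtain ⟨l0, hl0⟩ := ev_l ((ev_small 1 hε (show Lt 0 (-2) 0 0 from Or.inr ⟨rfl, by norm_num⟩)).and
    ((ev_le' 1 hε (show Lt (-1) 2 (-1) (2 * bb m a) from Or.inr ⟨rfl, hb4⟩)).and
    ((ev_le' (2 * CM) hε (show Lt (-1) (2 - 2 * bb m a) (-1) (-c') from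
      Or.inr ⟨rfl, by linarith⟩)).and
    ((ev_small (3 * B') hε (show Lt 0 (-3) 0 0 from Or.inr ⟨rfl, by norm_num⟩)).and
    (ev_le' 1 hcm (show Lt (-1) (-bb m a) (-1) (-c') from Or.inr ⟨rfl, by linarith⟩))))))
  refine ⟨max l0 l1, fun D δ h0 h1 hl hδ0 hδ => ?_⟩
  obtain ⟨e1, e2, e3, e4, e5⟩ := hl0 D h0 h1 ((le_max_left _ _).trans hl)
  obtain ⟨f1, f2, -, -, f5, f6⟩ := hl1 D h0 h1 ((le_max_right _ _).trans hl)
  have hΛ := Lam_pos h0 h1
  have hδX : δ ≤ X 0 (-4) (Lam D) := by rw [← rpow_eq h0 h1]; exact hδ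
  have hδ1 : δ ≤ 1 := hδ.trans (Real.rpow_le_one_of_one_le_of_nonpos f6 (by norm_num))
  have hT0 : 0 ≤ TOf m a D := le_trans (by positivity) f1
  have hcD : Lam D ^ (-c') * D = X (-1) (-c') (Lam D) := by
    rw [rpow_eq h0 h1]
    calc X 0 (-c') (Lam D) * D = X 0 (-c') (Lam D) * X (-1) 0 (Lam D) := by rw [← D_eq h0]
      _ = _ := by rw [X_mul]; congr 1 <;> ring
  have hbD : Lam D ^ (-(100 * (m + 1) * (a + 1))) * D = X (-1) (-bb m a) (Lam D) := by
    rw [rpow_eq h0 h1]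
    calc X 0 (-(100 * (m + 1) * (a + 1))) (Lam D) * D =
        X 0 (-(100 * (m + 1) * (a + 1))) (Lam D) * X (-1) 0 (Lam D) := by rw [← D_eq h0]
      _ = _ := by rw [X_mul, hbb]; congr 1 <;> ring
  refine ⟨?_, ?_, ?_, ?_, ?_, f5, hT0, f6⟩
  · calc √δ ≤ √(X 0 (-4) (Lam D)) := Real.sqrt_le_sqrt hδX
      _ = 1 * X 0 (-2) (Lam D) := by rw [X_sqrt, one_mul]; congr 1 <;> ring
      _ ≤ ε := e1
  · have e6 : s0Of m a D ^ 2 = X (-1) (2 * bb m a) (Lam D) := by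
      rw [s0Of_eq h0 h1, X_pow]
      congr 1 <;> push_cast <;> ring
    rw [q1Of_eq h0 h1, e6]
    linarith
  · have e6 : q1Of D * stOf m a D ^ 2 = X (-1) (2 - 2 * bb m a) (Lam D) := by
      rw [q1Of_eq h0 h1, stOf_eq h0 h1, X_pow, X_mul]
      congr 1 <;> push_cast <;> ring
    have e7 : D ≤ q1Of D := by
      unfold q1Of
      have : 1 ≤ Lam D ^ (2 : ℝ) := Real.one_le_rpow f6 (by norm_num)
      nlinarith
    have e8 : 0 ≤ q1Of D := (q1Of_pos h0 h1).le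
    rw [hcD]
    calc δ * (D + q1Of D) * (stOf m a D ^ 2 * CM) ≤
        1 * (q1Of D + q1Of D) * (stOf m a D ^ 2 * CM) := by gcongr
      _ = 2 * CM * (q1Of D * stOf m a D ^ 2) := by ring
      _ = 2 * CM * X (-1) (2 - 2 * bb m a) (Lam D) := by rw [e6]
      _ ≤ _ := e3
  · have hX4 := X_nonneg 0 (-4) (Lam D)
    have e6 : X 0 (-4) (Lam D) * Lam D = X 0 (-3) (Lam D) := by
      calc X 0 (-4) (Lam D) * Lam D = X 0 (-4) (Lam D) * X 0 1 (Lam D) := by
            rw [← self_eq_X hΛ]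
        _ = _ := by rw [X_mul]; congr 1 <;> ring
    calc 3 * δ * (TOf m a D * B') ≤ 3 * X 0 (-4) (Lam D) * (Lam D * B') := by gcongr
      _ = 3 * B' * (X 0 (-4) (Lam D) * Lam D) := by ring
      _ = 3 * B' * X 0 (-3) (Lam D) := by rw [e6]
      _ ≤ ε := e4
  · rw [hcD, hbD]
    linarith

set_option maxHeartbeats 1000000 in
/-- **NLOC from the facts, N5 and the well half** -/
theorem nLoc_of {m n Q : ℕ} (hm : 3 ≤ m) {K cS a : ℝ} (ha : 1 ≤ a)
    (hF : FactsP m n Q K cS a) (h5 : N5Sit m n Q K cS a) :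
    ∃ c1 : ℝ, 0 < c1 ∧ NLoc m n Q K cS a c1 := by
  have hdm : m - 2 + 2 = m := by omega
  obtain ⟨CE, CM, c', hCE, hCM, hc', hc'b, hF⟩ := hF
  obtain ⟨c1, Cw, hc1, hCw, h7⟩ := well_sit hdm n Q (a := a) (by linarith)
  refine ⟨c1, hc1, fun ω hω => ?_⟩
  have hMd : 0 < Md m := Md_pos (m := m) (by omega)
  set CG : ℝ := Real.exp ((m - 2 : ℕ) : ℝ) * Cg (m - 2) cg0 (Md m) with hCG
  have hcg0 : 0 < cg0 := by unfold cg0; norm_num
  have hCg0 : 0 < Cg (m - 2) cg0 (Md m) := by unfold Cg; positivity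
  have hCG0 : 0 < CG := by positivity
  -- the constants
  set P1 : ℝ := 2 * 12 * CG * Md m + Cw * CG with hP1
  have hP10 : 0 < P1 := by positivity
  set ω' : ℝ := ω / (4 * P1) with hω'
  have hω'0 : 0 < ω' := by positivity
  have hω'1 : P1 * ω' = ω / 4 := by rw [hω']; field_simp
  obtain ⟨θ, hθ, h5⟩ := h5 ω' hω'0
  obtain ⟨Θ, hΘ, lw, h7⟩ := h7 θ hθ
  refine ⟨Θ, hΘ, fun kf => ?_⟩
  obtain ⟨η, hη, l5, h5⟩ := h5 (3 * kf)
  set η1 : ℝ := η * Cg (m - 2) cg0 (Md m) * Md m / (((m - 2 : ℕ) : ℝ) + 1) with hη1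
  have hη10 : 0 < η1 := by positivity
  refine ⟨η1, hη10, fun B => ?_⟩
  have hCt : 0 ≤ Ctot (m - 2) 12 cg0 (Md m) := by
    have := Bw_nonneg
    unfold Ctot
    positivity
  set ε : ℝ := min 1 (ω / (4 * (Ctot (m - 2) 12 cg0 (Md m) + 1))) with hε
  have hε0 : 0 < ε := by positivity
  have hε1 : ε ≤ 1 := min_le_left _ _
  have hε2 : ε * Ctot (m - 2) 12 cg0 (Md m) ≤ ω / 4 := by
    have h1 : ε ≤ ω / (4 * (Ctot (m - 2) 12 cg0 (Md m) + 1)) := min_le_right _ _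
    rw [le_div_iff₀ (by positivity)] at h1
    linarith only [h1, hε0]
  set B' : ℝ := max B 0 * CE with hB'
  have hB'0 : 0 ≤ B' := mul_nonneg (le_max_right _ _) hCE
  obtain ⟨lF, hF⟩ := hF (ω / 8) (by positivity)
  obtain ⟨lN, hnum⟩ := nums m ha hc' hc'b hε0 hCg0 hCM hB'0
  obtain ⟨lN', hnum'⟩ := nums m ha hc' hc'b hε0 one_pos hCM hB'0
  refine ⟨max (max lw l5) (max lF (max lN lN')), fun X hX hl => ?_⟩
  have g1 : lw ≤ Real.log (Lam X.D) := ((le_max_left _ _).trans (le_max_left _ _)).trans hl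
  have g2 : l5 ≤ Real.log (Lam X.D) := ((le_max_right _ _).trans (le_max_left _ _)).trans hl
  have g3 : lF ≤ Real.log (Lam X.D) := ((le_max_left _ _).trans (le_max_right _ _)).trans hl
  have g4 : lN ≤ Real.log (Lam X.D) :=
    (((le_max_left _ _).trans (le_max_right _ _)).trans (le_max_right _ _)).trans hl
  have g5 : lN' ≤ Real.log (Lam X.D) :=
    (((le_max_right _ _).trans (le_max_right _ _)).trans (le_max_right _ _)).trans hl
  have hf := hF X hX g3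
  have hN := h5 X hX g2
  obtain ⟨n1, n2, n3, n4, n5, n6, n7, n8⟩ := hnum X.D X.δ hX.D0 hX.D1 g4 hX.δ0 hX.δ1
  obtain ⟨-, -, -, -, n5', -⟩ := hnum' X.D X.δ hX.D0 hX.D1 g5 hX.δ0 hX.δ1
  rw [one_mul] at n5'
  have hs0 : 0 < s0Of m a X.D := s0Of_pos hX.D0 hX.D1
  have hst : 0 < stOf m a X.D := stOf_pos hX.D0 hX.D1
  have hτ0 : 0 < tauOf a X.D := tauOf_pos hX.D0 hX.D1
  have hq10 : 0 < q1Of X.D := q1Of_pos hX.D0 hX.D1
  have h2r : 2 * (s0Of m a X.D / 2) = s0Of m a X.D := by ring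
  intro x hx t ht ht8 y hy hxy v hv hfat hRs c hq hΘA hIF1 hIFt hIFt1
  change Real.log (Lam X.D) ≤ t at ht
  change t + 8 ≤ TOf m a X.D at ht8
  change dist x y ≤ 2 * (s0Of m a X.D / 2) * Real.exp t at hxy
  change y ∈ X.Z at hy
  change x ∈ X.Z at hx
  change c.q ^ 2 ≤ q1Of X.D at hq
  change ∀ (c : Fin (m - 2) → ℝ) i, |c i| * (2 * (s0Of m a X.D / 2) * Real.exp t) ≤
    kf * ‖∑ l, c l • v l‖ at hfat
  change ∀ j, 0 ≤ j → j ≤ 4 → X.sR Q K cS x (t + j + Real.log (s0Of m a X.D)) ≤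
      η1 * X.se Q K cS x (t + 4 + Real.log (s0Of m a X.D)) ∧
    X.sR Q K cS y (t + j + Real.log (s0Of m a X.D)) ≤
      η1 * X.se Q K cS x (t + 4 + Real.log (s0Of m a X.D)) ∧
    ∀ i, X.sR Q K cS (y + v i) (t + j + Real.log (s0Of m a X.D)) ≤
      η1 * X.se Q K cS x (t + 4 + Real.log (s0Of m a X.D)) at hRs
  change ∀ i, y + v i ∈ X.Z ∧ ‖v i‖ ≤ 2 * (s0Of m a X.D / 2) * Real.exp t ∧
    dist x (y + v i) ≤ 2 * (s0Of m a X.D / 2) * Real.exp t at hv
  change Θ * t * X.se Q K cS x (t + 4 + Real.log (s0Of m a X.D)) ≤ c.q ^ 2 at hΘA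
  change X.aI x c (t + 1 + Real.log (s0Of m a X.D)) ≤ c1 * c.q ^ 2 at hIF1
  change X.aI x c (t + Real.log (s0Of m a X.D)) ≤
    B * t * X.sE Q K x (t + Real.log (s0Of m a X.D)) at hIFt
  change 2 * X.sE Q K x (t + Real.log (s0Of m a X.D)) ≤
    deriv (X.aI x c) (t + Real.log (s0Of m a X.D)) / 2 +
      ω * X.se Q K cS x (t + 4 + Real.log (s0Of m a X.D))
  have eqs : Real.exp (t + Real.log (s0Of m a X.D)) = 2 * (s0Of m a X.D / 2) * Real.exp t := by
    rw [Real.exp_add, Real.exp_log hs0]; ring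
  have eL : L0 X = Real.log (s0Of m a X.D) := rfl
  have eT : TT' X = TOf m a X.D := rfl
  have ell : ll X = Real.log (Lam X.D) := rfl
  have e4 : t + 4 + Real.log (s0Of m a X.D) = t + Real.log (s0Of m a X.D) + 4 := by ring
  have e1 : t + 1 + Real.log (s0Of m a X.D) = t + Real.log (s0Of m a X.D) + 1 := by ring
  rw [e4] at hΘA ⊢
  rw [e1] at hIF1
  set l : ℝ := t + Real.log (s0Of m a X.D) with hldef
  set A : ℝ := X.se Q K cS x (l + 4) with hA
  have ht0 : 0 ≤ t := by linarith only [ht, n6]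
  have r1 : L0 X + ll X ≤ l := by rw [eL, ell, hldef]; linarith only [ht]
  have r2 : l + 4 ≤ L0 X + TT' X := by rw [eL, eT, hldef]; linarith only [ht8]
  have r3 : l ≤ L0 X + TT' X := by linarith only [r2]
  have r4 : L0 X + ll X ≤ l + 4 := by linarith only [r1]
  have hlow : Lam X.D ^ (-c') * X.D ≤ A := hf.low x hx (l + 4) r4 r2
  have hcD0 : 0 < Lam X.D ^ (-c') * X.D := by
    have := Lam_pos hX.D0 hX.D1
    have := hX.D0
    positivity
  have hA0 : 0 < A := hcD0.trans_le hlow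
  have hee : X.ae x (l + 4) ≤ A := hf.ae x hx (l + 4) r4 r2
  have hel : Real.exp l = s0Of m a X.D * Real.exp t := by rw [eqs]; ring
  have hexpT : s0Of m a X.D * Real.exp (TOf m a X.D) = stOf m a X.D := by
    unfold TOf
    rw [Real.exp_log (by positivity)]
    field_simp
  have helT : Real.exp l ≤ stOf m a X.D := by
    rw [hel, ← hexpT]
    have : Real.exp t ≤ Real.exp (TOf m a X.D) := Real.exp_le_exp.2 (by linarith only [ht8])
    exact mul_le_mul_of_nonneg_left this hs0.le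
  have hs0l : s0Of m a X.D ≤ Real.exp l := by
    rw [hel]
    exact le_mul_of_one_le_right hs0.le (Real.one_le_exp ht0)
  have hrng := hf.avs.rng x hx
  have htop := hf.avs.top
  rw [h2r, eT, hexpT] at hrng htop
  have hτr := hf.avs.τr
  have hτl : tauOf a X.D ≤ Real.exp l := by
    have h1 : Real.exp (ll X) ≤ Real.exp t := Real.exp_le_exp.2 (by rw [ell]; exact ht)
    rw [hel]
    have h2 : s0Of m a X.D / 2 * Real.exp (ll X) ≤ s0Of m a X.D / 2 * Real.exp t :=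
      mul_le_mul_of_nonneg_left h1 (by positivity)
    have h3 : 0 < s0Of m a X.D * Real.exp t := by positivity
    linarith only [hτr, h2, h3]
  have hl0' : l ≤ 0 := Real.exp_le_one_iff.1 (helT.trans htop)
  have hxb := hf.ball hx
  rw [mem_closedBall, dist_zero_right] at hxb
  -- the gap
  have hqs : c.q ^ 2 ≤ ε * Real.exp l ^ 2 := by
    refine (hq.trans n2).trans ?_
    refine mul_le_mul_of_nonneg_left ?_ hε0.le
    exact pow_le_pow_left₀ hs0.le hs0l 2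
  have hq1 : c.q ≤ 1 := by
    have h1 : c.q ^ 2 ≤ 1 := by
      refine hqs.trans ?_
      have h2 : Real.exp l ≤ 1 := helT.trans htop
      have h3 : Real.exp l ^ 2 ≤ 1 := pow_le_one₀ (Real.exp_pos l).le h2
      have h4 := mul_le_mul hε1 h3 (by positivity) zero_le_one
      rwa [one_mul] at h4
    have h0 := c.hq
    exact (sq_le_one_iff₀ h0.le).1 h1
  -- IF
  have hIFB : IFw (dd m (tauOf a X.D)) X.V X.π X.κ w0.θ' x (toWP c) l ≤
      TOf m a X.D * B' * A := by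
    rw [← aI_eq]
    have hE0 := hf.sE0 x hx l r1 r3
    have hE1 := hf.sE' x hx l r1 r2
    refine hIFt.trans ?_
    calc B * t * X.sE Q K x l ≤ max B 0 * TOf m a X.D * (CE * A) := by
          refine mul_le_mul ?_ hE1 hE0 (mul_nonneg (le_max_right _ _) n7)
          exact mul_le_mul (le_max_left _ _) (by linarith only [ht8]) ht0 (le_max_right _ _)
      _ = TOf m a X.D * B' * A := by rw [hB']; ring
  -- the masses
  have hmb := hf.mb x hx l r1 r3
  have hD0 := hX.D0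
  have hδ0 := hX.δ0
  have hms : X.δ * ((√X.D) ^ 2 + c.q ^ 2) * (Real.exp l ^ 2 * CM) ≤ ε * A := by
    rw [Real.sq_sqrt hD0.le]
    have h1 : Real.exp l ^ 2 ≤ stOf m a X.D ^ 2 := pow_le_pow_left₀ (Real.exp_pos l).le helT 2
    calc X.δ * (X.D + c.q ^ 2) * (Real.exp l ^ 2 * CM) ≤
        X.δ * (X.D + q1Of X.D) * (stOf m a X.D ^ 2 * CM) := by gcongr
      _ ≤ ε * (Lam X.D ^ (-c') * X.D) := n3
      _ ≤ ε * A := mul_le_mul_of_nonneg_left hlow hε0.le
  have hm2 : (((m - 2 : ℕ) : ℝ) + 1) * η1 / Md m ≤ η * Cg (m - 2) cg0 (Md m) := by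
    rw [hη1]
    refine le_of_eq ?_
    field_simp
  have hstep := loc_step (d := m - 2) (W := X.V) (π := X.π) (κ := X.κ) (x := x) (y := y)
    (x₀ := 0) (R := 4) (h₀ := √X.D) (τ := tauOf a X.D) (δ := X.δ) (dw := dd m (tauOf a X.D))
    (g := w0.θ) (g1 := w0.θ') (g2 := w2) hdm (K := 12) (c := cg0) (M := Md m) hcg0 hMd hf.avs.as
    hδ0 (Real.sqrt_nonneg _) hτ0.le hf.avs.cw hf.avs.Mdw prof0 bd_w0 bd_w1 hf.avs.bc
    (l := l) (by linarith only [hrng, helT]) hl0' hτl (Qn := Q) (X := closedBall 0 2)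
    (lmin := Real.log (s0Of m a X.D)) (lmax := Real.log (stOf m a X.D))
    (gm := fun _ => Lam X.D ^ (-(100 * (m + 1) * (a + 1))) * X.D) (ω' := ω') (θ := θ) (kf := kf)
    (η := η) (η₁ := η1) hN
    (by rw [mem_closedBall, dist_zero_right]; linarith only [hxb])
    (by rw [hldef]; linarith only [ht0])
    (by
      have h1 : Real.log (s0Of m a X.D) + TOf m a X.D = Real.log (stOf m a X.D) := by
        rw [← hexpT, Real.log_mul hs0.ne' (Real.exp_pos _).ne', Real.log_exp]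
      rw [hldef]
      linarith only [h1, ht8])
    (v := v) (by rw [eqs]; exact hfat)
    (by
      rw [eqs, ← dist_eq_norm, dist_comm]; exact hxy)
    (fun i => by
      rw [eqs, ← dist_eq_norm, dist_comm]; exact (hv i).2.2)
    (A := A) (Cw := Cw) (ε := ε) (mM := CM) (J := TOf m a X.D * B' * A) hee
    (n5.trans (mul_le_mul_of_nonneg_left hlow hCg0.le))
    (by
      have h1 := (hRs 4 (by norm_num) le_rfl).2.1
      rw [e4] at h1
      exact (hf.aR y hy (l + 4) r4 r2).trans h1)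
    (fun i => by
      have h1 := (hRs 4 (by norm_num) le_rfl).2.2 i
      rw [e4] at h1
      exact (hf.aR _ (hv i).1 (l + 4) r4 r2).trans h1)
    hm2 (toWP c)
    (fun pL hpL hg2 => h7 K cS X hX g1 x hx t ht ht8 c hq A hee (n5'.trans hlow) hΘA hIF1 hpL
      (w := ω' * (Cg (m - 2) cg0 (Md m) * A) * Real.exp (l + 1) ^ (m - 2))
      (by positivity) hg2)
    hε0.le hε1 n1 hq1 hqs hmb hCM hms hIFB
    (by
      calc 3 * X.δ * (TOf m a X.D * B' * A) = (3 * X.δ * (TOf m a X.D * B')) * A := by ring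
        _ ≤ ε * A := mul_le_mul_of_nonneg_right n4 hA0.le)
  have hder : deriv (X.aI x c) l / 2 = Fm (dd m (tauOf a X.D)) X.V X.π X.κ w0.θ x (toWP c) l +
      Gm (dd m (tauOf a X.D)) X.V X.π X.κ w0.θ' w2 x (toWP c) l := by
    have h1 : X.aI x c = IFw (dd m (tauOf a X.D)) X.V X.π X.κ w0.θ' x (toWP c) := by
      funext l'
      exact aI_eq X x c l'
    rw [h1, (hasDerivAt_IFw (ff_of_cylAS hf.avs.as) hf.avs.as.hgt hτ0.le hf.avs.cw prof0 x
      (toWP c) l).deriv]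
    ring
  have hsE := hf.sE x hx l r1 r2
  rw [hder]
  have hfin : (2 * 12 * CG * Md m * ω' + Cw * CG * ω' + ε * Ctot (m - 2) 12 cg0 (Md m)) * A ≤
      ω / 2 * A := by
    refine mul_le_mul_of_nonneg_right ?_ hA0.le
    have h1 : 2 * 12 * CG * Md m * ω' + Cw * CG * ω' = P1 * ω' := by rw [hP1]; ring
    rw [h1, hω'1]
    linarith only [hε2]
  have hstep' : 2 * X.aE Q x l ≤ Fm (dd m (tauOf a X.D)) X.V X.π X.κ w0.θ x (toWP c) l +
      Gm (dd m (tauOf a X.D)) X.V X.π X.κ w0.θ' w2 x (toWP c) l +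
      (2 * 12 * CG * Md m * ω' + Cw * CG * ω' + ε * Ctot (m - 2) 12 cg0 (Md m)) * A := hstep
  have hωA : 0 < ω * A := by positivity
  linarith only [hωA, hstep', hfin, hsE]

end Crest.Agent.R234.Thin_561
end
end

-- ▼ part R234/Thv7_561
section

/-!
# Row 234 (helper561): N5 at the contact situations

`n5Sit : N5Sit m n Q K cS a` from helper372's `n5K_cls`.
-/

set_option autoImplicit false
set_option linter.unusedSectionVars false

open MeasureTheory Set Function Filter Topology Metric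
open Crest.GeometryTopology.Submanifold
open Crest.Agent.R234.Vf_884 Crest.Agent.R234.Ar_870 Crest.Agent.R234.Cy_870
open Crest.Agent.R234.Avg_387 Crest.Agent.R234.N5_372 Crest.Agent.R234.Asl_214
open Crest.Agent.R234.Core_809 Crest.Agent.R234.Pot_425 Crest.Agent.R234.Par_504
open scoped ENNReal NNReal InnerProductSpace

noncomputable section

namespace Crest.Agent.R234.Thin_561

theorem N5K.anti {m k Qn d : ℕ} {W : Measure (Euc k × L k)} {π : Euc k →L[ℝ] Euc m} {g1 : ℝ → ℝ}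
    {X Y : Set (Euc m)} {lmin lmax : ℝ} {gm : ℝ → ℝ} {ω θ K η : ℝ}
    (h : N5K W π g1 Qn d X lmin lmax gm ω θ K η) (hXY : Y ⊆ X) :
    N5K W π g1 Qn d Y lmin lmax gm ω θ K η := fun x hx => h x (hXY hx)

theorem w0_low1 : ∀ t, 0 ≤ t → t ≤ 1 / 4 → (27 / 16 : ℝ) ≤ -w0.θ' t := by
  intro t _ ht
  change (27 / 16 : ℝ) ≤ - -(4 * (max (1 - t) 0) ^ 3)
  have h1 : ((3:ℝ) / 4) ^ 3 ≤ (max (1 - t) 0) ^ 3 :=
    pow_le_pow_left₀ (by norm_num) (le_max_of_le_left (by linarith)) 3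
  norm_num at h1
  linarith

/-- **N5 at the contact situations** -/
theorem n5Sit {m n Q : ℕ} (hm : 2 ≤ m) {K cS a : ℝ} (ha : 1 ≤ a) : N5Sit m n Q K cS a := by
  intro om hom
  obtain ⟨θ, hθ, H⟩ := n5K_cls (d := m - 2) (m := m) (by omega) n Q (cP := 27 / 16) (by norm_num)
    hom
  refine ⟨θ, hθ, fun kf => ?_⟩
  obtain ⟨η, hη, A, hA, c, hc, hc1, H⟩ := H kf
  have h4 : (0 : ℝ) ≤ m := Nat.cast_nonneg m
  have hbb : bb m a = 100 * (m + 1) * (a + 1) := rfl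
  have hbp : 0 < bb m a := by rw [hbb]; nlinarith
  obtain ⟨l0, hl0⟩ := ev_l ((ev_small 1 hc (show Lt 0 (-4) 0 0 from Or.inr ⟨rfl, by norm_num⟩)).and
    ((ev_small 1 hc (show Lt (-1) 0 0 0 from Or.inl (by norm_num))).and
    ((ev_le A (show Lt (-1 / 2) 0 (-1 / 2) (bb m a) from Or.inr ⟨rfl, hbp⟩)).and
    ((ev_small 1 hc (show Lt 0 (-bb m a) 0 0 from Or.inr ⟨rfl, by linarith⟩)).and
    ((ev_le' 1 hη (show Lt (-1) (-(2 * bb m a)) (-1) (-bb m a) from
      Or.inr ⟨rfl, by linarith⟩)).and (eventually_ge_atTop (1 : ℝ)))))))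
  refine ⟨η, hη, l0, fun X hX hl => ?_⟩
  obtain ⟨e1, e2, e3, e4, e5, e6⟩ := hl0 X.D hX.D0 hX.D1 hl
  have hD0 := hX.D0
  have hD1 := hX.D1
  have hδ0 := hX.δ0
  have hδX : X.δ ≤ Par_504.X 0 (-4) (Lam X.D) := by rw [← rpow_eq hD0 hD1]; exact hX.δ1
  have hδ1 : X.δ ≤ 1 := hX.δ1.trans (Real.rpow_le_one_of_one_le_of_nonpos e6 (by norm_num))
  have hst := stOf_pos (m := m) (a := a) hD0 hD1
  have hs0 := s0Of_pos (m := m) (a := a) hD0 hD1
  have hbD : Lam X.D ^ (-(100 * (m + 1) * (a + 1))) * X.D =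
      Par_504.X (-1) (-bb m a) (Lam X.D) := by
    rw [rpow_eq hD0 hD1]
    calc Par_504.X 0 (-(100 * (m + 1) * (a + 1))) (Lam X.D) * X.D =
        Par_504.X 0 (-(100 * (m + 1) * (a + 1))) (Lam X.D) * Par_504.X (-1) 0 (Lam X.D) := by
          rw [← D_eq hD0]
      _ = _ := by rw [X_mul, hbb]; congr 1 <;> ring
  refine (H (k := X.k) (π := X.π) (κ := X.κ) (U := X.U) (Dd := X.Dd) (δ := X.δ) (D := X.D)
    (g := w0.θ) (g1 := w0.θ') (g2 := w2) (lmin := Real.log (s0Of m a X.D))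
    (lmax := Real.log (stOf m a X.D))
    (gm := fun _ => Lam X.D ^ (-(100 * (m + 1) * (a + 1))) * X.D) hX.cls hδ0
    (hδX.trans (by linarith)) ?_ prof0 w0_low1 ?_ ?_ ?_).anti
    (closedBall_subset_closedBall (by norm_num))
  · calc X.D = Par_504.X (-1) 0 (Lam X.D) := D_eq hD0
      _ ≤ c := by linarith
  · rw [Real.exp_log hs0, sqrt_D_eq hD0, s0Of_eq hD0 hD1]
    exact e3
  · rw [Real.exp_log hst, stOf_eq hD0 hD1]
    linarith
  · intro l _ hl2
    have h1 : Real.exp l ≤ stOf m a X.D := by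
      rw [← Real.exp_log hst]; exact Real.exp_le_exp.2 hl2
    have h2 : Real.exp l ^ 2 ≤ stOf m a X.D ^ 2 := pow_le_pow_left₀ (Real.exp_pos l).le h1 2
    have h3 : X.D * stOf m a X.D ^ 2 = Par_504.X (-1) (-(2 * bb m a)) (Lam X.D) := by
      rw [stOf_eq hD0 hD1, X_pow]
      calc X.D * Par_504.X ((2 : ℕ) * 0) ((2 : ℕ) * -bb m a) (Lam X.D) =
          Par_504.X (-1) 0 (Lam X.D) * Par_504.X ((2 : ℕ) * 0) ((2 : ℕ) * -bb m a) (Lam X.D) := by
            rw [← D_eq hD0]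
        _ = _ := by
            rw [X_mul]
            congr 1 <;> push_cast <;> ring
    calc X.δ * X.D * Real.exp l ^ 2 ≤ 1 * X.D * stOf m a X.D ^ 2 := by gcongr
      _ = 1 * Par_504.X (-1) (-(2 * bb m a)) (Lam X.D) := by rw [← h3]; ring
      _ ≤ η * Par_504.X (-1) (-bb m a) (Lam X.D) := e5
      _ = _ := by rw [hbD]

end Crest.Agent.R234.Thin_561
end
end

-- ▼ part R234/Shp11_98
section

/-!
# Row 234 (helper98): `PY` at the top of the window is tiny, in the class `Cls`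
-/

set_option autoImplicit false

open MeasureTheory Set Function Filter Topology Metric
open Crest.GeometryTopology.Submanifold
open Crest.Agent.R234.Vf_884 Crest.Agent.R234.Ar_870 Crest.Agent.R234.Cy_870
open Crest.Agent.R234.Pot_425 Crest.Agent.R234.Rep_387 Crest.Agent.R234.Raw_387
open Crest.Agent.R234.Asl_214 Crest.Agent.R234.Avg_387 Crest.Agent.R234.Core_809
open scoped ENNReal NNReal InnerProductSpace

noncomputable section

namespace Crest.Agent.R234.Shp_98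

open Par_504 (X X_nonneg X_pos X_pow X_div X_mul ev_le ev_le')

/-- **the field `PT` of `At`** in the class: `PY (7 δ) ≤ c Λ^-c' D` at scales `e^l ≤ Ct Λ^-b`,
`m a + c' < 2 b` -/
theorem pt_cls (m Q : ℕ) (hm : 1 ≤ m) (w : Wt) {g2 : ℝ → ℝ} (hg : Prof w.θ w.θ' g2)
    {a b c' Ct c : ℝ} (ha : 0 ≤ a) (hb : 0 < b) (hab : m * a + c' < 2 * b)
    (hc : 0 < c) :
    ∃ Λ₀ : ℝ, 1 ≤ Λ₀ ∧ ∀ {n k : ℕ} {π : Euc k →L[ℝ] Euc m} {κ : Euc k →L[ℝ] Euc n}
    {U : Set (Euc k)} {Dd : VarifoldData m k} {δ D : ℝ}, Cls Q δ D π κ U Dd → 0 < D → D < 1 →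
    Λ₀ ≤ Lam D → 0 ≤ δ → δ ≤ 1 / 16 → ∀ (x : Euc m) (l : ℝ), ‖x‖ ≤ 2 →
    √D ≤ Real.exp l → Real.exp l ≤ Ct * Lam D ^ (-b) →
      PY (7 * δ) (part π κ Dd) π κ (tauOf a D) w x l ≤ c * (Lam D ^ (-c') * D) := by
  obtain ⟨C, hC, hen⟩ := Crs_173.energy m (Ins_387.C0_nonneg m Q)
  obtain ⟨Kg, hKg0, hKb⟩ := exists_Bd hg.k0
  have hKg : ∀ t, 0 ≤ t → w.θ t ≤ Kg := fun t ht => (le_abs_self _).trans (hKb.b0 t ht)
  have hm1 : (1 : ℝ) ≤ m := by exact_mod_cast hm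
  have hMd : 0 ≤ Md m := (Md_pos (by lia)).le
  have hψ : 0 ≤ ∫ y : Euc m, w.psi y := integral_nonneg fun y => w.psi_nonneg y
  set P0 : ℝ := Kg * Md m with hP0
  set P1 : ℝ := (m - 1) / 2 * ((∫ y : Euc m, w.psi y) * (m * (1 + m / 2))) * 4 ^ m with hP1
  have hP00 : 0 ≤ P0 := mul_nonneg hKg0 hMd
  have hP10 : 0 ≤ P1 := by
    have : (0 : ℝ) ≤ m - 1 := by linarith
    positivity
  -- conditions on `Λ`
  have ev1 : ∀ᶠ Λ : ℝ in atTop, Ct * X 0 (-b) Λ ≤ 1 / 4 :=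
    Par_504.ev_small Ct (by norm_num) (Or.inr ⟨rfl, by linarith⟩)
  have ev2 : ∀ᶠ Λ : ℝ in atTop, 1 * X (-1 / 2) 0 Λ ≤ 1 / 4 :=
    Par_504.ev_small 1 (by norm_num) (Or.inl (by norm_num))
  have ev3 : ∀ᶠ Λ : ℝ in atTop, (14 * C * Ct ^ 2 * (P0 + P1)) * X (-1) (m * a - 2 * b) Λ ≤
      c * X (-1) (-c') Λ := ev_le' _ hc (Or.inr ⟨rfl, by linarith⟩)
  obtain ⟨Λ₀, hΛ₀⟩ := eventually_atTop.1 (ev1.and (ev2.and ev3))
  refine ⟨max Λ₀ 1, le_max_right _ _, ?_⟩
  intro n k π κ U Dd δ D hcl hD hD1 hΛ hδ hδ1 x l hx hl1 hl2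
  obtain ⟨h1, h2, h3⟩ := hΛ₀ (Lam D) ((le_max_left _ _).trans hΛ)
  have hΛ1 : 1 ≤ Lam D := (le_max_right _ _).trans hΛ
  have hΛ0 : 0 < Lam D := by linarith
  have hDX : D = X (-1) 0 (Lam D) := Par_504.D_eq_X hD
  have hsD : √D = X (-1 / 2) 0 (Lam D) := Par_504.sqrt_D_eq_X hD
  rw [one_mul, ← hsD] at h2
  have hl3 : Real.exp l ≤ 1 / 4 := by
    rw [Par_504.rpow_eq_X hΛ0] at hl2
    exact hl2.trans h1
  have hcy := Ins_387.cylAS hcl hD1
  have hτ : 0 < tauOf a D := by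
    unfold tauOf hOf
    have := Real.sqrt_pos.2 hD
    have := Real.rpow_pos_of_pos hΛ0 (-a)
    positivity
  have hAτ : 4 * Lam D ^ a * tauOf a D = √D := by
    unfold tauOf hOf
    have e : Lam D ^ a * Lam D ^ (-a) = 1 := by
      rw [← Real.rpow_add hΛ0, add_neg_cancel, Real.rpow_zero]
    calc 4 * Lam D ^ a * (√D * Lam D ^ (-a) / 4) = √D * (Lam D ^ a * Lam D ^ (-a)) := by ring
      _ = √D := by rw [e, mul_one]
  have hA1 : 1 ≤ Lam D ^ a := Real.one_le_rpow hΛ1 ha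
  have hτ1 : tauOf a D ≤ 1 / 4 := by
    have h5 : tauOf a D ≤ 4 * Lam D ^ a * tauOf a D := by
      have : 1 ≤ 4 * Lam D ^ a := by linarith
      nlinarith
    linarith
  have hff := ff_of_cylAS hcy
  have key := Shp3_98.PY_le (x := x) (w := w) (δ := 7 * δ) (l := l) (M := C) (A := 4 * Lam D ^ a)
    (r₁ := √D) (r₂ := 1 / 4) hm hff hcy.hgt hτ hg hKg (by positivity) (by linarith) hl1 hl3
    (by rw [hAτ]) (by rw [hAτ]; exact h2) (fun y hy r hr1 hr2 => by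
      have hr0 : 0 < r := lt_of_lt_of_le (Real.sqrt_pos.2 hD) hr1
      refine (hen hcy (fun z r hr _ => Ins_387.ubd hcl hm z hr) hδ hδ1 y ?_ r hr0 hr1 hr2).1
      rw [mem_closedBall_zero_iff]
      have h5 := norm_add_le (y - x) x
      rw [sub_add_cancel] at h5
      linarith)
  refine key.trans ?_
  rw [Real.sq_sqrt hD.le]
  have e2 : Real.exp (2 * l) ≤ Ct ^ 2 * X 0 (-(2 * b)) (Lam D) := by
    have e3 : Real.exp (2 * l) = Real.exp l ^ 2 := by
      rw [← Real.exp_nat_mul]; norm_num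
    rw [e3]
    have e4 := pow_le_pow_left₀ (Real.exp_pos l).le hl2 2
    refine e4.trans (le_of_eq ?_)
    rw [mul_pow, Par_504.rpow_eq_X hΛ0, X_pow]
    congr 2 <;> push_cast <;> ring
  have e5 : (4 * Lam D ^ a) ^ m = 4 ^ m * X 0 (m * a) (Lam D) := by
    rw [mul_pow, Par_504.rpow_eq_X hΛ0, X_pow, mul_zero]
  have e6 : (1 : ℝ) ≤ X 0 (m * a) (Lam D) := by
    rw [← Par_504.rpow_eq_X hΛ0]
    exact Real.one_le_rpow hΛ1 (by positivity)
  have e7 : Kg * Md m + (m - 1) / 2 * ((∫ y : Euc m, w.psi y) *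
      (m * (1 + m / 2) * (4 * Lam D ^ a) ^ m)) ≤ (P0 + P1) * X 0 (m * a) (Lam D) := by
    rw [e5]
    have e8 : P0 ≤ P0 * X 0 (m * a) (Lam D) := le_mul_of_one_le_right hP00 e6
    calc _ = P0 + P1 * X 0 (m * a) (Lam D) := by rw [hP0, hP1]; ring
      _ ≤ P0 * X 0 (m * a) (Lam D) + P1 * X 0 (m * a) (Lam D) := by linarith
      _ = _ := by ring
  have hX1 := X_nonneg 0 (m * a) (Lam D)
  have hX2 := X_nonneg 0 (-(2 * b)) (Lam D)
  have e9 : D * (X 0 (-(2 * b)) (Lam D) * X 0 (m * a) (Lam D)) =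
      X (-1) (m * a - 2 * b) (Lam D) := by
    have e0 : X (-1) 0 (Lam D) * (X 0 (-(2 * b)) (Lam D) * X 0 (m * a) (Lam D)) =
        X (-1) (m * a - 2 * b) (Lam D) := by
      rw [X_mul, X_mul]
      congr 1 <;> ring
    rwa [← hDX] at e0
  have e10 : Lam D ^ (-c') * D = X (-1) (-c') (Lam D) := by
    have e0 : X 0 (-c') (Lam D) * X (-1) 0 (Lam D) = X (-1) (-c') (Lam D) := by
      rw [X_mul]
      congr 1 <;> ring
    rwa [← hDX, ← Par_504.rpow_eq_X hΛ0] at e0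
  rw [e10]
  refine le_trans ?_ h3
  calc 2 * (7 * δ) * (D * C * Real.exp (2 * l) * (Kg * Md m + (m - 1) / 2 *
        ((∫ y : Euc m, w.psi y) * (m * (1 + m / 2) * (4 * Lam D ^ a) ^ m))))
      ≤ 2 * (7 * 1) * (D * C * (Ct ^ 2 * X 0 (-(2 * b)) (Lam D)) *
        ((P0 + P1) * X 0 (m * a) (Lam D))) := by
        have hq0 : 0 ≤ Kg * Md m + (m - 1) / 2 * ((∫ y : Euc m, w.psi y) *
          (m * (1 + m / 2) * (4 * Lam D ^ a) ^ m)) := by
          have : (0 : ℝ) ≤ m - 1 := by linarith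
          positivity
        have hδ' : δ ≤ 1 := by linarith
        have hC0 : 0 ≤ C := by linarith
        gcongr
    _ = 14 * C * Ct ^ 2 * (P0 + P1) *
        (D * (X 0 (-(2 * b)) (Lam D) * X 0 (m * a) (Lam D))) := by ring
    _ = _ := by rw [e9]

end Crest.Agent.R234.Shp_98
end
end

-- ▼ part R234/Nti1_309
section

/-!
Row 234, NTHIN-INST (helper309), file 1: common facts for the instances NTHIN and NLOC
(561 #8600 (A), (B), (C)) at a contact situation `X : Sit m n a`.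

`Cx Q K cS A C X` : 387's `OkAS`, `AtAS` for `X` on `[log s0 - 4, log st + 5]`; `exists_cx`.
-/

set_option autoImplicit false

open MeasureTheory Set Function Filter Topology Metric
open Crest.GeometryTopology.Submanifold
open Crest.Agent.R234.Vf_884 Crest.Agent.R234.Ar_870 Crest.Agent.R234.Cy_870
open Crest.Agent.R234.Pot_425 Crest.Agent.R234.Avg_387 Crest.Agent.R234.Rep_387
open Crest.Agent.R234.Raw_387 Crest.Agent.R234.N0_309 Crest.Agent.R234.Asl_214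
open Crest.Agent.R234.Core_809 Crest.Agent.R234.Fld_387
open Crest.Agent.R234.N5_372 (eM)
open scoped ENNReal NNReal

noncomputable section

namespace Crest.Agent.R234.Nti_309

variable {m n : ℕ} {a : ℝ} {Q : ℕ} {K cS A C : ℝ} {X : Sit m n a}

/-- **a contact situation with its constants** `A`, `C` -/
structure Cx (Q : ℕ) (K cS A C : ℝ) {m n : ℕ} {a : ℝ} (X : Sit m n a) : Prop where
  sit : IsSit Q K cS X
  Λ1 : 1 ≤ Lam X.D
  δ1 : X.δ ≤ Lam X.D ^ (-1 : ℝ)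
  ds1 : X.ds ≤ 1
  m2 : 2 ≤ m
  a1 : 1 ≤ a
  A1 : 1 ≤ A
  Am : Real.exp ((m:ℝ) - 2) ≤ A
  C1 : 1 ≤ C
  ok : (daOf X Q K cS X.ds).OkAS 4 (√X.D) X.δ (1 / 3) 4 12 w2
  D0 : 0 < D0f m cS a X.D
  sc : Real.log (s0Of m a X.D) ≤ Real.log (stOf m a X.D)
  at' : ∀ x ∈ X.Z, (daOf X Q K cS X.ds).AtAS A (D0f m cS a X.D)
    (Real.log (s0Of m a X.D) - 4) (Real.log (stOf m a X.D) + 5) X.δ (√X.D) 12
    (Real.exp (-Real.log (Lam X.D))) (Lam X.D ^ (2 : ℝ) * X.D) (fun _ => C * X.D) (fun _ => C) x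

theorem Lam_ge_one {L : ℝ} (hL : 0 ≤ L) {D : ℝ} (hD : 0 < D) (hD1 : D < 1)
    (h : L ≤ Real.log (Lam D)) : 1 ≤ Lam D := by
  have h1 := Fld_387.Lam_pos hD hD1
  have h2 : Real.log 1 ≤ Real.log (Lam D) := by rw [Real.log_one]; linarith
  exact (Real.log_le_log_iff one_pos h1).1 h2

theorem exists_cx (m n Q : ℕ) (hm : 2 ≤ m) {K cS a : ℝ} (hK : 9 ≤ K) (hcS : 0 < cS)
    (ha : 1 ≤ a) : ∃ A C l0 : ℝ, 1 ≤ A ∧ 1 ≤ C ∧ 0 ≤ l0 ∧ ∀ X : Sit m n a, IsSit Q K cS X →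
      l0 ≤ Real.log (Lam X.D) → Cx Q K cS A C X := by
  obtain ⟨A, C, l0, hA1, hAm, hC, hl0, h⟩ := exists_at m n Q hm hK hcS (exps m ha)
  obtain ⟨l1, hl1⟩ := Par_504.ev_ds ha (c := 1) one_pos
  refine ⟨A, C, max l0 l1, hA1, hC, hl0.trans (le_max_left _ _), fun X hX hl => ?_⟩
  have hD := hX.D0
  have hD1 := hX.D1
  have h0 : l0 ≤ Real.log (Lam X.D) := (le_max_left _ _).trans hl
  have hΛ1 : 1 ≤ Lam X.D := Lam_ge_one hl0 hD hD1 h0
  have hΛ0 : 0 < Lam X.D := by linarith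
  have hδ1 : X.δ ≤ Lam X.D ^ (-1 : ℝ) :=
    hX.δ1.trans (Real.rpow_le_rpow_of_exponent_le hΛ1 (by norm_num))
  have hds1 : X.ds ≤ 1 := hl1 X.D X.δ hD hD1 ((le_max_right _ _).trans hl) hX.δ1
  have e1 : 7 * Lam X.D ^ (-a) ≤ X.ds := by
    change 7 * Lam X.D ^ (-a) ≤ 7 * max X.δ (Lam X.D ^ (-a))
    have := le_max_right X.δ (Lam X.D ^ (-a))
    linarith
  have e2 : 7 * X.δ ≤ X.ds := by
    change 7 * X.δ ≤ 7 * max X.δ (Lam X.D ^ (-a))
    have := le_max_left X.δ (Lam X.D ^ (-a))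
    linarith
  obtain ⟨hok, hD0, hsc, hat⟩ := h X hX.cls hD hD1 hX.δ0 hδ1 X.ds _ e1 e2 hds1 hX.out h0
  exact ⟨hX, hΛ1, hδ1, hds1, hm, ha, hA1, hAm, hC, hok, hD0, hsc, fun x hx => (hat x hx).1⟩

namespace Cx

variable {x : Euc m} {l s t : ℝ}

theorem hD (h : Cx Q K cS A C X) : 0 < X.D := h.sit.D0

theorem s0p (h : Cx Q K cS A C X) : 0 < s0Of m a X.D := Par_504.s0Of_pos h.sit.D0 h.sit.D1

theorem stp (h : Cx Q K cS A C X) : 0 < stOf m a X.D := Par_504.stOf_pos h.sit.D0 h.sit.D1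

theorem τp (h : Cx Q K cS A C X) : 0 < tauOf a X.D := Par_504.tauOf_pos h.sit.D0 h.sit.D1

theorem dsp (_h : Cx Q K cS A C X) : 0 < X.ds := Par_504.dsOf_pos _h.sit.D0 _h.sit.D1


/-- the centre as 387's `Ctr` -/
theorem ctr (h : Cx Q K cS A C X) (hx : x ∈ X.Z) :
    Ctr m K X.ds (4 / (1 / 3)) A (D0f m cS a X.D) (Real.log (s0Of m a X.D) - 4)
      (Real.log (stOf m a X.D) + 5) (X.aE Q x) (X.ae x) (X.aet x) (X.ab Q x) (X.ag Q cS x)
      (X.aR x) (X.af x) (X.ap x) (X.aP x) (X.aB Q K cS x) :=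
  (h.at' x hx).ctr h.ok h.Am h.D0 (by linarith [h.sc])

theorem aR_le_sR (h : Cx Q K cS A C X) (hx : x ∈ X.Z) (hl : l ≤ Real.log (stOf m a X.D) + 5) :
    X.aR x l ≤ X.sR Q K cS x l :=
  (h.ctr hx).raw.R_le_Rs (by linarith [h.ok.K9, show (daOf X Q K cS X.ds).K = K from rfl]) hl


theorem ae_le_se (h : Cx Q K cS A C X) (hx : x ∈ X.Z) (hl : l ≤ Real.log (stOf m a X.D) + 5) :
    X.ae x l ≤ X.se Q K cS x l := (h.ctr hx).raw.e_le_es hl

theorem ae_mono (h : Cx Q K cS A C X) (hx : x ∈ X.Z) (hst : s ≤ t)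
    (ht : t ≤ Real.log (stOf m a X.D) + 5) :
    X.ae x s ≤ Real.exp ((m - 2) * (t - s)) * X.ae x t := (h.ctr hx).ce s t hst ht

theorem se_mono (h : Cx Q K cS A C X) (hx : x ∈ X.Z) (hst : s ≤ t)
    (ht : t ≤ Real.log (stOf m a X.D) + 5) :
    X.se Q K cS x s ≤ Real.exp ((m - 2) * (t - s)) * X.se Q K cS x t := (h.ctr hx).qm hst ht

theorem D0_le_se (h : Cx Q K cS A C X) (hx : x ∈ X.Z) (h1 : Real.log (s0Of m a X.D) - 3 ≤ l)
    (h2 : l ≤ Real.log (stOf m a X.D) + 5) : D0f m cS a X.D / A ≤ X.se Q K cS x l :=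
  (h.ctr hx).le_es (by linarith) h2

theorem se_pos (h : Cx Q K cS A C X) (hx : x ∈ X.Z) (h1 : Real.log (s0Of m a X.D) - 3 ≤ l)
    (h2 : l ≤ Real.log (stOf m a X.D) + 5) : 0 < X.se Q K cS x l :=
  (h.ctr hx).epos (by linarith) h2

/-- `sE ≤ CE se(l + 4)`, `CE = A e^(3(m-2))` -/
theorem sE_le_se (h : Cx Q K cS A C X) (hx : x ∈ X.Z) (h1 : Real.log (s0Of m a X.D) - 4 ≤ l)
    (h2 : l + 4 ≤ Real.log (stOf m a X.D) + 5) :
    X.sE Q K x l ≤ A * Real.exp ((m - 2) * 3) * X.se Q K cS x (l + 4) := by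
  have h3 := (h.ctr hx).eb h1 (by linarith : l + 1 ≤ Real.log (stOf m a X.D) + 5)
  have h4 := h.se_mono hx (by linarith : l + 1 ≤ l + 4) h2
  have e1 : ((m:ℝ) - 2) * (l + 4 - (l + 1)) = (m - 2) * 3 := by ring
  rw [e1] at h4
  have h5 := mul_le_mul_of_nonneg_left h4 (by linarith [h.A1] : 0 ≤ A)
  refine h3.trans (h5.trans (le_of_eq ?_))
  ring

/-- the norm of the centres -/
theorem nrm (h : Cx Q K cS A C X) (hx : x ∈ X.Z) :
    ‖x‖ + Real.exp 5 * stOf m a X.D + 2 * tauOf a X.D ≤ 1 := by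
  have h1 := (h.at' x hx).hT
  rw [Real.exp_add, Real.exp_log h.stp] at h1
  have h2 : (daOf X Q K cS X.ds).τ = tauOf a X.D := rfl
  rw [h2] at h1
  linarith

theorem nrm1 (h : Cx Q K cS A C X) (hx : x ∈ X.Z) : ‖x‖ ≤ 1 := by
  have h1 := h.nrm hx
  have h2 := h.τp
  have h3 := h.stp
  have h4 : 0 < Real.exp 5 * stOf m a X.D := by positivity
  linarith

/-- scaled mass over the balls `B_(e^l)(y)`, `y` in the averaging ball -/
theorem mb_le (h : Cx Q K cS A C X) (hx : x ∈ X.Z) {y : Euc m}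
    (hy : y ∈ closedBall x (tauOf a X.D)) (h1 : Real.log (s0Of m a X.D) - 4 ≤ l)
    (h2 : l ≤ Real.log (stOf m a X.D) + 5) : mb X.V X.π y l ≤ C :=
  (h.at' x hx).hmb l ⟨h1, h2⟩ y hy


end Cx

/-- **(A) of 561 #8600** -/
theorem Cx.avs (h : Cx Q K cS A C X) (hs : tauOf a X.D ≤ s0Of m a X.D / 2) :
    Thin_561.AvS X.V X.π X.κ 0 4 (√X.D) X.δ (dd m (tauOf a X.D)) (tauOf a X.D) w0.θ w0.θ' w2
      4 (81 / 256) (27 / 16) (Md m) X.Z (Real.log (Lam X.D)) (TOf m a X.D)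
      (s0Of m a X.D / 2) where
  as := h.ok.cyl
  δ0 := h.sit.δ0
  cw := cw_dd h.τp
  Mdw := integral_dd h.τp
  pr := prof0
  bK t ht := by
    have h1 := (w0_up ht).1
    rwa [abs_of_nonneg (Prof.nonneg prof0 t ht)]
  bK1 t ht := by
    have h1 := (w0_up ht).2
    have h2 := prof0.anti t ht
    rw [abs_of_nonpos h2]
    exact h1
  bc t h0 h1 := by
    have h2 : max (1 - t) 0 = 1 - t := max_eq_left (by linarith)
    have h3 : (3 / 4 : ℝ) ≤ 1 - t := by linarith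
    change 81 / 256 ≤ (max (1 - t) 0) ^ 4
    rw [h2]
    have h4 := pow_le_pow_left₀ (by norm_num : (0:ℝ) ≤ 3 / 4) h3 4
    norm_num at h4 ⊢
    exact h4
  bc1 t h0 h1 := by
    have h2 : max (1 - t) 0 = 1 - t := max_eq_left (by linarith)
    have h3 : (3 / 4 : ℝ) ≤ 1 - t := by linarith
    change 27 / 16 ≤ -(-(4 * (max (1 - t) 0) ^ 3))
    rw [h2]
    have h5 := pow_le_pow_left₀ (by norm_num : (0:ℝ) ≤ 3 / 4) h3 3
    norm_num at h5 ⊢
    linarith
  r0p := by linarith [h.s0p]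
  τr := by
    rw [Real.exp_log (by linarith [h.Λ1])]
    have h1 := h.Λ1
    have h2 : s0Of m a X.D / 2 * 1 ≤ s0Of m a X.D / 2 * Lam X.D :=
      mul_le_mul_of_nonneg_left h1 (by linarith [h.s0p])
    linarith
  rng x hx := by
    have h1 := h.nrm hx
    have h2 : 2 * (s0Of m a X.D / 2) * Real.exp (TOf m a X.D) = stOf m a X.D := by
      have h3 := Par_504.exp_log_s0Of_add_T (m := m) (a := a) h.sit.D0 h.sit.D1
      rw [Real.exp_add, Real.exp_log h.s0p] at h3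
      linarith
    rw [h2, sub_zero]
    have h4 := h.τp
    have h5 := h.stp
    have h6 : stOf m a X.D ≤ Real.exp 5 * stOf m a X.D := by
      have h7 : (1:ℝ) ≤ Real.exp 5 := Real.one_le_exp (by norm_num)
      have := mul_le_mul_of_nonneg_right h7 h5.le
      linarith
    linarith
  top := by
    have h2 : 2 * (s0Of m a X.D / 2) * Real.exp (TOf m a X.D) = stOf m a X.D := by
      have h3 := Par_504.exp_log_s0Of_add_T (m := m) (a := a) h.sit.D0 h.sit.D1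
      rw [Real.exp_add, Real.exp_log h.s0p] at h3
      linarith
    rw [h2]
    unfold stOf
    refine Real.rpow_le_one_of_one_le_of_nonpos h.Λ1 ?_
    have h3 : (0:ℝ) ≤ m := Nat.cast_nonneg m
    have h4 : 0 ≤ a + 1 := by linarith [h.a1]
    have h5 : 0 ≤ 100 * ((m:ℝ) + 1) * (a + 1) := by positivity
    linarith

/-! ### numbers -/

open Par_504 (X_mul X_pow X_pos X_nonneg bb ev_le' ev_l)

theorem D0f_eq {D : ℝ} (hD : 0 < D) (hD1 : D < 1) :
    D0f m cS a D = cD m cS * Par_504.X (-1) (-((2 * m + 3) * a)) (Lam D) := by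
  have h1 := Par_504.Dmin_eq (m := m) (a := a) hD hD1
  unfold D0f
  rw [← h1]
  rfl

/-- a power of `Λ` below the lower bound of `se` -/
theorem exists_low (m : ℕ) {a cS A c' c : ℝ} (hm : 0 < m) (hcS : 0 < cS) (hA : 0 < A)
    (hc : 0 < c) (h : (2 * m + 3) * a < c') : ∃ l0 : ℝ, ∀ D : ℝ, 0 < D → D < 1 →
      l0 ≤ Real.log (Lam D) → Lam D ^ (-c') * D ≤ c * (D0f m cS a D / A) := by
  have hcD := cD_pos hm hcS
  obtain ⟨l0, hl0⟩ := ev_l (ev_le' 1 (c := c * (cD m cS / A)) (by positivity)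
    (show Par_504.Lt (-1) (-c') (-1) (-((2 * m + 3) * a)) from Or.inr ⟨rfl, by linarith⟩))
  refine ⟨l0, fun D hD hD1 hl => ?_⟩
  have h1 := hl0 D hD hD1 hl
  rw [D0f_eq hD hD1, Par_504.rpow_eq hD hD1]
  have h2 : Par_504.X 0 (-c') (Lam D) * D = Par_504.X (-1) (-c') (Lam D) := by
    calc _ = Par_504.X 0 (-c') (Lam D) * Par_504.X (-1) 0 (Lam D) := by
          rw [← Par_504.D_eq hD]
      _ = _ := by rw [X_mul]; congr 1 <;> ring
  rw [h2]
  calc Par_504.X (-1) (-c') (Lam D) = 1 * Par_504.X (-1) (-c') (Lam D) := (one_mul _).symm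
    _ ≤ _ := h1
    _ = _ := by ring

/-- **`sE ≤ aE + ω se (l + 4)`** -/
theorem exists_sE (m n Q : ℕ) (hm : 2 ≤ m) {K cS a A C ω : ℝ} (hK : 0 ≤ K) (hcS : 0 < cS)
    (ha : 1 ≤ a) (hA : 1 ≤ A) (hω : 0 < ω) : ∃ l0 : ℝ, ∀ X : Sit m n a, Cx Q K cS A C X →
      l0 ≤ Real.log (Lam X.D) → ∀ x ∈ X.Z, ∀ l, Real.log (s0Of m a X.D) - 4 ≤ l →
        l + 4 ≤ Real.log (stOf m a X.D) + 5 →
        X.sE Q K x l ≤ X.aE Q x l + ω * X.se Q K cS x (l + 4) := by
  have hm0 : 0 < m := by lia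
  have hmR : (0:ℝ) ≤ m := Nat.cast_nonneg m
  have hcD := cD_pos hm0 hcS
  have ha0 : 0 ≤ a := by linarith
  have hma : 0 ≤ (m:ℝ) * a := by positivity
  -- the choice of `ds`
  set E4 : ℝ := Real.exp ((m - 2) * 4) with hE4
  have hE40 : 0 < E4 := Real.exp_pos _
  obtain ⟨l1, hl1⟩ := Par_504.ev_ds ha (c := ω / (2 * (K + 1) * E4)) (by positivity)
  -- the choice for `P`
  obtain ⟨Λ₁, hΛ₁, hP⟩ := Shp_98.pt_cls m Q (by lia) w0 prof0 (a := a)
    (b := 100 * (m + 1) * (a + 1)) (c' := (2 * m + 3) * a) (Ct := Real.exp 5)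
    (c := ω / 2 * (cD m cS / A)) ha0 (by positivity) (by nlinarith) (by positivity)
  obtain ⟨l2, hl2⟩ := Par_504.ev_scales' m ha (Real.exp 4)
  refine ⟨max (max l1 l2) (max (Real.log Λ₁) (Real.log 16)), fun X h hl x hx l h1 h2 => ?_⟩
  have hD := h.sit.D0
  have hD1 := h.sit.D1
  have hLp := Fld_387.Lam_pos hD hD1
  have hla : l1 ≤ Real.log (Lam X.D) := (le_max_left _ _).trans ((le_max_left _ _).trans hl)
  have hlb : l2 ≤ Real.log (Lam X.D) := (le_max_right _ _).trans ((le_max_left _ _).trans hl)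
  have hlc : Λ₁ ≤ Lam X.D := (Real.log_le_log_iff (by linarith) hLp).1
    ((le_max_left _ _).trans ((le_max_right _ _).trans hl))
  have hld : 16 ≤ Lam X.D := (Real.log_le_log_iff (by norm_num) hLp).1
    ((le_max_right _ _).trans ((le_max_right _ _).trans hl))
  have hds := hl1 X.D X.δ hD hD1 hla h.sit.δ1
  have hδ16 : X.δ ≤ 1 / 16 := by
    refine h.δ1.trans ?_
    rw [Real.rpow_neg_one, inv_le_comm₀ hLp (by norm_num)]
    linarith
  obtain ⟨-, s2, s3, -⟩ := hl2 X.D hD hD1 hlb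
  have hs : √X.D ≤ Real.exp l := by
    have e1 : Real.exp (Real.log (s0Of m a X.D) - 4) ≤ Real.exp l := Real.exp_le_exp.2 h1
    rw [sub_eq_add_neg, Real.exp_add, Real.exp_log h.s0p] at e1
    have e2 : (1:ℝ) ≤ Real.exp 4 := Real.one_le_exp (by norm_num)
    have e3 : 0 ≤ √X.D := Real.sqrt_nonneg _
    have e4 : √X.D ≤ tOf a X.D := by
      have := mul_le_mul_of_nonneg_right e2 e3
      linarith
    have e5 := mul_le_mul_of_nonneg_right s3 (Real.exp_pos (-4)).le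
    have e6 : Real.exp 4 * tOf a X.D * Real.exp (-4) = tOf a X.D := by
      rw [mul_right_comm, ← Real.exp_add, add_neg_cancel, Real.exp_zero, one_mul]
    rw [e6] at e5
    linarith
  have htop : Real.exp l ≤ Real.exp 5 * Lam X.D ^ (-(100 * ((m:ℝ) + 1) * (a + 1))) := by
    have e1 : l ≤ Real.log (stOf m a X.D) + 5 := by linarith
    have e2 := Real.exp_le_exp.2 e1
    rw [Real.exp_add, Real.exp_log h.stp] at e2
    have e3 : stOf m a X.D = Lam X.D ^ (-(100 * ((m:ℝ) + 1) * (a + 1))) := rfl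
    rw [← e3]
    linarith
  have hPl : X.aP x l ≤ ω / 2 * (cD m cS / A) * (Lam X.D ^ (-((2 * m + 3) * a)) * X.D) :=
    hP h.sit.cls hD hD1 hlc h.sit.δ0 hδ16 x l (by linarith [h.nrm1 hx]) hs htop
  have hse := h.D0_le_se hx (l := l + 4) (by linarith) h2
  have hse0 := h.se_pos hx (l := l + 4) (by linarith) h2
  have h3 : X.aP x l ≤ ω / 2 * X.se Q K cS x (l + 4) := by
    have e1 : ω / 2 * (cD m cS / A) * (Lam X.D ^ (-((2 * m + 3) * a)) * X.D) =
        ω / 2 * (D0f m cS a X.D / A) := by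
      unfold D0f
      ring
    rw [e1] at hPl
    exact hPl.trans (mul_le_mul_of_nonneg_left hse (by positivity))
  have h4 : K * X.ds * X.ae x l ≤ ω / 2 * X.se Q K cS x (l + 4) := by
    have e1 := h.ae_mono hx (by linarith : l ≤ l + 4) h2
    have e2 : ((m:ℝ) - 2) * (l + 4 - l) = (m - 2) * 4 := by ring
    rw [e2] at e1
    have e3 := h.ae_le_se hx h2
    have e4 := h.dsp
    have e5 : K * X.ds * E4 ≤ ω / 2 := by
      have e6 : X.ds ≤ ω / (2 * (K + 1) * E4) := hds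
      calc K * X.ds * E4 ≤ (K + 1) * (ω / (2 * (K + 1) * E4)) * E4 := by gcongr; linarith
        _ = ω / 2 := by field_simp
    calc K * X.ds * X.ae x l ≤ K * X.ds * (E4 * X.se Q K cS x (l + 4)) := by
          refine mul_le_mul_of_nonneg_left (e1.trans ?_) (by positivity)
          exact mul_le_mul_of_nonneg_left e3 hE40.le
      _ = K * X.ds * E4 * X.se Q K cS x (l + 4) := by ring
      _ ≤ _ := mul_le_mul_of_nonneg_right e5 hse0.le
  have h5 : X.sE Q K x l = X.aE Q x l + K * X.ds * X.ae x l + X.aP x l := rfl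
  rw [h5]
  linarith

theorem L0_add_TT' (h : Cx Q K cS A C X) :
    Thin_561.L0 X + Thin_561.TT' X = Real.log (stOf m a X.D) :=
  Par_504.log_s0Of_add_T h.sit.D0 h.sit.D1

/-- **(A), (B), (C) of 561: `FactsP`** -/
theorem factsP (m n Q : ℕ) (hm : 3 ≤ m) {K cS a : ℝ} (hK : 9 ≤ K) (hcS : 0 < cS)
    (ha : 1 ≤ a) : Thin_561.FactsP m n Q K cS a := by
  obtain ⟨A, C, l0, hA, hC, hl0, hcx⟩ := exists_cx m n Q (by lia) hK hcS ha
  have hmR : (3:ℝ) ≤ m := by exact_mod_cast hm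
  refine ⟨A * Real.exp ((m - 2) * 3), C, (2 * m + 3) * a + 1, by positivity, by linarith,
    by positivity, by nlinarith, fun om hom => ?_⟩
  obtain ⟨l1, hl1⟩ := exists_sE m n Q (by lia) (K := K) (C := C) (by linarith) hcS ha hA hom
  obtain ⟨l2, hl2⟩ := exists_low m (a := a) (cS := cS) (A := A) (c' := (2 * m + 3) * a + 1)
    (c := 1) (by lia) hcS (by linarith) one_pos (by linarith)
  obtain ⟨l3, hl3⟩ := Par_504.ev_scales' m ha 1
  refine ⟨max (max l0 l1) (max l2 l3), fun X hX hl => ?_⟩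
  have h := hcx X hX ((le_max_left _ _).trans ((le_max_left _ _).trans hl))
  have hD := hX.D0
  have hD1 := hX.D1
  have e1 := L0_add_TT' h
  have ell : 0 ≤ Thin_561.ll X := Real.log_nonneg h.Λ1
  have eL0 : Thin_561.L0 X = Real.log (s0Of m a X.D) := rfl
  obtain ⟨s1, s2, s3, -⟩ := hl3 X.D hD hD1 ((le_max_right _ _).trans ((le_max_right _ _).trans hl))
  have hτs : tauOf a X.D ≤ s0Of m a X.D / 2 := by
    have e2 : tauOf a X.D = hOf a X.D / 4 := rfl
    have e3 := Par_504.hOf_pos (a := a) hD hD1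
    linarith
  exact
    { avs := h.avs hτs
      aR := fun x hx l h1 h2 => h.aR_le_sR hx (by linarith)
      ae := fun x hx l h1 h2 => h.ae_le_se hx (by linarith)
      sE := fun x hx l h1 h2 => hl1 X h ((le_max_right _ _).trans ((le_max_left _ _).trans hl)) x
        hx l (by linarith) (by linarith)
      sE' := fun x hx l h1 h2 => h.sE_le_se hx (by linarith) (by linarith)
      sE0 := fun x hx l h1 h2 => (h.D0.le.trans ((h.ctr hx).U_pos (by linarith)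
        (by linarith))).trans ((h.ctr hx).UE (by linarith) (by linarith))
      low := fun x hx l h1 h2 => by
        have e2 := hl2 X.D hD hD1 ((le_max_left _ _).trans ((le_max_right _ _).trans hl))
        rw [one_mul] at e2
        exact e2.trans (h.D0_le_se hx (by linarith) (by linarith))
      mb := fun x hx l h1 h2 y hy => h.mb_le hx hy (by linarith) (by linarith)
      ball := fun x hx => mem_closedBall_zero_iff.2 (h.nrm1 hx) }

end Crest.Agent.R234.Nti_309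
end
end

-- ▼ part R234/Nti2_309
section

/-!
Row 234, NTHIN-INST (helper309), file 2: `NThin` from `FactsP` and `N5Sit`.
-/

set_option autoImplicit false

open MeasureTheory Set Function Filter Topology Metric
open Crest.GeometryTopology.Submanifold
open Crest.Agent.R234.Vf_884 Crest.Agent.R234.Ar_870 Crest.Agent.R234.Cy_870
open Crest.Agent.R234.Pot_425 Crest.Agent.R234.Avg_387
open Crest.Agent.R234.Asl_214
open Crest.Agent.R234.Core_809 Crest.Agent.R234.Thin_561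
open scoped ENNReal NNReal

noncomputable section

namespace Crest.Agent.R234.Nti_309

variable {m n : ℕ} {a : ℝ} {Q : ℕ} {K cS : ℝ} {X : Sit m n a}

/-- the mass over `BB` is `MB` -/
theorem BB_real {k : ℕ} (W : Measure (Euc k × L k)) (π : Euc k →L[ℝ] Euc m) (y : Euc m) (l : ℝ) :
    (W (BB π y l)).toReal = MB W π y (Real.exp l) := by
  have h1 : (BB π y l : Set (Euc k × L k)) = ovr π y (Real.exp l) := by
    ext p
    rw [norm_lt_of_BB]
    rfl
  rw [h1]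
  rfl

theorem MB_eq_mb {k : ℕ} (W : Measure (Euc k × L k)) (π : Euc k →L[ℝ] Euc m) (y : Euc m)
    (l : ℝ) : Real.exp ((2 - m) * l) * MB W π y (Real.exp l) = Real.exp l ^ 2 * mb W π y l := by
  unfold mb
  rw [← mul_assoc, ← Real.exp_nat_mul, ← Real.exp_add]
  congr 2
  push_cast
  ring

/-- a power of `Λ` beats a constant -/
theorem rpow_small {L c' b κ : ℝ} (hL : 1 ≤ L) (hκ : 0 < κ) (hL2 : 1 / κ ≤ L) (h : c' + 1 ≤ b) :
    L ^ (-b) ≤ κ * L ^ (-c') := by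
  have hL0 : 0 < L := by linarith
  have h1 : L ^ (-b) ≤ L ^ (-c' + -1) := Real.rpow_le_rpow_of_exponent_le hL (by linarith)
  rw [Real.rpow_add hL0, Real.rpow_neg_one] at h1
  have h2 : L⁻¹ ≤ κ := by
    rw [inv_le_comm₀ hL0 hκ]
    rwa [one_div] at hL2
  have h3 : 0 ≤ L ^ (-c') := Real.rpow_nonneg hL0.le _
  calc L ^ (-b) ≤ L ^ (-c') * L⁻¹ := h1
    _ ≤ L ^ (-c') * κ := mul_le_mul_of_nonneg_left h2 h3
    _ = _ := mul_comm _ _

set_option maxHeartbeats 1000000 in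
/-- **NTHIN** from the facts and N5 -/
theorem nThin_of (hm : 3 ≤ m) (ha : 1 ≤ a) (hF : FactsP m n Q K cS a)
    (hN : N5Sit m n Q K cS a) : NThin m n Q K cS a := by
  intro kf ω hω
  have hMd : 0 < Md m := Md_pos (by lia)
  obtain ⟨ω', hω', δ', hδ', H⟩ := hThin (m := m) (d := m - 2) (K := 4) (c := cg0) (c₁ := cg1)
    (M := Md m) (by unfold cg0; norm_num) (by unfold cg1; norm_num) hMd (by lia) kf hω
  obtain ⟨θ, hθ, hN⟩ := hN ω' hω'
  obtain ⟨η, hη, l1, hN⟩ := hN (3 * kf)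
  obtain ⟨η1, hη1, H⟩ := H η hη
  obtain ⟨CE, CM, c', hCE, hCM, hc', hcb, hF⟩ := hF
  obtain ⟨l2, hF⟩ := hF (ω / 4) (by positivity)
  have hCg : 0 < Cg (m - 2) cg0 (Md m) := by
    unfold Cg cg0
    positivity
  set κ : ℝ := ω / (8 * (24 * Md m * CM + 1)) with hκ
  have hκ0 : 0 < κ := by positivity
  refine ⟨η1, hη1, max (max l1 l2) (max (max 0 (Real.log (1 / Cg (m - 2) cg0 (Md m))))
    (max (Real.log (1 / κ)) (Real.log (1 / δ')))), fun X hX hl => ?_⟩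
  have hD := hX.D0
  have hD1 := hX.D1
  have hLp := Fld_387.Lam_pos hD hD1
  have hla : l1 ≤ Real.log (Lam X.D) := (le_max_left _ _).trans ((le_max_left _ _).trans hl)
  have hlb : l2 ≤ Real.log (Lam X.D) := (le_max_right _ _).trans ((le_max_left _ _).trans hl)
  have hlc : 0 ≤ Real.log (Lam X.D) :=
    (le_max_left _ _).trans ((le_max_left _ _).trans ((le_max_right _ _).trans hl))
  have hld : 1 / Cg (m - 2) cg0 (Md m) ≤ Lam X.D := (Real.log_le_log_iff (by positivity) hLp).1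
    ((le_max_right _ _).trans ((le_max_left _ _).trans ((le_max_right _ _).trans hl)))
  have hle : 1 / κ ≤ Lam X.D := (Real.log_le_log_iff (by positivity) hLp).1
    ((le_max_left _ _).trans ((le_max_right _ _).trans ((le_max_right _ _).trans hl)))
  have hlf : 1 / δ' ≤ Lam X.D := (Real.log_le_log_iff (by positivity) hLp).1
    ((le_max_right _ _).trans ((le_max_right _ _).trans ((le_max_right _ _).trans hl)))
  have hΛ1 : 1 ≤ Lam X.D := Lam_ge_one le_rfl hD hD1 hlc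
  have h := hF X hX hlb
  have hn5 := hN X hX hla
  have hδle : X.δ ≤ Lam X.D ^ (-1 : ℝ) :=
    hX.δ1.trans (Real.rpow_le_rpow_of_exponent_le hΛ1 (by norm_num))
  rw [Real.rpow_neg_one] at hδle
  have hδδ : X.δ ≤ δ' := by
    refine hδle.trans ?_
    rw [inv_le_comm₀ hLp hδ']
    rwa [one_div] at hlf
  have hδ1 : X.δ ≤ 1 := hδle.trans (inv_le_one_of_one_le₀ hΛ1)
  have hr : 2 * (s0Of m a X.D / 2) = s0Of m a X.D := by ring
  have hL0T : L0 X + TT' X = Real.log (stOf m a X.D) := Par_504.log_s0Of_add_T hD hD1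
  have eL : ∀ t, Real.log (2 * (X.cd Q K cS).r0) + t = L0 X + t := fun t => by
    change Real.log (2 * (s0Of m a X.D / 2)) + t = _
    rw [hr]
    rfl
  have hs0 := Par_504.s0Of_pos (m := m) (a := a) hD hD1
  have hst := Par_504.stOf_pos (m := m) (a := a) hD hD1
  have hsub : X.Z ⊆ closedBall (0 : Euc m) 2 := h.ball.trans (closedBall_subset_closedBall
    (by norm_num))
  refine H (τ := tauOf a X.D) (θ := θ) (Qn := Q) (X := closedBall 0 2)
    (lmin := Real.log (s0Of m a X.D)) (lmax := Real.log (stOf m a X.D))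
    (gm := fun _ => Lam X.D ^ (-(100 * (m + 1) * (a + 1))) * X.D) h.avs hn5 hsub ?_ ?_ hδδ
    ?_ ?_ ?_ ?_ ?_
  · rw [eL]
    change Real.log (s0Of m a X.D) ≤ Real.log (s0Of m a X.D) + Real.log (Lam X.D)
    linarith
  · rw [eL]
    exact hL0T.le
  · intro x hx t ht0 ht8
    rw [eL]
    have h1 := h.sE x hx (L0 X + t) (by linarith [show (ll X) ≤ t from ht0])
      (by linarith [show t + 8 ≤ TT' X from ht8])
    have e1 : L0 X + t + 4 = t + 4 + Real.log (s0Of m a X.D) := by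
      change Real.log (s0Of m a X.D) + t + 4 = _
      ring
    have e2 : (X.cd Q K cS).E x t = X.sE Q K x (L0 X + t) := by
      change X.sE Q K x (t + Real.log (s0Of m a X.D)) = X.sE Q K x (Real.log (s0Of m a X.D) + t)
      rw [add_comm]
    have e3 : (X.cd Q K cS).e x (t + 4) = X.se Q K cS x (L0 X + t + 4) := by
      rw [e1]
      rfl
    rw [e2, e3]
    exact h1
  · intro x hx t ht0 htT
    rw [eL]
    have h1 := h.aR x hx (L0 X + t) (by linarith [show (ll X) ≤ t from ht0])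
      (by linarith [show t ≤ TT' X from htT])
    have e2 : (X.cd Q K cS).R x t = X.sR Q K cS x (L0 X + t) := by
      change X.sR Q K cS x (t + Real.log (s0Of m a X.D)) =
        X.sR Q K cS x (Real.log (s0Of m a X.D) + t)
      rw [add_comm]
    rw [e2]
    exact h1
  · intro x hx t ht0 htT
    rw [eL]
    have h1 := h.ae x hx (L0 X + t) (by linarith [show (ll X) ≤ t from ht0])
      (by linarith [show t ≤ TT' X from htT])
    have e2 : (X.cd Q K cS).e x t = X.se Q K cS x (L0 X + t) := by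
      change X.se Q K cS x (t + Real.log (s0Of m a X.D)) =
        X.se Q K cS x (Real.log (s0Of m a X.D) + t)
      rw [add_comm]
    rw [e2]
    exact h1
  · intro x hx t ht0 ht8
    have h1 := h.low x hx (L0 X + (t + 4)) (by linarith [show (ll X) ≤ t from ht0])
      (by linarith [show t + 8 ≤ TT' X from ht8])
    have e2 : (X.cd Q K cS).e x (t + 4) = X.se Q K cS x (L0 X + (t + 4)) := by
      change X.se Q K cS x (t + 4 + Real.log (s0Of m a X.D)) =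
        X.se Q K cS x (Real.log (s0Of m a X.D) + (t + 4))
      rw [add_comm]
    rw [e2]
    have h2 := rpow_small hΛ1 hCg hld hcb
    calc Lam X.D ^ (-(100 * ((m:ℝ) + 1) * (a + 1))) * X.D ≤
        (Cg (m - 2) cg0 (Md m) * Lam X.D ^ (-c')) * X.D := mul_le_mul_of_nonneg_right h2 hD.le
      _ = Cg (m - 2) cg0 (Md m) * (Lam X.D ^ (-c') * X.D) := by ring
      _ ≤ _ := mul_le_mul_of_nonneg_left h1 hCg.le
  · intro x hx t ht0 ht8 y hy
    rw [eL]
    have h1 := h.low x hx (L0 X + (t + 4)) (by linarith [show (ll X) ≤ t from ht0])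
      (by linarith [show t + 8 ≤ TT' X from ht8])
    have e2 : (X.cd Q K cS).e x (t + 4) = X.se Q K cS x (L0 X + (t + 4)) := by
      change X.se Q K cS x (t + 4 + Real.log (s0Of m a X.D)) =
        X.se Q K cS x (Real.log (s0Of m a X.D) + (t + 4))
      rw [add_comm]
    rw [e2, BB_real, MB_eq_mb]
    have h2 := h.mb x hx (L0 X + t) (by linarith [show (ll X) ≤ t from ht0])
      (by linarith [show t + 8 ≤ TT' X from ht8]) y (by rwa [mem_closedBall_iff_norm])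
    have h3 : Real.exp (L0 X + t) ≤ stOf m a X.D := by
      rw [← Real.exp_log hst, ← hL0T]
      exact Real.exp_le_exp.2 (by linarith [show t + 8 ≤ TT' X from ht8])
    have hst1 : stOf m a X.D ≤ 1 := by
      have := h.avs.top
      have e3 : 2 * (s0Of m a X.D / 2) * Real.exp (TT' X) = stOf m a X.D := by
        have h5 := Par_504.exp_log_s0Of_add_T (m := m) (a := a) hD hD1
        rw [Real.exp_add, Real.exp_log hs0] at h5
        rw [hr]
        exact h5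
      rwa [e3] at this
    have h4 : Real.exp (L0 X + t) ^ 2 ≤ Lam X.D ^ (-(100 * ((m:ℝ) + 1) * (a + 1))) := by
      have e3 : stOf m a X.D = Lam X.D ^ (-(100 * ((m:ℝ) + 1) * (a + 1))) := rfl
      rw [← e3]
      calc Real.exp (L0 X + t) ^ 2 ≤ stOf m a X.D ^ 2 :=
            pow_le_pow_left₀ (Real.exp_pos _).le h3 2
        _ = stOf m a X.D * stOf m a X.D := by ring
        _ ≤ 1 * stOf m a X.D := mul_le_mul_of_nonneg_right hst1 hst.le
        _ = _ := one_mul _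
    have h5 := rpow_small hΛ1 hκ0 hle hcb
    have h6 : 0 ≤ Lam X.D ^ (-c') * X.D :=
      mul_nonneg (Real.rpow_nonneg hLp.le _) hD.le
    have h7 : √X.D ^ 2 = X.D := Real.sq_sqrt hD.le
    rw [h7]
    have h8 : Real.exp (L0 X + t) ^ 2 * mb X.V X.π y (L0 X + t) ≤
        (κ * Lam X.D ^ (-c')) * CM := mul_le_mul (h4.trans h5) h2 (mb_nonneg _ _)
          (mul_nonneg hκ0.le (Real.rpow_nonneg hLp.le _))
    have h9 : 0 ≤ Real.exp (L0 X + t) ^ 2 * mb X.V X.π y (L0 X + t) :=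
      mul_nonneg (by positivity) (mb_nonneg _ _)
    calc 6 * 4 * Md m * (X.δ * (X.D * (Real.exp (L0 X + t) ^ 2 * mb X.V X.π y (L0 X + t)))) ≤
        6 * 4 * Md m * (1 * (X.D * ((κ * Lam X.D ^ (-c')) * CM))) := by
          have := hX.δ0
          gcongr
      _ = (24 * Md m * CM * κ) * (Lam X.D ^ (-c') * X.D) := by ring
      _ ≤ (ω / 8) * (Lam X.D ^ (-c') * X.D) := by
          refine mul_le_mul_of_nonneg_right ?_ h6
          have e5 : (24 * Md m * CM + 1) * κ = ω / 8 := by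
            rw [hκ]
            field_simp
          have e6 : 24 * Md m * CM * κ = (24 * Md m * CM + 1) * κ - κ := by ring
          linarith
      _ ≤ _ := mul_le_mul_of_nonneg_left h1 (by positivity)

/-- **NTHIN** from N5 -/
theorem nThinP_of (hN : ∀ m n Q : ℕ, 3 ≤ m → 1 ≤ n → 1 ≤ Q → ∃ K0 : ℝ, ∀ K : ℝ, K0 ≤ K →
    ∀ cS a : ℝ, 0 < cS → 1 ≤ a → N5Sit m n Q K cS a) : NThinP := by
  intro m n Q hm hn hQ
  obtain ⟨K0, h⟩ := hN m n Q hm hn hQ
  exact ⟨max K0 9, fun K hK cS a hcS ha => nThin_of hm ha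
    (factsP m n Q hm ((le_max_right _ _).trans hK) hcS ha)
    (h K ((le_max_left _ _).trans hK) cS a hcS ha)⟩

end Crest.Agent.R234.Nti_309
end
end

-- ▼ part R234/Thv8_561
section

/-!
# Row 234 (helper561): the targets NTHIN and NLOC of the core

`nLocP : Core_809.NLocP`, `nThinP : Core_809.NThinP`.
-/

set_option autoImplicit false

noncomputable section

namespace Crest.Agent.R234.Thin_561

open Crest.Agent.R234.Core_809

/-- **NLOC** -/
theorem nLocP : NLocP := by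
  intro m n Q hm hn hQ
  exact ⟨9, fun K hK cS a hcS ha => nLoc_of hm ha (Nti_309.factsP m n Q hm hK hcS ha)
    (n5Sit (by omega) ha)⟩

/-- **NTHIN** -/
theorem nThinP : NThinP :=
  Nti_309.nThinP_of fun m n Q hm _ _ => ⟨0, fun K _ cS a _ ha => n5Sit (by omega) ha⟩

end Crest.Agent.R234.Thin_561
end
end

-- ▼ part R234/Well15_761
section

/-!
Row 234, VF-N8AV (helper761), file 15: **`Core_809.NNetP`**.
-/

set_option autoImplicit false

namespace Crest.Agent.R234.Well_761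

/-- **NNetP** : node N8 of the core, all parameters -/
theorem nNetP : Core_809.NNetP := fun m n Q hm _ hQ =>
  ⟨9, fun _ hK _ _ _ hcS ha hc1 => nnet m n Q hm hQ hK hcS ha hc1⟩

end Crest.Agent.R234.Well_761
end

-- ▼ part R234/Core7_809
section

/-!
# R234 / Core7_809 : `CoreProp` from `NRunP` (all other nodes are proved)
-/

set_option autoImplicit false

namespace Crest.Agent.R234.Core_809

/-- `CoreProp` from the node N9 (RUN) -/
theorem coreProp_of_nRun (hR : NRunP) : CoreProp :=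
  coreProp_of N0_309.n0Prop Fld_387.nBaseP Thin_561.nThinP Thin_561.nLocP Well_761.nNetP hR

end Crest.Agent.R234.Core_809
end

-- ▼ part R234/Rn5_870
section

/-!
# Row 234, N9-AV, part 5 (helper870): the numbers of `NRun`
-/

set_option autoImplicit false

open Filter Topology
open Crest.Agent.R234.Core_809
open Crest.Agent.R234.Par_504
open Crest.Agent.R234.Well_761 (etaC etaC_nonneg)

noncomputable section

namespace Crest.Agent.R234.Rn_870

theorem mul_Lam {D α β : ℝ} (h0 : 0 < D) (h1 : D < 1) :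
    X α β (Lam D) * Lam D = X α (β + 1) (Lam D) := by
  nth_rewrite 2 [self_eq_X (Par_504.Lam_pos h0 h1)]
  rw [X_mul, add_zero]

theorem beR_eq {m : ℕ} {a c D : ℝ} (h0 : 0 < D) (h1 : D < 1) (hc : 0 < c) :
    beR m a c D = 4 / √c * X 0 (-bb m a + (2 * m + 3) * a / 2) (Lam D) := by
  unfold beR
  rw [stOf_eq h0 h1, sqrt_D_eq h0, Dmin_eq h0 h1, Real.sqrt_mul hc.le, X_sqrt]
  have hs : 0 < √c := Real.sqrt_pos.2 hc
  have h2 : X 0 (-bb m a) (Lam D) * X (-1 / 2) 0 (Lam D) =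
      X 0 (-bb m a + (2 * m + 3) * a / 2) (Lam D) * X (-1 / 2) (-((2 * m + 3) * a) / 2) (Lam D) := by
    rw [X_mul, X_mul]
    congr 1
    ring
  have h3 := X_pos (-1 / 2) (-((2 * m + 3) * a) / 2) (Lam D)
  rw [mul_assoc 4, h2, ← mul_assoc, mul_div_mul_right _ _ h3.ne']
  exact mul_div_right_comm _ _ _

set_option maxHeartbeats 1000000 in
/-- **the numbers of NRUN** -/
theorem numRun (m : ℕ) {a : ℝ} (ha : 1 ≤ a) : NumRun m a := by
  intro C c M Cμ b η hC hc hc1 hM hCμ hb hη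
  have hm : (0:ℝ) ≤ m := Nat.cast_nonneg m
  obtain ⟨B, hB⟩ : ∃ B : ℝ, B = bb m a := ⟨_, rfl⟩
  obtain ⟨p, hp⟩ : ∃ p : ℝ, p = (2 * m + 3) * a := ⟨_, rfl⟩
  have hp0 : 0 ≤ p := by rw [hp]; positivity
  have hBp : p + 50 ≤ B := by
    rw [hB, hp]
    unfold bb
    nlinarith [mul_nonneg hm (by linarith : (0:ℝ) ≤ a)]
  have hsc : 0 < √c := Real.sqrt_pos.2 hc
  have hη0 := etaC_nonneg
  obtain ⟨G, hG⟩ : ∃ G : ℝ, G = 12 * (15 + etaC / 8) * Cμ := ⟨_, rfl⟩
  have hG0 : 0 ≤ G := by rw [hG]; positivity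
  obtain ⟨A, hA⟩ : ∃ A : ℝ, A = We_822.CAS 12 1 1 Cμ := ⟨_, rfl⟩
  have hA0 : 0 ≤ A := by
    rw [hA]
    exact We_822.CAS_nonneg (by norm_num) zero_le_one zero_le_one hCμ
  obtain ⟨l0, hl0⟩ := ev_l (
    (ev_le (64 / √c) (show Lt (1 / 2) (p / 2 - B) 1 0 from Or.inl (by norm_num))).and
    ((ev_le (M ^ 2 * C) (show Lt (-1) 2 (-1) (2 * B + 2) from Or.inr ⟨rfl, by linarith⟩)).and
    ((ev_le' (G * (4 / √c) ^ 2 * C) (show 0 < c / 3 by positivity)
      (show Lt (-1) (-4 + (2 * (-B + p / 2)) + 2) (-1) (-p) from Or.inr ⟨rfl, by linarith⟩)).and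
    ((ev_le' (G * 16 * C) (show 0 < c / 3 by positivity)
      (show Lt (-1) (-4 + (2 * -B) + 2) (-1) (-p) from Or.inr ⟨rfl, by linarith⟩)).and
    ((ev_le' (G * C) (show 0 < c / 3 by positivity)
      (show Lt (-2) (-2) (-1) (-p) from Or.inl (by norm_num))).and
    ((ev_small 4 one_pos (show Lt 0 (-3) 0 0 from Or.inr ⟨rfl, by norm_num⟩)).and
    ((ev_small A (show 0 < b / 2 by positivity) (show Lt 0 (-1) 0 0 from
      Or.inr ⟨rfl, by norm_num⟩)).and
    ((ev_small (A * (4 / √c)) (show 0 < b / 2 by positivity)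
      (show Lt 0 (-B + p / 2 + 1) 0 0 from Or.inr ⟨rfl, by linarith⟩)).and
    ((ev_small (3 * η) (show (0:ℝ) < 1 / 2 by norm_num)
      (show Lt (-1) (-3) 0 0 from Or.inl (by norm_num))).and
    ((ev_small 4 (show (0:ℝ) < 1 / 64 by norm_num)
      (show Lt 0 (-B) 0 0 from Or.inr ⟨rfl, by linarith⟩)).and
    ((ev_small 1 (show (0:ℝ) < 1 / 256 by norm_num)
      (show Lt (-1) 0 0 0 from Or.inl (by norm_num))).and
    ((eventually_ge_atTop (1 : ℝ)).and
    ((ev_small 1 one_pos (show Lt (-1) (-p) 0 0 from Or.inl (by norm_num))).and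
    ((ev_small (M ^ 2 * C) one_pos (show Lt (-1) 1 0 0 from Or.inl (by norm_num))).and
    ((ev_lin (α := 1 / 2) (β := 2 * B) 0 (Or.inl (by norm_num))).and
    (ev_lin (α := 1 / 2) (β := -(2 * B)) 0 (Or.inl (by norm_num))))))))))))))))))
  refine ⟨l0, fun D δ Ua UT h0 h1 hl hδ0 hδ hUa hUT0 hUT => ?_⟩
  obtain ⟨e1, e2, e3, e4, e5, e6, e7, e8, e9, e10, e11, e12, e13, e14, e15, e16⟩ := hl0 D h0 h1 hl
  have hΛ := Par_504.Lam_pos h0 h1
  have hT : TOf m a D ≤ Lam D := by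
    rw [TOf_eq h0 h1, ← hB]
    linarith
  have hTl := hT
  have hT0 : 0 ≤ TOf m a D := by
    rw [TOf_eq h0 h1, ← hB]
    linarith
  have hDe := D_eq h0
  have hUT' : UT ≤ C * X (-1) 0 (Lam D) := by rw [← hDe]; exact hUT
  have hδ' : δ ≤ X 0 (-4) (Lam D) := by rw [← rpow_eq h0 h1]; exact hδ
  -- `UT * T`
  have hXX : ∀ α β, 0 ≤ X α β (Lam D) := fun α β => X_nonneg α β _
  have hUTT : UT * TOf m a D ≤ C * X (-1) 1 (Lam D) := by
    calc UT * TOf m a D ≤ UT * Lam D := mul_le_mul_of_nonneg_left hTl hUT0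
      _ ≤ C * X (-1) 0 (Lam D) * Lam D := mul_le_mul_of_nonneg_right hUT' hΛ.le
      _ = _ := by rw [mul_assoc, mul_Lam h0 h1, zero_add]
  have hδΛ : δ * Lam D ≤ X 0 (-3) (Lam D) := by
    have h2 := mul_le_mul_of_nonneg_right hδ' hΛ.le
    rw [mul_Lam h0 h1] at h2
    norm_num at h2
    exact h2
  have hst : stOf m a D = X 0 (-B) (Lam D) := by rw [hB]; exact stOf_eq h0 h1
  have hs0 : s0Of m a D = X (-1 / 2) B (Lam D) := by rw [hB]; exact s0Of_eq h0 h1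
  have hDm : Dmin m a D = X (-1) (-p) (Lam D) := by rw [hp]; exact Dmin_eq h0 h1
  have hbe : beR m a c D = 4 / √c * X 0 (-B + p / 2) (Lam D) := by
    rw [beR_eq h0 h1 hc, hB, hp]
  have hsDm : √(c * Dmin m a D) = √c * X (-1 / 2) (-p / 2) (Lam D) := by
    rw [hDm, Real.sqrt_mul hc.le, X_sqrt]
  have hyp : 0 < √(c * Dmin m a D) := by
    rw [hsDm]; exact mul_pos hsc (X_pos _ _ _)
  have hsq : √(c * Dmin m a D) ≤ √Ua := Real.sqrt_le_sqrt hUa
  refine ⟨?_, ?_, ?_, ?_, ?_, ?_, ?_, ?_, e12, ?_, ?_⟩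
  · -- 1
    have hUa0 : 0 < √Ua := hyp.trans_le hsq
    have hst0 : 0 < stOf m a D := stOf_pos h0 h1
    rw [Real.log_le_iff_le_exp (by positivity)]
    have h2 : √c * X (-1 / 2) (-p / 2) (Lam D) ≤ M * √Ua := by
      rw [← hsDm]
      exact hsq.trans (le_mul_of_one_le_left hUa0.le hM)
    have h3 : 64 * stOf m a D / (M * √Ua) ≤
        64 * X 0 (-B) (Lam D) / (√c * X (-1 / 2) (-p / 2) (Lam D)) := by
      rw [hst]
      exact div_le_div_of_nonneg_left (by have := hXX 0 (-B); positivity)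
        (mul_pos hsc (X_pos _ _ _)) h2
    have h4 : 64 * X 0 (-B) (Lam D) / (√c * X (-1 / 2) (-p / 2) (Lam D)) =
        64 / √c * X (1 / 2) (p / 2 - B) (Lam D) := by
      rw [mul_div_mul_comm, X_div]
      congr 2 <;> ring
    have h5 : X 1 0 (Lam D) = Real.exp (Lam D) := by unfold X; congr 1; ring
    rw [h4] at h3
    rw [← h5]
    exact h3.trans e1
  · -- 2
    have h2 : (s0Of m a D * Lam D) ^ 2 = X (-1) (2 * B + 2) (Lam D) := by
      rw [hs0, mul_Lam h0 h1, X_pow]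
      congr 1 <;> push_cast <;> ring
    rw [h2]
    refine le_trans ?_ e2
    calc M ^ 2 * (UT * TOf m a D) * Lam D ≤ M ^ 2 * (C * X (-1) 1 (Lam D)) * Lam D := by gcongr
      _ = M ^ 2 * C * (X (-1) 1 (Lam D) * Lam D) := by ring
      _ = _ := by rw [mul_Lam h0 h1]; norm_num
  · -- 3
    refine le_trans ?_ hUa
    have h2 : thwR m a c Cμ δ D = G * δ * (beR m a c D ^ 2 + (4 * stOf m a D) ^ 2 + √D ^ 2) := by
      unfold thwR
      rw [hG]; ring
    have h3 : beR m a c D ^ 2 = (4 / √c) ^ 2 * X 0 (2 * (-B + p / 2)) (Lam D) := by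
      rw [hbe, mul_pow, X_pow]
      congr 2 <;> push_cast <;> ring
    have h4 : (4 * stOf m a D) ^ 2 = 16 * X 0 (2 * -B) (Lam D) := by
      rw [hst, mul_pow, X_pow]
      norm_num
    have h5 : √D ^ 2 = X (-1) 0 (Lam D) := by rw [Real.sq_sqrt h0.le]; exact hDe
    have h6 : Lam D * (UT * TOf m a D) ≤ C * X (-1) 2 (Lam D) := by
      calc Lam D * (UT * TOf m a D) ≤ Lam D * (C * X (-1) 1 (Lam D)) :=
            mul_le_mul_of_nonneg_left hUTT hΛ.le
        _ = C * (X (-1) 1 (Lam D) * Lam D) := by ring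
        _ = _ := by rw [mul_Lam h0 h1]; norm_num
    obtain ⟨Y, hY⟩ : ∃ Y : ℝ, Y = (4 / √c) ^ 2 * X 0 (2 * (-B + p / 2)) (Lam D) +
        16 * X 0 (2 * -B) (Lam D) + X (-1) 0 (Lam D) := ⟨_, rfl⟩
    have hY0 : 0 ≤ Y := by
      rw [hY]
      have := hXX 0 (2 * (-B + p / 2))
      have := hXX 0 (2 * -B)
      have := hXX (-1) 0
      positivity
    rw [h2, h3, h4, h5, ← hY]
    calc G * δ * Y * Lam D * (UT * TOf m a D) = G * Y * δ * (Lam D * (UT * TOf m a D)) := by ring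
      _ ≤ G * Y * X 0 (-4) (Lam D) * (C * X (-1) 2 (Lam D)) := by
          have h7 := hXX 0 (-4)
          have h8 := hXX (-1) 2
          have h9 : 0 ≤ Lam D * (UT * TOf m a D) := by
            exact mul_nonneg hΛ.le (mul_nonneg hUT0 hT0)
          gcongr
      _ = G * (4 / √c) ^ 2 * C * (X 0 (-4) (Lam D) * X 0 (2 * (-B + p / 2)) (Lam D) *
            X (-1) 2 (Lam D)) + G * 16 * C * (X 0 (-4) (Lam D) * X 0 (2 * -B) (Lam D) *
            X (-1) 2 (Lam D)) + G * C * (X 0 (-4) (Lam D) * X (-1) 0 (Lam D) *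
            X (-1) 2 (Lam D)) := by rw [hY]; ring
      _ = G * (4 / √c) ^ 2 * C * X (-1) (-4 + (2 * (-B + p / 2)) + 2) (Lam D) +
            G * 16 * C * X (-1) (-4 + (2 * -B) + 2) (Lam D) + G * C * X (-2) (-2) (Lam D) := by
          simp only [X_mul]
          norm_num
      _ ≤ c / 3 * X (-1) (-p) (Lam D) + c / 3 * X (-1) (-p) (Lam D) +
            c / 3 * X (-1) (-p) (Lam D) := add_le_add (add_le_add e3 e4) e5
      _ = c * Dmin m a D := by rw [hDm]; ring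
  · -- 4
    calc 4 * δ * Lam D = 4 * (δ * Lam D) := by ring
      _ ≤ 4 * X 0 (-3) (Lam D) := by gcongr
      _ ≤ 1 := e6
  · -- 5
    have h2 : √δ ≤ X 0 (-2) (Lam D) := by
      refine (Real.sqrt_le_sqrt hδ').trans (le_of_eq ?_)
      rw [X_sqrt]
      norm_num
    unfold thR
    rw [← hA, hbe]
    calc A * (√δ + 4 / √c * X 0 (-B + p / 2) (Lam D)) * Lam D ≤
        A * (X 0 (-2) (Lam D) + 4 / √c * X 0 (-B + p / 2) (Lam D)) * Lam D := by gcongr
      _ = A * (X 0 (-2) (Lam D) * Lam D) + A * (4 / √c) * (X 0 (-B + p / 2) (Lam D) * Lam D) := by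
          ring
      _ = A * X 0 (-1) (Lam D) + A * (4 / √c) * X 0 (-B + p / 2 + 1) (Lam D) := by
          rw [mul_Lam h0 h1, mul_Lam h0 h1]
          norm_num
      _ ≤ b / 2 + b / 2 := add_le_add e7 e8
      _ = b := by ring
  · -- 6
    calc η * (δ * D) * (3 * Lam D) = 3 * η * (D * (δ * Lam D)) := by ring
      _ ≤ 3 * η * (X (-1) 0 (Lam D) * X 0 (-3) (Lam D)) := by
          rw [← hDe]
          gcongr
      _ = 3 * η * X (-1) (-3) (Lam D) := by
          rw [X_mul]; norm_num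
      _ ≤ 1 / 2 := e9
  · rw [hst]; exact e10
  · rw [one_mul, ← hDe] at e11
    exact e11
  · rw [one_mul, ← hDm] at e13
    rw [show (1:ℝ) = √1 from Real.sqrt_one.symm]
    refine Real.sqrt_le_sqrt ?_
    have h2 := Dmin_pos (m := m) (a := a) h0 h1
    calc c * Dmin m a D ≤ 1 * 1 := mul_le_mul hc1 e13 h2.le zero_le_one
      _ = 1 := one_mul 1
  · -- 11
    calc M ^ 2 * (UT * TOf m a D) ≤ M ^ 2 * (C * X (-1) 1 (Lam D)) := by gcongr
      _ = M ^ 2 * C * X (-1) 1 (Lam D) := by ring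
      _ ≤ 1 := e14

end Crest.Agent.R234.Rn_870
end
end

-- ▼ part R234/Rni1_98
section

/-!
# Row 234 (helper98): the drift at the contact centre in the class `CylAS`

`tb`, `en` at the near centres and scale `l` by the averaged energy at scale `l + 1/2`;
`drift_as`: `|d/dl Nav F| ≤ C q √RRa(l) + C q √ε⁺ + C ε⁺ + C θ q²`, `ε⁺ = δ eea(l + 1/2)`.
-/

set_option autoImplicit false

open MeasureTheory Set Function Filter Topology Metric
open Crest.GeometryTopology.Submanifold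
open Crest.Agent.R234.Vf_884 Crest.Agent.R234.Ar_870 Crest.Agent.R234.Cy_870
open Crest.Agent.R234.Asl_214 Crest.Agent.R234.Wi_870 Crest.Agent.R234.We_822
open Crest.Agent.R234.Avg_387 hiding BB
open scoped ENNReal NNReal InnerProductSpace

noncomputable section

namespace Crest.Agent.R234.Rni_98

variable {m n k : ℕ} {π : Euc k →L[ℝ] Euc m} {κ : Euc k →L[ℝ] Euc n} {δ : ℝ}
  {x₀ x y : Euc m} {R h₀ τ K : ℝ} {W : Measure (Euc k × L k)} {g g1 g2 : ℝ → ℝ} {d : Euc m → ℝ}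

/-- the constant in `tb ≤ CE eea (l + 1/2)` -/
def CE (m : ℕ) (cg M : ℝ) : ℝ := Real.exp ((m - 2) / 2) * (cg⁻¹ * M⁻¹)

theorem CE_nonneg {cg M : ℝ} (hcg : 0 < cg) (hM : 0 < M) : 0 ≤ CE m cg M := by
  unfold CE
  positivity

/-- energy of the solid cylinders at the near centres -/
theorem en_le_eea (h : CylAS W π κ x₀ R h₀ δ) (hτ : 0 ≤ τ) (hd : CW d τ) (hg : Prof g g1 g2)
    (hg0 : ∀ t, 0 ≤ t → 0 ≤ g t) {cg : ℝ} (hcg : 0 < cg)
    (hgc : ∀ t, 0 ≤ t → t ≤ Real.exp (-(1 / 4)) ^ 2 → cg ≤ g t) (hM : 0 < ∫ h, d h) {l : ℝ}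
    (hτl : 8 * τ ≤ Real.exp l) (hy : y ∈ closedBall x τ) :
    (enOf W π κ (Well_761.cyl y (Real.exp l) univ)).toReal ≤
      Real.exp ((m - 2) * l) * (CE m cg (∫ h, d h) * eea d W π g x (l + 1 / 2)) := by
  have hyx : dist y x ≤ τ := mem_closedBall.1 hy
  have hexp : 1 + 1 / 4 ≤ Real.exp (1 / 4 : ℝ) := by
    have := Real.add_one_le_exp (1 / 4 : ℝ)
    linarith
  have e0 : Real.exp (-(1 / 4)) * Real.exp (l + 1 / 2) = Real.exp (1 / 4) * Real.exp l := by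
    rw [← Real.exp_add, ← Real.exp_add]
    congr 1
    ring
  have hl0 := Real.exp_pos l
  have h1 := Well_761.enOf_cyl_le_eea (π := π) (κ := κ) (V := W) (x := x) (fun x L => h.fr x L) hτ hd
    hg hg0 hcg (ρ := Real.exp (-(1 / 4))) (Real.exp_le_one_iff.2 (by norm_num)) hgc
    (r := Real.exp l + τ) (l := l + 1 / 2) (by
      rw [e0]
      nlinarith)
  have h2 : (enOf W π κ (Well_761.cyl y (Real.exp l) univ)).toReal ≤
      (enOf W π κ (Well_761.cyl x (Real.exp l + τ) univ)).toReal := by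
    refine ENNReal.toReal_mono (enOf_cyl_ne_top (fun L => h.fr x L) _) (measure_mono ?_)
    exact prod_mono (closedBall_subset_closedBall' (by linarith)) le_rfl
  have h3 : (enOf W π κ (Well_761.cyl x (Real.exp l + τ) univ)).toReal ≤
      (∫ h, d h)⁻¹ * (cg⁻¹ * (Real.exp ((m - 2) * (l + 1 / 2)) * eea d W π g x (l + 1 / 2))) := by
    rw [← div_eq_inv_mul, le_div_iff₀ hM]
    exact h1
  refine h2.trans (h3.trans (le_of_eq ?_))
  have e1 : Real.exp ((m - 2) * (l + 1 / 2)) = Real.exp ((m - 2) * l) * Real.exp ((m - 2) / 2) := by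
    rw [← Real.exp_add]
    congr 1
    ring
  rw [e1]
  unfold CE
  ring

/-- scaled tilt energy at the near centres -/
theorem tb_le_eea (h : CylAS W π κ x₀ R h₀ δ) (hτ : 0 ≤ τ) (hd : CW d τ) (hg : Prof g g1 g2)
    (hg0 : ∀ t, 0 ≤ t → 0 ≤ g t) {cg : ℝ} (hcg : 0 < cg)
    (hgc : ∀ t, 0 ≤ t → t ≤ Real.exp (-(1 / 4)) ^ 2 → cg ≤ g t) (hM : 0 < ∫ h, d h) {l : ℝ}
    (hτl : 8 * τ ≤ Real.exp l) (hy : y ∈ closedBall x τ) :
    tb W π y l ≤ CE m cg (∫ h, d h) * eea d W π g x (l + 1 / 2) := by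
  have h1 := en_le_eea h hτ hd hg hg0 hcg hgc hM hτl hy
  have h2 := tb_le_enR h y l
  have h3 := mul_le_mul_of_nonneg_left h1 (Real.exp_pos ((2 - m) * l)).le
  have e1 : Real.exp ((2 - m) * l) * Real.exp ((m - 2) * l) = 1 := by
    rw [← Real.exp_add]
    have : (2 - m : ℝ) * l + (m - 2) * l = 0 := by ring
    rw [this, Real.exp_zero]
  refine h2.trans (h3.trans (le_of_eq ?_))
  rw [← mul_assoc, e1, one_mul]

/-- the error `erAS` with a bound of the energy -/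
theorem erAS_le2 (h : CylAS W π κ x₀ R h₀ δ) (hK : 0 ≤ K) (h0 : 0 ≤ δ) (hδ : δ ≤ 1) (hh : 0 ≤ h₀)
    {l q ε C Mb θ : ℝ} (hq : 0 < q) (hl0 : l ≤ 0) (hε : 0 ≤ ε) (hε1 : ε ≤ 1) (hC : 0 ≤ C)
    (htb : tb W π x l ≤ C * ε) (hmb : mb W π x l ≤ Mb)
    (hθ1 : Real.exp (-2 * l) * ε ≤ θ) (hθ2 : h₀ ^ 2 ≤ θ) (hθ3 : h₀ * Real.exp l ≤ θ * q)
    (hθ : θ ≤ 1) :
    erAS W π K δ h₀ x l q ≤ (K * (5 * √(C * Mb) + BB * √(C * Mb) + C)) * q * √(δ * ε) +
      (K * BB * C) * (δ * ε) + (K * (8 * C + 13 * Mb)) * (θ * q ^ 2) := by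
  have hs : Real.exp l ≤ 1 := Real.exp_le_one_iff.2 hl0
  have hs0 := Real.exp_pos l
  have ht := h.tb_nonneg x l
  have hm := mb_nonneg (W := W) (π := π) x l
  have hMb : 0 ≤ Mb := hm.trans hmb
  have hBB := BB_one
  have hθ0 : 0 ≤ θ := (sq_nonneg h₀).trans hθ2
  have hsd := Real.sqrt_nonneg δ
  have hdd : √δ * √δ = δ := Real.mul_self_sqrt h0
  have hδs : δ ≤ √δ := le_sqrt_self h0 hδ
  have hδ1 : √δ ≤ 1 := by
    rw [show (1:ℝ) = √1 from Real.sqrt_one.symm]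
    exact Real.sqrt_le_sqrt hδ
  have hee : √ε * √ε = ε := Real.mul_self_sqrt hε
  have hse := Real.sqrt_nonneg ε
  have hse1 : √ε ≤ 1 := by
    rw [show (1:ℝ) = √1 from Real.sqrt_one.symm]
    exact Real.sqrt_le_sqrt hε1
  have hde : √(δ * ε) = √δ * √ε := Real.sqrt_mul h0 ε
  set T := tb W π x l with hT
  set M := mb W π x l with hM
  set s := Real.exp l with hsdef
  -- mixed term
  have hST : √T * √M ≤ √(C * Mb) * √ε := by
    rw [← Real.sqrt_mul ht, ← Real.sqrt_mul (by positivity)]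
    refine Real.sqrt_le_sqrt ?_
    calc T * M ≤ (C * ε) * Mb := mul_le_mul htb hmb hm (by positivity)
      _ = C * Mb * ε := by ring
  have hSM : 0 ≤ √(C * Mb) := Real.sqrt_nonneg _
  have hTM0 : 0 ≤ √T * √M := by positivity
  -- the four summands
  have a1 : 2 * (K * (3 + s)) * δ * q ^ 2 * (Real.exp (-2 * l) * T + h₀ ^ 2 * M) ≤
      K * (8 * C + 8 * Mb) * (θ * q ^ 2) := by
    have b1 : Real.exp (-2 * l) * T ≤ C * θ := by
      calc Real.exp (-2 * l) * T ≤ Real.exp (-2 * l) * (C * ε) :=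
            mul_le_mul_of_nonneg_left htb (Real.exp_pos _).le
        _ = C * (Real.exp (-2 * l) * ε) := by ring
        _ ≤ C * θ := mul_le_mul_of_nonneg_left hθ1 hC
    have b2 : h₀ ^ 2 * M ≤ θ * Mb := mul_le_mul hθ2 hmb hm hθ0
    have b3 : 0 ≤ Real.exp (-2 * l) * T + h₀ ^ 2 * M := by positivity
    have b4 : 2 * (K * (3 + s)) * δ * q ^ 2 ≤ 8 * K * q ^ 2 := by
      have : 2 * (K * (3 + s)) * δ ≤ 2 * (K * (3 + 1)) * 1 := by gcongr
      nlinarith [sq_nonneg q]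
    calc _ ≤ 8 * K * q ^ 2 * (C * θ + θ * Mb) :=
          mul_le_mul b4 (add_le_add b1 b2) b3 (by positivity)
      _ = _ := by ring
  have a2 : K * (4 + s) * δ * q * (√T * √M + h₀ * s * M) ≤
      K * 5 * √(C * Mb) * q * (√δ * √ε) + 5 * K * Mb * (θ * q ^ 2) := by
    have b1 : K * (4 + s) * δ * q ≤ 5 * K * q * √δ := by
      have : K * (4 + s) * δ ≤ K * (4 + 1) * √δ := by gcongr
      nlinarith
    have b2 : K * (4 + s) * δ * q ≤ 5 * K * q := by
      have : 5 * K * q * √δ ≤ 5 * K * q * 1 := mul_le_mul_of_nonneg_left hδ1 (by positivity)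
      linarith
    have b3 : h₀ * s * M ≤ θ * q * Mb := mul_le_mul hθ3 hmb hm (by positivity)
    have b4 : 0 ≤ h₀ * s * M := by positivity
    have c1 : K * (4 + s) * δ * q * (√T * √M) ≤ 5 * K * q * √δ * (√(C * Mb) * √ε) :=
      mul_le_mul b1 hST hTM0 (by positivity)
    have c2 : K * (4 + s) * δ * q * (h₀ * s * M) ≤ 5 * K * q * (θ * q * Mb) :=
      mul_le_mul b2 b3 b4 (by positivity)
    calc _ = K * (4 + s) * δ * q * (√T * √M) + K * (4 + s) * δ * q * (h₀ * s * M) := by ring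
      _ ≤ 5 * K * q * √δ * (√(C * Mb) * √ε) + 5 * K * q * (θ * q * Mb) := add_le_add c1 c2
      _ = _ := by ring
  have a3 : K * BB * δ * h₀ * s * (√T * √M) ≤ K * BB * √(C * Mb) * q * (√δ * √ε) := by
    have b1 : h₀ * s ≤ q := by nlinarith
    have b2 : K * BB * δ * h₀ * s ≤ K * BB * √δ * q := by
      calc K * BB * δ * h₀ * s = K * BB * δ * (h₀ * s) := by ring
        _ ≤ K * BB * √δ * q := by gcongr
    calc _ ≤ K * BB * √δ * q * (√(C * Mb) * √ε) := mul_le_mul b2 hST hTM0 (by positivity)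
      _ = _ := by ring
  have a4 : K * (δ * BB + √δ * q) * T ≤ K * BB * C * (δ * ε) + K * C * q * (√δ * √ε) := by
    have b1 : K * (δ * BB + √δ * q) * T ≤ K * (δ * BB + √δ * q) * (C * ε) :=
      mul_le_mul_of_nonneg_left htb (by positivity)
    have b2 : √δ * q * (C * ε) ≤ C * q * (√δ * √ε) := by
      calc √δ * q * (C * ε) = C * q * (√δ * √ε) * √ε := by
            conv_lhs => rw [← hee]
            ring
        _ ≤ C * q * (√δ * √ε) * 1 := mul_le_mul_of_nonneg_left hse1 (by positivity)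
        _ = _ := by ring
    calc _ ≤ K * (δ * BB + √δ * q) * (C * ε) := b1
      _ = K * BB * C * (δ * ε) + K * (√δ * q * (C * ε)) := by ring
      _ ≤ K * BB * C * (δ * ε) + K * (C * q * (√δ * √ε)) := by gcongr
      _ = _ := by ring
  unfold erAS
  rw [hde]
  refine (add_le_add (add_le_add (add_le_add a1 a2) a3) a4).trans (le_of_eq ?_)
  ring

/-- constants of the drift -/
def D4 (K Mb M : ℝ) : ℝ := √(2 * K * Mb * M)

def D5 (m : ℕ) (cg K Mb M : ℝ) : ℝ :=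
  K * (5 * √(CE m cg M * Mb) + BB * √(CE m cg M * Mb) + CE m cg M) * M

def D6 (m : ℕ) (cg K M : ℝ) : ℝ := K * BB * CE m cg M * M

def D7 (m : ℕ) (cg K Mb M : ℝ) : ℝ :=
  ((K * BB + 6 * K) * CE m cg M + K * (8 * CE m cg M + 13 * Mb)) * M

/-- **the drift of the averaged functional in the class `CylAS`** -/
theorem drift_as (h : CylAS W π κ x₀ R h₀ δ) (h0 : 0 ≤ δ) (hδ : δ ≤ 1) (hh : 0 ≤ h₀)
    (hτ : 0 ≤ τ) (hd : CW d τ) (hg : Prof g g1 g2) (hg0 : ∀ t, 0 ≤ t → 0 ≤ g t)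
    (hK : Bd g g1 K) (hK' : Bd g1 g2 K) {cg : ℝ} (hcg : 0 < cg)
    (hgc : ∀ t, 0 ≤ t → t ≤ Real.exp (-(1 / 4)) ^ 2 → cg ≤ g t) (hM : 0 < ∫ h, d h)
    {l q θ Mb : ℝ} (hq : 0 < q) (hl0 : l ≤ 0) (hτl : 8 * τ ≤ Real.exp l)
    (hdom : ‖x - x₀‖ + τ + Real.exp l ≤ R)
    (hmb : ∀ y ∈ closedBall x τ, mb W π y l ≤ Mb)
    (hε1 : eea d W π g x (l + 1 / 2) ≤ 1)
    (hθ1 : Real.exp (-2 * l) * eea d W π g x (l + 1 / 2) ≤ θ) (hθ2 : h₀ ^ 2 ≤ θ)
    (hθ3 : h₀ * Real.exp l ≤ θ * q) (hθ : θ ≤ 1)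
    {F : Euc n → ℝ} {G : Euc n → Euc n} {A : Euc n → L n} (hT : Well_761.Test F G A q) :
    ∃ D, HasDerivAt (fun l => Nav d W π κ g1 x l F) D l ∧
      |D| ≤ D4 K Mb (∫ h, d h) * q * √(RRa d W π g1 x l) +
        D5 m cg K Mb (∫ h, d h) * q * √(δ * eea d W π g x (l + 1 / 2)) +
        D6 m cg K (∫ h, d h) * (δ * eea d W π g x (l + 1 / 2)) +
        D7 m cg K Mb (∫ h, d h) * (θ * q ^ 2) := by
  have : IsFiniteMeasure W := ⟨h.fin⟩
  have hK0 := hK.nonneg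
  set M := ∫ h, d h with hMdef
  set ε := eea d W π g x (l + 1 / 2) with hεdef
  set C := CE m cg M with hC
  have hC0 : 0 ≤ C := CE_nonneg hcg hM
  have hx : x ∈ closedBall x τ := mem_closedBall_self hτ
  have htb : ∀ y ∈ closedBall x τ, tb W π y l ≤ C * ε := fun y hy =>
    tb_le_eea h hτ hd hg hg0 hcg hgc hM hτl hy
  have hen : ∀ y ∈ closedBall x τ, (enOf W π κ (Well_761.cyl y (Real.exp l) univ)).toReal ≤
      Real.exp ((m - 2) * l) * (C * ε) := fun y hy =>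
    en_le_eea h hτ hd hg hg0 hcg hgc hM hτl hy
  have hε0 : 0 ≤ ε := by
    exact av_nonneg hd fun y _ => h.ee_nonneg hg y (l + 1 / 2)
  have hMb : 0 ≤ Mb := (mb_nonneg x l).trans (hmb x hx)
  have hθ0 : 0 ≤ θ := (sq_nonneg h₀).trans hθ2
  have her : ∀ y ∈ closedBall x τ, erAS W π K δ h₀ y l q ≤
      (((K * (5 * √(C * Mb) + BB * √(C * Mb) + C)) * q * √(δ * ε) +
      (K * BB * C) * (δ * ε) + (K * (8 * C + 13 * Mb)) * (θ * q ^ 2)) / q ^ 2) * q ^ 2 := by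
    intro y hy
    rw [div_mul_cancel₀ _ (by positivity)]
    exact erAS_le2 h hK0 h0 hδ hh hq hl0 hε0 hε1 hC0 (htb y hy) (hmb y hy) hθ1 hθ2 hθ3 hθ
  have hfl := flow_as (ρ₀ := R) (x₀ := x₀) h h0 hh le_rfl hg hK hK' hg0
  have e1 : Real.exp ((m - 2) * l) * (C * ε) = (Real.exp (-2 * l) * (C * ε)) * Real.exp (m * l) := by
    have : Real.exp ((m - 2) * l) = Real.exp (-2 * l) * Real.exp (m * l) := by
      rw [← Real.exp_add]
      congr 1
      ring
    rw [this]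
    ring
  obtain ⟨D, hD1, hD2⟩ := drift_av (fun x L => h.fr x L) hτ hd hg (fun t ht => hK'.b0 t ht) hfl hq
    hMb (by rw [dist_eq_norm]; exact hdom) (fun y hy => by
      have h1 : W {p | ‖π p.1 - y‖ ^ 2 < Real.exp (2 * l)} = W (ovr π y (Real.exp l)) := by
        congr 1
        ext p
        simp only [ovr, mem_ofPred_eq]
        rw [show Real.exp (2 * l) = Real.exp l ^ 2 by rw [← Real.exp_nat_mul]; norm_num]
        exact pow_lt_pow_iff_left₀ (norm_nonneg _) (Real.exp_pos l).le two_ne_zero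
      rw [h1, ← ENNReal.ofReal_toReal (measure_ne_top W _)]
      refine ENNReal.ofReal_le_ofReal ?_
      have h2 := hmb y hy
      unfold mb MB at h2
      have h3 := mul_le_mul_of_nonneg_right h2 (Real.exp_pos (m * l)).le
      have e2 : Real.exp (-m * l) * Real.exp (m * l) = 1 := by
        rw [← Real.exp_add]
        have : (-m * l + m * l : ℝ) = 0 := by ring
        rw [this, Real.exp_zero]
      calc (W (ovr π y (Real.exp l))).toReal =
          Real.exp (-m * l) * (W (ovr π y (Real.exp l))).toReal * Real.exp (m * l) := by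
            linear_combination (-(W (ovr π y (Real.exp l))).toReal) * e2
        _ ≤ _ := h3)
    (fun y hy => by rw [← e1]; exact hen y hy) her hT
  refine ⟨D, hD1, hD2.trans ?_⟩
  have h6 : Real.exp (-2 * l) * (C * ε) ≤ C * θ := by
    have := mul_le_mul_of_nonneg_left hθ1 hC0
    linarith
  have h7 : (K * BB + 6 * K) * (Real.exp (-2 * l) * (C * ε)) ≤ (K * BB + 6 * K) * (C * θ) := by
    have hBB := BB_one
    exact mul_le_mul_of_nonneg_left h6 (by positivity)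
  have h8 := mul_le_mul_of_nonneg_right h7 (show 0 ≤ M * q ^ 2 by positivity)
  have hq2 : q ^ 2 ≠ 0 := by positivity
  unfold D4 D5 D6 D7
  rw [← hC]
  have e3 : ∀ E : ℝ, ((K * BB + 6 * K) * (Real.exp (-2 * l) * (C * ε)) + E / q ^ 2) * M * q ^ 2 =
      (K * BB + 6 * K) * (Real.exp (-2 * l) * (C * ε)) * (M * q ^ 2) + E * M := by
    intro E
    field_simp
  rw [e3]
  refine (add_le_add_right (add_le_add_left h8 _) _).trans (le_of_eq ?_)
  ring

end Crest.Agent.R234.Rni_98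
end
end

-- ▼ part R234/Rni2_98
section

/-!
# Row 234 (helper98): one contact centre of a situation, all data; the `U` side of NRUN

`Pk A C X Q K cS x`: the properties of 387's data at a contact centre on the window
`[log s0 - 4, log s0 + T + 5]`; `exists_pk`; `USide`: what `hrun2` needs of `U, R', e`.
-/

set_option autoImplicit false

open MeasureTheory Set Function Filter Topology Metric
open Crest.GeometryTopology.Submanifold
open Crest.Agent.R234.Vf_884 Crest.Agent.R234.Ar_870 Crest.Agent.R234.Cy_870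
open Crest.Agent.R234.Pot_425 Crest.Agent.R234.Rep_387
open Crest.Agent.R234.Raw_387 Crest.Agent.R234.N0_309 Crest.Agent.R234.Asl_214
open Crest.Agent.R234.Core_809 Crest.Agent.R234.Fld_387 Crest.Agent.R234.Wi_870
open Crest.Agent.R234.Avg_387 hiding BB
open scoped ENNReal NNReal

noncomputable section

namespace Crest.Agent.R234.Rni_98

variable {m n : ℕ} {a : ℝ}

/-- one contact centre of a situation with all its data -/
structure Pk (A C C₁ : ℝ) (X : Sit m n a) (Q : ℕ) (K cS : ℝ) (x : Euc m) : Prop where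
  m2 : 2 ≤ m
  hA : Real.exp ((m:ℝ) - 2) ≤ A
  C1 : 1 ≤ C
  C10 : 0 < C₁
  Dp : 0 < X.D
  D1 : X.D < 1
  δ0 : 0 ≤ X.δ
  T1 : 1 ≤ TOf m a X.D
  lT : Real.log (Lam X.D) ≤ TOf m a X.D
  ok : (daOf X Q K cS X.ds).OkAS 4 (√X.D) X.δ (1 / 3) 4 12 w2
  D0 : 0 < D0f m cS a X.D
  at_ : (daOf X Q K cS X.ds).AtAS A (D0f m cS a X.D) (Real.log (s0Of m a X.D) - 4)
    (Real.log (s0Of m a X.D) + TOf m a X.D + 5) X.δ (√X.D) 12 (Real.exp (-Real.log (Lam X.D)))
    (Lam X.D ^ (2 : ℝ) * X.D) (fun _ => C * X.D) (fun _ => C) x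
  PT : (daOf X Q K cS X.ds).P x (Real.log (s0Of m a X.D) + TOf m a X.D + 5) ≤
    D0f m cS a X.D / (4 * A)
  e_le : ∀ l, Real.log (s0Of m a X.D) - 4 ≤ l → l ≤ Real.log (s0Of m a X.D) + TOf m a X.D + 5 →
    (daOf X Q K cS X.ds).e x l ≤ C₁ * X.D
  tau8 : ∀ l, Real.log (s0Of m a X.D) - 4 ≤ l → 8 * tauOf a X.D ≤ Real.exp l

theorem exists_pk (m n Q : ℕ) (hm : 2 ≤ m) {K cS a : ℝ} (hK : 9 ≤ K) (hcS : 0 < cS) (ha : 1 ≤ a) :
    ∃ A C C₁ l0 : ℝ, 1 ≤ A ∧ 1 ≤ C ∧ 0 < C₁ ∧ 0 ≤ l0 ∧ ∀ X : Sit m n a, IsSit Q K cS X →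
      l0 ≤ Real.log (Lam X.D) → ∀ x ∈ X.Z, Pk A C C₁ X Q K cS x := by
  obtain ⟨A, C, l1, hA1, hA, hC, hl1, hat⟩ := exists_at m n Q hm hK hcS (exps m ha)
  obtain ⟨C₁, l2, hC₁, hco⟩ := Bds_214.e_coarse (m := m) hm n Q K cS a ha
  obtain ⟨l3, hds⟩ := Par_504.ev_ds ha one_pos
  obtain ⟨l4, hT⟩ := Par_504.ev_T m a 1
  obtain ⟨l5, hl5⟩ := Par_504.ev_scales' m ha (Real.exp 4)
  refine ⟨A, C, C₁, max l1 (max l2 (max l3 (max l4 l5))), hA1, hC, hC₁,
    hl1.trans (le_max_left _ _), ?_⟩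
  intro X hX hl x hx
  have hla : l1 ≤ Real.log (Lam X.D) := (le_max_left _ _).trans hl
  have hl' : max l2 (max l3 (max l4 l5)) ≤ Real.log (Lam X.D) := (le_max_right _ _).trans hl
  have hlb : l2 ≤ Real.log (Lam X.D) := (le_max_left _ _).trans hl'
  have hl'' : max l3 (max l4 l5) ≤ Real.log (Lam X.D) := (le_max_right _ _).trans hl'
  have hlc : l3 ≤ Real.log (Lam X.D) := (le_max_left _ _).trans hl''
  have hl3 : max l4 l5 ≤ Real.log (Lam X.D) := (le_max_right _ _).trans hl''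
  have hld : l4 ≤ Real.log (Lam X.D) := (le_max_left _ _).trans hl3
  have hle : l5 ≤ Real.log (Lam X.D) := (le_max_right _ _).trans hl3
  obtain ⟨-, -, hT3, hT4, hT5, hT6⟩ := hT X.D hX.D0 hX.D1 hld
  obtain ⟨s1, s2, s3, -⟩ := hl5 X.D hX.D0 hX.D1 hle
  have hδ1 : X.δ ≤ Lam X.D ^ (-1 : ℝ) :=
    hX.δ1.trans (Real.rpow_le_rpow_of_exponent_le hT6 (by norm_num))
  have hds1 : 7 * Lam X.D ^ (-a) ≤ X.ds :=
    mul_le_mul_of_nonneg_left (le_max_right _ _) (by norm_num)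
  have hds2 : 7 * X.δ ≤ X.ds := mul_le_mul_of_nonneg_left (le_max_left _ _) (by norm_num)
  obtain ⟨hok, hD0, -, hx'⟩ := hat X hX.cls hX.D0 hX.D1 hX.δ0 hδ1 X.ds _ hds1 hds2
    (hds X.D X.δ hX.D0 hX.D1 hlc hX.δ1) hX.out hla
  obtain ⟨h1, h2⟩ := hx' x hx
  have e1 : Real.log (sB (100 * (m + 1) * (a + 1)) X.D) = Real.log (s0Of m a X.D) := rfl
  have e2 : Real.log (sT (100 * (m + 1) * (a + 1)) X.D) =
      Real.log (s0Of m a X.D) + TOf m a X.D := (Par_504.log_s0Of_add_T hX.D0 hX.D1).symm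
  rw [e1, e2] at h1
  rw [e2] at h2
  have hxn : ‖x‖ ≤ 1 := by
    have h3 := h1.hT
    have h5 := Real.exp_pos (Real.log (s0Of m a X.D) + TOf m a X.D + 5)
    have h6 : 0 < (daOf X Q K cS X.ds).τ := hok.τ0
    linarith
  exact
    { m2 := hm
      hA := hA
      C1 := hC
      C10 := hC₁
      Dp := hX.D0
      D1 := hX.D1
      δ0 := hX.δ0
      T1 := (Real.one_le_exp (by linarith)).trans hT3
      lT := by linarith
      ok := hok
      D0 := hD0
      at_ := h1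
      PT := h2
      e_le := fun l hl1 hl2 => hco X hX hlb x hxn l hl1 hl2
      tau8 := fun l hl => by
        have a1 := Real.exp_le_exp.2 hl
        have s0p := Par_504.s0Of_pos (m := m) (a := a) hX.D0 hX.D1
        have hp := Par_504.hOf_pos (a := a) hX.D0 hX.D1
        have tp := Par_504.tOf_pos (a := a) hX.D0 hX.D1
        rw [Real.exp_sub, Real.exp_log s0p] at a1
        have e4 : (4 : ℝ) ≤ Real.exp 4 := by linarith [Real.add_one_le_exp (4 : ℝ)]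
        have e5 : 4 * hOf a X.D ≤ √X.D := le_trans (by nlinarith) s1
        have e6 : √X.D ≤ tOf a X.D := le_trans (by nlinarith [Real.sqrt_nonneg X.D]) s2
        have e7 : tOf a X.D ≤ s0Of m a X.D / Real.exp 4 := by
          rw [le_div_iff₀ (Real.exp_pos 4), mul_comm]
          exact s3
        have e8 : tauOf a X.D = hOf a X.D / 4 := rfl
        rw [e8]
        linarith }

namespace Pk

variable {Q : ℕ} {A C C₁ K cS : ℝ} {X : Sit m n a} {x : Euc m}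

theorem ctr (h : Pk A C C₁ X Q K cS x) :
    Ctr m K X.ds (4 / (1 / 3)) A (D0f m cS a X.D) (Real.log (s0Of m a X.D) - 4)
      (Real.log (s0Of m a X.D) + TOf m a X.D + 5) ((daOf X Q K cS X.ds).E x)
      ((daOf X Q K cS X.ds).e x) ((daOf X Q K cS X.ds).et x) ((daOf X Q K cS X.ds).b x)
      ((daOf X Q K cS X.ds).g x) ((daOf X Q K cS X.ds).R x) ((daOf X Q K cS X.ds).f x)
      ((daOf X Q K cS X.ds).p x) ((daOf X Q K cS X.ds).P x) ((daOf X Q K cS X.ds).B x) :=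
  h.at_.ctr h.ok h.hA h.D0 (by linarith [h.T1])

theorem pt (h : Pk A C C₁ X Q K cS x) : Bds_214.Pt (daOf X Q K cS X.ds) (C₁ * X.D) A
    (D0f m cS a X.D) (Real.log (s0Of m a X.D) - 4) (Real.log (s0Of m a X.D) + TOf m a X.D + 5)
    x :=
  Bds_214.pt h.ok.ok (h.at_.at' h.ok) h.hA h.D0 (by linarith [h.T1]) h.ok.δ1 h.e_le h.PT

theorem K9 (h : Pk A C C₁ X Q K cS x) : 9 ≤ K := h.ok.K9

theorem nx (h : Pk A C C₁ X Q K cS x) :
    ‖x‖ + Real.exp (Real.log (s0Of m a X.D) + TOf m a X.D + 5) + 2 * tauOf a X.D ≤ 1 := h.at_.hT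

end Pk

/-! ### the profile -/

theorem w0_nn : ∀ t, 0 ≤ t → 0 ≤ w0.θ t := fun t _ => w0.nonneg t

theorem w0_low9 : ∀ t, 0 ≤ t → t ≤ ((9:ℝ) / 10) ^ 2 → ((19:ℝ) / 100) ^ 4 ≤ w0.θ t := by
  intro t _ ht
  change ((19:ℝ) / 100) ^ 4 ≤ (max (1 - t) 0) ^ 4
  refine pow_le_pow_left₀ (by norm_num) (le_max_of_le_left ?_) 4
  norm_num at ht
  linarith

theorem w0_low4 : ∀ t, 0 ≤ t → t ≤ Real.exp (-(1 / 4)) ^ 2 → ((19:ℝ) / 100) ^ 4 ≤ w0.θ t := by
  intro t h0 ht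
  refine w0_low9 t h0 (ht.trans (pow_le_pow_left₀ (Real.exp_pos _).le ?_ 2))
  rw [Real.exp_neg]
  have h1 := Real.add_one_le_exp (1 / 4 : ℝ)
  rw [inv_le_comm₀ (Real.exp_pos _) (by norm_num)]
  norm_num at h1 ⊢
  linarith

theorem w0_bd0 : Bd w0.θ w0.θ' 12 where
  b0 t ht := by
    obtain ⟨h1, h2⟩ := mx_le ht
    have h5 := pow_le_one₀ h1 h2 (n := 4)
    have h6 := pow_nonneg h1 4
    change |(max (1 - t) 0) ^ 4| ≤ 12
    rw [abs_of_nonneg (by positivity)]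
    linarith
  b1 t ht := w0_bd.b0 t ht
  b2 t ht := by
    obtain ⟨h1, h2⟩ := mx_le ht
    have h5 := pow_le_one₀ h1 h2 (n := 3)
    have h6 := pow_nonneg h1 3
    change |t * (-(4 * (max (1 - t) 0) ^ 3))| ≤ 12
    rcases le_or_gt t 1 with h | h
    · rw [mul_neg, abs_neg, abs_of_nonneg (by positivity)]
      have h7 : t * (4 * (max (1 - t) 0) ^ 3) ≤ 1 * (4 * (max (1 - t) 0) ^ 3) :=
        mul_le_mul_of_nonneg_right h (by positivity)
      linarith
    · rw [max_eq_right (by linarith)]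
      norm_num

theorem exp3_ge : (20 : ℝ) ≤ Real.exp 3 := by
  have h1 : Real.exp 3 = Real.exp 1 ^ 3 := by rw [← Real.exp_nat_mul]; norm_num
  have h2 := Real.exp_one_gt_d9
  rw [h1]
  have h3 : (2.718 : ℝ) ^ 3 ≤ Real.exp 1 ^ 3 := pow_le_pow_left₀ (by norm_num) (by linarith) 3
  norm_num at h3
  linarith

theorem log4_le : Real.log 4 ≤ 1.387 := by
  have h1 : Real.log 4 = 2 * Real.log 2 := by
    rw [show (4 : ℝ) = 2 ^ 2 by norm_num, Real.log_pow]; norm_num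
  have := Real.log_two_lt_d9
  rw [h1]
  norm_num at this ⊢
  linarith

theorem log4_nn : 0 ≤ Real.log 4 := Real.log_nonneg (by norm_num)

/-! ### the `U` side -/

/-- what `hrun2` needs of `U, R', e` at a contact centre -/
structure USide (c C CR Ce : ℝ) (X : Sit m n a) (Q : ℕ) (K cS : ℝ) (x : Euc m) : Prop where
  Ulow : c * Par_504.Dmin m a X.D ≤
    X.sU Q K cS x (Real.log (Lam X.D) + Real.log (s0Of m a X.D))
  Upos : 0 < X.sU Q K cS x (Real.log (Lam X.D) + Real.log (s0Of m a X.D))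
  Uup : ∀ t, -4 ≤ t → t ≤ TOf m a X.D + 3 →
    X.sU Q K cS x (t + Real.log (s0Of m a X.D)) ≤ C * X.D
  U0 : 0 ≤ X.sU Q K cS x (Real.log (Lam X.D) - Real.log 4 + Real.log (s0Of m a X.D))
  R0 : ∀ l ∈ Icc (Real.log (s0Of m a X.D) + Real.log (Lam X.D) - Real.log 4)
    (Real.log (s0Of m a X.D) + TOf m a X.D + Real.log 4 + 1 / 2), 0 ≤ X.sR Q K cS x l
  dU : ∀ l ∈ Icc (Real.log (s0Of m a X.D) + Real.log (Lam X.D) - Real.log 4)
    (Real.log (s0Of m a X.D) + TOf m a X.D + Real.log 4 + 1 / 2),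
    HasDerivAt (fun l => X.sU Q K cS x (l - Real.log (s0Of m a X.D) + Real.log (s0Of m a X.D)))
      (X.sR Q K cS x l) l
  mono : ∀ t t', Real.log (Lam X.D) ≤ t → t ≤ t' → t' ≤ TOf m a X.D →
    X.sU Q K cS x (t + Real.log (s0Of m a X.D)) ≤ X.sU Q K cS x (t' + Real.log (s0Of m a X.D))
  Ue : ∀ t ∈ Icc (Real.log (Lam X.D)) (TOf m a X.D),
    X.sU Q K cS x (t + Real.log 4 + 1 / 2 + Real.log (s0Of m a X.D)) ≤
      CR * X.se Q K cS x (t + 3 + Real.log (s0Of m a X.D))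
  he : ∀ t ∈ Icc (Real.log (Lam X.D)) (TOf m a X.D),
    (enOf X.V X.π X.κ (Well_761.cyl x (17 * Real.exp (Real.log (s0Of m a X.D) + t))
      univ)).toReal ≤ Ce * Real.exp (m * (Real.log (s0Of m a X.D) + t)) *
        Real.exp (-(2 * (Real.log (s0Of m a X.D) + t))) *
          X.se Q K cS x (t + 3 + Real.log (s0Of m a X.D))

/-- the constant of the energy bound -/
def Cen (m : ℕ) : ℝ := (((19:ℝ) / 100) ^ 4)⁻¹ * (Md m)⁻¹ * Real.exp (3 * (m - 2))

variable {Q : ℕ} {A C C₁ K cS : ℝ} {X : Sit m n a} {x : Euc m}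

theorem Pk.uside (h : Pk A C C₁ X Q K cS x) (hl : 0 ≤ Real.log (Lam X.D)) :
    USide (cD m cS) (2 * (A + K) * C₁) (A * Real.exp (2 * (m - 2))) (Cen m) X Q K cS x := by
  have hc := h.ctr
  have hp := h.pt
  have hr := hc.raw
  have hK := h.K9
  have l4 := log4_le
  have l4' := log4_nn
  have hT1 := h.T1
  have hm2 : (2 : ℝ) ≤ m := by exact_mod_cast h.m2
  have hsU : ∀ l, X.sU Q K cS x l = (daOf X Q K cS X.ds).Us x l := fun _ => rfl
  have hse : ∀ l, X.se Q K cS x l = (daOf X Q K cS X.ds).es x l := fun _ => rfl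
  have hsR : ∀ l, X.sR Q K cS x l = (daOf X Q K cS X.ds).Rs x l := fun _ => rfl
  set L := Real.log (s0Of m a X.D) with hL
  set T := TOf m a X.D with hTdef
  have hlow : ∀ l, L - 4 ≤ l → l ≤ L + T + 5 → D0f m cS a X.D ≤ X.sU Q K cS x l :=
    fun l h1 h2 => hc.U_pos h1 h2
  have hlT : Real.log (Lam X.D) ≤ T := h.lT
  refine ⟨hlow _ (by linarith) (by linarith), ?_, ?_, ?_, ?_, ?_, ?_, ?_, ?_⟩
  · exact lt_of_lt_of_le h.D0 (hlow _ (by linarith) (by linarith))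
  · intro t h1 h2
    have h3 := hp.Uup (t + L) (by linarith) (by linarith)
    rw [← mul_assoc] at h3
    exact h3
  · exact h.D0.le.trans (hlow _ (by linarith) (by linarith))
  · intro l hl
    exact hr.Rs_nonneg (by linarith) (by linarith [hl.2])
  · intro l hl
    have h1 := hr.dU (l := l) (by linarith [hl.2])
    have e1 : (fun l => X.sU Q K cS x (l - L + L)) = X.sU Q K cS x := by
      funext u
      rw [sub_add_cancel]
    rw [e1]
    exact h1
  · intro t t' _ h2 h3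
    exact hr.Us_mono (by linarith) (by linarith) (by linarith)
  · intro t ht
    have h1 := hc.UE (l := t + Real.log 4 + 1 / 2 + L) (by linarith [ht.1]) (by linarith [ht.2])
    have h2 := hc.eb (l := t + Real.log 4 + 1 / 2 + L) (by linarith [ht.1]) (by linarith [ht.2])
    have h3 := hc.qm (s := t + Real.log 4 + 1 / 2 + L + 1) (t := t + 3 + L) (by linarith)
      (by linarith [ht.2])
    have h4 := hc.epos (l := t + 3 + L) (by linarith [ht.1]) (by linarith [ht.2])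
    have h5 : Real.exp ((m - 2) * (t + 3 + L - (t + Real.log 4 + 1 / 2 + L + 1))) ≤
        Real.exp (2 * (m - 2)) := by
      refine Real.exp_le_exp.2 ?_
      have h6 : t + 3 + L - (t + Real.log 4 + 1 / 2 + L + 1) ≤ 2 := by linarith
      have h7 := mul_le_mul_of_nonneg_left h6 (by linarith : 0 ≤ (m:ℝ) - 2)
      linarith
    have hA1 := hc.A1
    refine h1.trans (h2.trans ?_)
    rw [mul_assoc]
    refine mul_le_mul_of_nonneg_left (h3.trans ?_) (by linarith)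
    exact mul_le_mul_of_nonneg_right h5 h4.le
  · intro t ht
    have hMd : 0 < Md m := Md_pos (by have := h.m2; lia)
    have hτ : 0 < tauOf a X.D := h.ok.τ0
    have h8 := h.tau8 (L + t) (by linarith [ht.1])
    have h20 := exp3_ge
    have e1 : Real.exp (L + t + 3) = Real.exp (L + t) * Real.exp 3 := Real.exp_add _ _
    have h1 := Well_761.enOf_cyl_le_eea (π := X.π) (κ := X.κ) (V := X.V) (x := x)
      (fun x L => h.ok.cyl.fr x L) hτ.le (cw_dd hτ) prof0 w0_nn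
      (cg := ((19:ℝ) / 100) ^ 4) (by norm_num) (ρ := 9 / 10) (by norm_num) w0_low9
      (r := 17 * Real.exp (L + t)) (l := L + t + 3) (by
        rw [e1]
        have := Real.exp_pos (L + t)
        nlinarith)
    rw [integral_dd hτ] at h1
    have h2 : eea (dd m (tauOf a X.D)) X.V X.π w0.θ x (L + t + 3) ≤
        X.se Q K cS x (t + 3 + L) := by
      have e2 : L + t + 3 = t + 3 + L := by ring
      rw [e2]
      exact hr.e_le_es (by linarith [ht.2])
    have h3 : (enOf X.V X.π X.κ (Well_761.cyl x (17 * Real.exp (L + t)) univ)).toReal ≤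
        (Md m)⁻¹ * ((((19:ℝ) / 100) ^ 4)⁻¹ * (Real.exp ((m - 2) * (L + t + 3)) *
          eea (dd m (tauOf a X.D)) X.V X.π w0.θ x (L + t + 3))) := by
      rw [← div_eq_inv_mul, le_div_iff₀ hMd]
      exact h1
    refine h3.trans ?_
    have e3 : Real.exp ((m - 2) * (L + t + 3)) =
        Real.exp (3 * (m - 2)) * (Real.exp (m * (L + t)) * Real.exp (-(2 * (L + t)))) := by
      rw [← Real.exp_add, ← Real.exp_add]
      congr 1
      ring
    rw [e3]
    have h4 : 0 ≤ Cen m * Real.exp (m * (L + t)) * Real.exp (-(2 * (L + t))) := by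
      unfold Cen
      positivity
    refine le_trans (le_of_eq ?_) (mul_le_mul_of_nonneg_left h2 h4)
    unfold Cen
    ring

end Crest.Agent.R234.Rni_98
end
end

-- ▼ part R234/Rni3_98
section

/-!
# Row 234 (helper98): the drift of the averaged functionals for a contact situation (NRUN)

`Pk.drift`: hypothesis `hdr` of `hrun2` for `X : Sit` at a contact centre.
-/

set_option autoImplicit false

open MeasureTheory Set Function Filter Topology Metric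
open Crest.GeometryTopology.Submanifold
open Crest.Agent.R234.Vf_884 Crest.Agent.R234.Ar_870 Crest.Agent.R234.Cy_870
open Crest.Agent.R234.Pot_425 Crest.Agent.R234.Rep_387
open Crest.Agent.R234.Raw_387 Crest.Agent.R234.N0_309 Crest.Agent.R234.Asl_214
open Crest.Agent.R234.Core_809 Crest.Agent.R234.Fld_387 Crest.Agent.R234.Wi_870
open Crest.Agent.R234.Avg_387 hiding BB
open scoped ENNReal NNReal

noncomputable section

namespace Crest.Agent.R234.Rni_98

variable {m n : ℕ} {a : ℝ}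

/-- the numbers of the drift -/
theorem ev_drift (m : ℕ) {a : ℝ} (ha : 1 ≤ a) (C₁ E : ℝ) {c η : ℝ} (hc : 0 < c) (hη : 0 < η) :
    ∃ l0 : ℝ, ∀ D : ℝ, 0 < D → D < 1 → l0 ≤ Real.log (Lam D) →
      16 * C₁ * D ≤ Lam D ^ (-2 : ℝ) * s0Of m a D ^ 2 ∧ D ≤ Lam D ^ (-2 : ℝ) ∧
      √D * (4 * stOf m a D) ≤ Lam D ^ (-2 : ℝ) * √(c * Par_504.Dmin m a D) ∧
      Lam D ^ (-2 : ℝ) ≤ 1 ∧ C₁ * D ≤ 1 ∧ E * Lam D ^ (-2 : ℝ) * (TOf m a D + 4) ≤ η ∧
      1 ≤ Lam D ∧ TOf m a D ≤ Lam D := by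
  have h4 : (0 : ℝ) ≤ m := Nat.cast_nonneg m
  have hb : (2 * m + 3) * a / 2 + 2 < Par_504.bb m a ∧ 1 < Par_504.bb m a := by
    unfold Par_504.bb
    constructor <;> nlinarith
  have hsc := Real.sqrt_pos.2 hc
  obtain ⟨l1, hl1⟩ := Par_504.ev_l
    (((Par_504.ev_le (α := -1) (β := 0) (α' := -1) (β' := -2 + 2 * Par_504.bb m a) (16 * C₁)
      (Or.inr ⟨rfl, by linarith [hb.2]⟩))).and
    ((Par_504.ev_le (α := -1) (β := 0) (α' := 0) (β' := -2) 1 (Or.inl (by norm_num))).and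
    ((Par_504.ev_le' (α := -1 / 2) (β := -Par_504.bb m a) (α' := -1 / 2)
      (β' := -2 + -((2 * m + 3) * a) / 2) 4 hsc (Or.inr ⟨rfl, by linarith [hb.1]⟩)).and
    ((Par_504.ev_small (α := 0) (β := -2) 1 one_pos (Or.inr ⟨rfl, by norm_num⟩)).and
    ((Par_504.ev_small (α := -1) (β := 0) C₁ one_pos (Or.inl (by norm_num))).and
    (Par_504.ev_small (α := 0) (β := -1) (|E| * 5) hη (Or.inr ⟨rfl, by norm_num⟩)))))))
  obtain ⟨l2, hl2⟩ := Par_504.ev_T m a 1
  refine ⟨max l1 l2, fun D h0 h1 hl => ?_⟩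
  obtain ⟨e1, e2, e3, e4, e5, e6⟩ := hl1 D h0 h1 ((le_max_left _ _).trans hl)
  obtain ⟨-, t2, t3, -, -, t6⟩ := hl2 D h0 h1 ((le_max_right _ _).trans hl)
  have hΛ := Par_504.Lam_pos h0 h1
  have f2 : Lam D ^ (-2 : ℝ) = Par_504.X 0 (-2) (Lam D) := Par_504.rpow_eq h0 h1 _
  have f3 : √(c * Par_504.Dmin m a D) =
      √c * Par_504.X (-1 / 2) (-((2 * m + 3) * a) / 2) (Lam D) := by
    rw [Real.sqrt_mul hc.le, Par_504.Dmin_eq h0 h1, Par_504.X_sqrt]
  have f4 : √D = Par_504.X (-1 / 2) 0 (Lam D) := Par_504.sqrt_D_eq h0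
  have f5 : stOf m a D = Par_504.X 0 (-Par_504.bb m a) (Lam D) := Par_504.stOf_eq h0 h1
  have f6 : s0Of m a D = Par_504.X (-1 / 2) (Par_504.bb m a) (Lam D) := Par_504.s0Of_eq h0 h1
  have f1 : D = Par_504.X (-1) 0 (Lam D) := Par_504.D_eq h0
  refine ⟨?_, ?_, ?_, ?_, ?_, ?_, t6, t2⟩
  · rw [f2, f6, Par_504.X_pow, Par_504.X_mul]
    refine le_trans (le_of_eq ?_) (e1.trans (le_of_eq ?_))
    · rw [← f1]
    · congr 1
      · norm_num
  · rw [f2]
    rw [one_mul, ← f1] at e2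
    exact e2
  · rw [f2, f3, f4, f5]
    calc Par_504.X (-1 / 2) 0 (Lam D) * (4 * Par_504.X 0 (-Par_504.bb m a) (Lam D))
        = 4 * (Par_504.X (-1 / 2) 0 (Lam D) * Par_504.X 0 (-Par_504.bb m a) (Lam D)) := by ring
      _ = 4 * Par_504.X (-1 / 2) (-Par_504.bb m a) (Lam D) := by
          rw [Par_504.X_mul]; congr 2 <;> ring
      _ ≤ _ := e3
      _ = √c * (Par_504.X 0 (-2) (Lam D) *
          Par_504.X (-1 / 2) (-((2 * m + 3) * a) / 2) (Lam D)) := by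
          rw [Par_504.X_mul]; congr 2; ring
      _ = _ := by ring
  · rw [f2]
    rw [one_mul] at e4
    exact e4
  · rw [← f1] at e5
    exact e5
  · have g1 : Lam D = Par_504.X 0 1 (Lam D) := Par_504.self_eq_X hΛ
    have hX := Par_504.X_pos 0 (-2) (Lam D)
    have hTp : 0 ≤ TOf m a D + 4 := by
      have := Real.exp_pos (Real.log (Lam D) / 2)
      linarith
    rw [f2]
    calc E * Par_504.X 0 (-2) (Lam D) * (TOf m a D + 4)
        ≤ |E| * Par_504.X 0 (-2) (Lam D) * (TOf m a D + 4) := by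
          gcongr
          exact le_abs_self E
      _ ≤ |E| * Par_504.X 0 (-2) (Lam D) * (5 * Lam D) := by
          gcongr
          linarith
      _ = |E| * 5 * (Par_504.X 0 (-2) (Lam D) * Lam D) := by ring
      _ = |E| * 5 * Par_504.X 0 (-1) (Lam D) := by
          conv_lhs => rw [show Par_504.X 0 (-2) (Lam D) * Lam D =
            Par_504.X 0 (-2) (Lam D) * Par_504.X 0 1 (Lam D) by rw [← g1]]
          rw [Par_504.X_mul]
          congr 2 <;> norm_num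
      _ ≤ η := e6

/-- constants of the drift -/
def Dr4 (m : ℕ) (C : ℝ) : ℝ := D4 12 C (Md m) + D5 m (((19:ℝ) / 100) ^ 4) 12 C (Md m) + 1

def Dr6 (m : ℕ) : ℝ := D6 m (((19:ℝ) / 100) ^ 4) 12 (Md m)

def Dr7 (m : ℕ) (C : ℝ) : ℝ := D7 m (((19:ℝ) / 100) ^ 4) 12 C (Md m)

theorem D5_nonneg {m : ℕ} {cg K Mb M : ℝ} (hcg : 0 < cg) (hK : 0 ≤ K) (hM : 0 < M) :
    0 ≤ D5 m cg K Mb M := by
  have h1 := CE_nonneg (m := m) hcg hM
  have h2 := We_822.BB_one
  unfold D5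
  positivity

theorem D6_nonneg {m : ℕ} {cg K M : ℝ} (hcg : 0 < cg) (hK : 0 ≤ K) (hM : 0 < M) :
    0 ≤ D6 m cg K M := by
  have h1 := CE_nonneg (m := m) hcg hM
  have h2 := We_822.BB_one
  unfold D6
  positivity

theorem D7_nonneg {m : ℕ} {cg K Mb M : ℝ} (hcg : 0 < cg) (hK : 0 ≤ K) (hMb : 0 ≤ Mb)
    (hM : 0 < M) : 0 ≤ D7 m cg K Mb M := by
  have h1 := CE_nonneg (m := m) hcg hM
  have h2 := We_822.BB_one
  unfold D7
  positivity

theorem Dr4_pos {m : ℕ} (hm : 2 ≤ m) (C : ℝ) : 0 < Dr4 m C := by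
  have h1 := D5_nonneg (m := m) (cg := ((19:ℝ) / 100) ^ 4) (K := 12) (Mb := C) (M := Md m)
    (by norm_num) (by norm_num) (Md_pos (by lia))
  have h2 : 0 ≤ D4 12 C (Md m) := Real.sqrt_nonneg _
  unfold Dr4
  linarith

theorem Dr6_nonneg {m : ℕ} (hm : 2 ≤ m) : 0 ≤ Dr6 m :=
  D6_nonneg (by norm_num) (by norm_num) (Md_pos (by lia))

theorem Dr7_nonneg {m : ℕ} (hm : 2 ≤ m) {C : ℝ} (hC : 0 ≤ C) : 0 ≤ Dr7 m C :=
  D7_nonneg (by norm_num) (by norm_num) hC (Md_pos (by lia))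

set_option maxHeartbeats 1000000 in
/-- **the drift at a contact centre** -/
theorem Pk.drift (m n Q : ℕ) (hm : 2 ≤ m) {a : ℝ} (ha : 1 ≤ a) (A C C₁ K cS : ℝ) {c η : ℝ}
    (hc : 0 < c) (hη : 0 < η) :
    ∃ l0 : ℝ, ∀ X : Sit m n a, ∀ x, Pk A C C₁ X Q K cS x → l0 ≤ Real.log (Lam X.D) →
      Dr7 m C * Lam X.D ^ (-2 : ℝ) * (TOf m a X.D + 4) ≤ η ∧
      ∀ q : ℝ, 0 < q → c * Par_504.Dmin m a X.D ≤ q ^ 2 →
        ∀ l ∈ Icc (Real.log (s0Of m a X.D) + Real.log (Lam X.D) - Real.log 4)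
          (Real.log (s0Of m a X.D) + TOf m a X.D + Real.log 4), ∀ p : Euc n,
          ∃ d, HasDerivAt (fun l => Nav (dd m (tauOf a X.D)) X.V X.π X.κ w0.θ' x l
            (Well_761.bump p q)) d l ∧
          |d| ≤ Dr4 m C * q * √(X.sR Q K cS x l + X.sR Q K cS x (l + 1 / 2)) +
            Dr6 m * (X.sR Q K cS x l + X.sR Q K cS x (l + 1 / 2)) +
            (Dr7 m C * Lam X.D ^ (-2 : ℝ)) * q ^ 2 := by
  obtain ⟨l0, hl0⟩ := ev_drift m ha C₁ (Dr7 m C) hc hη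
  refine ⟨max l0 0, fun X x h hl => ?_⟩
  obtain ⟨e1, e2, e3, e4, e5, e6, e7, -⟩ := hl0 X.D h.Dp h.D1 ((le_max_left _ _).trans hl)
  have hla : 0 ≤ Real.log (Lam X.D) := (le_max_right _ _).trans hl
  refine ⟨e6, fun q hq hcq l hlI p => ?_⟩
  have l4 := log4_le
  have l4' := log4_nn
  have hT1 := h.T1
  have hlT := h.lT
  have hMd : 0 < Md m := Md_pos (by lia)
  have hC : 0 ≤ C := by linarith [h.C1]
  have hCtr := h.ctr
  have hr := hCtr.raw
  have hK := h.K9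
  have hδ0 := h.δ0
  have hδs : 7 * X.δ ≤ X.ds := h.ok.δδ
  have hds0 : 0 < X.ds := h.ok.δ0
  have hds1 : X.ds ≤ 1 := h.ok.δ1
  have hΛ : 0 < Lam X.D := Par_504.Lam_pos h.Dp h.D1
  have hτ : 0 < tauOf a X.D := h.ok.τ0
  have s0p := Par_504.s0Of_pos (m := m) (a := a) h.Dp h.D1
  have hθp : 0 < Lam X.D ^ (-2 : ℝ) := Real.rpow_pos_of_pos hΛ _
  have hDm := Par_504.Dmin_pos (m := m) (a := a) h.Dp h.D1
  -- the window
  have hlo : Real.log (s0Of m a X.D) - 4 ≤ l := by linarith [hlI.1]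
  have hup : l + 1 / 2 ≤ Real.log (s0Of m a X.D) + TOf m a X.D + 5 := by linarith [hlI.2]
  have hnx := h.nx
  have hexp : Real.exp l ≤ Real.exp (Real.log (s0Of m a X.D) + TOf m a X.D + 5) :=
    Real.exp_le_exp.2 (by linarith)
  have hnn := norm_nonneg x
  have hel1 : Real.exp l ≤ 1 := by linarith
  have hl0' : l ≤ 0 := by
    rwa [← Real.exp_le_one_iff]
  have hs0l : s0Of m a X.D / 4 ≤ Real.exp l := by
    have h1 : Real.exp (Real.log (s0Of m a X.D) - Real.log 4) ≤ Real.exp l :=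
      Real.exp_le_exp.2 (by linarith [hlI.1])
    rwa [Real.exp_sub, Real.exp_log s0p, Real.exp_log (by norm_num)] at h1
  have hlst : Real.exp l ≤ 4 * stOf m a X.D := by
    have h1 : Real.exp l ≤ Real.exp (Real.log (s0Of m a X.D) + TOf m a X.D + Real.log 4) :=
      Real.exp_le_exp.2 hlI.2
    rwa [Real.exp_add, Par_504.exp_log_s0Of_add_T h.Dp h.D1, Real.exp_log (by norm_num),
      mul_comm] at h1
  -- the energy at `l + 1/2`
  have hε : eea (dd m (tauOf a X.D)) X.V X.π w0.θ x (l + 1 / 2) ≤ C₁ * X.D :=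
    h.e_le (l + 1 / 2) (by linarith) hup
  have hε0 : 0 ≤ eea (dd m (tauOf a X.D)) X.V X.π w0.θ x (l + 1 / 2) := hr.e0 (l + 1 / 2) hup
  have hsq : √(c * Par_504.Dmin m a X.D) ≤ q := by
    rw [show q = √(q ^ 2) from (Real.sqrt_sq hq.le).symm]
    exact Real.sqrt_le_sqrt hcq
  obtain ⟨d, hd1, hd2⟩ := drift_as (x := x) h.ok.cyl h.δ0 (by linarith) (Real.sqrt_nonneg _) hτ.le
    (cw_dd hτ) prof0 w0_nn w0_bd0 w0_bd (cg := ((19:ℝ) / 100) ^ 4) (by norm_num) w0_low4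
    (by rw [integral_dd hτ]; exact hMd) (l := l) (q := q) (θ := Lam X.D ^ (-2 : ℝ)) (Mb := C) hq
    hl0' (h.tau8 l hlo) (by
      rw [sub_zero]
      linarith)
    (fun y hy => h.at_.hmb l ⟨hlo, by linarith⟩ y hy)
    (hε.trans e5) (by
      have h1 : Real.exp (-2 * l) * Real.exp l ^ 2 = 1 := by
        rw [← Real.exp_nat_mul, ← Real.exp_add]
        have : (-2 * l + ((2 : ℕ) : ℝ) * l) = 0 := by push_cast; ring
        rw [this, Real.exp_zero]
      have h2 : (s0Of m a X.D / 4) ^ 2 ≤ Real.exp l ^ 2 := pow_le_pow_left₀ (by positivity) hs0l 2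
      have h3 := Real.exp_pos (-2 * l)
      have h4 : C₁ * X.D ≤ Lam X.D ^ (-2 : ℝ) * Real.exp l ^ 2 := by
        have h5 := mul_le_mul_of_nonneg_left h2 hθp.le
        linarith
      calc Real.exp (-2 * l) * eea (dd m (tauOf a X.D)) X.V X.π w0.θ x (l + 1 / 2)
          ≤ Real.exp (-2 * l) * (Lam X.D ^ (-2 : ℝ) * Real.exp l ^ 2) :=
            mul_le_mul_of_nonneg_left (hε.trans h4) h3.le
        _ = Lam X.D ^ (-2 : ℝ) := by linear_combination (Lam X.D ^ (-2 : ℝ)) * h1)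
    (by rw [Real.sq_sqrt h.Dp.le]; exact e2)
    (by
      calc √X.D * Real.exp l ≤ √X.D * (4 * stOf m a X.D) :=
            mul_le_mul_of_nonneg_left hlst (Real.sqrt_nonneg _)
        _ ≤ Lam X.D ^ (-2 : ℝ) * √(c * Par_504.Dmin m a X.D) := e3
        _ ≤ Lam X.D ^ (-2 : ℝ) * q := mul_le_mul_of_nonneg_left hsq hθp.le) e4
    (Well_761.test_bump p hq)
  rw [integral_dd hτ] at hd2
  have hd3 : |d| ≤ D4 12 C (Md m) * q * √(RRa (dd m (tauOf a X.D)) X.V X.π w0.θ' x l) +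
      D5 m (((19:ℝ) / 100) ^ 4) 12 C (Md m) * q *
        √(X.δ * eea (dd m (tauOf a X.D)) X.V X.π w0.θ x (l + 1 / 2)) +
      D6 m (((19:ℝ) / 100) ^ 4) 12 (Md m) *
        (X.δ * eea (dd m (tauOf a X.D)) X.V X.π w0.θ x (l + 1 / 2)) +
      D7 m (((19:ℝ) / 100) ^ 4) 12 C (Md m) * (Lam X.D ^ (-2 : ℝ) * q ^ 2) := hd2
  refine ⟨d, hd1, hd3.trans ?_⟩
  -- the right side
  have hR1 : RRa (dd m (tauOf a X.D)) X.V X.π w0.θ' x l ≤ X.sR Q K cS x l :=
    hr.R_le_Rs (by linarith) (by linarith)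
  have hR0 : 0 ≤ X.sR Q K cS x l := hr.Rs_nonneg (by linarith) (by linarith)
  have hR2 : X.δ * eea (dd m (tauOf a X.D)) X.V X.π w0.θ x (l + 1 / 2) ≤
      X.sR Q K cS x (l + 1 / 2) := by
    have h1 := hCtr.Rs_lower hup
    have h2 : 0 ≤ (daOf X Q K cS X.ds).R x (l + 1 / 2) := hr.R0 _ hup
    have h3 : 0 ≤ (daOf X Q K cS X.ds).g x (l + 1 / 2) := hr.g0 _ hup
    have h4 : 0 ≤ (daOf X Q K cS X.ds).p x (l + 1 / 2) := hr.p0 _ hup
    have h5 : 0 ≤ (daOf X Q K cS X.ds).et x (l + 1 / 2) := hr.et0 hup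
    have h6 : X.δ * eea (dd m (tauOf a X.D)) X.V X.π w0.θ x (l + 1 / 2) ≤
        X.ds * ((daOf X Q K cS X.ds).e x (l + 1 / 2) +
          (daOf X Q K cS X.ds).et x (l + 1 / 2)) := by
      have h7 : (daOf X Q K cS X.ds).e x (l + 1 / 2) =
        eea (dd m (tauOf a X.D)) X.V X.π w0.θ x (l + 1 / 2) := rfl
      rw [h7]
      exact mul_le_mul (by linarith) (by linarith) hε0 hds0.le
    have h8 : 0 ≤ X.ds * ((daOf X Q K cS X.ds).e x (l + 1 / 2) +
          (daOf X Q K cS X.ds).et x (l + 1 / 2)) := by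
      have : 0 ≤ (daOf X Q K cS X.ds).e x (l + 1 / 2) := hε0
      positivity
    have h9 : 1 * (X.ds * ((daOf X Q K cS X.ds).e x (l + 1 / 2) +
          (daOf X Q K cS X.ds).et x (l + 1 / 2))) ≤ (K - 1) * (X.ds *
            ((daOf X Q K cS X.ds).e x (l + 1 / 2) + (daOf X Q K cS X.ds).et x (l + 1 / 2))) :=
      mul_le_mul_of_nonneg_right (by linarith) h8
    have h10 : X.sR Q K cS x (l + 1 / 2) = Shp_98.Rs K X.ds ((daOf X Q K cS X.ds).e x)
      ((daOf X Q K cS X.ds).et x) ((daOf X Q K cS X.ds).g x) ((daOf X Q K cS X.ds).R x)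
      ((daOf X Q K cS X.ds).f x) ((daOf X Q K cS X.ds).p x) (l + 1 / 2) := rfl
    rw [h10]
    linarith
  have hR20 : 0 ≤ X.sR Q K cS x (l + 1 / 2) := by
    refine le_trans ?_ hR2
    positivity
  set a1 := X.sR Q K cS x l with ha1
  set b1 := X.sR Q K cS x (l + 1 / 2) with hb1
  have g1 : √(RRa (dd m (tauOf a X.D)) X.V X.π w0.θ' x l) ≤ √(a1 + b1) :=
    Real.sqrt_le_sqrt (by linarith)
  have g2 : √(X.δ * eea (dd m (tauOf a X.D)) X.V X.π w0.θ x (l + 1 / 2)) ≤ √(a1 + b1) :=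
    Real.sqrt_le_sqrt (by linarith)
  have g3 : X.δ * eea (dd m (tauOf a X.D)) X.V X.π w0.θ x (l + 1 / 2) ≤ a1 + b1 := by linarith
  have k4 : 0 ≤ D4 12 C (Md m) := Real.sqrt_nonneg _
  have k5 := D5_nonneg (m := m) (cg := ((19:ℝ) / 100) ^ 4) (K := 12) (Mb := C) (M := Md m)
    (by norm_num) (by norm_num) hMd
  have k6 := Dr6_nonneg hm
  have hsqn := Real.sqrt_nonneg (a1 + b1)
  have j1 : D4 12 C (Md m) * q * √(RRa (dd m (tauOf a X.D)) X.V X.π w0.θ' x l) ≤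
      D4 12 C (Md m) * q * √(a1 + b1) := mul_le_mul_of_nonneg_left g1 (by positivity)
  have j2 : D5 m (((19:ℝ) / 100) ^ 4) 12 C (Md m) * q *
      √(X.δ * eea (dd m (tauOf a X.D)) X.V X.π w0.θ x (l + 1 / 2)) ≤
      D5 m (((19:ℝ) / 100) ^ 4) 12 C (Md m) * q * √(a1 + b1) :=
    mul_le_mul_of_nonneg_left g2 (by positivity)
  have j3 : D6 m (((19:ℝ) / 100) ^ 4) 12 (Md m) *
      (X.δ * eea (dd m (tauOf a X.D)) X.V X.π w0.θ x (l + 1 / 2)) ≤ Dr6 m * (a1 + b1) :=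
    mul_le_mul_of_nonneg_left g3 k6
  have j4 : 0 ≤ q * √(a1 + b1) := by positivity
  have j5 : Dr4 m C * q * √(a1 + b1) = D4 12 C (Md m) * q * √(a1 + b1) +
      D5 m (((19:ℝ) / 100) ^ 4) 12 C (Md m) * q * √(a1 + b1) + q * √(a1 + b1) := by
    unfold Dr4
    ring
  have j6 : Dr7 m C * Lam X.D ^ (-2 : ℝ) * q ^ 2 =
      D7 m (((19:ℝ) / 100) ^ 4) 12 C (Md m) * (Lam X.D ^ (-2 : ℝ) * q ^ 2) := by
    unfold Dr7
    ring
  rw [j5, j6]
  linarith

/-- **NRUN-INST, parts (A) and (B)** -/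
theorem exists_run (m n Q : ℕ) (hm : 2 ≤ m) {K cS a : ℝ} (hK : 9 ≤ K) (hcS : 0 < cS)
    (ha : 1 ≤ a) :
    ∃ c C CR Ce C4 C6 : ℝ, 0 < c ∧ 0 < C ∧ 0 < CR ∧ 0 ≤ Ce ∧ 0 < C4 ∧ 0 ≤ C6 ∧
      ∀ c' η : ℝ, 0 < c' → 0 < η → ∃ l0 : ℝ, 0 ≤ l0 ∧ ∀ X : Sit m n a, IsSit Q K cS X →
        l0 ≤ Real.log (Lam X.D) → ∃ θ₂ : ℝ, 0 ≤ θ₂ ∧ θ₂ * (TOf m a X.D + 4) ≤ η ∧
        ∀ x ∈ X.Z, USide c C CR Ce X Q K cS x ∧
          ∀ q : ℝ, 0 < q → c' * Par_504.Dmin m a X.D ≤ q ^ 2 →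
          ∀ l ∈ Icc (Real.log (s0Of m a X.D) + Real.log (Lam X.D) - Real.log 4)
            (Real.log (s0Of m a X.D) + TOf m a X.D + Real.log 4), ∀ p : Euc n,
            ∃ d, HasDerivAt (fun l => Nav (dd m (tauOf a X.D)) X.V X.π X.κ w0.θ' x l
              (Well_761.bump p q)) d l ∧
            |d| ≤ C4 * q * √(X.sR Q K cS x l + X.sR Q K cS x (l + 1 / 2)) +
              C6 * (X.sR Q K cS x l + X.sR Q K cS x (l + 1 / 2)) + θ₂ * q ^ 2 := by
  obtain ⟨A, C, C₁, l1, hA, hC, hC₁, hl1, hpk⟩ := exists_pk m n Q hm hK hcS ha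
  have hm0 : 0 < m := by lia
  refine ⟨cD m cS, 2 * (A + K) * C₁, A * Real.exp (2 * (m - 2)), Cen m, Dr4 m C, Dr6 m,
    cD_pos hm0 hcS, by positivity, by positivity, ?_, Dr4_pos hm C, Dr6_nonneg hm, ?_⟩
  · have := Md_pos hm0
    unfold Cen
    positivity
  intro c' η hc' hη
  obtain ⟨l2, hl2⟩ := Pk.drift m n Q hm ha A C C₁ K cS hc' hη
  obtain ⟨l3, hl3⟩ := ev_drift m ha C₁ (Dr7 m C) hc' hη
  refine ⟨max l1 (max l2 l3), hl1.trans (le_max_left _ _), fun X hX hl => ?_⟩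
  have hla : l1 ≤ Real.log (Lam X.D) := (le_max_left _ _).trans hl
  have hlb : l2 ≤ Real.log (Lam X.D) := ((le_max_left _ _).trans (le_max_right _ _)).trans hl
  have hlc : l3 ≤ Real.log (Lam X.D) := ((le_max_right _ _).trans (le_max_right _ _)).trans hl
  obtain ⟨-, -, -, -, -, e6, -, -⟩ := hl3 X.D hX.D0 hX.D1 hlc
  have hΛ : 0 < Lam X.D := Par_504.Lam_pos hX.D0 hX.D1
  refine ⟨Dr7 m C * Lam X.D ^ (-2 : ℝ), ?_, e6, fun x hx => ?_⟩
  · have := Dr7_nonneg hm (C := C) (by linarith)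
    have := Real.rpow_pos_of_pos hΛ (-2 : ℝ)
    positivity
  · have h := hpk X hX hla x hx
    exact ⟨h.uside (hl1.trans hla), (hl2 X x h hlb).2⟩

end Crest.Agent.R234.Rni_98
end
end

-- ▼ part R234/Rni4_98
section

/-!
# Row 234 (helper98): NRUN-INST, the literal targets `UProp`, `DrProp` of `Rn3_870`
-/

set_option autoImplicit false

open MeasureTheory Set Function Filter Topology Metric
open Crest.GeometryTopology.Submanifold
open Crest.Agent.R234.Vf_884 Crest.Agent.R234.Ar_870 Crest.Agent.R234.Cy_870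
open Crest.Agent.R234.Wi_870 Crest.Agent.R234.Asl_214
open Crest.Agent.R234.Avg_387 (CW av dd cw_dd Md integral_dd Md_pos eea RRa)
open Crest.Agent.R234.Core_809
open scoped ENNReal NNReal

noncomputable section

namespace Crest.Agent.R234.Rni_98

variable {m n : ℕ} {a : ℝ}

theorem USide.conv {c C CR Ce : ℝ} {X : Sit m n a} {Q : ℕ} {K cS : ℝ} {x : Euc m}
    (h : USide c C CR Ce X Q K cS x) (hT : -4 ≤ TOf m a X.D) :
    Rn_870.USide Q K cS X c C CR Ce x where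
  low := h.Ulow
  up := h.Uup _ hT (by linarith)
  R0 := h.R0
  der := fun l hl => by
    have h1 := h.dU l hl
    have e1 : (fun l => X.sU Q K cS x (l - Real.log (s0Of m a X.D) + Real.log (s0Of m a X.D))) =
        fun l => X.sU Q K cS x l := by
      funext u
      rw [sub_add_cancel]
    rwa [e1] at h1
  U0 := by
    have h1 := h.U0
    have e1 : Real.log (Lam X.D) - Real.log 4 + Real.log (s0Of m a X.D) =
      Real.log (s0Of m a X.D) + Real.log (Lam X.D) - Real.log 4 := by ring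
    rwa [e1] at h1
  Ue := fun t ht => by
    have h1 := h.Ue t ht
    have e1 : t + Real.log 4 + 1 / 2 + Real.log (s0Of m a X.D) =
      Real.log (s0Of m a X.D) + t + Real.log 4 + 1 / 2 := by ring
    have e2 : t + 3 + Real.log (s0Of m a X.D) = Real.log (s0Of m a X.D) + t + 3 := by ring
    rwa [e1, e2] at h1
  en := fun t ht => by
    have h1 := h.he t ht
    have e2 : t + 3 + Real.log (s0Of m a X.D) = Real.log (s0Of m a X.D) + t + 3 := by ring
    rwa [e2] at h1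

theorem uProp (m n Q : ℕ) (hm : 2 ≤ m) {K cS a : ℝ} (hK : 9 ≤ K) (hcS : 0 < cS)
    (ha : 1 ≤ a) : Rn_870.UProp m n Q K cS a := by
  obtain ⟨c, C, CR, Ce, C4, C6, hc, hC, hCR, hCe, hC4, hC6, h⟩ := exists_run m n Q hm hK hcS ha
  obtain ⟨l0, hl0, hX⟩ := h 1 1 one_pos one_pos
  obtain ⟨l1, hl1⟩ := Par_504.ev_T m a 1
  refine ⟨c, C, CR, Ce, max l0 l1, hc, hC.le, hCR.le, hCe, fun X hXs hl x hx => ?_⟩
  obtain ⟨-, -, hT3, -, -, -⟩ := hl1 X.D hXs.D0 hXs.D1 ((le_max_right _ _).trans hl)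
  obtain ⟨θ₂, -, -, h1⟩ := hX X hXs ((le_max_left _ _).trans hl)
  refine (h1 x hx).1.conv ?_
  have := Real.exp_pos (Real.log (Lam X.D) / 2)
  linarith

theorem drProp (m n Q : ℕ) (hm : 2 ≤ m) {K cS a : ℝ} (hK : 9 ≤ K) (hcS : 0 < cS)
    (ha : 1 ≤ a) : Rn_870.DrProp m n Q K cS a := by
  obtain ⟨c, C, CR, Ce, C4, C6, hc, hC, hCR, hCe, hC4, hC6, h⟩ := exists_run m n Q hm hK hcS ha
  refine ⟨C4, C6, hC4, hC6, fun c' η hc' hη => ?_⟩
  obtain ⟨l0, hl0, hX⟩ := h c' η hc' hη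
  refine ⟨l0, fun X hXs hl x hx q hq _ hcq => ?_⟩
  obtain ⟨θ₂, h2, h3, h1⟩ := hX X hXs hl
  exact ⟨θ₂, h2, h3, fun p l hlI => (h1 x hx).2 q hq hcq l hlI p⟩

/-- **both targets** -/
theorem udr : ∀ m n Q : ℕ, 3 ≤ m → 1 ≤ n → 1 ≤ Q → ∃ K0 : ℝ, ∀ K : ℝ, K0 ≤ K → ∀ cS a : ℝ,
    0 < cS → 1 ≤ a → Rn_870.UProp m n Q K cS a ∧ Rn_870.DrProp m n Q K cS a :=
  fun m n Q hm _ _ => ⟨9, fun _ hK _ _ hcS ha =>
    ⟨uProp m n Q (by lia) hK hcS ha, drProp m n Q (by lia) hK hcS ha⟩⟩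

end Crest.Agent.R234.Rni_98
end
end

-- ▼ part R234/Rn6_870
section

/-!
# Row 234, N9-AV, part 6 (helper870): `nRunP : NRunP`
-/

set_option autoImplicit false

noncomputable section

namespace Crest.Agent.R234.Rn_870

/-- **NODE NRUN** -/
theorem nRunP : Core_809.NRunP := by
  intro m n Q hm hn hQ
  obtain ⟨K0, h⟩ := Rni_98.udr m n Q hm hn hQ
  refine ⟨K0, fun K hK cS a hcS ha => ?_⟩
  obtain ⟨h1, h2⟩ := h K hK cS a hcS ha
  exact nRun_of hm hcS ha h1 h2 (numRun m ha)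

end Crest.Agent.R234.Rn_870
end
end

-- ▼ part R234/Core8_809
section

/-!
# R234 / Core8_809 : the core, `CoreProp`, is proved
-/

set_option autoImplicit false

namespace Crest.Agent.R234.Core_809

/-- **THE CORE** -/
theorem coreProp : CoreProp := coreProp_of_nRun Rn_870.nRunP

end Crest.Agent.R234.Core_809
end

-- ▼ part R234/F41_354

/-!
# Row 234, F3 (helper354), file 11: the local estimate is proved
-/

set_option autoImplicit false

namespace Crest.Agent.R234.F40_354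

/-- **the local estimate** -/
theorem lep (m n k Q : ℕ) (hm : 3 ≤ m) (hn : 1 ≤ n) (hQ : 1 ≤ Q) : F36_354.LEP m n k Q :=
  le_of Core_809.coreProp hm hn hQ (Fm_281.b2P m n k Q)

end Crest.Agent.R234.F40_354
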