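import Crest.Agent.R234.Fa2_694
import Crest.Agent.R234.Sp3_643
import Crest.Agent.R234.Strat5_842
import Crest.Agent.R234.Vf6_884
import Crest.Agent.R234.Main_456

-- ▼ part R234/Fa3_694
section

/-!
Row 234, VF-FA (helper694), file 3: content positive sets of points of maximal density force flatness.

`flat_of_cont` : `x ∈ A`, `Th x ≤ Th y` on `A`, `s > m - 1`, `c > 0`, `ε > 0` : at all small scales `r` with
`c r ^ s ≤ cont s (A ∩ closedBall x r)` the varifold is `ε`-flat (height and tilt) in `ball x (R r)`.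
-/

set_option autoImplicit false

open Set Filter Topology MeasureTheory Metric Module
open Crest.GeometryTopology.Submanifold
open Crest.Agent.R234.Vf_884 Crest.Agent.R234.Strat3_842
open scoped ENNReal NNReal InnerProductSpace

noncomputable section

namespace Crest.Agent.R234.Fa_694

variable {m k : ℕ} {V : Measure (Euc k × L k)} {U : Set (Euc k)}

/-- the density as a real number, normalised as the ratios `Nc`. -/
def thr (m : ℕ) (V : Measure (Euc k × L k)) (x : Euc k) : ℝ := (Th m V x).toReal * ome m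

theorem Nc_eq (V : Measure (Euc k × L k)) (m : ℕ) (z : Euc k) {r : ℝ} (hr : 0 < r) :
    Nc m V z r =
      (mass V (closedBall z r) / ENNReal.ofReal (ome m * r ^ m)).toReal * ome m := by
  unfold Nc
  rw [ENNReal.toReal_div, ENNReal.toReal_ofReal (den_pos m hr).le, ← measureReal_def,
    mass_real_apply V measurableSet_closedBall]
  have := (ome_pos m).ne'
  field_simp

theorem tendsto_Nc (hV : Stat m k U V) (hm : 1 ≤ m) (hU : IsOpen U) {x : Euc k} (hx : x ∈ U) :
    Tendsto (Nc m V x) (𝓝[>] 0) (𝓝 (thr m V x)) := by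
  obtain ⟨R, hR, hRU⟩ := exists_closedBall hU hx
  have h1 := tendsto_rat_closed hV hm hR (ball_subset_closedBall.trans hRU)
  have h2 := (ENNReal.tendsto_toReal (Th_lt_top hV hm hU hx).ne).comp h1
  refine (h2.mul_const (ome m)).congr' ?_
  filter_upwards [self_mem_nhdsWithin] with r hr
  exact (Nc_eq V m x hr).symm

theorem thr_le_Nc (hV : Stat m k U V) (hm : 1 ≤ m) (hU : IsOpen U) {x : Euc k} {r : ℝ}
    (hr : 0 < r) (hrU : closedBall x r ⊆ U) : thr m V x ≤ Nc m V x r := by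
  refine le_of_tendsto (tendsto_Nc hV hm hU (hrU (mem_closedBall_self hr.le))) ?_
  filter_upwards [Ioo_mem_nhdsGT hr] with σ hσ
  exact Nc_mono hV hm hσ.1 hσ.2.le hrU

theorem thr_le_thr (hV : Stat m k U V) (hm : 1 ≤ m) (hU : IsOpen U) {x y : Euc k} (hy : y ∈ U)
    (h : Th m V x ≤ Th m V y) : thr m V x ≤ thr m V y := by
  unfold thr
  exact mul_le_mul_of_nonneg_right
    (ENNReal.toReal_mono (Th_lt_top hV hm hU hy).ne h) (ome_pos m).le

/-- the defect is controlled by the excess of the ratio over the density. -/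
theorem dInt_le_thr (hV : Stat m k U V) (hm : 1 ≤ m) (hU : IsOpen U) {y : Euc k} {r : ℝ}
    (hr : 0 < r) (hrU : closedBall y r ⊆ U) :
    dInt V y r ≤ r ^ (m + 2) * (Nc m V y r - thr m V y) := by
  have h1 : Tendsto (fun σ : ℝ => r ^ (m + 2) * (Nc m V y r - thr m V y)
      + σ ^ (m + 2) * Nc m V y r) (𝓝[>] 0)
      (𝓝 (r ^ (m + 2) * (Nc m V y r - thr m V y) + 0 ^ (m + 2) * Nc m V y r)) := by
    refine Tendsto.mono_left ?_ nhdsWithin_le_nhds
    exact Continuous.tendsto (by fun_prop) 0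
  rw [zero_pow (by omega), zero_mul, add_zero] at h1
  refine ge_of_tendsto h1 ?_
  filter_upwards [Ioo_mem_nhdsGT hr] with σ hσ
  refine (dInt_le hV hm hσ.1 hσ.2 hrU).trans ?_
  have h2 : thr m V y ≤ Nc m V y σ :=
    thr_le_Nc hV hm hU hσ.1 ((closedBall_subset_closedBall hσ.2.le).trans hrU)
  have h3 : Nc m V y σ ≤ Nc m V y r := Nc_mono hV hm hσ.1 hσ.2.le hrU
  have h4 : (0:ℝ) < σ ^ (m + 2) := pow_pos hσ.1 _
  have h5 : (0:ℝ) < r ^ (m + 2) := pow_pos hr _
  nlinarith

/-- ratios at nearby points. -/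
theorem Nc_shift (hV : Stat m k U V) {x y : Euc k} {a b : ℝ} (ha : 0 < a) (h : dist y x + a ≤ b)
    (hU : closedBall x b ⊆ U) : Nc m V y a ≤ (b / a) ^ m * Nc m V x b := by
  have hb : 0 < b := by
    have := dist_nonneg (x := y) (y := x)
    linarith
  have hsub : closedBall y a ⊆ closedBall x b := closedBall_subset_closedBall' (by linarith)
  have hfin : V (Prod.fst ⁻¹' closedBall x b) ≠ ⊤ := by
    rw [← prod_univ_eq]
    exact (hV.fin _ (isCompact_closedBall _ _) hU).ne
  unfold Nc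
  have h1 : V.real (Prod.fst ⁻¹' closedBall y a) ≤ V.real (Prod.fst ⁻¹' closedBall x b) :=
    measureReal_mono (preimage_mono hsub) hfin
  calc (a ^ m)⁻¹ * V.real (Prod.fst ⁻¹' closedBall y a)
      ≤ (a ^ m)⁻¹ * V.real (Prod.fst ⁻¹' closedBall x b) := by gcongr
    _ = (b / a) ^ m * ((b ^ m)⁻¹ * V.real (Prod.fst ⁻¹' closedBall x b)) := by
        rw [div_pow]; field_simp

/-- **uniform pinching** at all points of density at least `Th x` near `x`. -/
theorem pinch (hV : Stat m k U V) (hm : 1 ≤ m) (hU : IsOpen U) {x : Euc k} (hx : x ∈ U) {η : ℝ}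
    (hη : 0 < η) : ∃ r₀ > (0:ℝ), ∀ r : ℝ, 0 < r → r ≤ r₀ → ∀ y : Euc k, dist y x ≤ r →
      Th m V x ≤ Th m V y → dInt V y (2 * r) ≤ η * r ^ (m + 2) := by
  obtain ⟨R, hR, hRU⟩ := exists_closedBall hU hx
  set θ : ℝ := thr m V x with hθ
  have hη' : 0 < η / 2 ^ (m + 2) := by positivity
  -- choose the big factor
  obtain ⟨M, hM2, hM⟩ : ∃ M : ℝ, 2 ≤ M ∧
      ((M + 1) / M) ^ m * (θ + 1 / M) - θ < η / 2 ^ (m + 2) := by
    have h1 : Tendsto (fun M : ℝ => ((M + 1) / M) ^ m * (θ + 1 / M) - θ) atTop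
        (𝓝 ((1 + 0) ^ m * (θ + 0) - θ)) := by
      have h2 : Tendsto (fun M : ℝ => 1 / M) atTop (𝓝 0) := by
        simpa using tendsto_inv_atTop_zero (𝕜 := ℝ)
      have h3 : Tendsto (fun M : ℝ => (1 + 1 / M)) atTop (𝓝 (1 + 0)) := tendsto_const_nhds.add h2
      have h4 := ((h3.pow m).mul (tendsto_const_nhds (x := θ) |>.add h2)).sub_const θ
      refine h4.congr' ?_
      filter_upwards [eventually_gt_atTop (0:ℝ)] with M hM
      have : (M + 1) / M = 1 + 1 / M := by field_simp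
      rw [this]
    rw [add_zero, add_zero, one_pow, one_mul, sub_self] at h1
    obtain ⟨M, hM1, hM2⟩ := ((h1.eventually (gt_mem_nhds hη')).and (eventually_ge_atTop (2:ℝ))).exists
    exact ⟨M, hM2, hM1⟩
  have hM0 : 0 < M := by linarith
  -- choose the small scale
  have h1 := (tendsto_Nc hV hm hU hx).eventually
    (gt_mem_nhds (show thr m V x < θ + 1 / M by rw [← hθ]; linarith [one_div_pos.2 hM0]))
  obtain ⟨ρ, hρ, hρ'⟩ := mem_nhdsGT_iff_exists_Ioc_subset.1 h1
  have hρ0 : 0 < ρ := hρ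
  refine ⟨min ρ R / (M + 1), by positivity, fun r hr hrr y hy hTh => ?_⟩
  have hrr' : (M + 1) * r ≤ min ρ R := by
    rw [le_div_iff₀ (by positivity)] at hrr; linarith
  have hbU : closedBall x ((M + 1) * r) ⊆ U :=
    (closedBall_subset_closedBall (hrr'.trans (min_le_right _ _))).trans hRU
  have hyU' : closedBall y (M * r) ⊆ U := (closedBall_subset_closedBall' (by linarith)).trans hbU
  have hyU : closedBall y (2 * r) ⊆ U := (closedBall_subset_closedBall (by nlinarith)).trans hyU'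
  have hyin : y ∈ U := hyU (mem_closedBall_self (by positivity))
  have e1 : Nc m V y (2 * r) ≤ Nc m V y (M * r) :=
    Nc_mono hV hm (by positivity) (by nlinarith) hyU'
  have e2 : Nc m V y (M * r) ≤ (((M + 1) * r) / (M * r)) ^ m * Nc m V x ((M + 1) * r) :=
    Nc_shift hV (by positivity) (by linarith) hbU
  have e3 : ((M + 1) * r) / (M * r) = (M + 1) / M := mul_div_mul_right _ _ hr.ne'
  have e4 : Nc m V x ((M + 1) * r) < θ + 1 / M :=
    hρ' ⟨by positivity, hrr'.trans (min_le_left _ _)⟩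
  have e5 : Nc m V y (2 * r) ≤ ((M + 1) / M) ^ m * (θ + 1 / M) := by
    rw [e3] at e2
    exact (e1.trans e2).trans (by gcongr)
  have e6 : θ ≤ thr m V y := thr_le_thr hV hm hU hyin hTh
  calc dInt V y (2 * r) ≤ (2 * r) ^ (m + 2) * (Nc m V y (2 * r) - thr m V y) :=
        dInt_le_thr hV hm hU (by positivity) hyU
    _ ≤ (2 * r) ^ (m + 2) * (η / 2 ^ (m + 2)) := by
        gcongr
        linarith
    _ = η * r ^ (m + 2) := by
        rw [mul_pow]; field_simp

/-- flatness from a fat simplex of points of density at least `Th x`. -/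
theorem flat_of_not_flat (hV : Stat m k U V) (hm : 1 ≤ m) (hU : IsOpen U) {x : Euc k} (hx : x ∈ U)
    {δ : ℝ} (hδ : 0 < δ) {ε : ℝ} (hε : 0 < ε) :
    ∃ r₀ > (0:ℝ), ∀ r : ℝ, 0 < r → r ≤ r₀ → ∀ A : Set (Euc k), x ∈ A →
      (∀ y ∈ A, Th m V x ≤ Th m V y) → ¬ Sp1_643.Flat (m - 1) δ A x r → Flat m V x r ε := by
  set K : ℝ := Sp3_643.Cf (m - 1) δ with hK
  have hK0 : 0 < K := by
    rw [hK]; unfold Sp3_643.Cf; positivity
  set C : ℝ := 2 + 20 * (m * K) ^ 2 * m with hC
  have hC0 : 0 < C := by positivity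
  obtain ⟨R, hR, hRU⟩ := exists_closedBall hU hx
  obtain ⟨r₀, hr₀, hpin⟩ := pinch hV hm hU hx (η := ε / C) (by positivity)
  refine ⟨min r₀ (R / 3), by positivity, fun r hr hrr A hxA hA hnf => ?_⟩
  have hrr0 : r ≤ r₀ := hrr.trans (min_le_left _ _)
  have hrR : 3 * r ≤ R := by have := hrr.trans (min_le_right _ _); linarith
  obtain ⟨w, hw1, hw2⟩ := Sp3_643.exists_fat hδ hr hxA hnf
  have hm1 : m - 1 + 1 = m := by omega
  let v : Fin m → Euc k := fun i => r⁻¹ • w (Fin.cast hm1.symm i)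
  have hrv : ∀ i, r • v i = w (Fin.cast hm1.symm i) := fun i => by
    simp only [v]; rw [smul_smul, mul_inv_cancel₀ hr.ne', one_smul]
  have hv1 : ∀ i, ‖v i‖ ≤ 1 := fun i => by
    simp only [v]
    rw [norm_smul, norm_inv, Real.norm_of_nonneg hr.le, inv_mul_le_iff₀ hr, mul_one]
    exact (hw1 _).2
  have hv2 : ∀ (c : Fin m → ℝ) (i : Fin m), |c i| ≤ K * ‖∑ i, c i • v i‖ := by
    intro c i
    have h1 := hw2 (fun j => c (Fin.cast hm1 j)) (Fin.cast hm1.symm i)
    have h2 : (∑ j, c (Fin.cast hm1 j) • w j) = r • ∑ i, c i • v i := by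
      rw [Finset.smul_sum]
      have : ∀ i, r • c i • v i = c i • w (Fin.cast hm1.symm i) := fun i => by
        rw [smul_comm, hrv]
      simp_rw [this]
      exact Fintype.sum_equiv (finCongr hm1) _ _ fun j => by simp
    rw [h2, norm_smul, Real.norm_of_nonneg hr.le] at h1
    have h3 : |c i| * r ≤ (K * ‖∑ i, c i • v i‖) * r := by
      calc |c i| * r = |c (Fin.cast hm1 (Fin.cast hm1.symm i))| * r := by simp
        _ ≤ _ := h1
        _ = _ := by rw [← hK]; ring
    exact le_of_mul_le_mul_right h3 hr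
  have hdi : ∀ y ∈ A, dist y x ≤ r → dInt V y (2 * r) ≤ ε / C * r ^ (m + 2) := fun y hy hyx =>
    hpin r hr hrr0 y hyx (hA y hy)
  have hfin : V (ball x (3 * r) ×ˢ univ) < ⊤ := by
    refine (measure_mono (Set.prod_mono (ball_subset_closedBall.trans
      (closedBall_subset_closedBall hrR)) Subset.rfl)).trans_lt
      (hV.fin _ (isCompact_closedBall x R) hRU)
  have key := excess_int hV.conc hK0.le hv1 hv2 hr hfin (κ := ε / C * r ^ (m + 2))
    (hdi x hxA (by rw [dist_self]; exact hr.le)) (fun i => by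
      refine hdi _ ?_ ?_
      · rw [hrv]; exact (hw1 _).1
      · rw [dist_eq_norm, add_sub_cancel_left, hrv]; exact (hw1 _).2)
  refine ⟨(plane v).starProjection, plane_mem_G hv2, key.trans (le_of_eq ?_)⟩
  rw [← hC]
  field_simp

/-- **content positive sets of points of maximal density force flatness.** -/
theorem flat_of_cont (hV : Stat m k U V) (hm : 1 ≤ m) (hU : IsOpen U) {x : Euc k} (hx : x ∈ U)
    {s : ℝ} (hs : ((m - 1 : ℕ) : ℝ) < s) {c : ℝ} (hc : 0 < c) {ε : ℝ} (hε : 0 < ε) {R : ℝ}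
    (hR : 1 ≤ R) :
    ∃ r₀ > (0:ℝ), ∀ r : ℝ, 0 < r → r ≤ r₀ → ∀ A : Set (Euc k), x ∈ A →
      (∀ y ∈ A, Th m V x ≤ Th m V y) →
      ENNReal.ofReal c * ENNReal.ofReal r ^ s ≤ cont s (A ∩ closedBall x r) →
      Flat m V x (R * r) ε := by
  have hs0 : 0 < s := lt_of_le_of_lt (Nat.cast_nonneg _) hs
  have hR0 : 0 < R := by linarith
  have hc' : 0 < c / R ^ s := by positivity
  obtain ⟨δ, hδ, -, hnf⟩ := not_flat_of_cont (Euc k) hs hc'
  obtain ⟨r₀, hr₀, h⟩ := flat_of_not_flat hV hm hU hx hδ hε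
  refine ⟨r₀ / R, by positivity, fun r hr hrr A hxA hA hcont => ?_⟩
  have hRr : R * r ≤ r₀ := by rw [le_div_iff₀ hR0] at hrr; linarith
  refine h (R * r) (by positivity) hRr A hxA hA ?_
  refine hnf δ hδ le_rfl A x (R * r) (by positivity) ?_
  calc ENNReal.ofReal (c / R ^ s) * ENNReal.ofReal (R * r) ^ s
      = ENNReal.ofReal c * ENNReal.ofReal r ^ s := by
        rw [ENNReal.ofReal_rpow_of_pos (by positivity), ENNReal.ofReal_rpow_of_pos hr,
          ← ENNReal.ofReal_mul hc'.le, ← ENNReal.ofReal_mul hc.le,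
          Real.mul_rpow hR0.le hr.le]
        congr 1
        have : (0:ℝ) < R ^ s := by positivity
        field_simp
    _ ≤ cont s (A ∩ closedBall x r) := hcont
    _ ≤ cont s (A ∩ closedBall x (R * r)) := by
        refine cont_mono s (inter_subset_inter_right _ (closedBall_subset_closedBall ?_))
        nlinarith

end Crest.Agent.R234.Fa_694
end
end

-- ▼ part R234/Fa4_694
section

/-!
Row 234, VF-FA (helper694), file 4: selection of the blow-up scales, (F-a) of 518 #5411.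

`select` : if `dimH (singularSet) > m - 1`, then there are `s > m - 1`, an integer `Q ≥ 2`, a singular point `x`
  with `Th x = Q` and arbitrarily small scales `r` at which the set `A` of singular points of density exactly
  `Q` has content `> c r ^ s` in `closedBall x r` (`c < 1` arbitrary), and at all such small scales the
  varifold is `ε`-flat in `ball x (R r)` (`ε`, `R` arbitrary).
Inputs (hypotheses): integrality of the density at points with arbitrarily flat scales, Allard's theorem at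
such points of density one.
-/

set_option autoImplicit false

open Set Filter Topology MeasureTheory Metric Module
open Crest.GeometryTopology.Submanifold
open Crest.Agent.R234.Vf_884 Crest.Agent.R234.Strat3_842
open scoped ENNReal NNReal InnerProductSpace

noncomputable section

namespace Crest.Agent.R234.Fa_694

variable {m k : ℕ}

/-- The measure theoretic core of the selection, for an arbitrary set `S` (below: the singular set). -/
theorem select_set {V : Measure (Euc k × L k)} {U : Set (Euc k)} (hV : Stat m k U V) (hm : 1 ≤ m)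
    (hU : IsOpen U) {S : Set (Euc k)} (hSU : S ⊆ U) (hS : ((m - 1 : ℕ) : ℝ≥0∞) < dimH S)
    (P : ℕ → Prop)
    (hint : ∀ x ∈ S, x ∉ NF m V → ∃ Q : ℕ, P Q ∧ Th m V x = Q) :
    ∃ s : ℝ, ((m - 1 : ℕ) : ℝ) < s ∧ ∃ Q : ℕ, P Q ∧ ∃ x ∈ S, Th m V x = Q ∧
      (∀ c : ℝ, c < 1 → ∀ r₀ > (0:ℝ), ∃ r : ℝ, 0 < r ∧ r ≤ r₀ ∧
        ENNReal.ofReal c * ENNReal.ofReal r ^ s <
          cont s ({y ∈ S | Th m V y = Q} ∩ closedBall x r)) ∧
      (∀ c > (0:ℝ), ∀ ε > (0:ℝ), ∀ R : ℝ, 1 ≤ R → ∃ r₀ > (0:ℝ), ∀ r : ℝ, 0 < r → r ≤ r₀ →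
        ENNReal.ofReal c * ENNReal.ofReal r ^ s ≤
          cont s ({y ∈ S | Th m V y = Q} ∩ closedBall x r) → Flat m V x (R * r) ε) := by
  obtain ⟨s', hs1, hs2⟩ := exists_between hS
  lift s' to ℝ≥0 using (hs2.trans_le le_top).ne with s
  have hs : ((m - 1 : ℕ) : ℝ) < (s : ℝ) := by
    have : ((m - 1 : ℕ) : ℝ≥0∞) < (s : ℝ≥0∞) := hs1
    rw [← ENNReal.coe_natCast, ENNReal.coe_lt_coe] at this
    exact_mod_cast this
  have hs0 : (0:ℝ) < s := lt_of_le_of_lt (Nat.cast_nonneg _) hs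
  have hμ : μH[(s : ℝ)] S = ⊤ := hausdorffMeasure_of_lt_dimH hs2
  have hN : μH[(s : ℝ)] (NF m V ∩ U) = 0 :=
    hausdorffMeasure_of_dimH_lt (lt_of_le_of_lt (dimH_NF_stat hm hU hV) hs1)
  -- one point for every c < 1: use a sequence c_n ↑ 1
  set Pc : ℕ → Set (Euc k) := fun Q => {y | P Q ∧ Th m V y = Q} with hPc
  -- null set of bad points of every piece and every c_n
  set c : ℕ → ℝ≥0∞ := fun n => ENNReal.ofReal (1 - 1 / ((n : ℝ) + 2)) with hc
  have hc1 : ∀ n, c n < 1 := fun n => by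
    rw [hc, ← ENNReal.ofReal_one]
    refine (ENNReal.ofReal_lt_ofReal_iff one_pos).2 ?_
    have : (0:ℝ) < 1 / ((n : ℝ) + 2) := by positivity
    linarith
  set Bad : Set (Euc k) := ⋃ Q : ℕ, ⋃ n : ℕ, {x ∈ S ∩ Pc Q | ∃ r₀ > (0:ℝ), ∀ r : ℝ, 0 < r →
      r ≤ r₀ → cont (s : ℝ) ((S ∩ Pc Q) ∩ closedBall x r) ≤ c n * ENNReal.ofReal r ^ (s : ℝ)}
    with hBad
  have hBad0 : μH[(s : ℝ)] Bad = 0 :=
    measure_iUnion_null fun Q => measure_iUnion_null fun n => density_null hs0 _ (hc1 n)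
  obtain ⟨x, hxS, hxB⟩ : ∃ x ∈ S, x ∉ Bad ∪ (NF m V ∩ U) := by
    by_contra hcon
    push Not at hcon
    have h0 : μH[(s : ℝ)] S = 0 := measure_mono_null hcon (measure_union_null hBad0 hN)
    rw [hμ] at h0
    exact ENNReal.top_ne_zero h0
  have hx1 : x ∉ Bad := fun h => hxB (Or.inl h)
  have hx2 : x ∉ NF m V := fun h => hxB (Or.inr ⟨h, hSU hxS⟩)
  obtain ⟨Q, hQ, hTh⟩ := hint x hxS hx2
  have hset : {y ∈ S | Th m V y = Q} = S ∩ Pc Q := by
    ext y
    simp only [mem_ofPred_eq, mem_inter_iff, hPc]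
    tauto
  refine ⟨s, hs, Q, hQ, x, hxS, hTh, ?_, ?_⟩
  · intro a ha1 r₀ hr₀
    obtain ⟨n, hn⟩ : ∃ n : ℕ, a ≤ 1 - 1 / ((n : ℝ) + 2) := by
      obtain ⟨n, hn⟩ := exists_nat_one_div_lt (show 0 < 1 - a by linarith)
      refine ⟨n, ?_⟩
      have : 1 / ((n : ℝ) + 2) ≤ 1 / ((n : ℝ) + 1) := by gcongr; norm_num
      linarith
    by_contra hcon
    push Not at hcon
    refine hx1 ?_
    rw [hBad]
    refine mem_iUnion.2 ⟨Q, mem_iUnion.2 ⟨n, ⟨hxS, hQ, hTh⟩, r₀, hr₀, fun r h1 h2 => ?_⟩⟩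
    have h3 := hcon r h1 h2
    rw [hset] at h3
    refine h3.trans ?_
    gcongr
    exact ENNReal.ofReal_le_ofReal hn
  · intro a ha ε hε R hR
    obtain ⟨r₀, hr₀, h⟩ := flat_of_cont hV hm hU (hSU hxS) hs ha hε hR
    refine ⟨r₀, hr₀, fun r h1 h2 h3 =>
      h r h1 h2 {y ∈ S | Th m V y = Q} ⟨hxS, hTh⟩ (fun y hy => ?_) h3⟩
    rw [hTh, hy.2]

/-- **selection of the blow-up scales** for the frozen varifolds. -/
theorem select {U : Set (Euc k)} {D : VarifoldData m k} (hD : IsIntegralVarifoldIn U D)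
    (hst : IsStationaryIn U D) (hm : 1 ≤ m) (hU : IsOpen U)
    (hdim : ((m - 1 : ℕ) : ℝ≥0∞) < dimH (singularSet m k U D))
    (hint : ∀ x ∈ U, x ∈ support D → x ∉ NF m (VD D) → ∃ Q : ℕ, Th m (VD D) x = Q)
    (hone : ∀ x ∈ U, x ∈ support D → x ∉ NF m (VD D) → Th m (VD D) x ≤ 1 →
      x ∉ singularSet m k U D) :
    ∃ s : ℝ, ((m - 1 : ℕ) : ℝ) < s ∧ ∃ Q : ℕ, 2 ≤ Q ∧ ∃ x ∈ singularSet m k U D,
      Th m (VD D) x = Q ∧
      (∀ c : ℝ, c < 1 → ∀ r₀ > (0:ℝ), ∃ r : ℝ, 0 < r ∧ r ≤ r₀ ∧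
        ENNReal.ofReal c * ENNReal.ofReal r ^ s <
          cont s ({y ∈ singularSet m k U D | Th m (VD D) y = Q} ∩ closedBall x r)) ∧
      (∀ c > (0:ℝ), ∀ ε > (0:ℝ), ∀ R : ℝ, 1 ≤ R → ∃ r₀ > (0:ℝ), ∀ r : ℝ, 0 < r → r ≤ r₀ →
        ENNReal.ofReal c * ENNReal.ofReal r ^ s ≤
          cont s ({y ∈ singularSet m k U D | Th m (VD D) y = Q} ∩ closedBall x r) →
        Flat m (VD D) x (R * r) ε) := by
  refine select_set (stat_VD hD hst) hm hU (fun x hx => hx.1) hdim (fun Q => 2 ≤ Q) ?_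
  intro x hx hn
  obtain ⟨Q, hQ⟩ := hint x hx.1 hx.2.1 hn
  refine ⟨Q, ?_, hQ⟩
  by_contra hlt
  refine hone x hx.1 hx.2.1 hn ?_ hx
  rw [hQ]
  have : Q ≤ 1 := by omega
  exact_mod_cast this

end Crest.Agent.R234.Fa_694
end
end

-- ▼ part R234/Fa5_694

/-!
Row 234, VF-FA (helper694), file 5: the node `FA` of helper456's interface from the two inputs
`HInt` (integral density at the points with arbitrarily flat scales) and `HOne` (Allard: no singular point of
density `≤ 1` with arbitrarily flat scales).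
-/

set_option autoImplicit false

open Set Filter Topology MeasureTheory Metric Module
open Crest.GeometryTopology.Submanifold
open Crest.Agent.R234.Vf_884 Crest.Agent.R234.Strat3_842
open scoped ENNReal NNReal InnerProductSpace

noncomputable section

namespace Crest.Agent.R234.Fa_694

variable {m k : ℕ} {V : Measure (Euc k × L k)} {U : Set (Euc k)}

theorem plane_smul (v : Fin m → Euc k) {a : ℝ} (ha : a ≠ 0) :
    plane (fun i => a • v i) = plane v := by
  unfold plane
  refine le_antisymm (Submodule.span_le.2 ?_) (Submodule.span_le.2 ?_)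
  · rintro _ ⟨i, rfl⟩
    exact Submodule.smul_mem _ _ (Submodule.subset_span ⟨i, rfl⟩)
  · rintro _ ⟨i, rfl⟩
    have h : v i = a⁻¹ • (a • v i) := by rw [smul_smul, inv_mul_cancel₀ ha, one_smul]
    rw [SetLike.mem_coe, h]
    exact Submodule.smul_mem _ _ (Submodule.subset_span ⟨i, rfl⟩)

/-- `v` is a `K`-fat simplex of points of density at least `Th x` at scale `r` about `x`. -/
structure Fat (m : ℕ) (V : Measure (Euc k × L k)) (K : ℝ) (x : Euc k) (r : ℝ)
    (v : Fin m → Euc k) : Prop where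
  norm_le : ∀ i, ‖v i‖ ≤ 1
  fat : ∀ (c : Fin m → ℝ) (i : Fin m), |c i| ≤ K * ‖∑ i, c i • v i‖
  dens : ∀ i, Th m V x ≤ Th m V (x + r • v i)

/-- the excess with respect to the plane of a fat simplex, at every multiple of its scale. -/
theorem Fat.excess (hV : Stat m k U V) (hm : 1 ≤ m) (hU : IsOpen U) {x : Euc k} (hx : x ∈ U)
    {K : ℝ} (hK : 0 < K) {R : ℝ} (hR : 1 ≤ R) {ε : ℝ} (hε : 0 < ε) :
    ∃ r₀ > (0:ℝ), ∀ r : ℝ, 0 < r → r ≤ r₀ → ∀ v : Fin m → Euc k, Fat m V K x r v →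
      ∫ p in ball x (R * r) ×ˢ univ, ((R * r) ^ 2 * tilt (plane v).starProjection p +
        height (plane v).starProjection x p) ∂V ≤ ε * (R * r) ^ (m + 2) := by
  have hR0 : 0 < R := by linarith
  set K' : ℝ := K * R with hK'
  have hK'0 : 0 < K' := by positivity
  set C : ℝ := 2 + 20 * (m * K') ^ 2 * m with hC
  have hC0 : 0 < C := by positivity
  obtain ⟨ρ, hρ, hρU⟩ := exists_closedBall hU hx
  obtain ⟨r₀, hr₀, hpin⟩ := pinch hV hm hU hx (η := ε / C) (by positivity)
  refine ⟨min r₀ (ρ / 3) / R, by positivity, fun r hr hrr v hv => ?_⟩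
  have hRr : R * r ≤ min r₀ (ρ / 3) := by rw [le_div_iff₀ hR0] at hrr; linarith
  have hRr0 : 0 < R * r := by positivity
  have h1 : R * r ≤ r₀ := hRr.trans (min_le_left _ _)
  have h2 : 3 * (R * r) ≤ ρ := by have := hRr.trans (min_le_right _ _); linarith
  set w : Fin m → Euc k := fun i => R⁻¹ • v i with hw
  have hpl : plane w = plane v := plane_smul v (by positivity)
  have hrw : ∀ i, (R * r) • w i = r • v i := fun i => by
    simp only [hw]; rw [smul_smul]; congr 1; field_simp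
  have hw1 : ∀ i, ‖w i‖ ≤ 1 := fun i => by
    simp only [hw]
    rw [norm_smul, norm_inv, Real.norm_of_nonneg hR0.le, inv_mul_le_iff₀ hR0]
    have := hv.norm_le i
    linarith
  have hw2 : ∀ (c : Fin m → ℝ) (i : Fin m), |c i| ≤ K' * ‖∑ i, c i • w i‖ := by
    intro c i
    have h3 := hv.fat c i
    have h4 : ∑ i, c i • w i = R⁻¹ • ∑ i, c i • v i := by
      rw [Finset.smul_sum]
      refine Finset.sum_congr rfl fun i _ => ?_
      simp only [hw]; rw [smul_comm]
    rw [h4, norm_smul, norm_inv, Real.norm_of_nonneg hR0.le, hK']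
    refine h3.trans (le_of_eq ?_)
    field_simp
  have hfin : V (ball x (3 * (R * r)) ×ˢ univ) < ⊤ := by
    refine (measure_mono (Set.prod_mono (ball_subset_closedBall.trans
      (closedBall_subset_closedBall h2)) Subset.rfl)).trans_lt
      (hV.fin _ (isCompact_closedBall x ρ) hρU)
  have key := excess_int hV.conc hK'0.le hw1 hw2 hRr0 hfin (κ := ε / C * (R * r) ^ (m + 2))
    (hpin _ hRr0 h1 x (by rw [dist_self]; positivity) le_rfl) (fun i => by
      refine hpin _ hRr0 h1 _ ?_ ?_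
      · rw [dist_eq_norm, add_sub_cancel_left, norm_smul, Real.norm_of_nonneg hRr0.le]
        nlinarith [hw1 i]
      · rw [hrw]; exact hv.dens i)
  rw [hpl] at key
  refine key.trans (le_of_eq ?_)
  rw [← hC]
  field_simp

/-- content positive sets contain fat simplices. -/
theorem exists_fat_of_cont {s : ℝ} (hm : 1 ≤ m) (hs : ((m - 1 : ℕ) : ℝ) < s) {c : ℝ}
    (hc : 0 < c) : ∃ K > (0:ℝ), ∀ (V : Measure (Euc k × L k)) (A : Set (Euc k)) (x : Euc k)
      (r : ℝ), 0 < r → x ∈ A → (∀ y ∈ A, Th m V x ≤ Th m V y) →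
      ENNReal.ofReal c * ENNReal.ofReal r ^ s ≤ cont s (A ∩ closedBall x r) →
      ∃ v : Fin m → Euc k, Fat m V K x r v := by
  obtain ⟨δ, hδ, -, hnf⟩ := not_flat_of_cont (Euc k) hs hc
  set K : ℝ := Sp3_643.Cf (m - 1) δ with hK
  have hK0 : 0 < K := by
    rw [hK]; unfold Sp3_643.Cf; positivity
  refine ⟨K, hK0, fun V A x r hr hxA hA hcont => ?_⟩
  obtain ⟨w, hw1, hw2⟩ := Sp3_643.exists_fat hδ hr hxA (hnf δ hδ le_rfl A x r hr hcont)
  have hm1 : m - 1 + 1 = m := by omega
  have hrv : ∀ i : Fin m, r • (r⁻¹ • w (Fin.cast hm1.symm i)) = w (Fin.cast hm1.symm i) :=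
    fun i => by rw [smul_smul, mul_inv_cancel₀ hr.ne', one_smul]
  refine ⟨fun i => r⁻¹ • w (Fin.cast hm1.symm i), ?_, ?_, ?_⟩
  · intro i
    rw [norm_smul, norm_inv, Real.norm_of_nonneg hr.le, inv_mul_le_iff₀ hr, mul_one]
    exact (hw1 _).2
  · intro c i
    have h1 := hw2 (fun j => c (Fin.cast hm1 j)) (Fin.cast hm1.symm i)
    have h2 : (∑ j, c (Fin.cast hm1 j) • w j) =
        r • ∑ i, c i • (r⁻¹ • w (Fin.cast hm1.symm i)) := by
      rw [Finset.smul_sum]
      have : ∀ i : Fin m, r • c i • (r⁻¹ • w (Fin.cast hm1.symm i)) =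
          c i • w (Fin.cast hm1.symm i) := fun i => by
        rw [smul_comm, hrv]
      simp_rw [this]
      exact Fintype.sum_equiv (finCongr hm1) _ _ fun j => by simp
    rw [h2, norm_smul, Real.norm_of_nonneg hr.le] at h1
    have h3 : |c i| * r ≤ (K * ‖∑ i, c i • (r⁻¹ • w (Fin.cast hm1.symm i))‖) * r := by
      calc |c i| * r = |c (Fin.cast hm1 (Fin.cast hm1.symm i))| * r := by simp
        _ ≤ _ := h1
        _ = _ := by rw [← hK]; ring
    exact le_of_mul_le_mul_right h3 hr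
  · intro i
    refine hA _ ?_
    rw [hrv]
    exact (hw1 _).1

/-- input 1: integral density at the points with arbitrarily flat scales (947). -/
def HInt : Prop :=
  ∀ (m k : ℕ), 1 ≤ m → ∀ (U : Set (Euc k)), IsOpen U → ∀ D : VarifoldData m k,
    IsIntegralVarifoldIn U D → IsStationaryIn U D →
      ∀ x ∈ U, x ∈ support D → x ∉ NF m (VD D) → ∃ Q : ℕ, Th m (VD D) x = Q

/-- input 2: Allard at the points of density `≤ 1` with arbitrarily flat scales. -/
def HOne : Prop :=
  ∀ (m k : ℕ), 1 ≤ m → ∀ (U : Set (Euc k)), IsOpen U → ∀ D : VarifoldData m k,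
    IsIntegralVarifoldIn U D → IsStationaryIn U D →
      ∀ x ∈ U, x ∈ support D → x ∉ NF m (VD D) → Th m (VD D) x ≤ 1 → x ∉ singularSet m k U D

/-- **the node `FA`.** -/
theorem fa (h1 : HInt) (h2 : HOne) : Main_456.FA := by
  intro m k hm U hU D hD hst hdim
  have hV := stat_VD hD hst
  have hcast : ((m - 1 : ℕ) : ℝ≥0∞) = (m : ℝ≥0∞) - 1 := by
    rw [ENNReal.natCast_sub, Nat.cast_one]
  rw [← hcast] at hdim
  obtain ⟨s, hs, Q, hQ, x, hx, hTh, hc, -⟩ := select hD hst hm hU hdim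
    (h1 m k hm U hU D hD hst) (h2 m k hm U hU D hD hst)
  set A : Set (Euc k) := {y ∈ singularSet m k U D | Th m (VD D) y = Q} with hA
  have hxA : x ∈ A := ⟨hx, hTh⟩
  have hAd : ∀ y ∈ A, Th m (VD D) x ≤ Th m (VD D) y := fun y hy => by rw [hTh, hy.2]
  obtain ⟨r, hr, hr0, hrc⟩ := exists_seq_of_forall (hc (1 / 2) (by norm_num))
  obtain ⟨K, hK, hfat⟩ := exists_fat_of_cont (k := k) hm hs (c := 1 / 2) (by norm_num)
  choose v hv using fun i => hfat (VD D) A x (r i) (hr i) hxA hAd (hrc i).le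
  refine ⟨s, Q, 1 / 2, x, r, fun i => (plane (v i)).starProjection, ?_⟩
  refine ⟨?_, hQ, by norm_num, hxA, hr, hr0, fun i => (hrc i).le, ?_⟩
  · have : ((m - 1 : ℕ) : ℝ) = (m : ℝ) - 1 := by
      rw [Nat.cast_sub hm, Nat.cast_one]
    linarith
  · intro R hR ε hε
    -- ratio
    obtain ⟨ρ, hρ, hρU⟩ := exists_closedBall hU hx.1
    have hrat : ∀ᶠ i in atTop, rat m (VD D) x (R * r i) ≤ (Q : ℝ≥0∞) + ENNReal.ofReal ε := by
      have t1 := tendsto_rat hV hm hρ (ball_subset_closedBall.trans hρU)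
      rw [hTh] at t1
      have t2 : Tendsto (fun i => R * r i) atTop (𝓝[>] 0) := by
        refine tendsto_nhdsWithin_iff.2 ⟨?_, Eventually.of_forall fun i => ?_⟩
        · simpa using hr0.const_mul R
        · exact mul_pos hR (hr i)
      have t3 : (Q : ℝ≥0∞) < (Q : ℝ≥0∞) + ENNReal.ofReal ε :=
        ENNReal.lt_add_right (ENNReal.natCast_ne_top Q) (ENNReal.ofReal_pos.2 hε).ne'
      filter_upwards [(t1.comp t2).eventually (gt_mem_nhds t3)] with i hi using hi.le
    -- excess at scale max 1 R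
    have hR' : 1 ≤ max 1 R := le_max_left _ _
    have hR'0 : 0 < max 1 R := by positivity
    obtain ⟨r₀, hr₀, hex⟩ := Fat.excess hV hm hU hx.1 hK hR'
      (ε := ε * R ^ (m + 2) / (max 1 R) ^ (m + 2)) (by positivity)
    have hev : ∀ᶠ i in atTop, r i < min r₀ (ρ / max 1 R) :=
      hr0.eventually (gt_mem_nhds (by positivity))
    filter_upwards [hrat, hev] with i hi1 hi2
    have hi3 : max 1 R * r i ≤ ρ := by
      have := (hi2.trans_le (min_le_right _ _)).le
      rw [le_div_iff₀ hR'0] at this; linarith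
    refine ⟨plane_mem_G (hv i).fat, ?_, hi1⟩
    have h3 := hex (r i) (hr i) (hi2.trans_le (min_le_left _ _)).le (v i) (hv i)
    set P := (plane (v i)).starProjection with hP
    have hPG : P ∈ G m k := plane_mem_G (hv i).fat
    have hfin : (VD D) (ball x (max 1 R * r i) ×ˢ univ) < ⊤ :=
      (measure_mono (Set.prod_mono (ball_subset_closedBall.trans
        (closedBall_subset_closedBall hi3)) Subset.rfl)).trans_lt
        (hV.fin _ (isCompact_closedBall x ρ) hρU)
    have hsub : ball x (R * r i) ⊆ ball x (max 1 R * r i) :=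
      ball_subset_ball (mul_le_mul_of_nonneg_right (le_max_right _ _) (hr i).le)
    have hfin' : (VD D) (ball x (R * r i) ×ˢ univ) < ⊤ :=
      (measure_mono (Set.prod_mono hsub Subset.rfl)).trans_lt hfin
    have hpos : ∀ᵐ p ∂(VD D), 0 ≤ tilt P p := by
      filter_upwards [hV.conc] with p hp
      exact tr_perp_nonneg hp hPG
    have hint1 : ∀ a : ℝ, IntegrableOn (fun p => a * tilt P p + height P x p)
        (ball x (max 1 R * r i) ×ˢ univ) (VD D) := fun a =>
      integrableOn_of_bdd hV.conc hfin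
        ((continuous_const.mul (continuous_tilt P)).add (continuous_height P x))
    calc ∫ p in ball x (R * r i) ×ˢ univ, ((R * r i) ^ 2 * tilt P p + height P x p) ∂(VD D)
        ≤ ∫ p in ball x (max 1 R * r i) ×ˢ univ,
            ((R * r i) ^ 2 * tilt P p + height P x p) ∂(VD D) := by
          refine setIntegral_mono_set (hint1 _) ?_ (Set.prod_mono hsub Subset.rfl).eventuallyLE
          filter_upwards [ae_restrict_of_ae hpos] with p hp
          have : 0 ≤ height P x p := by unfold height; positivity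
          positivity
      _ ≤ ∫ p in ball x (max 1 R * r i) ×ˢ univ,
            ((max 1 R * r i) ^ 2 * tilt P p + height P x p) ∂(VD D) := by
          refine setIntegral_mono_ae_restrict (hint1 _) (hint1 _) ?_
          filter_upwards [ae_restrict_of_ae hpos] with p hp
          have h4 : (R * r i) ^ 2 ≤ (max 1 R * r i) ^ 2 := by
            have := hr i
            gcongr
            exact le_max_right _ _
          gcongr
      _ ≤ ε * R ^ (m + 2) / (max 1 R) ^ (m + 2) * (max 1 R * r i) ^ (m + 2) := h3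
      _ = ε * (R * r i) ^ (m + 2) := by
          rw [mul_pow, mul_pow]; field_simp

end Crest.Agent.R234.Fa_694
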