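import Crest.Agent.R234.Vit1_534

-- ▼ part R234/Th1_164
section

/-!
Row 234, VF-THETA part 1 (helper164): integer valued functions which are close to a constant.
`exists_nat_close` : if `∫_S N = c |S| + O(η)` for all `S ⊆ B` and `N` is integer valued then
`∫_B |N - k| ≤ 4 η` for an integer `k`.  `eq_of_close` : uniqueness of the integer.
-/

set_option autoImplicit false

open Set Filter Topology MeasureTheory Metric
open scoped ENNReal NNReal

noncomputable section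

namespace Crest.Agent.R234.Th_164

theorem exists_nearest (c : ℝ) : ∃ k : ℕ, ∀ n : ℕ, |c - k| ≤ |(n : ℝ) - c| := by
  refine ⟨(round c).toNat, fun n => ?_⟩
  rcases le_or_gt 0 (round c) with h | h
  · have h1 : (((round c).toNat : ℕ) : ℝ) = ((round c : ℤ) : ℝ) := by
      have h2 : (((round c).toNat : ℕ) : ℤ) = round c := Int.toNat_of_nonneg h
      exact_mod_cast h2
    rw [h1]
    have h3 := round_le c (n : ℤ)
    rw [abs_sub_comm (n : ℝ) c]
    exact_mod_cast h3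
  · have h1 : (round c).toNat = 0 := Int.toNat_of_nonpos h.le
    rw [h1]
    have h2 : c < 0 := by
      by_contra hc
      rw [not_lt] at hc
      have h3 : (0 : ℤ) ≤ round c := by
        rw [round_eq]
        exact Int.floor_nonneg.2 (by linarith)
      omega
    have h4 : (0 : ℝ) ≤ n := Nat.cast_nonneg n
    rw [Nat.cast_zero, sub_zero, abs_of_neg h2, abs_of_nonneg (by linarith)]
    linarith

variable {α : Type*} [MeasurableSpace α] {ν : Measure α} {B : Set α} {N : α → ℝ}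

theorem integral_abs_sub_le (hB : MeasurableSet B) (hm : Measurable N) (hN : IntegrableOn N B ν)
    (hfin : ν B ≠ ∞) {c η : ℝ}
    (h : ∀ S, MeasurableSet S → S ⊆ B → |∫ x in S, N x ∂ν - c * ν.real S| ≤ η) :
    ∫ x in B, |N x - c| ∂ν ≤ 2 * η := by
  set T : Set α := {x | c ≤ N x} with hT
  have hTm : MeasurableSet T := measurableSet_le measurable_const hm
  have hc : IntegrableOn (fun _ : α => c) B ν := integrableOn_const hfin
  have hNc : IntegrableOn (fun x => |N x - c|) B ν := (hN.sub hc).abs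
  have h1 : ∫ x in B, |N x - c| ∂ν = ∫ x in B ∩ T, |N x - c| ∂ν + ∫ x in B \ T, |N x - c| ∂ν :=
    (integral_inter_add_sdiff hTm hNc).symm
  have hp : ∫ x in B ∩ T, |N x - c| ∂ν = ∫ x in B ∩ T, N x ∂ν - c * ν.real (B ∩ T) := by
    have h2 : ∫ x in B ∩ T, |N x - c| ∂ν = ∫ x in B ∩ T, (N x - c) ∂ν :=
      setIntegral_congr_fun (hB.inter hTm) fun x hx => abs_of_nonneg (sub_nonneg.2 hx.2)
    rw [h2, integral_sub (hN.mono_set inter_subset_left) (hc.mono_set inter_subset_left),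
      setIntegral_const, smul_eq_mul, mul_comm]
  have hq : ∫ x in B \ T, |N x - c| ∂ν = -(∫ x in B \ T, N x ∂ν - c * ν.real (B \ T)) := by
    have h2 : ∫ x in B \ T, |N x - c| ∂ν = ∫ x in B \ T, -(N x - c) ∂ν :=
      setIntegral_congr_fun (hB.diff hTm) fun x hx =>
        abs_of_nonpos (sub_nonpos.2 (le_of_lt (not_le.1 hx.2)))
    rw [h2, integral_neg, integral_sub (hN.mono_set sdiff_subset) (hc.mono_set sdiff_subset),
      setIntegral_const, smul_eq_mul, mul_comm]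
  have h3 := h _ (hB.inter hTm) inter_subset_left
  have h4 := h _ (hB.diff hTm) sdiff_subset
  rw [h1, hp, hq]
  have h5 := le_abs_self (∫ x in B ∩ T, N x ∂ν - c * ν.real (B ∩ T))
  have h6 := neg_le_abs (∫ x in B \ T, N x ∂ν - c * ν.real (B \ T))
  linarith

/-- integer valued and close to a constant ==> close to an integer constant -/
theorem exists_nat_close (hB : MeasurableSet B) (hm : Measurable N) (hN : IntegrableOn N B ν)
    (hfin : ν B ≠ ∞) (hnat : ∀ᵐ x ∂(ν.restrict B), ∃ n : ℕ, N x = n) {c η : ℝ}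
    (h : ∀ S, MeasurableSet S → S ⊆ B → |∫ x in S, N x ∂ν - c * ν.real S| ≤ η) :
    ∃ k : ℕ, ∫ x in B, |N x - k| ∂ν ≤ 4 * η := by
  obtain ⟨k, hk⟩ := exists_nearest c
  refine ⟨k, ?_⟩
  have hc : IntegrableOn (fun _ : α => c) B ν := integrableOn_const hfin
  have hkc : IntegrableOn (fun _ : α => (k : ℝ)) B ν := integrableOn_const hfin
  have h1 := integral_abs_sub_le hB hm hN hfin h
  have h2 : ∫ x in B, |N x - k| ∂ν ≤ ∫ x in B, 2 * |N x - c| ∂ν := by
    refine integral_mono_ae (hN.sub hkc).abs ((hN.sub hc).abs.const_mul 2) ?_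
    filter_upwards [hnat] with x hx
    obtain ⟨n, hn⟩ := hx
    have h3 := hk n
    rw [hn]
    have h4 : |(n : ℝ) - k| ≤ |(n : ℝ) - c| + |c - k| := abs_sub_le _ _ _
    linarith
  rw [integral_const_mul] at h2
  linarith

/-- the integer is unique -/
theorem eq_of_close (hN : IntegrableOn N B ν) (hfin : ν B ≠ ∞) {k Q : ℕ}
    (h : ∫ x in B, |N x - k| ∂ν + ∫ x in B, |N x - Q| ∂ν < ν.real B) : k = Q := by
  have hk : IntegrableOn (fun _ : α => (k : ℝ)) B ν := integrableOn_const hfin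
  have hQ : IntegrableOn (fun _ : α => (Q : ℝ)) B ν := integrableOn_const hfin
  have h1 : |(k : ℝ) - Q| * ν.real B ≤ ∫ x in B, |N x - k| ∂ν + ∫ x in B, |N x - Q| ∂ν := by
    have hk' : IntegrableOn (fun x => |N x - (k : ℝ)|) B ν := (hN.sub hk).abs
    have hQ' : IntegrableOn (fun x => |N x - (Q : ℝ)|) B ν := (hN.sub hQ).abs
    rw [← integral_add hk' hQ']
    have h2 : |(k : ℝ) - Q| * ν.real B = ∫ x in B, |(k : ℝ) - Q| ∂ν := by
      rw [setIntegral_const, smul_eq_mul, mul_comm]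
    rw [h2]
    refine integral_mono (integrableOn_const hfin) (hk'.add hQ') ?_
    intro x
    have h3 : |(k : ℝ) - Q| ≤ |(k : ℝ) - N x| + |N x - Q| := abs_sub_le _ _ _
    rw [abs_sub_comm (k : ℝ) (N x)] at h3
    exact h3
  have h2 : |(k : ℝ) - Q| < 1 := by
    by_contra hc
    rw [not_lt] at hc
    have : ν.real B ≤ |(k : ℝ) - Q| * ν.real B := by
      nlinarith [measureReal_nonneg (μ := ν) (s := B)]
    linarith
  have h3 : |(k : ℤ) - Q| < 1 := by exact_mod_cast h2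
  rw [Int.abs_lt_one_iff] at h3
  omega

end Crest.Agent.R234.Th_164
end
end

-- ▼ part R234/Th2_164
section

/-!
Row 234, VF-THETA part 2 (helper164): the chain of scales.
If at every scale `ρ ∈ [s, ρ₀]` the integer valued function `N` is close to a constant on `ball x (ρ/4)`, then
the integer is the same at all scales.
-/

set_option autoImplicit false

open Set Filter Topology MeasureTheory Metric
open scoped ENNReal NNReal

noncomputable section

namespace Crest.Agent.R234.Th_164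

variable {d : ℕ}

/-- Euclidean space -/
abbrev Eu (d : ℕ) : Type := EuclideanSpace ℝ (Fin d)

/-- volume of the unit ball -/
def om (d : ℕ) : ℝ := (volume (ball (0 : Eu d) 1)).toReal

theorem om_pos (d : ℕ) : 0 < om d :=
  ENNReal.toReal_pos (measure_ball_pos _ _ one_pos).ne' measure_ball_lt_top.ne

theorem vol_ball (x : Eu d) {r : ℝ} (hr : 0 < r) : volume.real (ball x r) = om d * r ^ d := by
  rw [measureReal_def, Measure.addHaar_ball_of_pos _ _ hr, finrank_euclideanSpace_fin,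
    ENNReal.toReal_mul, ENNReal.toReal_ofReal (by positivity), om, mul_comm]

theorem vol_closedBall (x : Eu d) {r : ℝ} (hr : 0 ≤ r) :
    volume.real (closedBall x r) = om d * r ^ d := by
  rw [measureReal_def, Measure.addHaar_closedBall _ _ hr, finrank_euclideanSpace_fin,
    ENNReal.toReal_mul, ENNReal.toReal_ofReal (by positivity), om, mul_comm]

variable {N : Eu d → ℝ} {x : Eu d} {Q : ℕ}

theorem integral_N_le {ρ ε : ℝ} (hρ : 0 < ρ) (hN : IntegrableOn N (ball x ρ))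
    (hε : ∫ y in ball x ρ, |N y - Q| ≤ ε * ρ ^ d) :
    ∫ y in ball x ρ, N y ≤ (Q * om d + ε) * ρ ^ d := by
  have hQ : IntegrableOn (fun _ : Eu d => (Q : ℝ)) (ball x ρ) :=
    integrableOn_const measure_ball_lt_top.ne
  have h1 : ∫ y in ball x ρ, N y ≤ ∫ y in ball x ρ, (Q + |N y - Q|) := by
    refine integral_mono hN (hQ.add (hN.sub hQ).abs) fun y => ?_
    have := le_abs_self (N y - Q)
    linarith
  have hNQ : IntegrableOn (fun y => |N y - (Q : ℝ)|) (ball x ρ) := (hN.sub hQ).abs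
  have h2 : ∫ y in ball x ρ, (Q + |N y - Q|) = Q * (om d * ρ ^ d) + ∫ y in ball x ρ, |N y - Q| := by
    rw [integral_add hQ hNQ, setIntegral_const, vol_ball x hρ, smul_eq_mul, mul_comm]
  rw [h2] at h1
  calc _ ≤ _ := h1
    _ ≤ Q * (om d * ρ ^ d) + ε * ρ ^ d := by gcongr
    _ = _ := by ring

/-- one step -/
theorem step {ρ ε η : ℝ} (hρ : 0 < ρ) (hm : Measurable N) (hN : IntegrableOn N (ball x ρ))
    (hnat : ∀ᵐ y ∂(volume.restrict (ball x ρ)), ∃ n : ℕ, N y = n)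
    (hε : ∫ y in ball x ρ, |N y - Q| ≤ ε * ρ ^ d)
    (hη : 4 ^ (d + 1) * η ≤ ε) (hεω : ε * (1 + 4 ^ d) < om d) {c : ℝ}
    (hc : ∀ S, MeasurableSet S → S ⊆ ball x (ρ / 4) →
      |(∫ y in S, N y) - c * volume.real S| ≤ η * ρ ^ d) :
    ∫ y in ball x (ρ / 4), |N y - Q| ≤ ε * (ρ / 4) ^ d := by
  have h4 : (0 : ℝ) < ρ / 4 := by positivity
  have hsub : ball x (ρ / 4) ⊆ ball x ρ := ball_subset_ball (by linarith)
  have hN' := hN.mono_set hsub
  have hfin : volume (ball x (ρ / 4)) ≠ ∞ := measure_ball_lt_top.ne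
  obtain ⟨k, hk⟩ := exists_nat_close measurableSet_ball hm hN' hfin
    (ae_mono (Measure.restrict_mono hsub le_rfl) hnat) hc
  have e1 : 4 * (η * ρ ^ d) = (4 ^ (d + 1) * η) * (ρ / 4) ^ d := by
    rw [div_pow]
    field_simp
    ring
  have hk2 : ∫ y in ball x (ρ / 4), |N y - k| ≤ ε * (ρ / 4) ^ d := by
    refine hk.trans ?_
    rw [e1]
    gcongr
  have hQ : IntegrableOn (fun _ : Eu d => (Q : ℝ)) (ball x ρ) :=
    integrableOn_const measure_ball_lt_top.ne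
  have hNQ : IntegrableOn (fun y => |N y - (Q : ℝ)|) (ball x ρ) := (hN.sub hQ).abs
  have hQ2 : ∫ y in ball x (ρ / 4), |N y - Q| ≤ 4 ^ d * ε * (ρ / 4) ^ d := by
    calc ∫ y in ball x (ρ / 4), |N y - Q| ≤ ∫ y in ball x ρ, |N y - Q| :=
          setIntegral_mono_set hNQ (Eventually.of_forall fun y => abs_nonneg _) hsub.eventuallyLE
      _ ≤ ε * ρ ^ d := hε
      _ = 4 ^ d * ε * (ρ / 4) ^ d := by
          rw [div_pow]
          field_simp
  have hkQ : k = Q := by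
    refine eq_of_close hN' hfin ?_
    rw [vol_ball x h4]
    calc _ ≤ ε * (ρ / 4) ^ d + 4 ^ d * ε * (ρ / 4) ^ d := add_le_add hk2 hQ2
      _ = ε * (1 + 4 ^ d) * (ρ / 4) ^ d := by ring
      _ < om d * (ρ / 4) ^ d := by gcongr
  rw [← hkQ]
  exact hk2

/-- **chain of scales**: the integer is the same at all scales. -/
theorem chain {ρ₀ s ε η : ℝ} (hm : Measurable N) (hN : IntegrableOn N (ball x ρ₀))
    (hnat : ∀ᵐ y ∂(volume.restrict (ball x ρ₀)), ∃ n : ℕ, N y = n)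
    (hε0 : 0 ≤ ε) (hε1 : ε ≤ 1)
    (h0 : ∫ y in ball x ρ₀, |N y - Q| ≤ ε * ρ₀ ^ d)
    (hη : 4 ^ (d + 1) * η ≤ ε) (hεω : ε * (1 + 4 ^ d) < om d)
    (hstep : ∀ ρ, 0 < ρ → s ≤ ρ → ρ ≤ ρ₀ → ∫ y in ball x ρ, N y ≤ (Q * om d + 1) * ρ ^ d →
      ∃ c : ℝ, ∀ S, MeasurableSet S → S ⊆ ball x (ρ / 4) →
        |(∫ y in S, N y) - c * volume.real S| ≤ η * ρ ^ d)
    {r : ℝ} (hr0 : 0 < r) (hsr : s ≤ r) (hr : r ≤ ρ₀) :
    ∫ y in ball x r, |N y - Q| ≤ 4 ^ d * ε * r ^ d := by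
  have hρ0 : 0 < ρ₀ := hr0.trans_le hr
  have key : ∀ j : ℕ, r ≤ ρ₀ / 4 ^ j → ∫ y in ball x (ρ₀ / 4 ^ j), |N y - Q| ≤ ε * (ρ₀ / 4 ^ j) ^ d := by
    intro j
    induction j with
    | zero => intro _; simpa using h0
    | succ j ih =>
      intro hj
      have h1 : ρ₀ / 4 ^ (j + 1) = ρ₀ / 4 ^ j / 4 := by rw [pow_succ]; field_simp
      have h2 : 0 < ρ₀ / 4 ^ j := by positivity
      have h3 : r ≤ ρ₀ / 4 ^ j := by rw [h1] at hj; linarith
      have h4 : ρ₀ / 4 ^ j ≤ ρ₀ := div_le_self hρ0.le (one_le_pow₀ (by norm_num))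
      have hsub : ball x (ρ₀ / 4 ^ j) ⊆ ball x ρ₀ := ball_subset_ball h4
      have ih' := ih h3
      have h5 : ∫ y in ball x (ρ₀ / 4 ^ j), N y ≤ (Q * om d + 1) * (ρ₀ / 4 ^ j) ^ d := by
        refine (integral_N_le h2 (hN.mono_set hsub) ih').trans ?_
        gcongr
      obtain ⟨c, hc⟩ := hstep _ h2 (hsr.trans h3) h4 h5
      rw [h1]
      exact step h2 hm (hN.mono_set hsub) (ae_mono (Measure.restrict_mono hsub le_rfl) hnat) ih'
        hη hεω hc
  obtain ⟨j, hj1, hj2⟩ : ∃ j : ℕ, r ≤ ρ₀ / 4 ^ j ∧ ρ₀ / 4 ^ (j + 1) < r := by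
    have h1 : ∃ n : ℕ, ρ₀ / 4 ^ (n + 1) < r := by
      obtain ⟨n, hn⟩ := pow_unbounded_of_one_lt (ρ₀ / r) (by norm_num : (1 : ℝ) < 4)
      refine ⟨n, ?_⟩
      rw [div_lt_iff₀ (by positivity)]
      rw [div_lt_iff₀ hr0] at hn
      calc ρ₀ < 4 ^ n * r := hn
        _ ≤ 4 ^ (n + 1) * r := by gcongr <;> norm_num
        _ = _ := by ring
    classical
    refine ⟨Nat.find h1, ?_, Nat.find_spec h1⟩
    rcases Nat.eq_zero_or_pos (Nat.find h1) with h | h
    · rw [h]; simpa using hr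
    · have h2 := Nat.find_min h1 (m := Nat.find h1 - 1) (by omega)
      rw [not_lt] at h2
      rwa [show Nat.find h1 - 1 + 1 = Nat.find h1 by omega] at h2
  have h4 : ρ₀ / 4 ^ j ≤ ρ₀ := div_le_self hρ0.le (one_le_pow₀ (by norm_num))
  have hQ : IntegrableOn (fun _ : Eu d => (Q : ℝ)) (ball x (ρ₀ / 4 ^ j)) :=
    integrableOn_const measure_ball_lt_top.ne
  have hNQ : IntegrableOn (fun y => |N y - (Q : ℝ)|) (ball x (ρ₀ / 4 ^ j)) :=
    ((hN.mono_set (ball_subset_ball h4)).sub hQ).abs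
  calc ∫ y in ball x r, |N y - Q| ≤ ∫ y in ball x (ρ₀ / 4 ^ j), |N y - Q| :=
        setIntegral_mono_set hNQ (Eventually.of_forall fun y => abs_nonneg _)
          (ball_subset_ball hj1).eventuallyLE
    _ ≤ ε * (ρ₀ / 4 ^ j) ^ d := key j hj1
    _ ≤ ε * (4 * r) ^ d := by
        gcongr
        rw [pow_succ, ← div_div] at hj2
        linarith
    _ = 4 ^ d * ε * r ^ d := by rw [mul_pow]; ring

theorem ball_ae_closedBall (x : Eu d) {r : ℝ} (hr : 0 < r) :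
    (ball x r : Set (Eu d)) =ᵐ[volume] closedBall x r := by
  refine ae_eq_of_subset_of_measure_ge ball_subset_closedBall ?_ measurableSet_ball.nullMeasurableSet
    measure_closedBall_lt_top.ne
  rw [Measure.addHaar_closedBall _ _ hr.le, Measure.addHaar_ball_of_pos _ _ hr]

/-- at a Lebesgue point the value is the integer of the chain. -/
theorem eq_of_averages {ε : ℝ} {R : Set (Eu d)} (hR : IsOpen R) (hN : IntegrableOn N R)
    (hε : ε < om d) {A : Set (Eu d)} (hAR : A ⊆ R)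
    (hnat : ∀ᵐ y ∂(volume.restrict R), ∃ n : ℕ, N y = n)
    (hA : ∀ x ∈ A, ∃ᶠ r in 𝓝[>] (0 : ℝ), ∫ y in ball x r, |N y - Q| ≤ ε * r ^ d) :
    ∀ᵐ x, x ∈ A → N x = Q := by
  have hf : LocallyIntegrable (R.indicator N) :=
    ((integrable_indicator_iff hR.measurableSet).2 hN).locallyIntegrable
  have hL := IsUnifLocDoublingMeasure.ae_tendsto_average_norm_sub (μ := (volume : Measure (Eu d))) hf 1
  rw [ae_restrict_iff' hR.measurableSet] at hnat
  filter_upwards [hL, hnat] with x hx hn hxA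
  have hxR : x ∈ R := hAR hxA
  obtain ⟨n, hn⟩ := hn hxR
  have hT : Tendsto (fun r : ℝ => ⨍ y in closedBall x r, ‖R.indicator N y - R.indicator N x‖)
      (𝓝[>] 0) (𝓝 0) := by
    refine hx (fun _ => x) (fun r => r) tendsto_id ?_
    filter_upwards [self_mem_nhdsWithin] with r hr
    exact mem_closedBall_self (by simpa using (le_of_lt (show (0 : ℝ) < r from hr)))
  obtain ⟨ρ, hρ, hρR⟩ := Metric.isOpen_iff.1 hR x hxR
  -- the key inequality
  have hkey : |(n : ℝ) - Q| ≤ ε / om d := by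
    refine le_of_forall_pos_lt_add fun δ hδ => ?_
    have h1 : ∀ᶠ r in 𝓝[>] (0 : ℝ), ⨍ y in closedBall x r, ‖R.indicator N y - R.indicator N x‖ < δ :=
      hT.eventually (gt_mem_nhds hδ)
    have h2 : ∀ᶠ r in 𝓝[>] (0 : ℝ), r < ρ := by
      filter_upwards [Ioo_mem_nhdsGT hρ] with r hr using hr.2
    obtain ⟨r, hr1, hr2, hr3, hr0⟩ :=
      ((hA x hxA).and_eventually (h1.and (h2.and self_mem_nhdsWithin))).exists
    have hr0' : (0 : ℝ) < r := hr0
    have hsub : ball x r ⊆ R := (ball_subset_ball hr3.le).trans hρR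
    have hNb := hN.mono_set hsub
    have hfin : volume (ball x r) ≠ ∞ := measure_ball_lt_top.ne
    have hQ : IntegrableOn (fun _ : Eu d => (Q : ℝ)) (ball x r) := integrableOn_const hfin
    have hn' : IntegrableOn (fun _ : Eu d => (n : ℝ)) (ball x r) := integrableOn_const hfin
    have hNQ : IntegrableOn (fun y => |N y - (Q : ℝ)|) (ball x r) := (hNb.sub hQ).abs
    have hNn : IntegrableOn (fun y => |N y - (n : ℝ)|) (ball x r) := (hNb.sub hn').abs
    have e1 : ⨍ y in closedBall x r, ‖R.indicator N y - R.indicator N x‖ =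
        (om d * r ^ d)⁻¹ * ∫ y in ball x r, |N y - n| := by
      rw [setAverage_eq, vol_closedBall x hr0'.le, smul_eq_mul,
        setIntegral_congr_set (ball_ae_closedBall x hr0').symm]
      congr 1
      refine setIntegral_congr_fun measurableSet_ball fun y hy => ?_
      simp only [Set.indicator_of_mem (hsub hy), Set.indicator_of_mem hxR, Real.norm_eq_abs, hn]
    rw [e1] at hr2
    have hv : 0 < om d * r ^ d := mul_pos (om_pos d) (pow_pos hr0' d)
    have h3 : |(n : ℝ) - Q| * (om d * r ^ d) ≤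
        (∫ y in ball x r, |N y - n|) + ∫ y in ball x r, |N y - Q| := by
      rw [← integral_add hNn hNQ]
      have h4 : |(n : ℝ) - Q| * (om d * r ^ d) = ∫ y in ball x r, |(n : ℝ) - Q| := by
        rw [setIntegral_const, smul_eq_mul, vol_ball x hr0', mul_comm]
      rw [h4]
      refine integral_mono (integrableOn_const hfin) (hNn.add hNQ) fun y => ?_
      have h5 : |(n : ℝ) - Q| ≤ |(n : ℝ) - N y| + |N y - Q| := abs_sub_le _ _ _
      rw [abs_sub_comm (n : ℝ) (N y)] at h5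
      exact h5
    have h6 : ∫ y in ball x r, |N y - n| < δ * (om d * r ^ d) := by
      rw [inv_mul_lt_iff₀ hv] at hr2
      linarith
    have h7 : |(n : ℝ) - Q| * (om d * r ^ d) < (ε / om d + δ) * (om d * r ^ d) := by
      calc _ ≤ _ := h3
        _ < δ * (om d * r ^ d) + ε * r ^ d := by linarith
        _ = (ε / om d + δ) * (om d * r ^ d) := by
            have := (om_pos d).ne'
            field_simp
            ring
    exact lt_of_mul_lt_mul_right h7 hv.le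
  have h1 : ε / om d < 1 := (div_lt_one (om_pos d)).2 hε
  have h2 : |(n : ℝ) - Q| < 1 := hkey.trans_lt h1
  have h3 : |(n : ℤ) - Q| < 1 := by exact_mod_cast h2
  rw [Int.abs_lt_one_iff] at h3
  rw [hn]
  have h4 : n = Q := by omega
  rw [h4]

end Crest.Agent.R234.Th_164
end
end

-- ▼ part R234/Th3_164
section

/-!
Row 234, VF-THETA part 3 (helper164): the chain of scales from the strong constancy lemma.
`SC2 d C` : the statement of the strong constancy lemma (helper173) used here.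
`Hyp` : first variation of an integral varifold in the horizontal variables, as an abstract structure.
`TH1` : small steep energy at all scales ==> the multiplicity function is close to `Q` at all scales.
-/

set_option autoImplicit false

open Set Filter Topology MeasureTheory Metric
open scoped ENNReal NNReal ContDiff

noncomputable section

namespace Crest.Agent.R234.Th_164

variable {d : ℕ}

/-- divergence -/
def divg (X : Eu d → Eu d) (z : Eu d) : ℝ := ∑ i, fderiv ℝ X z (EuclideanSpace.single i 1) i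

/-- strong constancy lemma (the statement, constant `C`) -/
def SC2 (d : ℕ) (C : ℝ) : Prop :=
  ∀ (A Em G : Measure (Eu d)) (x₀ : Eu d) (r M δ : ℝ), 0 < r → 0 ≤ δ → δ ≤ M →
    A (ball x₀ (4 * r)) ≤ ENNReal.ofReal M →
    Em (ball x₀ (4 * r)) ≤ ENNReal.ofReal δ →
    G (ball x₀ (4 * r)) ≤ ENNReal.ofReal (δ / r) →
    (∀ X : Eu d → Eu d, ContDiff ℝ ∞ X → HasCompactSupport X → tsupport X ⊆ ball x₀ (4 * r) →
      |∫ z, divg X z ∂A| ≤ (∫ z, ‖fderiv ℝ X z‖ ∂Em) + ∫ z, ‖X z‖ ∂G) →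
    ∃ c : ℝ, ∀ S, MeasurableSet S → S ⊆ ball x₀ r →
      |A.real S - c * volume.real S| ≤ C * Real.sqrt (M * δ)

/-- the first variation of an integral varifold tested with horizontal fields: `N` multiplicity function,
`μ` mass, `e` tilt energy, `es` energy of the steep part, `G ≤ g μ` lower order errors. -/
structure Hyp (C₁ c₀ g : ℝ) (R : Set (Eu d)) (N : Eu d → ℝ) (μ e es G : Measure (Eu d)) : Prop where
  isOpen : IsOpen R
  meas : Measurable N
  nonneg : ∀ y, 0 ≤ N y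
  int : IntegrableOn N R
  nat : ∀ᵐ y ∂(volume.restrict R), ∃ n : ℕ, N y = n
  fin : μ R ≠ ⊤
  tilt : ∀ S, MeasurableSet S → S ⊆ R → e S ≤ ENNReal.ofReal c₀ * μ S + es S
  mass : ∀ S, MeasurableSet S → S ⊆ R → μ S ≤ ENNReal.ofReal (∫ y in S, N y) + e S
  low : ∀ S, MeasurableSet S → S ⊆ R → G S ≤ ENNReal.ofReal g * μ S
  le_mass : ∀ S, MeasurableSet S → S ⊆ R → ENNReal.ofReal (∫ y in S, N y) ≤ μ S
  stat : ∀ X : Eu d → Eu d, ContDiff ℝ ∞ X → HasCompactSupport X → tsupport X ⊆ R →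
    |∫ y in R, N y * divg X y| ≤ C₁ * (∫ y, ‖fderiv ℝ X y‖ ∂e) + ∫ y, ‖X y‖ ∂G

namespace Hyp

variable {C₁ c₀ g : ℝ} {R : Set (Eu d)} {N : Eu d → ℝ} {μ e es G : Measure (Eu d)}

/-- tilt energy of a ball -/
theorem e_le (H : Hyp C₁ c₀ g R N μ e es G) (hc0 : 0 ≤ c₀) (hc : c₀ ≤ 1 / 2) {S : Set (Eu d)}
    (hS : MeasurableSet S) (hSR : S ⊆ R) {a b : ℝ} (ha : ∫ y in S, N y ≤ a) (hb : 0 ≤ b)
    (hes : es S ≤ ENNReal.ofReal b) : e S ≤ ENNReal.ofReal (2 * c₀ * a + 2 * b) := by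
  have hμ : μ S ≠ ⊤ := ne_top_of_le_ne_top H.fin (measure_mono hSR)
  have h0 : 0 ≤ ∫ y in S, N y := integral_nonneg fun y => H.nonneg y
  have ha0 : 0 ≤ a := h0.trans ha
  have h1 := H.tilt S hS hSR
  have hesf : es S ≠ ⊤ := ne_top_of_le_ne_top ENNReal.ofReal_ne_top hes
  have hef : e S ≠ ⊤ := ne_top_of_le_ne_top
    (ENNReal.add_ne_top.2 ⟨ENNReal.mul_ne_top ENNReal.ofReal_ne_top hμ, hesf⟩) h1
  have h2 := H.mass S hS hSR
  have h1' : (e S).toReal ≤ c₀ * (μ S).toReal + (es S).toReal := by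
    have h := ENNReal.toReal_mono
      (ENNReal.add_ne_top.2 ⟨ENNReal.mul_ne_top ENNReal.ofReal_ne_top hμ, hesf⟩) h1
    rwa [ENNReal.toReal_add (ENNReal.mul_ne_top ENNReal.ofReal_ne_top hμ) hesf,
      ENNReal.toReal_mul, ENNReal.toReal_ofReal hc0] at h
  have h2' : (μ S).toReal ≤ (∫ y in S, N y) + (e S).toReal := by
    have h := ENNReal.toReal_mono (ENNReal.add_ne_top.2 ⟨ENNReal.ofReal_ne_top, hef⟩) h2
    rwa [ENNReal.toReal_add ENNReal.ofReal_ne_top hef, ENNReal.toReal_ofReal h0] at h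
  have h3 : (es S).toReal ≤ b := ENNReal.toReal_le_of_le_ofReal hb hes
  rw [← ENNReal.ofReal_toReal hef]
  refine ENNReal.ofReal_le_ofReal ?_
  have h4 : 0 ≤ (e S).toReal := ENNReal.toReal_nonneg
  nlinarith

/-- mass of a ball -/
theorem μ_le (H : Hyp C₁ c₀ g R N μ e es G) (hc0 : 0 ≤ c₀) (hc : c₀ ≤ 1 / 2) {S : Set (Eu d)}
    (hS : MeasurableSet S) (hSR : S ⊆ R) {a b : ℝ} (ha : ∫ y in S, N y ≤ a) (hb : 0 ≤ b)
    (hes : es S ≤ ENNReal.ofReal b) : μ S ≤ ENNReal.ofReal (2 * a + 2 * b) := by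
  have h0 : 0 ≤ ∫ y in S, N y := integral_nonneg fun y => H.nonneg y
  have h1 := H.e_le hc0 hc hS hSR ha hb hes
  refine (H.mass S hS hSR).trans ?_
  have ha0 : 0 ≤ a := h0.trans ha
  calc ENNReal.ofReal (∫ y in S, N y) + e S ≤ ENNReal.ofReal a + ENNReal.ofReal (2 * c₀ * a + 2 * b) :=
        add_le_add (ENNReal.ofReal_le_ofReal ha) h1
    _ = ENNReal.ofReal (a + (2 * c₀ * a + 2 * b)) := (ENNReal.ofReal_add ha0 (by positivity)).symm
    _ ≤ _ := ENNReal.ofReal_le_ofReal (by nlinarith)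

/-- the strong constancy lemma at one scale -/
theorem constancy (H : Hyp C₁ c₀ g R N μ e es G) {C : ℝ} (hSC : SC2 d C) (hC₁ : 0 ≤ C₁) {x : Eu d}
    {r M δ : ℝ} (hr : 0 < r) (hδ : 0 ≤ δ) (hδM : δ ≤ M) (hR : ball x (4 * r) ⊆ R)
    (hA : ∫ y in ball x (4 * r), N y ≤ M)
    (hE : ENNReal.ofReal C₁ * e (ball x (4 * r)) ≤ ENNReal.ofReal δ)
    (hG : G (ball x (4 * r)) ≤ ENNReal.ofReal (δ / r)) :
    ∃ c : ℝ, ∀ S, MeasurableSet S → S ⊆ ball x r →
      |(∫ y in S, N y) - c * volume.real S| ≤ C * Real.sqrt (M * δ) := by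
  set A : Measure (Eu d) := (volume.restrict R).withDensity fun y => ENNReal.ofReal (N y) with hAdef
  have hAS : ∀ S, MeasurableSet S → S ⊆ R → A S = ENNReal.ofReal (∫ y in S, N y) := by
    intro S hS hSR
    rw [hAdef, withDensity_apply _ hS, Measure.restrict_restrict hS, inter_eq_left.2 hSR,
      ofReal_integral_eq_lintegral_ofReal (H.int.mono_set hSR)
        (Eventually.of_forall fun y => H.nonneg y)]
  have hAr : ∀ S, MeasurableSet S → S ⊆ R → A.real S = ∫ y in S, N y := by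
    intro S hS hSR
    rw [measureReal_def, hAS S hS hSR, ENNReal.toReal_ofReal (integral_nonneg fun y => H.nonneg y)]
  obtain ⟨c, hc⟩ := hSC A (ENNReal.ofReal C₁ • e) G x r M δ hr hδ hδM
    (by rw [hAS _ measurableSet_ball hR]; exact ENNReal.ofReal_le_ofReal hA)
    (by rw [Measure.smul_apply, smul_eq_mul]; exact hE) hG
    (by
      intro X hX hXc hXs
      have h1 : ∫ z, divg X z ∂A = ∫ y in R, N y * divg X y := by
        rw [hAdef, integral_withDensity_eq_integral_toReal_smul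
          (H.meas.ennreal_ofReal) (Eventually.of_forall fun y => ENNReal.ofReal_lt_top)]
        refine integral_congr_ae (Eventually.of_forall fun y => ?_)
        simp only [smul_eq_mul]
        rw [ENNReal.toReal_ofReal (H.nonneg y)]
      have h2 : ∫ z, ‖fderiv ℝ X z‖ ∂(ENNReal.ofReal C₁ • e) = C₁ * ∫ z, ‖fderiv ℝ X z‖ ∂e := by
        rw [integral_smul_measure, ENNReal.toReal_ofReal hC₁, smul_eq_mul]
      rw [h1, h2]
      exact H.stat X hX hXc (hXs.trans hR))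
  refine ⟨c, fun S hS hSx => ?_⟩
  rw [← hAr S hS ((hSx.trans (ball_subset_ball (by linarith))).trans hR)]
  exact hc S hS hSx

end Hyp

/-- **(TH1)** small steep energy at all scales in `[s, ρ₀]` ==> `N` is close to `Q` at all these scales. -/
theorem TH1 {C : ℝ} (hSC : SC2 d C) (Q : ℕ) {C₁ : ℝ} (hC₁ : 0 ≤ C₁) {ε : ℝ} (hε : 0 < ε) (hε1 : ε ≤ 1)
    (hεω : ε * (1 + 4 ^ d) < om d) :
    ∃ c₁ : ℝ, 0 < c₁ ∧ c₁ ≤ 1 / 2 ∧ ∃ δ₁ : ℝ, 0 < δ₁ ∧ δ₁ ≤ 1 ∧
      ∀ (c₀ g : ℝ) (R : Set (Eu d)) (N : Eu d → ℝ) (μ e es G : Measure (Eu d)),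
        0 ≤ c₀ → c₀ ≤ c₁ → 0 ≤ g → Hyp C₁ c₀ g R N μ e es G →
        ∀ (x : Eu d) (s ρ₀ : ℝ), ball x ρ₀ ⊆ R → g * ρ₀ ≤ δ₁ →
          ∫ y in ball x ρ₀, |N y - Q| ≤ ε * ρ₀ ^ d →
          (∀ ρ, 0 < ρ → s ≤ ρ → ρ ≤ ρ₀ → es (ball x ρ) ≤ ENNReal.ofReal (δ₁ * ρ ^ d)) →
          ∀ r, 0 < r → s ≤ r → r ≤ ρ₀ → ∫ y in ball x r, |N y - Q| ≤ 4 ^ d * ε * r ^ d := by
  set K : ℝ := Q * om d + 1 with hK
  have hom := om_pos d
  have hK1 : 1 ≤ K := by rw [hK]; nlinarith [Nat.cast_nonneg (α := ℝ) Q]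
  set L : ℝ := ε / (4 ^ (d + 1) * (|C| + 1)) with hL
  have hL0 : 0 < L := by positivity
  set δ₀ : ℝ := min K (L ^ 2 / K) with hδ₀
  have hδ0 : 0 < δ₀ := lt_min (by linarith) (by positivity)
  have hsq : Real.sqrt (K * δ₀) ≤ L := by
    rw [Real.sqrt_le_left hL0.le]
    calc K * δ₀ ≤ K * (L ^ 2 / K) := by gcongr; exact min_le_right _ _
      _ = L ^ 2 := by field_simp
  have hη : 4 ^ (d + 1) * (|C| * L) ≤ ε := by
    have h1 : 4 ^ (d + 1) * (|C| * L) = ε * (|C| / (|C| + 1)) := by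
      rw [hL]; field_simp
    rw [h1]
    have h2 : |C| / (|C| + 1) ≤ 1 := by
      rw [div_le_one (by positivity)]; linarith
    calc ε * (|C| / (|C| + 1)) ≤ ε * 1 := by gcongr
      _ = ε := mul_one _
  refine ⟨min (1 / 2) (δ₀ / (8 * (C₁ + 1) * K)), lt_min (by norm_num) (by positivity),
    min_le_left _ _, min 1 (min (δ₀ / (8 * (C₁ + 1))) (δ₀ / (K + 1))),
    lt_min one_pos (lt_min (by positivity) (by positivity)), min_le_left _ _, ?_⟩
  intro c₀ g R N μ e es G hc0 hc01 hg0 H x s ρ₀ hR hgρ h0 hes r hr0 hsr hr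
  set δ₁ : ℝ := min 1 (min (δ₀ / (8 * (C₁ + 1))) (δ₀ / (K + 1))) with hδ₁
  have hδ1 : 0 < δ₁ := lt_min one_pos (lt_min (by positivity) (by positivity))
  have hδ11 : δ₁ ≤ 1 := min_le_left _ _
  have hδ1' : δ₁ ≤ δ₀ / (8 * (C₁ + 1)) := (min_le_right _ _).trans (min_le_left _ _)
  have hδ1K : δ₁ ≤ δ₀ / (K + 1) := (min_le_right _ _).trans (min_le_right _ _)
  have hc02 : c₀ ≤ δ₀ / (8 * (C₁ + 1) * K) := hc01.trans (min_le_right _ _)
  have hc03 : c₀ ≤ 1 / 2 := hc01.trans (min_le_left _ _)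
  refine chain (η := |C| * L) H.meas (H.int.mono_set hR)
    (ae_mono (Measure.restrict_mono hR le_rfl) H.nat) hε.le hε1 h0 hη hεω ?_ hr0 hsr hr
  intro ρ hρ0 hsρ hρ hN
  have h44 : 4 * (ρ / 4) = ρ := by ring
  have he1 := hes ρ hρ0 hsρ hρ
  have hRρ : ball x ρ ⊆ R := (ball_subset_ball hρ).trans hR
  have hpos : 0 < ρ ^ d := pow_pos hρ0 d
  have he2 := H.e_le hc0 hc03 measurableSet_ball hRρ hN (by positivity) he1
  have hμ2 := H.μ_le hc0 hc03 measurableSet_ball hRρ hN (by positivity) he1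
  have hsum : C₁ * (2 * c₀ * (K * ρ ^ d) + 2 * (δ₁ * ρ ^ d)) ≤ δ₀ * ρ ^ d := by
    have h1 : C₁ * (2 * c₀ * K + 2 * δ₁) ≤ δ₀ := by
      have h2 : 2 * c₀ * K ≤ δ₀ / (4 * (C₁ + 1)) := by
        calc 2 * c₀ * K ≤ 2 * (δ₀ / (8 * (C₁ + 1) * K)) * K := by gcongr
          _ = δ₀ / (4 * (C₁ + 1)) := by field_simp; ring
      have h3 : 2 * δ₁ ≤ δ₀ / (4 * (C₁ + 1)) := by
        calc 2 * δ₁ ≤ 2 * (δ₀ / (8 * (C₁ + 1))) := by gcongr
          _ = δ₀ / (4 * (C₁ + 1)) := by field_simp; ring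
      calc C₁ * (2 * c₀ * K + 2 * δ₁) ≤ C₁ * (δ₀ / (4 * (C₁ + 1)) + δ₀ / (4 * (C₁ + 1))) := by gcongr
        _ = δ₀ * (C₁ / (2 * (C₁ + 1))) := by field_simp; ring
        _ ≤ δ₀ * 1 := by
            gcongr
            rw [div_le_one (by positivity)]
            linarith
        _ = δ₀ := mul_one _
    calc C₁ * (2 * c₀ * (K * ρ ^ d) + 2 * (δ₁ * ρ ^ d)) = C₁ * (2 * c₀ * K + 2 * δ₁) * ρ ^ d := by ring
      _ ≤ δ₀ * ρ ^ d := by gcongr
  obtain ⟨c, hc⟩ := H.constancy hSC hC₁ (x := x) (r := ρ / 4) (M := K * ρ ^ d) (δ := δ₀ * ρ ^ d)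
    (by positivity) (by positivity) (by gcongr; exact min_le_left _ _) (by rw [h44]; exact hRρ)
    (by rw [h44]; exact hN)
    (by
      rw [h44]
      calc ENNReal.ofReal C₁ * e (ball x ρ)
          ≤ ENNReal.ofReal C₁ * ENNReal.ofReal (2 * c₀ * (K * ρ ^ d) + 2 * (δ₁ * ρ ^ d)) := by
            gcongr
        _ = ENNReal.ofReal (C₁ * (2 * c₀ * (K * ρ ^ d) + 2 * (δ₁ * ρ ^ d))) :=
            (ENNReal.ofReal_mul hC₁).symm
        _ ≤ ENNReal.ofReal (δ₀ * ρ ^ d) := ENNReal.ofReal_le_ofReal hsum)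
    (by
      rw [h44]
      have h1 : g * ρ ≤ δ₀ / (K + 1) := by
        calc g * ρ ≤ g * ρ₀ := by gcongr
          _ ≤ δ₁ := hgρ
          _ ≤ _ := hδ1K
      calc G (ball x ρ) ≤ ENNReal.ofReal g * μ (ball x ρ) := H.low _ measurableSet_ball hRρ
        _ ≤ ENNReal.ofReal g * ENNReal.ofReal (2 * (K * ρ ^ d) + 2 * (δ₁ * ρ ^ d)) := by gcongr
        _ = ENNReal.ofReal (g * (2 * (K * ρ ^ d) + 2 * (δ₁ * ρ ^ d))) :=
            (ENNReal.ofReal_mul hg0).symm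
        _ ≤ ENNReal.ofReal (δ₀ * ρ ^ d / (ρ / 4)) := by
            refine ENNReal.ofReal_le_ofReal ?_
            rw [le_div_iff₀ (by positivity)]
            calc g * (2 * (K * ρ ^ d) + 2 * (δ₁ * ρ ^ d)) * (ρ / 4)
                = (g * ρ) * ((K + δ₁) / 2) * ρ ^ d := by ring
              _ ≤ (δ₀ / (K + 1)) * (K + 1) * ρ ^ d := by
                  gcongr
                  linarith
              _ = δ₀ * ρ ^ d := by field_simp)
  refine ⟨c, fun S hS hSx => (hc S hS hSx).trans ?_⟩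
  have h5 : Real.sqrt (K * ρ ^ d * (δ₀ * ρ ^ d)) = Real.sqrt (K * δ₀) * ρ ^ d := by
    rw [show K * ρ ^ d * (δ₀ * ρ ^ d) = K * δ₀ * (ρ ^ d) ^ 2 by ring, Real.sqrt_mul (by positivity),
      Real.sqrt_sq hpos.le]
  rw [h5]
  calc C * (Real.sqrt (K * δ₀) * ρ ^ d) ≤ |C| * (L * ρ ^ d) := by
        gcongr
        exact le_abs_self C
    _ = |C| * L * ρ ^ d := by ring

end Crest.Agent.R234.Th_164
end
end

-- ▼ part R234/Th4_164
section

/-!
Row 234, VF-THETA part 4 (helper164): holes and overlaps are controlled by the steep energy.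
`cover` : the points of `B` with a bad radius are covered by balls `closedBall x (5 ρ x)`, `x ∈ u`, with
disjoint `closedBall x (ρ x)` and `es (ball x (ρ x)) > δ₁ ρ^d`, `∫ |N - Q|`, `μ`, `volume` of `closedBall x (5 ρ x)`
at most `C ρ^d`;  `N = Q` almost everywhere else.
-/

set_option autoImplicit false

open Set Filter Topology MeasureTheory Metric
open scoped ENNReal NNReal ContDiff

noncomputable section

namespace Crest.Agent.R234.Th_164

variable {d : ℕ}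

/-- the points of `B` with a bad radius `≤ ρ₀` -/
def Bad (δ₁ ρ₀ : ℝ) (es : Measure (Eu d)) (B : Set (Eu d)) : Set (Eu d) :=
  {x | x ∈ B ∧ ∃ ρ, 0 < ρ ∧ ρ ≤ ρ₀ ∧ ENNReal.ofReal (δ₁ * ρ ^ d) < es (ball x ρ)}

/-- nearly maximal bad radius -/
theorem exists_radius {δ₁ ρ₀ : ℝ} {es : Measure (Eu d)} {B : Set (Eu d)} {x : Eu d}
    (hx : x ∈ Bad δ₁ ρ₀ es B) : ∃ ρ, 0 < ρ ∧ ρ ≤ ρ₀ ∧ ENNReal.ofReal (δ₁ * ρ ^ d) < es (ball x ρ) ∧
      ∀ ρ', 2 * ρ < ρ' → ρ' ≤ ρ₀ → es (ball x ρ') ≤ ENNReal.ofReal (δ₁ * ρ' ^ d) := by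
  obtain ⟨-, ρ₁, h1, h2, h3⟩ := hx
  set S : Set ℝ := {ρ | 0 < ρ ∧ ρ ≤ ρ₀ ∧ ENNReal.ofReal (δ₁ * ρ ^ d) < es (ball x ρ)} with hS
  have hne : S.Nonempty := ⟨ρ₁, h1, h2, h3⟩
  have hbd : BddAbove S := ⟨ρ₀, fun ρ h => h.2.1⟩
  have hpos : 0 < sSup S := h1.trans_le (le_csSup hbd ⟨h1, h2, h3⟩)
  obtain ⟨ρ, hρ, hlt⟩ := exists_lt_of_lt_csSup hne (show sSup S / 2 < sSup S by linarith)
  refine ⟨ρ, hρ.1, hρ.2.1, hρ.2.2, fun ρ' h4 h5 => ?_⟩
  by_contra hcon
  rw [not_le] at hcon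
  have : ρ' ≤ sSup S := le_csSup hbd ⟨by linarith [hρ.1], h5, hcon⟩
  linarith

/-- **VF-THETA** : off the points with a bad radius the multiplicity is `Q`; the bad points are covered by
balls with large steep energy in which everything is controlled. -/
theorem cover {C : ℝ} (hSC : SC2 d C) (Q : ℕ) {C₁ : ℝ} (hC₁ : 0 ≤ C₁) {ε : ℝ} (hε : 0 < ε) (hε1 : ε ≤ 1)
    (hεω : ε * (1 + 4 ^ d) < om d) :
    ∃ c₁ : ℝ, 0 < c₁ ∧ c₁ ≤ 1 / 2 ∧ ∃ δ₁ : ℝ, 0 < δ₁ ∧ δ₁ ≤ 1 ∧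
      ∀ (c₀ g : ℝ) (R : Set (Eu d)) (N : Eu d → ℝ) (μ e es G : Measure (Eu d)),
        0 ≤ c₀ → c₀ ≤ c₁ → 0 ≤ g → Hyp C₁ c₀ g R N μ e es G →
        ∀ (B : Set (Eu d)) (ρ₀ : ℝ), 0 < ρ₀ → g * (8 * ρ₀) ≤ δ₁ → (∀ x ∈ B, ball x (8 * ρ₀) ⊆ R) →
          (∀ x ∈ B, ∫ y in ball x (8 * ρ₀), |N y - Q| ≤ ε * ρ₀ ^ d) →
          (∀ x ∈ B, es (ball x (8 * ρ₀)) ≤ ENNReal.ofReal (δ₁ * ρ₀ ^ d)) →
          (∀ᵐ x, x ∈ B → x ∉ Bad δ₁ ρ₀ es B → N x = Q) ∧
          (∀ x ∈ Bad δ₁ ρ₀ es B, ∃ ρ, 0 < ρ ∧ ρ ≤ ρ₀ ∧ ENNReal.ofReal (δ₁ * ρ ^ d) < es (ball x ρ) ∧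
            (∀ r, 3 * ρ ≤ r → r ≤ 8 * ρ₀ → es (ball x r) ≤ ENNReal.ofReal (δ₁ * r ^ d) ∧
              ∫ y in ball x r, |N y - Q| ≤ 4 ^ d * ε * r ^ d ∧
              μ (ball x r) ≤ ENNReal.ofReal (2 * (Q * om d + 4 ^ d * ε + 1) * r ^ d))) := by
  obtain ⟨c₁, hc1, hc1', δ₁, hδ1, hδ1', hT⟩ := TH1 hSC Q hC₁ hε hε1 hεω
  refine ⟨c₁, hc1, hc1', δ₁, hδ1, hδ1', ?_⟩
  intro c₀ g R N μ e es G hc0 hc01 hg0 H B ρ₀ hρ0 hgρ hBR hQ hes
  -- good radii above `s`
  have key : ∀ x ∈ B, ∀ s : ℝ, (∀ ρ, 0 < ρ → s ≤ ρ → ρ ≤ ρ₀ → es (ball x ρ) ≤ ENNReal.ofReal (δ₁ * ρ ^ d)) →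
      ∀ r, 0 < r → s ≤ r → r ≤ 8 * ρ₀ → es (ball x r) ≤ ENNReal.ofReal (δ₁ * r ^ d) ∧
        ∫ y in ball x r, |N y - Q| ≤ 4 ^ d * ε * r ^ d := by
    intro x hx s hs
    have hes' : ∀ ρ, 0 < ρ → s ≤ ρ → ρ ≤ 8 * ρ₀ → es (ball x ρ) ≤ ENNReal.ofReal (δ₁ * ρ ^ d) := by
      intro ρ h1 h2 h3
      rcases le_or_gt ρ ρ₀ with h4 | h4
      · exact hs ρ h1 h2 h4
      · calc es (ball x ρ) ≤ es (ball x (8 * ρ₀)) := measure_mono (ball_subset_ball h3)
          _ ≤ ENNReal.ofReal (δ₁ * ρ₀ ^ d) := hes x hx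
          _ ≤ ENNReal.ofReal (δ₁ * ρ ^ d) := ENNReal.ofReal_le_ofReal (by gcongr)
    intro r hr0 hsr hr
    refine ⟨hes' r hr0 hsr hr, ?_⟩
    refine hT c₀ g R N μ e es G hc0 hc01 hg0 H x s (8 * ρ₀) (hBR x hx) hgρ ((hQ x hx).trans ?_)
      hes' r hr0 hsr hr
    gcongr
    linarith
  refine ⟨?_, ?_⟩
  · have h1 : ∀ᵐ x, x ∈ {x | x ∈ B ∧ x ∉ Bad δ₁ ρ₀ es B} → N x = Q := by
      refine eq_of_averages (ε := 4 ^ d * ε) H.isOpen H.int (by nlinarith)
        (fun x hx => hBR x hx.1 (mem_ball_self (by positivity))) H.nat ?_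
      intro x hx
      refine Eventually.frequently ?_
      filter_upwards [Ioo_mem_nhdsGT (show (0 : ℝ) < ρ₀ from hρ0)] with r hr
      refine (key x hx.1 0 ?_ r hr.1 hr.1.le (by linarith [hr.2, hr.1])).2
      intro ρ h1 _ h3
      by_contra hcon
      rw [not_le] at hcon
      exact hx.2 ⟨hx.1, ρ, h1, h3, hcon⟩
    filter_upwards [h1] with x hx h2 h3
    exact hx ⟨h2, h3⟩
  · intro x hx
    obtain ⟨ρ, h1, h2, h3, h4⟩ := exists_radius hx
    refine ⟨ρ, h1, h2, h3, fun r hr1 hr2 => ?_⟩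
    have hr0 : 0 < r := by linarith
    obtain ⟨k1, k2⟩ := key x hx.1 (3 * ρ) (fun ρ' h5 h6 h7 => h4 ρ' (by linarith) h7) r hr0 hr1 hr2
    refine ⟨k1, k2, ?_⟩
    have hRr : ball x r ⊆ R := (ball_subset_ball hr2).trans (hBR x hx.1)
    have hN := integral_N_le (Q := Q) hr0 (H.int.mono_set hRr) k2
    have hμ := H.μ_le hc0 (hc01.trans hc1') measurableSet_ball hRr hN (by positivity) k1
    refine hμ.trans (ENNReal.ofReal_le_ofReal ?_)
    have h5 : δ₁ * r ^ d ≤ 1 * r ^ d := by gcongr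
    calc 2 * ((Q * om d + 4 ^ d * ε) * r ^ d) + 2 * (δ₁ * r ^ d)
        ≤ 2 * ((Q * om d + 4 ^ d * ε) * r ^ d) + 2 * (1 * r ^ d) := by linarith
      _ = 2 * (Q * om d + 4 ^ d * ε + 1) * r ^ d := by ring

end Crest.Agent.R234.Th_164
end
end

-- ▼ part R234/Th5_164

/-!
Row 234, VF-THETA part 5 (helper164): summed inequalities, existence of the integer at one scale.
-/

set_option autoImplicit false

open Set Filter Topology MeasureTheory Metric
open scoped ENNReal NNReal ContDiff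

noncomputable section

namespace Crest.Agent.R234.Th_164

variable {d : ℕ}

/-- Vitali: a measure which is at most `K (6ρ)^d` on `ball x (6ρ)` for one bad radius `ρ` at every bad point. -/
theorem measure_bad_le {δ₁ ρ₀ K : ℝ} (hδ : 0 < δ₁) (hK : 0 < K) {es ν : Measure (Eu d)} {B : Set (Eu d)}
    (h : ∀ x ∈ Bad δ₁ ρ₀ es B, ∃ ρ, 0 < ρ ∧ ρ ≤ ρ₀ ∧ ENNReal.ofReal (δ₁ * ρ ^ d) < es (ball x ρ) ∧
      ν (ball x (6 * ρ)) ≤ ENNReal.ofReal (K * (6 * ρ) ^ d)) :
    ν (Bad δ₁ ρ₀ es B) ≤ ENNReal.ofReal (6 ^ d * K / δ₁) * es (⋃ x ∈ B, closedBall x ρ₀) := by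
  classical
  choose! ρ h1 h2 h3 h4 using h
  have h5 : ENNReal.ofReal (δ₁ / (6 ^ d * K)) * ν (Bad δ₁ ρ₀ es B) ≤
      es (⋃ x ∈ B, closedBall x ρ₀) := by
    refine Vit_534.compare' ν es (Bad δ₁ ρ₀ es B) _ ρ ρ₀ h2 h1 _ ?_ ?_
    · intro x hx
      have hsub : closedBall x (5 * ρ x) ⊆ ball x (6 * ρ x) :=
        closedBall_subset_ball (by linarith [h1 x hx])
      calc ENNReal.ofReal (δ₁ / (6 ^ d * K)) * ν (closedBall x (5 * ρ x))
          ≤ ENNReal.ofReal (δ₁ / (6 ^ d * K)) * ENNReal.ofReal (K * (6 * ρ x) ^ d) := by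
            gcongr
            exact (measure_mono hsub).trans (h4 x hx)
        _ = ENNReal.ofReal (δ₁ * ρ x ^ d) := by
            rw [← ENNReal.ofReal_mul (by positivity), mul_pow]
            congr 1
            field_simp
        _ ≤ es (ball x (ρ x)) := (h3 x hx).le
        _ ≤ es (closedBall x (ρ x)) := measure_mono ball_subset_closedBall
    · intro x hx
      refine (closedBall_subset_closedBall (h2 x hx)).trans ?_
      exact subset_biUnion_of_mem (u := fun x => closedBall x ρ₀) hx.1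
  have h6 : ENNReal.ofReal (6 ^ d * K / δ₁) * ENNReal.ofReal (δ₁ / (6 ^ d * K)) = 1 := by
    rw [← ENNReal.ofReal_mul (by positivity)]
    rw [show 6 ^ d * K / δ₁ * (δ₁ / (6 ^ d * K)) = 1 by field_simp, ENNReal.ofReal_one]
  calc ν (Bad δ₁ ρ₀ es B) = ENNReal.ofReal (6 ^ d * K / δ₁) *
        (ENNReal.ofReal (δ₁ / (6 ^ d * K)) * ν (Bad δ₁ ρ₀ es B)) := by
          rw [← mul_assoc, h6, one_mul]
    _ ≤ _ := by gcongr

/-- the summed inequalities from the conclusions of `cover`. -/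
theorem sums {Q : ℕ} {ε δ₁ C₁ c₀ g : ℝ} (hε : 0 < ε) (hδ1 : 0 < δ₁) {R : Set (Eu d)} {N : Eu d → ℝ}
    {μ e es G : Measure (Eu d)} (H : Hyp C₁ c₀ g R N μ e es G) {B : Set (Eu d)} {ρ₀ : ℝ}
    (hρ0 : 0 < ρ₀) (hBR : ∀ x ∈ B, ball x (8 * ρ₀) ⊆ R)
    (h1 : ∀ᵐ x, x ∈ B → x ∉ Bad δ₁ ρ₀ es B → N x = Q)
    (h2 : ∀ x ∈ Bad δ₁ ρ₀ es B, ∃ ρ, 0 < ρ ∧ ρ ≤ ρ₀ ∧ ENNReal.ofReal (δ₁ * ρ ^ d) < es (ball x ρ) ∧
            (∀ r, 3 * ρ ≤ r → r ≤ 8 * ρ₀ → es (ball x r) ≤ ENNReal.ofReal (δ₁ * r ^ d) ∧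
              ∫ y in ball x r, |N y - Q| ≤ 4 ^ d * ε * r ^ d ∧
              μ (ball x r) ≤ ENNReal.ofReal (2 * (Q * om d + 4 ^ d * ε + 1) * r ^ d))) :
    volume (Bad δ₁ ρ₀ es B) ≤
      ENNReal.ofReal (6 ^ d * om d / δ₁) * es (⋃ x ∈ B, closedBall x ρ₀) ∧
    μ (Bad δ₁ ρ₀ es B) ≤
      ENNReal.ofReal (6 ^ d * (2 * (Q * om d + 4 ^ d * ε + 1)) / δ₁) *
        es (⋃ x ∈ B, closedBall x ρ₀) ∧
    (MeasurableSet B → ∫⁻ y in B, ENNReal.ofReal |N y - Q| ≤
      ENNReal.ofReal (6 ^ d * (4 ^ d * ε) / δ₁) * es (⋃ x ∈ B, closedBall x ρ₀)) := by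
  have hom := om_pos d
  have hQn : (0 : ℝ) ≤ Q := Nat.cast_nonneg Q
  refine ⟨?_, ?_, ?_⟩
  · refine measure_bad_le hδ1 hom fun x hx => ?_
    obtain ⟨ρ, k1, k2, k3, -⟩ := h2 x hx
    refine ⟨ρ, k1, k2, k3, ?_⟩
    rw [← vol_ball x (by positivity : 0 < 6 * ρ), measureReal_def,
      ENNReal.ofReal_toReal measure_ball_lt_top.ne]
  · refine measure_bad_le hδ1 (by positivity) fun x hx => ?_
    obtain ⟨ρ, k1, k2, k3, k4⟩ := h2 x hx
    exact ⟨ρ, k1, k2, k3, (k4 (6 * ρ) (by linarith) (by linarith)).2.2⟩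
  · intro hB
    set ν : Measure (Eu d) := (volume.restrict R).withDensity fun y => ENNReal.ofReal |N y - Q| with hν
    have h3 : ν (Bad δ₁ ρ₀ es B) ≤
        ENNReal.ofReal (6 ^ d * (4 ^ d * ε) / δ₁) * es (⋃ x ∈ B, closedBall x ρ₀) := by
      refine measure_bad_le hδ1 (by positivity) fun x hx => ?_
      obtain ⟨ρ, k1, k2, k3, k4⟩ := h2 x hx
      refine ⟨ρ, k1, k2, k3, ?_⟩
      have hRr : ball x (6 * ρ) ⊆ R := (ball_subset_ball (by linarith)).trans (hBR x hx.1)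
      have hNb := H.int.mono_set hRr
      have hQi : IntegrableOn (fun _ : Eu d => (Q : ℝ)) (ball x (6 * ρ)) :=
        integrableOn_const measure_ball_lt_top.ne
      have hNQ : IntegrableOn (fun y => |N y - (Q : ℝ)|) (ball x (6 * ρ)) := (hNb.sub hQi).abs
      rw [hν, withDensity_apply _ measurableSet_ball, Measure.restrict_restrict measurableSet_ball,
        inter_eq_left.2 hRr, ← ofReal_integral_eq_lintegral_ofReal hNQ
          (Eventually.of_forall fun y => abs_nonneg _)]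
      exact ENNReal.ofReal_le_ofReal (k4 (6 * ρ) (by linarith) (by linarith)).2.1
    refine le_trans ?_ h3
    -- `N = Q` off the bad set
    have hsub : ∀ᵐ y ∂(volume : Measure (Eu d)), B.indicator (fun y => ENNReal.ofReal |N y - Q|) y ≤
        (toMeasurable ν (Bad δ₁ ρ₀ es B) ∩ R).indicator (fun y => ENNReal.ofReal |N y - Q|) y := by
      filter_upwards [h1] with y hy
      by_cases hyB : y ∈ B
      · have hyR : y ∈ R := hBR y hyB (mem_ball_self (by positivity))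
        rw [Set.indicator_of_mem hyB]
        by_cases hbad : y ∈ Bad δ₁ ρ₀ es B
        · have hmem : y ∈ toMeasurable ν (Bad δ₁ ρ₀ es B) ∩ R := ⟨subset_toMeasurable _ _ hbad, hyR⟩
          rw [Set.indicator_of_mem hmem]
        · rw [hy hyB hbad]
          simp
      · rw [Set.indicator_of_notMem hyB]
        exact bot_le
    calc ∫⁻ y in B, ENNReal.ofReal |N y - Q|
        = ∫⁻ y, B.indicator (fun y => ENNReal.ofReal |N y - Q|) y := (lintegral_indicator hB _).symm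
      _ ≤ ∫⁻ y, (toMeasurable ν (Bad δ₁ ρ₀ es B) ∩ R).indicator (fun y => ENNReal.ofReal |N y - Q|) y :=
          lintegral_mono_ae hsub
      _ = ∫⁻ y in toMeasurable ν (Bad δ₁ ρ₀ es B) ∩ R, ENNReal.ofReal |N y - Q| :=
          lintegral_indicator ((measurableSet_toMeasurable _ _).inter H.isOpen.measurableSet) _
      _ = ν (toMeasurable ν (Bad δ₁ ρ₀ es B)) := by
          rw [hν, withDensity_apply _ (measurableSet_toMeasurable _ _),
            Measure.restrict_restrict (measurableSet_toMeasurable _ _)]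
      _ = ν (Bad δ₁ ρ₀ es B) := measure_toMeasurable _


/-- at one scale with small tilt energy the multiplicity function is close to an integer (which replaces the
integrality theorem for nearly flat varifolds). -/
theorem exists_integer {C : ℝ} (hSC : SC2 d C) {C₁ c₀ g : ℝ} (hC₁ : 0 ≤ C₁) {R : Set (Eu d)}
    {N : Eu d → ℝ} {μ e es G : Measure (Eu d)} (H : Hyp C₁ c₀ g R N μ e es G) {x : Eu d} {r M δ : ℝ}
    (hr : 0 < r) (hδ : 0 ≤ δ) (hδM : δ ≤ M) (hR : ball x (4 * r) ⊆ R)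
    (hA : ∫ y in ball x (4 * r), N y ≤ M)
    (hE : ENNReal.ofReal C₁ * e (ball x (4 * r)) ≤ ENNReal.ofReal δ)
    (hG : G (ball x (4 * r)) ≤ ENNReal.ofReal (δ / r)) :
    ∃ k : ℕ, ∫ y in ball x r, |N y - k| ≤ 4 * (C * Real.sqrt (M * δ)) := by
  obtain ⟨c, hc⟩ := H.constancy hSC hC₁ hr hδ hδM hR hA hE hG
  have hsub : ball x r ⊆ R := (ball_subset_ball (by linarith)).trans hR
  exact exists_nat_close measurableSet_ball H.meas (H.int.mono_set hsub) measure_ball_lt_top.ne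
    (ae_mono (Measure.restrict_mono hsub le_rfl) H.nat) hc

end Crest.Agent.R234.Th_164
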