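import Crest.Agent.R234.Th5_164
import Crest.Agent.R234.Cy5_870
import Crest.Agent.R234.AS_456
import Crest.Agent.R234.Sc13_173

-- ▼ part R234/Th6_164
section

/-!
Row 234, VF-THETA part 6 (helper164): the instance.  A general varifold `W` over an open set `R` of the base with
an integer valued covering number `N` (area formula) and small first variation on horizontal fields satisfies `Hyp`.
-/

set_option autoImplicit false

open Set Filter Topology MeasureTheory Metric
open Crest.GeometryTopology.Submanifold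
open Crest.Agent.R234.Vf_884 Crest.Agent.R234.Ar_870 Crest.Agent.R234.Cy_870
open scoped ENNReal NNReal ContDiff InnerProductSpace

noncomputable section

namespace Crest.Agent.R234.Th_164

variable {m k : ℕ} {π : Euc k →L[ℝ] Euc m} {P : L k}

/-- `|tr (B (1 - S_hh))| ≤ ‖B‖ tl` and `tl` as a sum of squares. -/
theorem abs_tr_le (hπ : IsCo π) (hP : IsPr P) (B : L m) :
    |tr B - tr (B ∘L Shh π P)| ≤ ‖B‖ * tl π P := by
  set D : Euc k →L[ℝ] Euc m := π ∘L (ContinuousLinearMap.id ℝ (Euc k) - P) with hD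
  have hDD : D ∘L ContinuousLinearMap.adjoint D = ContinuousLinearMap.id ℝ (Euc m) - Shh π P := by
    have h1 : ContinuousLinearMap.adjoint D =
        (ContinuousLinearMap.id ℝ (Euc k) - P) ∘L ContinuousLinearMap.adjoint π := by
      rw [hD, ContinuousLinearMap.adjoint_comp, map_sub, hP.2]
      congr 1
      congr 1
      exact ContinuousLinearMap.adjoint_id
    rw [h1, hD]
    ext1 v
    have h2 : P (P (ContinuousLinearMap.adjoint π v)) = P (ContinuousLinearMap.adjoint π v) :=
      congrArg (fun T : L k => T (ContinuousLinearMap.adjoint π v)) hP.1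
    have h3 : π (ContinuousLinearMap.adjoint π v) = v :=
      congrArg (fun T : L m => T v) hπ
    simp only [Shh, ContinuousLinearMap.coe_comp, Function.comp_apply, sub_apply,
      ContinuousLinearMap.id_apply, map_sub, h2, h3]
    abel
  have key : ∀ A : L m, tr A - tr (A ∘L Shh π P) =
      ∑ i, ⟪D (stdVec k i), A (D (stdVec k i))⟫_ℝ := by
    intro A
    have h1 : tr A - tr (A ∘L Shh π P) = tr ((A ∘L D) ∘L ContinuousLinearMap.adjoint D) := by
      have h2 : (A ∘L D) ∘L ContinuousLinearMap.adjoint D = A - A ∘L Shh π P := by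
        have h3 : (A ∘L D) ∘L ContinuousLinearMap.adjoint D =
            A ∘L (D ∘L ContinuousLinearMap.adjoint D) := rfl
        rw [h3, hDD, ContinuousLinearMap.comp_sub, ContinuousLinearMap.comp_id]
      rw [h2, map_sub]
    rw [h1, ← tr_cyc, tr_eq_sum]
    refine Finset.sum_congr rfl fun i _ => ?_
    change ⟪stdVec k i, ContinuousLinearMap.adjoint D (A (D (stdVec k i)))⟫_ℝ = _
    rw [ContinuousLinearMap.adjoint_inner_right]
  have htl : tl π P = ∑ i, ‖D (stdVec k i)‖ ^ 2 := by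
    have h1 := key (ContinuousLinearMap.id ℝ (Euc m))
    rw [ContinuousLinearMap.id_comp, tr_one, ← tl_eq] at h1
    rw [h1]
    refine Finset.sum_congr rfl fun i _ => ?_
    rw [ContinuousLinearMap.id_apply, real_inner_self_eq_norm_sq]
  rw [key B, htl, Finset.mul_sum]
  refine (Finset.abs_sum_le_sum_abs _ _).trans (Finset.sum_le_sum fun i _ => ?_)
  calc |⟪D (stdVec k i), B (D (stdVec k i))⟫_ℝ| ≤ ‖D (stdVec k i)‖ * ‖B (D (stdVec k i))‖ :=
        abs_real_inner_le_norm _ _
    _ ≤ ‖D (stdVec k i)‖ * (‖B‖ * ‖D (stdVec k i)‖) := by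
        gcongr
        exact B.le_opNorm _
    _ = ‖B‖ * ‖D (stdVec k i)‖ ^ 2 := by ring

theorem abs_tr_le_norm (B : L m) : |tr B| ≤ m * ‖B‖ := by
  rw [tr_eq_sum]
  refine (Finset.abs_sum_le_sum_abs _ _).trans ?_
  calc ∑ i, |⟪stdVec m i, B (stdVec m i)⟫_ℝ| ≤ ∑ _i : Fin m, ‖B‖ := by
        refine Finset.sum_le_sum fun i _ => ?_
        have h1 : ‖stdVec m i‖ = 1 := by simp [stdVec]
        calc |⟪stdVec m i, B (stdVec m i)⟫_ℝ| ≤ ‖stdVec m i‖ * ‖B (stdVec m i)‖ :=
              abs_real_inner_le_norm _ _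
          _ ≤ ‖stdVec m i‖ * (‖B‖ * ‖stdVec m i‖) := by
              gcongr
              exact B.le_opNorm _
          _ = ‖B‖ := by rw [h1]; ring
    _ = m * ‖B‖ := by simp

theorem divg_eq_tr (X : Euc m → Euc m) (z : Euc m) : divg X z = tr (fderiv ℝ X z) := by
  rw [tr_eq_sum, divg]
  refine Finset.sum_congr rfl fun i _ => ?_
  rw [stdVec, EuclideanSpace.inner_single_left]
  simp

/-- the pointwise inequality -/
theorem abs_integrand_le (hπ : IsCo π) (hP : IsPr P) (B : L m) :
    |Jh π P * tr B - tr (B ∘L Shh π P)| ≤ (m + 1) * (‖B‖ * tl π P) := by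
  have h1 := abs_tr_le hπ hP B
  have h2 := abs_tr_le_norm B
  have h3 := one_sub_Jh_le hπ hP
  have h4 := Jh_le_one hπ hP
  have h5 := tl_nonneg hπ hP
  have e : Jh π P * tr B - tr (B ∘L Shh π P) =
      (tr B - tr (B ∘L Shh π P)) - (1 - Jh π P) * tr B := by ring
  rw [e]
  have h6 : |(1 - Jh π P) * tr B| ≤ tl π P * (m * ‖B‖) := by
    rw [abs_mul, abs_of_nonneg (by linarith : 0 ≤ 1 - Jh π P)]
    gcongr
  calc _ ≤ |tr B - tr (B ∘L Shh π P)| + |(1 - Jh π P) * tr B| := abs_sub _ _
    _ ≤ ‖B‖ * tl π P + tl π P * (m * ‖B‖) := add_le_add h1 h6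
    _ = _ := by ring

end Crest.Agent.R234.Th_164
end
end

-- ▼ part R234/Th7_164
section

/-!
Row 234, VF-THETA part 7 (helper164): `Hyp` for a general varifold over an open set of the base with area formula
and small first variation on horizontal fields (stationary: `δ = 0`).
-/

set_option autoImplicit false

open Set Filter Topology MeasureTheory Metric
open Crest.GeometryTopology.Submanifold
open Crest.Agent.R234.Vf_884 Crest.Agent.R234.Ar_870 Crest.Agent.R234.Cy_870
open scoped ENNReal NNReal ContDiff InnerProductSpace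

noncomputable section

namespace Crest.Agent.R234.Th_164

variable {m k : ℕ} {π : Euc k →L[ℝ] Euc m}

/-- projected mass -/
def muM (W : Measure (Euc k × L k)) (π : Euc k →L[ℝ] Euc m) : Measure (Euc m) :=
  W.map fun p => π p.1

/-- projected measure with density `w` -/
def wM (W : Measure (Euc k × L k)) (π : Euc k →L[ℝ] Euc m) (w : Euc k × L k → ℝ) :
    Measure (Euc m) :=
  (W.withDensity fun p => ENNReal.ofReal (w p)).map fun p => π p.1

theorem measurable_base (π : Euc k →L[ℝ] Euc m) : Measurable fun p : Euc k × L k => π p.1 :=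
  π.continuous.measurable.comp measurable_fst

theorem muM_apply (W : Measure (Euc k × L k)) {S : Set (Euc m)} (hS : MeasurableSet S) :
    muM W π S = W ((fun p => π p.1) ⁻¹' S) := Measure.map_apply (measurable_base π) hS

theorem wM_apply (W : Measure (Euc k × L k)) (w : Euc k × L k → ℝ) {S : Set (Euc m)}
    (hS : MeasurableSet S) :
    wM W π w S = ∫⁻ p in (fun p => π p.1) ⁻¹' S, ENNReal.ofReal (w p) ∂W := by
  rw [wM, Measure.map_apply (measurable_base π) hS, withDensity_apply _ (measurable_base π hS)]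

theorem integral_wM (W : Measure (Euc k × L k)) {w : Euc k × L k → ℝ} (hw : Measurable w)
    (hw0 : ∀ᵐ p ∂W, 0 ≤ w p) {f : Euc m → ℝ} (hf : Continuous f) :
    ∫ x, f x ∂(wM W π w) = ∫ p, w p * f (π p.1) ∂W := by
  rw [wM, integral_map (measurable_base π).aemeasurable hf.aestronglyMeasurable,
    integral_withDensity_eq_integral_toReal_smul hw.ennreal_ofReal
      (Eventually.of_forall fun p => ENNReal.ofReal_lt_top)]
  refine integral_congr_ae ?_
  filter_upwards [hw0] with p hp
  rw [ENNReal.toReal_ofReal hp, smul_eq_mul]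

/-- area formula with covering number `N` over `R` -/
structure Area (W : Measure (Euc k × L k)) (π : Euc k →L[ℝ] Euc m) (R : Set (Euc m))
    (N : Euc m → ℝ≥0∞) : Prop where
  meas : Measurable N
  nat : ∀ᵐ x ∂(volume.restrict R), ∃ n : ℕ, N x = n
  area : ∀ g : Euc m → ℝ≥0∞, Measurable g → (∀ x, x ∉ R → g x = 0) →
    ∫⁻ p, ENNReal.ofReal (Jh π p.2) * g (π p.1) ∂W = ∫⁻ x, N x * g x

/-- the tilt weight with height correction -/
def we (π : Euc k →L[ℝ] Euc m) (δ : ℝ) (q : Euc k → ℝ) (p : Euc k × L k) : ℝ :=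
  tl π p.2 + δ * q p.1

/-- the weight of the steep part -/
def ws (π : Euc k →L[ℝ] Euc m) (σ : ℝ) (p : Euc k × L k) : ℝ :=
  {p : Euc k × L k | σ < tl π p.2}.indicator (fun p => tl π p.2) p

/-- the weight of the lower order terms -/
def wg (π : Euc k →L[ℝ] Euc m) (δ : ℝ) (q : Euc k → ℝ) (p : Euc k × L k) : ℝ :=
  δ * (tl π p.2 + q p.1)

theorem measurable_tl2 (π : Euc k →L[ℝ] Euc m) : Measurable fun p : Euc k × L k => tl π p.2 :=
  (measurable_tl π).measurable.comp measurable_snd

namespace Area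

variable {W : Measure (Euc k × L k)} {R : Set (Euc m)} {N : Euc m → ℝ≥0∞}

theorem lintegral_N (hN : Area W π R N) {S : Set (Euc m)} (hS : MeasurableSet S) (hSR : S ⊆ R) :
    ∫⁻ x in S, N x = ∫⁻ p in (fun p => π p.1) ⁻¹' S, ENNReal.ofReal (Jh π p.2) ∂W := by
  have h1 := hN.area (S.indicator 1) (measurable_one.indicator hS)
    (fun x hx => Set.indicator_of_notMem (fun h => hx (hSR h)) _)
  have h2 : ∫⁻ x, N x * S.indicator 1 x = ∫⁻ x in S, N x := by
    rw [← lintegral_indicator hS]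
    refine lintegral_congr fun x => ?_
    by_cases hx : x ∈ S <;> simp [hx]
  have h3 : ∫⁻ p, ENNReal.ofReal (Jh π p.2) * S.indicator 1 (π p.1) ∂W =
      ∫⁻ p in (fun p => π p.1) ⁻¹' S, ENNReal.ofReal (Jh π p.2) ∂W := by
    rw [← lintegral_indicator (measurable_base π hS)]
    refine lintegral_congr fun p => ?_
    by_cases hx : π p.1 ∈ S
    · have hx' : p ∈ (fun p : Euc k × L k => π p.1) ⁻¹' S := hx
      rw [Set.indicator_of_mem hx, Set.indicator_of_mem hx']
      simp
    · have hx' : p ∉ (fun p : Euc k × L k => π p.1) ⁻¹' S := hx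
      rw [Set.indicator_of_notMem hx, Set.indicator_of_notMem hx', mul_zero]
  rw [← h2, ← h1, h3]

theorem lintegral_N_le (hN : Area W π R N) (hπ : IsCo π) (hc : ∀ᵐ p ∂W, p.2 ∈ G m k)
    {S : Set (Euc m)} (hS : MeasurableSet S) (hSR : S ⊆ R) : ∫⁻ x in S, N x ≤ W univ := by
  rw [hN.lintegral_N hS hSR]
  calc ∫⁻ p in (fun p => π p.1) ⁻¹' S, ENNReal.ofReal (Jh π p.2) ∂W
      ≤ ∫⁻ p, ENNReal.ofReal (Jh π p.2) ∂W := setLIntegral_le_lintegral _ _
    _ ≤ ∫⁻ _p, 1 ∂W := by
        refine lintegral_mono_ae ?_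
        filter_upwards [hc] with p hp
        rw [ENNReal.ofReal_le_one]
        exact Jh_le_one hπ (isPr_of_G hp)
    _ = W univ := by simp

theorem integrableOn (hN : Area W π R N) [IsFiniteMeasure W] (hπ : IsCo π)
    (hc : ∀ᵐ p ∂W, p.2 ∈ G m k) (hR : MeasurableSet R) :
    IntegrableOn (fun x => (N x).toReal) R :=
  integrable_toReal_of_lintegral_ne_top hN.meas.aemeasurable
    ((hN.lintegral_N_le hπ hc hR subset_rfl).trans_lt (measure_lt_top W univ)).ne

theorem ae_lt_top (hN : Area W π R N) [IsFiniteMeasure W] (hπ : IsCo π)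
    (hc : ∀ᵐ p ∂W, p.2 ∈ G m k) (hR : MeasurableSet R) :
    ∀ᵐ x ∂(volume.restrict R), N x < ⊤ :=
  MeasureTheory.ae_lt_top hN.meas
    ((hN.lintegral_N_le hπ hc hR subset_rfl).trans_lt (measure_lt_top W univ)).ne

/-- area formula, real form -/
theorem integral_eq (hN : Area W π R N) [IsFiniteMeasure W] (hπ : IsCo π)
    (hc : ∀ᵐ p ∂W, p.2 ∈ G m k) (hR : MeasurableSet R) {g : Euc m → ℝ} (hg : Continuous g)
    (hg0 : ∀ x, x ∉ R → g x = 0) {C : ℝ} (hC : ∀ x, |g x| ≤ C) :
    ∫ p, Jh π p.2 * g (π p.1) ∂W = ∫ x in R, (N x).toReal * g x := by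
  have hJm : Measurable fun p : Euc k × L k => Jh π p.2 :=
    (continuous_Jh π).measurable.comp measurable_snd
  -- nonnegative functions
  have key : ∀ g : Euc m → ℝ, Continuous g → (∀ x, 0 ≤ g x) → (∀ x, x ∉ R → g x = 0) →
      ∫ p, Jh π p.2 * g (π p.1) ∂W = ∫ x in R, (N x).toReal * g x := by
    intro g hg hgn hg0
    rw [integral_eq_lintegral_of_nonneg_ae
      (Eventually.of_forall fun p => mul_nonneg (Jh_nonneg _ _) (hgn _))
      (hJm.mul (hg.measurable.comp (measurable_base π))).aestronglyMeasurable,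
      integral_eq_lintegral_of_nonneg_ae
      (Eventually.of_forall fun x => mul_nonneg ENNReal.toReal_nonneg (hgn _))
      ((hN.meas.ennreal_toReal.mul hg.measurable).aestronglyMeasurable)]
    congr 1
    have h1 : ∀ p : Euc k × L k, ENNReal.ofReal (Jh π p.2 * g (π p.1)) =
        ENNReal.ofReal (Jh π p.2) * ENNReal.ofReal (g (π p.1)) := fun p =>
      ENNReal.ofReal_mul (Jh_nonneg _ _)
    simp_rw [h1]
    rw [hN.area (fun x => ENNReal.ofReal (g x)) hg.measurable.ennreal_ofReal
      (fun x hx => by rw [hg0 x hx, ENNReal.ofReal_zero])]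
    rw [← lintegral_indicator hR]
    have h2 := hN.ae_lt_top hπ hc hR
    rw [ae_restrict_iff' hR] at h2
    refine lintegral_congr_ae ?_
    filter_upwards [h2] with x hx
    by_cases hxR : x ∈ R
    · rw [Set.indicator_of_mem hxR, ENNReal.ofReal_mul ENNReal.toReal_nonneg,
        ENNReal.ofReal_toReal (hx hxR).ne]
    · rw [Set.indicator_of_notMem hxR, hg0 x hxR]; simp
  have hp := key (fun x => max (g x) 0) (hg.max continuous_const) (fun x => le_max_right _ _)
    (fun x hx => by rw [hg0 x hx]; simp)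
  have hn := key (fun x => max (-g x) 0) (hg.neg.max continuous_const) (fun x => le_max_right _ _)
    (fun x hx => by rw [hg0 x hx]; simp)
  have hbW : ∀ f : Euc m → ℝ, Continuous f → (∀ x, |f x| ≤ C) →
      Integrable (fun p : Euc k × L k => Jh π p.2 * f (π p.1)) W := by
    intro f hf hfC
    refine Integrable.of_bound
      (hJm.mul (hf.measurable.comp (measurable_base π))).aestronglyMeasurable C ?_
    filter_upwards [hc] with p hp
    rw [Real.norm_eq_abs, abs_mul, abs_of_nonneg (Jh_nonneg _ _)]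
    calc Jh π p.2 * |f (π p.1)| ≤ 1 * |f (π p.1)| := by
          gcongr
          exact Jh_le_one hπ (isPr_of_G hp)
      _ ≤ C := by rw [one_mul]; exact hfC _
  have hbN : ∀ f : Euc m → ℝ, Continuous f → (∀ x, |f x| ≤ C) →
      Integrable (fun x => (N x).toReal * f x) (volume.restrict R) := by
    intro f hf hfC
    exact (hN.integrableOn hπ hc hR).mul_bdd hf.aestronglyMeasurable
      (Eventually.of_forall fun x => by rw [Real.norm_eq_abs]; exact hfC x)
  have hC0 : 0 ≤ C := (abs_nonneg _).trans (hC 0)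
  have hCp : ∀ x, |max (g x) 0| ≤ C := fun x => by
    rw [abs_of_nonneg (le_max_right _ _)]
    exact max_le ((le_abs_self _).trans (hC x)) hC0
  have hCn : ∀ x, |max (-g x) 0| ≤ C := fun x => by
    rw [abs_of_nonneg (le_max_right _ _)]
    exact max_le ((neg_le_abs _).trans (hC x)) hC0
  have hsplit : ∀ x, g x = max (g x) 0 - max (-g x) 0 := by
    intro x
    rcases le_total 0 (g x) with h | h
    · rw [max_eq_left h, max_eq_right (by linarith)]; ring
    · rw [max_eq_right h, max_eq_left (by linarith)]; ring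
  calc ∫ p, Jh π p.2 * g (π p.1) ∂W
      = ∫ p, (Jh π p.2 * max (g (π p.1)) 0 - Jh π p.2 * max (-g (π p.1)) 0) ∂W := by
        refine integral_congr_ae (Eventually.of_forall fun p => ?_)
        change Jh π p.2 * g (π p.1) = Jh π p.2 * max (g (π p.1)) 0 - Jh π p.2 * max (-g (π p.1)) 0
        rw [← mul_sub, ← hsplit]
    _ = (∫ p, Jh π p.2 * max (g (π p.1)) 0 ∂W) - ∫ p, Jh π p.2 * max (-g (π p.1)) 0 ∂W :=
        integral_sub (hbW _ (hg.max continuous_const) hCp)
          (hbW _ (hg.neg.max continuous_const) hCn)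
    _ = (∫ x in R, (N x).toReal * max (g x) 0) - ∫ x in R, (N x).toReal * max (-g x) 0 := by
        rw [hp, hn]
    _ = ∫ x in R, ((N x).toReal * max (g x) 0 - (N x).toReal * max (-g x) 0) :=
        (integral_sub (hbN _ (hg.max continuous_const) hCp)
          (hbN _ (hg.neg.max continuous_const) hCn)).symm
    _ = _ := by
        refine integral_congr_ae (Eventually.of_forall fun x => ?_)
        change (N x).toReal * max (g x) 0 - (N x).toReal * max (-g x) 0 = (N x).toReal * g x
        rw [← mul_sub, ← hsplit]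

end Area

/-- **`Hyp` for a varifold.** -/
theorem hyp_of {W : Measure (Euc k × L k)} [IsFiniteMeasure W] (hπ : IsCo π)
    (hc : ∀ᵐ p ∂W, p.2 ∈ G m k) {R : Set (Euc m)} (hR : IsOpen R) {N : Euc m → ℝ≥0∞}
    (hN : Area W π R N) {δ h σ : ℝ} (hδ : 0 ≤ δ) (hδ1 : δ ≤ 1) (hσ : 0 ≤ σ) (hh : 0 ≤ h) {q : Euc k → ℝ}
    (hq : Measurable q) (hq0 : ∀ z, 0 ≤ q z) (hqh : ∀ᵐ p ∂W, q p.1 ≤ h)
    (hFV : ∀ ξ : Euc m → Euc m, ContDiff ℝ ∞ ξ → HasCompactSupport ξ → tsupport ξ ⊆ R →
      |FV W (fun p => ContinuousLinearMap.adjoint π (ξ (π p)))| ≤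
        ∫ p, wg π δ q p * (‖fderiv ℝ ξ (π p.1)‖ + ‖ξ (π p.1)‖) ∂W) :
    Hyp (m + 2) (σ + δ * h) (δ * (m + h)) R (fun x => (N x).toReal) (muM W π)
      (wM W π (we π δ q)) (wM W π (ws π σ)) (wM W π (wg π δ q)) where
  isOpen := hR
  meas := hN.meas.ennreal_toReal
  nonneg _ := ENNReal.toReal_nonneg
  int := hN.integrableOn hπ hc hR.measurableSet
  nat := by
    filter_upwards [hN.nat] with x hx
    obtain ⟨n, hn⟩ := hx
    exact ⟨n, by rw [hn]; simp⟩
  fin := by
    rw [muM_apply W hR.measurableSet]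
    exact measure_ne_top W _
  tilt := by
    intro S hS _
    rw [wM_apply W _ hS, wM_apply W _ hS, muM_apply W hS]
    set T : Set (Euc k × L k) := (fun p => π p.1) ⁻¹' S with hT
    calc ∫⁻ p in T, ENNReal.ofReal (we π δ q p) ∂W
        ≤ ∫⁻ p in T, (ENNReal.ofReal (σ + δ * h) + ENNReal.ofReal (ws π σ p)) ∂W := by
          refine lintegral_mono_ae ?_
          filter_upwards [ae_restrict_of_ae hqh, ae_restrict_of_ae hc] with p hp hp2
          have ht := tl_nonneg hπ (isPr_of_G hp2)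
          have hws : 0 ≤ ws π σ p := by
            unfold ws
            by_cases hs : p ∈ {p : Euc k × L k | σ < tl π p.2}
            · rw [Set.indicator_of_mem hs]; exact ht
            · rw [Set.indicator_of_notMem hs]
          rw [← ENNReal.ofReal_add (by positivity) hws]
          refine ENNReal.ofReal_le_ofReal ?_
          have h1 : δ * q p.1 ≤ δ * h := by gcongr
          unfold we ws
          by_cases hs : p ∈ {p : Euc k × L k | σ < tl π p.2}
          · rw [Set.indicator_of_mem hs]; linarith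
          · rw [Set.indicator_of_notMem hs]
            have : tl π p.2 ≤ σ := not_lt.1 hs
            linarith
      _ = ENNReal.ofReal (σ + δ * h) * W T + ∫⁻ p in T, ENNReal.ofReal (ws π σ p) ∂W := by
          rw [lintegral_add_left measurable_const, setLIntegral_const]
  mass := by
    intro S hS hSR
    rw [wM_apply W _ hS, muM_apply W hS,
      ofReal_integral_eq_lintegral_ofReal
        ((hN.integrableOn hπ hc hR.measurableSet).mono_set hSR)
        (Eventually.of_forall fun x => ENNReal.toReal_nonneg)]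
    set T : Set (Euc k × L k) := (fun p => π p.1) ⁻¹' S with hT
    have h1 : ∫⁻ x in S, ENNReal.ofReal (N x).toReal = ∫⁻ x in S, N x := by
      refine lintegral_congr_ae ?_
      filter_upwards [ae_mono (Measure.restrict_mono hSR le_rfl)
        (hN.ae_lt_top hπ hc hR.measurableSet)] with x hx
      exact ENNReal.ofReal_toReal hx.ne
    rw [h1, hN.lintegral_N hS hSR]
    calc W T = ∫⁻ p in T, 1 ∂W := by simp
      _ ≤ ∫⁻ p in T, (ENNReal.ofReal (Jh π p.2) + ENNReal.ofReal (we π δ q p)) ∂W := by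
          refine lintegral_mono_ae ?_
          filter_upwards [ae_restrict_of_ae hc] with p hp2
          have ht := tl_nonneg hπ (isPr_of_G hp2)
          have hJ := one_sub_Jh_le hπ (isPr_of_G hp2)
          have h2 : 0 ≤ δ * q p.1 := mul_nonneg hδ (hq0 _)
          rw [← ENNReal.ofReal_add (Jh_nonneg _ _) (by unfold we; linarith), ← ENNReal.ofReal_one]
          refine ENNReal.ofReal_le_ofReal ?_
          unfold we
          linarith
      _ = _ := lintegral_add_left
          ((continuous_Jh π).measurable.comp measurable_snd).ennreal_ofReal _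
  low := by
    intro S hS _
    rw [wM_apply W _ hS, muM_apply W hS]
    set T : Set (Euc k × L k) := (fun p => π p.1) ⁻¹' S with hT
    calc ∫⁻ p in T, ENNReal.ofReal (wg π δ q p) ∂W
        ≤ ∫⁻ _p in T, ENNReal.ofReal (δ * (m + h)) ∂W := by
          refine lintegral_mono_ae ?_
          filter_upwards [ae_restrict_of_ae hqh, ae_restrict_of_ae hc] with p hp hp2
          refine ENNReal.ofReal_le_ofReal ?_
          have ht := tl_le hπ (isPr_of_G hp2)
          unfold wg
          gcongr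
      _ = _ := by rw [setLIntegral_const]
  le_mass := by
    intro S hS hSR
    rw [muM_apply W hS,
      ofReal_integral_eq_lintegral_ofReal
        ((hN.integrableOn hπ hc hR.measurableSet).mono_set hSR)
        (Eventually.of_forall fun x => ENNReal.toReal_nonneg)]
    set T : Set (Euc k × L k) := (fun p => π p.1) ⁻¹' S with hT
    have h1 : ∫⁻ x in S, ENNReal.ofReal (N x).toReal = ∫⁻ x in S, N x := by
      refine lintegral_congr_ae ?_
      filter_upwards [ae_mono (Measure.restrict_mono hSR le_rfl)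
        (hN.ae_lt_top hπ hc hR.measurableSet)] with x hx
      exact ENNReal.ofReal_toReal hx.ne
    rw [h1, hN.lintegral_N hS hSR]
    calc ∫⁻ p in T, ENNReal.ofReal (Jh π p.2) ∂W ≤ ∫⁻ _p in T, 1 ∂W := by
          refine lintegral_mono_ae ?_
          filter_upwards [ae_restrict_of_ae hc] with p hp2
          rw [ENNReal.ofReal_le_one]
          exact Jh_le_one hπ (isPr_of_G hp2)
      _ = W T := by simp
  stat := by
    intro X hX hXc hXR
    have hfd : Continuous (fderiv ℝ X) := hX.continuous_fderiv (by simp)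
    have hdiv : Continuous (divg X) := by
      have h1 : divg X = fun z => tr (fderiv ℝ X z) := funext fun z => divg_eq_tr X z
      rw [h1]
      exact tr.continuous.comp hfd
    have hfdc : HasCompactSupport (fderiv ℝ X) := hXc.fderiv ℝ
    obtain ⟨K, hK⟩ : ∃ K, ∀ x, ‖fderiv ℝ X x‖ ≤ K := hfdc.exists_bound_of_continuous hfd
    obtain ⟨K', hK'⟩ : ∃ K, ∀ x, ‖X x‖ ≤ K := hXc.exists_bound_of_continuous hX.continuous
    have hz : ∀ x, x ∉ R → fderiv ℝ X x = 0 := by
      intro x hx
      by_contra hcon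
      exact hx (hXR (support_fderiv_subset ℝ hcon))
    have hdivb : ∀ x, |divg X x| ≤ m * K := fun x => by
      rw [divg_eq_tr]
      exact (abs_tr_le_norm _).trans (by gcongr; exact hK x)
    have harea := hN.integral_eq hπ hc hR.measurableSet hdiv
      (fun x hx => by rw [divg_eq_tr, hz x hx, map_zero]) hdivb
    have hfvX : FV W (fun p => ContinuousLinearMap.adjoint π (X (π p))) =
        ∫ p, tr (fderiv ℝ X (π p.1) ∘L Shh π p.2) ∂W := by
      unfold FV
      refine integral_congr_ae (Eventually.of_forall fun p => ?_)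
      have h1 : HasFDerivAt (fun p => ContinuousLinearMap.adjoint π (X (π p)))
          (ContinuousLinearMap.adjoint π ∘L (fderiv ℝ X (π p.1) ∘L π)) p.1 :=
        (ContinuousLinearMap.adjoint π).hasFDerivAt.comp p.1
          (((hX.differentiable (by simp)) (π p.1)).hasFDerivAt.comp p.1 π.hasFDerivAt)
      change tr ((fderiv ℝ (fun p => ContinuousLinearMap.adjoint π (X (π p))) p.1) ∘L p.2) = _
      rw [h1.fderiv]
      exact tr_hh (π := π) (fderiv ℝ X (π p.1)) p.2
    have hi1 : Integrable (fun p : Euc k × L k => Jh π p.2 * divg X (π p.1)) W := by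
      refine Integrable.of_bound
        (((continuous_Jh π).measurable.comp measurable_snd).mul
          (hdiv.measurable.comp (measurable_base π))).aestronglyMeasurable (m * K) ?_
      filter_upwards [hc] with p hp
      rw [Real.norm_eq_abs, abs_mul, abs_of_nonneg (Jh_nonneg _ _)]
      calc Jh π p.2 * |divg X (π p.1)| ≤ 1 * |divg X (π p.1)| := by
            gcongr
            exact Jh_le_one hπ (isPr_of_G hp)
        _ ≤ m * K := by rw [one_mul]; exact hdivb _
    have hb1 : ∀ p : Euc k × L k, p.2 ∈ G m k →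
        |Jh π p.2 * divg X (π p.1) - tr (fderiv ℝ X (π p.1) ∘L Shh π p.2)| ≤
          (m + 1) * (‖fderiv ℝ X (π p.1)‖ * tl π p.2) := fun p hp => by
      rw [divg_eq_tr]
      exact abs_integrand_le hπ (isPr_of_G hp) _
    have hm2 : Measurable fun p : Euc k × L k => tr (fderiv ℝ X (π p.1) ∘L Shh π p.2) :=
      (tr.continuous.comp ((hfd.comp (π.continuous.comp continuous_fst)).clm_comp
        ((continuous_Shh π).comp continuous_snd))).measurable
    have hK0 : 0 ≤ K := (norm_nonneg _).trans (hK 0)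
    have hi2 : Integrable (fun p : Euc k × L k => tr (fderiv ℝ X (π p.1) ∘L Shh π p.2)) W := by
      refine Integrable.of_bound hm2.aestronglyMeasurable (m * K + (m + 1) * (K * m)) ?_
      filter_upwards [hc] with p hp
      have h1 := hb1 p hp
      have h2 : |Jh π p.2 * divg X (π p.1)| ≤ m * K := by
        rw [abs_mul, abs_of_nonneg (Jh_nonneg _ _)]
        calc Jh π p.2 * |divg X (π p.1)| ≤ 1 * |divg X (π p.1)| := by
              gcongr
              exact Jh_le_one hπ (isPr_of_G hp)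
          _ ≤ m * K := by rw [one_mul]; exact hdivb _
      have h3 : (m + 1 : ℝ) * (‖fderiv ℝ X (π p.1)‖ * tl π p.2) ≤ (m + 1) * (K * m) := by
        have := tl_le hπ (isPr_of_G hp)
        have := tl_nonneg hπ (isPr_of_G hp)
        gcongr
        exact hK _
      rw [Real.norm_eq_abs]
      rw [abs_le] at h1 h2 ⊢
      constructor <;> linarith [h1.1, h1.2, h2.1, h2.2]
    have hi3 : Integrable (fun p : Euc k × L k => (m + 1 : ℝ) * (‖fderiv ℝ X (π p.1)‖ * tl π p.2))
        W := by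
      refine Integrable.of_bound (((hfd.norm.measurable.comp (measurable_base π)).mul
        (measurable_tl2 π)).const_mul (m + 1 : ℝ)).aestronglyMeasurable ((m + 1) * (K * m)) ?_
      filter_upwards [hc] with p hp
      have ht := tl_le hπ (isPr_of_G hp)
      have ht0 := tl_nonneg hπ (isPr_of_G hp)
      rw [Real.norm_eq_abs, abs_of_nonneg (by positivity)]
      gcongr
      exact hK _
    -- the right hand side
    have hwe0 : ∀ᵐ p ∂W, 0 ≤ we π δ q p := by
      filter_upwards [hc] with p hp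
      have := tl_nonneg hπ (isPr_of_G hp)
      have := mul_nonneg hδ (hq0 p.1)
      unfold we
      linarith
    have hwg0 : ∀ᵐ p ∂W, 0 ≤ wg π δ q p := by
      filter_upwards [hc] with p hp
      have := tl_nonneg hπ (isPr_of_G hp)
      exact mul_nonneg hδ (add_nonneg this (hq0 _))
    have hwem : Measurable (we π δ q) :=
      (measurable_tl2 π).add ((hq.comp measurable_fst).const_mul δ)
    have hwgm : Measurable (wg π δ q) :=
      ((measurable_tl2 π).add (hq.comp measurable_fst)).const_mul δ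
    have e1 : ∫ y, ‖fderiv ℝ X y‖ ∂(wM W π (we π δ q)) = ∫ p, we π δ q p * ‖fderiv ℝ X (π p.1)‖ ∂W :=
      integral_wM W hwem hwe0 hfd.norm
    have e2 : ∫ y, ‖X y‖ ∂(wM W π (wg π δ q)) = ∫ p, wg π δ q p * ‖X (π p.1)‖ ∂W :=
      integral_wM W hwgm hwg0 hX.continuous.norm
    rw [e1, e2, ← harea]
    have e3 : ∫ p, Jh π p.2 * divg X (π p.1) ∂W =
        (∫ p, (Jh π p.2 * divg X (π p.1) - tr (fderiv ℝ X (π p.1) ∘L Shh π p.2)) ∂W) +
          FV W (fun p => ContinuousLinearMap.adjoint π (X (π p))) := by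
      rw [hfvX, integral_sub hi1 hi2]
      ring
    have b1 : |∫ p, (Jh π p.2 * divg X (π p.1) - tr (fderiv ℝ X (π p.1) ∘L Shh π p.2)) ∂W| ≤
        ∫ p, (m + 1 : ℝ) * (‖fderiv ℝ X (π p.1)‖ * tl π p.2) ∂W := by
      refine abs_integral_le_integral_abs.trans ?_
      refine integral_mono_ae (hi1.sub hi2).abs hi3 ?_
      filter_upwards [hc] with p hp
      exact hb1 p hp
    have b2 := hFV X hX hXc hXR
    have hi4 : Integrable (fun p : Euc k × L k => wg π δ q p *
        (‖fderiv ℝ X (π p.1)‖ + ‖X (π p.1)‖)) W := by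
      refine Integrable.of_bound (hwgm.mul ((hfd.norm.measurable.comp (measurable_base π)).add
        (hX.continuous.norm.measurable.comp (measurable_base π)))).aestronglyMeasurable
        (δ * (m + h) * (K + K')) ?_
      filter_upwards [hc, hqh, hwg0] with p hp hp2 hp3
      have ht := tl_le hπ (isPr_of_G hp)
      have ht0 := tl_nonneg hπ (isPr_of_G hp)
      rw [Real.norm_eq_abs, abs_of_nonneg (by positivity)]
      have h5 : wg π δ q p ≤ δ * (m + h) := by unfold wg; gcongr
      gcongr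
      · exact hK _
      · exact hK' _
    have hi5 : Integrable (fun p : Euc k × L k => we π δ q p * ‖fderiv ℝ X (π p.1)‖) W := by
      refine Integrable.of_bound (hwem.mul
        (hfd.norm.measurable.comp (measurable_base π))).aestronglyMeasurable
        ((m + δ * h) * K) ?_
      filter_upwards [hc, hqh, hwe0] with p hp hp2 hp3
      have ht := tl_le hπ (isPr_of_G hp)
      rw [Real.norm_eq_abs, abs_of_nonneg (by positivity)]
      have h5 : we π δ q p ≤ m + δ * h := by unfold we; gcongr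
      gcongr
      exact hK _
    have hi6 : Integrable (fun p : Euc k × L k => wg π δ q p * ‖X (π p.1)‖) W := by
      refine Integrable.of_bound (hwgm.mul
        (hX.continuous.norm.measurable.comp (measurable_base π))).aestronglyMeasurable
        (δ * (m + h) * K') ?_
      filter_upwards [hc, hqh, hwg0] with p hp hp2 hp3
      have ht := tl_le hπ (isPr_of_G hp)
      rw [Real.norm_eq_abs, abs_of_nonneg (by positivity)]
      have h5 : wg π δ q p ≤ δ * (m + h) := by unfold wg; gcongr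
      gcongr
      exact hK' _
    calc |∫ p, Jh π p.2 * divg X (π p.1) ∂W|
        ≤ (∫ p, (m + 1 : ℝ) * (‖fderiv ℝ X (π p.1)‖ * tl π p.2) ∂W) +
          ∫ p, wg π δ q p * (‖fderiv ℝ X (π p.1)‖ + ‖X (π p.1)‖) ∂W := by
          rw [e3]
          exact (abs_add_le _ _).trans (add_le_add b1 b2)
      _ = ∫ p, ((m + 1 : ℝ) * (‖fderiv ℝ X (π p.1)‖ * tl π p.2) +
          wg π δ q p * (‖fderiv ℝ X (π p.1)‖ + ‖X (π p.1)‖)) ∂W := (integral_add hi3 hi4).symm
      _ ≤ ∫ p, ((m + 2 : ℝ) * (we π δ q p * ‖fderiv ℝ X (π p.1)‖) +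
          wg π δ q p * ‖X (π p.1)‖) ∂W := by
          refine integral_mono_ae (hi3.add hi4) ((hi5.const_mul _).add hi6) ?_
          filter_upwards [hc] with p hp
          have ht0 := tl_nonneg hπ (isPr_of_G hp)
          have hq1 := hq0 p.1
          have hn := norm_nonneg (fderiv ℝ X (π p.1))
          have h7 : δ * tl π p.2 ≤ tl π p.2 := by nlinarith
          have h8 : 0 ≤ δ * q p.1 := mul_nonneg hδ hq1
          have h9 : (m + 1 : ℝ) * tl π p.2 + δ * (tl π p.2 + q p.1) ≤
              (m + 2) * (tl π p.2 + δ * q p.1) := by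
            have hm0 : (0 : ℝ) ≤ m := Nat.cast_nonneg m
            nlinarith
          change (m + 1 : ℝ) * (‖fderiv ℝ X (π p.1)‖ * tl π p.2) +
            wg π δ q p * (‖fderiv ℝ X (π p.1)‖ + ‖X (π p.1)‖) ≤
            (m + 2 : ℝ) * (we π δ q p * ‖fderiv ℝ X (π p.1)‖) + wg π δ q p * ‖X (π p.1)‖
          unfold we wg
          have h10 := mul_le_mul_of_nonneg_right h9 hn
          nlinarith
      _ = _ := by
          rw [integral_add (hi5.const_mul _) hi6, integral_const_mul]

end Crest.Agent.R234.Th_164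
end
end

-- ▼ part R234/Th8_164
section

/-!
Row 234, VF-THETA part 8 (helper164): the frozen data, stationary case; the final inequalities
`∫_B |N - Q| ≤ C ∫ tl 1_(tl > σ)` and `|b| ≤ C ∫ tl²`.
-/

set_option autoImplicit false

open Set Filter Topology MeasureTheory Metric
open Crest.GeometryTopology.Submanifold
open Crest.Agent.R234.Vf_884 Crest.Agent.R234.Ar_870 Crest.Agent.R234.Cy_870
open scoped ENNReal NNReal ContDiff InnerProductSpace

noncomputable section

namespace Crest.Agent.R234.Th_164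

variable {m n k : ℕ} {π : Euc k →L[ℝ] Euc m}

/-- the area formula for the frozen data -/
theorem area_VD {U : Set (Euc k)} {D : VarifoldData m k} (hD : IsIntegralVarifoldIn U D)
    (hπ : IsCo π) (S : Sheets D π) {C : Set (Euc k)} (hC : MeasurableSet C) {R : Set (Euc m)}
    (hR : MeasurableSet R) (hfin : VD D ((C ∩ π ⁻¹' R) ×ˢ univ) < ⊤) :
    Area ((VD D).restrict (C ×ˢ univ)) π R (S.N C) where
  meas := S.measurable_N hC
  nat := S.ae_N_nat hD hπ hC hR hfin
  area _ hg _ := S.area_W hC hg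


/-- the steep weight is at most `tl² / σ` -/
theorem ws_le {σ : ℝ} (hσ : 0 < σ) (hπ : IsCo π) {p : Euc k × L k} (hp : p.2 ∈ G m k) :
    ws π σ p ≤ tl π p.2 ^ 2 / σ := by
  have ht := tl_nonneg hπ (isPr_of_G hp)
  unfold ws
  by_cases hs : p ∈ {p : Euc k × L k | σ < tl π p.2}
  · rw [Set.indicator_of_mem hs]
    have hs' : σ < tl π p.2 := hs
    rw [le_div_iff₀ hσ]
    nlinarith
  · rw [Set.indicator_of_notMem hs]
    positivity

theorem ws_nonneg {σ : ℝ} (hπ : IsCo π) {p : Euc k × L k} (hp : p.2 ∈ G m k) : 0 ≤ ws π σ p := by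
  have ht := tl_nonneg hπ (isPr_of_G hp)
  unfold ws
  by_cases hs : p ∈ {p : Euc k × L k | σ < tl π p.2}
  · rw [Set.indicator_of_mem hs]; exact ht
  · rw [Set.indicator_of_notMem hs]

theorem measurable_ws (π : Euc k →L[ℝ] Euc m) (σ : ℝ) :
    Measurable (ws π σ : Euc k × L k → ℝ) :=
  (measurable_tl2 π).indicator (measurableSet_lt measurable_const (measurable_tl2 π))

/-- `|b| ≤ (1/2) ∫ tl² + ∫ |N - Q|` tested with a bounded function -/
theorem abs_b_le {W : Measure (Euc k × L k)} [IsFiniteMeasure W] (hπ : IsCo π)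
    (hc : ∀ᵐ p ∂W, p.2 ∈ G m k) {R : Set (Euc m)} (hR : MeasurableSet R) (hRf : volume R ≠ ⊤)
    {N : Euc m → ℝ≥0∞} (hN : Area W π R N) (Q : ℝ) {f : Euc m → ℝ} (hf : Continuous f)
    (hf1 : ∀ x, |f x| ≤ 1) {B : Set (Euc m)} (hB : MeasurableSet B) (hBR : B ⊆ R)
    (hf0 : ∀ x, x ∉ B → f x = 0) :
    |(∫ p, f (π p.1) ∂W) - Q * (∫ x, f x) - 1 / 2 * ∫ p, tl π p.2 * f (π p.1) ∂W| ≤
      1 / 2 * (∫ p in (fun p => π p.1) ⁻¹' B, tl π p.2 ^ 2 ∂W) + ∫ x in B, |(N x).toReal - Q| := by
  have hfm : Measurable fun p : Euc k × L k => f (π p.1) := hf.measurable.comp (measurable_base π)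
  have hJm : Measurable fun p : Euc k × L k => Jh π p.2 :=
    (continuous_Jh π).measurable.comp measurable_snd
  have hi0 : Integrable (fun p : Euc k × L k => f (π p.1)) W :=
    Integrable.of_bound hfm.aestronglyMeasurable 1 (Eventually.of_forall fun p => hf1 _)
  have hiJ : Integrable (fun p : Euc k × L k => Jh π p.2 * f (π p.1)) W := by
    refine Integrable.of_bound (hJm.mul hfm).aestronglyMeasurable 1 ?_
    filter_upwards [hc] with p hp
    rw [Real.norm_eq_abs, abs_mul, abs_of_nonneg (Jh_nonneg _ _)]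
    have h1 := Jh_le_one hπ (isPr_of_G hp)
    have h2 := hf1 (π p.1)
    have h3 := Jh_nonneg π p.2
    calc Jh π p.2 * |f (π p.1)| ≤ 1 * 1 := by gcongr
      _ = 1 := one_mul 1
  have hit : Integrable (fun p : Euc k × L k => tl π p.2 * f (π p.1)) W := by
    refine Integrable.of_bound ((measurable_tl2 π).mul hfm).aestronglyMeasurable m ?_
    filter_upwards [hc] with p hp
    have h1 := tl_le hπ (isPr_of_G hp)
    have h0 := tl_nonneg hπ (isPr_of_G hp)
    rw [Real.norm_eq_abs, abs_mul, abs_of_nonneg h0]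
    calc tl π p.2 * |f (π p.1)| ≤ m * 1 := by gcongr; exact hf1 _
      _ = m := mul_one _
  have hit2 : Integrable (fun p : Euc k × L k => tl π p.2 ^ 2) W := by
    refine Integrable.of_bound ((measurable_tl2 π).pow_const 2).aestronglyMeasurable (m ^ 2) ?_
    filter_upwards [hc] with p hp
    have h1 := tl_le hπ (isPr_of_G hp)
    have h0 := tl_nonneg hπ (isPr_of_G hp)
    rw [Real.norm_eq_abs, abs_of_nonneg (by positivity)]
    gcongr
  have hNi := hN.integrableOn hπ hc hR
  have hiNf : IntegrableOn (fun x => (N x).toReal * f x) R :=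
    hNi.mul_bdd hf.aestronglyMeasurable (Eventually.of_forall fun x => hf1 x)
  have hQf : IntegrableOn (fun x => Q * f x) R := by
    refine Integrable.const_mul ?_ Q
    exact IntegrableOn.of_bound (lt_top_iff_ne_top.2 hRf) hf.aestronglyMeasurable 1
      (Eventually.of_forall fun x => hf1 x)
  have hQc : IntegrableOn (fun _ : Euc m => Q) R := integrableOn_const hRf
  have e1 : ∫ x, f x = ∫ x in R, f x :=
    (setIntegral_eq_integral_of_forall_compl_eq_zero fun x hx => hf0 x fun h => hx (hBR h)).symm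
  have e2 := hN.integral_eq hπ hc hR hf (fun x hx => hf0 x fun h => hx (hBR h)) hf1
  have hs1 : Integrable (fun p : Euc k × L k => f (π p.1) - Jh π p.2 * f (π p.1)) W := hi0.sub hiJ
  have hit' : Integrable (fun p : Euc k × L k => 1 / 2 * (tl π p.2 * f (π p.1))) W :=
    hit.const_mul _
  have e3 : (∫ p, f (π p.1) ∂W) - Q * (∫ x, f x) - 1 / 2 * ∫ p, tl π p.2 * f (π p.1) ∂W =
      (∫ p, (f (π p.1) - Jh π p.2 * f (π p.1) - 1 / 2 * (tl π p.2 * f (π p.1))) ∂W) +
        ∫ x in R, ((N x).toReal * f x - Q * f x) := by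
    rw [integral_sub hs1 hit', integral_sub hi0 hiJ, integral_const_mul,
      integral_sub hiNf hQf, integral_const_mul, e2, e1]
    ring
  rw [e3]
  refine (abs_add_le _ _).trans (add_le_add ?_ ?_)
  · have hTm : MeasurableSet ((fun p : Euc k × L k => π p.1) ⁻¹' B) := measurable_base π hB
    rw [← integral_indicator hTm, ← integral_const_mul]
    refine abs_integral_le_integral_abs.trans ?_
    refine integral_mono_ae ((hi0.sub hiJ).sub (hit.const_mul _)).abs
      ((hit2.indicator hTm).const_mul _) ?_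
    filter_upwards [hc] with p hp
    have h1 := abs_anom_le hπ (isPr_of_G hp)
    change |f (π p.1) - Jh π p.2 * f (π p.1) - 1 / 2 * (tl π p.2 * f (π p.1))| ≤
      1 / 2 * ((fun p : Euc k × L k => π p.1) ⁻¹' B).indicator (fun p => tl π p.2 ^ 2) p
    have e4 : f (π p.1) - Jh π p.2 * f (π p.1) - 1 / 2 * (tl π p.2 * f (π p.1)) =
        (1 - Jh π p.2 - tl π p.2 / 2) * f (π p.1) := by ring
    rw [e4, abs_mul]
    by_cases hpB : π p.1 ∈ B
    · have hmem : p ∈ (fun p : Euc k × L k => π p.1) ⁻¹' B := hpB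
      rw [Set.indicator_of_mem hmem]
      calc |1 - Jh π p.2 - tl π p.2 / 2| * |f (π p.1)| ≤ (tl π p.2 ^ 2 / 2) * 1 := by
            gcongr
            exact hf1 _
        _ = 1 / 2 * tl π p.2 ^ 2 := by ring
    · have hmem : p ∉ (fun p : Euc k × L k => π p.1) ⁻¹' B := hpB
      rw [Set.indicator_of_notMem hmem, hf0 _ hpB]
      simp
  · refine abs_integral_le_integral_abs.trans ?_
    have e5 : ∫ x in B, |(N x).toReal - Q| = ∫ x in R, B.indicator (fun x => |(N x).toReal - Q|) x := by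
      rw [setIntegral_indicator hB, inter_eq_right.2 hBR]
    rw [e5]
    have hNQ : IntegrableOn (fun x => |(N x).toReal - Q|) R := (hNi.sub hQc).abs
    refine integral_mono (hiNf.sub hQf).abs (hNQ.indicator hB) fun x => ?_
    change |(N x).toReal * f x - Q * f x| ≤ B.indicator (fun x => |(N x).toReal - Q|) x
    rw [← sub_mul, abs_mul]
    by_cases hxB : x ∈ B
    · rw [Set.indicator_of_mem hxB]
      calc |(N x).toReal - Q| * |f x| ≤ |(N x).toReal - Q| * 1 := by gcongr; exact hf1 x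
        _ = _ := mul_one _
    · rw [Set.indicator_of_notMem hxB, hf0 x hxB]
      simp

end Crest.Agent.R234.Th_164
end
end

-- ▼ part R234/Th9_164
section

/-!
Row 234, VF-THETA part 9 (helper164): almost stationary varifolds (class `AS` of helper456) in a cylinder.
-/

set_option autoImplicit false

open Set Filter Topology MeasureTheory Metric
open Crest.GeometryTopology.Submanifold
open Crest.Agent.R234.Vf_884 Crest.Agent.R234.Ar_870 Crest.Agent.R234.Cy_870
open Crest.Agent.R234.AS_456 (AS err errA hp vp)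
open scoped ENNReal NNReal ContDiff InnerProductSpace

noncomputable section

namespace Crest.Agent.R234.Th_164

variable {m n k : ℕ} {π : Euc k →L[ℝ] Euc m} {κ : Euc k →L[ℝ] Euc n}

theorem norm_co_le (hπ : IsCo π) (v : Euc k) : ‖π v‖ ≤ ‖v‖ := by
  have h1 : ‖π v‖ ^ 2 ≤ ‖π v‖ * ‖v‖ := by
    rw [← real_inner_self_eq_norm_sq, ← ContinuousLinearMap.adjoint_inner_right π]
    calc ⟪v, ContinuousLinearMap.adjoint π (π v)⟫_ℝ ≤ ‖v‖ * ‖ContinuousLinearMap.adjoint π (π v)‖ :=
          real_inner_le_norm _ _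
      _ = ‖π v‖ * ‖v‖ := by rw [norm_adjoint_co hπ]; ring
  rcases eq_or_lt_of_le (norm_nonneg (π v)) with h0 | h0
  · rw [← h0]; exact norm_nonneg _
  · rw [sq] at h1
    exact le_of_mul_le_mul_left h1 h0

/-- error density of a horizontal field `π† ξ(π z)`. -/
theorem errA_horizontal_le (hπ : IsCo π) {δ : ℝ} (hδ : 0 ≤ δ) {P : L k} (hP : IsPr P) (z : Euc k)
    (A : L m) (v : Euc m) :
    errA π δ z P (ContinuousLinearMap.adjoint π ∘L A ∘L π) (ContinuousLinearMap.adjoint π v) ≤
      δ * (tl π P + ‖vp π z‖ ^ 2) * (‖A‖ + ‖v‖) := by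
  have hpp : ∀ w : Euc m, π (ContinuousLinearMap.adjoint π w) = w := fun w =>
    congrArg (fun T : L m => T w) hπ
  have h1 : vp π ∘L (ContinuousLinearMap.adjoint π ∘L A ∘L π) = 0 := by
    ext1 w
    simp only [vp, hp, ContinuousLinearMap.coe_comp, Function.comp_apply, sub_apply,
      ContinuousLinearMap.id_apply, hpp, sub_self, ContinuousLinearMap.zero_apply]
  have h2 : (ContinuousLinearMap.adjoint π ∘L A ∘L π) ∘L vp π = 0 := by
    ext1 w
    simp only [vp, hp, ContinuousLinearMap.coe_comp, Function.comp_apply, sub_apply,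
      ContinuousLinearMap.id_apply, map_sub, hpp, sub_self, ContinuousLinearMap.zero_apply, map_zero]
  have h3 : vp π (ContinuousLinearMap.adjoint π v) = 0 := by
    simp only [vp, hp, ContinuousLinearMap.coe_comp, Function.comp_apply, sub_apply,
      ContinuousLinearMap.id_apply, hpp, sub_self]
  have h4 : ‖hp π ∘L (ContinuousLinearMap.adjoint π ∘L A ∘L π) ∘L hp π‖ ≤ ‖A‖ := by
    refine ContinuousLinearMap.opNorm_le_bound _ (norm_nonneg _) fun w => ?_
    simp only [hp, ContinuousLinearMap.coe_comp, Function.comp_apply, hpp]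
    rw [norm_adjoint_co hπ]
    exact (A.le_opNorm _).trans (by gcongr; exact norm_co_le hπ w)
  have h5 : ‖hp π (ContinuousLinearMap.adjoint π v)‖ = ‖v‖ := by
    simp only [hp, ContinuousLinearMap.coe_comp, Function.comp_apply, hpp]
    exact norm_adjoint_co hπ v
  have ht := tl_nonneg hπ hP
  have e1 : hp π ∘L (ContinuousLinearMap.adjoint π ∘L A ∘L π) ∘L vp π = 0 := by
    rw [h2, ContinuousLinearMap.comp_zero]
  have e2 : vp π ∘L (ContinuousLinearMap.adjoint π ∘L A ∘L π) ∘L hp π = 0 := by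
    rw [← ContinuousLinearMap.comp_assoc, h1, ContinuousLinearMap.zero_comp]
  have e3 : vp π ∘L (ContinuousLinearMap.adjoint π ∘L A ∘L π) ∘L vp π = 0 := by
    rw [h2, ContinuousLinearMap.comp_zero]
  unfold errA
  rw [e1, e2, e3, h3, h5]
  simp only [norm_zero, add_zero, mul_zero]
  gcongr


theorem norm_vp_eq (hs : Split π κ) (z : Euc k) : ‖vp π z‖ = ‖κ z‖ := by
  have h1 : vp π z = ContinuousLinearMap.adjoint κ (κ z) := by
    have h2 : ContinuousLinearMap.adjoint π (π z) + ContinuousLinearMap.adjoint κ (κ z) = z :=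
      congrArg (fun T : L k => T z) hs.sum
    simp only [vp, hp, ContinuousLinearMap.coe_comp, Function.comp_apply, sub_apply,
      ContinuousLinearMap.id_apply]
    exact sub_eq_of_eq_add' h2.symm
  rw [h1]
  exact norm_adjoint_co hs.vv _


end Crest.Agent.R234.Th_164
end
end

-- ▼ part R234/Th10_164
section

/-!
Row 234, VF-THETA part 10 (helper164): the one scale form.  If in `ball c (4r)` the tilt energy is small and the mass
ratio is close to `Q` at scale `r`, then `∫_(ball c (r/2)) |N - Q| ≤ K es (ball c r)`.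
-/

set_option autoImplicit false

open Set Filter Topology MeasureTheory Metric
open scoped ENNReal NNReal ContDiff

noncomputable section

namespace Crest.Agent.R234.Th_164

variable {d : ℕ}

set_option maxHeartbeats 1600000 in
/-- **VF-THETA at one scale, abstract form** -/
theorem one_scale {C : ℝ} (hSC : SC2 d C) (Q : ℕ) {C₁ : ℝ} (hC₁ : 0 ≤ C₁) {ε : ℝ} (hε : 0 < ε)
    (hε1 : ε ≤ 1) (hεω : ε * (1 + 4 ^ d) < om d) :
    ∃ c₁ : ℝ, 0 < c₁ ∧ c₁ ≤ 1 / 2 ∧ ∃ δ₁ : ℝ, 0 < δ₁ ∧ δ₁ ≤ 1 ∧ ∃ δ₂ : ℝ, 0 < δ₂ ∧ δ₂ ≤ δ₁ ∧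
      ∃ K : ℝ, 0 < K ∧
      ∀ (c₀ g : ℝ) (R : Set (Eu d)) (N : Eu d → ℝ) (μ e es G : Measure (Eu d)),
        0 ≤ c₀ → c₀ ≤ c₁ → 0 ≤ g → Hyp C₁ c₀ g R N μ e es G →
        ∀ (c : Eu d) (r : ℝ), 0 < r → ball c (4 * r) ⊆ R → g * r ≤ δ₂ →
          μ (ball c (4 * r)) ≤ ENNReal.ofReal ((Q + 1) * om d * (4 * r) ^ d) →
          e (ball c (4 * r)) ≤ ENNReal.ofReal (δ₂ * r ^ d) →
          es (ball c r) ≤ ENNReal.ofReal (δ₂ * r ^ d) →
          |μ.real (ball c r) - Q * om d * r ^ d| ≤ om d / 4 * r ^ d →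
          (∫ y in ball c r, |N y - Q| ≤ ε * (r / 16) ^ d) ∧
          (∀ᵐ x, x ∈ ball c (r / 2) → x ∉ Bad δ₁ (r / 16) es (ball c (r / 2)) → N x = Q) ∧
          (∀ x ∈ Bad δ₁ (r / 16) es (ball c (r / 2)), ∃ ρ, 0 < ρ ∧ ρ ≤ r / 16 ∧
            ENNReal.ofReal (δ₁ * ρ ^ d) < es (ball x ρ) ∧
            (∀ t, 3 * ρ ≤ t → t ≤ 8 * (r / 16) → es (ball x t) ≤ ENNReal.ofReal (δ₁ * t ^ d) ∧
              ∫ y in ball x t, |N y - Q| ≤ 4 ^ d * ε * t ^ d ∧
              μ (ball x t) ≤ ENNReal.ofReal (2 * (Q * om d + 4 ^ d * ε + 1) * t ^ d))) ∧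
          volume (Bad δ₁ (r / 16) es (ball c (r / 2))) ≤ ENNReal.ofReal K * es (ball c r) ∧
          μ (Bad δ₁ (r / 16) es (ball c (r / 2))) ≤ ENNReal.ofReal K * es (ball c r) ∧
          ∫⁻ y in ball c (r / 2), ENNReal.ofReal |N y - Q| ≤ ENNReal.ofReal K * es (ball c r) := by
  obtain ⟨c₁, hc1, hc1', δ₁, hδ1, hδ1', hT⟩ := cover hSC Q hC₁ hε hε1 hεω
  have hom := om_pos d
  have hQn : (0 : ℝ) ≤ Q := Nat.cast_nonneg Q
  set M₀ : ℝ := (Q + 1) * om d * 4 ^ d + 1 with hM₀
  have hM1 : 1 ≤ M₀ := by rw [hM₀]; have : 0 ≤ (Q + 1) * om d * 4 ^ d := by positivity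
                          linarith
  set L : ℝ := min (ε / 16 ^ d) (om d / 4) with hL
  have hL0 : 0 < L := lt_min (by positivity) (by positivity)
  set D : ℝ := min 1 ((L / (4 * (|C| + 1))) ^ 2 / M₀) with hD
  have hD0 : 0 < D := lt_min one_pos (by positivity)
  have hsq : 4 * (C * Real.sqrt (M₀ * D)) ≤ L := by
    have h1 : Real.sqrt (M₀ * D) ≤ L / (4 * (|C| + 1)) := by
      rw [Real.sqrt_le_left (by positivity)]
      calc M₀ * D ≤ M₀ * ((L / (4 * (|C| + 1))) ^ 2 / M₀) := by gcongr; exact min_le_right _ _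
        _ = _ := by field_simp
    calc 4 * (C * Real.sqrt (M₀ * D)) ≤ 4 * (|C| * (L / (4 * (|C| + 1)))) := by
          gcongr
          exact le_abs_self C
      _ = L * (|C| / (|C| + 1)) := by field_simp
      _ ≤ L * 1 := by
          gcongr
          rw [div_le_one (by positivity)]
          linarith
      _ = L := mul_one L
  set δ₂ : ℝ := min (δ₁ / 16 ^ d) (min (D / (C₁ + 1)) (min (D / M₀) (om d / 4))) with hδ₂
  have hδ20 : 0 < δ₂ := lt_min (by positivity) (lt_min (by positivity)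
    (lt_min (by positivity) (by positivity)))
  have h16 : (1 : ℝ) ≤ 16 ^ d := one_le_pow₀ (by norm_num)
  have hδ2a : δ₂ ≤ δ₁ / 16 ^ d := min_le_left _ _
  have hδ2b : δ₂ ≤ D / (C₁ + 1) := (min_le_right _ _).trans (min_le_left _ _)
  have hδ2c : δ₂ ≤ D / M₀ := (min_le_right _ _).trans ((min_le_right _ _).trans (min_le_left _ _))
  have hδ2d : δ₂ ≤ om d / 4 :=
    (min_le_right _ _).trans ((min_le_right _ _).trans (min_le_right _ _))
  have hδ21 : δ₂ ≤ δ₁ := hδ2a.trans (div_le_self hδ1.le h16)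
  set K : ℝ := 6 ^ d * (om d + 2 * (Q * om d + 4 ^ d * ε + 1) + 4 ^ d * ε) / δ₁ with hK
  refine ⟨c₁, hc1, hc1', δ₁, hδ1, hδ1', δ₂, hδ20, hδ21, K, by positivity, ?_⟩
  intro c₀ g R N μ e es G hc0 hc01 hg0 H c r hr hR hgr hμ he hes hmass
  have hrd : 0 < r ^ d := pow_pos hr d
  -- the integer
  have hA : ∫ y in ball c (4 * r), N y ≤ M₀ * r ^ d := by
    have h1 := (H.le_mass _ measurableSet_ball hR).trans hμ
    have h2 := (ENNReal.ofReal_le_ofReal_iff (by positivity)).1 h1
    refine h2.trans ?_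
    rw [hM₀, mul_pow]
    nlinarith
  obtain ⟨k, hk⟩ := exists_integer hSC hC₁ H (x := c) (r := r) (M := M₀ * r ^ d) (δ := D * r ^ d) hr
    (by positivity) (by gcongr; exact (min_le_left _ _).trans hM1) hR hA
    (by
      calc ENNReal.ofReal C₁ * e (ball c (4 * r)) ≤ ENNReal.ofReal C₁ * ENNReal.ofReal (δ₂ * r ^ d) := by
            gcongr
        _ = ENNReal.ofReal (C₁ * (δ₂ * r ^ d)) := (ENNReal.ofReal_mul hC₁).symm
        _ ≤ ENNReal.ofReal (D * r ^ d) := by
            refine ENNReal.ofReal_le_ofReal ?_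
            have h1 : C₁ * δ₂ ≤ D := by
              calc C₁ * δ₂ ≤ C₁ * (D / (C₁ + 1)) := by gcongr
                _ = D * (C₁ / (C₁ + 1)) := by field_simp
                _ ≤ D * 1 := by
                    gcongr
                    rw [div_le_one (by positivity)]
                    linarith
                _ = D := mul_one D
            calc C₁ * (δ₂ * r ^ d) = (C₁ * δ₂) * r ^ d := by ring
              _ ≤ D * r ^ d := by gcongr)
    (by
      calc G (ball c (4 * r)) ≤ ENNReal.ofReal g * μ (ball c (4 * r)) :=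
            H.low _ measurableSet_ball hR
        _ ≤ ENNReal.ofReal g * ENNReal.ofReal ((Q + 1) * om d * (4 * r) ^ d) := by gcongr
        _ = ENNReal.ofReal (g * ((Q + 1) * om d * (4 * r) ^ d)) := (ENNReal.ofReal_mul hg0).symm
        _ ≤ ENNReal.ofReal (D * r ^ d / r) := by
            refine ENNReal.ofReal_le_ofReal ?_
            rw [le_div_iff₀ hr]
            calc g * ((Q + 1) * om d * (4 * r) ^ d) * r = (g * r) * (M₀ - 1) * r ^ d := by
                  rw [hM₀, mul_pow]; ring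
              _ ≤ (D / M₀) * M₀ * r ^ d := by
                  gcongr
                  · exact hgr.trans hδ2c
                  · linarith
              _ = D * r ^ d := by field_simp)
  have hk2 : ∫ y in ball c r, |N y - k| ≤ L * r ^ d := by
    refine hk.trans ?_
    have h5 : Real.sqrt (M₀ * r ^ d * (D * r ^ d)) = Real.sqrt (M₀ * D) * r ^ d := by
      rw [show M₀ * r ^ d * (D * r ^ d) = M₀ * D * (r ^ d) ^ 2 by ring,
        Real.sqrt_mul (by positivity), Real.sqrt_sq hrd.le]
    rw [h5]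
    calc 4 * (C * (Real.sqrt (M₀ * D) * r ^ d)) = 4 * (C * Real.sqrt (M₀ * D)) * r ^ d := by ring
      _ ≤ L * r ^ d := by gcongr
  have hsub : ball c r ⊆ ball c (4 * r) := ball_subset_ball (by linarith)
  have hRr : ball c r ⊆ R := hsub.trans hR
  have hNr := H.int.mono_set hRr
  have hkQ : k = Q := by
    have hμf : μ (ball c r) ≠ ⊤ := ne_top_of_le_ne_top H.fin (measure_mono hRr)
    have he1 : e (ball c r) ≤ ENNReal.ofReal (δ₂ * r ^ d) := (measure_mono hsub).trans he
    have h0 : 0 ≤ ∫ y in ball c r, N y := integral_nonneg fun y => H.nonneg y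
    have h1 : μ.real (ball c r) ≤ (∫ y in ball c r, N y) + δ₂ * r ^ d := by
      have h := (H.mass _ measurableSet_ball hRr).trans (add_le_add le_rfl he1)
      rw [← ENNReal.ofReal_add h0 (by positivity)] at h
      rw [measureReal_def]
      exact ENNReal.toReal_le_of_le_ofReal (by positivity) h
    have h2 : ∫ y in ball c r, N y ≤ μ.real (ball c r) := by
      have h := H.le_mass _ measurableSet_ball hRr
      rw [← ENNReal.ofReal_toReal hμf] at h
      exact (ENNReal.ofReal_le_ofReal_iff ENNReal.toReal_nonneg).1 h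
    have hkc : IntegrableOn (fun _ : Eu d => (k : ℝ)) (ball c r) :=
      integrableOn_const measure_ball_lt_top.ne
    have h3 : |(∫ y in ball c r, N y) - k * (om d * r ^ d)| ≤ L * r ^ d := by
      have e1 : (∫ y in ball c r, N y) - k * (om d * r ^ d) = ∫ y in ball c r, (N y - k) := by
        rw [integral_sub hNr hkc, setIntegral_const, smul_eq_mul, vol_ball c hr]
        ring
      rw [e1]
      exact abs_integral_le_integral_abs.trans hk2
    have hLo : L ≤ om d / 4 := min_le_right _ _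
    have h4 : |(k : ℝ) - Q| * (om d * r ^ d) < 1 * (om d * r ^ d) := by
      have e1 : |(k : ℝ) - Q| * (om d * r ^ d) = |k * (om d * r ^ d) - Q * om d * r ^ d| := by
        rw [show (k : ℝ) * (om d * r ^ d) - Q * om d * r ^ d = (k - Q) * (om d * r ^ d) by ring,
          abs_mul, abs_of_pos (by positivity : 0 < om d * r ^ d)]
      rw [e1]
      have h6 : L * r ^ d ≤ om d / 4 * r ^ d := by gcongr
      have h7 : δ₂ * r ^ d ≤ om d / 4 * r ^ d := by gcongr
      have h8 : 0 < om d * r ^ d := by positivity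
      rw [abs_le] at h3 hmass
      rw [abs_lt]
      constructor <;> nlinarith [h3.1, h3.2, hmass.1, hmass.2]
    have h5 : |(k : ℝ) - Q| < 1 := lt_of_mul_lt_mul_right h4 (by positivity)
    have h6 : |(k : ℤ) - Q| < 1 := by exact_mod_cast h5
    rw [Int.abs_lt_one_iff] at h6
    omega
  rw [hkQ] at hk2
  have hfirst : ∫ y in ball c r, |N y - Q| ≤ ε * (r / 16) ^ d := by
    refine hk2.trans ?_
    calc L * r ^ d ≤ ε / 16 ^ d * r ^ d := by gcongr; exact min_le_left _ _
      _ = ε * (r / 16) ^ d := by rw [div_pow]; ring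
  have hQr : IntegrableOn (fun _ : Eu d => (Q : ℝ)) (ball c r) :=
    integrableOn_const measure_ball_lt_top.ne
  have hNQ : IntegrableOn (fun y => |N y - (Q : ℝ)|) (ball c r) := (hNr.sub hQr).abs
  have hρ : 8 * (r / 16) = r / 2 := by ring
  have hBsub : ∀ x ∈ ball c (r / 2), ball x (8 * (r / 16)) ⊆ ball c r := by
    intro x hx
    refine ball_subset_ball' ?_
    rw [hρ]
    linarith [mem_ball.1 hx]
  have hBR : ∀ x ∈ ball c (r / 2), ball x (8 * (r / 16)) ⊆ R := fun x hx => (hBsub x hx).trans hRr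
  obtain ⟨h1, h2⟩ := hT c₀ g R N μ e es G hc0 hc01 hg0 H (ball c (r / 2)) (r / 16) (by positivity)
    (by rw [hρ]; nlinarith) hBR
    (fun x hx => (setIntegral_mono_set hNQ (Eventually.of_forall fun y => abs_nonneg _)
      (hBsub x hx).eventuallyLE).trans hfirst)
    (fun x hx => (measure_mono (hBsub x hx)).trans (hes.trans (ENNReal.ofReal_le_ofReal (by
      calc δ₂ * r ^ d ≤ δ₁ / 16 ^ d * r ^ d := by gcongr
        _ = δ₁ * (r / 16) ^ d := by rw [div_pow]; ring))))
  obtain ⟨s1, s2, s3⟩ := sums hε hδ1 H (by positivity : 0 < r / 16) hBR h1 h2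
  have hU : (⋃ x ∈ ball c (r / 2), closedBall x (r / 16)) ⊆ ball c r := by
    refine iUnion₂_subset fun x hx => ?_
    refine (closedBall_subset_ball (by linarith : r / 16 < r / 2)).trans (ball_subset_ball' ?_)
    linarith [mem_ball.1 hx]
  have hle : ∀ a : ℝ, 0 ≤ a → 6 ^ d * a / δ₁ ≤ K →
      ENNReal.ofReal (6 ^ d * a / δ₁) * es (⋃ x ∈ ball c (r / 2), closedBall x (r / 16)) ≤
        ENNReal.ofReal K * es (ball c r) := fun a _ ha =>
    mul_le_mul' (ENNReal.ofReal_le_ofReal ha) (measure_mono hU)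
  have hpos1 : 0 ≤ 2 * (Q * om d + 4 ^ d * ε + 1) := by positivity
  have hpos2 : 0 ≤ 4 ^ d * ε := by positivity
  refine ⟨hfirst, h1, h2, s1.trans (hle _ hom.le ?_), s2.trans (hle _ hpos1 ?_),
    (s3 measurableSet_ball).trans (hle _ hpos2 ?_)⟩
  all_goals
    rw [hK]
    gcongr
    linarith

end Crest.Agent.R234.Th_164
end
end

-- ▼ part R234/Th11_164

/-!
Row 234, VF-THETA part 11 (helper164): the strong constancy lemma of helper173 in the form `SC2`, and the final
theorems (unconditional).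
-/

set_option autoImplicit false

open Set Filter Topology MeasureTheory Metric
open Crest.GeometryTopology.Submanifold
open Crest.Agent.R234.Vf_884 Crest.Agent.R234.Ar_870 Crest.Agent.R234.Cy_870
open Crest.Agent.R234.AS_456 (AS err errA hp vp)
open scoped ENNReal NNReal ContDiff InnerProductSpace

noncomputable section

namespace Crest.Agent.R234.Th_164

variable {d : ℕ}

/-- the strong constancy lemma -/
theorem sc2 (d : ℕ) : SC2 d (Sc173.Csc d) := by
  intro A Em G x₀ r M δ hr hδ hδM hA hE hG h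
  have hH : Sc173.H1g (EuclideanSpace.basisFun (Fin d) ℝ) A Em G x₀ (4 * r) := by
    intro X hX hXc hXs
    have h1 : ∀ x : Eu d, ∑ i, inner ℝ (fderiv ℝ X x (EuclideanSpace.basisFun (Fin d) ℝ i))
        (EuclideanSpace.basisFun (Fin d) ℝ i) = divg X x := by
      intro x
      unfold divg
      refine Finset.sum_congr rfl fun i _ => ?_
      rw [EuclideanSpace.basisFun_apply, real_inner_comm, EuclideanSpace.inner_single_left]
      simp
    simp only [h1]
    exact h X hX hXc hXs
  obtain ⟨c, -, -, hc⟩ := Sc173.SC2 (EuclideanSpace.basisFun (Fin d) ℝ) hr (hδ.trans hδM) hδ hA hE hG hH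
  exact ⟨c, hc⟩

/-- `ε` used in the final theorems -/
theorem exists_eps (d : ℕ) : ∃ ε : ℝ, 0 < ε ∧ ε ≤ 1 ∧ ε * (1 + 4 ^ d) < om d := by
  have hom := om_pos d
  refine ⟨min 1 (om d / (2 * (1 + 4 ^ d))), lt_min one_pos (by positivity), min_le_left _ _, ?_⟩
  calc min 1 (om d / (2 * (1 + 4 ^ d))) * (1 + 4 ^ d) ≤ om d / (2 * (1 + 4 ^ d)) * (1 + 4 ^ d) := by
        gcongr
        exact min_le_right _ _
    _ = om d / 2 := by field_simp
    _ < om d := by linarith

variable {m k : ℕ} {π : Euc k →L[ℝ] Euc m}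

theorem wM_real {W : Measure (Euc k × L k)} {w : Euc k × L k → ℝ} (hw : Measurable w)
    (hw0 : ∀ᵐ p ∂W, 0 ≤ w p) {S : Set (Euc m)} (hS : MeasurableSet S) :
    (wM W π w).real S = ∫ p in (fun p => π p.1) ⁻¹' S, w p ∂W := by
  rw [measureReal_def, wM_apply W w hS, integral_eq_lintegral_of_nonneg_ae
    (ae_restrict_of_ae hw0) hw.aestronglyMeasurable]

theorem wM_le {W : Measure (Euc k × L k)} [IsFiniteMeasure W] {w : Euc k × L k → ℝ}
    (hw0 : ∀ᵐ p ∂W, 0 ≤ w p) (hwi : Integrable w W) {S : Set (Euc m)} (hS : MeasurableSet S)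
    {a : ℝ} (h : ∫ p in (fun p => π p.1) ⁻¹' S, w p ∂W ≤ a) :
    wM W π w S ≤ ENNReal.ofReal a := by
  rw [wM_apply W w hS, ← ofReal_integral_eq_lintegral_ofReal hwi.integrableOn
    (ae_restrict_of_ae hw0)]
  exact ENNReal.ofReal_le_ofReal h

set_option maxHeartbeats 1600000 in
/-- **VF-THETA, general form** (area formula + small first variation on horizontal fields). -/
theorem theta (m Q : ℕ) : ∃ σ δ₁ δ₃ K : ℝ, 0 < σ ∧ σ ≤ 1 / 4 ∧ 0 < δ₁ ∧ δ₁ ≤ 1 ∧ 0 < δ₃ ∧ δ₃ ≤ δ₁ ∧
    0 < K ∧
    ∀ (k : ℕ) (π : Euc k →L[ℝ] Euc m) (W : Measure (Euc k × L k)) (_ : IsFiniteMeasure W)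
      (_ : IsCo π) (_ : ∀ᵐ p ∂W, p.2 ∈ G m k) (R : Set (Euc m)) (_ : IsOpen R)
      (N : Euc m → ℝ≥0∞) (_ : Area W π R N) (δ h : ℝ) (_ : 0 ≤ δ) (_ : δ ≤ 1) (_ : 0 ≤ h)
      (q : Euc k → ℝ) (_ : Measurable q) (_ : ∀ z, 0 ≤ q z) (_ : ∀ᵐ p ∂W, q p.1 ≤ h)
      (_ : ∀ ξ : Euc m → Euc m, ContDiff ℝ ∞ ξ → HasCompactSupport ξ → tsupport ξ ⊆ R →
        |FV W (fun p => ContinuousLinearMap.adjoint π (ξ (π p)))| ≤
          ∫ p, wg π δ q p * (‖fderiv ℝ ξ (π p.1)‖ + ‖ξ (π p.1)‖) ∂W)
      (_ : δ * h ≤ δ₃) (c : Euc m) (r : ℝ) (_ : 0 < r) (_ : ball c (4 * r) ⊆ R)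
      (_ : δ * (m + h) * r ≤ δ₃)
      (_ : W.real ((fun p => π p.1) ⁻¹' ball c (4 * r)) ≤ (Q + 1) * om m * (4 * r) ^ m)
      (_ : ∫ p in (fun p => π p.1) ⁻¹' ball c (4 * r), tl π p.2 ∂W ≤ δ₃ * r ^ m)
      (_ : |W.real ((fun p => π p.1) ⁻¹' ball c r) - Q * om m * r ^ m| ≤ om m / 4 * r ^ m),
      (∀ᵐ x, x ∈ ball c (r / 2) → x ∉ Bad δ₁ (r / 16) (wM W π (ws π σ)) (ball c (r / 2)) →
        N x = Q) ∧
      (∀ x ∈ Bad δ₁ (r / 16) (wM W π (ws π σ)) (ball c (r / 2)), ∃ ρ, 0 < ρ ∧ ρ ≤ r / 16 ∧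
        δ₁ * ρ ^ m < ∫ p in (fun p => π p.1) ⁻¹' ball x ρ, ws π σ p ∂W ∧
        (∀ t, 3 * ρ ≤ t → t ≤ r / 2 →
          ∫ p in (fun p => π p.1) ⁻¹' ball x t, ws π σ p ∂W ≤ δ₁ * t ^ m ∧
          ∫ y in ball x t, |(N y).toReal - Q| ≤ K * t ^ m ∧
          W.real ((fun p => π p.1) ⁻¹' ball x t) ≤ K * t ^ m)) ∧
      (volume (Bad δ₁ (r / 16) (wM W π (ws π σ)) (ball c (r / 2)))).toReal ≤
        K * ∫ p in (fun p => π p.1) ⁻¹' ball c r, ws π σ p ∂W ∧
      (muM W π (Bad δ₁ (r / 16) (wM W π (ws π σ)) (ball c (r / 2)))).toReal ≤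
        K * ∫ p in (fun p => π p.1) ⁻¹' ball c r, ws π σ p ∂W ∧
      ∫ y in ball c (r / 2), |(N y).toReal - Q| ≤
        K * ∫ p in (fun p => π p.1) ⁻¹' ball c r, ws π σ p ∂W := by
  obtain ⟨ε, hε, hε1, hεω⟩ := exists_eps m
  obtain ⟨c₁, hc1, hc1', δ₁, hδ1, hδ1', δ₂, hδ2, hδ21, K, hK, hT⟩ :=
    one_scale (sc2 m) Q (C₁ := m + 2) (by positivity) hε hε1 hεω
  have hom := om_pos m
  have hQn : (0 : ℝ) ≤ Q := Nat.cast_nonneg Q
  set M₀ : ℝ := (Q + 1) * om m * 4 ^ m with hM₀
  have hM0 : 0 < M₀ := by positivity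
  set δ₃ : ℝ := min (c₁ / 2) (δ₂ / (1 + M₀)) with hδ₃
  have hδ3 : 0 < δ₃ := lt_min (by positivity) (by positivity)
  have hδ3a : δ₃ ≤ c₁ / 2 := min_le_left _ _
  have hδ3b : δ₃ ≤ δ₂ / (1 + M₀) := min_le_right _ _
  have hδ32 : δ₃ ≤ δ₂ := hδ3b.trans (div_le_self hδ2.le (by linarith))
  set K' : ℝ := max K (max (4 ^ m * ε) (2 * (Q * om m + 4 ^ m * ε + 1))) with hK'
  have hKK : K ≤ K' := le_max_left _ _
  have hKa : 4 ^ m * ε ≤ K' := (le_max_left _ _).trans (le_max_right _ _)
  have hKb : 2 * (Q * om m + 4 ^ m * ε + 1) ≤ K' := (le_max_right _ _).trans (le_max_right _ _)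
  refine ⟨c₁ / 2, δ₁, δ₃, K', by positivity, by linarith, hδ1, hδ1', hδ3, hδ32.trans hδ21,
    hK.trans_le hKK, ?_⟩
  intro k π W hWf hπ hc R hR N hN δ h hδ hδ1a hh q hq hq0 hqh hFV hδh c r hr hcR hgr hmass htilt hnear
  have H := hyp_of hπ hc hR hN hδ hδ1a (by positivity : 0 ≤ c₁ / 2) hh hq hq0 hqh hFV
  have hrm : 0 < r ^ m := pow_pos hr m
  have hmsb : ∀ (x : Euc m) (t : ℝ), MeasurableSet ((fun p : Euc k × L k => π p.1) ⁻¹' ball x t) :=
    fun x t => measurable_base π measurableSet_ball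
  -- weights
  have hws0 : ∀ᵐ p ∂W, 0 ≤ ws π (c₁ / 2) p := by
    filter_upwards [hc] with p hp
    exact ws_nonneg hπ hp
  have htl0 : ∀ᵐ p ∂W, 0 ≤ tl π p.2 := by
    filter_upwards [hc] with p hp
    exact tl_nonneg hπ (isPr_of_G hp)
  have htli : Integrable (fun p : Euc k × L k => tl π p.2) W := by
    refine Integrable.of_bound (measurable_tl2 π).aestronglyMeasurable m ?_
    filter_upwards [hc, htl0] with p hp hp0
    rw [Real.norm_eq_abs, abs_of_nonneg hp0]
    exact tl_le hπ (isPr_of_G hp)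
  have hwsle : ∀ᵐ p ∂W, ws π (c₁ / 2) p ≤ tl π p.2 := by
    filter_upwards [htl0] with p hp0
    unfold ws
    by_cases hs : p ∈ {p : Euc k × L k | c₁ / 2 < tl π p.2}
    · rw [Set.indicator_of_mem hs]
    · rw [Set.indicator_of_notMem hs]; exact hp0
  have hwsi : Integrable (ws π (c₁ / 2)) W := by
    refine htli.mono' (measurable_ws π _).aestronglyMeasurable ?_
    filter_upwards [hwsle, hws0] with p h1 h2
    rw [Real.norm_eq_abs, abs_of_nonneg h2]
    exact h1
  have hesreal : ∀ (x : Euc m) (t : ℝ), (wM W π (ws π (c₁ / 2))).real (ball x t) =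
      ∫ p in (fun p => π p.1) ⁻¹' ball x t, ws π (c₁ / 2) p ∂W := fun x t =>
    wM_real (measurable_ws π _) hws0 measurableSet_ball
  have hesfin : ∀ (x : Euc m) (t : ℝ), wM W π (ws π (c₁ / 2)) (ball x t) ≠ ⊤ := fun x t =>
    ne_top_of_le_ne_top ENNReal.ofReal_ne_top (wM_le hws0 hwsi measurableSet_ball le_rfl)
  have hsub : ball c r ⊆ ball c (4 * r) := ball_subset_ball (by linarith)
  -- the hypotheses of `one_scale`
  have hμ4 : muM W π (ball c (4 * r)) ≤ ENNReal.ofReal ((Q + 1) * om m * (4 * r) ^ m) := by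
    rw [muM_apply W measurableSet_ball, ← ENNReal.ofReal_toReal (measure_ne_top W _)]
    exact ENNReal.ofReal_le_ofReal hmass
  have he4 : wM W π (we π δ q) (ball c (4 * r)) ≤ ENNReal.ofReal (δ₂ * r ^ m) := by
    have hwe0 : ∀ᵐ p ∂W, 0 ≤ we π δ q p := by
      filter_upwards [htl0] with p hp
      exact add_nonneg hp (mul_nonneg hδ (hq0 _))
    have hqi : Integrable (fun p : Euc k × L k => δ * q p.1) W := by
      refine Integrable.of_bound ((hq.comp measurable_fst).const_mul δ).aestronglyMeasurable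
        (δ * h) ?_
      filter_upwards [hqh] with p hp
      rw [Real.norm_eq_abs, abs_of_nonneg (mul_nonneg hδ (hq0 _))]
      gcongr
    have hwei : Integrable (we π δ q) W := htli.add hqi
    refine wM_le hwe0 hwei measurableSet_ball ?_
    have e1 : ∫ p in (fun p => π p.1) ⁻¹' ball c (4 * r), we π δ q p ∂W =
        (∫ p in (fun p => π p.1) ⁻¹' ball c (4 * r), tl π p.2 ∂W) +
          ∫ p in (fun p => π p.1) ⁻¹' ball c (4 * r), δ * q p.1 ∂W :=
      integral_add htli.integrableOn hqi.integrableOn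
    rw [e1]
    have e2 : ∫ p in (fun p => π p.1) ⁻¹' ball c (4 * r), δ * q p.1 ∂W ≤
        δ * h * ((Q + 1) * om m * (4 * r) ^ m) := by
      calc ∫ p in (fun p => π p.1) ⁻¹' ball c (4 * r), δ * q p.1 ∂W
          ≤ ∫ _p in (fun p => π p.1) ⁻¹' ball c (4 * r), δ * h ∂W := by
            refine integral_mono_ae hqi.integrableOn (integrable_const _) ?_
            filter_upwards [ae_restrict_of_ae hqh] with p hp
            gcongr
        _ = δ * h * W.real ((fun p => π p.1) ⁻¹' ball c (4 * r)) := by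
            rw [setIntegral_const, smul_eq_mul, mul_comm]
        _ ≤ _ := by gcongr
    have e3 : δ * h * ((Q + 1) * om m * (4 * r) ^ m) ≤ δ₃ * M₀ * r ^ m := by
      rw [hM₀, mul_pow]
      calc δ * h * ((Q + 1) * om m * (4 ^ m * r ^ m)) ≤ δ₃ * ((Q + 1) * om m * (4 ^ m * r ^ m)) := by
            gcongr
        _ = _ := by ring
    calc _ ≤ δ₃ * r ^ m + δ₃ * M₀ * r ^ m := add_le_add htilt (e2.trans e3)
      _ = δ₃ * (1 + M₀) * r ^ m := by ring
      _ ≤ δ₂ / (1 + M₀) * (1 + M₀) * r ^ m := by gcongr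
      _ = δ₂ * r ^ m := by field_simp
  have hes1 : wM W π (ws π (c₁ / 2)) (ball c r) ≤ ENNReal.ofReal (δ₂ * r ^ m) := by
    refine wM_le hws0 hwsi measurableSet_ball ?_
    calc ∫ p in (fun p => π p.1) ⁻¹' ball c r, ws π (c₁ / 2) p ∂W
        ≤ ∫ p in (fun p => π p.1) ⁻¹' ball c r, tl π p.2 ∂W :=
          integral_mono_ae hwsi.integrableOn htli.integrableOn (ae_restrict_of_ae hwsle)
      _ ≤ ∫ p in (fun p => π p.1) ⁻¹' ball c (4 * r), tl π p.2 ∂W :=
          setIntegral_mono_set htli.integrableOn (ae_restrict_of_ae htl0)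
            (preimage_mono hsub).eventuallyLE
      _ ≤ δ₃ * r ^ m := htilt
      _ ≤ δ₂ * r ^ m := by gcongr
  have hnear' : |(muM W π).real (ball c r) - Q * om m * r ^ m| ≤ om m / 4 * r ^ m := by
    rw [measureReal_def, muM_apply W measurableSet_ball]
    exact hnear
  obtain ⟨-, k2, k3, k4, k5, k6⟩ := hT _ _ R _ _ _ _ _ (by positivity) (by linarith)
    (by positivity) H c r hr hcR (hgr.trans hδ32) hμ4 he4 hes1 hnear'
  have hconv : ∀ a : ℝ≥0∞, a ≤ ENNReal.ofReal K * wM W π (ws π (c₁ / 2)) (ball c r) →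
      a.toReal ≤ K' * ∫ p in (fun p => π p.1) ⁻¹' ball c r, ws π (c₁ / 2) p ∂W := by
    intro a ha
    have h1 := ENNReal.toReal_mono (ENNReal.mul_ne_top ENNReal.ofReal_ne_top (hesfin c r)) ha
    rw [ENNReal.toReal_mul, ENNReal.toReal_ofReal hK.le] at h1
    rw [← hesreal c r]
    refine h1.trans ?_
    rw [measureReal_def]
    gcongr
  refine ⟨?_, ?_, hconv _ k4, hconv _ k5, ?_⟩
  · have hlt := hN.ae_lt_top hπ hc hR.measurableSet
    rw [ae_restrict_iff' hR.measurableSet] at hlt
    have hRb : ball c (r / 2) ⊆ R := (ball_subset_ball (by linarith)).trans hcR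
    filter_upwards [k2, hlt] with x hx hlx h1 h2
    have h3 := hx h1 h2
    rw [← ENNReal.ofReal_toReal (hlx (hRb h1)).ne, h3, ENNReal.ofReal_natCast]
  · intro x hx
    obtain ⟨ρ, j1, j2, j3, j4⟩ := k3 x hx
    refine ⟨ρ, j1, j2, ?_, fun t ht1 ht2 => ?_⟩
    · rw [← hesreal x ρ]
      exact (ENNReal.ofReal_lt_iff_lt_toReal (by positivity) (hesfin x ρ)).1 j3
    · obtain ⟨i1, i2, i3⟩ := j4 t ht1 (by linarith)
      have ht0 : 0 < t := by linarith
      refine ⟨?_, ?_, ?_⟩
      · rw [← hesreal x t]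
        exact ENNReal.toReal_le_of_le_ofReal (by positivity) i1
      · refine i2.trans ?_
        gcongr
      · rw [muM_apply W measurableSet_ball] at i3
        refine (ENNReal.toReal_le_of_le_ofReal (by positivity) i3).trans ?_
        gcongr
  · have hRb : ball c (r / 2) ⊆ R := (ball_subset_ball (by linarith)).trans hcR
    have hNi := (hN.integrableOn hπ hc hR.measurableSet).mono_set hRb
    have hQi : IntegrableOn (fun _ : Euc m => (Q : ℝ)) (ball c (r / 2)) :=
      integrableOn_const measure_ball_lt_top.ne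
    have e1 : ∫ y in ball c (r / 2), |(N y).toReal - Q| =
        (∫⁻ y in ball c (r / 2), ENNReal.ofReal |(N y).toReal - Q|).toReal := by
      rw [integral_eq_lintegral_of_nonneg_ae (Eventually.of_forall fun y => abs_nonneg _)]
      exact (hNi.sub hQi).abs.aestronglyMeasurable
    rw [e1]
    exact hconv _ k6

end Crest.Agent.R234.Th_164
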