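import Crest.Agent.R234.LowF19_471
import Crest.Agent.R234.F31_354
import Crest.Agent.R234.Th5_164
import Crest.Agent.R234.Tv10_618
import Crest.Agent.R234.GLK9_128
import Crest.Agent.R234.Tv8_618
import Crest.Agent.R234.Ell1_3
import Crest.Agent.R234.LowF13_471
import Crest.Agent.R234.Sp1_685
import Crest.Agent.R234.F36_354

-- ▼ part R234/LowF20_471
section

/-!
# Row 234 (helper471): `F3E` (field `f3` of `Skel4_884.Leaves`) from F3 at the scale 1
-/

set_option autoImplicit false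

open Crest.GeometryTopology.Submanifold

namespace Crest.Agent.R234.LowF20_471

/-- **`F3E` from F3 at the scale 1.** -/
theorem f3E_of (hF : ∀ m n Q : ℕ, 3 ≤ m → 1 ≤ n → 1 ≤ Q → F36_354.F3P1 m n (m + n) Q) :
    Main_456.F3E := fun m n hm hn =>
  LowF19_471.f3S_of (by omega) fun Q hQ => F3t_433.f3Ps_of (by omega) (hF m n Q hm hn hQ)

end Crest.Agent.R234.LowF20_471
end

-- ▼ part R234/F34_354
section

/-!
# Row 234 (helper354), node F3-ASM, part 1: sloppy localisation with a local bound `A x`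

`loc_fun`: as `F31_354.loc_sloppy`, with `A : F → ℝ`.
`asm0`: `A x = μ (closedBall x r₁) + c₃ e (closedBall x (2ρ)) + A₀`.
-/

set_option linter.unusedSectionVars false
set_option autoImplicit false

open MeasureTheory Set Metric Function
open scoped ENNReal NNReal Topology

namespace Crest.Agent.R234.F34_354

open Crest.Agent.R234.F31_354

variable {F : Type*} [NormedAddCommGroup F] [InnerProductSpace ℝ F] [FiniteDimensional ℝ F]
  [MeasurableSpace F] [BorelSpace F]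

variable {vol : Measure F} [vol.IsAddHaarMeasure] {β : F → F → ℝ} {w : F → ℝ} {ρ θ W R : ℝ}

/-- sloppy localisation lemma with a local bound depending on the point -/
theorem loc_fun (h : Kern vol β w ρ θ W R) (hρ : 0 ≤ ρ) (hθ : θ ≤ 1) (hW : 0 ≤ W)
    (b₁ b₂ e : Measure F) [IsFiniteMeasure b₁] [IsFiniteMeasure b₂] [IsFiniteMeasure e]
    {φ : F → ℝ} {Lp : ℝ≥0}
    (hφ : LipschitzWith Lp φ) (hφ0 : ∀ x, 0 ≤ φ x) (hφ1 : ∀ x, φ x ≤ 1)
    (hφR : ∀ x, R < ‖x‖ → φ x = 0) {A : F → ℝ}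
    (hA : ∀ x, φ x ≠ 0 → ∫ y, β x y ∂b₁ - ∫ y, β x y ∂b₂ ≤ A x)
    (hAi : Integrable (fun x => (w x * φ x) * A x) vol)
    (habs : ∀ f : F → ℝ, Measurable f → (∃ C, ∀ y, |f y| ≤ C) →
      (∀ y, y ∉ closedBall (0 : F) (R + 2 * ρ) → f y = 0) →
      ∫ y, f y ∂b₁ - ∫ y, f y ∂b₂ ≤ ∫ y, |f y| ∂e) :
    ∫ y, φ y ∂b₁ - ∫ y, φ y ∂b₂ ≤
      ∫ x, (w x * φ x) * A x ∂vol +
        (θ + 4 * Lp * ρ) * e.real (closedBall 0 (R + 2 * ρ)) := by
  have hφm : Measurable φ := hφ.continuous.measurable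
  have hφi : ∀ (μ : Measure F) [IsFiniteMeasure μ], Integrable φ μ := by
    intro μ _
    refine Integrable.mono' (integrable_const 1) hφm.aestronglyMeasurable
      (Filter.Eventually.of_forall fun x => ?_)
    rw [Real.norm_eq_abs, abs_of_nonneg (hφ0 x)]
    exact hφ1 x
  set g : F → ℝ := fun x => w x * φ x with hg
  have hgm : Measurable g := h.wmeas.mul hφm
  have hg0 : ∀ x, 0 ≤ g x := fun x => mul_nonneg (h.wnonneg x) (hφ0 x)
  have hgle : ∀ x, g x ≤ indicator (closedBall (0 : F) R) (fun _ => W) x := by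
    intro x
    by_cases hx : x ∈ closedBall (0 : F) R
    · rw [indicator_of_mem hx]
      calc w x * φ x ≤ W * 1 := mul_le_mul (h.wle x) (hφ1 x) (hφ0 x) hW
        _ = W := mul_one _
    · rw [indicator_of_notMem hx]
      have : φ x = 0 := by
        apply hφR
        rw [mem_closedBall, dist_zero_right, not_le] at hx
        exact hx
      simp [hg, this]
  have hind : Integrable (indicator (closedBall (0 : F) R) (fun _ => W)) vol :=
    (integrable_indicator_iff measurableSet_closedBall).2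
      (integrableOn_const (measure_closedBall_lt_top.ne))
  have hgi : Integrable g vol := by
    refine Integrable.mono' hind hgm.aestronglyMeasurable (Filter.Eventually.of_forall fun x => ?_)
    rw [Real.norm_of_nonneg (hg0 x)]
    exact hgle x
  set f : F → ℝ := fun y => φ y - ∫ x, g x * β x y ∂vol with hf
  have hfm : Measurable f := by
    refine hφm.sub ?_
    have h1 : StronglyMeasurable (uncurry fun y x : F => g x * β x y) := by
      refine Measurable.stronglyMeasurable ?_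
      exact (hgm.comp measurable_snd).mul (h.meas.comp measurable_swap)
    exact (h1.integral_prod_right (ν := vol)).measurable
  have hf0 : ∀ y, y ∉ closedBall (0 : F) (R + 2 * ρ) → f y = 0 := by
    intro y hy
    rw [mem_closedBall, dist_zero_right, not_le] at hy
    have h1 : φ y = 0 := hφR y (by linarith)
    have h2 : ∀ x, g x * β x y = 0 := by
      intro x
      by_cases hx : R < ‖x‖
      · simp [hg, hφR x hx]
      · have : 2 * ρ < ‖y - x‖ := by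
          have h3 : ‖y‖ ≤ ‖y - x‖ + ‖x‖ := by
            calc ‖y‖ = ‖(y - x) + x‖ := by rw [sub_add_cancel]
              _ ≤ _ := norm_add_le _ _
          have := not_lt.1 hx
          linarith
        rw [h.supp x y this, mul_zero]
    simp only [hf, h1]
    simp_rw [h2]
    simp
  have hfle : ∀ y, |f y| ≤ indicator (closedBall (0 : F) (R + 2 * ρ)) (fun _ => θ + 4 * Lp * ρ) y := by
    intro y
    by_cases hy : y ∈ closedBall (0 : F) (R + 2 * ρ)
    · rw [indicator_of_mem hy]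
      exact h.err hρ hθ hφ hφ0 hφ1 hy
    · rw [indicator_of_notMem hy, hf0 y hy, abs_zero]
  have hbd : ∃ C, ∀ y, |f y| ≤ C := by
    refine ⟨|θ + 4 * Lp * ρ|, fun y => (hfle y).trans ?_⟩
    by_cases hy : y ∈ closedBall (0 : F) (R + 2 * ρ)
    · rw [indicator_of_mem hy]
      exact le_abs_self _
    · rw [indicator_of_notMem hy]
      exact abs_nonneg _
  have hmain := Loc1_290.loc_abstract vol b₁ b₂ e β h.meas
    (fun x y => by rw [abs_of_nonneg (h.nonneg x y)]; exact h.le_one x y) g hgi hg0 φ (hφi b₁) (hφi b₂)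
    A (fun x hx => hA x (fun hφx => hx (by simp [hg, hφx]))) hAi
    (habs f hfm hbd hf0)
  refine hmain.trans (add_le_add le_rfl ?_)
  calc ∫ y, |f y| ∂e ≤ ∫ y, indicator (closedBall (0 : F) (R + 2 * ρ)) (fun _ => θ + 4 * Lp * ρ) y ∂e := by
        refine integral_mono ?_ ?_ hfle
        · obtain ⟨C, hC⟩ := hbd
          exact Integrable.mono' (integrable_const C) hfm.abs.aestronglyMeasurable
            (Filter.Eventually.of_forall fun y => by rw [Real.norm_eq_abs, abs_abs]; exact hC y)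
        · exact (integrable_const _).indicator measurableSet_closedBall
    _ = (θ + 4 * Lp * ρ) * e.real (closedBall 0 (R + 2 * ρ)) := by
        rw [integral_indicator measurableSet_closedBall, setIntegral_const, smul_eq_mul, mul_comm]


/-- averaging a local measure over balls -/
theorem avg_ball (μ : Measure F) [IsFiniteMeasure μ] {g φ : F → ℝ} {Lp : ℝ≥0} {r : ℝ} (hr : 0 ≤ r)
    (hW : 0 ≤ W) (hgm : Measurable g) (hg0 : ∀ x, 0 ≤ g x) (hgφ : ∀ x, g x ≤ W * φ x)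
    (hφ : LipschitzWith Lp φ) (hφ0 : ∀ x, 0 ≤ φ x) (hφ1 : ∀ x, φ x ≤ 1)
    (hφR : ∀ x, R < ‖x‖ → φ x = 0) :
    Integrable (fun x => g x * μ.real (closedBall x r)) vol ∧
    ∫ x, g x * μ.real (closedBall x r) ∂vol ≤ W * vol.real (closedBall (0 : F) r) *
      ∫ y in closedBall (0 : F) (R + r), (φ y + Lp * r) ∂μ := by
  have hφm : Measurable φ := hφ.continuous.measurable
  set S : Set (F × F) := {p | dist p.2 p.1 ≤ r} with hSdef
  have hS : MeasurableSet S :=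
    measurableSet_le (continuous_snd.dist continuous_fst).measurable measurable_const
  set f : F → F → ℝ := fun x y => g x * S.indicator (fun _ => (1:ℝ)) (x, y) with hf
  have hfm : Measurable (uncurry f) := by
    have h1 : Measurable (S.indicator fun _ => (1:ℝ)) := measurable_const.indicator hS
    exact (hgm.comp measurable_fst).mul h1
  have hgle : ∀ x, g x ≤ indicator (closedBall (0 : F) R) (fun _ => W) x := by
    intro x
    by_cases hx : x ∈ closedBall (0 : F) R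
    · rw [indicator_of_mem hx]
      calc g x ≤ W * φ x := hgφ x
        _ ≤ W * 1 := mul_le_mul_of_nonneg_left (hφ1 x) hW
        _ = W := mul_one _
    · rw [indicator_of_notMem hx]
      have : φ x = 0 := by
        apply hφR
        rw [mem_closedBall, dist_zero_right, not_le] at hx
        exact hx
      have h2 := hgφ x
      rw [this, mul_zero] at h2
      exact h2
  have hind : Integrable (indicator (closedBall (0 : F) R) (fun _ => W)) vol :=
    (integrable_indicator_iff measurableSet_closedBall).2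
      (integrableOn_const (measure_closedBall_lt_top.ne))
  have hind2 : Integrable (fun p : F × F => indicator (closedBall (0 : F) R) (fun _ => W) p.1)
      (vol.prod μ) := hind.comp_fst μ
  have hfi : Integrable (uncurry f) (vol.prod μ) := by
    refine Integrable.mono' hind2 hfm.aestronglyMeasurable (Filter.Eventually.of_forall ?_)
    rintro ⟨x, y⟩
    have h1 : |S.indicator (fun _ => (1:ℝ)) (x, y)| ≤ 1 := by
      by_cases h : (x, y) ∈ S
      · rw [indicator_of_mem h, abs_one]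
      · rw [indicator_of_notMem h, abs_zero]; exact zero_le_one
    simp only [uncurry, hf, norm_mul, Real.norm_eq_abs, abs_of_nonneg (hg0 x)]
    calc g x * |S.indicator (fun _ => (1:ℝ)) (x, y)| ≤ g x * 1 :=
          mul_le_mul_of_nonneg_left h1 (hg0 x)
      _ = g x := mul_one _
      _ ≤ _ := hgle x
  have e1 : ∀ x, g x * μ.real (closedBall x r) = ∫ y, f x y ∂μ := by
    intro x
    have h1 : ∀ y, f x y = g x * (closedBall x r).indicator (fun _ => (1:ℝ)) y := by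
      intro y
      simp only [hf]
      congr 1
    simp_rw [h1]
    rw [integral_const_mul, integral_indicator measurableSet_closedBall, setIntegral_const,
      smul_eq_mul, mul_one]
  have hint : Integrable (fun x => g x * μ.real (closedBall x r)) vol := by
    have := hfi.integral_prod_left
    refine this.congr (Filter.Eventually.of_forall fun x => ?_)
    exact (e1 x).symm
  refine ⟨hint, ?_⟩
  have hLr : 0 ≤ (Lp : ℝ) * r := mul_nonneg Lp.2 hr
  calc ∫ x, g x * μ.real (closedBall x r) ∂vol = ∫ x, ∫ y, f x y ∂μ ∂vol := by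
        simp_rw [e1]
    _ = ∫ y, ∫ x, f x y ∂vol ∂μ := integral_integral_swap hfi
    _ ≤ ∫ y, (closedBall (0 : F) (R + r)).indicator
          (fun y => W * vol.real (closedBall (0 : F) r) * (φ y + Lp * r)) y ∂μ := by
        refine integral_mono_of_nonneg (Filter.Eventually.of_forall fun y => ?_) ?_
          (Filter.Eventually.of_forall fun y => ?_)
        · refine integral_nonneg fun x => mul_nonneg (hg0 x) ?_
          exact indicator_nonneg (fun _ _ => zero_le_one) _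
        · refine Integrable.indicator ?_ measurableSet_closedBall
          refine Integrable.const_mul ?_ _
          refine Integrable.mono' (integrable_const (1 + Lp * r))
            (hφm.add_const _).aestronglyMeasurable (Filter.Eventually.of_forall fun y => ?_)
          rw [Real.norm_of_nonneg (add_nonneg (hφ0 y) hLr)]
          linarith [hφ1 y]
        · have hpt : ∀ x, f x y ≤ (closedBall y r).indicator
              (fun _ => (closedBall (0 : F) (R + r)).indicator (fun y => W * (φ y + Lp * r)) y) x := by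
            intro x
            by_cases hxy : x ∈ closedBall y r
            · have hxy' : (x, y) ∈ S := by
                show dist y x ≤ r
                rw [dist_comm]; exact hxy
              rw [indicator_of_mem hxy]
              simp only [hf]
              rw [indicator_of_mem hxy', mul_one]
              have hd : dist x y ≤ r := hxy
              by_cases hx : R < ‖x‖
              · have h0 : g x ≤ 0 := by
                  have := hgφ x
                  rwa [hφR x hx, mul_zero] at this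
                refine h0.trans (indicator_nonneg (fun y _ => ?_) _)
                exact mul_nonneg hW (add_nonneg (hφ0 y) hLr)
              · have hy : y ∈ closedBall (0 : F) (R + r) := by
                  rw [mem_closedBall, dist_zero_right]
                  have h3 : ‖y‖ ≤ ‖y - x‖ + ‖x‖ := by
                    calc ‖y‖ = ‖(y - x) + x‖ := by rw [sub_add_cancel]
                      _ ≤ _ := norm_add_le _ _
                  rw [dist_comm, dist_eq_norm] at hd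
                  have := not_lt.1 hx
                  linarith
                rw [indicator_of_mem hy]
                refine (hgφ x).trans (mul_le_mul_of_nonneg_left ?_ hW)
                have h4 := hφ.dist_le_mul x y
                rw [Real.dist_eq] at h4
                have h5 : (Lp : ℝ) * dist x y ≤ Lp * r := mul_le_mul_of_nonneg_left hd Lp.2
                have h6 := le_abs_self (φ x - φ y)
                linarith
            · have hxy' : (x, y) ∉ S := by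
                intro hmem
                apply hxy
                have hm : dist y x ≤ r := hmem
                rw [mem_closedBall, dist_comm]; exact hm
              rw [indicator_of_notMem hxy]
              simp only [hf]
              rw [indicator_of_notMem hxy', mul_zero]
          have hi2 : Integrable ((closedBall y r).indicator
              (fun _ => (closedBall (0 : F) (R + r)).indicator (fun y => W * (φ y + Lp * r)) y))
              vol := (integrable_indicator_iff measurableSet_closedBall).2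
            (integrableOn_const (measure_closedBall_lt_top.ne))
          have h9 : ∫ x, f x y ∂vol ≤ ∫ x, ((closedBall y r).indicator
              (fun _ => (closedBall (0 : F) (R + r)).indicator (fun y => W * (φ y + Lp * r)) y) x)
                ∂vol := by
            refine integral_mono_of_nonneg (Filter.Eventually.of_forall fun x => ?_) hi2
              (Filter.Eventually.of_forall hpt)
            exact mul_nonneg (hg0 x) (indicator_nonneg (fun _ _ => zero_le_one) _)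
          rw [integral_indicator measurableSet_closedBall, setIntegral_const, smul_eq_mul] at h9
          have hv : vol.real (closedBall y r) = vol.real (closedBall (0 : F) r) := by
            unfold Measure.real
            rw [Measure.addHaar_closedBall_center]
          rw [hv] at h9
          refine h9.trans (le_of_eq ?_)
          by_cases hy : y ∈ closedBall (0 : F) (R + r)
          · rw [indicator_of_mem hy, indicator_of_mem hy]; ring
          · rw [indicator_of_notMem hy, indicator_of_notMem hy, mul_zero]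
    _ = W * vol.real (closedBall (0 : F) r) *
      ∫ y in closedBall (0 : F) (R + r), (φ y + Lp * r) ∂μ := by
        rw [integral_indicator measurableSet_closedBall, integral_const_mul]

/-- **abstract assembly** -/
theorem asm0 (h : Kern vol β w ρ θ W R) (hρ : 0 ≤ ρ) (hθ : θ ≤ 1) (hW : 0 ≤ W)
    (b₁ b₂ e μ : Measure F) [IsFiniteMeasure b₁] [IsFiniteMeasure b₂] [IsFiniteMeasure e]
    [IsFiniteMeasure μ] {φ : F → ℝ} {Lp : ℝ≥0}
    (hφ : LipschitzWith Lp φ) (hφ0 : ∀ x, 0 ≤ φ x) (hφ1 : ∀ x, φ x ≤ 1)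
    (hφR : ∀ x, R < ‖x‖ → φ x = 0) {r₁ c₃ A₀ : ℝ} (hr₁ : 0 ≤ r₁) (hc₃ : 0 ≤ c₃) (hA₀ : 0 ≤ A₀)
    (hA : ∀ x, φ x ≠ 0 → ∫ y, β x y ∂b₁ - ∫ y, β x y ∂b₂ ≤
      μ.real (closedBall x r₁) + c₃ * e.real (closedBall x (2 * ρ)) + A₀)
    (habs : ∀ f : F → ℝ, Measurable f → (∃ C, ∀ y, |f y| ≤ C) →
      (∀ y, y ∉ closedBall (0 : F) (R + 2 * ρ) → f y = 0) →
      ∫ y, f y ∂b₁ - ∫ y, f y ∂b₂ ≤ ∫ y, |f y| ∂e) :
    ∫ y, φ y ∂b₁ - ∫ y, φ y ∂b₂ ≤
      W * vol.real (closedBall (0 : F) r₁) *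
        ∫ y in closedBall (0 : F) (R + r₁), (φ y + Lp * r₁) ∂μ +
      c₃ * (W * vol.real (closedBall (0 : F) (2 * ρ))) * (1 + Lp * (2 * ρ)) *
        e.real (closedBall (0 : F) (R + 2 * ρ)) +
      W * vol.real (closedBall (0 : F) R) * A₀ +
      (θ + 4 * Lp * ρ) * e.real (closedBall 0 (R + 2 * ρ)) := by
  have hφm : Measurable φ := hφ.continuous.measurable
  set g : F → ℝ := fun x => w x * φ x with hg
  have hgm : Measurable g := h.wmeas.mul hφm
  have hg0 : ∀ x, 0 ≤ g x := fun x => mul_nonneg (h.wnonneg x) (hφ0 x)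
  have hgφ : ∀ x, g x ≤ W * φ x := fun x => mul_le_mul_of_nonneg_right (h.wle x) (hφ0 x)
  obtain ⟨i1, e1⟩ := avg_ball (vol := vol) μ hr₁ hW hgm hg0 hgφ hφ hφ0 hφ1 hφR
  have h2ρ : 0 ≤ 2 * ρ := by positivity
  obtain ⟨i2, e2⟩ := avg_ball (vol := vol) e h2ρ hW hgm hg0 hgφ hφ hφ0 hφ1 hφR
  have hind : Integrable (indicator (closedBall (0 : F) R) (fun _ => W)) vol :=
    (integrable_indicator_iff measurableSet_closedBall).2
      (integrableOn_const (measure_closedBall_lt_top.ne))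
  have hgle : ∀ x, g x ≤ indicator (closedBall (0 : F) R) (fun _ => W) x := by
    intro x
    by_cases hx : x ∈ closedBall (0 : F) R
    · rw [indicator_of_mem hx]
      calc g x ≤ W * φ x := hgφ x
        _ ≤ W * 1 := mul_le_mul_of_nonneg_left (hφ1 x) hW
        _ = W := mul_one _
    · rw [indicator_of_notMem hx]
      have : φ x = 0 := by
        apply hφR
        rw [mem_closedBall, dist_zero_right, not_le] at hx
        exact hx
      have h2 := hgφ x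
      rw [this, mul_zero] at h2
      exact h2
  have i3 : Integrable g vol := by
    refine Integrable.mono' hind hgm.aestronglyMeasurable (Filter.Eventually.of_forall fun x => ?_)
    rw [Real.norm_of_nonneg (hg0 x)]
    exact hgle x
  have e3 : ∫ x, g x ∂vol ≤ W * vol.real (closedBall (0 : F) R) := by
    calc ∫ x, g x ∂vol ≤ ∫ x, indicator (closedBall (0 : F) R) (fun _ => W) x ∂vol :=
          integral_mono i3 hind hgle
      _ = W * vol.real (closedBall (0 : F) R) := by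
          rw [integral_indicator measurableSet_closedBall, setIntegral_const, smul_eq_mul, mul_comm]
  have hsplit : ∀ x, (w x * φ x) * (μ.real (closedBall x r₁) + c₃ * e.real (closedBall x (2 * ρ)) +
      A₀) = g x * μ.real (closedBall x r₁) + c₃ * (g x * e.real (closedBall x (2 * ρ))) +
        g x * A₀ := by
    intro x
    simp only [hg]; ring
  have hAi : Integrable (fun x => (w x * φ x) * (μ.real (closedBall x r₁) +
      c₃ * e.real (closedBall x (2 * ρ)) + A₀)) vol := by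
    simp_rw [hsplit]
    exact (i1.add (i2.const_mul c₃)).add (i3.mul_const A₀)
  have hmain := loc_fun (vol := vol) h hρ hθ hW b₁ b₂ e hφ hφ0 hφ1 hφR hA hAi habs
  refine hmain.trans (add_le_add ?_ le_rfl)
  simp_rw [hsplit]
  have i12 : Integrable (fun x => g x * μ.real (closedBall x r₁) +
      c₃ * (g x * e.real (closedBall x (2 * ρ)))) vol := i1.add (i2.const_mul c₃)
  rw [integral_add i12 (i3.mul_const A₀), integral_add i1 (i2.const_mul c₃),
    integral_const_mul, integral_mul_const]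
  refine add_le_add (add_le_add e1 ?_) ?_
  · have h4 : ∫ y in closedBall (0 : F) (R + 2 * ρ), (φ y + Lp * (2 * ρ)) ∂e ≤
        (1 + Lp * (2 * ρ)) * e.real (closedBall (0 : F) (R + 2 * ρ)) := by
      calc ∫ y in closedBall (0 : F) (R + 2 * ρ), (φ y + Lp * (2 * ρ)) ∂e ≤
          ∫ _y in closedBall (0 : F) (R + 2 * ρ), (1 + Lp * (2 * ρ)) ∂e := by
            have hLr : 0 ≤ (Lp : ℝ) * (2 * ρ) := mul_nonneg Lp.2 h2ρ
            refine integral_mono_of_nonneg (Filter.Eventually.of_forall fun y =>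
              add_nonneg (hφ0 y) hLr) (integrable_const _) (Filter.Eventually.of_forall fun y => ?_)
            show φ y + Lp * (2 * ρ) ≤ 1 + Lp * (2 * ρ)
            linarith [hφ1 y]
        _ = _ := by rw [setIntegral_const, smul_eq_mul, mul_comm]
    have h5 : 0 ≤ W * vol.real (closedBall (0 : F) (2 * ρ)) := mul_nonneg hW measureReal_nonneg
    calc c₃ * ∫ x, g x * e.real (closedBall x (2 * ρ)) ∂vol
        ≤ c₃ * (W * vol.real (closedBall (0 : F) (2 * ρ)) *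
          ∫ y in closedBall (0 : F) (R + 2 * ρ), (φ y + Lp * (2 * ρ)) ∂e) :=
          mul_le_mul_of_nonneg_left e2 hc₃
      _ ≤ c₃ * (W * vol.real (closedBall (0 : F) (2 * ρ)) *
          ((1 + Lp * (2 * ρ)) * e.real (closedBall (0 : F) (R + 2 * ρ)))) :=
          mul_le_mul_of_nonneg_left (mul_le_mul_of_nonneg_left h4 h5) hc₃
      _ = _ := by ring
  · exact mul_le_mul_of_nonneg_right e3 hA₀

end Crest.Agent.R234.F34_354
end

-- ▼ part R234/Fin1_618
section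

/-!
# Row 234, F3 (helper618), (FIN): from the local estimates to the integral estimate

`fin` : abstract form (measures on `Euc m`).
-/

set_option autoImplicit false

open Set Filter Topology MeasureTheory Metric Function
open scoped ENNReal NNReal

noncomputable section

namespace Crest.Agent.R234.Fin_618

open Crest.Agent.R234.F31_354 Crest.Agent.R234.F34_354
open Crest.Agent.R234.Th_164 (om vol_ball om_pos)

variable {m : ℕ}

/-- powers beat by the exponential -/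
theorem ev_exp (a b : ℝ) (hb : 0 < b) {δ : ℝ} (hδ : 0 < δ) :
    ∀ᶠ L : ℝ in atTop, L ^ a * Real.exp (-b * L) ≤ δ := by
  have h1 := tendsto_rpow_mul_exp_neg_mul_atTop_nhds_zero a b hb
  exact (h1.eventually (ge_mem_nhds hδ)).mono fun L hL => hL

/-- negative powers tend to zero -/
theorem ev_pow {a : ℝ} (ha : 0 < a) {δ : ℝ} (hδ : 0 < δ) : ∀ᶠ L : ℝ in atTop, L ^ (-a) ≤ δ :=
  ((tendsto_rpow_neg_atTop ha).eventually (ge_mem_nhds hδ)).mono fun L hL => hL

/-- **numbers** -/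
theorem num {C a C' : ℝ} (hC : 1 ≤ C) (ha : 0 ≤ a) (hC' : 0 ≤ C') (m : ℕ) {K : ℝ} (hK : 0 < K)
    {p Cs : ℝ} (hp : a * (C + 1) + C' + 2 ≤ p) (hCs : p * (m + 2) + C' + 1 ≤ Cs) {D0 : ℝ}
    (hD0 : 0 < D0) :
    ∃ H0 : ℝ, 0 < H0 ∧ H0 < 1 ∧ ∀ H, 0 < H → H ≤ H0 → ∀ t D L : ℝ, L = Real.log (1 / H) →
      t = L ^ (-p) → D = C * H / t ^ (m + 2) →
      1 ≤ L ∧ 0 < t ∧ t ≤ D0 ∧ t ≤ 1 / 100 ∧ C * t ≤ L ^ (-a) / 100 ∧ 0 < D ∧ D ≤ D0 ∧ D < 1 ∧
      D ≤ t ∧
      C * (t ^ (-C) * H) ^ (1 / C) / t ≤ D0 ∧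
      -- error terms
      (L ^ (-a)) ^ (-C) * t ≤ L ^ (-C') / K ∧
      (L ^ (-a)) ^ (-C) * (C * (t ^ (-C) * H) ^ (1 / C)) ≤ L ^ (-C') / K ∧
      (L ^ (-a)) ^ (-C) * (C * (t ^ (-C) * H) ^ (1 / C) / t) ^ 2 ≤ L ^ (-C') / K ∧
      D * Real.log (1 / D) ^ (-Cs) ≤ L ^ (-C') / K * H := by
  have hp0 : 0 < p := by nlinarith
  have hp2 : a + 1 ≤ p := by nlinarith
  have hC0 : 0 < C := by linarith
  -- the conditions, eventually in L
  have ev : ∀ᶠ L : ℝ in atTop, 1 ≤ L ∧ L ^ (-p) ≤ D0 ∧ L ^ (-p) ≤ 1 / 100 ∧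
      L ^ (-(1 : ℝ)) ≤ 1 / (100 * C) ∧
      L ^ (p * (m + 2)) * Real.exp (-(1 / 2) * L) ≤ 1 / C ∧
      L ^ (p * (m + 2)) * Real.exp (-1 * L) ≤ D0 / C ∧
      L ^ (2 * p) * Real.exp (-(1 / C) * L) ≤ D0 / C ∧
      L ^ (-(1 : ℝ)) ≤ 1 / K ∧
      L ^ (a * C + p + C') * Real.exp (-(1 / C) * L) ≤ 1 / (K * C) ∧
      L ^ (a * C + 4 * p + C') * Real.exp (-(2 / C) * L) ≤ 1 / (K * C ^ 2) ∧
      L ^ (-(1 : ℝ)) ≤ 1 / (K * C * (2 : ℝ) ^ Cs) ∧ Real.exp (-(1 / 2) * L) ≤ 1 / 2 ∧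
      L ^ p * Real.exp (-(1 / 2) * L) ≤ 1 := by
    refine (eventually_ge_atTop 1).and ((ev_pow hp0 hD0).and ((ev_pow hp0 (by norm_num)).and
      ((ev_pow one_pos (by positivity)).and ((ev_exp _ _ (by norm_num) (by positivity)).and
      ((ev_exp _ _ one_pos (by positivity)).and ((ev_exp _ _ (by positivity) (by positivity)).and
      ((ev_pow one_pos (by positivity)).and ((ev_exp _ _ (by positivity) (by positivity)).and
      ((ev_exp _ _ (by positivity) (by positivity)).and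
      ((ev_pow one_pos (by positivity)).and (Eventually.and ?_
        (ev_exp _ _ (by norm_num) one_pos))))))))))))
    have h1 := ev_exp 0 (1 / 2) (by norm_num) (show (0 : ℝ) < 1 / 2 by norm_num)
    filter_upwards [h1] with L hL
    rwa [Real.rpow_zero, one_mul] at hL
  obtain ⟨L0, hL0⟩ := eventually_atTop.1 ev
  refine ⟨Real.exp (-(max L0 1)), Real.exp_pos _, by
    rw [Real.exp_lt_one_iff]; have := le_max_right L0 1; linarith, ?_⟩
  intro H hH0 hH t D L hL ht hD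
  have hLH : H = Real.exp (-L) := by
    rw [hL, one_div, Real.log_inv, neg_neg, Real.exp_log hH0]
  have hLL : L0 ≤ L := by
    have h1 : Real.exp (-L) ≤ Real.exp (-(max L0 1)) := by rw [← hLH]; exact hH
    have h2 := Real.exp_le_exp.1 h1
    have := le_max_left L0 1
    linarith
  obtain ⟨e1, e2, e3, e4, e5, e6, e7, e8, e9, e10, e11, e12, e13⟩ := hL0 L hLL
  have hL0' : 0 < L := by linarith
  have ht0 : 0 < t := by rw [ht]; exact Real.rpow_pos_of_pos hL0' _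
  have hLp : ∀ x : ℝ, 0 < L ^ x := fun x => Real.rpow_pos_of_pos hL0' x
  have htm : t ^ (m + 2) = L ^ (-(p * (m + 2))) := by
    rw [ht, ← Real.rpow_natCast, ← Real.rpow_mul hL0'.le]
    congr 1
    push_cast
    ring
  have hDL : D = C * (L ^ (p * (m + 2)) * Real.exp (-L)) := by
    rw [hD, htm, Real.rpow_neg hL0'.le, hLH]
    field_simp
  have hDpos : 0 < D := by rw [hDL]; have := hLp (p * (m + 2)); positivity
  have hDhalf : D ≤ Real.exp (-(1 / 2) * L) := by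
    have h1 : Real.exp (-L) = Real.exp (-(1 / 2) * L) * Real.exp (-(1 / 2) * L) := by
      rw [← Real.exp_add]; congr 1; ring
    rw [hDL, h1]
    have h2 : C * (L ^ (p * (m + 2)) * (Real.exp (-(1 / 2) * L) * Real.exp (-(1 / 2) * L))) =
        (C * (L ^ (p * (m + 2)) * Real.exp (-(1 / 2) * L))) * Real.exp (-(1 / 2) * L) := by ring
    rw [h2]
    have h3 : C * (L ^ (p * (m + 2)) * Real.exp (-(1 / 2) * L)) ≤ 1 := by
      calc C * (L ^ (p * (m + 2)) * Real.exp (-(1 / 2) * L)) ≤ C * (1 / C) := by gcongr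
        _ = 1 := by field_simp
    exact mul_le_of_le_one_left (Real.exp_pos _).le h3
  have hΛ : L / 2 ≤ Real.log (1 / D) := by
    rw [one_div, Real.log_inv]
    have h1 : Real.log D ≤ -(1 / 2) * L := by
      rw [← Real.log_exp (-(1 / 2) * L)]
      exact Real.log_le_log hDpos hDhalf
    linarith
  have hE : (L ^ (-a)) ^ (-C) = L ^ (a * C) := by
    rw [← Real.rpow_mul hL0'.le]; congr 1; ring
  have hh : C * (t ^ (-C) * H) ^ (1 / C) = C * (L ^ p * Real.exp (-(1 / C) * L)) := by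
    rw [Real.mul_rpow (Real.rpow_nonneg ht0.le _) hH0.le, ← Real.rpow_mul ht0.le, ht,
      ← Real.rpow_mul hL0'.le, hLH, ← Real.exp_mul]
    congr 2
    · congr 1
      field_simp
    · congr 1
      ring
  have hht : C * (t ^ (-C) * H) ^ (1 / C) / t = C * (L ^ (2 * p) * Real.exp (-(1 / C) * L)) := by
    rw [hh, ht, show (2 : ℝ) * p = p + p by ring, Real.rpow_add hL0', Real.rpow_neg hL0'.le]
    field_simp
  have hDt : D ≤ t := by
    refine hDhalf.trans ?_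
    rw [ht, Real.rpow_neg hL0'.le, ← one_div, le_div_iff₀ (hLp p), mul_comm]
    exact e13
  refine ⟨e1, ht0, by rw [ht]; exact e2, by rw [ht]; exact e3, ?_, hDpos, ?_, ?_, hDt, ?_, ?_, ?_,
    ?_, ?_⟩
  · -- `C t ≤ L^(-a) / 100`
    have h1 : t ≤ L ^ (-a) * L ^ (-(1 : ℝ)) := by
      rw [ht, ← Real.rpow_add hL0']
      exact Real.rpow_le_rpow_of_exponent_le e1 (by linarith)
    calc C * t ≤ C * (L ^ (-a) * (1 / (100 * C))) := by
          have := hLp (-a)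
          gcongr
          refine h1.trans ?_
          gcongr
      _ = _ := by field_simp
  · rw [hDL]
    calc C * (L ^ (p * (m + 2)) * Real.exp (-L)) ≤ C * (D0 / C) := by
          rw [show -L = -1 * L by ring]
          gcongr
      _ = D0 := by field_simp
  · refine hDhalf.trans_lt ?_
    linarith
  · rw [hht]
    calc C * (L ^ (2 * p) * Real.exp (-(1 / C) * L)) ≤ C * (D0 / C) := by gcongr
      _ = D0 := by field_simp
  · rw [hE, ht, ← Real.rpow_add hL0']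
    calc L ^ (a * C + -p) ≤ L ^ (-C' + -(1 : ℝ)) :=
          Real.rpow_le_rpow_of_exponent_le e1 (by nlinarith)
      _ = L ^ (-C') * L ^ (-(1 : ℝ)) := Real.rpow_add hL0' _ _
      _ ≤ L ^ (-C') * (1 / K) := by have := hLp (-C'); gcongr
      _ = _ := by ring
  · rw [hE, hh]
    have h1 : L ^ (a * C) * (C * (L ^ p * Real.exp (-(1 / C) * L))) =
        C * L ^ (-C') * (L ^ (a * C + p + C') * Real.exp (-(1 / C) * L)) := by
      rw [Real.rpow_add hL0', Real.rpow_add hL0', Real.rpow_neg hL0'.le]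
      have := (hLp C').ne'
      field_simp
    rw [h1]
    calc C * L ^ (-C') * (L ^ (a * C + p + C') * Real.exp (-(1 / C) * L)) ≤
          C * L ^ (-C') * (1 / (K * C)) := by have := hLp (-C'); gcongr
      _ = _ := by field_simp
  · rw [hE, hht]
    have h1 : L ^ (a * C) * (C * (L ^ (2 * p) * Real.exp (-(1 / C) * L))) ^ 2 =
        C ^ 2 * L ^ (-C') * (L ^ (a * C + 4 * p + C') * Real.exp (-(2 / C) * L)) := by
      rw [Real.rpow_add hL0', Real.rpow_add hL0', Real.rpow_neg hL0'.le,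
        show Real.exp (-(2 / C) * L) = Real.exp (-(1 / C) * L) * Real.exp (-(1 / C) * L) by
          rw [← Real.exp_add]; congr 1; ring,
        show (4 : ℝ) * p = 2 * p + 2 * p by ring, Real.rpow_add hL0' (2 * p)]
      have := (hLp C').ne'
      field_simp
    rw [h1]
    calc C ^ 2 * L ^ (-C') * (L ^ (a * C + 4 * p + C') * Real.exp (-(2 / C) * L)) ≤
          C ^ 2 * L ^ (-C') * (1 / (K * C ^ 2)) := by have := hLp (-C'); gcongr
      _ = _ := by field_simp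
  · have hCs0 : 0 ≤ Cs := by
      have h1 : (0 : ℝ) ≤ m := Nat.cast_nonneg m
      have h2 : 0 ≤ p * (m + 2) := by positivity
      linarith
    have h1 : Real.log (1 / D) ^ (-Cs) ≤ (L / 2) ^ (-Cs) :=
      Real.rpow_le_rpow_of_nonpos (by linarith) hΛ (by linarith)
    have h2 : (L / 2) ^ (-Cs) = L ^ (-Cs) * (2 : ℝ) ^ Cs := by
      rw [Real.div_rpow hL0'.le (by norm_num), Real.rpow_neg (by norm_num : (0 : ℝ) ≤ 2), div_inv_eq_mul]
    have h20 : (0 : ℝ) < (2 : ℝ) ^ Cs := Real.rpow_pos_of_pos (by norm_num) _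
    have h3 : D * (L ^ (-Cs) * (2 : ℝ) ^ Cs) =
        C * (2 : ℝ) ^ Cs * L ^ (p * (m + 2) + -Cs) * H := by
      rw [hDL, ← hLH, Real.rpow_add hL0']; ring
    have h4 : L ^ (p * (m + 2) + -Cs) ≤ L ^ (-C') * (1 / (K * C * (2 : ℝ) ^ Cs)) := by
      calc L ^ (p * (m + 2) + -Cs) ≤ L ^ (-C' + -(1 : ℝ)) :=
            Real.rpow_le_rpow_of_exponent_le e1 (by linarith)
        _ = L ^ (-C') * L ^ (-(1 : ℝ)) := Real.rpow_add hL0' _ _
        _ ≤ _ := mul_le_mul_of_nonneg_left e11 (hLp (-C')).le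
    calc D * Real.log (1 / D) ^ (-Cs) ≤ D * (L ^ (-Cs) * (2 : ℝ) ^ Cs) := by
          rw [← h2]; exact mul_le_mul_of_nonneg_left h1 hDpos.le
      _ = C * (2 : ℝ) ^ Cs * L ^ (p * (m + 2) + -Cs) * H := h3
      _ ≤ C * (2 : ℝ) ^ Cs * (L ^ (-C') * (1 / (K * C * (2 : ℝ) ^ Cs))) * H :=
          mul_le_mul_of_nonneg_right (mul_le_mul_of_nonneg_left h4 (by positivity)) hH0.le
      _ = _ := by field_simp

end Crest.Agent.R234.Fin_618
end
end

-- ▼ part R234/Fin2_618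
section

/-!
# Row 234, F3 (helper618), (FIN), part 2: the abstract assembly with constants
-/

set_option autoImplicit false

open Set Filter Topology MeasureTheory Metric Function
open Crest.GeometryTopology.Submanifold
open scoped ENNReal NNReal

noncomputable section

namespace Crest.Agent.R234.Fin_618

open Crest.Agent.R234.F31_354 Crest.Agent.R234.F34_354
open Crest.Agent.R234.Th_164 (om vol_ball om_pos)

variable {m : ℕ}

theorem vol_cball (x : Euc m) {r : ℝ} (hr : 0 < r) :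
    (volume : Measure (Euc m)).real (closedBall x r) = om m * r ^ m := by
  rw [← vol_ball x hr, measureReal_def, measureReal_def, Measure.addHaar_closedBall _ _ hr.le,
    Measure.addHaar_ball_of_pos _ _ hr]

/-- the constant of the assembly -/
def P0 (m : ℕ) (C : ℝ) : ℝ := C * om m * 16 ^ m

def C3 (m : ℕ) (C : ℝ) : ℝ := 104 * C * P0 m C + 25 * C + P0 m C

theorem P0_nonneg {C : ℝ} (hC : 1 ≤ C) : 0 ≤ P0 m C := by
  unfold P0; have := om_pos m; positivity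

/-- **assembly with constants** -/
theorem asm1 {C κ t D ε M A : ℝ} (hC : 1 ≤ C) (hκ : 0 ≤ κ) (hκ1 : κ ≤ 1) (ht : 0 < t)
    (ht1 : t ≤ 1 / 100) (hD : 0 ≤ D) (hDt : D ≤ t) (h16 : 16 * t ≤ ε / 4) (hA0 : 0 ≤ A)
    {β : Euc m → Euc m → ℝ} {wt : Euc m → ℝ} {W θ : ℝ}
    (hK : Kern volume β wt t θ W 1) (hθ : θ ≤ C * t) (hθ1 : θ ≤ 1) (hW : 0 ≤ W)
    (hWt : W ≤ C / t ^ m) (b₁ b₂ e μq μτ : Measure (Euc m)) [IsFiniteMeasure b₁]
    [IsFiniteMeasure b₂] [IsFiniteMeasure e] [IsFiniteMeasure μq] [IsFiniteMeasure μτ]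
    {φ : Euc m → ℝ} (hφ : LipschitzWith 6 φ) (hφ0 : ∀ x, 0 ≤ φ x) (hφ1 : ∀ x, φ x ≤ 1)
    (hφR : ∀ x, 1 < ‖x‖ → φ x = 0)
    (hA : ∀ v, φ v ≠ 0 → ∫ y, β v y ∂b₁ - ∫ y, β v y ∂b₂ ≤
      C * (κ ^ 2 * μq.real (closedBall v (16 * t))) +
      C * (((κ * t) ^ 2 + κ * t * √D + D) * μτ.real (closedBall v (16 * t))) +
      C * (κ * t) ^ 2 * e.real (closedBall v (2 * t)) + t ^ m * A)
    (habs : ∀ f : Euc m → ℝ, Measurable f → (∃ C, ∀ y, |f y| ≤ C) →
      (∀ y, y ∉ closedBall (0 : Euc m) (1 + ε / 4) → f y = 0) →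
      ∫ y, f y ∂b₁ - ∫ y, f y ∂b₂ ≤ ∫ y, |f y| ∂e)
    (he : e.real (closedBall 0 (1 + ε / 4)) ≤ M) (hτ : μτ.real (closedBall 0 (1 + ε / 4)) ≤ M)
    (hq : μq.real (closedBall 0 (1 + ε / 4)) ≤ M) :
    ∫ y, φ y ∂b₁ - ∫ y, φ y ∂b₂ ≤ C3 m C * (κ ^ 2 * ∫ y, φ y ∂μq) + C3 m C * (t * M + A) := by
  have hom := om_pos m
  have hC0 : 0 < C := by linarith
  have hM0 : 0 ≤ M := measureReal_nonneg.trans he
  have hP := P0_nonneg (m := m) hC
  set P := P0 m C with hPdef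
  have hφm : Measurable φ := hφ.continuous.measurable
  have hφi : ∀ (μ : Measure (Euc m)) [IsFiniteMeasure μ], Integrable φ μ := by
    intro μ _
    refine Integrable.mono' (integrable_const 1) hφm.aestronglyMeasurable
      (Filter.Eventually.of_forall fun x => ?_)
    rw [Real.norm_eq_abs, abs_of_nonneg (hφ0 x)]
    exact hφ1 x
  set c₁ : ℝ := (κ * t) ^ 2 + κ * t * √D + D with hc₁
  have hκt : κ * t ≤ t := by nlinarith
  have hκt0 : 0 ≤ κ * t := by positivity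
  have ht10 : t ≤ 1 := by linarith
  have hκt2 : (κ * t) ^ 2 ≤ t := by nlinarith
  have hsD : √D ≤ 1 := Real.sqrt_le_one.2 (by linarith)
  have hc₁0 : 0 ≤ c₁ := by positivity
  have hc₁3 : c₁ ≤ 3 * t := by
    have h1 : κ * t * √D ≤ t * 1 := mul_le_mul hκt hsD (Real.sqrt_nonneg _) ht.le
    rw [hc₁]; linarith
  set μ : Measure (Euc m) := ENNReal.ofReal (C * κ ^ 2) • μq + ENNReal.ofReal (C * c₁) • μτ with hμ
  have i1 : IsFiniteMeasure (ENNReal.ofReal (C * κ ^ 2) • μq) :=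
    ⟨by rw [Measure.smul_apply, smul_eq_mul]; exact ENNReal.mul_lt_top ENNReal.ofReal_lt_top (measure_lt_top _ _)⟩
  have i2 : IsFiniteMeasure (ENNReal.ofReal (C * c₁) • μτ) :=
    ⟨by rw [Measure.smul_apply, smul_eq_mul]; exact ENNReal.mul_lt_top ENNReal.ofReal_lt_top (measure_lt_top _ _)⟩
  have i3 : IsFiniteMeasure μ := by rw [hμ]; infer_instance
  have hμr : ∀ S : Set (Euc m), μ.real S = C * κ ^ 2 * μq.real S + C * c₁ * μτ.real S := by
    intro S
    rw [hμ, measureReal_add_apply, measureReal_def, measureReal_def, Measure.smul_apply,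
      Measure.smul_apply, smul_eq_mul, smul_eq_mul, ENNReal.toReal_mul, ENNReal.toReal_mul,
      ENNReal.toReal_ofReal (by positivity), ENNReal.toReal_ofReal (by positivity)]
    rfl
  have hsub : ∀ {r : ℝ}, r ≤ 16 * t → closedBall (0 : Euc m) (1 + r) ⊆ closedBall 0 (1 + ε / 4) :=
    fun hr => closedBall_subset_closedBall (by linarith)
  have h := asm0 (vol := (volume : Measure (Euc m))) hK ht.le hθ1 hW b₁ b₂ e μ hφ hφ0 hφ1
    hφR (r₁ := 16 * t) (c₃ := C * (κ * t) ^ 2) (A₀ := t ^ m * A) (by positivity) (by positivity)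
    (by positivity)
    (by
      intro v hv
      refine (hA v hv).trans (le_of_eq ?_)
      rw [hμr]; ring)
    (fun f hf hb h0 => habs f hf hb fun y hy => h0 y fun hc => hy (hsub (by linarith) hc))
  refine h.trans ?_
  -- the four terms
  have hWP : W * (volume : Measure (Euc m)).real (closedBall (0 : Euc m) (16 * t)) ≤ P := by
    rw [vol_cball _ (by positivity), mul_pow]
    calc W * (om m * (16 ^ m * t ^ m)) ≤ C / t ^ m * (om m * (16 ^ m * t ^ m)) := by gcongr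
      _ = P := by rw [hPdef]; unfold P0; field_simp
  have hWP2 : W * (volume : Measure (Euc m)).real (closedBall (0 : Euc m) (2 * t)) ≤ P := by
    refine (mul_le_mul_of_nonneg_left ?_ hW).trans hWP
    exact measureReal_mono (closedBall_subset_closedBall (by linarith))
      (measure_closedBall_lt_top.ne)
  have hWP3 : W * (volume : Measure (Euc m)).real (closedBall (0 : Euc m) 1) * (t ^ m * A) ≤
      P * A := by
    rw [vol_cball _ one_pos, one_pow, mul_one]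
    calc W * om m * (t ^ m * A) ≤ C / t ^ m * om m * (t ^ m * A) := by gcongr
      _ = C * om m * 1 * A := by field_simp
      _ ≤ C * om m * 16 ^ m * A := by
          gcongr
          exact one_le_pow₀ (by norm_num)
      _ = P * A := by rw [hPdef]; unfold P0; ring
  have hS : ∀ (ν : Measure (Euc m)) [IsFiniteMeasure ν], ν.real (closedBall 0 (1 + ε / 4)) ≤ M →
      ∫ y in closedBall (0 : Euc m) (1 + 16 * t), (φ y + (6 : ℝ≥0) * (16 * t)) ∂ν ≤
        ∫ y, φ y ∂ν + 96 * t * M := by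
    intro ν _ hν
    rw [integral_add (hφi ν).integrableOn (integrable_const _), setIntegral_const, smul_eq_mul]
    refine add_le_add (setIntegral_le_integral (hφi ν) (Eventually.of_forall hφ0)) ?_
    have h1 : ν.real (closedBall 0 (1 + 16 * t)) ≤ M :=
      (measureReal_mono (hsub le_rfl) (measure_ne_top _ _)).trans hν
    calc ν.real (closedBall 0 (1 + 16 * t)) * (((6 : ℝ≥0) : ℝ) * (16 * t)) ≤
          M * (((6 : ℝ≥0) : ℝ) * (16 * t)) := by gcongr
      _ = _ := by push_cast; ring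
  have hSτ : ∫ y in closedBall (0 : Euc m) (1 + 16 * t), (φ y + (6 : ℝ≥0) * (16 * t)) ∂μτ ≤
      2 * M := by
    have h1 : μτ.real (closedBall 0 (1 + 16 * t)) ≤ M :=
      (measureReal_mono (hsub le_rfl) (measure_ne_top _ _)).trans hτ
    calc ∫ y in closedBall (0 : Euc m) (1 + 16 * t), (φ y + (6 : ℝ≥0) * (16 * t)) ∂μτ ≤
          ∫ y in closedBall (0 : Euc m) (1 + 16 * t), (2 : ℝ) ∂μτ := by
          refine integral_mono ((hφi _).integrableOn.add (integrable_const _))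
            (integrable_const _) fun y => ?_
          have := hφ1 y
          simp only
          push_cast
          linarith
      _ = μτ.real (closedBall 0 (1 + 16 * t)) * 2 := by rw [setIntegral_const, smul_eq_mul]
      _ ≤ _ := by linarith
  have hI : ∫ y in closedBall (0 : Euc m) (1 + 16 * t), (φ y + (6 : ℝ≥0) * (16 * t)) ∂μ ≤
      C * κ ^ 2 * ∫ y, φ y ∂μq + 102 * C * (t * M) := by
    have hint : ∀ (ν : Measure (Euc m)) [IsFiniteMeasure ν],
        Integrable (fun y => φ y + (6 : ℝ≥0) * (16 * t)) (ν.restrict (closedBall 0 (1 + 16 * t))) :=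
      fun ν _ => (hφi ν).integrableOn.add (integrable_const _)
    rw [hμ, Measure.restrict_add, integral_add_measure, Measure.restrict_smul,
      Measure.restrict_smul, integral_smul_measure, integral_smul_measure,
      ENNReal.toReal_ofReal (by positivity), ENNReal.toReal_ofReal (by positivity), smul_eq_mul,
      smul_eq_mul]
    · have a1 := hS μq hq
      have a2 := mul_le_mul_of_nonneg_left a1 (by positivity : 0 ≤ C * κ ^ 2)
      have a3 := mul_le_mul_of_nonneg_left hSτ (by positivity : 0 ≤ C * c₁)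
      have a4 : C * κ ^ 2 * (96 * t * M) ≤ C * 1 * (96 * t * M) := by
        gcongr
        exact pow_le_one₀ hκ hκ1
      have a5 : C * c₁ * (2 * M) ≤ C * (3 * t) * (2 * M) := by gcongr
      linarith
    · rw [Measure.restrict_smul]
      exact Integrable.smul_measure (hint μq) ENNReal.ofReal_ne_top
    · rw [Measure.restrict_smul]
      exact Integrable.smul_measure (hint μτ) ENNReal.ofReal_ne_top
  have hI0 : 0 ≤ ∫ y, φ y ∂μq := integral_nonneg hφ0
  have he2 : e.real (closedBall 0 (1 + 2 * t)) ≤ M :=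
    (measureReal_mono (hsub (by linarith)) (measure_ne_top _ _)).trans he
  have T1 : W * (volume : Measure (Euc m)).real (closedBall (0 : Euc m) (16 * t)) *
        ∫ y in closedBall (0 : Euc m) (1 + 16 * t), (φ y + (6 : ℝ≥0) * (16 * t)) ∂μ ≤
      P * (C * κ ^ 2 * ∫ y, φ y ∂μq + 102 * C * (t * M)) := by
    refine mul_le_mul hWP hI ?_ hP
    refine integral_nonneg fun y => ?_
    have := hφ0 y
    positivity
  have T2 : C * (κ * t) ^ 2 * (W * (volume : Measure (Euc m)).real (closedBall (0 : Euc m) (2 * t))) *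
      (1 + (6 : ℝ≥0) * (2 * t)) * e.real (closedBall (0 : Euc m) (1 + 2 * t)) ≤
      2 * C * P * (t * M) := by
    calc C * (κ * t) ^ 2 * (W * (volume : Measure (Euc m)).real (closedBall (0 : Euc m) (2 * t))) *
      (1 + (6 : ℝ≥0) * (2 * t)) * e.real (closedBall (0 : Euc m) (1 + 2 * t)) ≤
        C * t * P * 2 * M := by
          gcongr
          push_cast
          linarith
      _ = _ := by ring
  have T4 : (θ + 4 * (6 : ℝ≥0) * t) * e.real (closedBall 0 (1 + 2 * t)) ≤ 25 * C * (t * M) := by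
    calc (θ + 4 * (6 : ℝ≥0) * t) * e.real (closedBall 0 (1 + 2 * t)) ≤ (25 * C * t) * M := by
          refine mul_le_mul ?_ he2 measureReal_nonneg (by positivity)
          push_cast
          nlinarith
      _ = _ := by ring
  have hC3' : C3 m C = 104 * (C * P) + 25 * C + P := by
    rw [hPdef]; unfold C3; ring
  have hCP : 0 ≤ C * P := by positivity
  have hC3 : P * C ≤ C3 m C := by
    rw [hC3', mul_comm P C]
    linarith
  have F1 : P * (C * κ ^ 2 * ∫ y, φ y ∂μq) ≤ C3 m C * (κ ^ 2 * ∫ y, φ y ∂μq) := by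
    calc P * (C * κ ^ 2 * ∫ y, φ y ∂μq) = P * C * (κ ^ 2 * ∫ y, φ y ∂μq) := by ring
      _ ≤ _ := by gcongr
  have htM : 0 ≤ t * M := by positivity
  have F2 : 102 * C * P * (t * M) + 2 * C * P * (t * M) + 25 * C * (t * M) + P * A ≤
      C3 m C * (t * M + A) := by
    rw [hC3']
    have a1 : 0 ≤ (104 * (C * P) + 25 * C) * A := by positivity
    have a2 : 0 ≤ P * (t * M) := by positivity
    have a3 : (104 * (C * P) + 25 * C + P) * (t * M + A) =
        102 * C * P * (t * M) + 2 * C * P * (t * M) + 25 * C * (t * M) + P * A +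
          (P * (t * M) + (104 * (C * P) + 25 * C) * A) := by ring
    rw [a3]
    linarith
  have e1 : P * (C * κ ^ 2 * ∫ y, φ y ∂μq + 102 * C * (t * M)) =
      P * (C * κ ^ 2 * ∫ y, φ y ∂μq) + 102 * C * P * (t * M) := by ring
  linarith

end Crest.Agent.R234.Fin_618
end
end

-- ▼ part R234/Fin3_618
section

/-!
# Row 234, F3 (helper618), (FIN), part 3: the measures of the assembly for a chart
-/

set_option autoImplicit false

open Set Filter Topology MeasureTheory Metric Function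
open Crest.GeometryTopology.Submanifold
open Crest.Agent.R234.Vf_884 Crest.Agent.R234.Ar_870 Crest.Agent.R234.GL_394
open Crest.Agent.R234.Tv_618 (xt xt_eq measurable_xt nu nu_apply integral_nu)
open scoped ENNReal NNReal InnerProductSpace

noncomputable section

namespace Crest.Agent.R234.Fin_618

variable {m k : ℕ} {c : Ch m k} {K : Set (Euc k)} {V : Measure (Euc k × L k)}

/-- the foot map, measurable version -/
def Xm (c : Ch m k) (K : Set (Euc k)) (p : Euc k × L k) : Euc m := xt c K p.1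

theorem cx_on (h : Ok c K univ) : ContinuousOn c.x K := fun z hz =>
  (h.hx z hz).continuousAt.continuousWithinAt

theorem meas_Xm (h : Ok c K univ) : Measurable (Xm c K) :=
  (measurable_xt h.cpt (cx_on h)).comp measurable_fst

theorem Xm_ae (hV : On V m K) : ∀ᵐ p ∂V, Xm c K p = c.x p.1 := by
  filter_upwards [hV.mem] with p hp
  exact xt_eq c hp.1

/-- a nonnegative continuous density on `K × G` -/
structure Dn (K : Set (Euc k)) (m : ℕ) (w : Euc k × L k → ℝ) : Prop where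
  co : ContinuousOn w (K ×ˢ G m k)
  nn : ∀ p ∈ K ×ˢ G m k, 0 ≤ w p

variable {w : Euc k × L k → ℝ}

theorem Dn.int (hw : Dn K m w) (h : Ok c K univ) (hV : On V m K) : Integrable w V :=
  hV.integrable h.cpt hw.co

theorem Dn.ae (hw : Dn K m w) (hV : On V m K) : ∀ᵐ p ∂V, 0 ≤ w p := by
  filter_upwards [hV.mem] with p hp
  exact hw.nn p hp

theorem Dn.fin (hw : Dn K m w) (h : Ok c K univ) (hV : On V m K) :
    IsFiniteMeasure (nu V (Xm c K) w) := by
  constructor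
  rw [nu_apply (meas_Xm h) w MeasurableSet.univ, preimage_univ, Measure.restrict_univ]
  have h1 := (hw.int h hV).lintegral_lt_top
  exact h1

theorem Dn.integral (hw : Dn K m w) (h : Ok c K univ) (hV : On V m K) {F : Euc m → ℝ}
    (hF : Measurable F) : ∫ v, F v ∂(nu V (Xm c K) w) = ∫ p, F (c.x p.1) * w p ∂V := by
  rw [integral_nu (meas_Xm h) (hw.int h hV).aemeasurable (hw.ae hV) hF]
  refine integral_congr_ae ?_
  filter_upwards [Xm_ae (c := c) hV] with p hp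
  rw [hp, mul_comm]

theorem Dn.real (hw : Dn K m w) (h : Ok c K univ) (hV : On V m K) {S : Set (Euc m)}
    (hS : MeasurableSet S) :
    (nu V (Xm c K) w).real S = ∫ p in {z | c.x z ∈ S} ×ˢ univ, w p ∂V := by
  have h1 : (({z | c.x z ∈ S} ×ˢ univ : Set (Euc k × L k))) =ᵐ[V] (Xm c K) ⁻¹' S := by
    filter_upwards [Xm_ae (c := c) hV] with p hp
    refine propext ⟨fun h => ?_, fun h => ⟨?_, trivial⟩⟩
    · show Xm c K p ∈ S
      rw [hp]; exact h.1
    · show c.x p.1 ∈ S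
      rw [← hp]; exact h
  rw [setIntegral_congr_set h1, measureReal_def, nu_apply (meas_Xm h) w hS,
    ← ofReal_integral_eq_lintegral_ofReal (hw.int h hV).integrableOn
      (ae_restrict_of_ae (hw.ae hV)), ENNReal.toReal_ofReal]
  exact integral_nonneg_of_ae (ae_restrict_of_ae (hw.ae hV))

/-- monotonicity of set integrals of densities -/
theorem Dn.mono (hw : Dn K m w) (h : Ok c K univ) (hV : On V m K) {S T : Set (Euc k × L k)}
    (hST : ∀ᵐ p ∂V, p ∈ S → p ∈ T) : ∫ p in S, w p ∂V ≤ ∫ p in T, w p ∂V :=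
  setIntegral_mono_set (hw.int h hV).integrableOn (ae_restrict_of_ae (hw.ae hV)) hST

/-! ### the two sides of the anomaly -/

theorem dn_one : Dn K m (fun _ : Euc k × L k => (1 : ℝ)) := ⟨continuousOn_const, fun _ _ => zero_le_one⟩

theorem dn_f (h : Ok c K univ) : Dn K m (fun p : Euc k × L k => 2 * c.f p.1) where
  co := by
    refine continuousOn_const.mul ?_
    intro p hp
    exact ((h.hf p.1 hp.1).continuousAt.comp continuousAt_fst).continuousWithinAt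
  nn := fun p hp => by
    rw [← h.nusq p.1 hp.1]; positivity

theorem dn_tau (h : Ok c K univ) (htau : ∀ p ∈ K ×ˢ G m k, 0 ≤ c.tau p.1 p.2) :
    Dn K m (fun p : Euc k × L k => c.tau p.1 p.2) := ⟨h.ctau, htau⟩

theorem dn_tau2 (h : Ok c K univ) (htau : ∀ p ∈ K ×ˢ G m k, 0 ≤ c.tau p.1 p.2) :
    Dn K m (fun p : Euc k × L k => c.tau p.1 p.2 / 2) :=
  ⟨h.ctau.div_const 2, fun p hp => by have := htau p hp; positivity⟩

theorem cj_cont (h : Ok c K univ) : Continuous c.j :=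
  continuous_iff_continuousAt.2 fun v => (h.hj v (mem_univ v)).continuousAt

/-- `j` times Lebesgue on a ball -/
def Jm (c : Ch m k) (R : ℝ) : Measure (Euc m) :=
  (volume.restrict (ball (0 : Euc m) R)).withDensity fun v => ENNReal.ofReal (c.j v)

theorem Jm_fin (h : Ok c K univ) (R : ℝ) : IsFiniteMeasure (Jm c R) := by
  constructor
  unfold Jm
  rw [withDensity_apply _ MeasurableSet.univ, Measure.restrict_univ]
  have h1 : IntegrableOn c.j (ball (0 : Euc m) R) :=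
    ((cj_cont h).continuousOn.integrableOn_compact (isCompact_closedBall 0 R)).mono_set
      ball_subset_closedBall
  exact h1.lintegral_lt_top

theorem Jm_integral (h : Ok c K univ) (hj : ∀ v, 0 ≤ c.j v) {R : ℝ} {F : Euc m → ℝ}
    (h0 : ∀ v, v ∉ ball (0 : Euc m) R → F v = 0) :
    ∫ v, F v ∂(Jm c R) = ∫ v, F v * c.j v := by
  unfold Jm
  rw [integral_withDensity_eq_integral_toReal_smul₀
    ((cj_cont h).measurable.ennreal_ofReal.aemeasurable)
      (Eventually.of_forall fun p => ENNReal.ofReal_lt_top)]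
  have h1 : ∀ v, (ENNReal.ofReal (c.j v)).toReal • F v = F v * c.j v := fun v => by
    rw [ENNReal.toReal_ofReal (hj v), smul_eq_mul, mul_comm]
  simp_rw [h1]
  refine setIntegral_eq_integral_of_forall_compl_eq_zero fun v hv => ?_
  rw [h0 v hv, zero_mul]

def B1 (c : Ch m k) (K : Set (Euc k)) (V : Measure (Euc k × L k)) : Measure (Euc m) :=
  nu V (Xm c K) fun _ => 1

def B2 (c : Ch m k) (K : Set (Euc k)) (V : Measure (Euc k × L k)) (Q : ℕ) (R : ℝ) :
    Measure (Euc m) :=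
  nu V (Xm c K) (fun p => c.tau p.1 p.2 / 2) + (Q : ℝ≥0∞) • Jm c R

theorem B1_fin (h : Ok c K univ) (hV : On V m K) : IsFiniteMeasure (B1 c K V) := dn_one.fin h hV

theorem QJm_fin (h : Ok c K univ) (Q : ℕ) (R : ℝ) : IsFiniteMeasure ((Q : ℝ≥0∞) • Jm c R) := by
  have := Jm_fin h R
  exact ⟨by
    rw [Measure.smul_apply, smul_eq_mul]
    exact ENNReal.mul_lt_top (ENNReal.natCast_lt_top Q) (measure_lt_top _ _)⟩

theorem B2_fin (h : Ok c K univ) (hV : On V m K) (htau : ∀ p ∈ K ×ˢ G m k, 0 ≤ c.tau p.1 p.2)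
    (Q : ℕ) (R : ℝ) : IsFiniteMeasure (B2 c K V Q R) := by
  have h1 := (dn_tau2 h htau).fin h hV
  have h2 := QJm_fin h Q R
  unfold B2
  infer_instance

/-- **the anomaly as a difference of two finite measures** -/
theorem B_sub (h : Ok c K univ) (hV : On V m K) (htau : ∀ p ∈ K ×ˢ G m k, 0 ≤ c.tau p.1 p.2)
    (hj : ∀ v, 0 ≤ c.j v) (Q : ℕ) {R : ℝ} {F : Euc m → ℝ} (hF : Measurable F) {b : ℝ}
    (hb : ∀ v, |F v| ≤ b) (h0 : ∀ v, v ∉ ball (0 : Euc m) R → F v = 0) :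
    ∫ v, F v ∂(B1 c K V) - ∫ v, F v ∂(B2 c K V Q R) =
      ∫ p, F (c.x p.1) * (1 - c.tau p.1 p.2 / 2) ∂V - Q * ∫ v, F v * c.j v := by
  have f1 := (dn_tau2 h htau).fin h hV
  have f2 := QJm_fin h Q R
  have f3 := Jm_fin h R
  have f4 := hV.fin
  have hFi : ∀ (μ : Measure (Euc m)) [IsFiniteMeasure μ], Integrable F μ := by
    intro μ _
    exact Integrable.mono' (integrable_const b) hF.aestronglyMeasurable
      (Eventually.of_forall fun v => by rw [Real.norm_eq_abs]; exact hb v)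
  unfold B1 B2
  rw [integral_add_measure (hFi _) (hFi _), integral_smul_measure, ENNReal.toReal_natCast,
    smul_eq_mul, Jm_integral h hj h0, dn_one.integral h hV hF, (dn_tau2 h htau).integral h hV hF]
  have hm : AEStronglyMeasurable (fun p : Euc k × L k => F (c.x p.1)) V := by
    have h1 : Measurable fun p : Euc k × L k => F (Xm c K p) := hF.comp (meas_Xm h)
    refine h1.aestronglyMeasurable.congr ?_
    filter_upwards [Xm_ae (c := c) hV] with p hp
    rw [hp]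
  have i1 : Integrable (fun p : Euc k × L k => F (c.x p.1) * 1) V := by
    refine Integrable.mono' (integrable_const b) (hm.mul_const 1) (Eventually.of_forall fun p => ?_)
    rw [mul_one, Real.norm_eq_abs]
    exact hb _
  have i2 : Integrable (fun p : Euc k × L k => F (c.x p.1) * (c.tau p.1 p.2 / 2)) V := by
    refine Integrable.bdd_mul ((dn_tau2 h htau).int h hV) hm (c := b)
      (Eventually.of_forall fun p => ?_)
    rw [Real.norm_eq_abs]
    exact hb _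
  rw [← sub_sub, ← integral_sub i1 i2]
  congr 1
  refine integral_congr_ae (Eventually.of_forall fun p => ?_)
  simp only
  ring

/-- `bb` at the level `0` -/
theorem bb_zero (h : Ok c K univ) (hV : On V m K) {g : ℝ → ℝ} (hg : Continuous fun v : Euc m => g (‖v‖ ^ 2))
    (Q : ℝ) : bb c V g Q 0 =
      ∫ p, g (‖c.x p.1‖ ^ 2) * (1 - c.tau p.1 p.2 / 2) ∂V - Q * ∫ v : Euc m, g (‖v‖ ^ 2) * c.j v := by
  have hgx : ContinuousOn (fun p : Euc k × L k => g (‖c.x p.1‖ ^ 2)) (K ×ˢ G m k) := by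
    refine hg.comp_continuousOn ?_
    intro p hp
    exact ((h.hx p.1 hp.1).continuousAt.comp continuousAt_fst).continuousWithinAt
  have i1 : Integrable (fun p : Euc k × L k => g (‖c.x p.1‖ ^ 2)) V := hV.integrable h.cpt hgx
  have i2 : Integrable (fun p : Euc k × L k => c.tau p.1 p.2 * g (‖c.x p.1‖ ^ 2)) V :=
    hV.integrable h.cpt (h.ctau.mul hgx)
  unfold bb EE ee
  simp only [mul_zero, Real.exp_zero, one_mul]
  have e1 : ∫ p, g (‖c.x p.1‖ ^ 2) * (1 - c.tau p.1 p.2 / 2) ∂V =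
      ∫ p, g (‖c.x p.1‖ ^ 2) ∂V - (∫ p, c.tau p.1 p.2 * g (‖c.x p.1‖ ^ 2) ∂V) / 2 := by
    rw [← integral_div, ← integral_sub i1 (i2.div_const 2)]
    refine integral_congr_ae (Eventually.of_forall fun p => ?_)
    simp only
    ring
  have e2 : ∫ v : Euc m, c.j v * g (‖v‖ ^ 2) = ∫ v : Euc m, g (‖v‖ ^ 2) * c.j v :=
    integral_congr_ae (Eventually.of_forall fun v => mul_comm _ _)
  rw [e1, e2]
  ring

end Crest.Agent.R234.Fin_618
end
end

-- ▼ part R234/GLK10_128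
section

/-!
# Row 234 (helper128), file 10: **`Hy.kt` : helper618's `KT` for the chart `ch`**
-/

set_option autoImplicit false
set_option maxSynthPendingDepth 3

open MeasureTheory Filter Topology Set Function
open scoped ENNReal NNReal ContDiff InnerProductSpace
open Crest.GeometryTopology.Submanifold Crest.Agent.R234.Vf_884
open Crest.Agent.R234.Main_456
open Crest.Agent.R234.Gi_456 (Gr tube ch)
open Crest.Agent.R234.Tv_618 (KT)

noncomputable section

namespace Crest.Agent.R234.GLK_128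

variable {m n k : ℕ}


variable {π : Euc k →L[ℝ] Euc m} {ρ : Euc k →L[ℝ] Euc n} {x : Euc k} {r : ℝ} {w : Euc m → Euc n}
  {X0 : Euc m} {K : Set (Euc k)} {l K1 K2 K3 hb : ℝ}

theorem Cn_nonneg (m : ℕ) : 0 ≤ Cn m := by
  have := Cj_nonneg m
  unfold Cn
  positivity

/-- **`KT` for the chart of a graph** -/
theorem Hy.kt (h : Hy π ρ x r w X0 K l K1 K2 K3 hb) {s r' : ℝ} (hs : 0 < s)
    (h1 : s ≤ Real.exp l) (h2 : Real.exp l ≤ 2 * s) (hr : r' ≤ Real.exp l) (hb2 : 2 * hb ≤ 1) :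
    KT (ch π ρ x r w X0) K s r' (Cn m) (kp m n K1 K2 K3 hb l) where
  jb v hv := h.jb (hv.le.trans hr)
  lb v hv := (mul_le_mul_of_nonneg_right h1 (norm_nonneg _)).trans (h.lb (hv.le.trans hr))
  t0 p hp _ := ⟨h.tau_nonneg hp, h.tau_le hp⟩
  q1 z hz hx := h.q1 hs h2 hb2 hz (hx.le.trans hr)
  an p hp hx := h.an hs h1 hp (hx.le.trans hr)
  hT p hp hx := h.hT hs h1 hp (hx.le.trans hr)
  k3 p hp hx v := h.kk3 hs h1 hp (hx.le.trans hr) v

end Crest.Agent.R234.GLK_128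
end
end

-- ▼ part R234/Fin4_618
section

/-!
# Row 234, F3 (helper618), (FIN), part 4: the total variation measure at the scale 1
-/

set_option autoImplicit false
set_option maxSynthPendingDepth 3

open Set Filter Topology MeasureTheory Metric Function
open Crest.GeometryTopology.Submanifold
open Crest.Agent.R234.Vf_884 Crest.Agent.R234.Ar_870 Crest.Agent.R234.GL_394
open Crest.Agent.R234.Main_456 (Frame Msys)
open Crest.Agent.R234.Gi_456 (Gr tube foot ch Lo)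
open Crest.Agent.R234.GLK_128 (Hy kp Cn)
open scoped ENNReal NNReal ContDiff InnerProductSpace

noncomputable section

namespace Crest.Agent.R234.Fin_618

open Crest.Agent.R234.Tv_618 (Wr KT tv_gl measurableSet_Wr)

variable {m n k : ℕ}

/-- derivative bounds in the form of `Hy` -/
theorem d_bounds {w : Euc m → Euc n} {X0 : Euc m} {κ : ℝ}
    (hd : ∀ j, 1 ≤ j → j ≤ 3 → ∀ Y ∈ ball X0 2, ‖iteratedFDeriv ℝ j w Y‖ ≤ κ) {Y : Euc m}
    (hY : Y ∈ ball X0 2) : ‖fderiv ℝ w Y‖ ≤ κ ∧ ‖fderiv ℝ (fderiv ℝ w) Y‖ ≤ κ ∧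
      ‖fderiv ℝ (fderiv ℝ (fderiv ℝ w)) Y‖ ≤ κ := by
  refine ⟨?_, ?_, ?_⟩
  · rw [← norm_iteratedFDeriv_one]; exact hd 1 le_rfl (by norm_num) Y hY
  · rw [← norm_iteratedFDeriv_one, norm_iteratedFDeriv_fderiv]
    exact hd 2 (by norm_num) (by norm_num) Y hY
  · rw [← norm_iteratedFDeriv_one, norm_iteratedFDeriv_fderiv, norm_iteratedFDeriv_fderiv]
    exact hd 3 (by norm_num) le_rfl Y hY

/-- `Hy` at the level `log b`, `1 ≤ b < 1 + ε` -/
theorem hy_of {π : Euc k →L[ℝ] Euc m} {ρ : Euc k →L[ℝ] Euc n} {x : Euc k} {w : Euc m → Euc n}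
    {X0 : Euc m} {K : Set (Euc k)} {κ ε b : ℝ} (hf : Frame π ρ) (hw : Gr 1 w) (hκ : 0 ≤ κ)
    (hκ4 : κ ≤ 1 / 4)
    (hd : ∀ j, 1 ≤ j → j ≤ 3 → ∀ Y ∈ ball X0 2, ‖iteratedFDeriv ℝ j w Y‖ ≤ κ)
    (hb1 : 1 ≤ b) (hb : b < 1 + ε) (hε1 : ε ≤ 1)
    (hms : ∀ Y ∈ ball X0 (1 + ε), Msys w Y = 0) (hsub : K ⊆ tube π ρ x 1 w)
    (hnu : ∀ z ∈ K, ‖(ch π ρ x 1 w X0).nu z‖ ≤ 1 / 2) :
    Hy π ρ x 1 w X0 K (Real.log b) κ κ κ (1 / 2) where
  gr := hw
  fr := hf
  sub := hsub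
  k1 := fun X hX => by
    rw [Real.exp_log (by linarith)] at hX
    exact (d_bounds hd (by rw [mem_ball, dist_eq_norm]; linarith)).1
  k2 := fun X hX => by
    rw [Real.exp_log (by linarith)] at hX
    exact (d_bounds hd (by rw [mem_ball, dist_eq_norm]; linarith)).2.1
  k3 := fun X hX => by
    rw [Real.exp_log (by linarith)] at hX
    exact (d_bounds hd (by rw [mem_ball, dist_eq_norm]; linarith)).2.2
  k1le := by linarith
  k2s := by
    rw [Real.exp_log (by linarith)]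
    nlinarith
  hb0 := by norm_num
  hb1 := by norm_num
  min := fun X hX => by
    rw [Real.exp_log (by linarith)] at hX
    have : X ∈ ball X0 (1 + ε) := by rw [mem_ball, dist_eq_norm]; linarith
    filter_upwards [isOpen_ball.mem_nhds this] with Y hY
    exact hms Y hY
  nu := fun z hz _ => by
    rw [Real.exp_log (by linarith)]
    have := hnu z hz
    linarith

/-- **the total variation measure at the scale 1** -/
theorem tv1 (hm : 1 ≤ m) (n Q : ℕ) {Λ : ℝ} (hΛ : 0 ≤ Λ) :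
    ∃ κ₁ : ℝ, 0 < κ₁ ∧ κ₁ ≤ 1 / 4 ∧ ∃ Ct : ℝ, 0 ≤ Ct ∧
      ∀ {k : ℕ} {π : Euc k →L[ℝ] Euc m} {ρ : Euc k →L[ℝ] Euc n} {x : Euc k} {w : Euc m → Euc n}
        {X0 : Euc m} {κ ε : ℝ} {U K : Set (Euc k)} {Dd : VarifoldData m k},
      Frame π ρ → IsIntegralVarifoldIn U Dd → Gr 1 w → 0 ≤ κ → κ ≤ κ₁ →
      (∀ j, 1 ≤ j → j ≤ 3 → ∀ Y ∈ ball X0 2, ‖iteratedFDeriv ℝ j w Y‖ ≤ κ) →
      0 < ε → ε ≤ 1 → (∀ Y ∈ ball X0 (1 + ε), Msys w Y = 0) →
      Loc (ch π ρ x 1 w X0) U (tube π ρ x 1 w) K (VD Dd) (Real.log (1 + ε)) →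
      (∀ z ∈ K, ‖(ch π ρ x 1 w X0).nu z‖ ≤ 1 / 2) →
      (VD Dd).real ({z | z ∈ K ∧ ‖(ch π ρ x 1 w X0).x z‖ < 1 + ε} ×ˢ univ) ≤ Λ →
      |(VD Dd).real ({z | z ∈ K ∧ ‖(ch π ρ x 1 w X0).x z‖ < 1 / 4} ×ˢ univ) -
        Q * volume.real (ball (0 : Euc m) (1 / 4))| ≤
          1 / 4 * volume.real (ball (0 : Euc m) (1 / 4)) →
      ∃ e : Measure (Euc m), IsFiniteMeasure e ∧
        (∀ F : Euc m → ℝ, Measurable F → (∃ b : ℝ, ∀ v, |F v| ≤ b) →
          (∀ v, v ∉ closedBall (0 : Euc m) (1 + ε / 4) → F v = 0) →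
          |∫ p, F ((ch π ρ x 1 w X0).x p.1) * (1 - (ch π ρ x 1 w X0).tau p.1 p.2 / 2)
            ∂(VK (VD Dd) K) - Q * ∫ v, F v * (ch π ρ x 1 w X0).j v| ≤ ∫ v, |F v| ∂e) ∧
        e.real (closedBall 0 (1 + ε / 4)) ≤ Ct / ε ^ (2 * m) *
          ∫ p in {z | ‖(ch π ρ x 1 w X0).x z‖ ≤ 1 + ε / 2} ×ˢ univ,
            ((ch π ρ x 1 w X0).tau p.1 p.2 + 2 * (ch π ρ x 1 w X0).f p.1) ∂(VK (VD Dd) K) := by
  obtain ⟨κ₀, hκ₀, C1, hC1, Ct, hCt, h⟩ := tv_gl (m := m) hm Q (GLK_128.Cn_nonneg m) hΛ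
  have hct := GLK_128.Ct_pos m n
  set c12 : ℝ := 12 * GLK_128.Ct m n with hc12
  have hc120 : 0 < c12 := by positivity
  refine ⟨min (1 / 4) (min (κ₀ / c12) (1 / c12)), lt_min (by norm_num)
    (lt_min (by positivity) (by positivity)), min_le_left _ _, Ct * 2 ^ (2 * m), by positivity, ?_⟩
  intro k π ρ x w X0 κ ε U K Dd hf hD hw hκ0 hκ1 hd hε0 hε1 hms hL hnu hM1 hM2
  have hκ4 : κ ≤ 1 / 4 := hκ1.trans (min_le_left _ _)
  have hκa : c12 * κ ≤ κ₀ := by
    have h1 : κ ≤ κ₀ / c12 := hκ1.trans ((min_le_right _ _).trans (min_le_left _ _))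
    rw [le_div_iff₀ hc120] at h1
    linarith
  have hκb : c12 * κ ≤ 1 := by
    have h1 : κ ≤ 1 / c12 := hκ1.trans ((min_le_right _ _).trans (min_le_right _ _))
    rw [le_div_iff₀ hc120] at h1
    linarith
  have hsub : K ⊆ tube π ρ x 1 w := hL.sub.trans inter_subset_left
  have hy := hy_of (b := 1 + ε / 2) hf hw hκ0 hκ4 hd (by linarith) (by linarith) hε1 hms hsub hnu
  have hexp : Real.exp (Real.log (1 + ε / 2)) = 1 + ε / 2 := Real.exp_log (by linarith)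
  have hexp2 : Real.exp (2 * Real.log (1 + ε / 2)) = (1 + ε / 2) ^ 2 := by
    rw [two_mul, Real.exp_add, hexp]; ring
  have hKT := hy.kt (s := 1) (r' := (1 + ε / 2) * 1) one_pos (by rw [hexp]; linarith)
    (by rw [hexp]; linarith) (by rw [hexp]; linarith) (by norm_num)
  have hkp : kp m n κ κ κ (1 / 2) (Real.log (1 + ε / 2)) ≤ c12 * κ := by
    refine hy.kp_le.trans ?_
    rw [hexp, hexp2]
    have b1 : 1 + ε / 2 ≤ 3 / 2 := by linarith
    have b2 : (1 + ε / 2) ^ 2 ≤ 9 / 4 := by nlinarith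
    have b3 := mul_le_mul_of_nonneg_left b1 hκ0
    have b4 := mul_le_mul_of_nonneg_left b2 hκ0
    have e1 : κ * (1 + ε / 2) + κ * (1 + ε / 2) ^ 2 ≤ 4 * κ := by linarith
    calc 3 * GLK_128.Ct m n * (κ * (1 + ε / 2) + κ * (1 + ε / 2) ^ 2) ≤
          3 * GLK_128.Ct m n * (4 * κ) := by gcongr
      _ = c12 * κ := by rw [hc12]; ring
  set κ' := kp m n κ κ κ (1 / 2) (Real.log (1 + ε / 2)) with hκ'
  have hκ'0 : 0 ≤ κ' := hy.kpn
  set c := ch π ρ x 1 w X0 with hc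
  have hOk : Ok c K univ := (hw.reg hf X0).ok hL.cpt hsub
  have hOn := hL.toOn
  have htau : ∀ p ∈ K ×ˢ G m k, 0 ≤ c.tau p.1 p.2 := fun p hp => hy.tau_nonneg hp
  have hVfin : (VD Dd) ({z | z ∈ K ∧ ‖c.x z‖ < 1 + ε} ×ˢ univ) ≠ ⊤ := by
    have h1 := hOn.fin
    have h2 : (VD Dd) (K ×ˢ (univ : Set (Vf_884.L k))) < ⊤ := by
      have := measure_lt_top (VK (VD Dd) K) univ
      unfold VK at this
      rwa [Measure.restrict_apply_univ] at this
    exact ((measure_mono (prod_mono (fun z hz => hz.1) subset_rfl)).trans_lt h2).ne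
  obtain ⟨e, hTV, hmass⟩ := h (ε / 2) (by positivity) (by linarith) κ' hκ'0 (hkp.trans hκa)
    one_pos hD (hw.reg hf X0) hL (by rw [Real.exp_log (by linarith)]; linarith) (subset_univ _) hKT
    (by
      rw [one_pow, mul_one Λ]
      refine le_trans (measureReal_mono ?_ hVfin) hM1
      refine prod_mono (fun z hz => ⟨hz.1, ?_⟩) subset_rfl
      have := hz.2
      linarith)
    (by rw [mul_one]; exact hM2)
  have e4 : (1 + ε / 2 / 2) * 1 = 1 + ε / 4 := by ring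
  rw [e4] at hTV hmass
  refine ⟨e, hTV.fin, hTV.i, hmass.trans ?_⟩
  rw [mul_one]
  have e5 : Ct / (ε / 2) ^ (2 * m) = Ct * 2 ^ (2 * m) / ε ^ (2 * m) := by
    rw [div_pow]; field_simp
  rw [e5]
  refine mul_le_mul_of_nonneg_left ?_ (by positivity)
  -- compare the integrals
  have hxK := cx_on hOk
  have hWm : MeasurableSet (Wr c K (1 + ε / 2) ×ˢ (univ : Set (Vf_884.L k))) :=
    (measurableSet_Wr hL.cpt hxK _).prod MeasurableSet.univ
  have hsubW : Wr c K (1 + ε / 2) ×ˢ (univ : Set (Vf_884.L k)) ⊆ K ×ˢ univ :=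
    prod_mono (fun z hz => hz.1) subset_rfl
  have e1 : (VD Dd).restrict (Wr c K (1 + ε / 2) ×ˢ univ) =
      (VK (VD Dd) K).restrict (Wr c K (1 + ε / 2) ×ˢ univ) := by
    unfold VK
    rw [Measure.restrict_restrict hWm, inter_eq_left.2 hsubW]
  rw [e1]
  have hdf := dn_f (m := m) hOk
  have hdt := dn_tau hOk htau
  have hds : Dn K m (fun p : Euc k × Vf_884.L k => c.tau p.1 p.2 + 2 * c.f p.1) :=
    ⟨hdt.co.add hdf.co, fun p hp => add_nonneg (hdt.nn p hp) (hdf.nn p hp)⟩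
  refine le_trans (b := ∫ p in Wr c K (1 + ε / 2) ×ˢ univ, (c.tau p.1 p.2 + 2 * c.f p.1)
    ∂(VK (VD Dd) K)) ?_ ?_
  · have i1 := hdt.int hOk hOn
    have i2 := hdf.int hOk hOn
    refine integral_mono_ae ?_ (i1.add i2).integrableOn ?_
    · exact (i1.add ((i2.div_const (1 ^ 2)).const_mul κ')).integrableOn
    · filter_upwards [ae_restrict_of_ae (hdf.ae hOn)] with p hp
      have : κ' * (2 * c.f p.1 / 1 ^ 2) ≤ 2 * c.f p.1 := by
        rw [one_pow, div_one]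
        exact mul_le_of_le_one_left hp (hkp.trans hκb)
      linarith
  · refine hds.mono hOk hOn (Eventually.of_forall fun p hp => ⟨?_, trivial⟩)
    exact hp.1.2.le

end Crest.Agent.R234.Fin_618
end
end

-- ▼ part R234/Fin3_471
section

/-!
# Row 234, F3 / FIN (helper471): heights and energy at the scale 1

From the literal hypotheses of `F37_433.F3Q1` / `F36_354.F3P1` (minimality of the reference only over
the open ball of radius `1 + ε`, no condition on `U` besides `Loc`): the sup bound of `|nu|² = 2 f` and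
the energy bound `∫ tau` over `{|c.x| ≤ 1 + 3 ε / 4}`.
-/

set_option autoImplicit false
set_option maxSynthPendingDepth 3

open MeasureTheory Filter Topology Set Metric
open scoped ENNReal NNReal ContDiff InnerProductSpace
open Crest.GeometryTopology.Submanifold Crest.Agent.R234.Vf_884
open Crest.Agent.R234.Main_456 Crest.Agent.R234.Gi_456
open Crest.Agent.R234.GL_394

noncomputable section

namespace Crest.Agent.R234.Fin3_471

variable {m n k : ℕ} {U K : Set (Euc k)} {V : Measure (Euc k × L k)}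
  {π : Euc k →L[ℝ] Euc m} {ρ : Euc k →L[ℝ] Euc n} {x : Euc k} {w : Euc m → Euc n}
  {X0 : Euc m} {ε H : ℝ}

local notation "adj" => ContinuousLinearMap.adjoint

theorem two_f (z : Euc k) : 2 * (ch π ρ x 1 w X0).f z = ‖(ch π ρ x 1 w X0).nu z‖ ^ 2 := by
  change 2 * (‖Bt π ρ w (foot π ρ x 1 w z) (yy π ρ x 1 w z)‖ ^ 2 / 2) =
    ‖Bt π ρ w (foot π ρ x 1 w z) (yy π ρ x 1 w z)‖ ^ 2
  ring

theorem f_nn (z : Euc k) : 0 ≤ 2 * (ch π ρ x 1 w X0).f z := by
  rw [two_f]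
  positivity

/-- densities are monotone in the local masses -/
theorem Th_mono {V V' : Measure (Euc k × L k)} {z : Euc k}
    (h : ∀ᶠ t in 𝓝[>] (0:ℝ), V (ball z t ×ˢ univ) ≤ V' (ball z t ×ˢ univ)) :
    Th m V z ≤ Th m V' z := by
  refine liminf_le_liminf ?_
  filter_upwards [h] with t ht
  unfold rat
  rw [mass_apply _ measurableSet_ball, mass_apply _ measurableSet_ball, ← prod_univ_eq]
  gcongr

/-- the hypotheses -/
structure Hs (U K : Set (Euc k)) (V : Measure (Euc k × L k)) (π : Euc k →L[ℝ] Euc m)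
    (ρ : Euc k →L[ℝ] Euc n) (x : Euc k) (w : Euc m → Euc n) (X0 : Euc m) (ε H : ℝ) : Prop where
  hm : 1 ≤ m
  fr : Frame π ρ
  gr : Gr 1 w
  e0 : 0 < ε
  e1 : ε ≤ 1
  loc : Loc (ch π ρ x 1 w X0) U (tube π ρ x 1 w) K V (Real.log (1 + ε))
  ms : ∀ Y ∈ ball X0 (1 + ε), Msys w Y = 0
  nu : ∀ z ∈ K, ‖(ch π ρ x 1 w X0).nu z‖ ≤ 1 / 2
  th : ∀ᵐ p ∂V, p.1 ∈ U → 1 ≤ Th m V p.1
  hH : ∫ p in {z | ‖(ch π ρ x 1 w X0).x z‖ < 1 + ε} ×ˢ univ,
    2 * (ch π ρ x 1 w X0).f p.1 ∂(VK V K) ≤ H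

/-- the open region -/
def Or (π : Euc k →L[ℝ] Euc m) (ρ : Euc k →L[ℝ] Euc n) (x : Euc k) (w : Euc m → Euc n)
    (X0 : Euc m) (ε : ℝ) : Set (Euc k) := {z | z ∈ tube π ρ x 1 w ∧ ‖(ch π ρ x 1 w X0).x z‖ < 1 + ε}

/-- the smaller compact part -/
def Ks (K : Set (Euc k)) (π : Euc k →L[ℝ] Euc m) (ρ : Euc k →L[ℝ] Euc n) (x : Euc k)
    (w : Euc m → Euc n) (X0 : Euc m) (ε : ℝ) : Set (Euc k) :=
  {z | z ∈ K ∧ ‖(ch π ρ x 1 w X0).x z‖ ≤ 1 + 15 / 16 * ε}

namespace Hs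

variable (h : Hs U K V π ρ x w X0 ε H)

include h

theorem sub : K ⊆ tube π ρ x 1 w := h.loc.sub.trans inter_subset_left

theorem reg : Reg (ch π ρ x 1 w X0) (tube π ρ x 1 w) univ := h.gr.reg h.fr X0

theorem ok : Ok (ch π ρ x 1 w X0) K univ := h.gr.ok h.fr X0 h.loc.cpt h.sub

theorem eL : Real.exp (Real.log (1 + ε)) = 1 + ε := Real.exp_log (by have := h.e0; linarith)

theorem cx : ContinuousOn (ch π ρ x 1 w X0).x (tube π ρ x 1 w) := fun z hz =>
  (h.reg.hx z hz).continuousAt.continuousWithinAt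

theorem isOpen_Or : IsOpen (Or π ρ x w X0 ε) := by
  have h1 := h.cx.norm.isOpen_inter_preimage h.gr.isOpen_tube (isOpen_Iio (a := 1 + ε))
  exact h1

theorem isCompact_Ks : IsCompact (Ks K π ρ x w X0 ε) := by
  have h1 := (h.cx.mono h.sub).norm.preimage_isClosed_of_isClosed h.loc.cpt.isClosed
    (isClosed_Iic (a := 1 + 15 / 16 * ε))
  exact h.loc.cpt.of_isClosed_subset h1 inter_subset_left

/-- **the part of `V` over `K` is stationary in the open region of the tube** -/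
theorem stat : Stat m k (Or π ρ x w X0 ε) (VK V K) where
  conc := ae_restrict_of_ae h.loc.st.conc
  fin := fun C _ _ => (measure_mono (subset_univ _)).trans_lt h.loc.toOn.fin.1
  stat := fun X hX _ hs => by
    refine FV_eq_zero h.loc.st h.loc.opU h.gr.isOpen_tube h.loc.cpt h.loc.sub hX.contDiffOn ?_
    filter_upwards [h.loc.gap] with p hp hpW hpK
    have h1 : p.1 ∉ tsupport X := by
      intro h2
      refine hpK (hp hpW ?_)
      rw [h.eL]
      exact (hs h2).2.le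
    exact ⟨image_eq_zero_of_notMem_tsupport h1, by
      by_contra hne
      exact h1 (support_fderiv_subset ℝ hne)⟩

theorem th_VK {z : Euc k} (hz : z ∈ K) (hx : ‖(ch π ρ x 1 w X0).x z‖ < 1 + ε)
    (hT : 1 ≤ Th m V z) : 1 ≤ Th m (VK V K) z := by
  refine hT.trans (Th_mono ?_)
  have hzU := (h.loc.sub hz).2
  obtain ⟨a, ha, hab⟩ := Metric.isOpen_iff.1 (h.isOpen_Or.inter h.loc.opU) z
    ⟨⟨h.sub hz, hx⟩, hzU⟩
  filter_upwards [Ioo_mem_nhdsGT ha] with t ht
  have hm : MeasurableSet (ball z t ×ˢ univ : Set (Euc k × L k)) :=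
    measurableSet_ball.prod MeasurableSet.univ
  rw [VK, Measure.restrict_apply hm]
  refine measure_mono_ae ?_
  filter_upwards [h.loc.gap] with p hp hpb
  have h1 := hab (ball_subset_ball ht.2.le hpb.1)
  exact ⟨hpb, hp ⟨h1.1.1, h1.2⟩ (by rw [h.eL]; exact h1.1.2.le), mem_univ _⟩

/-- the localized data -/
theorem loc' : Loc (ch π ρ x 1 w X0) (Or π ρ x w X0 ε) (tube π ρ x 1 w) (Ks K π ρ x w X0 ε) (VK V K)
    (Real.log (1 + 15 / 16 * ε)) where
  st := h.stat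
  opU := h.isOpen_Or
  cpt := h.isCompact_Ks
  sub := fun z hz => ⟨h.sub hz.1, h.sub hz.1, by
    have := h.e0
    have h2 := hz.2
    linarith⟩
  gap := by
    filter_upwards [h.loc.toOn.mem] with p hp _ hpx
    refine ⟨hp.1, ?_⟩
    rwa [Real.exp_log (by have := h.e0; linarith)] at hpx

theorem int_f : Integrable (fun p : Euc k × L k => 2 * (ch π ρ x 1 w X0).f p.1) (VK V K) :=
  h.loc.toOn.integrable h.loc.cpt (continuousOn_const.mul (lift h.ok.cf))

theorem J_le {t : ℝ} (ht : t < 1 + ε) :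
    ∫ p in {p : Euc k × L k | ‖(ch π ρ x 1 w X0).x p.1‖ ≤ t}, 2 * (ch π ρ x 1 w X0).f p.1
      ∂(VK V K) ≤ H := by
  refine le_trans ?_ h.hH
  exact setIntegral_mono_set h.int_f.integrableOn (Eventually.of_forall fun p => f_nn p.1)
    (LE.le.eventuallyLE fun p (hp : ‖(ch π ρ x 1 w X0).x p.1‖ ≤ t) => ⟨hp.trans_lt ht, mem_univ _⟩)

theorem J_le' {t : ℝ} (ht : t < 1 + ε) :
    ∫ p in {p : Euc k × L k | ‖(ch π ρ x 1 w X0).x p.1‖ ≤ t}, 2 * (ch π ρ x 1 w X0).f p.1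
      ∂(VK (VK V K) (Ks K π ρ x w X0 ε)) ≤ H := by
  refine le_trans ?_ (h.J_le ht)
  refine integral_mono_measure (Measure.restrict_mono_measure Measure.restrict_le_self _)
    (Eventually.of_forall fun p => f_nn p.1) h.int_f.integrableOn

theorem yy_le (z : Euc k) : ‖yy π ρ x 1 w z‖ ≤ ‖(ch π ρ x 1 w X0).nu z‖ := by
  refine abs_le_of_sq_le_sq' ?_ (norm_nonneg _) |>.2
  rw [← two_f, Gv_685.two_f h.fr, Gu_685.dsq_eq]
  exact Gs_685.sq_le_nsq _ _

theorem hgt_le {z : Euc k} (hz : z ∈ K) : ‖ρ (z - x) - w (π (z - x))‖ ≤ 9 / 16 := by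
  have h1 := h.gr.le_norm_yy (h.sub hz)
  have h2 := h.yy_le z
  have h3 := h.nu z hz
  linarith

/-- points near the points of `K` -/
theorem near {z0 : Euc k} (hz0 : z0 ∈ K) (hx : ‖(ch π ρ x 1 w X0).x z0‖ ≤ 1 + 7 / 8 * ε) {z : Euc k}
    (hz : ‖z - z0‖ ≤ ε / 64) : z ∈ Or π ρ x w X0 ε ∧
      ‖ρ (z0 - x) - w (π (z0 - x))‖ - ε / 32 ≤ ‖ρ (z - x) - w (π (z - x))‖ := by
  have he := h.e0
  have he1 := h.e1
  have hh := h.hgt_le hz0
  have h1 := Gv_685.hgt_sub_le (x := x) h.fr h.gr z z0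
  have h2 := Gv_685.hgt_sub_le (x := x) h.fr h.gr z0 z
  rw [norm_sub_rev z0 z] at h2
  have h3 : z ∈ tube π ρ x 1 w := by
    change ‖ρ (z - x) - w (π (z - x))‖ < 1
    linarith
  refine ⟨⟨h3, ?_⟩, by linarith⟩
  have h4 := Gv_685.norm_chx_sub (X0 := X0) h.fr h.gr h3 (h.sub hz0)
  have h5 : (ch π ρ x 1 w X0).x z = (ch π ρ x 1 w X0).x z0 +
    ((ch π ρ x 1 w X0).x z - (ch π ρ x 1 w X0).x z0) := by abel
  rw [h5]
  refine (norm_add_le _ _).trans_lt ?_
  linarith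

theorem ball_Or {z0 : Euc k} (hz0 : z0 ∈ K) (hx : ‖(ch π ρ x 1 w X0).x z0‖ ≤ 1 + 7 / 8 * ε) :
    closedBall z0 (ε / 64) ⊆ Or π ρ x w X0 ε := fun z hz =>
  (h.near hz0 hx (by rwa [mem_closedBall, dist_eq_norm] at hz)).1

/-- crude height: small at the points over `|c.x| ≤ 1 + 7/8 ε` -/
theorem crude (hs : H < ome m / (2048 * 64 ^ m) * ε ^ (m + 2)) {z0 : Euc k} (hz0 : z0 ∈ K)
    (hT : 1 ≤ Th m V z0) (hx : ‖(ch π ρ x 1 w X0).x z0‖ ≤ 1 + 7 / 8 * ε) :
    ‖ρ (z0 - x) - w (π (z0 - x))‖ ≤ ε / 16 := by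
  by_contra hc
  rw [not_le] at hc
  have he := h.e0
  have he1 := h.e1
  set d : ℝ := ε / 64 with hd
  have hd0 : 0 < d := by positivity
  have hUb := h.ball_Or hz0 hx
  have hT' := h.th_VK hz0 (by linarith) hT
  have hmass := LowF13_471.mass_ge (Q := 1) h.stat h.hm hUb (by simpa using hT') hd0 le_rfl
  rw [Nat.cast_one, one_mul] at hmass
  have hmB : MeasurableSet (ball z0 d ×ˢ univ : Set (Euc k × L k)) :=
    measurableSet_ball.prod MeasurableSet.univ
  have hfinB : (VK V K) (ball z0 d ×ˢ univ) < ⊤ := LowF13_471.fin_ball h.stat hUb le_rfl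
  -- lower bound of the integral
  have e2 : ε ^ 2 / 2048 * (ome m * d ^ m) ≤ ∫ p in ball z0 d ×ˢ univ,
      2 * (ch π ρ x 1 w X0).f p.1 ∂(VK V K) := by
    have a1 : ∫ p in ball z0 d ×ˢ univ, ε ^ 2 / 2048 ∂(VK V K) ≤ ∫ p in ball z0 d ×ˢ univ,
        2 * (ch π ρ x 1 w X0).f p.1 ∂(VK V K) := by
      refine setIntegral_mono_on (integrableOn_const hfinB.ne (by simp)) h.int_f.integrableOn hmB
        fun p hp => ?_
      have b0 : ‖p.1 - z0‖ ≤ ε / 64 := by
        have := hp.1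
        rw [mem_ball, dist_eq_norm] at this
        exact this.le
      obtain ⟨b1, b3⟩ := h.near hz0 hx b0
      have b4 := Sp_685.hgt_sq_le (X0 := X0) h.fr h.gr b1.1
      have b5 : (ε / 32) ^ 2 ≤ ‖ρ (p.1 - x) - w (π (p.1 - x))‖ ^ 2 :=
        pow_le_pow_left₀ (by positivity) (by linarith) 2
      have b6 : (ε / 32) ^ 2 = 2 * (ε ^ 2 / 2048) := by ring
      linarith
    refine le_trans ?_ a1
    rw [setIntegral_const, smul_eq_mul, mul_comm]
    gcongr
  have e3 : ∫ p in ball z0 d ×ˢ univ, 2 * (ch π ρ x 1 w X0).f p.1 ∂(VK V K) ≤ H := by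
    refine le_trans ?_ h.hH
    exact setIntegral_mono_set h.int_f.integrableOn (Eventually.of_forall fun p => f_nn p.1)
      (LE.le.eventuallyLE fun p hp => ⟨(hUb (ball_subset_closedBall hp.1)).2, mem_univ _⟩)
  have e4 : ε ^ 2 / 2048 * (ome m * d ^ m) = ome m / (2048 * 64 ^ m) * ε ^ (m + 2) := by
    rw [hd, div_pow, pow_add]
    field_simp
  rw [e4] at e2
  linarith

/-- **(H1)** at a point -/
theorem sup_at (hs : H < ome m / (2048 * 64 ^ m) * ε ^ (m + 2)) {z0 : Euc k} (hz0 : z0 ∈ K)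
    (hT : 1 ≤ Th m V z0) (hx : ‖(ch π ρ x 1 w X0).x z0‖ ≤ 1 + 3 / 4 * ε) :
    2 * (ch π ρ x 1 w X0).f z0 ≤ 2 * (64 * m) ^ m / ome m * ((ε ^ m)⁻¹ * H) := by
  have he := h.e0
  have he1 := h.e1
  have hm0 : (1:ℝ) ≤ m := by exact_mod_cast h.hm
  have ho := ome_pos m
  have hc := h.crude hs hz0 hT (by linarith)
  set d : ℝ := ε / (64 * m) with hd
  have hd0 : 0 < d := by positivity
  have hmd : m * d = ε / 64 := by rw [hd]; field_simp
  have hd64 : d ≤ ε / 64 := by nlinarith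
  have hT' := h.th_VK hz0 (by linarith) hT
  have h1 := Sp_685.sup_pt2 (A := 1) h.fr h.gr h.loc' h.hm (t := 1 + 7 / 8 * ε) (d := d)
    (by linarith) (by rw [Real.exp_log (by linarith)]; linarith) hd0 (by linarith)
    ⟨hz0, by linarith⟩ (by linarith)
    ((closedBall_subset_closedBall hd64).trans (h.ball_Or hz0 (by linarith)))
    (fun X hX => h.ms X (by
      rw [mem_ball, dist_eq_norm]
      have a1 := h.gr.norm_foot_sub (h.sub hz0)
      have a2 := Gv_685.norm_foot_le_chx (π := π) (ρ := ρ) (x := x) (r := 1) (w := w) (X0 := X0) z0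
      have a3 : X - X0 = (X - π (z0 - x)) + (π (z0 - x) - foot π ρ x 1 w z0) +
        (foot π ρ x 1 w z0 - X0) := by abel
      have a4 := norm_add_le ((X - π (z0 - x)) + (π (z0 - x) - foot π ρ x 1 w z0))
        (foot π ρ x 1 w z0 - X0)
      have a5 := norm_add_le (X - π (z0 - x)) (π (z0 - x) - foot π ρ x 1 w z0)
      rw [norm_sub_rev (π (z0 - x))] at a5
      rw [a3]
      linarith)) zero_le_one (by rw [ENNReal.ofReal_one]; exact hT')
  rw [one_mul] at h1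
  have h2 := h.J_le' (t := 1 + 7 / 8 * ε) (by linarith)
  have h3 : ome m * (2 * (ch π ρ x 1 w X0).f z0) ≤ 2 * ((d ^ m)⁻¹ * H) := by
    refine h1.trans ?_
    gcongr
  have h4 : (d ^ m)⁻¹ = (64 * m) ^ m * (ε ^ m)⁻¹ := by
    rw [hd, div_pow, inv_div, div_eq_mul_inv]
  rw [h4] at h3
  rw [← mul_le_mul_iff_right₀ ho]
  refine h3.trans (le_of_eq ?_)
  field_simp

/-- **(H1)**: the sup bound of the heights -/
theorem sup (hs : H < ome m / (2048 * 64 ^ m) * ε ^ (m + 2)) :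
    ∀ᵐ p ∂(VK V K), ‖(ch π ρ x 1 w X0).x p.1‖ ≤ 1 + 3 / 4 * ε →
      2 * (ch π ρ x 1 w X0).f p.1 ≤ 2 * (64 * m) ^ m / ome m * ((ε ^ m)⁻¹ * H) := by
  filter_upwards [h.loc.toOn.mem, ae_restrict_of_ae h.th] with p hp hT hx
  exact h.sup_at hs hp.1 (hT (h.loc.sub hp.1).2) hx

/-- **(H2)**: the energy bound -/
theorem energy {κ : ℝ} (hk : 0 ≤ κ) (hκ : 6 * m * κ ≤ 1)
    (hd2 : ∀ Y ∈ ball X0 2, ‖iteratedFDeriv ℝ 2 w Y‖ ≤ κ) :
    ∫ p in {p : Euc k × L k | ‖(ch π ρ x 1 w X0).x p.1‖ ≤ 1 + 3 / 4 * ε},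
        (ch π ρ x 1 w X0).tau p.1 p.2 ∂(VK V K) ≤
      (8192 * Gs_685.Kst ^ 2 + 4 * m) * ((ε ^ 2)⁻¹ * H) := by
  have he := h.e0
  have he1 := h.e1
  have hm0 : (1:ℝ) ≤ m := by exact_mod_cast h.hm
  have h1 := Gv_685.energy h.fr h.gr h.loc (s := 1 + 3 / 4 * ε) (t := 1 + 7 / 8 * ε) (κ := κ)
    (by rw [h.eL]; linarith) (by linarith) (by linarith)
    (fun X hX => h.ms X (by rw [mem_ball, dist_eq_norm]; linarith))
    (fun X hX => by
      have h1 := hd2 X (by rw [mem_ball, dist_eq_norm]; linarith)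
      rwa [← norm_iteratedFDeriv_fderiv, norm_iteratedFDeriv_one] at h1)
    (fun z hz _ => by
      have a1 := h.yy_le z
      have a2 := h.nu z hz
      calc 12 * m * κ * ‖yy π ρ x 1 w z‖ ≤ 12 * m * κ * (1 / 2) := by
            gcongr
            linarith
        _ = 6 * m * κ := by ring
        _ ≤ 1 := hκ)
  have h2 := h.J_le (t := 1 + 7 / 8 * ε) (by linarith)
  have hJ0 : 0 ≤ ∫ p in {p : Euc k × L k | ‖(ch π ρ x 1 w X0).x p.1‖ ≤ 1 + 7 / 8 * ε},
      2 * (ch π ρ x 1 w X0).f p.1 ∂(VK V K) := integral_nonneg fun p => f_nn p.1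
  have hH0 : 0 ≤ H := hJ0.trans h2
  have e1 : (1 + 7 / 8 * ε - (1 + 3 / 4 * ε)) ^ 2 = ε ^ 2 / 64 := by ring
  rw [e1] at h1
  have e2 : κ ^ 2 ≤ (ε ^ 2)⁻¹ := by
    have a1 : κ ≤ 1 := by nlinarith
    have a2 : κ ^ 2 ≤ 1 := by nlinarith
    have a3 : 1 ≤ (ε ^ 2)⁻¹ := by
      rw [one_le_inv₀ (by positivity)]
      nlinarith
    exact a2.trans a3
  calc _ ≤ (128 * Gs_685.Kst ^ 2 * (ε ^ 2 / 64)⁻¹ + 4 * m * κ ^ 2) *
        ∫ p in {p : Euc k × L k | ‖(ch π ρ x 1 w X0).x p.1‖ ≤ 1 + 7 / 8 * ε},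
          2 * (ch π ρ x 1 w X0).f p.1 ∂(VK V K) := h1
    _ ≤ (128 * Gs_685.Kst ^ 2 * (ε ^ 2 / 64)⁻¹ + 4 * m * (ε ^ 2)⁻¹) * H := by gcongr
    _ = _ := by rw [inv_div]; field_simp; ring

end Hs

end Crest.Agent.R234.Fin3_471
end
end

-- ▼ part R234/Fin5_618
section

/-!
# Row 234, F3 (helper618), (FIN), part 5: the local estimates at all base points of the ball
-/

set_option autoImplicit false
set_option maxSynthPendingDepth 3

open Set Filter Topology MeasureTheory Metric Function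
open Crest.GeometryTopology.Submanifold
open Crest.Agent.R234.Vf_884 Crest.Agent.R234.Ar_870 Crest.Agent.R234.GL_394
open Crest.Agent.R234.Main_456 (Frame Msys)
open Crest.Agent.R234.Gi_456 (Gr tube foot ch Lo Loi Lo_Loi Loi_spec norm_Lo_le pt jB_pos)
open Crest.Agent.R234.F35k_433 (bv kern_ch)
open Crest.Agent.R234.F36_354 (LEP F3P1)
open scoped ENNReal NNReal ContDiff InnerProductSpace

noncomputable section

namespace Crest.Agent.R234.Fin_618

open Crest.Agent.R234.F31_354 (Kern)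
open Crest.Agent.R234.Th_164 (om om_pos)

variable {m n k : ℕ}

/-- constant of the heights and of the energy -/
def CE (m : ℕ) : ℝ :=
  2 * (64 * m) ^ m / ome m + (8192 * Gs_685.Kst ^ 2 + 4 * m) + (m + 2)

theorem CE_ge (m : ℕ) : (m : ℝ) + 2 ≤ CE m ∧ 2 * (64 * (m : ℝ)) ^ m / ome m ≤ CE m ∧
    8192 * Gs_685.Kst ^ 2 + 4 * m ≤ CE m ∧ 1 ≤ CE m := by
  have h1 := ome_pos m
  have h2 : (0 : ℝ) ≤ m := Nat.cast_nonneg m
  have h3 : 0 ≤ 2 * (64 * (m : ℝ)) ^ m / ome m := by positivity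
  have h4 : 0 ≤ 8192 * Gs_685.Kst ^ 2 + 4 * (m : ℝ) := by positivity
  unfold CE
  refine ⟨by linarith, by linarith, by linarith, by linarith⟩

/-- heights and energy at the scale 1 (from helper471) -/
theorem h12 {U K : Set (Euc k)} {V : Measure (Euc k × L k)}
    {π : Euc k →L[ℝ] Euc m} {ρ : Euc k →L[ℝ] Euc n} {x : Euc k} {w : Euc m → Euc n}
    {X0 : Euc m} {ε H : ℝ} (h : Fin3_471.Hs U K V π ρ x w X0 ε H) (hH : 0 < H)
    (hs : H < ome m / (2048 * 64 ^ m) * ε ^ (m + 2)) {κ : ℝ} (hk : 0 ≤ κ) (hκ : 6 * m * κ ≤ 1)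
    (hd2 : ∀ Y ∈ ball X0 2, ‖iteratedFDeriv ℝ 2 w Y‖ ≤ κ)
    (htau : ∀ p ∈ K ×ˢ G m k, 0 ≤ (ch π ρ x 1 w X0).tau p.1 p.2) :
    (∀ᵐ p ∂(VK V K), ‖(ch π ρ x 1 w X0).x p.1‖ ≤ 1 + ε / 2 →
      2 * (ch π ρ x 1 w X0).f p.1 ≤ CE m * ε ^ (-CE m) * H) ∧
    ∫ p in {z | ‖(ch π ρ x 1 w X0).x z‖ ≤ 1 + ε / 2} ×ˢ univ, (ch π ρ x 1 w X0).tau p.1 p.2
      ∂(VK V K) ≤ CE m * ε ^ (-CE m) * H := by
  obtain ⟨c1, c2, c3, c4⟩ := CE_ge m
  have he := h.e0
  have he1 := h.e1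
  have hm0 : (0 : ℝ) ≤ m := Nat.cast_nonneg m
  have hp : ∀ a : ℕ, (a : ℝ) ≤ m + 2 → (ε ^ a)⁻¹ ≤ ε ^ (-CE m) := by
    intro a ha
    rw [← Real.rpow_natCast, ← Real.rpow_neg he.le]
    exact Real.rpow_le_rpow_of_exponent_ge he he1 (by linarith)
  have hpos : 0 < ε ^ (-CE m) := Real.rpow_pos_of_pos he _
  constructor
  · filter_upwards [h.sup hs] with p hp1 hx
    refine (hp1 (by linarith)).trans ?_
    have h1 := hp m (by linarith)
    calc 2 * (64 * (m : ℝ)) ^ m / ome m * ((ε ^ m)⁻¹ * H) ≤ CE m * (ε ^ (-CE m) * H) := by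
          gcongr
      _ = _ := by ring
  · have h1 := h.energy hk hκ hd2
    have hK : K ⊆ tube π ρ x 1 w := h.loc.sub.trans inter_subset_left
    have hOk : Ok (ch π ρ x 1 w X0) K univ := (h.gr.reg h.fr X0).ok h.loc.cpt hK
    have h2 := (dn_tau hOk htau).mono hOk h.loc.toOn
      (S := {z | ‖(ch π ρ x 1 w X0).x z‖ ≤ 1 + ε / 2} ×ˢ univ)
      (T := {p : Euc k × Vf_884.L k | ‖(ch π ρ x 1 w X0).x p.1‖ ≤ 1 + 3 / 4 * ε})
      (Eventually.of_forall fun p hp => by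
        have h3 : ‖(ch π ρ x 1 w X0).x p.1‖ ≤ 1 + ε / 2 := hp.1
        show ‖(ch π ρ x 1 w X0).x p.1‖ ≤ 1 + 3 / 4 * ε
        linarith)
    refine (h2.trans h1).trans ?_
    have h3 := hp 2 (by push_cast; linarith)
    have h4 : 0 ≤ 8192 * Gs_685.Kst ^ 2 + 4 * (m : ℝ) := by positivity
    calc (8192 * Gs_685.Kst ^ 2 + 4 * (m : ℝ)) * ((ε ^ 2)⁻¹ * H) ≤ CE m * (ε ^ (-CE m) * H) := by
          gcongr
      _ = _ := by ring

/-- the weight of the kernel -/
def CW (m : ℕ) : ℝ := Kern_567.CK m * (4 / 3) * 2 ^ m / om m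

theorem CW_pos (m : ℕ) : 0 < CW m := by
  have := om_pos m
  have := Kern_567.CK_pos m
  unfold CW; positivity

theorem weight_le {t : ℝ} (ht : 0 < t) :
    0 ≤ Kern_567.CK m / Loc1_290.mass (volume : Measure (Euc m)) t ∧
      Kern_567.CK m / Loc1_290.mass (volume : Measure (Euc m)) t ≤ CW m / t ^ m := by
  have hom := om_pos m
  have hCK := Kern_567.CK_pos m
  have h1 := Loc1_290.mass_pos (volume : Measure (Euc m)) ht
  have h2 := Loc1_290.mass_ge (volume : Measure (Euc m)) ht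
  rw [vol_cball _ (by positivity)] at h2
  refine ⟨by positivity, ?_⟩
  have h3 : 0 < 3 / 4 * (om m * (t / 2) ^ m) := by positivity
  calc Kern_567.CK m / Loc1_290.mass (volume : Measure (Euc m)) t ≤
        Kern_567.CK m / (3 / 4 * (om m * (t / 2) ^ m)) := by gcongr
    _ = CW m / t ^ m := by
        unfold CW
        rw [div_pow]
        field_simp

section pts

variable {π : Euc k →L[ℝ] Euc m} {ρ : Euc k →L[ℝ] Euc n} {x : Euc k} {w : Euc m → Euc n}
  {X0 : Euc m}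

/-- base point -/
theorem norm_pt_sub (w : Euc m → Euc n) (X0 v : Euc m) : ‖pt w X0 v - X0‖ ≤ ‖v‖ := by
  unfold Gi_456.pt
  rw [add_sub_cancel_left]
  exact (ContinuousLinearMap.le_opNorm _ _).trans
    (mul_le_of_le_one_left (norm_nonneg _) (Loi_spec _).2.2)

theorem Lo_pt (w : Euc m → Euc n) (X0 v : Euc m) :
    Lo (fderiv ℝ w X0) (pt w X0 v - X0) = v := by
  unfold Gi_456.pt
  rw [add_sub_cancel_left, Lo_Loi]

theorem chx_sub (hw : Gr 1 w) (z : Euc k) (v : Euc m) :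
    ‖(ch π ρ x 1 w X0).x z - v‖ ≤ 65 / 64 * ‖foot π ρ x 1 w z - pt w X0 v‖ := by
  have e : (ch π ρ x 1 w X0).x z - v =
      Lo (fderiv ℝ w X0) (foot π ρ x 1 w z - pt w X0 v) := by
    show Lo (fderiv ℝ w X0) (foot π ρ x 1 w z - X0) - v = _
    conv_lhs => rw [← Lo_pt w X0 v]
    rw [← map_sub]
    congr 1
    abel
  rw [e]
  exact norm_Lo_le (hw.d1 X0) _

theorem norm_Pt_sub (hf : Frame π ρ) (hw : Gr 1 w) (X X' : Euc m) :
    ‖Foot_842.pt π ρ x w X - Foot_842.pt π ρ x w X'‖ ≤ 9 / 8 * ‖X - X'‖ := by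
  have e : Foot_842.pt π ρ x w X - Foot_842.pt π ρ x w X' =
      ContinuousLinearMap.adjoint π (X - X') + ContinuousLinearMap.adjoint ρ (w X - w X') := by
    unfold Foot_842.pt
    rw [map_sub, map_sub]; abel
  rw [e]
  refine (norm_add_le _ _).trans ?_
  have h1 : ‖ContinuousLinearMap.adjoint π (X - X')‖ ≤ ‖X - X'‖ := by
    refine (ContinuousLinearMap.le_opNorm _ _).trans (mul_le_of_le_one_left (norm_nonneg _) ?_)
    rw [LinearIsometryEquiv.norm_map]
    exact ContinuousLinearMap.opNorm_le_bound _ zero_le_one fun v => by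
      rw [one_mul]; exact Gi_456.norm_pi_le' hf v
  have h2 : ‖ContinuousLinearMap.adjoint ρ (w X - w X')‖ ≤ ‖w X - w X'‖ := by
    refine (ContinuousLinearMap.le_opNorm _ _).trans (mul_le_of_le_one_left (norm_nonneg _) ?_)
    rw [LinearIsometryEquiv.norm_map]
    exact ContinuousLinearMap.opNorm_le_bound _ zero_le_one fun v => by
      rw [one_mul]; exact Gi_456.norm_rho_le' hf v
  have h3 := hw.lip X X'
  linarith

end pts

end Crest.Agent.R234.Fin_618
end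
end

-- ▼ part R234/Fin6_618
section

/-!
# Row 234, F3 (helper618), (FIN), part 6: the local estimate at a base point of the ball
-/

set_option autoImplicit false
set_option maxSynthPendingDepth 3

open Set Filter Topology MeasureTheory Metric Function
open Crest.GeometryTopology.Submanifold
open Crest.Agent.R234.Vf_884 Crest.Agent.R234.Ar_870 Crest.Agent.R234.GL_394
open Crest.Agent.R234.Main_456 (Frame Msys)
open Crest.Agent.R234.Gi_456 (Gr tube foot ch Lo Loi Lo_Loi Loi_spec norm_Lo_le pt jB_pos)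
open Crest.Agent.R234.F35k_433 (bv kern_ch)
open Crest.Agent.R234.F36_354 (LEP F3P1)
open scoped ENNReal NNReal ContDiff InnerProductSpace

noncomputable section

namespace Crest.Agent.R234.Fin_618

open Crest.Agent.R234.F31_354 (Kern)
open Crest.Agent.R234.Th_164 (om om_pos)

variable {m n k : ℕ}

/-- the inner statement of `LEP` -/
def LEPat (m n k Q : ℕ) (c₀ C C₁ Cs D₀ : ℝ) : Prop :=
  ∀ (π : Euc k →L[ℝ] Euc m) (ρ : Euc k →L[ℝ] Euc n) (x : Euc k) (w : Euc m → Euc n)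
    (Xc X : Euc m) (κ t D : ℝ) (U K : Set (Euc k)) (Dd : VarifoldData m k) (e : Measure (Euc m)),
  Frame π ρ → IsOpen U → IsIntegralVarifoldIn U Dd → IsStationaryIn U Dd →
  Gr 1 w → ContDiff ℝ ∞ w → 0 ≤ κ → κ ≤ c₀ →
  (∀ j, 1 ≤ j → j ≤ 3 → ∀ Y ∈ ball X 1, ‖iteratedFDeriv ℝ j w Y‖ ≤ κ) →
  0 < t → t ≤ c₀ → (∀ Y ∈ ball X (8 * t), Msys w Y = 0) →
  closedBall (Foot_842.pt π ρ x w X) (16 * t) ⊆ U →
  IsCompact K → K ⊆ tube π ρ x 1 w → K ⊆ U →
  (∀ᵐ p ∂(VD Dd), p.1 ∈ U → p.1 ∈ tube π ρ x 1 w → ‖foot π ρ x 1 w p.1 - X‖ ≤ 14 * t →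
    p.1 ∈ K) →
  (∀ᵐ p ∂(VD Dd), p.1 ∈ K → ‖foot π ρ x 1 w p.1 - X‖ ≤ 14 * t →
    2 * (ch π ρ x 1 w Xc).f p.1 ≤ t ^ 2) →
  0 < D → D ≤ D₀ → t ≤ (Real.log (1 / D)) ^ (-C₁) →
  ∫ p in {z | z ∈ K ∧ ‖foot π ρ x 1 w z - X‖ ≤ 14 * t} ×ˢ univ,
    2 * (ch π ρ x 1 w Xc).f p.1 ∂(VD Dd) ≤ D * t ^ (m + 2) →
  ∫ p in {z | z ∈ K ∧ ‖foot π ρ x 1 w z - X‖ ≤ 14 * t} ×ˢ univ,
    (ch π ρ x 1 w Xc).tau p.1 p.2 ∂(VD Dd) ≤ c₀ * t ^ m →
  IsFiniteMeasure e →
  e.real (closedBall (Lo (fderiv ℝ w Xc) (X - Xc)) (6 * t)) ≤ c₀ * t ^ m →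
  (∀ F : Euc m → ℝ, Measurable F → (∃ b : ℝ, ∀ v, |F v| ≤ b) →
    (∀ v, v ∉ closedBall (Lo (fderiv ℝ w Xc) (X - Xc)) (6 * t) → F v = 0) →
    |∫ p, F ((ch π ρ x 1 w Xc).x p.1) * (1 - (ch π ρ x 1 w Xc).tau p.1 p.2 / 2)
      ∂(VK (VD Dd) K) - Q * ∫ v, F v * (ch π ρ x 1 w Xc).j v| ≤ ∫ v, |F v| ∂e) →
  ∫ p, bv w Xc t (Lo (fderiv ℝ w Xc) (X - Xc)) ((ch π ρ x 1 w Xc).x p.1) *
      (1 - (ch π ρ x 1 w Xc).tau p.1 p.2 / 2) ∂(VK (VD Dd) K) -
    Q * ∫ v, bv w Xc t (Lo (fderiv ℝ w Xc) (X - Xc)) v * (ch π ρ x 1 w Xc).j v ≤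
  C * (κ ^ 2 * ∫ p in {z | ‖(ch π ρ x 1 w Xc).x z - Lo (fderiv ℝ w Xc) (X - Xc)‖ ≤ 16 * t} ×ˢ univ,
      2 * (ch π ρ x 1 w Xc).f p.1 ∂(VK (VD Dd) K)) +
  C * (((κ * t) ^ 2 + κ * t * √D + D) *
    ∫ p in {z | ‖(ch π ρ x 1 w Xc).x z - Lo (fderiv ℝ w Xc) (X - Xc)‖ ≤ 16 * t} ×ˢ univ,
      (ch π ρ x 1 w Xc).tau p.1 p.2 ∂(VK (VD Dd) K)) +
  C * (κ * t) ^ 2 * e.real (closedBall (Lo (fderiv ℝ w Xc) (X - Xc)) (2 * t)) +
  t ^ m * ((Real.log (1 / D)) ^ (-Cs) * D)

theorem lep_at {Q : ℕ} (h : LEP m n k Q) : ∃ c₀ C C₁ : ℝ, 0 < c₀ ∧ c₀ ≤ 1 / 16 ∧ 1 ≤ C ∧ 0 < C₁ ∧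
    ∀ Cs : ℝ, ∃ D₀ : ℝ, 0 < D₀ ∧ D₀ < 1 ∧ LEPat m n k Q c₀ C C₁ Cs D₀ := h

section loc

variable {π : Euc k →L[ℝ] Euc m} {ρ : Euc k →L[ℝ] Euc n} {x : Euc k} {w : Euc m → Euc n}
  {X0 : Euc m}

theorem foot_cont (hw : Gr 1 w) (hf : Frame π ρ) {K : Set (Euc k)} (hK : IsCompact K)
    (hsub : K ⊆ tube π ρ x 1 w) (X : Euc m) (r : ℝ) :
    MeasurableSet {z | z ∈ K ∧ ‖foot π ρ x 1 w z - X‖ ≤ r} := by
  have h1 : ContinuousOn (fun z => foot π ρ x 1 w z) K := (hw.continuousOn_foot hf).mono hsub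
  have h2 := h1.preimage_isClosed_of_isClosed hK.isClosed (isClosed_closedBall (x := X) (ε := r))
  refine (h2.measurableSet).congr ?_
  ext z
  refine and_congr_right fun _ => ?_
  rw [mem_preimage, mem_closedBall, dist_eq_norm]

/-- **the local estimate at the coordinate `v`** -/
theorem loc_at {Q : ℕ} {c₀ CL C₁ Cs D₀ : ℝ} (hLE : LEPat m n k Q c₀ CL C₁ Cs D₀)
    {κ ε t D : ℝ} {U K : Set (Euc k)} {Dd : VarifoldData m k} {e : Measure (Euc m)}
    (hf : Frame π ρ) (hUo : IsOpen U) (hD : IsIntegralVarifoldIn U Dd)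
    (hst : IsStationaryIn U Dd) (hw : Gr 1 w) (hwc : ContDiff ℝ ∞ w) (hκ0 : 0 ≤ κ) (hκ : κ ≤ c₀)
    (hd : ∀ j, 1 ≤ j → j ≤ 3 → ∀ Y ∈ ball X0 2, ‖iteratedFDeriv ℝ j w Y‖ ≤ κ)
    (ht : 0 < t) (htc : t ≤ c₀) (htε : t ≤ ε / 100) (hε1 : ε ≤ 1)
    (hms : ∀ Y ∈ ball X0 (1 + ε), Msys w Y = 0)
    (hball : closedBall (Foot_842.pt π ρ x w X0) 4 ⊆ U)
    (hL : Loc (ch π ρ x 1 w X0) U (tube π ρ x 1 w) K (VD Dd) (Real.log (1 + ε)))
    (htau : ∀ p ∈ K ×ˢ G m k, 0 ≤ (ch π ρ x 1 w X0).tau p.1 p.2)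
    (hgt : ∀ᵐ p ∂(VK (VD Dd) K), ‖(ch π ρ x 1 w X0).x p.1‖ ≤ 1 + ε / 2 →
      2 * (ch π ρ x 1 w X0).f p.1 ≤ t ^ 2)
    (hD0 : 0 < D) (hD1 : D ≤ D₀) (htΛ : t ≤ (Real.log (1 / D)) ^ (-C₁))
    (h2f : ∫ p in {z | ‖(ch π ρ x 1 w X0).x z‖ ≤ 1 + ε / 2} ×ˢ univ,
      2 * (ch π ρ x 1 w X0).f p.1 ∂(VK (VD Dd) K) ≤ D * t ^ (m + 2))
    (hen : ∫ p in {z | ‖(ch π ρ x 1 w X0).x z‖ ≤ 1 + ε / 2} ×ˢ univ,
      (ch π ρ x 1 w X0).tau p.1 p.2 ∂(VK (VD Dd) K) ≤ c₀ * t ^ m)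
    (hefin : IsFiniteMeasure e) (heM : e.real (closedBall 0 (1 + ε / 4)) ≤ c₀ * t ^ m)
    (hei : ∀ F : Euc m → ℝ, Measurable F → (∃ b : ℝ, ∀ v, |F v| ≤ b) →
      (∀ v, v ∉ closedBall (0 : Euc m) (1 + ε / 4) → F v = 0) →
      |∫ p, F ((ch π ρ x 1 w X0).x p.1) * (1 - (ch π ρ x 1 w X0).tau p.1 p.2 / 2)
        ∂(VK (VD Dd) K) - Q * ∫ v, F v * (ch π ρ x 1 w X0).j v| ≤ ∫ v, |F v| ∂e)
    {v : Euc m} (hv : ‖v‖ < 1) :
    ∫ p, bv w X0 t v ((ch π ρ x 1 w X0).x p.1) *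
      (1 - (ch π ρ x 1 w X0).tau p.1 p.2 / 2) ∂(VK (VD Dd) K) -
    Q * ∫ y, bv w X0 t v y * (ch π ρ x 1 w X0).j y ≤
    CL * (κ ^ 2 * ∫ p in {z | ‖(ch π ρ x 1 w X0).x z - v‖ ≤ 16 * t} ×ˢ univ,
      2 * (ch π ρ x 1 w X0).f p.1 ∂(VK (VD Dd) K)) +
    CL * (((κ * t) ^ 2 + κ * t * √D + D) *
      ∫ p in {z | ‖(ch π ρ x 1 w X0).x z - v‖ ≤ 16 * t} ×ˢ univ,
      (ch π ρ x 1 w X0).tau p.1 p.2 ∂(VK (VD Dd) K)) +
    CL * (κ * t) ^ 2 * e.real (closedBall v (2 * t)) +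
    t ^ m * ((Real.log (1 / D)) ^ (-Cs) * D) := by
  have hsub : K ⊆ tube π ρ x 1 w := hL.sub.trans inter_subset_left
  have hOk : Ok (ch π ρ x 1 w X0) K univ := (hw.reg hf X0).ok hL.cpt hsub
  have hOn : On (VK (VD Dd) K) m K := hL.toOn
  have hε0 : 0 < ε := by linarith
  have hexp : Real.exp (Real.log (1 + ε)) = 1 + ε := Real.exp_log (by linarith)
  set X : Euc m := pt w X0 v with hX
  have hX1 : ‖X - X0‖ < 1 := (norm_pt_sub w X0 v).trans_lt hv
  have hLo : Lo (fderiv ℝ w X0) (X - X0) = v := Lo_pt w X0 v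
  -- `|c.x z - v| ≤ 15 t` near the foot `X`
  have hnear : ∀ z, ‖foot π ρ x 1 w z - X‖ ≤ 14 * t → ‖(ch π ρ x 1 w X0).x z‖ ≤ 1 + ε / 2 := by
    intro z hz
    have h1 := chx_sub (π := π) (ρ := ρ) (x := x) (X0 := X0) hw z v
    have h2 : ‖(ch π ρ x 1 w X0).x z‖ ≤ ‖(ch π ρ x 1 w X0).x z - v‖ + ‖v‖ := by
      calc ‖(ch π ρ x 1 w X0).x z‖ = ‖((ch π ρ x 1 w X0).x z - v) + v‖ := by rw [sub_add_cancel]
        _ ≤ _ := norm_add_le _ _
    have h3 : 65 / 64 * ‖foot π ρ x 1 w z - X‖ ≤ 65 / 64 * (14 * t) := by gcongr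
    linarith
  -- conversion of integrals
  have hconv : ∀ (F : Euc k × Vf_884.L k → ℝ), Dn K m F → ∀ B : ℝ,
      ∫ p in {z | ‖(ch π ρ x 1 w X0).x z‖ ≤ 1 + ε / 2} ×ˢ univ, F p ∂(VK (VD Dd) K) ≤ B →
      ∫ p in {z | z ∈ K ∧ ‖foot π ρ x 1 w z - X‖ ≤ 14 * t} ×ˢ univ, F p ∂(VD Dd) ≤ B := by
    intro F hF B hB
    have hm1 : MeasurableSet ({z | z ∈ K ∧ ‖foot π ρ x 1 w z - X‖ ≤ 14 * t} ×ˢ
        (univ : Set (Vf_884.L k))) := (foot_cont hw hf hL.cpt hsub X _).prod MeasurableSet.univ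
    have hs1 : {z | z ∈ K ∧ ‖foot π ρ x 1 w z - X‖ ≤ 14 * t} ×ˢ (univ : Set (Vf_884.L k)) ⊆
        K ×ˢ univ := prod_mono (fun z hz => hz.1) subset_rfl
    have e1 : (VD Dd).restrict ({z | z ∈ K ∧ ‖foot π ρ x 1 w z - X‖ ≤ 14 * t} ×ˢ
        (univ : Set (Vf_884.L k))) = (VK (VD Dd) K).restrict
          ({z | z ∈ K ∧ ‖foot π ρ x 1 w z - X‖ ≤ 14 * t} ×ˢ univ) := by
      unfold VK
      rw [Measure.restrict_restrict hm1, inter_eq_left.2 hs1]
    rw [e1]
    refine (hF.mono hOk hOn (Eventually.of_forall fun p hp => ?_)).trans hB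
    exact ⟨hnear _ hp.1.2, trivial⟩
  have hcv : closedBall v (6 * t) ⊆ closedBall (0 : Euc m) (1 + ε / 4) := by
    intro y hy
    rw [mem_closedBall, dist_eq_norm] at hy
    rw [mem_closedBall_zero_iff]
    calc ‖y‖ = ‖(y - v) + v‖ := by rw [sub_add_cancel]
      _ ≤ ‖y - v‖ + ‖v‖ := norm_add_le _ _
      _ ≤ 1 + ε / 4 := by linarith
  have key := hLE π ρ x w X0 X κ t D U K Dd e hf hUo hD hst hw hwc hκ0 hκ
    (fun j h1 h3 Y hY => hd j h1 h3 Y (by
      rw [mem_ball, dist_eq_norm] at hY ⊢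
      calc ‖Y - X0‖ = ‖(Y - X) + (X - X0)‖ := by rw [sub_add_sub_cancel]
        _ ≤ ‖Y - X‖ + ‖X - X0‖ := norm_add_le _ _
        _ < 2 := by linarith))
    ht htc
    (fun Y hY => hms Y (by
      rw [mem_ball, dist_eq_norm] at hY ⊢
      calc ‖Y - X0‖ = ‖(Y - X) + (X - X0)‖ := by rw [sub_add_sub_cancel]
        _ ≤ ‖Y - X‖ + ‖X - X0‖ := norm_add_le _ _
        _ < 1 + ε := by linarith))
    (by
      refine Subset.trans ?_ hball
      intro z hz
      rw [mem_closedBall, dist_eq_norm] at hz ⊢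
      have h1 := norm_Pt_sub (π := π) (ρ := ρ) (x := x) hf hw X X0
      calc ‖z - Foot_842.pt π ρ x w X0‖ = ‖(z - Foot_842.pt π ρ x w X) +
            (Foot_842.pt π ρ x w X - Foot_842.pt π ρ x w X0)‖ := by rw [sub_add_sub_cancel]
        _ ≤ ‖z - Foot_842.pt π ρ x w X‖ +
            ‖Foot_842.pt π ρ x w X - Foot_842.pt π ρ x w X0‖ := norm_add_le _ _
        _ ≤ 4 := by linarith)
    hL.cpt hsub (hL.sub.trans inter_subset_right)
    (by
      filter_upwards [hL.gap] with p hp hU hT hfo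
      refine hp ⟨hT, hU⟩ ?_
      rw [hexp]
      have := hnear _ hfo
      linarith)
    (by
      have h1 := hgt
      unfold VK at h1
      rw [ae_restrict_iff' (hL.cpt.isClosed.measurableSet.prod MeasurableSet.univ)] at h1
      filter_upwards [h1] with p hp hpK hfo
      exact hp ⟨hpK, trivial⟩ (hnear _ hfo))
    hD0 hD1 htΛ (hconv _ (dn_f hOk) _ h2f) (hconv _ (dn_tau hOk htau) _ hen) hefin
    (by
      rw [hLo]
      exact (measureReal_mono hcv (measure_ne_top _ _)).trans heM)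
    (by
      rw [hLo]
      intro F hF hb h0
      exact hei F hF hb fun y hy => h0 y fun hc => hy (hcv hc))
  rw [hLo] at key
  exact key

end loc

end Crest.Agent.R234.Fin_618
end
end

-- ▼ part R234/Fin7_618
section

/-!
# Row 234, F3 (helper618), (FIN), part 7: the assembly for a chart
-/

set_option autoImplicit false
set_option maxSynthPendingDepth 3

open Set Filter Topology MeasureTheory Metric Function
open Crest.GeometryTopology.Submanifold
open Crest.Agent.R234.Vf_884 Crest.Agent.R234.Ar_870 Crest.Agent.R234.GL_394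
open Crest.Agent.R234.Main_456 (Frame Msys)
open Crest.Agent.R234.Gi_456 (Gr tube foot ch Lo Loi Lo_Loi Loi_spec norm_Lo_le pt jB_pos)
open Crest.Agent.R234.F35k_433 (bv kern_ch)
open Crest.Agent.R234.F36_354 (LEP F3P1)
open scoped ENNReal NNReal ContDiff InnerProductSpace

noncomputable section

namespace Crest.Agent.R234.Fin_618

open Crest.Agent.R234.F31_354 (Kern)
open Crest.Agent.R234.Th_164 (om om_pos)
open Crest.Agent.R234.Tv_618 (nu)

variable {m n k : ℕ}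

/-- numbers at the place of use -/
theorem num2 {C a C' Kc H t D L ε : ℝ} (hC : 1 ≤ C) (hC' : 0 ≤ C') (hKc : 1 ≤ Kc)
    (hH : 0 < H) (ht : 0 < t) (hL : 1 ≤ L) (hD : D = C * H / t ^ (m + 2))
    (he : L ^ (-a) ≤ ε) (e1 : (L ^ (-a)) ^ (-C) * t ≤ L ^ (-C') / Kc) :
    t * (C * ε ^ (-C) * H) ≤ C * (L ^ (-C') / Kc * H) ∧ C * ε ^ (-C) * H ≤ D * t ^ (m + 1) := by
  have hL0 : 0 < L := by linarith
  have hLa : 0 < L ^ (-a) := Real.rpow_pos_of_pos hL0 _
  have hLC : L ^ (-C') ≤ 1 := Real.rpow_le_one_of_one_le_of_nonpos hL (by linarith)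
  have h1 : ε ^ (-C) ≤ (L ^ (-a)) ^ (-C) :=
    Real.rpow_le_rpow_of_nonpos hLa he (by linarith)
  have h2 : ε ^ (-C) * t ≤ L ^ (-C') / Kc := (mul_le_mul_of_nonneg_right h1 ht.le).trans e1
  have h3 : L ^ (-C') / Kc ≤ 1 := by
    rw [div_le_one (by linarith)]; linarith
  constructor
  · calc t * (C * ε ^ (-C) * H) = C * (ε ^ (-C) * t * H) := by ring
      _ ≤ C * (L ^ (-C') / Kc * H) := by gcongr
  · have h4 : ε ^ (-C) * t ≤ 1 := h2.trans h3
    calc C * ε ^ (-C) * H = C * (ε ^ (-C) * t) * H / t := by field_simp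
      _ ≤ C * 1 * H / t := by gcongr
      _ = D * t ^ (m + 1) := by rw [hD]; field_simp; ring

theorem C3_ge {C : ℝ} (hC : 1 ≤ C) : 1 ≤ C3 m C := by
  have := P0_nonneg (m := m) hC
  unfold C3
  have h1 : 0 ≤ 104 * C * P0 m C := by positivity
  linarith

theorem cb_eq (v : Euc m) (r : ℝ) {c : Ch m k} :
    {z : Euc k | c.x z ∈ closedBall v r} = {z | ‖c.x z - v‖ ≤ r} := by
  ext z
  rw [mem_ofPred_eq, mem_closedBall, dist_eq_norm, mem_ofPred_eq]

/-- **the assembly for a chart, abstract local estimate** -/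
theorem asm_ch {c : Ch m k} {K : Set (Euc k)} {V : Measure (Euc k × Vf_884.L k)} {Q : ℕ}
    {CL C κ t D ε M A : ℝ} (hOk : Ok c K univ) (hOn : On V m K)
    (htau : ∀ p ∈ K ×ˢ G m k, 0 ≤ c.tau p.1 p.2) (hj : ∀ v, 0 ≤ c.j v)
    (hCL : 1 ≤ CL) (hCC : CL ≤ C) (hκ0 : 0 ≤ κ) (hκ1 : κ ≤ 1) (ht : 0 < t) (ht1 : t ≤ 1 / 100)
    (hD : 0 ≤ D) (hDt : D ≤ t) (h16 : 16 * t ≤ ε / 4) (hε1 : ε ≤ 1) (hA0 : 0 ≤ A)
    {β : Euc m → Euc m → ℝ} {wt : Euc m → ℝ} {W θ : ℝ}
    (hK : Kern volume β wt t θ W 1) (hθ : θ ≤ C * t) (hθ1 : θ ≤ 1) (hW : 0 ≤ W)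
    (hWt : W ≤ C / t ^ m) {e : Measure (Euc m)} (hefin : IsFiniteMeasure e)
    (hei : ∀ F : Euc m → ℝ, Measurable F → (∃ b : ℝ, ∀ v, |F v| ≤ b) →
      (∀ v, v ∉ closedBall (0 : Euc m) (1 + ε / 4) → F v = 0) →
      |∫ p, F (c.x p.1) * (1 - c.tau p.1 p.2 / 2) ∂V - Q * ∫ v, F v * c.j v| ≤ ∫ v, |F v| ∂e)
    (heM : e.real (closedBall 0 (1 + ε / 4)) ≤ M)
    (hen : ∫ p in {z | ‖c.x z‖ ≤ 1 + ε / 2} ×ˢ univ, c.tau p.1 p.2 ∂V ≤ M)
    (h2M : ∫ p in {z | ‖c.x z‖ ≤ 1 + ε / 2} ×ˢ univ, 2 * c.f p.1 ∂V ≤ M)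
    {g : ℝ → ℝ} (hg0 : ∀ s, 0 ≤ g s) (hg1 : ∀ s, 0 ≤ s → g s ≤ 1) (hgz : ∀ s, 1 ≤ s → g s = 0)
    (hgL : LipschitzWith 6 (fun v : Euc m => g (‖v‖ ^ 2)))
    (hloc : ∀ v : Euc m, ‖v‖ < 1 →
      ∫ p, β v (c.x p.1) * (1 - c.tau p.1 p.2 / 2) ∂V - Q * ∫ y, β v y * c.j y ≤
      CL * (κ ^ 2 * ∫ p in {z | ‖c.x z - v‖ ≤ 16 * t} ×ˢ univ, 2 * c.f p.1 ∂V) +
      CL * (((κ * t) ^ 2 + κ * t * √D + D) *
        ∫ p in {z | ‖c.x z - v‖ ≤ 16 * t} ×ˢ univ, c.tau p.1 p.2 ∂V) +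
      CL * (κ * t) ^ 2 * e.real (closedBall v (2 * t)) + t ^ m * A) :
    bb c V g Q 0 ≤ C3 m C * (κ ^ 2 * ∫ p, g (‖c.x p.1‖ ^ 2) * (2 * c.f p.1) ∂V) +
      C3 m C * (t * M + A) := by
  have hC1 : 1 ≤ C := hCL.trans hCC
  have hdf := dn_f (m := m) hOk
  have hdt := dn_tau hOk htau
  have f1 : IsFiniteMeasure (B1 c K V) := B1_fin hOk hOn
  have f2 : IsFiniteMeasure (B2 c K V Q 4) := B2_fin hOk hOn htau Q 4
  have f3 : IsFiniteMeasure (nu V (Xm c K) (fun p => 2 * c.f p.1)) := hdf.fin hOk hOn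
  have f4 : IsFiniteMeasure (nu V (Xm c K) (fun p => c.tau p.1 p.2)) := hdt.fin hOk hOn
  have hBs : ∀ F : Euc m → ℝ, Measurable F → (∃ b, ∀ v, |F v| ≤ b) →
      (∀ v, v ∉ ball (0 : Euc m) 4 → F v = 0) →
      ∫ v, F v ∂(B1 c K V) - ∫ v, F v ∂(B2 c K V Q 4) =
        ∫ p, F (c.x p.1) * (1 - c.tau p.1 p.2 / 2) ∂V - Q * ∫ v, F v * c.j v := by
    rintro F hF ⟨b, hb⟩ h0
    exact B_sub hOk hOn htau hj Q hF hb h0
  have hφ0 : ∀ v : Euc m, 0 ≤ g (‖v‖ ^ 2) := fun v => hg0 _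
  have hφ1 : ∀ v : Euc m, g (‖v‖ ^ 2) ≤ 1 := fun v => hg1 _ (by positivity)
  have hφR : ∀ v : Euc m, 1 < ‖v‖ → g (‖v‖ ^ 2) = 0 := fun v hv => hgz _ (by nlinarith)
  have hφm : Measurable fun v : Euc m => g (‖v‖ ^ 2) := hgL.continuous.measurable
  have hmq : ∀ (F : Euc k × Vf_884.L k → ℝ), Dn K m F → ∀ B : ℝ,
      ∫ p in {z | ‖c.x z‖ ≤ 1 + ε / 2} ×ˢ univ, F p ∂V ≤ B →
      (nu V (Xm c K) F).real (closedBall 0 (1 + ε / 4)) ≤ B := by
    intro F hF B hB
    rw [hF.real hOk hOn measurableSet_closedBall]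
    refine le_trans (hF.mono hOk hOn (Eventually.of_forall fun p hp => ?_)) hB
    refine ⟨?_, trivial⟩
    have h1 : c.x p.1 ∈ closedBall (0 : Euc m) (1 + ε / 4) := hp.1
    rw [mem_closedBall_zero_iff] at h1
    show ‖c.x p.1‖ ≤ 1 + ε / 2
    linarith
  have hbb : bb c V g Q 0 = ∫ v, g (‖v‖ ^ 2) ∂(B1 c K V) - ∫ v, g (‖v‖ ^ 2) ∂(B2 c K V Q 4) := by
    rw [bb_zero hOk hOn hgL.continuous, hBs (fun v => g (‖v‖ ^ 2)) hφm
      ⟨1, fun v => by rw [abs_of_nonneg (hφ0 v)]; exact hφ1 v⟩ fun v hv => hφR v ?_]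
    rw [mem_ball_zero_iff, not_lt] at hv
    linarith
  have h1 : ∫ v, g (‖v‖ ^ 2) ∂(nu V (Xm c K) (fun p => 2 * c.f p.1)) =
      ∫ p, g (‖c.x p.1‖ ^ 2) * (2 * c.f p.1) ∂V := hdf.integral hOk hOn hφm
  rw [hbb, ← h1]
  refine asm1 hC1 hκ0 hκ1 ht ht1 hD hDt h16 hA0 hK hθ hθ1 hW hWt (B1 c K V) (B2 c K V Q 4) e
    (nu V (Xm c K) (fun p => 2 * c.f p.1)) (nu V (Xm c K) (fun p => c.tau p.1 p.2))
    hgL hφ0 hφ1 hφR ?_ ?_ heM (hmq _ hdt M hen) (hmq _ hdf M h2M)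
  · intro v hv
    have hv1 : ‖v‖ < 1 := by
      by_contra hcon
      rw [not_lt] at hcon
      exact hv (hgz _ (by nlinarith))
    have hβm : Measurable (β v) := hK.meas.comp (measurable_const.prodMk measurable_id)
    have hβ0 : ∀ y, y ∉ ball (0 : Euc m) 4 → β v y = 0 := by
      intro y hy
      refine hK.supp v y ?_
      rw [mem_ball_zero_iff, not_lt] at hy
      have : ‖y‖ ≤ ‖y - v‖ + ‖v‖ := by
        calc ‖y‖ = ‖(y - v) + v‖ := by rw [sub_add_cancel]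
          _ ≤ _ := norm_add_le _ _
      linarith
    rw [hBs (β v) hβm ⟨1, fun y => by
      rw [abs_of_nonneg (hK.nonneg v y)]; exact hK.le_one v y⟩ hβ0]
    refine (hloc v hv1).trans ?_
    have e1 : (nu V (Xm c K) (fun p => 2 * c.f p.1)).real (closedBall v (16 * t)) =
        ∫ p in {z | ‖c.x z - v‖ ≤ 16 * t} ×ˢ univ, 2 * c.f p.1 ∂V := by
      rw [hdf.real hOk hOn measurableSet_closedBall, cb_eq]
    have e2 : (nu V (Xm c K) (fun p => c.tau p.1 p.2)).real (closedBall v (16 * t)) =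
        ∫ p in {z | ‖c.x z - v‖ ≤ 16 * t} ×ˢ univ, c.tau p.1 p.2 ∂V := by
      rw [hdt.real hOk hOn measurableSet_closedBall, cb_eq]
    rw [← e1, ← e2]
    have p1 : 0 ≤ κ ^ 2 * (nu V (Xm c K) (fun p => 2 * c.f p.1)).real (closedBall v (16 * t)) :=
      by positivity
    have p2 : 0 ≤ ((κ * t) ^ 2 + κ * t * √D + D) *
        (nu V (Xm c K) (fun p => c.tau p.1 p.2)).real (closedBall v (16 * t)) := by positivity
    have p3 : 0 ≤ (κ * t) ^ 2 * e.real (closedBall v (2 * t)) := by positivity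
    have q1 := mul_le_mul_of_nonneg_right hCC p1
    have q2 := mul_le_mul_of_nonneg_right hCC p2
    have q3 := mul_le_mul_of_nonneg_right hCC p3
    have q4 : CL * (κ * t) ^ 2 * e.real (closedBall v (2 * t)) ≤
        C * (κ * t) ^ 2 * e.real (closedBall v (2 * t)) := by
      rw [mul_assoc, mul_assoc]; exact q3
    linarith
  · intro F hFm hFb hF0
    rw [hBs F hFm hFb fun v hv => hF0 v fun hc => hv ?_]
    · exact (le_abs_self _).trans (hei F hFm hFb hF0)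
    · rw [mem_closedBall_zero_iff] at hc
      rw [mem_ball_zero_iff]
      linarith

end Crest.Agent.R234.Fin_618
end
end

-- ▼ part R234/Fin8_618
section

/-!
# Row 234, F3 (helper618), (FIN), part 8: the assembly in the tube
-/

set_option autoImplicit false
set_option maxSynthPendingDepth 3

open Set Filter Topology MeasureTheory Metric Function
open Crest.GeometryTopology.Submanifold
open Crest.Agent.R234.Vf_884 Crest.Agent.R234.Ar_870 Crest.Agent.R234.GL_394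
open Crest.Agent.R234.Main_456 (Frame Msys)
open Crest.Agent.R234.Gi_456 (Gr tube foot ch Lo Loi Lo_Loi Loi_spec norm_Lo_le pt jB_pos)
open Crest.Agent.R234.F35k_433 (bv kern_ch)
open Crest.Agent.R234.F36_354 (LEP F3P1)
open scoped ENNReal NNReal ContDiff InnerProductSpace

noncomputable section

namespace Crest.Agent.R234.Fin_618

open Crest.Agent.R234.F31_354 (Kern)
open Crest.Agent.R234.Th_164 (om om_pos)
open Crest.Agent.R234.Tv_618 (nu)

variable {m n k : ℕ}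

/-- **the assembly in the tube** (fixed numbers) -/
theorem fin_at {Q : ℕ} {c₀ CL C₁ Cs D₀ C : ℝ} (hLE : LEPat m n k Q c₀ CL C₁ Cs D₀)
    (hCL : 1 ≤ CL) (hCC : CL ≤ C) (hC2 : Kern2_332.C2 m ≤ C) (hCW : CW m ≤ C)
    {π : Euc k →L[ℝ] Euc m} {ρ : Euc k →L[ℝ] Euc n} {x : Euc k} {w : Euc m → Euc n}
    {X0 : Euc m} {κ ε t D M : ℝ} {U K : Set (Euc k)} {Dd : VarifoldData m k}
    {e : Measure (Euc m)}
    (hf : Frame π ρ) (hUo : IsOpen U) (hD : IsIntegralVarifoldIn U Dd)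
    (hst : IsStationaryIn U Dd) (hw : Gr 1 w) (hwc : ContDiff ℝ ∞ w) (hκ0 : 0 ≤ κ) (hκ : κ ≤ c₀)
    (hκ1 : κ ≤ 1)
    (hd : ∀ j, 1 ≤ j → j ≤ 3 → ∀ Y ∈ ball X0 2, ‖iteratedFDeriv ℝ j w Y‖ ≤ κ)
    (ht : 0 < t) (ht1 : t ≤ 1 / 100) (htc : t ≤ c₀) (hCt : C * t ≤ ε / 100) (hε1 : ε ≤ 1)
    (hms : ∀ Y ∈ ball X0 (1 + ε), Msys w Y = 0)
    (hball : closedBall (Foot_842.pt π ρ x w X0) 4 ⊆ U)
    (hL : Loc (ch π ρ x 1 w X0) U (tube π ρ x 1 w) K (VD Dd) (Real.log (1 + ε)))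
    (htau : ∀ p ∈ K ×ˢ G m k, 0 ≤ (ch π ρ x 1 w X0).tau p.1 p.2)
    (hgt : ∀ᵐ p ∂(VK (VD Dd) K), ‖(ch π ρ x 1 w X0).x p.1‖ ≤ 1 + ε / 2 →
      2 * (ch π ρ x 1 w X0).f p.1 ≤ t ^ 2)
    (hD0 : 0 < D) (hD1 : D ≤ D₀) (hDt : D ≤ t) (htΛ : t ≤ (Real.log (1 / D)) ^ (-C₁))
    (h2f : ∫ p in {z | ‖(ch π ρ x 1 w X0).x z‖ ≤ 1 + ε / 2} ×ˢ univ,
      2 * (ch π ρ x 1 w X0).f p.1 ∂(VK (VD Dd) K) ≤ D * t ^ (m + 2))
    (h2M : ∫ p in {z | ‖(ch π ρ x 1 w X0).x z‖ ≤ 1 + ε / 2} ×ˢ univ,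
      2 * (ch π ρ x 1 w X0).f p.1 ∂(VK (VD Dd) K) ≤ M)
    (hen : ∫ p in {z | ‖(ch π ρ x 1 w X0).x z‖ ≤ 1 + ε / 2} ×ˢ univ,
      (ch π ρ x 1 w X0).tau p.1 p.2 ∂(VK (VD Dd) K) ≤ M) (hMc : M ≤ c₀ * t ^ m)
    (hefin : IsFiniteMeasure e)
    (hei : ∀ F : Euc m → ℝ, Measurable F → (∃ b : ℝ, ∀ v, |F v| ≤ b) →
      (∀ v, v ∉ closedBall (0 : Euc m) (1 + ε / 4) → F v = 0) →
      |∫ p, F ((ch π ρ x 1 w X0).x p.1) * (1 - (ch π ρ x 1 w X0).tau p.1 p.2 / 2)
        ∂(VK (VD Dd) K) - Q * ∫ v, F v * (ch π ρ x 1 w X0).j v| ≤ ∫ v, |F v| ∂e)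
    (heM : e.real (closedBall 0 (1 + ε / 4)) ≤ M)
    {g : ℝ → ℝ} (hg0 : ∀ s, 0 ≤ g s) (hg1 : ∀ s, 0 ≤ s → g s ≤ 1) (hgz : ∀ s, 1 ≤ s → g s = 0)
    (hgL : LipschitzWith 6 (fun v : Euc m => g (‖v‖ ^ 2))) :
    bb (ch π ρ x 1 w X0) (VK (VD Dd) K) g Q 0 ≤
      C3 m C * (κ ^ 2 * ∫ p, g (‖(ch π ρ x 1 w X0).x p.1‖ ^ 2) *
        (2 * (ch π ρ x 1 w X0).f p.1) ∂(VK (VD Dd) K)) +
      C3 m C * (t * M + (Real.log (1 / D)) ^ (-Cs) * D) := by
  have hsub : K ⊆ tube π ρ x 1 w := hL.sub.trans inter_subset_left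
  have hOk : Ok (ch π ρ x 1 w X0) K univ := (hw.reg hf X0).ok hL.cpt hsub
  have hOn : On (VK (VD Dd) K) m K := hL.toOn
  have hC1 : 1 ≤ C := hCL.trans hCC
  have htC : t ≤ C * t := le_mul_of_one_le_left ht.le hC1
  have hC2t : Kern2_332.C2 m * t ≤ C * t := mul_le_mul_of_nonneg_right hC2 ht.le
  obtain ⟨hW0, hW1⟩ := weight_le (m := m) ht
  have hA0 : 0 ≤ (Real.log (1 / D)) ^ (-Cs) * D := by
    have : 0 ≤ Real.log (1 / D) := Real.log_nonneg (by rw [le_div_iff₀ hD0]; linarith)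
    positivity
  refine asm_ch hOk hOn htau (fun v => (jB_pos w X0 v).le) hCL hCC hκ0 hκ1 ht ht1 hD0.le hDt
    (by linarith) hε1 hA0 (kern_ch hw X0 ht (by linarith) 1) hC2t (by linarith) hW0
    (hW1.trans (by gcongr)) hefin hei heM hen h2M hg0 hg1 hgz hgL ?_
  intro v hv
  exact loc_at hLE hf hUo hD hst hw hwc hκ0 hκ hd ht htc (by linarith) hε1 hms hball hL htau hgt
    hD0 hD1 htΛ h2f (hen.trans hMc) hefin (heM.trans hMc) hei hv

end Crest.Agent.R234.Fin_618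
end
end

-- ▼ part R234/Fin9_618
section

/-!
# Row 234, F3 (helper618), (FIN), part 9: **`fin : LEP m n k Q → F3P1 m n k Q`**
-/

set_option autoImplicit false
set_option maxSynthPendingDepth 3

open Set Filter Topology MeasureTheory Metric Function
open Crest.GeometryTopology.Submanifold
open Crest.Agent.R234.Vf_884 Crest.Agent.R234.Ar_870 Crest.Agent.R234.GL_394
open Crest.Agent.R234.Main_456 (Frame Msys)
open Crest.Agent.R234.Gi_456 (Gr tube foot ch)
open Crest.Agent.R234.F36_354 (LEP F3P1)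
open scoped ENNReal NNReal ContDiff InnerProductSpace

noncomputable section

namespace Crest.Agent.R234.Fin_618

variable {m n k : ℕ}

/-- the scale against the logarithm -/
theorem num3 {C C₁ p H t D L : ℝ} (hC : 1 ≤ C) (hC₁ : 0 < C₁) (hp : C₁ ≤ p) (hH : 0 < H)
    (hL : 1 ≤ L) (hLd : L = Real.log (1 / H)) (ht : t = L ^ (-p)) (hD : D = C * H / t ^ (m + 2))
    (ht0 : 0 < t) (ht1 : t ≤ 1) (hD0 : 0 < D) (hD1 : D < 1) :
    t ≤ (Real.log (1 / D)) ^ (-C₁) := by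
  have h1 : H ≤ D := by
    rw [hD, le_div_iff₀ (by positivity)]
    calc H * t ^ (m + 2) ≤ H * 1 := by gcongr; exact pow_le_one₀ ht0.le ht1
      _ = 1 * H := by ring
      _ ≤ C * H := by gcongr
  have h2 : Real.log (1 / D) ≤ L := by
    rw [hLd]
    exact Real.log_le_log (by positivity) (one_div_le_one_div_of_le hH h1)
  have h3 : 0 < Real.log (1 / D) := Real.log_pos (by rw [lt_div_iff₀ hD0]; linarith)
  calc t = L ^ (-p) := ht
    _ ≤ L ^ (-C₁) := Real.rpow_le_rpow_of_exponent_le hL (by linarith)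
    _ ≤ (Real.log (1 / D)) ^ (-C₁) := Real.rpow_le_rpow_of_nonpos h3 h2 (by linarith)

/-- consequences of `M ≤ D t^(m+1)` -/
theorem num4 (hm : 1 ≤ m) {C H t D M c₀ : ℝ} (hC : 1 ≤ C) (hH : 0 < H) (ht0 : 0 < t) (ht1 : t ≤ 1)
    (hD : D = C * H / t ^ (m + 2)) (hD0 : 0 < D) (hD1 : D ≤ 1) (hDc : D ≤ c₀)
    (hM : M ≤ D * t ^ (m + 1)) : M ≤ t ^ 2 ∧ M ≤ c₀ * t ^ m ∧ H ≤ D * t ^ (m + 2) ∧ M ≤ D := by
  have htm : t ^ (m + 1) ≤ t ^ m := pow_le_pow_of_le_one ht0.le ht1 (Nat.le_succ m)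
  have htm2 : t ^ (m + 1) ≤ t ^ 2 := pow_le_pow_of_le_one ht0.le ht1 (by omega)
  have htm3 : t ^ (m + 1) ≤ 1 := pow_le_one₀ ht0.le ht1
  have hp : 0 < t ^ (m + 1) := by positivity
  refine ⟨?_, ?_, ?_, ?_⟩
  · calc M ≤ D * t ^ (m + 1) := hM
      _ ≤ 1 * t ^ 2 := mul_le_mul hD1 htm2 hp.le zero_le_one
      _ = t ^ 2 := one_mul _
  · exact hM.trans (mul_le_mul hDc htm hp.le (hD0.le.trans hDc))
  · rw [hD]
    have : C * H / t ^ (m + 2) * t ^ (m + 2) = C * H := by field_simp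
    rw [this]
    exact le_mul_of_one_le_left hH.le hC
  · exact hM.trans (mul_le_of_le_one_right hD0.le htm3)

/-- the smallness for the heights -/
theorem small_H {C ε H D : ℝ} (hC : 2 * m + CE m ≤ C) (hC1 : 1 ≤ C) (hε0 : 0 < ε) (hε1 : ε ≤ 1)
    (hH : 0 < H) (hM : C * ε ^ (-C) * H ≤ D) (hD : D ≤ ome m / (4096 * 64 ^ m)) :
    H < ome m / (2048 * 64 ^ m) * ε ^ (m + 2) := by
  obtain ⟨cE1, -, -, -⟩ := CE_ge m
  have home := ome_pos m
  have hm0 : (0 : ℝ) ≤ m := Nat.cast_nonneg m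
  have h2 : ε ^ (-((m : ℝ) + 2)) ≤ ε ^ (-C) :=
    Real.rpow_le_rpow_of_exponent_ge hε0 hε1 (by linarith)
  have h3 : ε ^ (-((m : ℝ) + 2)) = (ε ^ (m + 2))⁻¹ := by
    rw [Real.rpow_neg hε0.le, ← Real.rpow_natCast]; push_cast; rfl
  have hpos : 0 < ε ^ (-((m : ℝ) + 2)) := Real.rpow_pos_of_pos hε0 _
  have h4 : (ε ^ (m + 2))⁻¹ * H ≤ C * ε ^ (-C) * H := by
    rw [← h3]
    calc ε ^ (-((m : ℝ) + 2)) * H = 1 * ε ^ (-((m : ℝ) + 2)) * H := by ring
      _ ≤ C * ε ^ (-C) * H := by gcongr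
  have h5 : (ε ^ (m + 2))⁻¹ * H ≤ ome m / (4096 * 64 ^ m) := (h4.trans hM).trans hD
  have h6 : 0 < ε ^ (m + 2) := by positivity
  rw [inv_mul_le_iff₀ h6] at h5
  have h7 : ome m / (4096 * 64 ^ m) < ome m / (2048 * 64 ^ m) := by
    apply div_lt_div_of_pos_left home (by positivity)
    have : (0 : ℝ) < 64 ^ m := by positivity
    linarith
  calc H ≤ ε ^ (m + 2) * (ome m / (4096 * 64 ^ m)) := h5
    _ < ε ^ (m + 2) * (ome m / (2048 * 64 ^ m)) := mul_lt_mul_of_pos_left h7 h6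
    _ = _ := by ring

/-- `CE ε^{-CE} H ≤ C ε^{-C} H` -/
theorem CE_le {C ε H : ℝ} (hC : CE m ≤ C) (hε0 : 0 < ε) (hε1 : ε ≤ 1) (hH : 0 < H) :
    CE m * ε ^ (-CE m) * H ≤ C * ε ^ (-C) * H ∧ H ≤ ε ^ (-CE m) * H := by
  obtain ⟨-, -, -, c4⟩ := CE_ge m
  have h1 : ε ^ (-CE m) ≤ ε ^ (-C) := Real.rpow_le_rpow_of_exponent_ge hε0 hε1 (by linarith)
  have h2 : 0 < ε ^ (-CE m) := Real.rpow_pos_of_pos hε0 _
  have h3 : 1 ≤ ε ^ (-CE m) :=
    Real.one_le_rpow_of_pos_of_le_one_of_nonpos hε0 hε1 (by linarith)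
  refine ⟨?_, le_mul_of_one_le_left hH.le h3⟩
  have h4 : 0 ≤ C := by linarith
  gcongr

/-- the mass of the total variation measure -/
theorem e_mass {c : Ch m k} {K : Set (Euc k)} {V : Measure (Euc k × Vf_884.L k)}
    (hOk : Ok c K univ) (hOn : On V m K) (htau : ∀ p ∈ K ×ˢ G m k, 0 ≤ c.tau p.1 p.2)
    {Ct C ε H : ℝ} (hCt : 0 ≤ Ct) (hCC : Ct * (CE m + 1) ≤ C) (hCm : 2 * m + CE m ≤ C)
    (hε0 : 0 < ε) (hε1 : ε ≤ 1) (hH : 0 < H)
    (hen : ∫ p in {z | ‖c.x z‖ ≤ 1 + ε / 2} ×ˢ univ, c.tau p.1 p.2 ∂V ≤ CE m * ε ^ (-CE m) * H)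
    (h2 : ∫ p in {z | ‖c.x z‖ ≤ 1 + ε / 2} ×ˢ univ, 2 * c.f p.1 ∂V ≤ H) :
    Ct / ε ^ (2 * m) * ∫ p in {z | ‖c.x z‖ ≤ 1 + ε / 2} ×ˢ univ, (c.tau p.1 p.2 + 2 * c.f p.1) ∂V ≤
      C * ε ^ (-C) * H := by
  obtain ⟨-, -, -, c4⟩ := CE_ge m
  have hdf := dn_f (m := m) hOk
  have hdt := dn_tau hOk htau
  have h3 : H ≤ ε ^ (-CE m) * H := (CE_le le_rfl hε0 hε1 hH).2
  have h1 : ∫ p in {z | ‖c.x z‖ ≤ 1 + ε / 2} ×ˢ univ, (c.tau p.1 p.2 + 2 * c.f p.1) ∂V ≤
      (CE m + 1) * ε ^ (-CE m) * H := by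
    rw [integral_add (hdt.int hOk hOn).integrableOn (hdf.int hOk hOn).integrableOn]
    have h4 : (CE m + 1) * ε ^ (-CE m) * H = CE m * ε ^ (-CE m) * H + ε ^ (-CE m) * H := by ring
    linarith
  have h5 : Ct / ε ^ (2 * m) = Ct * ε ^ (-(2 * (m : ℝ))) := by
    rw [Real.rpow_neg hε0.le, div_eq_mul_inv, ← Real.rpow_natCast]
    push_cast
    rfl
  have h6 : ε ^ (-(2 * (m : ℝ)) + -CE m) ≤ ε ^ (-C) :=
    Real.rpow_le_rpow_of_exponent_ge hε0 hε1 (by linarith)
  have h7 : 0 < ε ^ (-(2 * (m : ℝ)) + -CE m) := Real.rpow_pos_of_pos hε0 _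
  have h8 : 0 ≤ Ct * (CE m + 1) := by positivity
  calc Ct / ε ^ (2 * m) * ∫ p in {z | ‖c.x z‖ ≤ 1 + ε / 2} ×ˢ univ,
        (c.tau p.1 p.2 + 2 * c.f p.1) ∂V
      ≤ Ct / ε ^ (2 * m) * ((CE m + 1) * ε ^ (-CE m) * H) := by gcongr
    _ = Ct * (CE m + 1) * (ε ^ (-(2 * (m : ℝ))) * ε ^ (-CE m)) * H := by rw [h5]; ring
    _ = Ct * (CE m + 1) * ε ^ (-(2 * (m : ℝ)) + -CE m) * H := by rw [Real.rpow_add hε0]
    _ ≤ C * ε ^ (-C) * H := by
        have h9 : 0 ≤ C := h8.trans hCC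
        gcongr

/-- the end of the numbers -/
theorem num5 {C C' Kc L X t M A H I κ : ℝ} (hKc : Kc = X * (C + 1)) (hX : 1 ≤ X) (hC : 1 ≤ C)
    (hM : t * M ≤ C * (L ^ (-C') / Kc * H)) (hA : A ≤ L ^ (-C') / Kc * H) :
    X * (κ ^ 2 * I) + X * (t * M + A) ≤ X * κ ^ 2 * I + L ^ (-C') * H := by
  have h3 : t * M + A ≤ (C + 1) * (L ^ (-C') / Kc * H) := by linarith
  have h4 : X * (t * M + A) ≤ L ^ (-C') * H := by
    calc X * (t * M + A) ≤ X * ((C + 1) * (L ^ (-C') / Kc * H)) := by gcongr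
      _ = L ^ (-C') * H := by
          rw [hKc]
          have h4 : X ≠ 0 := by linarith
          have h5 : C + 1 ≠ 0 := by linarith
          field_simp
  linarith

end Crest.Agent.R234.Fin_618
end
end

-- ▼ part R234/Fin10_618

/-!
# Row 234, F3 (helper618), (FIN), part 10: **`fin : LEP m n k Q → F3P1 m n k Q`**
-/

set_option autoImplicit false
set_option maxSynthPendingDepth 3

open Set Filter Topology MeasureTheory Metric Function
open Crest.GeometryTopology.Submanifold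
open Crest.Agent.R234.Vf_884 Crest.Agent.R234.Ar_870 Crest.Agent.R234.GL_394
open Crest.Agent.R234.Main_456 (Frame Msys)
open Crest.Agent.R234.Gi_456 (Gr tube foot ch)
open Crest.Agent.R234.F36_354 (LEP F3P1)
open scoped ENNReal NNReal ContDiff InnerProductSpace

noncomputable section

namespace Crest.Agent.R234.Fin_618

variable {m n k : ℕ}

/-- **(FIN)**: the integral estimate at the scale 1 from the local estimates -/
theorem fin (hm : 1 ≤ m) {Q : ℕ} (hLEP : LEP m n k Q) : F3P1 m n k Q := by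
  intro Λ hΛ
  obtain ⟨c₀, CL, C₁, hc00, hc01, hCL, hC₁, hLE⟩ := lep_at hLEP
  obtain ⟨κ₁, hκ₁, hκ₁4, Ct, hCt, hTV⟩ := tv1 hm n Q hΛ
  have home := ome_pos m
  have hmR : (1 : ℝ) ≤ m := by exact_mod_cast hm
  obtain ⟨cE1, cE2, cE3, cE4⟩ := CE_ge m
  have hCW := CW_pos m
  have hC2 := Kern2_332.C2_pos m
  have hX : 0 ≤ Ct * (CE m + 1) := by positivity
  obtain ⟨C, hC⟩ : ∃ C : ℝ, C = CL + CE m + Ct * (CE m + 1) + CW m + Kern2_332.C2 m +
    (2 * m + CE m) := ⟨_, rfl⟩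
  have hC1 : 1 ≤ C := by linarith
  have hCCL : CL ≤ C := by linarith
  have hCCE : CE m ≤ C := by linarith
  have hCCt : Ct * (CE m + 1) ≤ C := by linarith
  have hCCW : CW m ≤ C := by linarith
  have hCC2 : Kern2_332.C2 m ≤ C := by linarith
  have hCCm : 2 * m + CE m ≤ C := by linarith
  clear hC
  have hC3 := C3_ge (m := m) hC1
  refine ⟨C3 m C, hC3, ?_⟩
  intro a C' ha hC'
  obtain ⟨p, hp⟩ : ∃ p : ℝ, p = a * (C + 1) + C' + 2 + C₁ := ⟨_, rfl⟩
  have haC : 0 ≤ a * (C + 1) := by positivity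
  have hpC₁ : C₁ ≤ p := by linarith
  obtain ⟨D₀, hD₀, hD₀1, hLE⟩ := hLE (p * (m + 2) + C' + 1)
  obtain ⟨Kc, hKc⟩ : ∃ Kc : ℝ, Kc = C3 m C * (C + 1) := ⟨_, rfl⟩
  have hKc1 : 1 ≤ Kc := by rw [hKc]; nlinarith
  obtain ⟨δ, hδ⟩ : ∃ δ : ℝ, δ = min c₀ (min D₀ (ome m / (4096 * 64 ^ m))) := ⟨_, rfl⟩
  have hδ0 : 0 < δ := by rw [hδ]; exact lt_min hc00 (lt_min hD₀ (by positivity))
  have hδc : δ ≤ c₀ := by rw [hδ]; exact min_le_left _ _
  have hδD : δ ≤ D₀ := by rw [hδ]; exact (min_le_right _ _).trans (min_le_left _ _)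
  have hδo : δ ≤ ome m / (4096 * 64 ^ m) := by
    rw [hδ]; exact (min_le_right _ _).trans (min_le_right _ _)
  clear hδ
  obtain ⟨H0, hH0, hH01, hnum⟩ := num (C := C) (a := a) (C' := C') hC1 ha.le hC'.le m (K := Kc)
    (by linarith) (p := p) (Cs := p * (m + 2) + C' + 1) (by linarith) le_rfl hδ0
  refine ⟨min c₀ (min κ₁ (1 / (6 * m))), H0, lt_min hc00 (lt_min hκ₁ (by positivity)), hH0, hH01, ?_⟩
  intro π ρ x w X0 κ ε H U K Dd g hf hUo hD hst hw hwc hκ0 hκ hd hε0 hε1 hms hball hL hnu hTh hM1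
    hM2 hH hHH0 hεH hHint hg0 hg1 hgz hgL
  have hκc : κ ≤ c₀ := hκ.trans (min_le_left _ _)
  have hκ1 : κ ≤ κ₁ := hκ.trans ((min_le_right _ _).trans (min_le_left _ _))
  have hκ6 : 6 * m * κ ≤ 1 := by
    have h1 : κ ≤ 1 / (6 * m) := hκ.trans ((min_le_right _ _).trans (min_le_right _ _))
    rw [le_div_iff₀ (by positivity)] at h1
    linarith
  have hκ4 : κ ≤ 1 / 4 := hκ1.trans hκ₁4
  obtain ⟨L, hLd⟩ : ∃ L : ℝ, L = Real.log (1 / H) := ⟨_, rfl⟩
  obtain ⟨t, ht⟩ : ∃ t : ℝ, t = L ^ (-p) := ⟨_, rfl⟩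
  obtain ⟨D, hDd⟩ : ∃ D : ℝ, D = C * H / t ^ (m + 2) := ⟨_, rfl⟩
  obtain ⟨n1, n2, n3, n4, n5, n6, n7, n8, n9, -, n11, -, -, n14⟩ := hnum H hH hHH0 t D L hLd ht hDd
  rw [← hLd] at hεH ⊢
  have ht1 : t ≤ 1 := by linarith
  obtain ⟨hM3, hM4⟩ := num2 (m := m) hC1 hC'.le hKc1 hH n2 n1 hDd hεH n11
  obtain ⟨q1, q2, q3, q4⟩ := num4 hm hC1 hH n2 ht1 hDd n6 n8.le (n7.trans hδc) hM4
  have htΛ := num3 hC1 hC₁ hpC₁ hH n1 hLd ht hDd n2 ht1 n6 n8
  have hCt2 : C * t ≤ ε / 100 := n5.trans (by gcongr)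
  have hsH := small_H (m := m) hCCm hC1 hε0 hε1 hH q4 (n7.trans hδo)
  obtain ⟨hCM, hHC⟩ := CE_le (m := m) hCCE hε0 hε1 hH
  have hHM : H ≤ C * ε ^ (-C) * H := by
    refine le_trans ?_ hCM
    refine hHC.trans ?_
    rw [mul_assoc]
    exact le_mul_of_one_le_left (hH.le.trans hHC) cE4
  -- the chart
  have hsub : K ⊆ tube π ρ x 1 w := hL.sub.trans inter_subset_left
  have hOk : Ok (ch π ρ x 1 w X0) K univ := (hw.reg hf X0).ok hL.cpt hsub
  have hOn : On (VK (VD Dd) K) m K := hL.toOn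
  have hy := hy_of (b := 1) hf hw hκ0 hκ4 hd le_rfl (by linarith) hε1 hms hsub hnu
  have htau : ∀ p ∈ K ×ˢ G m k, 0 ≤ (ch π ρ x 1 w X0).tau p.1 p.2 := fun p hp => hy.tau_nonneg hp
  have hHs : Fin3_471.Hs U K (VD Dd) π ρ x w X0 ε H :=
    ⟨hm, hf, hw, hε0, hε1, hL, hms, hnu, hTh, hHint⟩
  obtain ⟨hgt, hen⟩ := h12 hHs hH hsH hκ0 hκ6 (hd 2 (by norm_num) (by norm_num)) htau
  have hint2 : ∫ p in {z | ‖(ch π ρ x 1 w X0).x z‖ ≤ 1 + ε / 2} ×ˢ univ,
      2 * (ch π ρ x 1 w X0).f p.1 ∂(VK (VD Dd) K) ≤ H := by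
    refine ((dn_f (m := m) hOk).mono hOk hOn (Eventually.of_forall fun p hp => ?_)).trans hHint
    refine ⟨?_, trivial⟩
    have h1 : ‖(ch π ρ x 1 w X0).x p.1‖ ≤ 1 + ε / 2 := hp.1
    show ‖(ch π ρ x 1 w X0).x p.1‖ < 1 + ε
    linarith
  obtain ⟨e, hefin, hei, hem⟩ := hTV hf hD hw hκ0 hκ1 hd hε0 hε1 hms hL hnu hM1 hM2
  have heM := hem.trans (e_mass hOk hOn htau hCt hCCt hCCm hε0 hε1 hH hen hint2)
  have key := fin_at hLE hCL hCCL hCC2 hCCW hf hUo hD hst hw hwc hκ0 hκc (by linarith) hd n2 n4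
    (n3.trans hδc) hCt2 hε1 hms hball hL htau
    (hgt.mono fun p hp hx => (hp hx).trans (hCM.trans q1)) n6 (n7.trans hδD) n9 htΛ
    (hint2.trans q3) (hint2.trans hHM) (hen.trans hCM) q2 hefin hei heM hg0 hg1 hgz hgL
  refine key.trans ?_
  exact num5 hKc hC3 hC1 hM3 (by rw [mul_comm]; exact n14)

end Crest.Agent.R234.Fin_618
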