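import Crest.Agent.R234.Grot8_842
import Crest.Agent.R234.Gi1_456

-- ▼ part R234/Grot9_842
section

/-!
# Row 234, node GROT (helper842), part 9: the zoomed, globally small graph

`exists_zoom`: for `w 0 = 0`, `Dw 0 = 0`, `‖D^j w‖ ≤ κ` and `0 < t ≤ 1/16` the function
`t⁻¹ w(t ·)` on `closedBall 0 7` extends to a smooth compactly supported `U` with
`‖D^j U‖ ≤ C κ t` everywhere, for all `j ≤ K + 1`.
-/

set_option autoImplicit false
set_option linter.unusedSectionVars false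

open Set Metric Filter Topology
open scoped ContDiff NNReal RealInnerProductSpace
open Crest.GeometryTopology.Submanifold

noncomputable section

namespace Crest.Agent.R234.Grot_842

open Crest.Agent.R234.Ell1_3 Crest.Agent.R234.Main_456

variable {m n k : ℕ}

theorem fderiv_lip_of {E G : Type} [NormedAddCommGroup E] [NormedSpace ℝ E] [NormedAddCommGroup G]
    [NormedSpace ℝ G] {w : E → G} {κ : ℝ} (hw : ContDiff ℝ ∞ w) (h0 : fderiv ℝ w 0 = 0)
    (hb : ∀ x, ‖iteratedFDeriv ℝ 2 w x‖ ≤ κ) (x : E) : ‖fderiv ℝ w x‖ ≤ κ * ‖x‖ := by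
  have hd : ContDiff ℝ ∞ (fderiv ℝ w) := hw.fderiv_right (by simp)
  have h := Convex.norm_image_sub_le_of_norm_hasFDerivWithin_le (𝕜 := ℝ)
    (f := fderiv ℝ w) (f' := fun z => fderiv ℝ (fderiv ℝ w) z) (s := univ) (C := κ)
    (fun z _ => ((hd.differentiable (by simp)) z).hasFDerivAt.hasFDerivWithinAt)
    (fun z _ => by
      have h1 := hb z
      rwa [← norm_iteratedFDeriv_fderiv, ← norm_iteratedFDeriv_fderiv,
        norm_iteratedFDeriv_zero] at h1)
    convex_univ (mem_univ 0) (mem_univ x)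
  rwa [h0, sub_zero, sub_zero] at h

theorem exists_zoom (m n K : ℕ) (hK : 1 ≤ K) : ∃ C : ℝ, 1 ≤ C ∧ ∀ (w : Euc m → Euc n) (κ : ℝ),
    0 ≤ κ → ContDiff ℝ ∞ w → w 0 = 0 → fderiv ℝ w 0 = 0 →
    (∀ j, 1 ≤ j → j ≤ K + 1 → ∀ y, ‖iteratedFDeriv ℝ j w y‖ ≤ κ) →
    ∀ t : ℝ, 0 < t → t ≤ 1 / 8 → ∃ U : Euc m → Euc n, ContDiff ℝ ∞ U ∧ HasCompactSupport U ∧
      (∀ x, ‖x‖ ≤ 7 → U x = t⁻¹ • w (t • x)) ∧
      (∀ j ≤ K + 1, ∀ x, ‖iteratedFDeriv ℝ j U x‖ ≤ C * κ * t) ∧
      U 0 = 0 ∧ fderiv ℝ U 0 = 0 ∧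
      (∀ x ∈ ball (0 : Euc m) 7, Msys U x = t • Msys w (t • x)) := by
  obtain ⟨χ, hχ, hχ1, hχs, hχ0, hχle, hχc, hχb⟩ := exists_cut (Euc m) (7 / 8) (by norm_num)
    (by norm_num)
  obtain ⟨C1, hC1, hb1⟩ := hχb (K + 1)
  have hA1 : (1:ℝ) ≤ 2 ^ (K + 1) * C1 := by
    have h2 : (1:ℝ) ≤ 2 ^ (K + 1) := one_le_pow₀ (by norm_num)
    calc (1:ℝ) = 1 * 1 := by norm_num
      _ ≤ _ := by gcongr
  refine ⟨64 * (2 ^ (K + 1) * C1), by linarith, ?_⟩
  intro w κ hκ hw hw0 hdw hb t ht ht8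
  have h8t : 0 < 8 * t := by linarith
  have h8t1 : 8 * t ≤ 1 := by linarith
  -- W on the unit ball
  set W : Euc m → Euc n := sc (8 * t) w with hW
  have hWs : ContDiff ℝ ∞ W := sc_contDiff hw
  have hDw : ∀ y, ‖fderiv ℝ w y‖ ≤ κ * ‖y‖ :=
    fderiv_lip_of hw hdw (fun x => hb 2 (by norm_num) (by omega) x)
  have hwn : ∀ y, ‖w y‖ ≤ κ * ‖y‖ ^ 2 := by
    intro y
    have h := Convex.norm_image_sub_le_of_norm_hasFDerivWithin_le (𝕜 := ℝ)
      (f := w) (f' := fun z => fderiv ℝ w z) (s := closedBall (0 : Euc m) ‖y‖) (C := κ * ‖y‖)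
      (fun z _ => ((hw.differentiable (by simp)) z).hasFDerivAt.hasFDerivWithinAt)
      (fun z hz => (hDw z).trans (by
        have := mem_closedBall_zero_iff.1 hz
        gcongr))
      (convex_closedBall _ _) (mem_closedBall_self (norm_nonneg _))
      (mem_closedBall_zero_iff.2 le_rfl)
    rw [hw0, sub_zero, sub_zero] at h
    calc ‖w y‖ ≤ κ * ‖y‖ * ‖y‖ := h
      _ = _ := by ring
  have hWb : ∀ i ≤ K + 1, ∀ x ∈ ball (0 : Euc m) 1, ‖iteratedFDeriv ℝ i W x‖ ≤ 8 * t * κ := by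
    intro i hi x hx
    have hx1 : ‖x‖ ≤ 1 := (mem_ball_zero_iff.1 hx).le
    rcases Nat.lt_or_ge i 2 with h2 | h2
    · interval_cases i
      · rw [norm_iteratedFDeriv_zero, hW, sc_apply, norm_smul, norm_inv,
          Real.norm_of_nonneg h8t.le]
        have h3 := hwn ((8 * t) • x)
        rw [norm_smul, Real.norm_of_nonneg h8t.le] at h3
        calc (8 * t)⁻¹ * ‖w ((8 * t) • x)‖ ≤ (8 * t)⁻¹ * (κ * (8 * t * ‖x‖) ^ 2) := by gcongr
          _ = 8 * t * κ * ‖x‖ ^ 2 := by field_simp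
          _ ≤ 8 * t * κ * 1 ^ 2 := by gcongr
          _ = _ := by ring
      · rw [← norm_iteratedFDeriv_fderiv, norm_iteratedFDeriv_zero, hW, fderiv_sc h8t.ne']
        have h3 := hDw ((8 * t) • x)
        rw [norm_smul, Real.norm_of_nonneg h8t.le] at h3
        calc ‖fderiv ℝ w ((8 * t) • x)‖ ≤ κ * (8 * t * ‖x‖) := h3
          _ ≤ κ * (8 * t * 1) := by gcongr
          _ = _ := by ring
    · have h3 := iter_sc (R := 1) h8t (hw.contDiffOn (s := ball 0 (8 * t * 1)))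
        (j := i) (by omega) (x := x) hx
      have h4 : (8 * t) ^ (i - 1) ≤ 8 * t := by
        calc (8 * t) ^ (i - 1) ≤ (8 * t) ^ 1 :=
              pow_le_pow_of_le_one h8t.le h8t1 (by omega)
          _ = 8 * t := pow_one _
      calc ‖iteratedFDeriv ℝ i W x‖ ≤ (8 * t) ^ (i - 1) * ‖iteratedFDeriv ℝ i w ((8 * t) • x)‖ := h3
        _ ≤ 8 * t * κ := by
            have := hb i (by omega) hi ((8 * t) • x)
            gcongr
  -- cut off
  set Wt : Euc m → Euc n := fun x => χ x • W x with hWt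
  have hWts : ContDiff ℝ ∞ Wt := cut_smooth hχ hχs hWs.contDiffOn
  have hWtb := cut_bound hχ hχs hC1 hb1 (by positivity) hWs.contDiffOn hWb
  have h8 : (0:ℝ) < 1 / 8 := by norm_num
  set U : Euc m → Euc n := sc (1 / 8) Wt with hU
  have hUeq : ∀ x, ‖x‖ ≤ 7 → U x = t⁻¹ • w (t • x) := by
    intro x hx
    have h1 : χ ((1 / 8 : ℝ) • x) = 1 := by
      refine hχ1 _ (mem_closedBall_zero_iff.2 ?_)
      rw [norm_smul, Real.norm_of_nonneg h8.le]; linarith
    rw [hU, sc_apply, hWt]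
    simp only [h1, hW, sc_apply, smul_smul, one_mul]
    have e1 : ((1 / 8 : ℝ))⁻¹ * (8 * t)⁻¹ = t⁻¹ := by field_simp
    have e2 : 8 * t * (1 / 8) = t := by ring
    rw [e1, e2]
  have hUnear : ∀ x ∈ ball (0 : Euc m) 7, U =ᶠ[𝓝 x] sc t w := by
    intro x hx
    filter_upwards [isOpen_ball.mem_nhds hx] with y hy
    exact hUeq y (mem_ball_zero_iff.1 hy).le
  refine ⟨U, sc_contDiff hWts, ?_, hUeq, ?_, ?_, ?_, ?_⟩
  · have h1 : HasCompactSupport Wt := hχc.smul_right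
    have h2 : HasCompactSupport (fun x : Euc m => Wt ((1 / 8 : ℝ) • x)) :=
      h1.comp_homeomorph (Homeomorph.smulOfNeZero (1 / 8 : ℝ) (by norm_num))
    exact h2.smul_left (f := fun _ => (1 / 8 : ℝ)⁻¹)
  · intro j hj x
    rcases Nat.eq_zero_or_pos j with h0 | h0
    · subst h0
      rw [norm_iteratedFDeriv_zero, hU, sc_apply, norm_smul]
      have h3 := hWtb 0 (by omega) ((1 / 8 : ℝ) • x)
      rw [norm_iteratedFDeriv_zero] at h3
      calc ‖((1 / 8 : ℝ))⁻¹‖ * ‖Wt ((1 / 8 : ℝ) • x)‖ ≤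
            8 * (2 ^ (K + 1) * C1 * (8 * t * κ)) := by
              have : ‖((1 / 8 : ℝ))⁻¹‖ = 8 := by norm_num
              rw [this]; gcongr
        _ = _ := by ring
    · have h3 := iter_sc (R := ‖x‖ + 1) h8 (hWts.contDiffOn (s := ball 0 (1 / 8 * (‖x‖ + 1))))
        (j := j) h0 (x := x) (mem_ball_zero_iff.2 (by linarith))
      have h4 := hWtb j hj ((1 / 8 : ℝ) • x)
      have h5 : ((1:ℝ) / 8) ^ (j - 1) ≤ 1 := pow_le_one₀ (by norm_num) (by norm_num)
      calc ‖iteratedFDeriv ℝ j U x‖ ≤ (1 / 8) ^ (j - 1) *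
            ‖iteratedFDeriv ℝ j Wt ((1 / 8 : ℝ) • x)‖ := h3
        _ ≤ 1 * (2 ^ (K + 1) * C1 * (8 * t * κ)) := by gcongr
        _ ≤ 8 * (2 ^ (K + 1) * C1 * (8 * t * κ)) := by
            have : 0 ≤ 2 ^ (K + 1) * C1 * (8 * t * κ) := by positivity
            linarith
        _ = _ := by ring
  · rw [hUeq 0 (by simp)]; simp [hw0]
  · rw [(hUnear 0 (mem_ball_self (by norm_num))).fderiv_eq, fderiv_sc ht.ne', smul_zero, hdw]
  · intro x hx
    have h1 : Msys U x = Msys (sc t w) x := by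
      unfold Msys
      have e1 := (hUnear x hx).fderiv_eq (𝕜 := ℝ)
      have e2 := ((hUnear x hx).fderiv (𝕜 := ℝ)).fderiv_eq (𝕜 := ℝ)
      rw [e1, e2]
    rw [h1, Msys_sc ht.ne']

end Crest.Agent.R234.Grot_842
end
end

-- ▼ part R234/Foot1_842

/-!
# Row 234, node F3-FOOT (helper842): foot points in the adapted (rotated, zoomed) chart

`pt` = point of the graph over `X`. `pt_rot`: same surface in the rotated frame; `foot_rot`: the foot
point of `z` is the same point of the surface in both charts; `foot_zoom`: the same for the zoomed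
globally small graph of `Grot9_842`.
-/

set_option autoImplicit false
set_option linter.unusedSectionVars false

open Set Metric Filter Topology
open scoped ContDiff NNReal RealInnerProductSpace
open Crest.GeometryTopology.Submanifold

noncomputable section

namespace Crest.Agent.R234.Foot_842

open Crest.Agent.R234.Ell1_3 Crest.Agent.R234.Main_456 Crest.Agent.R234.Grot_842
open Crest.Agent.R234.Gi_456 (Gr tube IsFoot foot yy)

local notation "adj" => ContinuousLinearMap.adjoint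

variable {m n k : ℕ}

/-- `w` seen from the point over `X0` -/
def shf (w : Euc m → Euc n) (X0 : Euc m) : Euc m → Euc n := fun a => w (X0 + a) - w X0

theorem shf_zero (w : Euc m → Euc n) (X0 : Euc m) : shf w X0 0 = 0 := by simp [shf]

theorem shf_contDiff {w : Euc m → Euc n} (hw : ContDiff ℝ ∞ w) (X0 : Euc m) :
    ContDiff ℝ ∞ (shf w X0) := (hw.comp (contDiff_const.add contDiff_id)).sub contDiff_const

theorem fderiv_shf (w : Euc m → Euc n) (X0 a : Euc m) :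
    fderiv ℝ (shf w X0) a = fderiv ℝ w (X0 + a) := by
  unfold shf
  rw [fderiv_sub_const, fderiv_comp_add_left]

theorem iter_shf (w : Euc m → Euc n) (X0 a : Euc m) {j : ℕ} (hj : 1 ≤ j) :
    ‖iteratedFDeriv ℝ j (shf w X0) a‖ = ‖iteratedFDeriv ℝ j w (X0 + a)‖ := by
  obtain ⟨i, rfl⟩ : ∃ i, j = i + 1 := ⟨j - 1, by omega⟩
  rw [← norm_iteratedFDeriv_fderiv, ← norm_iteratedFDeriv_fderiv]
  have e : fderiv ℝ (shf w X0) = fun a => fderiv ℝ w (X0 + a) := funext (fderiv_shf w X0)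
  rw [e, iteratedFDeriv_comp_add_left]

theorem Msys_shf (w : Euc m → Euc n) (X0 a : Euc m) : Msys (shf w X0) a = Msys w (X0 + a) := by
  unfold Msys
  have e : fderiv ℝ (shf w X0) = fun a => fderiv ℝ w (X0 + a) := funext (fderiv_shf w X0)
  rw [e]
  have e2 : fderiv ℝ (fun a => fderiv ℝ w (X0 + a)) a = fderiv ℝ (fderiv ℝ w) (X0 + a) :=
    fderiv_comp_add_left (f := fderiv ℝ w) X0
  rw [e2]

/-- the point of the graph over `X` -/
def pt (π : Euc k →L[ℝ] Euc m) (ρ : Euc k →L[ℝ] Euc n) (x : Euc k) (w : Euc m → Euc n)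
    (X : Euc m) : Euc k := x + adj π X + adj ρ (w X)

/-- change of the base coordinate -/
def chg (q : Euc m →L[ℝ] Euc n) (H : Euc m →L[ℝ] Euc m) (v : Euc m → Euc n) (a : Euc m) : Euc m :=
  H (a + adj q (v a))

variable {π : Euc k →L[ℝ] Euc m} {ρ : Euc k →L[ℝ] Euc n} {x : Euc k} {w w' : Euc m → Euc n}
  {X0 : Euc m} {q : Euc m →L[ℝ] Euc n} {H : Euc m →L[ℝ] Euc m} {H' : Euc n →L[ℝ] Euc n}
  {K : ℕ} {C κ : ℝ}

theorem π_pt_sub (hf : Frame π ρ) (X Y : Euc m) : π (pt π ρ x w X - pt π ρ x w Y) = X - Y := by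
  unfold pt
  simp only [map_sub, map_add, fr_ππ hf, fr_πρ hf]; abel

theorem ρ_pt_sub (hf : Frame π ρ) (X Y : Euc m) :
    ρ (pt π ρ x w X - pt π ρ x w Y) = w X - w Y := by
  unfold pt
  simp only [map_sub, map_add, fr_ρρ hf, fr_ρπ hf]; abel

theorem rπ_pt_sub (hf : Frame π ρ) (X : Euc m) :
    rπ π ρ q H (pt π ρ x w X - pt π ρ x w X0) = chg q H (shf w X0) (X - X0) := by
  rw [rπ_apply, π_pt_sub hf, ρ_pt_sub hf, chg, shf, add_sub_cancel]

theorem rρ_pt_sub (hf : Frame π ρ) (X : Euc m) :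
    rρ π ρ q H' (pt π ρ x w X - pt π ρ x w X0) = H' (shf w X0 (X - X0) - q (X - X0)) := by
  rw [rρ_apply, π_pt_sub hf, ρ_pt_sub hf, shf, add_sub_cancel]

/-- **same surface** -/
theorem pt_rot (hf : Frame π ρ) (h : Rot q H H' K C κ (shf w X0) w') {X : Euc m}
    (hX : ‖X - X0‖ ≤ 15 / 16) :
    pt (rπ π ρ q H) (rρ π ρ q H') (pt π ρ x w X0) w' (chg q H (shf w X0) (X - X0)) =
      pt π ρ x w X := by
  have hg := h.graph (X - X0) (mem_closedBall_zero_iff.2 hX)
  have hfr := h.frame hf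
  have h1 := fr_full hfr (pt π ρ x w X - pt π ρ x w X0)
  rw [rπ_pt_sub hf, rρ_pt_sub hf] at h1
  have e : pt (rπ π ρ q H) (rρ π ρ q H') (pt π ρ x w X0) w' (chg q H (shf w X0) (X - X0)) =
      pt π ρ x w X0 + (adj (rπ π ρ q H) (chg q H (shf w X0) (X - X0)) +
        adj (rρ π ρ q H') (w' (chg q H (shf w X0) (X - X0)))) := by
    rw [pt]; abel
  rw [e]
  have e2 : w' (chg q H (shf w X0) (X - X0)) = H' (shf w X0 (X - X0) - q (X - X0)) := hg
  rw [e2, h1]; abel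

theorem fr_inner (hf : Frame π ρ) (a b : Euc k) : ⟪π a, π b⟫ + ⟪ρ a, ρ b⟫ = ⟪a, b⟫ := by
  have h := congrArg (fun w => ⟪w, b⟫) (fr_full hf a)
  simp only [inner_add_left, ContinuousLinearMap.adjoint_inner_left] at h
  exact h

/-- the derivative of the change of base coordinate -/
def dchg (q : Euc m →L[ℝ] Euc n) (H : Euc m →L[ℝ] Euc m) (p : Euc m →L[ℝ] Euc n) :
    Euc m →L[ℝ] Euc m := H ∘L (ContinuousLinearMap.id ℝ (Euc m) + adj q ∘L p)

theorem dchg_apply (p : Euc m →L[ℝ] Euc n) (y : Euc m) : dchg q H p y = H (y + adj q (p y)) := rfl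

theorem hasFDerivAt_chg {v : Euc m → Euc n} {a : Euc m} (hv : DifferentiableAt ℝ v a) :
    HasFDerivAt (chg q H v) (dchg q H (fderiv ℝ v a)) a :=
  H.hasFDerivAt.comp a ((hasFDerivAt_id a).add ((adj q).hasFDerivAt.comp a hv.hasFDerivAt))

theorem Rot.dw' {v : Euc m → Euc n} (h : Rot q H H' K C κ v w') {a : Euc m} (ha : ‖a‖ < 15 / 16)
    (hv : DifferentiableAt ℝ v a) (y : Euc m) :
    fderiv ℝ w' (chg q H v a) (dchg q H (fderiv ℝ v a) y) = H' (fderiv ℝ v a y - q y) := by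
  have h4 : HasFDerivAt (fun x => w' (chg q H v x)) ((fderiv ℝ w' (chg q H v a)) ∘L
      (dchg q H (fderiv ℝ v a))) a :=
    ((h.smooth.differentiable (by simp)) _).hasFDerivAt.comp a (hasFDerivAt_chg hv)
  have h5 : HasFDerivAt (fun x => H' (v x - q x)) (H' ∘L (fderiv ℝ v a - q)) a :=
    H'.hasFDerivAt.comp a (hv.hasFDerivAt.sub q.hasFDerivAt)
  have h6 : HasFDerivAt (fun x => w' (chg q H v x)) (H' ∘L (fderiv ℝ v a - q)) a := by
    refine h5.congr_of_eventuallyEq ?_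
    filter_upwards [isOpen_ball.mem_nhds (mem_ball_zero_iff.2 ha)] with x hx
    exact h.graph x (ball_subset_closedBall hx)
  have h8 := congrArg (fun T : Euc m →L[ℝ] Euc n => T y) (h4.unique h6)
  simpa using h8

theorem dchg_surj (hR : Rt q H H') (p : Euc m →L[ℝ] Euc n) (D : Euc m →L[ℝ] Euc n)
    (hD : ∀ y, D (dchg q H p y) = H' (p y - q y)) : Function.Surjective (dchg q H p) := by
  have hinj : Function.Injective (dchg q H p) := by
    rw [injective_iff_map_eq_zero]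
    intro y hy
    have h1 := hR.isom y y (p y) (p y)
    rw [← dchg_apply, ← hD y, hy, map_zero, inner_zero_left, inner_zero_left] at h1
    have h2 : (0:ℝ) ≤ ⟪p y, p y⟫ := real_inner_self_nonneg
    have h3 : (0:ℝ) ≤ ⟪y, y⟫ := real_inner_self_nonneg
    exact inner_self_eq_zero.1 (by linarith : ⟪y, y⟫ = (0:ℝ))
  exact (LinearMap.injective_iff_surjective (f := (dchg q H p : Euc m →ₗ[ℝ] Euc m))).1 hinj

/-- **normal vectors are normal in both charts** -/
theorem normal_rot (hf : Frame π ρ) (h : Rot q H H' K C κ (shf w X0) w') {X : Euc m}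
    (hX : ‖X - X0‖ < 15 / 16) (hw : DifferentiableAt ℝ w X) {ν : Euc k}
    (hν : π ν + adj (fderiv ℝ w X) (ρ ν) = 0) :
    rπ π ρ q H ν + adj (fderiv ℝ w' (chg q H (shf w X0) (X - X0))) (rρ π ρ q H' ν) = 0 := by
  set a := X - X0 with ha
  have hv : fderiv ℝ (shf w X0) a = fderiv ℝ w X := by rw [fderiv_shf, ha, add_sub_cancel]
  have hvd : DifferentiableAt ℝ (shf w X0) a := by
    have h1 : DifferentiableAt ℝ (fun a => w (X0 + a)) a := by
      have h2 : DifferentiableAt ℝ w (X0 + a) := by rwa [ha, add_sub_cancel]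
      exact h2.comp a ((differentiableAt_const _).add differentiableAt_id)
    exact h1.sub_const _
  set D := fderiv ℝ w' (chg q H (shf w X0) a) with hD
  have hD2 : ∀ y, D (dchg q H (fderiv ℝ w X) y) = H' (fderiv ℝ w X y - q y) := by
    intro y
    have := Rot.dw' h hX hvd y
    rwa [hv] at this
  have hsurj := dchg_surj h.rt (fderiv ℝ w X) D hD2
  refine ext_inner_right ℝ fun Y => ?_
  obtain ⟨y, rfl⟩ := hsurj Y
  rw [inner_zero_left, inner_add_left, ContinuousLinearMap.adjoint_inner_left, hD2]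
  -- τ y
  set τ : Euc k := adj π y + adj ρ (fderiv ℝ w X y) with hτ
  have e3 : π τ = y := by rw [hτ, map_add, fr_ππ hf, fr_πρ hf, add_zero]
  have e4 : ρ τ = fderiv ℝ w X y := by rw [hτ, map_add, fr_ρπ hf, fr_ρρ hf, zero_add]
  have e1 : dchg q H (fderiv ℝ w X) y = rπ π ρ q H τ := by
    rw [rπ_apply, e3, e4, dchg_apply]
  have e2 : H' (fderiv ℝ w X y - q y) = rρ π ρ q H' τ := by
    rw [rρ_apply, e3, e4]
  rw [e1, e2, fr_inner (h.frame hf), ← fr_inner hf]
  rw [e3, e4]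
  have h5 := congrArg (fun w => ⟪w, y⟫) hν
  simpa [inner_add_left, ContinuousLinearMap.adjoint_inner_left] using h5

/-- the normal vector of a foot point -/
theorem foot_normal (hf : Frame π ρ) {r : ℝ} {z : Euc k} {X : Euc m}
    (h : IsFoot π ρ x r w z X) :
    π (z - pt π ρ x w X) + adj (fderiv ℝ w X) (ρ (z - pt π ρ x w X)) = 0 ∧
      ρ (z - pt π ρ x w X) = ρ (z - x) - w X ∧ π (z - pt π ρ x w X) = π (z - x) - X := by
  have e1 : π (z - pt π ρ x w X) = π (z - x) - X := by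
    unfold pt
    simp only [map_sub, map_add, fr_ππ hf, fr_πρ hf]; abel
  have e2 : ρ (z - pt π ρ x w X) = ρ (z - x) - w X := by
    unfold pt
    simp only [map_sub, map_add, fr_ρρ hf, fr_ρπ hf]; abel
  refine ⟨?_, e2, e1⟩
  rw [e1, e2]
  have h2 : adj (fderiv ℝ w X) (ρ (z - x) - w X) = X - π (z - x) :=
    eq_sub_of_add_eq' h.1.symm
  rw [h2]; abel

theorem isFoot_of_normal (hf : Frame π ρ) {r : ℝ} {z : Euc k} {X : Euc m}
    (h : π (z - pt π ρ x w X) + adj (fderiv ℝ w X) (ρ (z - pt π ρ x w X)) = 0)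
    (hr : ‖ρ (z - pt π ρ x w X)‖ ≤ 2 * r) : IsFoot π ρ x r w z X := by
  have e1 : π (z - pt π ρ x w X) = π (z - x) - X := by
    unfold pt
    simp only [map_sub, map_add, fr_ππ hf, fr_πρ hf]; abel
  have e2 : ρ (z - pt π ρ x w X) = ρ (z - x) - w X := by
    unfold pt
    simp only [map_sub, map_add, fr_ρρ hf, fr_ρπ hf]; abel
  rw [e2] at hr h
  rw [e1] at h
  refine ⟨?_, hr⟩
  have h3 : adj (fderiv ℝ w X) (ρ (z - x) - w X) = X - π (z - x) := by
    have := eq_neg_of_add_eq_zero_right h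
    rw [this]; abel
  rw [h3]; abel

/-- **the foot point in the rotated chart** -/
theorem isFoot_rot (hf : Frame π ρ) (h : Rot q H H' K C κ (shf w X0) w') {r : ℝ} {z : Euc k}
    {X : Euc m} (hX : ‖X - X0‖ < 15 / 16) (hw : DifferentiableAt ℝ w X)
    (hz : IsFoot π ρ x r w z X) {r' : ℝ} (hr' : ‖z - pt π ρ x w X‖ ≤ 2 * r') :
    IsFoot (rπ π ρ q H) (rρ π ρ q H') (pt π ρ x w X0) r' w' z
      (chg q H (shf w X0) (X - X0)) := by
  have hn := (foot_normal hf hz).1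
  have h1 := normal_rot hf h hX hw hn
  have hp := pt_rot (x := x) hf h hX.le
  refine isFoot_of_normal (h.frame hf) ?_ ?_
  · rw [hp]; exact h1
  · rw [hp]
    exact (fr_norm_ρ (h.frame hf) _).trans hr'


/-- foot of the scaled graph -/
theorem isFoot_zoom {π : Euc k →L[ℝ] Euc m} {ρ : Euc k →L[ℝ] Euc n}
    {z0 z : Euc k} {U : Euc m → Euc n} {X : Euc m} {r t : ℝ} (ht : 0 < t)
    (hU : ∀ᶠ y in 𝓝 (t⁻¹ • X), U y = t⁻¹ • w (t • y))
    (hz : IsFoot π ρ z0 r w z X) {r' : ℝ} (hr' : ‖ρ (z - z0) - w X‖ ≤ 2 * (t * r')) :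
    IsFoot π ρ 0 r' U (t⁻¹ • (z - z0)) (t⁻¹ • X) ∧
      pt π ρ 0 U (t⁻¹ • X) = t⁻¹ • (pt π ρ z0 w X - z0) := by
  have hUX : U (t⁻¹ • X) = t⁻¹ • w X := by
    have := hU.self_of_nhds
    rwa [smul_smul, mul_inv_cancel₀ ht.ne', one_smul] at this
  have hDU : fderiv ℝ U (t⁻¹ • X) = fderiv ℝ w X := by
    have h1 : fderiv ℝ U (t⁻¹ • X) = fderiv ℝ (sc t w) (t⁻¹ • X) :=
      Filter.EventuallyEq.fderiv_eq (hU.mono fun y hy => hy)
    rw [h1, fderiv_sc ht.ne', smul_smul, mul_inv_cancel₀ ht.ne', one_smul]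
  have e : ρ (t⁻¹ • (z - z0) - 0) - U (t⁻¹ • X) = t⁻¹ • (ρ (z - z0) - w X) := by
    rw [sub_zero, hUX, map_smul, smul_sub]
  refine ⟨⟨?_, ?_⟩, ?_⟩
  · rw [hDU, e, map_smul, sub_zero, map_smul, ← smul_add]
    rw [← hz.1]
  · rw [e, norm_smul, norm_inv, Real.norm_of_nonneg ht.le, inv_mul_le_iff₀ ht]
    linarith
  · unfold pt
    rw [hUX]
    simp only [map_smul, zero_add, smul_sub, smul_add]
    abel

end Crest.Agent.R234.Foot_842
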