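import Crest.Agent.R234.Ar5_870
import Crest.Agent.R234.Fm1_209

-- ▼ part R234/Ft1_209
section

/-!
# Row 234, VF-FERMI, part (T) transport of a varifold by a diffeomorphism, file 1 (helper209)

Algebra: for a projection `S` and an invertible `T`, the orthogonal projection `prj T S` onto
`T (range S)`, the Jacobian `Jac (gam T) S` of `T` on `range S` and the operator `Sig (gam T) S`
(`gam T = T† T - 1`); `prj T S = T ∘ Sig ∘ T†`.
-/

set_option autoImplicit false

open Function Set MeasureTheory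
open scoped InnerProductSpace

noncomputable section

namespace Crest.Agent.R234.Ft_209

open Crest.Agent.R234.Fm_209

section General

variable {E : Type*} [NormedAddCommGroup E] [InnerProductSpace ℝ E] [CompleteSpace E]

/-- the Jacobian on the plane `S` of a metric `1 + g` -/
def Jac (g S : E →L[ℝ] E) : ℝ := Real.sqrt (1 + S ∘L g ∘L S).det

/-- the inverse metric on the plane `S` -/
def Sig (g S : E →L[ℝ] E) : E →L[ℝ] E := S ∘L Ring.inverse (1 + S ∘L g ∘L S) ∘L S

/-- deviation of the pulled back metric from the identity -/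
def gam (T : E →L[ℝ] E) : E →L[ℝ] E := ContinuousLinearMap.adjoint T ∘L T - 1

/-- the orthogonal projection onto the image by `T` of the plane `P` -/
def prj (T P : E →L[ℝ] E) : E →L[ℝ] E := T ∘L Sig (gam T) P ∘L ContinuousLinearMap.adjoint T

/-- orthogonal projections -/
structure IsPj (S : E →L[ℝ] E) : Prop where
  mul : S * S = S
  star : star S = S

omit [CompleteSpace E] in
theorem hat_eq (g S : E →L[ℝ] E) : S ∘L g ∘L S = S * g * S := by
  rw [mul_assoc]; rfl

omit [CompleteSpace E] in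
theorem Jac_eq (g S : E →L[ℝ] E) : Jac g S = Real.sqrt (1 + S * g * S).det := by
  rw [Jac, hat_eq]

omit [CompleteSpace E] in
theorem Sig_eq (g S : E →L[ℝ] E) : Sig g S = S * Ring.inverse (1 + S * g * S) * S := by
  rw [Sig, hat_eq, mul_assoc]; rfl

theorem gam_eq (T : E →L[ℝ] E) : gam T = star T * T - 1 := rfl

theorem prj_eq (T P : E →L[ℝ] E) : prj T P = T * Sig (gam T) P * star T := by
  rw [mul_assoc]; rfl

omit [CompleteSpace E] in
theorem Jac_nonneg (g S : E →L[ℝ] E) : 0 ≤ Jac g S := Real.sqrt_nonneg _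

theorem star_gam (T : E →L[ℝ] E) : star (gam T) = gam T := by
  rw [gam_eq, star_sub, star_mul, star_star, star_one]

theorem inner_star (A : E →L[ℝ] E) (x y : E) : ⟪(star A) x, y⟫_ℝ = ⟪x, A y⟫_ℝ :=
  ContinuousLinearMap.adjoint_inner_left A y x

theorem IsPj.inner {S : E →L[ℝ] E} (hS : IsPj S) (x y : E) : ⟪S x, y⟫_ℝ = ⟪x, S y⟫_ℝ := by
  conv_lhs => rw [← hS.star]
  exact inner_star S x y

theorem IsPj.app {S : E →L[ℝ] E} (hS : IsPj S) (x : E) : S (S x) = S x :=
  congrArg (fun A : E →L[ℝ] E => A x) hS.mul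

/-- positivity of `1 + S γ S` -/
theorem hat_inner {S : E →L[ℝ] E} (hS : IsPj S) (T : E →L[ℝ] E) (v : E) :
    ⟪(1 + S * gam T * S) v, v⟫_ℝ = ‖v - S v‖ ^ 2 + ‖T (S v)‖ ^ 2 := by
  have h1 : (1 + S * gam T * S) v = v + S ((star T) (T (S v)) - S v) := rfl
  rw [h1, inner_add_left, hS.inner, inner_sub_left, inner_star,
    real_inner_self_eq_norm_sq, real_inner_self_eq_norm_sq, real_inner_self_eq_norm_sq,
    norm_sub_sq_real]
  have h4 : ⟪v, S v⟫_ℝ = ‖S v‖ ^ 2 := by
    rw [← real_inner_self_eq_norm_sq, hS.inner, hS.app]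
  rw [h4]
  ring

theorem hat_pos {S T : E →L[ℝ] E} (hS : IsPj S) (hT : Injective T) {v : E} (hv : v ≠ 0) :
    0 < ⟪(1 + S * gam T * S) v, v⟫_ℝ := by
  rw [hat_inner hS]
  by_contra hcon
  have h1 : ‖v - S v‖ ^ 2 = 0 := by nlinarith [sq_nonneg ‖v - S v‖, sq_nonneg ‖T (S v)‖]
  have h2 : ‖T (S v)‖ ^ 2 = 0 := by nlinarith [sq_nonneg ‖v - S v‖, sq_nonneg ‖T (S v)‖]
  have h3 : T (S v) = 0 := by simpa using h2
  have h4 : S v = 0 := hT (by rw [h3, map_zero])
  rw [h4, sub_zero] at h1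
  exact hv (by simpa using h1)

variable [FiniteDimensional ℝ E]

omit [CompleteSpace E] in
/-- an operator with positive quadratic form has positive determinant -/
theorem det_pos_of {A : E →L[ℝ] E} (hA : ∀ v : E, v ≠ 0 → 0 < ⟪A v, v⟫_ℝ) : 0 < A.det := by
  have hne : ∀ t ∈ Set.Icc (0:ℝ) 1, (1 + t • (A - 1) : E →L[ℝ] E).det ≠ 0 := by
    intro t ht h0
    obtain ⟨v, hv, hv0⟩ : ∃ v : E, (1 + t • (A - 1) : E →L[ℝ] E) v = 0 ∧ v ≠ 0 := by
      have h1 : ⊥ < LinearMap.ker ((1 + t • (A - 1) : E →L[ℝ] E) : E →ₗ[ℝ] E) :=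
        LinearMap.bot_lt_ker_of_det_eq_zero h0
      obtain ⟨v, hv, hv0⟩ := (Submodule.ne_bot_iff _).1 h1.ne'
      exact ⟨v, hv, hv0⟩
    have h2 : ⟪(1 + t • (A - 1) : E →L[ℝ] E) v, v⟫_ℝ = (1 - t) * ‖v‖ ^ 2 + t * ⟪A v, v⟫_ℝ := by
      have : (1 + t • (A - 1) : E →L[ℝ] E) v = v + t • (A v - v) := rfl
      rw [this, inner_add_left, inner_smul_left, inner_sub_left, real_inner_self_eq_norm_sq]
      simp only [conj_trivial]
      ring
    rw [hv, inner_zero_left] at h2
    have h3 := hA v hv0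
    have h4 : 0 < ‖v‖ ^ 2 := by positivity
    rcases eq_or_lt_of_le ht.1 with h5 | h5
    · rw [← h5] at h2; linarith
    · nlinarith [mul_pos h5 h3, mul_nonneg (sub_nonneg.2 ht.2) h4.le]
  have hc : Continuous fun t : ℝ => (1 + t • (A - 1) : E →L[ℝ] E).det :=
    continuous_det.comp (continuous_const.add (continuous_id.smul continuous_const))
  by_contra hcon
  push Not at hcon
  have h1 : (1 + (1:ℝ) • (A - 1) : E →L[ℝ] E) = A := by rw [one_smul]; abel
  have h0 : (1 + (0:ℝ) • (A - 1) : E →L[ℝ] E) = 1 := by rw [zero_smul, add_zero]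
  have h2 : (0:ℝ) ∈ Set.Icc ((1 + (1:ℝ) • (A - 1) : E →L[ℝ] E).det)
      ((1 + (0:ℝ) • (A - 1) : E →L[ℝ] E).det) := by
    rw [h1, h0, det_one]
    exact ⟨hcon, zero_le_one⟩
  obtain ⟨t, ht, ht0⟩ := intermediate_value_Icc' (zero_le_one (α := ℝ)) hc.continuousOn h2
  exact hne t ht ht0

omit [CompleteSpace E] in
theorem isUnit_of_det {A : E →L[ℝ] E} (h : A.det ≠ 0) : IsUnit A := by
  let e : E ≃ₗ[ℝ] E := LinearMap.equivOfDetNeZero (A : E →ₗ[ℝ] E) h
  let B : E →L[ℝ] E := LinearMap.toContinuousLinearMap (e.symm : E →ₗ[ℝ] E)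
  refine ⟨⟨A, B, ?_, ?_⟩, rfl⟩
  · ext1 v
    exact e.apply_symm_apply v
  · ext1 v
    exact e.symm_apply_apply v

theorem det_hat_pos {S T : E →L[ℝ] E} (hS : IsPj S) (hT : Injective T) :
    0 < (1 + S * gam T * S).det :=
  det_pos_of fun _ hv => hat_pos hS hT hv

theorem Jac_pos {S T : E →L[ℝ] E} (hS : IsPj S) (hT : Injective T) : 0 < Jac (gam T) S := by
  rw [Jac_eq]
  exact Real.sqrt_pos.2 (det_hat_pos hS hT)

theorem isUnit_hat {S T : E →L[ℝ] E} (hS : IsPj S) (hT : Injective T) :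
    IsUnit (1 + S * gam T * S) := isUnit_of_det (det_hat_pos hS hT).ne'

/-! ### algebra of `Sig` -/

omit [FiniteDimensional ℝ E] in
theorem hat_mul {S T : E →L[ℝ] E} (hS : IsPj S) :
    (1 + S * gam T * S) * S = S * (star T * T) * S := by
  rw [add_mul, one_mul, mul_assoc (S * gam T), hS.mul, gam_eq, mul_sub, mul_one, sub_mul, hS.mul]
  abel

omit [FiniteDimensional ℝ E] in
theorem mul_hat {S T : E →L[ℝ] E} (hS : IsPj S) :
    S * (1 + S * gam T * S) = S * (star T * T) * S := by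
  rw [mul_add, mul_one, mul_assoc S (gam T), ← mul_assoc S S, hS.mul, gam_eq, sub_mul, mul_sub,
    one_mul, hS.mul, mul_assoc]
  abel

theorem inv_comm {S T : E →L[ℝ] E} (hS : IsPj S) (hT : Injective T) :
    Ring.inverse (1 + S * gam T * S) * S = S * Ring.inverse (1 + S * gam T * S) := by
  set H := 1 + S * gam T * S with hH
  have hu : IsUnit H := isUnit_hat hS hT
  have h1 : H * S = S * H := by rw [hH, hat_mul hS, mul_hat hS]
  calc Ring.inverse H * S = Ring.inverse H * S * (H * Ring.inverse H) := by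
        rw [Ring.mul_inverse_cancel H hu, mul_one]
    _ = Ring.inverse H * (S * H) * Ring.inverse H := by simp only [mul_assoc]
    _ = Ring.inverse H * (H * S) * Ring.inverse H := by rw [h1]
    _ = (Ring.inverse H * H) * (S * Ring.inverse H) := by simp only [mul_assoc]
    _ = _ := by rw [Ring.inverse_mul_cancel H hu, one_mul]

theorem Sig_eq' {S T : E →L[ℝ] E} (hS : IsPj S) (hT : Injective T) :
    Sig (gam T) S = Ring.inverse (1 + S * gam T * S) * S := by
  rw [Sig_eq, ← inv_comm hS hT, mul_assoc, hS.mul]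


theorem Sig_mul {S T : E →L[ℝ] E} (hS : IsPj S) (hT : Injective T) :
    Sig (gam T) S * (star T * T) * S = S := by
  rw [Sig_eq' hS hT, mul_assoc, mul_assoc, ← mul_assoc S, ← hat_mul hS, ← mul_assoc,
    Ring.inverse_mul_cancel _ (isUnit_hat hS hT), one_mul]


omit [FiniteDimensional ℝ E] in
theorem S_Sig {S : E →L[ℝ] E} (g : E →L[ℝ] E) (hS : IsPj S) : S * Sig g S = Sig g S := by
  rw [Sig_eq, ← mul_assoc, ← mul_assoc, hS.mul]


theorem Sig_G_Sig {S T : E →L[ℝ] E} (hS : IsPj S) (hT : Injective T) :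
    Sig (gam T) S * (star T * T) * Sig (gam T) S = Sig (gam T) S := by
  calc Sig (gam T) S * (star T * T) * Sig (gam T) S
      = Sig (gam T) S * (star T * T) * (S * Sig (gam T) S) := by rw [S_Sig _ hS]
    _ = (Sig (gam T) S * (star T * T) * S) * Sig (gam T) S := by simp only [mul_assoc]
    _ = _ := by rw [Sig_mul hS hT, S_Sig _ hS]

omit [FiniteDimensional ℝ E] in
theorem star_inverse {A : E →L[ℝ] E} (hA : IsUnit A) :
    star (Ring.inverse A) = Ring.inverse (star A) := by
  have h1 : IsUnit (star A) := hA.star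
  calc star (Ring.inverse A) = star (Ring.inverse A) * (star A * Ring.inverse (star A)) := by
        rw [Ring.mul_inverse_cancel _ h1, mul_one]
    _ = star (A * Ring.inverse A) * Ring.inverse (star A) := by rw [star_mul, mul_assoc]
    _ = _ := by rw [Ring.mul_inverse_cancel _ hA, star_one, one_mul]

theorem star_Sig {S T : E →L[ℝ] E} (hS : IsPj S) (hT : Injective T) :
    star (Sig (gam T) S) = Sig (gam T) S := by
  have h1 : star (1 + S * gam T * S) = 1 + S * gam T * S := by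
    rw [star_add, star_one, star_mul, star_mul, hS.star, star_gam, mul_assoc]
  rw [Sig_eq, star_mul, star_mul, star_inverse (isUnit_hat hS hT), h1, hS.star]
  exact (mul_assoc _ _ _).symm

theorem isPj_prj {S T : E →L[ℝ] E} (hS : IsPj S) (hT : Injective T) : IsPj (prj T S) where
  mul := by
    rw [prj_eq]
    calc T * Sig (gam T) S * star T * (T * Sig (gam T) S * star T)
        = T * (Sig (gam T) S * (star T * T) * Sig (gam T) S) * star T := by
          simp only [mul_assoc]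
      _ = _ := by rw [Sig_G_Sig hS hT]
  star := by
    rw [prj_eq, star_mul, star_mul, star_star, star_Sig hS hT, mul_assoc]

theorem prj_mul {S T : E →L[ℝ] E} (hS : IsPj S) (hT : Injective T) :
    prj T S * (T * S) = T * S := by
  rw [prj_eq]
  calc T * Sig (gam T) S * star T * (T * S)
      = T * (Sig (gam T) S * (star T * T) * S) := by simp only [mul_assoc]
    _ = _ := by rw [Sig_mul hS hT]

theorem trc_prj {S T : E →L[ℝ] E} (hS : IsPj S) (hT : Injective T) :
    trc E (prj T S) = trc E S := by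
  have h1 : prj T S = (T * Sig (gam T) S) ∘L star T := rfl
  rw [h1, trc_comp_comm]
  have h2 : star T ∘L (T * Sig (gam T) S) = (star T * T) ∘L Sig (gam T) S := rfl
  rw [h2, ← S_Sig _ hS]
  have h3 : (star T * T) ∘L (S * Sig (gam T) S) = (star T * T * S) ∘L Sig (gam T) S := rfl
  rw [h3, trc_comp_comm]
  have h4 : Sig (gam T) S ∘L (star T * T * S) = Sig (gam T) S * (star T * T) * S := by
    rw [mul_assoc (Sig (gam T) S)]; rfl
  rw [h4, Sig_mul hS hT]

/-- a projection is determined by its trace and the vectors it fixes -/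
theorem eq_of_mul {P Q : E →L[ℝ] E} (hP : IsPj P) (hQ : IsPj Q) (h : P * Q = Q)
    (ht : trc E P = trc E Q) : P = Q := by
  have h1 : Q * P = Q := by
    have := congrArg star h
    rwa [star_mul, hP.star, hQ.star] at this
  have h2 : star (P - Q) * (P - Q) = P - Q := by
    rw [star_sub, hP.star, hQ.star, mul_sub, sub_mul, sub_mul, hP.mul, hQ.mul, h, h1]
    abel
  have h3 : trc E (star (P - Q) * (P - Q)) = 0 := by rw [h2, map_sub, ht, sub_self]
  set b := stdOrthonormalBasis ℝ E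
  have h4 : trc E (star (P - Q) * (P - Q)) = ∑ i, ‖(P - Q) (b i)‖ ^ 2 := by
    rw [trc_apply, LinearMap.trace_eq_sum_inner _ b]
    refine Finset.sum_congr rfl fun i _ => ?_
    have h5 : ⟪b i, (star (P - Q)) ((P - Q) (b i))⟫_ℝ = ‖(P - Q) (b i)‖ ^ 2 := by
      rw [real_inner_comm, inner_star, real_inner_self_eq_norm_sq]
    exact h5
  have h6 : ∀ i, (P - Q) (b i) = 0 := by
    intro i
    have h7 := (Finset.sum_eq_zero_iff_of_nonneg (fun i _ => sq_nonneg ‖(P - Q) (b i)‖)).1
      (h4.symm.trans h3) i (Finset.mem_univ i)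
    simpa using h7
  have h8 : P - Q = 0 := by
    have h9 : ((P - Q : E →L[ℝ] E) : E →ₗ[ℝ] E) = 0 := b.toBasis.ext fun i => by
      simpa using h6 i
    ext1 v
    exact congrArg (fun A : E →ₗ[ℝ] E => A v) h9
  exact sub_eq_zero.1 h8

omit [CompleteSpace E] [FiniteDimensional ℝ E] in
theorem inj_of_mul {T T' : E →L[ℝ] E} (h1 : T' * T = 1) : Injective T := fun x y h => by
  have e1 : T' (T x) = x := congrArg (fun A : E →L[ℝ] E => A x) h1
  have e2 : T' (T y) = y := congrArg (fun A : E →L[ℝ] E => A y) h1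
  rw [← e1, ← e2, h]

/-- transport and back -/
theorem prj_prj {S T T' : E →L[ℝ] E} (hS : IsPj S) (h1 : T' * T = 1) (h2 : T * T' = 1) :
    prj T' (prj T S) = S := by
  have hT : Injective T := inj_of_mul h1
  have hT' : Injective T' := inj_of_mul h2
  have hP := isPj_prj hS hT
  have hR := isPj_prj hP hT'
  refine eq_of_mul hR hS ?_ ?_
  · set R := prj T' (prj T S) with hRd
    have h3 : R * (T' * prj T S) = T' * prj T S := prj_mul hP hT'
    have h4 : T' * prj T S = Sig (gam T) S * star T := by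
      rw [prj_eq, mul_assoc, ← mul_assoc, h1, one_mul]
    rw [h4] at h3
    have h5 : R * Sig (gam T) S = Sig (gam T) S := by
      have h6 : star T * star T' = 1 := by rw [← star_mul, h1, star_one]
      have h7 := congrArg (fun A => A * star T') h3
      simp only [mul_assoc, h6, mul_one] at h7
      exact h7
    have h8 := congrArg (fun A => A * ((star T * T) * S)) h5
    rw [mul_assoc, ← mul_assoc (Sig (gam T) S), Sig_mul hS hT] at h8
    exact h8
  · rw [trc_prj hP hT', trc_prj hS hT]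

end General

end Crest.Agent.R234.Ft_209
end
end

-- ▼ part R234/Ft2_209
section

/-!
# Row 234, VF-FERMI, part (T) transport of a varifold by a diffeomorphism, file 2 (helper209)

Tangent planes and Jacobians of a composed chart; the pointwise identity of the first variation.
-/

set_option autoImplicit false

open Function Set MeasureTheory Crest.GeometryTopology.Submanifold
open scoped InnerProductSpace

noncomputable section

namespace Crest.Agent.R234.Ft_209

open Crest.Agent.R234.Fm_209 Crest.Agent.R234.Vf_884 Crest.Agent.R234.Ar_870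

variable {m k : ℕ}

theorem tr_eq_trc (A : L k) : tr A = trc (Euc k) A := rfl

theorem isPj_of_G {P : L k} (h : P ∈ G m k) : IsPj P := ⟨h.1, h.2.1⟩

theorem mem_G_iff {P : L k} : P ∈ G m k ↔ IsPj P ∧ trc (Euc k) P = m :=
  ⟨fun h => ⟨isPj_of_G h, h.2.2⟩, fun h => ⟨h.1.mul, h.1.star, h.2⟩⟩

theorem prj_mem_G {P T : L k} (h : P ∈ G m k) (hT : Injective T) : prj T P ∈ G m k :=
  mem_G_iff.2 ⟨isPj_prj (isPj_of_G h) hT, by rw [trc_prj (isPj_of_G h) hT]; exact h.2.2⟩

theorem G_eq_of_mul {P Q : L k} (hP : P ∈ G m k) (hQ : Q ∈ G m k) (h : P * Q = Q) : P = Q :=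
  eq_of_mul (isPj_of_G hP) (isPj_of_G hQ) h
    ((mem_G_iff.1 hP).2.trans (mem_G_iff.1 hQ).2.symm)

theorem prj_prj_G {P T T' : L k} (h : P ∈ G m k) (h1 : T' * T = 1) (h2 : T * T' = 1) :
    prj T' (prj T P) = P := prj_prj (isPj_of_G h) h1 h2

section Chart

variable {f : Euc m → Euc k} {a : Euc m} {Φ : Euc k → Euc k}

theorem projF_comp_fderiv (f : Euc m → Euc k) (a : Euc m) (v : Euc m) :
    projF f a (fderiv ℝ f a v) = fderiv ℝ f a v :=
  congrArg (fun A : Euc m →L[ℝ] Euc k => A v) (tp_comp f a)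

theorem projF_mem_range (f : Euc m → Euc k) (a : Euc m) (v : Euc k) :
    ∃ w, fderiv ℝ f a w = projF f a v := by
  obtain ⟨w, hw⟩ := tp_mem f a v
  exact ⟨w, hw⟩

/-- the tangent plane of the composed chart -/
theorem projF_comp (hf : DifferentiableAt ℝ f a) (hΦ : DifferentiableAt ℝ Φ (f a))
    (hinj : Injective (fderiv ℝ f a)) (hT : Injective (fderiv ℝ Φ (f a))) :
    projF (Φ ∘ f) a = prj (fderiv ℝ Φ (f a)) (projF f a) := by
  have hd : fderiv ℝ (Φ ∘ f) a = (fderiv ℝ Φ (f a)) ∘L (fderiv ℝ f a) := fderiv_comp a hΦ hf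
  have hinj' : Injective (fderiv ℝ (Φ ∘ f) a) := by
    rw [hd]
    exact hT.comp hinj
  symm
  refine G_eq_of_mul (prj_mem_G (projF_mem_G hinj) hT) (projF_mem_G hinj') ?_
  ext1 v
  obtain ⟨w, hw⟩ := projF_mem_range (Φ ∘ f) a v
  have h1 : prj (fderiv ℝ Φ (f a)) (projF f a) (fderiv ℝ Φ (f a) (projF f a (fderiv ℝ f a w))) =
      fderiv ℝ Φ (f a) (projF f a (fderiv ℝ f a w)) :=
    congrArg (fun A : L k => A (fderiv ℝ f a w)) (prj_mul (isPj_of_G (projF_mem_G hinj)) hT)
  rw [projF_comp_fderiv] at h1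
  change prj (fderiv ℝ Φ (f a)) (projF f a) (projF (Φ ∘ f) a v) = projF (Φ ∘ f) a v
  rw [← hw, hd]
  exact h1

theorem exists_left (hinj : Injective (fderiv ℝ f a)) :
    ∃ B : Euc k →L[ℝ] Euc m, fderiv ℝ f a ∘L B = projF f a ∧
      B ∘L fderiv ℝ f a = ContinuousLinearMap.id ℝ (Euc m) := by
  choose w hw using projF_mem_range f a
  let B₀ : Euc k →ₗ[ℝ] Euc m :=
    { toFun := w
      map_add' := fun x y => hinj (by rw [map_add, hw, hw, hw, map_add])
      map_smul' := fun c x => hinj (by rw [RingHom.id_apply, map_smul, hw, hw, map_smul]) }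
  refine ⟨LinearMap.toContinuousLinearMap B₀, ?_, ?_⟩
  · ext1 v
    exact hw v
  · ext1 v
    refine hinj ?_
    exact (hw (fderiv ℝ f a v)).trans (projF_comp_fderiv f a v)

theorem det_mul (A B : Euc m →L[ℝ] Euc m) : (A ∘L B).det = A.det * B.det :=
  LinearMap.det_comp _ _

/-- the Jacobian of the composed chart -/
theorem jac_comp (hf : DifferentiableAt ℝ f a) (hΦ : DifferentiableAt ℝ Φ (f a))
    (hinj : Injective (fderiv ℝ f a)) :
    jac (Φ ∘ f) a = jac f a * Jac (gam (fderiv ℝ Φ (f a))) (projF f a) := by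
  set B := fderiv ℝ f a with hB
  set T := fderiv ℝ Φ (f a) with hT
  have hd : fderiv ℝ (Φ ∘ f) a = T ∘L B := fderiv_comp a hΦ hf
  obtain ⟨C, hC1, hC2⟩ := exists_left hinj
  rw [← hB] at hC1 hC2
  set S := projF f a with hS
  have hSB : S ∘L B = B := tp_comp f a
  have hSa : ContinuousLinearMap.adjoint S = S := adjoint_tp f a
  have hBS : ContinuousLinearMap.adjoint B ∘L S = ContinuousLinearMap.adjoint B := by
    have := congrArg ContinuousLinearMap.adjoint hSB
    rwa [ContinuousLinearMap.adjoint_comp, hSa] at this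
  have h1 : (1 + S * gam T * S).det =
      (C ∘L (ContinuousLinearMap.adjoint T ∘L T) ∘L B).det := by
    have e1 : S * gam T * S = B ∘L (C ∘L (gam T * S)) := by
      have : B ∘L (C ∘L (gam T * S)) = (B ∘L C) ∘L (gam T * S) := rfl
      rw [this, hC1]
      exact mul_assoc _ _ _
    rw [e1, det_one_add_comm]
    congr 1
    have e2 : (C ∘L (gam T * S)) ∘L B = C ∘L gam T ∘L (S ∘L B) := rfl
    rw [e2, hSB]
    have e3 : C ∘L gam T ∘L B = C ∘L (ContinuousLinearMap.adjoint T ∘L T) ∘L B - C ∘L B := by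
      ext1 v
      change C (ContinuousLinearMap.adjoint T (T (B v)) - B v) = _
      rw [map_sub]
      rfl
    rw [e3, hC2]
    exact add_sub_cancel _ _
  have h2 : (ContinuousLinearMap.adjoint B ∘L B).det *
      (C ∘L (ContinuousLinearMap.adjoint T ∘L T) ∘L B).det =
      (ContinuousLinearMap.adjoint (T ∘L B) ∘L (T ∘L B)).det := by
    rw [← det_mul]
    congr 1
    have e1 : (ContinuousLinearMap.adjoint B ∘L B) ∘L
        (C ∘L (ContinuousLinearMap.adjoint T ∘L T) ∘L B) =
        (ContinuousLinearMap.adjoint B ∘L (B ∘L C)) ∘L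
          ((ContinuousLinearMap.adjoint T ∘L T) ∘L B) := rfl
    rw [e1, hC1, hBS, ContinuousLinearMap.adjoint_comp]
    rfl
  have h3 : 0 ≤ jac f a := Real.sqrt_nonneg _
  have h4 : 0 ≤ jac (Φ ∘ f) a := Real.sqrt_nonneg _
  have h5 : jac (Φ ∘ f) a ^ 2 = jac f a ^ 2 * (1 + S * gam T * S).det := by
    rw [jac_sq, jac_sq, hd, h1, h2]
  rw [Jac_eq, ← Real.sqrt_sq h4, h5, Real.sqrt_mul (sq_nonneg _), Real.sqrt_sq h3]

end Chart

end Crest.Agent.R234.Ft_209
end
end

-- ▼ part R234/Ft3_209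

/-!
# Row 234, VF-FERMI, part (T) transport of a varifold by a diffeomorphism, file 3 (helper209)

Global `C²` diffeomorphisms `Dif k`, the metric `T.Gm`, the pointwise identity of the first
variation `tr_pt`.
-/

set_option autoImplicit false

open Function Set MeasureTheory Crest.GeometryTopology.Submanifold
open scoped InnerProductSpace ENNReal

noncomputable section

namespace Crest.Agent.R234.Ft_209

open Crest.Agent.R234.Fm_209 Crest.Agent.R234.Vf_884 Crest.Agent.R234.Ar_870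

section General

variable {E : Type*} [NormedAddCommGroup E] [InnerProductSpace ℝ E] [CompleteSpace E]
  [FiniteDimensional ℝ E]

theorem trc_star (A : E →L[ℝ] E) : trc E (star A) = trc E A := by
  set b := stdOrthonormalBasis ℝ E
  rw [trc_apply, trc_apply, LinearMap.trace_eq_sum_inner _ b, LinearMap.trace_eq_sum_inner _ b]
  refine Finset.sum_congr rfl fun i _ => ?_
  change ⟪b i, (star A) (b i)⟫_ℝ = ⟪b i, A (b i)⟫_ℝ
  rw [real_inner_comm, inner_star]

omit [CompleteSpace E] in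
theorem trc_mul_comm (A B : E →L[ℝ] E) : trc E (A * B) = trc E (B * A) := trc_comp_comm A B

/-- symmetrisation of the derivative of the metric -/
theorem trc_sym {S A B : E →L[ℝ] E} (hS : star S = S) :
    trc E (S * (star A * B)) = 1 / 2 * trc E (S * (star B * A + star A * B)) := by
  have h1 : trc E (S * (star B * A)) = trc E (S * (star A * B)) := by
    rw [← trc_star (S * (star B * A)), star_mul, star_mul, star_star, hS, trc_mul_comm]
  rw [mul_add, map_add, h1]
  ring

end General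

/-- global `C²` diffeomorphisms of `ℝ^k` -/
structure Dif (k : ℕ) where
  Φ : Euc k → Euc k
  Ψ : Euc k → Euc k
  cΦ : ContDiff ℝ 2 Φ
  cΨ : ContDiff ℝ 2 Ψ
  left : ∀ z, Ψ (Φ z) = z
  right : ∀ q, Φ (Ψ q) = q

namespace Dif

variable {m k : ℕ} (T : Dif k)

/-- the inverse diffeomorphism -/
def symm : Dif k := ⟨T.Ψ, T.Φ, T.cΨ, T.cΦ, T.right, T.left⟩

/-- the derivative of the chart -/
def A (z : Euc k) : L k := fderiv ℝ T.Φ z

/-- the derivative of the inverse -/
def B (q : Euc k) : L k := fderiv ℝ T.Ψ q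

/-- the pulled back metric -/
def Gm (z : Euc k) : L k := ContinuousLinearMap.adjoint (T.A z) ∘L T.A z

/-- deviation of the metric from the identity -/
def gm (z : Euc k) : L k := gam (T.A z)

theorem dΦ : Differentiable ℝ T.Φ := T.cΦ.differentiable two_ne_zero

theorem dΨ : Differentiable ℝ T.Ψ := T.cΨ.differentiable two_ne_zero

theorem injΨ : Injective T.Ψ := fun x y h => by rw [← T.right x, h, T.right]


theorem contA : ContDiff ℝ 1 T.A := T.cΦ.fderiv_right le_rfl

theorem contB : ContDiff ℝ 1 T.B := T.cΨ.fderiv_right le_rfl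

theorem BA (z : Euc k) : T.B (T.Φ z) * T.A z = 1 := by
  have h1 : T.Ψ ∘ T.Φ = id := funext T.left
  have h2 : fderiv ℝ (T.Ψ ∘ T.Φ) z = T.B (T.Φ z) ∘L T.A z :=
    fderiv_comp z (T.dΨ _) (T.dΦ _)
  rw [h1, fderiv_id] at h2
  exact h2.symm

theorem AB (q : Euc k) : T.A (T.Ψ q) * T.B q = 1 := T.symm.BA q

theorem AB' (z : Euc k) : T.A z * T.B (T.Φ z) = 1 := by
  have := T.AB (T.Φ z)
  rwa [T.left] at this

theorem BA' (q : Euc k) : T.B q * T.A (T.Ψ q) = 1 := T.symm.AB' q

theorem injA (z : Euc k) : Injective (T.A z) := inj_of_mul (T.BA z)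

theorem injB (q : Euc k) : Injective (T.B q) := inj_of_mul (T.AB q)

theorem gm_eq (z : Euc k) : T.gm z = T.Gm z - 1 := rfl

/-- the transported vector field -/
def fld (ζ : Euc k → Euc k) (q : Euc k) : Euc k := T.A (T.Ψ q) (ζ (T.Ψ q))

theorem contDiff_fld {ζ : Euc k → Euc k} (hζ : ContDiff ℝ 1 ζ) : ContDiff ℝ 1 (T.fld ζ) :=
  (T.contA.comp (T.cΨ.of_le one_le_two)).clm_apply (hζ.comp (T.cΨ.of_le one_le_two))

theorem continuousΨ : Continuous T.Ψ := T.cΨ.continuous

theorem continuousΦ : Continuous T.Φ := T.cΦ.continuous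


theorem image_eq (s : Set (Euc k)) : T.Φ '' s = T.Ψ ⁻¹' s := by
  ext q
  constructor
  · rintro ⟨z, hz, rfl⟩
    rw [mem_preimage, T.left]
    exact hz
  · intro h
    exact ⟨T.Ψ q, h, T.right q⟩

theorem tsupport_fld (ζ : Euc k → Euc k) : tsupport (T.fld ζ) ⊆ T.Φ '' tsupport ζ := by
  rw [T.image_eq]
  refine closure_minimal ?_ ((isClosed_tsupport ζ).preimage T.continuousΨ)
  intro q hq
  refine subset_tsupport ζ ?_
  rw [mem_support] at hq ⊢
  intro h
  exact hq (by simp [fld, h])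

theorem hasCompactSupport_fld {ζ : Euc k → Euc k} (hζ : HasCompactSupport ζ) :
    HasCompactSupport (T.fld ζ) :=
  HasCompactSupport.of_support_subset_isCompact (hζ.isCompact.image T.continuousΦ)
    ((subset_tsupport _).trans (T.tsupport_fld ζ))

theorem fderiv_fld {ζ : Euc k → Euc k} (hζ : ContDiff ℝ 1 ζ) (z : Euc k) :
    fderiv ℝ (T.fld ζ) (T.Φ z) =
      (fderiv ℝ T.A z (ζ z) + T.A z ∘L fderiv ℝ ζ z) ∘L T.B (T.Φ z) := by
  have h1 : T.fld ζ ∘ T.Φ = fun z => T.A z (ζ z) := by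
    funext w
    simp only [comp_apply, fld, T.left]
  have hAd : DifferentiableAt ℝ T.A z := (T.contA.differentiable one_ne_zero) z
  have hζd : DifferentiableAt ℝ ζ z := (hζ.differentiable one_ne_zero) z
  have h2 : fderiv ℝ (T.fld ζ ∘ T.Φ) z = fderiv ℝ (T.fld ζ) (T.Φ z) ∘L T.A z :=
    fderiv_comp z ((T.contDiff_fld hζ).differentiable one_ne_zero _) (T.dΦ _)
  have h3 : fderiv ℝ (fun z => T.A z (ζ z)) z =
      (T.A z).comp (fderiv ℝ ζ z) + (fderiv ℝ T.A z).flip (ζ z) := fderiv_clm_apply hAd hζd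
  have hsym : (fderiv ℝ T.A z).flip (ζ z) = fderiv ℝ T.A z (ζ z) := by
    ext1 v
    have h5 : IsSymmSndFDerivAt ℝ T.Φ z :=
      (T.cΦ.contDiffAt).isSymmSndFDerivAt (by simp)
    exact h5.eq v (ζ z)
  rw [h1, h3, hsym] at h2
  have h4 : fderiv ℝ (T.fld ζ) (T.Φ z) =
      (fderiv ℝ (T.fld ζ) (T.Φ z) ∘L T.A z) ∘L T.B (T.Φ z) := by
    have : (fderiv ℝ (T.fld ζ) (T.Φ z) ∘L T.A z) ∘L T.B (T.Φ z) =
      fderiv ℝ (T.fld ζ) (T.Φ z) ∘L (T.A z * T.B (T.Φ z)) := rfl
    rw [this, T.AB' z]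
    rfl
  rw [h4, ← h2, add_comm]

/-- derivative of the metric -/
theorem fderiv_Gm (z v : Euc k) :
    fderiv ℝ T.Gm z v = star (fderiv ℝ T.A z v) * T.A z + star (T.A z) * fderiv ℝ T.A z v := by
  have hAd : HasFDerivAt T.A (fderiv ℝ T.A z) z := ((T.contA.differentiable one_ne_zero) z).hasFDerivAt
  have hst : HasFDerivAt (fun z => ContinuousLinearMap.adjoint (T.A z))
      ((ContinuousLinearMap.adjoint (𝕜 := ℝ) (E := Euc k) (F := Euc k)).toContinuousLinearEquiv.toContinuousLinearMap ∘L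
        fderiv ℝ T.A z) z :=
    ((ContinuousLinearMap.adjoint (𝕜 := ℝ) (E := Euc k) (F := Euc k)).toContinuousLinearEquiv.toContinuousLinearMap).hasFDerivAt.comp z hAd
  have h := (hst.clm_comp hAd).fderiv
  have h2 : fderiv ℝ T.Gm z = _ := h
  rw [h2]
  ext1 w
  change _ = (star (fderiv ℝ T.A z v)) (T.A z w) + (star (T.A z)) (fderiv ℝ T.A z v w)
  exact add_comm ((star (T.A z)) (fderiv ℝ T.A z v w)) ((star (fderiv ℝ T.A z v)) (T.A z w))

/-- the pointwise identity: first variation of the transported field -/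
theorem tr_pt {ζ : Euc k → Euc k} (hζ : ContDiff ℝ 1 ζ) (z : Euc k) {S : L k} (hS : S ∈ G m k) :
    tr (fderiv ℝ (T.fld ζ) (T.Φ z) ∘L prj (T.A z) S) =
      tr (Sig (T.gm z) S ∘L (T.Gm z ∘L fderiv ℝ ζ z + (1 / 2 : ℝ) • fderiv ℝ T.Gm z (ζ z))) := by
  have hP := isPj_of_G hS
  set A := T.A z with hA
  set dA := fderiv ℝ T.A z (ζ z) with hdA
  set dζ := fderiv ℝ ζ z with hdζ
  set B := T.B (T.Φ z) with hB
  set Sg := Sig (gam A) S with hSg
  have hSs : star Sg = Sg := star_Sig hP (T.injA z)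
  rw [T.fderiv_fld hζ z, T.fderiv_Gm z (ζ z), ← hA, ← hdA, ← hdζ, ← hB]
  have e1 : ((dA + A ∘L dζ) ∘L B) ∘L prj A S = ((dA + A * dζ) * Sg) * star A := by
    rw [prj_eq]
    change (dA + A * dζ) * B * (A * Sg * star A) = _
    have : B * A = 1 := T.BA z
    calc (dA + A * dζ) * B * (A * Sg * star A) = (dA + A * dζ) * (B * A) * Sg * star A := by
          simp only [mul_assoc]
      _ = _ := by rw [this, mul_one]
  have e2 : tr (((dA + A ∘L dζ) ∘L B) ∘L prj A S) =
      trc (Euc k) (Sg * (star A * dA)) + trc (Euc k) (Sg * (star A * A * dζ)) := by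
    rw [e1, tr_eq_trc, trc_mul_comm, ← map_add, ← trc_mul_comm, mul_assoc, ← trc_mul_comm]
    congr 1
    simp only [mul_add, mul_assoc]
  rw [e2, trc_sym hSs, tr_eq_trc]
  have e3 : Sig (T.gm z) S ∘L (T.Gm z ∘L dζ + (1 / 2 : ℝ) • (star dA * A + star A * dA)) =
      Sg * (star A * A * dζ) + (1 / 2 : ℝ) • (Sg * (star dA * A + star A * dA)) := by
    change Sg * (star A * A * dζ + (1 / 2 : ℝ) • (star dA * A + star A * dA)) = _
    rw [mul_add, mul_smul_comm]
  rw [e3, map_add, map_smul, smul_eq_mul]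
  ring

end Dif

end Crest.Agent.R234.Ft_209
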