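import Crest.Agent.R234.La1_300
import Crest.Agent.R234.Pers3_540
import Crest.Agent.R234.N5a_372

-- ▼ part R234/La2_300
section

/-! Row 234, VF-LOGAS (task 1612, helper300), part 2: the limit of approximately stationary
varifolds over a cylinder with mass bound, lower density, `lM → 0`, energy bounds. -/

set_option autoImplicit false
set_option linter.unusedSectionVars false

open MeasureTheory Filter Topology Set Metric
open Crest.GeometryTopology.Submanifold Crest.Agent.R234.Vf_884 Crest.Agent.R234.Ar_870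
open Crest.Agent.R234.Vc_164 Crest.Agent.R234.Cp914 Crest.Agent.R234.Pers_540
open Crest.Agent.R234.N5_372 Crest.Agent.R234.Cy_870
open scoped ENNReal NNReal InnerProductSpace

noncomputable section

namespace Crest.Agent.R234.La_300

variable {m n k : ℕ} {π : Euc k →L[ℝ] Euc m}

/-- the open cylinder over the ball of radius `R`. -/
abbrev cy (π : Euc k →L[ℝ] Euc m) (R : ℝ) : Set (Euc k) := {z | ‖π z‖ < R}

theorem isOpen_cy (π : Euc k →L[ℝ] Euc m) (R : ℝ) : IsOpen (cy π R) :=
  isOpen_lt π.continuous.norm continuous_const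

/-- mass bound over the concentric balls of the base of radius `1 ≤ r ≤ R`. -/
def MassC (π : Euc k →L[ℝ] Euc m) (C R : ℝ) (V : Measure (Euc k × L k)) : Prop :=
  ∀ r : ℝ, 1 ≤ r → r ≤ R → V (ov π (ball 0 r)) ≤ ENNReal.ofReal (C * r ^ m)


theorem norm_hp (hπ : IsCo π) (x : Euc k) : ‖AS_456.hp π x‖ = ‖π x‖ := norm_adjoint_co hπ (π x)

/-- tilt energy of a part. -/
def eB (π : Euc k →L[ℝ] Euc m) (V : Measure (Euc k × L k)) (A : Set (Euc k)) : ℝ≥0∞ :=
  ∫⁻ p in A ×ˢ univ, ENNReal.ofReal (tl π p.2) ∂V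

/-- the closed box `a + Bc`. -/
def bxc (π : Euc k →L[ℝ] Euc m) (a : Euc k) (r : ℝ) : Set (Euc k) :=
  {x | x - a ∈ Bc (AS_456.hp π) r}

/-- the trace along `S` is continuous in the projection on `S`. -/
theorem eL_eq (π : Euc k →L[ℝ] Euc m) (S : Submodule ℝ (Euc m)) (P : L k) :
    eL π S P = Module.finrank ℝ S - tr (S.starProjection ∘L Shh π P) := by
  set b := stdOrthonormalBasis ℝ S with hb
  have h1 : ∀ i, ‖(b i : Euc m)‖ = 1 := fun i => by
    rw [← Submodule.coe_norm]; exact b.norm_eq_one i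
  have h2 : tr (S.starProjection ∘L Shh π P) = ∑ i, ⟪(b i : Euc m), Shh π P (b i : Euc m)⟫_ℝ := by
    have h3 : S.starProjection = ∑ i, ((innerSL ℝ (b i : Euc m)).smulRight (b i : Euc m)) := by
      rw [b.starProjection_eq_sum_rankOne]
      refine Finset.sum_congr rfl fun i _ => ?_
      ext1 v
      simp [InnerProductSpace.rankOne_apply]
    have h4 : S.starProjection ∘L Shh π P =
        ∑ i, ((innerSL ℝ (b i : Euc m)).smulRight (b i : Euc m)) ∘L Shh π P := by
      conv_lhs => rw [h3]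
      ext1 v
      simp
    rw [h4, map_sum]
    refine Finset.sum_congr rfl fun i _ => ?_
    rw [tr_smulRight_comp]
    rfl
  unfold eL
  rw [h2]
  have h5 : ∀ i, qf π P (b i : Euc m) = 1 - ⟪(b i : Euc m), Shh π P (b i : Euc m)⟫_ℝ := by
    intro i
    unfold qf
    rw [h1 i]; norm_num
  calc ∑ i, qf π P (b i : Euc m) = ∑ i, (1 - ⟪(b i : Euc m), Shh π P (b i : Euc m)⟫_ℝ) :=
        Finset.sum_congr rfl fun i _ => h5 i
    _ = _ := by rw [Finset.sum_sub_distrib]; simp

theorem norm_Shh_le (hπ : IsCo π) {P : L k} (hP : P ∈ G m k) : ‖Shh π P‖ ≤ 1 := by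
  refine ContinuousLinearMap.opNorm_le_bound _ zero_le_one fun v => ?_
  change ‖π (P (ContinuousLinearMap.adjoint π v))‖ ≤ 1 * ‖v‖
  rw [one_mul]
  have h1 : ∀ z : Euc k, ‖π z‖ ≤ ‖z‖ := by
    intro z
    have h := norm_hp_le hπ
    have h2 : ‖π z‖ = ‖AS_456.hp π z‖ := (norm_adjoint_co hπ (π z)).symm
    rw [h2]
    calc ‖AS_456.hp π z‖ ≤ ‖AS_456.hp π‖ * ‖z‖ := (AS_456.hp π).le_opNorm z
      _ ≤ 1 * ‖z‖ := by gcongr
      _ = ‖z‖ := one_mul _
  refine (h1 _).trans ((G_norm_apply_le hP _).trans ?_)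
  rw [norm_adjoint_co hπ]

/-- Lipschitz dependence of `eL` on the projection (same dimension). -/
theorem abs_eL_sub_le (hπ : IsCo π) {P : L k} (hP : P ∈ G m k) (S S' : Submodule ℝ (Euc m))
    (hd : Module.finrank ℝ S = Module.finrank ℝ S') :
    |eL π S P - eL π S' P| ≤ ‖(tr : L m →L[ℝ] ℝ)‖ * ‖S.starProjection - S'.starProjection‖ := by
  rw [eL_eq, eL_eq, hd]
  have h1 : (Module.finrank ℝ S' : ℝ) - tr (S.starProjection ∘L Shh π P) -
      (Module.finrank ℝ S' - tr (S'.starProjection ∘L Shh π P)) =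
      -tr ((S.starProjection - S'.starProjection) ∘L Shh π P) := by
    rw [ContinuousLinearMap.sub_comp, map_sub]; ring
  rw [h1, abs_neg]
  refine ((tr : L m →L[ℝ] ℝ).le_opNorm _).trans ?_
  gcongr
  calc ‖(S.starProjection - S'.starProjection) ∘L Shh π P‖
      ≤ ‖S.starProjection - S'.starProjection‖ * ‖Shh π P‖ := ContinuousLinearMap.opNorm_comp_le _ _
    _ ≤ ‖S.starProjection - S'.starProjection‖ * 1 := by gcongr; exact norm_Shh_le hπ hP
    _ = _ := mul_one _

/-- subspaces of fixed dimension are compact. -/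
theorem exists_limit_subspace {ι : Type*} (F : Ultrafilter ι) {d : ℕ} (S : ι → Submodule ℝ (Euc m))
    (hS : ∀ i, Module.finrank ℝ (S i) = d) :
    ∃ S₀ : Submodule ℝ (Euc m), Module.finrank ℝ S₀ = d ∧
      Tendsto (fun i => ‖(S i).starProjection - S₀.starProjection‖) F (𝓝 0) := by
  have h1 : ∀ i, (S i).starProjection ∈ G d m := fun i => starProjection_mem_G (S i) (hS i)
  obtain ⟨P, hP, hlim⟩ := (isCompact_G d m).ultrafilter_le_nhds
    (F.map fun i => (S i).starProjection) (by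
      rw [Ultrafilter.coe_map, le_principal_iff, mem_map]
      exact Filter.univ_mem' h1)
  have hlim' : Tendsto (fun i => (S i).starProjection) F (𝓝 P) := hlim
  refine ⟨LinearMap.range P.toLinearMap, ?_, ?_⟩
  · exact finrank_range hP
  · have h2 : (LinearMap.range P.toLinearMap).starProjection = P := by
      ext1 x
      refine Submodule.eq_starProjection_of_mem_of_inner_eq_zero ⟨x, rfl⟩ ?_
      rintro u ⟨v, rfl⟩
      change ⟪x - P x, P v⟫_ℝ = 0
      rw [inner_sub_left, ← G_symm hP x v, ← G_symm hP (P x) v, G_idem_apply hP, sub_self]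
    rw [h2]
    have h3 : Tendsto (fun i => (S i).starProjection - P) F (𝓝 0) := by
      simpa using hlim'.sub_const P
    simpa using h3.norm

theorem ov_eq (π : Euc k →L[ℝ] Euc m) (A : Set (Euc m)) :
    ov π A = (π ⁻¹' A) ×ˢ (univ : Set (L k)) := by
  ext p; simp [ov]

theorem ov_ball (π : Euc k →L[ℝ] Euc m) (R : ℝ) :
    ov π (ball 0 R) = cy π R ×ˢ (univ : Set (L k)) := by
  ext p; simp [ov]

theorem isOpen_ov (π : Euc k →L[ℝ] Euc m) {A : Set (Euc m)} (hA : IsOpen A) :
    IsOpen (ov π A) := by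
  rw [ov_eq]
  exact (hA.preimage π.continuous).prod isOpen_univ

/-- integrals of nonnegative weights against cut-offs. -/
theorem lintegral_cut {V : Measure (Euc k × L k)} {U : Set (Euc k)} (hc : ∀ᵐ p ∂V, p.2 ∈ G m k)
    (hfin : ∀ K : Set (Euc k), IsCompact K → K ⊆ U → V (K ×ˢ Set.univ) < ⊤)
    {f : Euc k → ℝ} (hf : Continuous f) (hfc : HasCompactSupport f) (hfU : tsupport f ⊆ U)
    (hf0 : ∀ x, 0 ≤ f x) {g : L k → ℝ} (hg : Continuous g) (hg0 : ∀ P ∈ G m k, 0 ≤ g P) :
    ENNReal.ofReal (∫ p, f p.1 * g p.2 ∂V) = ∫⁻ p, ENNReal.ofReal (f p.1 * g p.2) ∂V := by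
  rw [ofReal_integral_eq_lintegral_ofReal]
  · refine integrable_of_cont (K := tsupport f) hc hfc (hfin _ hfc hfU)
      ((hf.comp continuous_fst).mul (hg.comp continuous_snd)) fun p hp => ?_
    rw [image_eq_zero_of_notMem_tsupport hp, zero_mul]
  · filter_upwards [hc] with p hp
    exact mul_nonneg (hf0 _) (hg0 _ hp)

/-- weighted measure of compact sets from integrals against cut-offs. -/
theorem exists_cut_lt {V : Measure (Euc k × L k)} {U W : Set (Euc k)} (hW : IsOpen W)
    (hWU : W ⊆ U) (hc : ∀ᵐ p ∂V, p.2 ∈ G m k)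
    (hfin : ∀ K : Set (Euc k), IsCompact K → K ⊆ U → V (K ×ˢ Set.univ) < ⊤)
    {g : L k → ℝ} (hg : Continuous g) (hg0 : ∀ P ∈ G m k, 0 ≤ g P) {a : ℝ≥0∞}
    (ha : a < ∫⁻ p in W ×ˢ univ, ENNReal.ofReal (g p.2) ∂V) :
    ∃ f : Euc k → ℝ, Continuous f ∧ HasCompactSupport f ∧ tsupport f ⊆ W ∧ (∀ x, 0 ≤ f x) ∧
      (∀ x, f x ≤ 1) ∧ a < ENNReal.ofReal (∫ p, f p.1 * g p.2 ∂V) := by
  have hWo : IsOpen (W ×ˢ (univ : Set (L k))) := hW.prod isOpen_univ
  have h1 : ∫⁻ p in W ×ˢ univ, ENNReal.ofReal (g p.2) ∂V =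
      (V.withDensity fun p => ENNReal.ofReal (g p.2)) (W ×ˢ univ) := by
    rw [withDensity_apply _ hWo.measurableSet]
  rw [h1] at ha
  obtain ⟨K, hKW, hK, hlt⟩ := exists_compact_lt _ hWo ha
  have hK1 : IsCompact (Prod.fst '' K) := hK.image continuous_fst
  have hK1W : Prod.fst '' K ⊆ W := by
    rintro _ ⟨p, hp, rfl⟩; exact (hKW hp).1
  obtain ⟨f, hf, hfc, hfs, hf1, hf0, hfle⟩ := exists_cut hK1 hW hK1W
  refine ⟨f, hf, hfc, hfs, hf0, hfle, hlt.trans_le ?_⟩
  rw [lintegral_cut hc hfin hf hfc (hfs.trans hWU) hf0 hg hg0,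
    withDensity_apply _ hK.measurableSet, ← lintegral_indicator hK.measurableSet]
  refine lintegral_mono fun p => ?_
  by_cases hp : p ∈ K
  · rw [indicator_of_mem hp, hf1 _ ⟨p, hp, rfl⟩, one_mul]
  · rw [indicator_of_notMem hp]; exact bot_le

/-- **the limit.** -/
theorem limit (hπ : IsCo π) {R M C c ε B : ℝ} (hR : 3 < R) (hMR : M ≤ R)
    {V : ℕ → Measure (Euc k × L k)} {w : ℕ → ℝ} (hw : Tendsto w atTop (𝓝 0))
    (happ : ∀ j, App m k (w j) (cy π R) (V j)) (hmass : ∀ j, MassC π C R (V j))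
    (hlow : ∀ j, LowD m (cy π R) c (V j)) (S : ℕ → Submodule ℝ (Euc m)) {d : ℕ}
    (hS : ∀ j, Module.finrank ℝ (S j) = d)
    (hlM : Tendsto (fun j => lM (V j) π (S j) (ball 0 R)) atTop (𝓝 0))
    {a : ℕ → Euc k} (ha : ∀ j, AS_456.vp π (a j) = 0) (ha1 : ∀ j, ‖a j‖ ≤ 1)
    (hbox : ∀ j, ENNReal.ofReal ε ≤ eB π (V j) (bxc π (a j) 1))
    (htop : ∀ j, eM (V j) π (ball 0 M) ≤ ENNReal.ofReal B) :
    ∃ (V₀ : Measure (Euc k × L k)) (S₀ : Submodule ℝ (Euc m)) (a₀ : Euc k),
      V₀ (cy π R ×ˢ univ)ᶜ = 0 ∧ Stat m k (cy π R) V₀ ∧ MassC π C R V₀ ∧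
      LowD m (cy π R) c V₀ ∧ Module.finrank ℝ S₀ = d ∧ lM V₀ π S₀ (ball 0 R) = 0 ∧
      AS_456.vp π a₀ = 0 ∧ ‖a₀‖ ≤ 1 ∧ ENNReal.ofReal ε ≤ eB π V₀ (bxc π a₀ 1) ∧
      eM V₀ π (ball 0 M) ≤ ENNReal.ofReal B := by
  have hR0 : 0 < R := by linarith
  set 𝒰 : Ultrafilter ℕ := Ultrafilter.of atTop with h𝒰def
  have h𝒰 : (𝒰 : Filter ℕ) ≤ atTop := Ultrafilter.of_le atTop
  have hopen := isOpen_cy π R
  have hcyov : ∀ j, V j (cy π R ×ˢ univ) ≤ ENNReal.ofReal (C * R ^ m) := by
    intro j
    rw [← ov_ball]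
    exact hmass j R (by linarith) le_rfl
  obtain ⟨V₀, hV₀, hconv⟩ := exists_vfconv hopen 𝒰 V
    (Eventually.of_forall fun j => (happ j).conc) (by
      intro K hK hKc
      exact ⟨C * R ^ m, Eventually.of_forall fun j =>
        (measure_mono (prod_mono hK subset_rfl)).trans (hcyov j)⟩)
  obtain ⟨S₀, hS₀, hSlim⟩ := exists_limit_subspace 𝒰 S hS
  have hstat : Stat m k (cy π R) V₀ :=
    stat_of_app hconv hopen (hw.mono_left h𝒰) (Eventually.of_forall happ)
  have htlc : Continuous (tl π : L k → ℝ) := measurable_tl π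
  have htl0 : ∀ P ∈ G m k, 0 ≤ tl π P := fun P hP => tl_nonneg hπ (isPr_of_G hP)
  -- convergence against cut-offs
  have hlim : ∀ {f : Euc k → ℝ}, Continuous f → HasCompactSupport f → tsupport f ⊆ cy π R →
      ∀ {g : L k → ℝ}, Continuous g →
      Tendsto (fun j => ∫ p, f p.1 * g p.2 ∂(V j)) 𝒰 (𝓝 (∫ p, f p.1 * g p.2 ∂V₀)) := by
    intro f hf hfc hfs g hg
    refine hconv.tendsto hopen ((hf.comp continuous_fst).mul (hg.comp continuous_snd)) hfc hfs ?_
    intro x hx P
    simp only [image_eq_zero_of_notMem_tsupport hx, zero_mul]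
  have hmassV : MassC π C R V₀ := by
    intro r hr hrR
    by_contra hcon
    rw [not_le] at hcon
    have h1 := hconv.conv.lt_of_isOpen (isOpen_ov π isOpen_ball)
      (show ov π (ball 0 r) ⊆ cy π R ×ˢ univ by
        rw [← ov_ball]; exact fun p hp => ball_subset_ball hrR hp) hcon
    obtain ⟨j, hj⟩ := h1.exists
    exact absurd (hmass j r hr hrR) (not_le.2 hj)
  obtain ⟨a₀, ha₀mem, halim⟩ := (isCompact_closedBall (0 : Euc k) 1).ultrafilter_le_nhds
    (𝒰.map a) (by
      rw [Ultrafilter.coe_map, le_principal_iff, mem_map]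
      exact Filter.univ_mem' fun j => by
        rw [mem_preimage, mem_closedBall_zero_iff]; exact ha1 j)
  have halim' : Tendsto a 𝒰 (𝓝 a₀) := halim
  have ha₀ : AS_456.vp π a₀ = 0 := by
    have h1 : Tendsto (fun j => AS_456.vp π (a j)) 𝒰 (𝓝 (AS_456.vp π a₀)) :=
      ((AS_456.vp π).continuous.tendsto _).comp halim'
    simp only [ha] at h1
    exact (tendsto_nhds_unique h1 tendsto_const_nhds)
  refine ⟨V₀, S₀, a₀, hV₀, hstat, hmassV, ?_, hS₀, ?_, ha₀,
    by rwa [mem_closedBall_zero_iff] at ha₀mem, ?_, ?_⟩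
  · -- lower density
    intro z hz r hr hsub
    have hfst := hconv.fst hopen
    -- smaller radii
    have key : ∀ ρ, 0 < ρ → ρ < r → ENNReal.ofReal (c * ρ ^ m) ≤ V₀ (ball z r ×ˢ univ) := by
      intro ρ hρ hρr
      set r' := (ρ + r) / 2 with hr'
      have h1 : 0 < V₀.map Prod.fst (ball z (r' - ρ)) := by
        rw [map_fst_apply V₀ measurableSet_ball]
        exact hz _ (by rw [hr']; linarith)
      have h2 : ∀ᶠ j in (𝒰 : Filter ℕ), 0 < (V j).map Prod.fst (ball z (r' - ρ)) :=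
        hfst.lt_of_isOpen isOpen_ball
          ((ball_subset_ball (by rw [hr']; linarith)).trans hsub) h1
      have h3 : ∀ᶠ j in (𝒰 : Filter ℕ), ENNReal.ofReal (c * ρ ^ m) ≤
          (V j).map Prod.fst (closedBall z r') := by
        filter_upwards [h2] with j hj
        rw [map_fst_apply (V j) measurableSet_ball] at hj
        obtain ⟨z', hz', hsp⟩ := exists_sp hj.ne'
        have h4 : ball z' ρ ⊆ closedBall z r' := by
          intro y hy
          rw [mem_ball] at hy hz'
          rw [mem_closedBall]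
          calc dist y z ≤ dist y z' + dist z' z := dist_triangle _ _ _
            _ ≤ ρ + (r' - ρ) := by gcongr
            _ = r' := by ring
        have h5 : closedBall z r' ⊆ ball z r :=
          closedBall_subset_ball (by rw [hr']; linarith)
        have h6 := hlow j z' hsp ρ hρ ((h4.trans h5).trans hsub)
        rw [map_fst_apply (V j) isClosed_closedBall.measurableSet]
        exact h6.trans (measure_mono (prod_mono h4 subset_rfl))
      have h5 : closedBall z r' ⊆ ball z r := closedBall_subset_ball (by rw [hr']; linarith)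
      by_contra hcon
      rw [not_le] at hcon
      have h6 : V₀.map Prod.fst (closedBall z r') < ENNReal.ofReal (c * ρ ^ m) := by
        rw [map_fst_apply V₀ isClosed_closedBall.measurableSet]
        exact lt_of_le_of_lt (measure_mono (prod_mono h5 subset_rfl)) hcon
      have h7 := hfst.lt_of_isCompact hopen (isCompact_closedBall z r') (h5.trans hsub) h6
      obtain ⟨j, hj1, hj2⟩ := (h3.and h7).exists
      exact absurd hj1 (not_le.2 hj2)
    have hcont : Tendsto (fun ρ : ℝ => ENNReal.ofReal (c * ρ ^ m)) (𝓝[<] r)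
        (𝓝 (ENNReal.ofReal (c * r ^ m))) := by
      have : Continuous fun ρ : ℝ => ENNReal.ofReal (c * ρ ^ m) :=
        ENNReal.continuous_ofReal.comp (by fun_prop)
      exact this.continuousAt.tendsto.mono_left nhdsWithin_le_nhds
    refine le_of_tendsto hcont ?_
    filter_upwards [Ioo_mem_nhdsLT hr] with ρ hρ
    exact key ρ hρ.1 hρ.2
  · -- `lM = 0`
    have heLc : ∀ S, Continuous (eL π S : L k → ℝ) := continuous_eL π
    have heL0 : ∀ (S : Submodule ℝ (Euc m)), ∀ P ∈ G m k, 0 ≤ eL π S P := fun S P hP =>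
      eL_nonneg hπ (isPr_of_G hP) S
    by_contra hcon
    have h0 : 0 < ∫⁻ p in cy π R ×ˢ univ, ENNReal.ofReal (eL π S₀ p.2) ∂V₀ := by
      rw [← ov_ball, ← bm_apply V₀ π (eL π S₀) measurableSet_ball]
      exact pos_iff_ne_zero.2 hcon
    obtain ⟨f, hf, hfc, hfs, hf0, hf1, hlt⟩ := exists_cut_lt hopen subset_rfl hstat.conc hstat.fin
      (heLc S₀) (heL0 S₀) h0
    set c₁ : ℝ := ‖(tr : L m →L[ℝ] ℝ)‖ with hc₁
    have hbd : ∀ j, ENNReal.ofReal (∫ p, f p.1 * eL π S₀ p.2 ∂(V j)) ≤
        lM (V j) π (S j) (ball 0 R) +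
          ENNReal.ofReal (c₁ * ‖(S j).starProjection - S₀.starProjection‖) *
            ENNReal.ofReal (C * R ^ m) := by
      intro j
      rw [lintegral_cut (happ j).conc (happ j).fin hf hfc hfs hf0 (heLc S₀) (heL0 S₀)]
      have e1 : lM (V j) π (S j) (ball 0 R) =
          ∫⁻ p in cy π R ×ˢ univ, ENNReal.ofReal (eL π (S j) p.2) ∂(V j) := by
        rw [lM, bm_apply _ _ _ measurableSet_ball, ov_ball]
      have hmeas : MeasurableSet (cy π R ×ˢ (univ : Set (L k))) :=
        (hopen.prod isOpen_univ).measurableSet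
      calc ∫⁻ p, ENNReal.ofReal (f p.1 * eL π S₀ p.2) ∂(V j)
          ≤ ∫⁻ p, (cy π R ×ˢ (univ : Set (L k))).indicator (fun p =>
              ENNReal.ofReal (eL π (S j) p.2) +
                ENNReal.ofReal (c₁ * ‖(S j).starProjection - S₀.starProjection‖)) p ∂(V j) := by
            refine lintegral_mono_ae ?_
            filter_upwards [(happ j).conc] with p hp
            by_cases hpc : p ∈ cy π R ×ˢ (univ : Set (L k))
            · rw [indicator_of_mem hpc, ← ENNReal.ofReal_add (heL0 _ _ hp) (by positivity)]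
              apply ENNReal.ofReal_le_ofReal
              have h3 := abs_eL_sub_le hπ hp (S j) S₀ (by rw [hS, hS₀])
              have h4 := (abs_le.1 h3).1
              calc f p.1 * eL π S₀ p.2 ≤ 1 * eL π S₀ p.2 :=
                    mul_le_mul_of_nonneg_right (hf1 _) (heL0 _ _ hp)
                _ ≤ _ := by rw [one_mul]; linarith
            · rw [indicator_of_notMem hpc]
              have h3 : f p.1 = 0 := image_eq_zero_of_notMem_tsupport fun h =>
                hpc ⟨hfs h, mem_univ _⟩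
              simp [h3]
        _ = ∫⁻ p in cy π R ×ˢ univ, (ENNReal.ofReal (eL π (S j) p.2) +
                ENNReal.ofReal (c₁ * ‖(S j).starProjection - S₀.starProjection‖)) ∂(V j) :=
            lintegral_indicator hmeas _
        _ = lM (V j) π (S j) (ball 0 R) +
            ENNReal.ofReal (c₁ * ‖(S j).starProjection - S₀.starProjection‖) *
              V j (cy π R ×ˢ univ) := by
            have hmm : AEMeasurable (fun p : Euc k × L k => ENNReal.ofReal (eL π (S j) p.2))
                ((V j).restrict (cy π R ×ˢ univ)) :=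
              ((heLc (S j)).comp continuous_snd).measurable.ennreal_ofReal.aemeasurable
            rw [lintegral_add_left' hmm, ← e1, setLIntegral_const]
        _ ≤ _ := by gcongr; exact hcyov j
    have ht : Tendsto (fun j => lM (V j) π (S j) (ball 0 R) +
          ENNReal.ofReal (c₁ * ‖(S j).starProjection - S₀.starProjection‖) *
            ENNReal.ofReal (C * R ^ m)) 𝒰 (𝓝 0) := by
      have t1 := hlM.mono_left h𝒰
      have t2 : Tendsto (fun j => ENNReal.ofReal
          (c₁ * ‖(S j).starProjection - S₀.starProjection‖)) 𝒰 (𝓝 0) := by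
        have : Tendsto (fun j => c₁ * ‖(S j).starProjection - S₀.starProjection‖) 𝒰 (𝓝 0) := by
          simpa using hSlim.const_mul c₁
        simpa using ENNReal.tendsto_ofReal this
      have t3 := ENNReal.Tendsto.mul_const (b := ENNReal.ofReal (C * R ^ m)) t2
        (Or.inr ENNReal.ofReal_ne_top)
      simpa using t1.add t3
    have hcl := (ENNReal.continuous_ofReal.tendsto _).comp (hlim hf hfc hfs (heLc S₀))
    have hle := le_of_tendsto_of_tendsto' hcl ht hbd
    exact absurd hlt (not_lt.2 hle)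
  · -- energy from below
    have hcl : ∀ r, IsClosed (bxc π a₀ r) := fun r =>
      (isCompact_Bc (AS_456.hp π) r).isClosed.preimage (by fun_prop : Continuous fun x : Euc k => x - a₀)
    have hbxc : ∀ r, IsCompact (bxc π a₀ r) := by
      intro r
      have h1 : bxc π a₀ r = (Homeomorph.subRight a₀) ⁻¹' (Bc (AS_456.hp π) r) := rfl
      rw [h1]
      exact (Homeomorph.subRight a₀).isCompact_preimage.2 (isCompact_Bc (AS_456.hp π) r)
    have hmem : ∀ r x, x ∈ bxc π a₀ r ↔ ‖AS_456.hp π (x - a₀)‖ ≤ r ∧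
        ‖(x - a₀) - AS_456.hp π (x - a₀)‖ ≤ r := fun r x => Iff.rfl
    have hstep : ∀ η : ℝ, 0 < η → η ≤ 1 / 2 → ENNReal.ofReal ε ≤ eB π V₀ (bxc π a₀ (1 + η)) := by
      intro η hη hη2
      set W : Set (Euc k) := {x | ‖AS_456.hp π (x - a₀)‖ < 1 + η ∧
        ‖(x - a₀) - AS_456.hp π (x - a₀)‖ < 1 + η} with hW
      have hc1 : Continuous fun x : Euc k => ‖AS_456.hp π (x - a₀)‖ :=
        ((AS_456.hp π).continuous.comp (continuous_id.sub continuous_const)).norm
      have hc2 : Continuous fun x : Euc k => ‖(x - a₀) - AS_456.hp π (x - a₀)‖ :=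
        ((continuous_id.sub continuous_const).sub
          ((AS_456.hp π).continuous.comp (continuous_id.sub continuous_const))).norm
      have hWo : IsOpen W :=
        (isOpen_lt hc1 continuous_const).inter (isOpen_lt hc2 continuous_const)
      have hsub : bxc π a₀ (1 + η / 2) ⊆ W := by
        intro x hx
        rw [hmem] at hx
        exact ⟨by linarith [hx.1], by linarith [hx.2]⟩
      have hWU : W ⊆ cy π R := by
        intro x hx
        change ‖π x‖ < R
        have h1 : ‖π x‖ ≤ ‖π (x - a₀)‖ + ‖π a₀‖ := by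
          calc ‖π x‖ = ‖π (x - a₀) + π a₀‖ := by rw [← map_add]; congr 2; abel
            _ ≤ _ := norm_add_le _ _
        have h2 : ‖π (x - a₀)‖ < 1 + η := by
          rw [← norm_hp hπ]; exact hx.1
        have h3 : ‖π a₀‖ ≤ 1 := by
          rw [mem_closedBall_zero_iff] at ha₀mem
          rw [← norm_hp hπ]
          calc ‖AS_456.hp π a₀‖ ≤ ‖AS_456.hp π‖ * ‖a₀‖ := (AS_456.hp π).le_opNorm _
            _ ≤ 1 * 1 := mul_le_mul (norm_hp_le hπ) ha₀mem (norm_nonneg _) zero_le_one
            _ = 1 := one_mul _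
        linarith
      obtain ⟨f, hf, hfc, hfs, hf1, hf0, hfle⟩ := exists_cut (hbxc (1 + η / 2)) hWo hsub
      have hev : ∀ᶠ j in (𝒰 : Filter ℕ),
          ENNReal.ofReal ε ≤ ENNReal.ofReal (∫ p, f p.1 * tl π p.2 ∂(V j)) := by
        have hnear : ∀ᶠ j in (𝒰 : Filter ℕ), ‖a j - a₀‖ < η / 2 := by
          have h1 : Tendsto (fun j => ‖a j - a₀‖) 𝒰 (𝓝 0) := by
            have := (halim'.sub_const a₀).norm
            simpa using this
          exact h1.eventually_lt_const (by linarith)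
        filter_upwards [hnear] with j hj
        rw [lintegral_cut (happ j).conc (happ j).fin hf hfc (hfs.trans hWU) hf0 htlc htl0]
        refine (hbox j).trans ?_
        have hcl2 : IsClosed (bxc π (a j) 1) :=
          (isCompact_Bc (AS_456.hp π) 1).isClosed.preimage
            (by fun_prop : Continuous fun x : Euc k => x - a j)
        have hm : MeasurableSet (bxc π (a j) 1 ×ˢ (univ : Set (L k))) :=
          hcl2.measurableSet.prod MeasurableSet.univ
        unfold eB
        rw [← lintegral_indicator hm]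
        refine lintegral_mono fun p => ?_
        by_cases hp : p ∈ bxc π (a j) 1 ×ˢ (univ : Set (L k))
        · have hp1 : p.1 ∈ bxc π a₀ (1 + η / 2) := by
            have h1 : ‖AS_456.hp π (p.1 - a j)‖ ≤ 1 := hp.1.1
            have h2 : ‖(p.1 - a j) - AS_456.hp π (p.1 - a j)‖ ≤ 1 := hp.1.2
            have e1 : p.1 - a₀ = (p.1 - a j) + (a j - a₀) := by abel
            have hvp0 : (a j - a₀) - AS_456.hp π (a j - a₀) = 0 := by
              have : AS_456.vp π (a j - a₀) = 0 := by rw [map_sub, ha, ha₀, sub_zero]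
              exact this
            rw [hmem]
            constructor
            · rw [e1, map_add]
              refine (norm_add_le _ _).trans ?_
              have h3 : ‖AS_456.hp π (a j - a₀)‖ ≤ η / 2 := by
                calc ‖AS_456.hp π (a j - a₀)‖ ≤ ‖AS_456.hp π‖ * ‖a j - a₀‖ :=
                      (AS_456.hp π).le_opNorm _
                  _ ≤ 1 * (η / 2) := mul_le_mul (norm_hp_le hπ) hj.le (norm_nonneg _) zero_le_one
                  _ = η / 2 := one_mul _
              linarith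
            · have e2 : (p.1 - a₀) - AS_456.hp π (p.1 - a₀) =
                  ((p.1 - a j) - AS_456.hp π (p.1 - a j)) +
                    ((a j - a₀) - AS_456.hp π (a j - a₀)) := by
                rw [e1, map_add]; abel
              rw [e2, hvp0, add_zero]
              linarith
          rw [indicator_of_mem hp, hf1 _ hp1, one_mul]
        · rw [indicator_of_notMem hp]; exact bot_le
      have hcl3 := (ENNReal.continuous_ofReal.tendsto _).comp (hlim hf hfc (hfs.trans hWU) htlc)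
      have hge := ge_of_tendsto hcl3 hev
      refine hge.trans ?_
      have hm : MeasurableSet (bxc π a₀ (1 + η) ×ˢ (univ : Set (L k))) :=
        (hcl _).measurableSet.prod MeasurableSet.univ
      rw [lintegral_cut hstat.conc hstat.fin hf hfc (hfs.trans hWU) hf0 htlc htl0, eB,
        ← lintegral_indicator hm]
      refine lintegral_mono_ae ?_
      filter_upwards [hstat.conc] with p hp
      by_cases hpo : p ∈ bxc π a₀ (1 + η) ×ˢ (univ : Set (L k))
      · rw [indicator_of_mem hpo]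
        apply ENNReal.ofReal_le_ofReal
        exact mul_le_of_le_one_left (htl0 _ hp) (hfle _)
      · rw [indicator_of_notMem hpo]
        have h3 : f p.1 = 0 := image_eq_zero_of_notMem_tsupport fun h => by
          apply hpo
          have h4 := hfs h
          exact ⟨⟨h4.1.le, h4.2.le⟩, mem_univ _⟩
        simp [h3]
    -- `η → 0`
    have hEq : ∀ A : Set (Euc k), MeasurableSet A → eB π V₀ A =
        (V₀.withDensity fun p => ENNReal.ofReal (tl π p.2)) (A ×ˢ univ) := by
      intro A hA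
      rw [withDensity_apply _ (hA.prod MeasurableSet.univ)]; rfl
    set ν := V₀.withDensity fun p : Euc k × L k => ENNReal.ofReal (tl π p.2) with hν
    have hsub2 : ∀ r, r ≤ 3 / 2 → bxc π a₀ r ⊆ cy π R := by
      intro r hr x hx
      change ‖π x‖ < R
      have h1 : ‖π x‖ ≤ ‖π (x - a₀)‖ + ‖π a₀‖ := by
        calc ‖π x‖ = ‖π (x - a₀) + π a₀‖ := by rw [← map_add]; congr 2; abel
          _ ≤ _ := norm_add_le _ _
      have h2 : ‖π (x - a₀)‖ ≤ r := by
        rw [← norm_hp hπ]; exact hx.1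
      have h3 : ‖π a₀‖ ≤ 1 := by
        rw [mem_closedBall_zero_iff] at ha₀mem
        rw [← norm_hp hπ]
        calc ‖AS_456.hp π a₀‖ ≤ ‖AS_456.hp π‖ * ‖a₀‖ := (AS_456.hp π).le_opNorm _
          _ ≤ 1 * 1 := mul_le_mul (norm_hp_le hπ) ha₀mem (norm_nonneg _) zero_le_one
          _ = 1 := one_mul _
      linarith
    have hfinν : ν (bxc π a₀ (1 + 1 / 2) ×ˢ univ) ≠ ⊤ := by
      have h1 : ν (bxc π a₀ (1 + 1 / 2) ×ˢ univ) ≤
          ENNReal.ofReal m * V₀ (bxc π a₀ (1 + 1 / 2) ×ˢ univ) := by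
        rw [hν, withDensity_apply _ ((hcl _).measurableSet.prod MeasurableSet.univ)]
        calc ∫⁻ p in bxc π a₀ (1 + 1 / 2) ×ˢ univ, ENNReal.ofReal (tl π p.2) ∂V₀
            ≤ ∫⁻ p in bxc π a₀ (1 + 1 / 2) ×ˢ univ, ENNReal.ofReal m ∂V₀ := by
              refine lintegral_mono_ae (ae_restrict_of_ae ?_)
              filter_upwards [hstat.conc] with p hp
              exact ENNReal.ofReal_le_ofReal (tl_le hπ (isPr_of_G hp))
          _ = _ := by rw [setLIntegral_const]
      refine (lt_of_le_of_lt h1 (ENNReal.mul_lt_top ENNReal.ofReal_lt_top ?_)).ne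
      exact hstat.fin _ (hbxc _) (hsub2 _ (by norm_num))
    have hinter : bxc π a₀ 1 ×ˢ (univ : Set (L k)) =
        ⋂ n : ℕ, bxc π a₀ (1 + 1 / ((n : ℝ) + 2)) ×ˢ (univ : Set (L k)) := by
      ext p
      simp only [mem_prod, mem_univ, and_true, mem_iInter, hmem]
      have hlim0 : Tendsto (fun n : ℕ => 1 + 1 / ((n : ℝ) + 2)) atTop (𝓝 (1 + 0)) := by
        refine tendsto_const_nhds.add ?_
        have h1 : Tendsto (fun n : ℕ => ((n : ℝ) + 2)) atTop atTop :=
          tendsto_atTop_add_const_right _ _ tendsto_natCast_atTop_atTop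
        have h2 := h1.inv_tendsto_atTop
        simp only [one_div]
        exact h2
      rw [add_zero] at hlim0
      constructor
      · rintro ⟨h1, h2⟩ n
        have : (0 : ℝ) ≤ 1 / ((n : ℝ) + 2) := by positivity
        exact ⟨by linarith, by linarith⟩
      · intro h
        exact ⟨ge_of_tendsto' hlim0 fun n => (h n).1, ge_of_tendsto' hlim0 fun n => (h n).2⟩
    rw [hEq _ (hcl 1).measurableSet, hinter]
    have hanti : Antitone fun n : ℕ => bxc π a₀ (1 + 1 / ((n : ℝ) + 2)) ×ˢ (univ : Set (L k)) := by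
      intro n n' hn
      refine prod_mono ?_ subset_rfl
      intro x hx
      rw [hmem] at hx ⊢
      have h1 : 1 / ((n' : ℝ) + 2) ≤ 1 / ((n : ℝ) + 2) := by
        have : (n : ℝ) ≤ n' := by exact_mod_cast hn
        gcongr
      exact ⟨hx.1.trans (by linarith), hx.2.trans (by linarith)⟩
    have htend := tendsto_measure_iInter_atTop (μ := ν)
      (fun n => ((hcl _).measurableSet.prod MeasurableSet.univ).nullMeasurableSet) hanti
      ⟨0, by simpa using hfinν⟩
    refine ge_of_tendsto' htend fun n => ?_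
    rw [Function.comp, ← hEq _ (hcl _).measurableSet]
    refine hstep _ (by positivity) ?_
    rw [div_le_div_iff₀ (by positivity) (by norm_num)]
    have : (0 : ℝ) ≤ n := Nat.cast_nonneg n
    linarith
  · -- energy from above
    by_contra hcon
    rw [not_le, eM, bm_apply _ _ _ measurableSet_ball, ov_ball] at hcon
    have hcyM : cy π M ⊆ cy π R := fun z hz => lt_of_lt_of_le (show ‖π z‖ < M from hz) hMR
    obtain ⟨f, hf, hfc, hfs, hf0, hf1, hlt⟩ := exists_cut_lt (isOpen_cy π M) hcyM hstat.conc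
      hstat.fin htlc htl0 hcon
    have hbd : ∀ j, ENNReal.ofReal (∫ p, f p.1 * tl π p.2 ∂(V j)) ≤ ENNReal.ofReal B := by
      intro j
      refine le_trans ?_ (htop j)
      rw [lintegral_cut (happ j).conc (happ j).fin hf hfc (hfs.trans hcyM) hf0 htlc htl0, eM,
        bm_apply _ _ _ measurableSet_ball,
        ← lintegral_indicator (measurableSet_ov measurableSet_ball)]
      refine lintegral_mono_ae ?_
      filter_upwards [(happ j).conc] with p hp
      by_cases hpo : p ∈ ov π (ball 0 M)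
      · rw [indicator_of_mem hpo]
        apply ENNReal.ofReal_le_ofReal
        exact mul_le_of_le_one_left (htl0 _ hp) (hf1 _)
      · rw [indicator_of_notMem hpo]
        have h3 : f p.1 = 0 := image_eq_zero_of_notMem_tsupport fun h => by
          apply hpo
          rw [ov_ball]
          exact ⟨hfs h, mem_univ _⟩
        simp [h3]
    have hcl := (ENNReal.continuous_ofReal.tendsto _).comp (hlim hf hfc (hfs.trans hcyM) htlc)
    exact absurd hlt (not_lt.2 (le_of_tendsto' hcl hbd))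

end Crest.Agent.R234.La_300
end
end

-- ▼ part R234/La3_300

/-! Row 234, VF-LOGAS (task 1612, helper300), part 3: zooms and rotations of approximately stationary
varifolds, of their base measures and of the lower density; pigeonhole in the heights. -/

set_option autoImplicit false
set_option linter.unusedSectionVars false

open MeasureTheory Filter Topology Set Metric
open Crest.GeometryTopology.Submanifold Crest.Agent.R234.Vf_884 Crest.Agent.R234.Ar_870
open Crest.Agent.R234.Vc_164 Crest.Agent.R234.Cp914 Crest.Agent.R234.Pers_540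
open Crest.Agent.R234.N5_372 Crest.Agent.R234.Cy_870
open scoped ENNReal NNReal InnerProductSpace

noncomputable section

namespace Crest.Agent.R234.La_300

variable {m n k : ℕ} {π : Euc k →L[ℝ] Euc m} {V : Measure (Euc k × L k)}

/-! ### zooms -/

theorem setLIntegral_resc (m' : ℕ) (z : Euc k) (r : ℝ) (V : Measure (Euc k × L k))
    {f : Euc k × L k → ℝ≥0∞} (hf : Measurable f) {A : Set (Euc k × L k)} (hA : MeasurableSet A) :
    ∫⁻ p in A, f p ∂(resc m' z r V) =
      ENNReal.ofReal ((r ^ m')⁻¹) * ∫⁻ p in hom z r ⁻¹' A, f (hom z r p) ∂V := by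
  rw [resc, Measure.restrict_smul, lintegral_smul_measure, Measure.restrict_map
    (measurable_hom z r) hA, lintegral_map hf (measurable_hom z r), smul_eq_mul]

theorem hom_preimage_ov (z : Euc k) {r : ℝ} (hr : 0 < r) (y : Euc m) (ρ : ℝ) :
    hom z r ⁻¹' (ov π (ball y ρ)) = ov π (ball (π z + r • y) (r * ρ)) := by
  ext p
  simp only [ov, hom, mem_preimage, mem_ofPred_eq, mem_ball, dist_eq_norm, map_smul, map_sub]
  have h1 : π p.1 - (π z + r • y) = r • (r⁻¹ • (π p.1 - π z) - y) := by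
    rw [smul_sub, smul_smul, mul_inv_cancel₀ hr.ne', one_smul]; abel
  rw [h1, norm_smul, Real.norm_of_nonneg hr.le]
  exact (mul_lt_mul_iff_right₀ hr).symm

theorem resc_ov (m' : ℕ) (z : Euc k) {r : ℝ} (hr : 0 < r) (y : Euc m) (ρ : ℝ) :
    resc m' z r V (ov π (ball y ρ)) =
      ENNReal.ofReal ((r ^ m')⁻¹) * V (ov π (ball (π z + r • y) (r * ρ))) := by
  rw [resc, Measure.smul_apply, Measure.map_apply (measurable_hom z r)
    (measurableSet_ov measurableSet_ball), hom_preimage_ov z hr, smul_eq_mul]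

theorem bm_resc (m' : ℕ) (z : Euc k) {r : ℝ} (hr : 0 < r) {c : L k → ℝ} (hc : Measurable c)
    (y : Euc m) (ρ : ℝ) :
    bm (resc m' z r V) π c (ball y ρ) =
      ENNReal.ofReal ((r ^ m')⁻¹) * bm V π c (ball (π z + r • y) (r * ρ)) := by
  rw [bm_apply _ _ _ measurableSet_ball, bm_apply _ _ _ measurableSet_ball,
    setLIntegral_resc m' z r V (f := fun p => ENNReal.ofReal (c p.2))
      ((hc.comp measurable_snd).ennreal_ofReal) (measurableSet_ov measurableSet_ball),
    hom_preimage_ov z hr]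
  rfl

theorem sp_of_resc (m' : ℕ) (z : Euc k) {r : ℝ} (hr : 0 < r) {x : Euc k}
    (h : Sp (resc m' z r V) x) : Sp V (z + r • x) := by
  intro s hs
  have h1 := h (s / r) (by positivity)
  rw [resc_ball m' z x hr, mul_div_cancel₀ _ hr.ne'] at h1
  exact pos_iff_ne_zero.2 fun h0 => by rw [h0, mul_zero] at h1; exact lt_irrefl _ h1

theorem LowD.resc {U : Set (Euc k)} {c : ℝ} (h : LowD m U c V) (z : Euc k) {r : ℝ} (hr : 0 < r) :
    LowD m ((fun x => z + r • x) ⁻¹' U) c (resc m z r V) := by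
  intro x hx ρ hρ hsub
  have h1 := h (z + r • x) (sp_of_resc m z hr hx) (r * ρ) (by positivity) (by
    rw [← image_ball z x hr]
    rintro _ ⟨w, hw, rfl⟩
    exact hsub hw)
  rw [resc_ball m z x hr]
  calc ENNReal.ofReal (c * ρ ^ m) = ENNReal.ofReal ((r ^ m)⁻¹) * ENNReal.ofReal (c * (r * ρ) ^ m) := by
        rw [← ENNReal.ofReal_mul (by positivity)]
        congr 1
        rw [mul_pow]
        field_simp
    _ ≤ _ := by gcongr


/-! ### rotations -/

/-- linear isometry as a continuous linear map -/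
abbrev oc (O : Euc k ≃ₗᵢ[ℝ] Euc k) : L k := (O.toContinuousLinearEquiv : Euc k →L[ℝ] Euc k)

/-- action of a rotation on the Grassmann bundle -/
def rt (O : Euc k ≃ₗᵢ[ℝ] Euc k) (p : Euc k × L k) : Euc k × L k :=
  (O p.1, oc O ∘L p.2 ∘L oc O.symm)

theorem continuous_rt (O : Euc k ≃ₗᵢ[ℝ] Euc k) : Continuous (rt O) := by
  unfold rt
  exact (O.continuous.comp continuous_fst).prodMk
    (continuous_const.clm_comp (continuous_snd.clm_comp continuous_const))

theorem measurable_rt (O : Euc k ≃ₗᵢ[ℝ] Euc k) : Measurable (rt O) := (continuous_rt O).measurable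



theorem adjoint_oc (O : Euc k ≃ₗᵢ[ℝ] Euc k) : ContinuousLinearMap.adjoint (oc O) = oc O.symm := by
  refine (ContinuousLinearMap.eq_adjoint_iff _ _).2 (fun x y => ?_) |>.symm
  change ⟪O.symm x, y⟫_ℝ = ⟪x, O y⟫_ℝ
  rw [← O.inner_map_map (O.symm x) y, O.apply_symm_apply]

theorem rt_mem_G (O : Euc k ≃ₗᵢ[ℝ] Euc k) {P : L k} (hP : P ∈ G m k) :
    oc O ∘L P ∘L oc O.symm ∈ G m k := by
  refine ⟨?_, ?_, ?_⟩
  · ext1 x
    change O (P (O.symm (O (P (O.symm x))))) = O (P (O.symm x))
    rw [O.symm_apply_apply, G_idem_apply hP]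
  · rw [ContinuousLinearMap.isSelfAdjoint_iff', ContinuousLinearMap.adjoint_comp,
      ContinuousLinearMap.adjoint_comp, adjoint_oc, adjoint_oc, LinearIsometryEquiv.symm_symm,
      hP.2.1.adjoint_eq]
    rfl
  · rw [tr_cyc (oc O) (P ∘L oc O.symm)]
    have : (P ∘L oc O.symm) ∘L oc O = P := by
      ext1 x
      change P (O.symm (O x)) = P x
      rw [O.symm_apply_apply]
    rw [this]
    exact hP.2.2

theorem norm_oc_le (O : Euc k ≃ₗᵢ[ℝ] Euc k) : ‖oc O‖ ≤ 1 :=
  ContinuousLinearMap.opNorm_le_bound _ zero_le_one fun x => by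
    change ‖O x‖ ≤ 1 * ‖x‖
    rw [O.norm_map, one_mul]

theorem App.rot {ω : ℝ} {U : Set (Euc k)} (h : App m k ω U V) (hω : 0 ≤ ω)
    (O : Euc k ≃ₗᵢ[ℝ] Euc k) : App m k ω (O.symm ⁻¹' U) (V.map (rt O)) where
  conc := by
    rw [ae_map_iff (measurable_rt O).aemeasurable ((measurableSet_G m k).preimage measurable_snd)]
    filter_upwards [h.conc] with p hp
    exact rt_mem_G O hp
  fin K hK hKU := by
    rw [Measure.map_apply (measurable_rt O) (hK.measurableSet.prod .univ)]
    have h1 : rt O ⁻¹' (K ×ˢ univ) ⊆ (O.symm '' K) ×ˢ (univ : Set (L k)) := by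
      rintro ⟨x, P⟩ ⟨hx, -⟩
      exact ⟨⟨O x, hx, O.symm_apply_apply x⟩, trivial⟩
    refine lt_of_le_of_lt (measure_mono h1) (h.fin _ (hK.image O.symm.continuous) ?_)
    rintro _ ⟨x, hx, rfl⟩
    exact hKU hx
  fv X hX hXc hXU := by
    rw [integral_map (measurable_rt O).aemeasurable (continuous_tr_fderiv hX).aestronglyMeasurable,
      integral_map (measurable_rt O).aemeasurable (continuous_sz hX).aestronglyMeasurable]
    let Y : Euc k → Euc k := fun x => oc O.symm (X (O x))
    have hY : ContDiff ℝ 1 Y := (oc O.symm).contDiff.comp (hX.comp O.contDiff)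
    have hYs : tsupport Y ⊆ O ⁻¹' tsupport X := by
      refine closure_minimal ?_ ((isClosed_tsupport X).preimage O.continuous)
      intro x hx
      refine subset_tsupport X ?_
      intro h0
      apply hx
      change oc O.symm (X (O x)) = 0
      rw [h0, map_zero]
    have hYc : HasCompactSupport Y := by
      refine HasCompactSupport.intro (K := O.symm '' tsupport X) (hXc.image O.symm.continuous) ?_
      intro x hx
      change oc O.symm (X (O x)) = 0
      have : X (O x) = 0 := by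
        refine image_eq_zero_of_notMem_tsupport fun h0 => hx ⟨O x, h0, O.symm_apply_apply x⟩
      rw [this, map_zero]
    have hYU : tsupport Y ⊆ U := by
      intro x hx
      have h1 := hXU (hYs hx)
      simpa using h1
    have hD : ∀ x, fderiv ℝ Y x = oc O.symm ∘L fderiv ℝ X (O x) ∘L oc O := by
      intro x
      have hd : HasFDerivAt X (fderiv ℝ X (O x)) (O x) := (hX.differentiable one_ne_zero _).hasFDerivAt
      have h1 : HasFDerivAt (fun x : Euc k => O x) (oc O) x := (oc O).hasFDerivAt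
      exact ((oc O.symm).hasFDerivAt.comp x (hd.comp x h1)).fderiv
    have h1 := h.fv Y hY hYc hYU
    have h2 : ∀ p : Euc k × L k, tr (fderiv ℝ Y p.1 ∘L p.2) =
        tr (fderiv ℝ X (rt O p).1 ∘L (rt O p).2) := by
      intro p
      rw [hD]
      have h3 : (oc O.symm ∘L fderiv ℝ X (O p.1) ∘L oc O) ∘L p.2 =
          oc O.symm ∘L (fderiv ℝ X (O p.1) ∘L oc O ∘L p.2) := rfl
      rw [h3, tr_cyc]
      rfl
    simp_rw [h2] at h1
    refine h1.trans ?_
    refine mul_le_mul_of_nonneg_left ?_ hω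
    have hXV : (V.map (rt O)) (tsupport X ×ˢ univ) < ⊤ := by
      rw [Measure.map_apply (measurable_rt O) ((isClosed_tsupport X).measurableSet.prod .univ)]
      have h1 : rt O ⁻¹' (tsupport X ×ˢ univ) ⊆ (O.symm '' tsupport X) ×ˢ (univ : Set (L k)) := by
        rintro ⟨x, P⟩ ⟨hx, -⟩
        exact ⟨⟨O x, hx, O.symm_apply_apply x⟩, trivial⟩
      refine lt_of_le_of_lt (measure_mono h1) (h.fin _ (hXc.image O.symm.continuous) ?_)
      rintro _ ⟨x, hx, rfl⟩
      exact hXU hx
    have hconc : ∀ᵐ p ∂(V.map (rt O)), p.2 ∈ G m k := by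
      rw [ae_map_iff (measurable_rt O).aemeasurable ((measurableSet_G m k).preimage measurable_snd)]
      filter_upwards [h.conc] with p hp
      exact rt_mem_G O hp
    have hint : Integrable (fun p => sz X (rt O p)) V :=
      (integrable_map_measure (continuous_sz hX).aestronglyMeasurable
        (measurable_rt O).aemeasurable).1 (integrable_sz hconc hX hXc hXV)
    refine integral_mono (integrable_sz h.conc hY hYc (h.fin _ hYc hYU)) hint fun p => ?_
    change ‖fderiv ℝ Y p.1‖ + ‖Y p.1‖ ≤ ‖fderiv ℝ X (O p.1)‖ + ‖X (O p.1)‖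
    rw [hD]
    refine add_le_add ?_ ?_
    · calc ‖oc O.symm ∘L fderiv ℝ X (O p.1) ∘L oc O‖
          ≤ ‖oc O.symm‖ * ‖fderiv ℝ X (O p.1) ∘L oc O‖ := ContinuousLinearMap.opNorm_comp_le _ _
        _ ≤ 1 * (‖fderiv ℝ X (O p.1)‖ * ‖oc O‖) := by
            gcongr
            · exact norm_oc_le _
            · exact ContinuousLinearMap.opNorm_comp_le _ _
        _ ≤ 1 * (‖fderiv ℝ X (O p.1)‖ * 1) := by gcongr; exact norm_oc_le _
        _ = _ := by ring
    · change ‖O.symm (X (O p.1))‖ ≤ _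
      rw [O.symm.norm_map]

theorem rt_preimage_ball (O : Euc k ≃ₗᵢ[ℝ] Euc k) (x : Euc k) (r : ℝ) :
    rt O ⁻¹' (ball x r ×ˢ univ) = ball (O.symm x) r ×ˢ (univ : Set (L k)) := by
  ext p
  simp only [rt, mem_preimage, mem_prod, mem_univ, and_true, mem_ball]
  rw [← O.dist_map p.1 (O.symm x), O.apply_symm_apply]

theorem map_rt_ball (O : Euc k ≃ₗᵢ[ℝ] Euc k) (x : Euc k) (r : ℝ) :
    (V.map (rt O)) (ball x r ×ˢ univ) = V (ball (O.symm x) r ×ˢ univ) := by
  rw [Measure.map_apply (measurable_rt O) (measurableSet_ball.prod .univ), rt_preimage_ball]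

theorem LowD.rot {U : Set (Euc k)} {c : ℝ} (h : LowD m U c V) (O : Euc k ≃ₗᵢ[ℝ] Euc k) :
    LowD m (O.symm ⁻¹' U) c (V.map (rt O)) := by
  intro x hx r hr hsub
  rw [map_rt_ball]
  refine h (O.symm x) (fun s hs => ?_) r hr ?_
  · have := hx s hs
    rwa [map_rt_ball] at this
  · intro w hw
    have h1 : O w ∈ ball x r := by
      rw [mem_ball] at hw ⊢
      rw [← O.dist_map w (O.symm x), O.apply_symm_apply] at hw
      exact hw
    have h2 := hsub h1
    simpa using h2

/-- rotated projection. -/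
theorem Shh_rt {π π₀ : Euc k →L[ℝ] Euc m} {O : Euc k ≃ₗᵢ[ℝ] Euc k} (hO : ∀ x, π₀ (O x) = π x)
    (P : L k) : Shh π₀ (oc O ∘L P ∘L oc O.symm) = Shh π P := by
  have h1 : ∀ v, O.symm (ContinuousLinearMap.adjoint π₀ v) = ContinuousLinearMap.adjoint π v := by
    intro v
    refine ext_inner_right ℝ fun w => ?_
    rw [ContinuousLinearMap.adjoint_inner_left, ← O.inner_map_map, O.apply_symm_apply,
      ContinuousLinearMap.adjoint_inner_left, hO]
  ext1 v
  change π₀ (O (P (O.symm (ContinuousLinearMap.adjoint π₀ v)))) =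
    π (P (ContinuousLinearMap.adjoint π v))
  rw [hO, h1]

theorem tl_eq_Shh (π : Euc k →L[ℝ] Euc m) (P : L k) :
    tl π P = m - LinearMap.trace ℝ (Euc m) (Shh π P : Euc m →L[ℝ] Euc m) := rfl

theorem tl_rt {π π₀ : Euc k →L[ℝ] Euc m} {O : Euc k ≃ₗᵢ[ℝ] Euc k} (hO : ∀ x, π₀ (O x) = π x)
    (P : L k) : tl π₀ (oc O ∘L P ∘L oc O.symm) = tl π P := by
  rw [tl_eq_Shh, tl_eq_Shh, Shh_rt hO]

theorem eL_rt {π π₀ : Euc k →L[ℝ] Euc m} {O : Euc k ≃ₗᵢ[ℝ] Euc k} (hO : ∀ x, π₀ (O x) = π x)
    (S : Submodule ℝ (Euc m)) (P : L k) : eL π₀ S (oc O ∘L P ∘L oc O.symm) = eL π S P := by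
  unfold eL qf
  rw [Shh_rt hO]

theorem rt_preimage_ov {π π₀ : Euc k →L[ℝ] Euc m} {O : Euc k ≃ₗᵢ[ℝ] Euc k}
    (hO : ∀ x, π₀ (O x) = π x) (A : Set (Euc m)) : rt O ⁻¹' (ov π₀ A) = ov π A := by
  ext p
  simp only [ov, rt, mem_preimage, mem_ofPred_eq, hO]

theorem map_rt_ov {π π₀ : Euc k →L[ℝ] Euc m} {O : Euc k ≃ₗᵢ[ℝ] Euc k} (hO : ∀ x, π₀ (O x) = π x)
    {A : Set (Euc m)} (hA : MeasurableSet A) : (V.map (rt O)) (ov π₀ A) = V (ov π A) := by
  rw [Measure.map_apply (measurable_rt O) (measurableSet_ov hA), rt_preimage_ov hO]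

theorem bm_rt {π π₀ : Euc k →L[ℝ] Euc m} {O : Euc k ≃ₗᵢ[ℝ] Euc k} (hO : ∀ x, π₀ (O x) = π x)
    {c c₀ : L k → ℝ} (hc₀ : Measurable c₀) (hcc : ∀ P, c₀ (oc O ∘L P ∘L oc O.symm) = c P)
    {A : Set (Euc m)} (hA : MeasurableSet A) :
    bm (V.map (rt O)) π₀ c₀ A = bm V π c A := by
  rw [bm_apply _ _ _ hA, bm_apply _ _ _ hA, Measure.restrict_map (measurable_rt O)
    (measurableSet_ov hA), lintegral_map (f := fun p => ENNReal.ofReal (c₀ p.2))
    ((hc₀.comp measurable_snd).ennreal_ofReal) (measurable_rt O), rt_preimage_ov hO]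
  refine lintegral_congr fun p => ?_
  change ENNReal.ofReal (c₀ (oc O ∘L p.2 ∘L oc O.symm)) = _
  rw [hcc]

/-- any two coordinate projections differ by a rotation. -/
theorem exists_rotation {π π₀ : Euc k →L[ℝ] Euc m} (hπ : IsCo π) (hπ₀ : IsCo π₀) :
    ∃ O : Euc k ≃ₗᵢ[ℝ] Euc k, ∀ x, π₀ (O x) = π x := by
  classical
  let J : Euc m →ₗᵢ[ℝ] Euc k := ⟨(ContinuousLinearMap.adjoint π).toLinearMap, norm_adjoint_co hπ⟩
  let J₀ : Euc m →ₗᵢ[ℝ] Euc k := ⟨(ContinuousLinearMap.adjoint π₀).toLinearMap, norm_adjoint_co hπ₀⟩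
  let e : Euc m ≃ₗᵢ[ℝ] LinearMap.range J.toLinearMap := J.equivRange
  let T : Euc k →ₗᵢ[ℝ] Euc k := (J₀.comp e.symm.toLinearIsometry).extend
  let O : Euc k ≃ₗᵢ[ℝ] Euc k := T.toLinearIsometryEquiv rfl
  have h1 : ∀ v, O (ContinuousLinearMap.adjoint π v) = ContinuousLinearMap.adjoint π₀ v := by
    intro v
    have h2 : ((e v : LinearMap.range J.toLinearMap) : Euc k) = ContinuousLinearMap.adjoint π v := rfl
    have h3 : T ((e v : LinearMap.range J.toLinearMap) : Euc k) = (J₀.comp e.symm.toLinearIsometry) (e v) :=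
      LinearIsometry.extend_apply _ _
    change T (ContinuousLinearMap.adjoint π v) = _
    rw [← h2, h3]
    change J₀ (e.symm (e v)) = _
    rw [e.symm_apply_apply]
    rfl
  refine ⟨O, fun x => ?_⟩
  refine ext_inner_left ℝ fun v => ?_
  rw [← ContinuousLinearMap.adjoint_inner_left, ← h1 v, O.inner_map_map,
    ContinuousLinearMap.adjoint_inner_left]

/-! ### pigeonhole in the heights -/

theorem eB_eq (π : Euc k →L[ℝ] Euc m) (V : Measure (Euc k × L k)) {A : Set (Euc k)}
    (hA : MeasurableSet A) : eB π V A =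
      (V.withDensity fun p => ENNReal.ofReal (tl π p.2)) (A ×ˢ univ) := by
  rw [withDensity_apply _ (hA.prod .univ)]
  rfl

theorem isClosed_bxc (π : Euc k →L[ℝ] Euc m) (a : Euc k) (r : ℝ) : IsClosed (bxc π a r) :=
  (isCompact_Bc (AS_456.hp π) r).isClosed.preimage (by fun_prop : Continuous fun x : Euc k => x - a)

theorem eB_resc_one (m' : ℕ) (z a : Euc k) (r : ℝ) :
    eB π (resc m' z 1 V) (bxc π a r) = eB π V (bxc π (a + z) r) := by
  unfold eB
  rw [setLIntegral_resc m' z 1 V (f := fun p => ENNReal.ofReal (tl π p.2))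
    ((((measurable_tl π).measurable).comp measurable_snd).ennreal_ofReal)
    ((isClosed_bxc π a r).measurableSet.prod .univ), one_pow, inv_one, ENNReal.ofReal_one, one_mul]
  have h1 : hom z 1 ⁻¹' (bxc π a r ×ˢ univ) = bxc π (a + z) r ×ˢ (univ : Set (L k)) := by
    ext p
    simp only [hom, mem_preimage, mem_prod, mem_univ, and_true, bxc, mem_ofPred_eq, inv_one, one_smul]
    rw [show p.1 - z - a = p.1 - (a + z) by abel]
  rw [h1]
  rfl

theorem norm_co_le (hπ : IsCo π) (x : Euc k) : ‖π x‖ ≤ ‖x‖ := by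
  rw [← norm_hp hπ]
  calc ‖AS_456.hp π x‖ ≤ ‖AS_456.hp π‖ * ‖x‖ := (AS_456.hp π).le_opNorm x
    _ ≤ 1 * ‖x‖ := by gcongr; exact norm_hp_le hπ
    _ = ‖x‖ := one_mul _

theorem exists_box (hπ : IsCo π) {C c R : ℝ} (hR : 2 ≤ R) (hC : 0 ≤ C) (hc : 0 < c)
    (hmass : MassC π C R V) (hlow : LowD m (cy π R) c V) {N : ℕ} (hN : C * 4 ^ m ≤ N * c)
    {τ : ℝ} (hτ : 0 < τ) (he : ENNReal.ofReal τ ≤ eM V π (ball 0 1)) :
    ∃ w : Euc k, ‖π w‖ < 1 ∧ ENNReal.ofReal (τ / N) ≤ eB π V (bxc π w 1) := by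
  classical
  let good : Finset (Euc k) → Prop := fun F =>
    (∀ z ∈ F, ‖π z‖ < 1 ∧ Sp V z) ∧ ∀ z ∈ F, ∀ w ∈ F, z ≠ w → 1 ≤ dist z w
  have hcard : ∀ F, good F → F.card ≤ N := by
    intro F hF
    have hdisj : (F : Set (Euc k)).PairwiseDisjoint fun z => ball z (1 / 2) ×ˢ (univ : Set (L k)) := by
      intro z hz w hw hzw
      refine Disjoint.set_prod_left (ball_disjoint_ball ?_) _ _
      have := hF.2 z hz w hw hzw
      linarith
    have hsub : ∀ z ∈ F, ∀ x ∈ ball z (1 / 2), ‖π x‖ < 2 := by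
      intro z hz x hx
      have h1 : ‖π z‖ < 1 := (hF.1 z hz).1
      have h2 : ‖π (x - z)‖ ≤ ‖x - z‖ := norm_co_le hπ _
      rw [mem_ball, dist_eq_norm] at hx
      calc ‖π x‖ = ‖π (x - z) + π z‖ := by rw [← map_add]; congr 2; abel
        _ ≤ ‖π (x - z)‖ + ‖π z‖ := norm_add_le _ _
        _ < 2 := by linarith
    have h1 : ∀ z ∈ F, ENNReal.ofReal (c * (1 / 2) ^ m) ≤ V (ball z (1 / 2) ×ˢ univ) := fun z hz =>
      hlow z (hF.1 z hz).2 (1 / 2) (by norm_num) fun x hx => lt_of_lt_of_le (hsub z hz x hx) hR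
    have h2 : ∑ z ∈ F, V (ball z (1 / 2) ×ˢ univ) ≤ ENNReal.ofReal (C * 2 ^ m) := by
      rw [← measure_biUnion_finset hdisj fun z _ => measurableSet_ball.prod MeasurableSet.univ]
      refine le_trans (measure_mono ?_) (hmass 2 (by norm_num) hR)
      refine iUnion₂_subset fun z hz p hp => ?_
      change π p.1 ∈ ball 0 2
      rw [mem_ball_zero_iff]
      exact hsub z hz _ hp.1
    have h3 : (F.card : ℝ≥0∞) * ENNReal.ofReal (c * (1 / 2) ^ m) ≤ ENNReal.ofReal (C * 2 ^ m) := by
      refine le_trans ?_ h2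
      rw [← nsmul_eq_mul, ← Finset.sum_const]
      exact Finset.sum_le_sum h1
    have hp0 : (0 : ℝ) < c * (1 / 2) ^ m := by positivity
    have h4 : (F.card : ℝ) * (c * (1 / 2) ^ m) ≤ C * 2 ^ m := by
      rw [← ENNReal.ofReal_natCast, ← ENNReal.ofReal_mul (by positivity)] at h3
      exact (ENNReal.ofReal_le_ofReal_iff (by positivity)).mp h3
    have h5 : (F.card : ℝ) ≤ N := by
      have e1 : (F.card : ℝ) * c ≤ C * 4 ^ m := by
        have e2 : (2 : ℝ) ^ m * (1 / 2) ^ m = 1 := by rw [← mul_pow]; norm_num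
        have e3 : (4 : ℝ) ^ m = 2 ^ m * 2 ^ m := by rw [← mul_pow]; norm_num
        calc (F.card : ℝ) * c = 2 ^ m * (F.card * (c * (1 / 2) ^ m)) := by
              rw [show (2 : ℝ) ^ m * (F.card * (c * (1 / 2) ^ m)) =
                (2 ^ m * (1 / 2) ^ m) * (F.card * c) by ring, e2, one_mul]
          _ ≤ 2 ^ m * (C * 2 ^ m) := by gcongr
          _ = C * 4 ^ m := by rw [e3]; ring
      exact le_of_mul_le_mul_right (e1.trans hN) hc
    exact_mod_cast h5
  obtain ⟨F, hF, hmax⟩ : ∃ F, good F ∧ ∀ F', good F' → F'.card ≤ F.card := by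
    let p : ℕ → Prop := fun n => ∃ F, good F ∧ F.card = n
    have hp0 : p 0 := ⟨∅, ⟨by simp, by simp⟩, rfl⟩
    obtain ⟨F, hF, hFn⟩ : p (Nat.findGreatest p N) :=
      Nat.findGreatest_spec (P := p) (Nat.zero_le _) hp0
    refine ⟨F, hF, fun F' hF' => ?_⟩
    rw [hFn]
    exact Nat.le_findGreatest (hcard F' hF') ⟨F', hF', rfl⟩
  have hcov : ∀ z, ‖π z‖ < 1 → Sp V z → ∃ w ∈ F, dist z w < 1 := by
    intro z hz hzs
    by_contra hcon
    push Not at hcon
    have hzF : z ∉ F := fun hzF => by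
      have := hcon z hzF
      rw [dist_self] at this
      linarith
    have hg : good (insert z F) := by
      refine ⟨fun w hw => ?_, fun w hw w' hw' hne => ?_⟩
      · rcases Finset.mem_insert.mp hw with rfl | hw
        · exact ⟨hz, hzs⟩
        · exact hF.1 w hw
      · rcases Finset.mem_insert.mp hw with hw1 | hw1 <;>
          rcases Finset.mem_insert.mp hw' with hw2 | hw2
        · exact absurd (hw1.trans hw2.symm) hne
        · rw [hw1]; exact hcon w' hw2
        · rw [hw2, dist_comm]; exact hcon w hw1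
        · exact hF.2 w hw1 w' hw2 hne
    have h1 := hmax _ hg
    rw [Finset.card_insert_of_notMem hzF] at h1
    omega
  set ν := V.withDensity fun p => ENNReal.ofReal (tl π p.2) with hν
  have hle : eM V π (ball 0 1) ≤ ∑ w ∈ F, eB π V (bxc π w 1) := by
    have h1 : ∀ᵐ p ∂ν, p ∈ ov π (ball 0 1) → p ∈ ⋃ w ∈ F, bxc π w 1 ×ˢ (univ : Set (L k)) := by
      refine (withDensity_absolutelyContinuous V _).ae_le ?_
      filter_upwards [ae_sp V] with p hp hpo
      have hp1 : ‖π p.1‖ < 1 := by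
        have : π p.1 ∈ ball 0 1 := hpo
        rwa [mem_ball_zero_iff] at this
      obtain ⟨w, hw, hw2⟩ := hcov p.1 hp1 hp
      refine mem_iUnion₂.2 ⟨w, hw, ⟨?_, ?_⟩, trivial⟩
      · rw [dist_eq_norm] at hw2
        change ‖AS_456.hp π (p.1 - w)‖ ≤ 1
        rw [norm_hp hπ]
        exact (norm_co_le hπ _).trans hw2.le
      · rw [dist_eq_norm] at hw2
        change ‖(p.1 - w) - AS_456.hp π (p.1 - w)‖ ≤ 1
        calc ‖AS_456.vp π (p.1 - w)‖ ≤ ‖AS_456.vp π‖ * ‖p.1 - w‖ := (AS_456.vp π).le_opNorm _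
          _ ≤ 1 * ‖p.1 - w‖ := by gcongr; exact norm_vp_le hπ
          _ ≤ 1 := by rw [one_mul]; exact hw2.le
    calc eM V π (ball 0 1) = ν (ov π (ball 0 1)) := by
          rw [hν, withDensity_apply _ (measurableSet_ov measurableSet_ball)]
          exact bm_apply _ _ _ measurableSet_ball
      _ ≤ ν (⋃ w ∈ F, bxc π w 1 ×ˢ (univ : Set (L k))) := measure_mono_ae h1
      _ ≤ ∑ w ∈ F, ν (bxc π w 1 ×ˢ univ) := measure_biUnion_finset_le _ _
      _ = _ := Finset.sum_congr rfl fun w _ => (eB_eq π V (isClosed_bxc π w 1).measurableSet).symm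
  have hFne : F.Nonempty := by
    rw [Finset.nonempty_iff_ne_empty]
    intro h0
    rw [h0, Finset.sum_empty] at hle
    have h1 : ENNReal.ofReal τ ≤ 0 := he.trans hle
    have h2 : 0 < ENNReal.ofReal τ := ENNReal.ofReal_pos.2 hτ
    exact absurd h1 (not_le.2 h2)
  have hFpos : (0 : ℝ) < F.card := by exact_mod_cast Finset.card_pos.mpr hFne
  have hFN : (F.card : ℝ) ≤ N := by exact_mod_cast hcard F hF
  have hNpos : (0 : ℝ) < N := hFpos.trans_le hFN
  obtain ⟨w, hw, hw2⟩ := ENNReal.exists_le_of_sum_le (f := fun _ => ENNReal.ofReal (τ / N))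
    (g := fun w => eB π V (bxc π w 1)) hFne (by
      refine le_trans ?_ (he.trans hle)
      rw [Finset.sum_const, nsmul_eq_mul, ← ENNReal.ofReal_natCast, ← ENNReal.ofReal_mul (by positivity)]
      refine ENNReal.ofReal_le_ofReal ?_
      rw [mul_div_assoc', div_le_iff₀ hNpos, mul_comm]
      gcongr)
  exact ⟨w, (hF.1 w hw).1, hw2⟩

end Crest.Agent.R234.La_300
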