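import Crest.Agent.R234.La3_300
import Mathlib
import Crest.Agent.R234.Log1_113
import Crest.Agent.R234.Pers3_540
import Crest.Agent.R234.Ar3_870

-- ▼ part R234/La4_300
section

/-! Row 234, VF-LOGAS (task 1612, helper300), part 4: the logarithmic growth for approximately
stationary varifolds from the exact one by compactness; all projections, all centres and scales. -/

set_option autoImplicit false
set_option linter.unusedSectionVars false

open MeasureTheory Filter Topology Set Metric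
open Crest.GeometryTopology.Submanifold Crest.Agent.R234.Vf_884 Crest.Agent.R234.Ar_870
open Crest.Agent.R234.Vc_164 Crest.Agent.R234.Cp914 Crest.Agent.R234.Pers_540
open Crest.Agent.R234.N5_372 Crest.Agent.R234.Cy_870
open scoped ENNReal NNReal InnerProductSpace

noncomputable section

namespace Crest.Agent.R234.La_300

variable {m n k d : ℕ} {π : Euc k →L[ℝ] Euc m} {V : Measure (Euc k × L k)}

/-- exact unit scale growth for one projection (`M` as in 113's theorem, `lM = 0`). -/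
def ExL (π : Euc k →L[ℝ] Euc m) (d : ℕ) : Prop :=
  ∀ C c : ℝ, 0 ≤ C → 0 < c → ∀ τ : ℝ, 0 < τ → ∀ K : ℝ, ∃ M0 : ℝ, ∀ M : ℝ, M0 ≤ M →
    ∀ (V : Measure (Euc k × L k)) (S : Submodule ℝ (Euc m)),
    Stat m k (cy π (2 * M)) V → MassC π C (2 * M) V → LowD m (cy π (2 * M)) c V →
    Module.finrank ℝ S = d → ENNReal.ofReal τ ≤ eM V π (ball 0 1) →
    lM V π S (ball 0 (2 * M)) = 0 → ENNReal.ofReal (K * M ^ d) ≤ eM V π (ball 0 M)

theorem measurable_tl' (π : Euc k →L[ℝ] Euc m) : Measurable (tl π : L k → ℝ) :=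
  (measurable_tl π).measurable

theorem unit_fix (hπ : IsCo π) (hE : ExL π d) {C c : ℝ} (hC : 0 ≤ C) (hc : 0 < c) {τ : ℝ}
    (hτ : 0 < τ) (K : ℝ) : ∃ M0 : ℝ, 3 ≤ M0 ∧ ∀ M : ℝ, M0 ≤ M → ∃ dA : ℝ, 0 < dA ∧
    ∀ (V : Measure (Euc k × L k)) (S : Submodule ℝ (Euc m)),
    App m k dA (cy π (2 * M)) V → MassC π C (2 * M) V → LowD m (cy π (2 * M)) c V →
    Module.finrank ℝ S = d → ENNReal.ofReal τ ≤ eM V π (ball 0 1) →
    lM V π S (ball 0 (2 * M)) ≤ ENNReal.ofReal dA →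
    ENNReal.ofReal (K * M ^ d) ≤ eM V π (ball 0 M) := by
  set N : ℕ := ⌈C * 4 ^ m / c⌉₊ + 1 with hN
  have hNc : C * 4 ^ m ≤ N * c := by
    rw [← div_le_iff₀ hc]
    calc C * 4 ^ m / c ≤ ⌈C * 4 ^ m / c⌉₊ := Nat.le_ceil _
      _ ≤ N := by rw [hN]; exact_mod_cast Nat.le_succ _
  have hNpos : (0 : ℝ) < N := by rw [hN]; exact_mod_cast Nat.succ_pos _
  set ε : ℝ := τ / N with hε
  have hε0 : 0 < ε := by positivity
  obtain ⟨M0, hM0⟩ := hE C c hC hc (ε / 3 ^ m) (by positivity) (3 ^ d * (|K| + 1))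
  refine ⟨max (3 * M0) 3, le_max_right _ _, fun M hM => ?_⟩
  have hM3 : 3 ≤ M := (le_max_right _ _).trans hM
  have hMM0 : M0 ≤ M / 3 := by
    have := (le_max_left (3 * M0) 3).trans hM
    linarith
  by_contra hcon
  push Not at hcon
  have hseq : ∀ j : ℕ, ∃ (V : Measure (Euc k × L k)) (S : Submodule ℝ (Euc m)),
      App m k (1 / ((j : ℝ) + 1)) (cy π (2 * M)) V ∧ MassC π C (2 * M) V ∧
      LowD m (cy π (2 * M)) c V ∧
      Module.finrank ℝ S = d ∧ ENNReal.ofReal τ ≤ eM V π (ball 0 1) ∧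
      lM V π S (ball 0 (2 * M)) ≤ ENNReal.ofReal (1 / ((j : ℝ) + 1)) ∧
      eM V π (ball 0 M) < ENNReal.ofReal (K * M ^ d) := by
    intro j
    obtain ⟨V, S, h1, h2, h3, h4, h5, h6, h7⟩ := hcon (1 / ((j : ℝ) + 1)) (by positivity)
    exact ⟨V, S, h1, h2, h3, h4, h5, h6, h7⟩
  choose V S happ hmass hlow hS hen hlM htop using hseq
  have hbox : ∀ j, ∃ w : Euc k, ‖π w‖ < 1 ∧ ENNReal.ofReal ε ≤ eB π (V j) (bxc π w 1) := fun j =>
    exists_box hπ (by linarith) hC hc (hmass j) (hlow j) hNc hτ (hen j)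
  choose w hw hwe using hbox
  -- vertical recentring
  have hpv : ∀ x : Euc k, π (AS_456.vp π x) = 0 := by
    intro x
    change π (x - ContinuousLinearMap.adjoint π (π x)) = 0
    rw [map_sub, show π (ContinuousLinearMap.adjoint π (π x)) = π x from
      congrArg (fun T : Euc m →L[ℝ] Euc m => T (π x)) hπ, sub_self]
  have hcyl : ∀ (x : Euc k) (R : ℝ),
      (fun y : Euc k => AS_456.vp π x + (1 : ℝ) • y) ⁻¹' cy π R = cy π R := by
    intro x R
    ext y
    change ‖π (AS_456.vp π x + (1 : ℝ) • y)‖ < R ↔ ‖π y‖ < R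
    rw [map_add, hpv, zero_add, one_smul]
  set V' : ℕ → Measure (Euc k × L k) := fun j => resc m (AS_456.vp π (w j)) 1 (V j) with hV'
  have happ' : ∀ j : ℕ, App m k (1 / ((j : ℝ) + 1)) (cy π (2 * M)) (V' j) := by
    intro j
    have h1 := (happ j).zoom (by positivity) one_pos le_rfl (AS_456.vp π (w j))
    rwa [hcyl] at h1
  have hovs : ∀ j r, V' j (ov π (ball 0 r)) = V j (ov π (ball 0 r)) := by
    intro j r
    rw [hV']
    simp only
    rw [resc_ov m _ one_pos, hpv, one_pow, inv_one, ENNReal.ofReal_one, one_mul, one_mul, smul_zero,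
      add_zero]
  have hbm : ∀ (j : ℕ) (g : L k → ℝ), Measurable g → ∀ r,
      bm (V' j) π g (ball 0 r) = bm (V j) π g (ball 0 r) := by
    intro j g hg r
    rw [hV']
    simp only
    rw [bm_resc m _ one_pos hg, hpv, one_pow, inv_one, ENNReal.ofReal_one, one_mul, one_mul,
      smul_zero, add_zero]
  have hlow' : ∀ j, LowD m (cy π (2 * M)) c (V' j) := by
    intro j
    have h1 := LowD.resc (hlow j) (AS_456.vp π (w j)) one_pos
    rwa [hcyl] at h1
  obtain ⟨V₀, S₀, a₀, -, hst, hm0, hl0, hS0, hlM0, ha0, ha01, hb0, ht0⟩ := limit (R := 2 * M) (M := M)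
    (C := C) (c := c) (ε := ε) (B := K * M ^ d) hπ (by linarith) (by linarith)
    (V := V') (w := fun j : ℕ => 1 / ((j : ℝ) + 1)) tendsto_one_div_add_atTop_nhds_zero_nat happ'
    (fun j r hr hrR => by rw [hovs]; exact hmass j r hr hrR) hlow' S hS (by
      refine tendsto_of_tendsto_of_tendsto_of_le_of_le tendsto_const_nhds
        (h := fun j : ℕ => ENNReal.ofReal (1 / ((j : ℝ) + 1))) ?_ (fun _ => bot_le) fun j => ?_
      · have h1 := (ENNReal.continuous_ofReal.tendsto 0).comp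
          (tendsto_one_div_add_atTop_nhds_zero_nat (𝕜 := ℝ))
        simpa [Function.comp_def] using h1
      · change lM (V' j) π (S j) (ball 0 (2 * M)) ≤ _
        rw [lM, hbm j _ (continuous_eL π (S j)).measurable]
        exact hlM j)
    (a := fun j => AS_456.hp π (w j)) (fun j => by
      change AS_456.hp π (w j) - ContinuousLinearMap.adjoint π (π (AS_456.hp π (w j))) = 0
      have : π (AS_456.hp π (w j)) = π (w j) :=
        congrArg (fun T : Euc m →L[ℝ] Euc m => T (π (w j))) hπ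
      rw [this]
      exact sub_self _) (fun j => by rw [norm_hp hπ]; exact (hw j).le) (fun j => by
      rw [hV']
      simp only
      rw [eB_resc_one]
      have : AS_456.hp π (w j) + AS_456.vp π (w j) = w j := by
        change AS_456.hp π (w j) + (w j - AS_456.hp π (w j)) = w j
        abel
      rw [this]
      exact hwe j) (fun j => by
      rw [eM, hbm j _ (measurable_tl' π)]
      exact (htop j).le)
  -- exact varifold at scale 3
  set V₁ := resc m (0 : Euc k) 3 V₀ with hV₁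
  have hpre : (fun y : Euc k => (0 : Euc k) + (3 : ℝ) • y) ⁻¹' cy π (2 * M) = cy π (2 * (M / 3)) := by
    ext y
    change ‖π ((0 : Euc k) + (3 : ℝ) • y)‖ < 2 * M ↔ ‖π y‖ < 2 * (M / 3)
    rw [zero_add, map_smul, norm_smul, Real.norm_of_nonneg (by norm_num : (0:ℝ) ≤ 3)]
    constructor <;> intro h <;> linarith
  have h3 : (0 : ℝ) < 3 := by norm_num
  have hbm3 : ∀ (g : L k → ℝ), Measurable g → ∀ r,
      bm V₁ π g (ball 0 r) = ENNReal.ofReal ((3 ^ m)⁻¹) * bm V₀ π g (ball 0 (3 * r)) := by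
    intro g hg r
    rw [hV₁, bm_resc m _ h3 hg, map_zero, smul_zero, add_zero]
  have hst1 : Stat m k (cy π (2 * (M / 3))) V₁ := by
    have := resc_stat (0 : Euc k) h3 hst
    rwa [hpre] at this
  have hl1 : LowD m (cy π (2 * (M / 3))) c V₁ := by
    have := LowD.resc hl0 (0 : Euc k) h3
    rwa [hpre] at this
  have hm1 : MassC π C (2 * (M / 3)) V₁ := by
    intro r hr hrM
    rw [hV₁, resc_ov m _ h3, map_zero, smul_zero, add_zero]
    calc ENNReal.ofReal ((3 ^ m)⁻¹) * V₀ (ov π (ball 0 (3 * r)))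
        ≤ ENNReal.ofReal ((3 ^ m)⁻¹) * ENNReal.ofReal (C * (3 * r) ^ m) := by
          gcongr
          exact hm0 (3 * r) (by linarith) (by linarith)
      _ = ENNReal.ofReal (C * r ^ m) := by
          rw [← ENNReal.ofReal_mul (by positivity)]
          congr 1
          rw [mul_pow]
          field_simp
  have hen1 : ENNReal.ofReal (ε / 3 ^ m) ≤ eM V₁ π (ball 0 1) := by
    rw [eM, hbm3 _ (measurable_tl' π), mul_one]
    have h1 : eB π V₀ (bxc π a₀ 1) ≤ bm V₀ π (tl π) (ball 0 3) := by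
      rw [bm_apply _ _ _ measurableSet_ball]
      refine lintegral_mono_set ?_
      rintro p ⟨hp, -⟩
      change π p.1 ∈ ball 0 3
      rw [mem_ball_zero_iff]
      have h4 : ‖π (p.1 - a₀)‖ ≤ 1 := by rw [← norm_hp hπ]; exact hp.1
      have h5 : ‖π a₀‖ ≤ 1 := (norm_co_le hπ _).trans ha01
      calc ‖π p.1‖ = ‖π (p.1 - a₀) + π a₀‖ := by rw [← map_add]; congr 2; abel
        _ ≤ ‖π (p.1 - a₀)‖ + ‖π a₀‖ := norm_add_le _ _
        _ < 3 := by linarith
    calc ENNReal.ofReal (ε / 3 ^ m) = ENNReal.ofReal ((3 ^ m)⁻¹) * ENNReal.ofReal ε := by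
          rw [← ENNReal.ofReal_mul (by positivity)]
          congr 1
          rw [div_eq_inv_mul]
      _ ≤ _ := by gcongr; exact hb0.trans h1
  have hlM1 : lM V₁ π S₀ (ball 0 (2 * (M / 3))) = 0 := by
    rw [lM, hbm3 _ (continuous_eL π S₀).measurable, show 3 * (2 * (M / 3)) = 2 * M by ring]
    rw [lM] at hlM0
    rw [hlM0, mul_zero]
  have hfin := hM0 (M / 3) hMM0 V₁ S₀ hst1 hm1 hl1 hS0 hen1 hlM1
  rw [eM, hbm3 _ (measurable_tl' π), show 3 * (M / 3) = M by ring] at hfin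
  rw [eM] at ht0
  have h5 : ENNReal.ofReal ((3 ^ m)⁻¹) ≤ 1 := by
    rw [← ENNReal.ofReal_one]
    apply ENNReal.ofReal_le_ofReal
    exact inv_le_one_of_one_le₀ (one_le_pow₀ (by norm_num))
  have h6 : ENNReal.ofReal (3 ^ d * (|K| + 1) * (M / 3) ^ d) ≤ ENNReal.ofReal (K * M ^ d) := by
    refine hfin.trans ?_
    calc ENNReal.ofReal ((3 ^ m)⁻¹) * bm V₀ π (tl π) (ball 0 M)
        ≤ 1 * ENNReal.ofReal (K * M ^ d) := by gcongr
      _ = _ := one_mul _
  have h7 : 3 ^ d * (|K| + 1) * (M / 3) ^ d = (|K| + 1) * M ^ d := by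
    rw [div_pow]; field_simp
  have hMd : 0 < M ^ d := by positivity
  rw [h7] at h6
  have h8 : K * M ^ d < (|K| + 1) * M ^ d := by
    have := le_abs_self K
    nlinarith
  have h9 := (ENNReal.ofReal_lt_ofReal_iff (by positivity : 0 < (|K| + 1) * M ^ d)).2 h8
  exact absurd h6 (not_le.2 h9)

/-- all projections. -/
theorem unit_all (hE : ∀ π : Euc k →L[ℝ] Euc m, IsCo π → ExL π d) {C c : ℝ} (hC : 0 ≤ C)
    (hc : 0 < c) {τ : ℝ} (hτ : 0 < τ) (K : ℝ) :
    ∃ M0 : ℝ, 3 ≤ M0 ∧ ∀ M : ℝ, M0 ≤ M → ∃ dA : ℝ, 0 < dA ∧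
    ∀ π : Euc k →L[ℝ] Euc m, IsCo π →
    ∀ (V : Measure (Euc k × L k)) (S : Submodule ℝ (Euc m)),
    App m k dA (cy π (2 * M)) V → MassC π C (2 * M) V → LowD m (cy π (2 * M)) c V →
    Module.finrank ℝ S = d → ENNReal.ofReal τ ≤ eM V π (ball 0 1) →
    lM V π S (ball 0 (2 * M)) ≤ ENNReal.ofReal dA →
    ENNReal.ofReal (K * M ^ d) ≤ eM V π (ball 0 M) := by
  by_cases hex : ∃ π₀ : Euc k →L[ℝ] Euc m, IsCo π₀
  swap
  · exact ⟨3, le_rfl, fun M _ => ⟨1, one_pos, fun π hπ => absurd ⟨π, hπ⟩ hex⟩⟩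
  obtain ⟨π₀, hπ₀⟩ := hex
  obtain ⟨M0, hM03, hM0⟩ := unit_fix hπ₀ (hE π₀ hπ₀) hC hc hτ K
  refine ⟨M0, hM03, fun M hM => ?_⟩
  obtain ⟨dA, hdA, h⟩ := hM0 M hM
  refine ⟨dA, hdA, fun π hπ V S happ hmass hlow hS hen hlM => ?_⟩
  obtain ⟨O, hO⟩ := exists_rotation hπ hπ₀
  have hcy : O.symm ⁻¹' cy π (2 * M) = cy π₀ (2 * M) := by
    ext z
    change ‖π (O.symm z)‖ < 2 * M ↔ ‖π₀ z‖ < 2 * M
    rw [← hO, O.apply_symm_apply]
  have h1 := h (V.map (rt O)) S (by rw [← hcy]; exact happ.rot hdA.le O) (by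
      intro r hr hrM
      rw [map_rt_ov hO measurableSet_ball]
      exact hmass r hr hrM) (by rw [← hcy]; exact LowD.rot hlow O) hS (by
      rw [eM, bm_rt (c := tl π) hO (measurable_tl' π₀) (fun P => tl_rt hO P) measurableSet_ball]
      exact hen) (by
      rw [lM, bm_rt (c := eL π S) hO (continuous_eL π₀ S).measurable (fun P => eL_rt hO S P)
        measurableSet_ball]
      exact hlM)
  rwa [eM, bm_rt (c := tl π) hO (measurable_tl' π₀) (fun P => tl_rt hO P) measurableSet_ball] at h1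

/-- **(LOG) for approximately stationary varifolds**: tip centre `y`, tip radius `t ≤ 1`. -/
theorem log_app (hE : ∀ π : Euc k →L[ℝ] Euc m, IsCo π → ExL π d) {C c : ℝ} (hC : 0 ≤ C)
    (hc : 0 < c) {τ : ℝ} (hτ : 0 < τ) (K : ℝ) :
    ∃ M0 : ℝ, 3 ≤ M0 ∧ ∀ M : ℝ, M0 ≤ M → ∃ dA : ℝ, 0 < dA ∧
    ∀ π : Euc k →L[ℝ] Euc m, IsCo π →
    ∀ (W : Measure (Euc k × L k)) (S : Submodule ℝ (Euc m)) (y : Euc m) (t : ℝ), 0 < t → t ≤ 1 →
    App m k dA {z | ‖π z - y‖ < 2 * M * t} W →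
    (∀ r, t ≤ r → r ≤ 2 * M * t → W (ov π (ball y r)) ≤ ENNReal.ofReal (C * r ^ m)) →
    LowD m {z | ‖π z - y‖ < 2 * M * t} c W →
    Module.finrank ℝ S = d → ENNReal.ofReal (τ * t ^ m) ≤ eM W π (ball y t) →
    lM W π S (ball y (2 * M * t)) ≤ ENNReal.ofReal (dA * t ^ m) →
    ENNReal.ofReal (K * M ^ d * t ^ m) ≤ eM W π (ball y (M * t)) := by
  obtain ⟨M0, hM03, hM0⟩ := unit_all hE hC hc hτ K
  refine ⟨M0, hM03, fun M hM => ?_⟩
  obtain ⟨dA, hdA, h⟩ := hM0 M hM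
  refine ⟨dA, hdA, fun π hπ W S y t ht ht1 happ hmass hlow hS hen hlM => ?_⟩
  set z : Euc k := ContinuousLinearMap.adjoint π y with hz
  have hπz : π z = y := congrArg (fun T : Euc m →L[ℝ] Euc m => T y) hπ
  have hpre : (fun x : Euc k => z + t • x) ⁻¹' {z | ‖π z - y‖ < 2 * M * t} = cy π (2 * M) := by
    ext x
    change ‖π (z + t • x) - y‖ < 2 * M * t ↔ ‖π x‖ < 2 * M
    rw [map_add, hπz, add_sub_cancel_left, map_smul, norm_smul, Real.norm_of_nonneg ht.le,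
      mul_comm t]
    exact mul_lt_mul_iff_left₀ ht
  have hbm : ∀ (g : L k → ℝ), Measurable g → ∀ r,
      bm (resc m z t W) π g (ball 0 r) = ENNReal.ofReal ((t ^ m)⁻¹) * bm W π g (ball y (t * r)) := by
    intro g hg r
    rw [bm_resc m _ ht hg, hπz, smul_zero, add_zero]
  have htm : 0 < t ^ m := by positivity
  have hcancel : ∀ a : ℝ, ENNReal.ofReal ((t ^ m)⁻¹) * ENNReal.ofReal (a * t ^ m) =
      ENNReal.ofReal a := by
    intro a
    rw [← ENNReal.ofReal_mul (by positivity)]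
    congr 1
    field_simp
  have h1 := h π hπ (resc m z t W) S (by
      have := happ.zoom hdA.le ht ht1 z
      rwa [hpre] at this) (by
      intro r hr hrM
      rw [resc_ov m _ ht, hπz, smul_zero, add_zero]
      calc ENNReal.ofReal ((t ^ m)⁻¹) * W (ov π (ball y (t * r)))
          ≤ ENNReal.ofReal ((t ^ m)⁻¹) * ENNReal.ofReal (C * (t * r) ^ m) := by
            gcongr
            refine hmass (t * r) ?_ ?_
            · nlinarith
            · nlinarith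
        _ = ENNReal.ofReal (C * r ^ m) := by
            rw [mul_pow, show C * (t ^ m * r ^ m) = (C * r ^ m) * t ^ m by ring]
            exact hcancel _) (by
      have := LowD.resc hlow z ht
      rwa [hpre] at this) hS (by
      rw [eM, hbm _ (measurable_tl' π), mul_one, ← hcancel τ]
      gcongr
      exact hen) (by
      rw [lM, hbm _ (continuous_eL π S).measurable, ← hcancel dA, show t * (2 * M) = 2 * M * t by ring]
      gcongr
      exact hlM)
  rw [eM, hbm _ (measurable_tl' π), mul_comm t M] at h1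
  have h2 : ENNReal.ofReal (K * M ^ d * t ^ m) =
      ENNReal.ofReal (t ^ m) * ENNReal.ofReal (K * M ^ d) := by
    rw [← ENNReal.ofReal_mul htm.le]
    congr 1
    ring
  rw [h2]
  calc ENNReal.ofReal (t ^ m) * ENNReal.ofReal (K * M ^ d)
      ≤ ENNReal.ofReal (t ^ m) * (ENNReal.ofReal ((t ^ m)⁻¹) * bm W π (tl π) (ball y (M * t))) := by
        gcongr
    _ = bm W π (tl π) (ball y (M * t)) := by
        rw [← mul_assoc, ← ENNReal.ofReal_mul htm.le, mul_inv_cancel₀ htm.ne', ENNReal.ofReal_one,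
          one_mul]

end Crest.Agent.R234.La_300
end
end

-- ▼ part R234/Log2_113
section

/-!
Row 234, VF-LOG, part 2: the annulus inequality and its sum over dyadic annuli.

`ℓ`, `κ`, `q` are orthogonal projections with sum `1` (`ℓ + κ` the reference plane, `ℓ` onto the spine
directions, `q` the vertical directions).  The tilt energy of a unit box is controlled by the tilt energy
of each annulus `{‖ℓ‖ ≤ 2, ρ ≤ ‖κ‖ < 2ρ}` of mass `≤ C₁ρ²` up to the tilt energy in the directions of `ℓ`.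
-/

set_option linter.unusedSectionVars false

namespace Crest.Agent.R234.Cacc_113

open MeasureTheory Set Filter Topology
open scoped InnerProductSpace

variable {E : Type*} [NormedAddCommGroup E] [InnerProductSpace ℝ E] [FiniteDimensional ℝ E]

/-! ### the cut-off function of one variable -/

/-- `1` on `s ≤ 1`, `0` for `2 ≤ s`. -/
noncomputable def b1 (s : ℝ) : ℝ := Real.smoothTransition (2 - s)

theorem contDiff_b1 : ContDiff ℝ 1 b1 :=
  Real.smoothTransition.contDiff.comp (contDiff_const.sub contDiff_id)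

theorem b1_one {s : ℝ} (hs : s ≤ 1) : b1 s = 1 :=
  Real.smoothTransition.one_of_one_le (by linarith)

theorem b1_zero {s : ℝ} (hs : 2 ≤ s) : b1 s = 0 :=
  Real.smoothTransition.zero_of_nonpos (by linarith)

theorem b1_nonneg (s : ℝ) : 0 ≤ b1 s := Real.smoothTransition.nonneg _

theorem b1_le_one (s : ℝ) : b1 s ≤ 1 := Real.smoothTransition.le_one _

theorem deriv_b1_continuous : Continuous (deriv b1) := contDiff_b1.continuous_deriv le_rfl

theorem deriv_b1_lt {s : ℝ} (hs : s < 1) : deriv b1 s = 0 := by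
  have h6 : b1 =ᶠ[𝓝 s] fun _ => (1 : ℝ) := by
    filter_upwards [gt_mem_nhds hs] with t ht
    exact b1_one ht.le
  rw [h6.deriv_eq]
  simp

theorem deriv_b1_gt {s : ℝ} (hs : 2 < s) : deriv b1 s = 0 := by
  have h6 : b1 =ᶠ[𝓝 s] fun _ => (0 : ℝ) := by
    filter_upwards [lt_mem_nhds hs] with t ht
    exact b1_zero ht.le
  rw [h6.deriv_eq]
  simp

theorem exists_D1 : ∃ D : ℝ, 1 ≤ D ∧ ∀ s, |deriv b1 s| ≤ D := by
  obtain ⟨D, hD⟩ := (isCompact_Icc (a := (1 : ℝ)) (b := 2)).exists_bound_of_continuousOn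
    deriv_b1_continuous.continuousOn
  refine ⟨max D 1, le_max_right _ _, fun s => ?_⟩
  rcases lt_or_ge s 1 with h1 | h1
  · rw [deriv_b1_lt h1]; simp
  rcases lt_or_ge 2 s with h2 | h2
  · rw [deriv_b1_gt h2]; simp
  · exact (hD s ⟨h1, h2⟩).trans (le_max_left _ _)

/-- an absolute constant: a bound of the derivative of `b1`. -/
noncomputable def D1 : ℝ := Classical.choose exists_D1

theorem one_le_D1 : 1 ≤ D1 := (Classical.choose_spec exists_D1).1

theorem abs_deriv_b1_le (s : ℝ) : |deriv b1 s| ≤ D1 := (Classical.choose_spec exists_D1).2 s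

/-! ### functions of the norm of a projection -/

theorem hasFDerivAt_normSq {A : E →L[ℝ] E} (hA : IsPr A) (x₀ x : E) :
    HasFDerivAt (fun x => ‖A (x - x₀)‖ ^ 2) ((2 : ℝ) • innerSL ℝ (A (x - x₀))) x := by
  have h1 : HasFDerivAt (fun x : E => A (x - x₀)) A x :=
    A.hasFDerivAt.comp x ((hasFDerivAt_id x).sub_const x₀)
  have h2 := h1.norm_sq
  refine h2.congr_fderiv ?_
  ext v
  simp only [smul_apply, ContinuousLinearMap.comp_apply,
    innerSL_apply_apply, smul_eq_mul, nsmul_eq_mul, Nat.cast_ofNat]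
  rw [← hA.sa, hA.idem]

theorem contDiff_normSq {n : WithTop ℕ∞} (A : E →L[ℝ] E) (x₀ : E) :
    ContDiff ℝ n (fun x => ‖A (x - x₀)‖ ^ 2) :=
  (A.contDiff.comp (contDiff_id.sub contDiff_const)).norm_sq ℝ

/-- the cut-off function in the directions of `A`. -/
noncomputable def bt (A : E →L[ℝ] E) (x₀ : E) (ρ : ℝ) (x : E) : ℝ := b1 (‖A (x - x₀)‖ ^ 2 / ρ ^ 2)

theorem contDiff_bt (A : E →L[ℝ] E) (x₀ : E) (ρ : ℝ) : ContDiff ℝ 1 (bt A x₀ ρ) :=
  contDiff_b1.comp ((contDiff_normSq A x₀).div_const _)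

theorem hasFDerivAt_bt {A : E →L[ℝ] E} (hA : IsPr A) (x₀ : E) (ρ : ℝ) (x : E) :
    HasFDerivAt (bt A x₀ ρ)
      ((deriv b1 (‖A (x - x₀)‖ ^ 2 / ρ ^ 2) * (2 / ρ ^ 2)) • innerSL ℝ (A (x - x₀))) x := by
  have h1 := (contDiff_b1.differentiable one_ne_zero (‖A (x - x₀)‖ ^ 2 / ρ ^ 2)).hasDerivAt
  have h2 : HasFDerivAt (fun x => ‖A (x - x₀)‖ ^ 2 / ρ ^ 2)
      ((ρ ^ 2)⁻¹ • ((2 : ℝ) • innerSL ℝ (A (x - x₀)))) x := by
    have := (hasFDerivAt_normSq hA x₀ x).mul_const ((ρ ^ 2)⁻¹)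
    simpa only [div_eq_mul_inv] using this
  have h3 := h1.comp_hasFDerivAt x h2
  refine h3.congr_fderiv ?_
  rw [smul_smul, smul_smul]
  congr 1
  ring

theorem bt_nonneg (A : E →L[ℝ] E) (x₀ : E) (ρ : ℝ) (x : E) : 0 ≤ bt A x₀ ρ x := b1_nonneg _

theorem bt_le_one (A : E →L[ℝ] E) (x₀ : E) (ρ : ℝ) (x : E) : bt A x₀ ρ x ≤ 1 := b1_le_one _

theorem bt_eq_one (A : E →L[ℝ] E) (x₀ : E) {ρ : ℝ} (hρ : 0 < ρ) {x : E}
    (h : ‖A (x - x₀)‖ ≤ ρ) : bt A x₀ ρ x = 1 := by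
  refine b1_one ?_
  rw [div_le_one (by positivity)]
  gcongr

theorem bt_eq_zero (A : E →L[ℝ] E) (x₀ : E) {ρ : ℝ} (hρ : 0 < ρ) {x : E}
    (h : 2 * ρ ≤ ‖A (x - x₀)‖) : bt A x₀ ρ x = 0 := by
  refine b1_zero ?_
  rw [le_div_iff₀ (by positivity)]
  have : (2 * ρ) ^ 2 ≤ ‖A (x - x₀)‖ ^ 2 := by gcongr
  nlinarith [sq_nonneg ρ]

theorem deriv_bt_eq_zero (A : E →L[ℝ] E) (x₀ : E) {ρ : ℝ} (hρ : 0 < ρ) {x : E}
    (h : ‖A (x - x₀)‖ < ρ ∨ 2 * ρ ≤ ‖A (x - x₀)‖) :
    deriv b1 (‖A (x - x₀)‖ ^ 2 / ρ ^ 2) = 0 := by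
  rcases h with h | h
  · refine deriv_b1_lt ?_
    rw [div_lt_one (by positivity)]
    gcongr
  · refine deriv_b1_gt ?_
    rw [lt_div_iff₀ (by positivity)]
    have : (2 * ρ) ^ 2 ≤ ‖A (x - x₀)‖ ^ 2 := by gcongr
    have h2 : 0 < ρ ^ 2 := by positivity
    nlinarith

/-- the differential of the cut-off function, times the norm of the position. -/
theorem abs_deriv_bt_mul_le (A : E →L[ℝ] E) (x₀ : E) {ρ : ℝ} (hρ : 0 < ρ) (x : E) :
    |deriv b1 (‖A (x - x₀)‖ ^ 2 / ρ ^ 2) * (2 / ρ ^ 2)| * ‖A (x - x₀)‖ ≤ 4 * D1 / ρ := by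
  have hD := one_le_D1
  rcases lt_or_ge (‖A (x - x₀)‖) (2 * ρ) with h | h
  · rw [abs_mul, abs_of_pos (show 0 < 2 / ρ ^ 2 by positivity)]
    calc |deriv b1 (‖A (x - x₀)‖ ^ 2 / ρ ^ 2)| * (2 / ρ ^ 2) * ‖A (x - x₀)‖
        ≤ D1 * (2 / ρ ^ 2) * (2 * ρ) := by
          gcongr
          exact abs_deriv_b1_le _
      _ = 4 * D1 / ρ := by field_simp; ring
  · rw [deriv_bt_eq_zero A x₀ hρ (Or.inr h)]
    simp only [zero_mul, abs_zero]
    positivity

/-! ### the bounded vertical field -/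

/-- `(1 + |y|²)^(-1/2)` -/
noncomputable def wt (q : E →L[ℝ] E) (x₀ : E) (x : E) : ℝ := (√(1 + ‖q (x - x₀)‖ ^ 2))⁻¹

theorem one_add_pos (q : E →L[ℝ] E) (x₀ : E) (x : E) : 0 < 1 + ‖q (x - x₀)‖ ^ 2 := by positivity

theorem contDiff_wt (q : E →L[ℝ] E) (x₀ : E) : ContDiff ℝ 1 (wt q x₀) := by
  refine ContDiff.inv ?_ fun x => (Real.sqrt_pos.mpr (one_add_pos q x₀ x)).ne'
  exact (contDiff_const.add (contDiff_normSq q x₀)).sqrt fun x => (one_add_pos q x₀ x).ne'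

theorem wt_pos (q : E →L[ℝ] E) (x₀ : E) (x : E) : 0 < wt q x₀ x :=
  inv_pos.mpr (Real.sqrt_pos.mpr (one_add_pos q x₀ x))

theorem wt_sq (q : E →L[ℝ] E) (x₀ : E) (x : E) :
    wt q x₀ x ^ 2 * (1 + ‖q (x - x₀)‖ ^ 2) = 1 := by
  unfold wt
  rw [inv_pow, Real.sq_sqrt (one_add_pos q x₀ x).le]
  exact inv_mul_cancel₀ (one_add_pos q x₀ x).ne'

theorem wt_le_one (q : E →L[ℝ] E) (x₀ : E) (x : E) : wt q x₀ x ≤ 1 := by
  have h1 := wt_sq q x₀ x
  have h2 := wt_pos q x₀ x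
  by_contra hcon
  push Not at hcon
  nlinarith [sq_nonneg ‖q (x - x₀)‖, sq_nonneg (wt q x₀ x * ‖q (x - x₀)‖)]

theorem wt_mul_le (q : E →L[ℝ] E) (x₀ : E) (x : E) : wt q x₀ x * ‖q (x - x₀)‖ ≤ 1 := by
  have h1 := wt_sq q x₀ x
  have h2 := wt_pos q x₀ x
  by_contra hcon
  push Not at hcon
  nlinarith [sq_nonneg (wt q x₀ x)]

theorem hasFDerivAt_wt {q : E →L[ℝ] E} (hq : IsPr q) (x₀ x : E) :
    HasFDerivAt (wt q x₀) ((-(wt q x₀ x) ^ 3) • innerSL ℝ (q (x - x₀))) x := by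
  have hpos := one_add_pos q x₀ x
  have hs := Real.sqrt_pos.mpr hpos
  have h1 : HasFDerivAt (fun x => 1 + ‖q (x - x₀)‖ ^ 2) ((2 : ℝ) • innerSL ℝ (q (x - x₀))) x :=
    (hasFDerivAt_normSq hq x₀ x).const_add 1
  have h2 := h1.sqrt hpos.ne'
  have h3 := (hasDerivAt_inv hs.ne').comp_hasFDerivAt x h2
  refine h3.congr_fderiv ?_
  rw [smul_smul, smul_smul]
  congr 1
  unfold wt
  field_simp

/-! ### the region -/

/-- the part of the slab `‖ℓ‖ ≤ 2` at distance `≤ ρ` of the spine. -/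
def slab (ℓ κ : E →L[ℝ] E) (x₀ : E) (ρ : ℝ) : Set E :=
  {x | ‖ℓ (x - x₀)‖ ≤ 2 ∧ ‖κ (x - x₀)‖ ≤ ρ}

/-- the annulus in the slab. -/
def ann (ℓ κ : E →L[ℝ] E) (x₀ : E) (ρ : ℝ) : Set E :=
  {x | ‖ℓ (x - x₀)‖ ≤ 2 ∧ ρ ≤ ‖κ (x - x₀)‖ ∧ ‖κ (x - x₀)‖ < 2 * ρ}

/-- the unit box. -/
def bx (ℓ κ q : E →L[ℝ] E) (x₀ : E) : Set E :=
  {x | ‖ℓ (x - x₀)‖ ≤ 1 ∧ ‖κ (x - x₀)‖ ≤ 1 ∧ ‖q (x - x₀)‖ ≤ 1}

theorem isClosed_slab (ℓ κ : E →L[ℝ] E) (x₀ : E) (ρ : ℝ) : IsClosed (slab ℓ κ x₀ ρ) := by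
  have h1 : Continuous fun x => ‖ℓ (x - x₀)‖ :=
    (ℓ.continuous.comp (continuous_id.sub continuous_const)).norm
  have h2 : Continuous fun x => ‖κ (x - x₀)‖ :=
    (κ.continuous.comp (continuous_id.sub continuous_const)).norm
  exact (isClosed_le h1 continuous_const).inter (isClosed_le h2 continuous_const)

theorem isClosed_bx (ℓ κ q : E →L[ℝ] E) (x₀ : E) : IsClosed (bx ℓ κ q x₀) := by
  have h1 : Continuous fun x => ‖ℓ (x - x₀)‖ :=
    (ℓ.continuous.comp (continuous_id.sub continuous_const)).norm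
  have h2 : Continuous fun x => ‖κ (x - x₀)‖ :=
    (κ.continuous.comp (continuous_id.sub continuous_const)).norm
  have h3 : Continuous fun x => ‖q (x - x₀)‖ :=
    (q.continuous.comp (continuous_id.sub continuous_const)).norm
  exact (isClosed_le h1 continuous_const).inter
    ((isClosed_le h2 continuous_const).inter (isClosed_le h3 continuous_const))

variable [MeasurableSpace E] [BorelSpace E]

theorem measurableSet_ann (ℓ κ : E →L[ℝ] E) (x₀ : E) (ρ : ℝ) : MeasurableSet (ann ℓ κ x₀ ρ) := by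
  have h1 : Continuous fun x => ‖ℓ (x - x₀)‖ :=
    (ℓ.continuous.comp (continuous_id.sub continuous_const)).norm
  have h2 : Continuous fun x => ‖κ (x - x₀)‖ :=
    (κ.continuous.comp (continuous_id.sub continuous_const)).norm
  exact (isClosed_le h1 continuous_const).measurableSet.inter
    ((isClosed_le continuous_const h2).measurableSet.inter
      (isOpen_lt h2 continuous_const).measurableSet)

theorem ann_subset_slab (ℓ κ : E →L[ℝ] E) (x₀ : E) (ρ : ℝ) :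
    ann ℓ κ x₀ ρ ⊆ slab ℓ κ x₀ (2 * ρ) := fun _ hx => ⟨hx.1, hx.2.2.le⟩

theorem bx_subset_slab (ℓ κ q : E →L[ℝ] E) (x₀ : E) {ρ : ℝ} (hρ : 1 ≤ ρ) :
    bx ℓ κ q x₀ ⊆ slab ℓ κ x₀ ρ := fun _ hx => ⟨hx.1.trans (by norm_num), hx.2.1.trans hρ⟩

/-! ### the trace of the differential -/

/-- the field `ζ β ψ(y)` -/
noncomputable def XX (ℓ κ q : E →L[ℝ] E) (x₀ : E) (ρ : ℝ) (x : E) : E :=
  (bt ℓ x₀ 1 x * bt κ x₀ ρ x) • (wt q x₀ x • q (x - x₀))

/-- its differential -/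
noncomputable def DX (ℓ κ q : E →L[ℝ] E) (x₀ : E) (ρ : ℝ) (x : E) : E →L[ℝ] E :=
  (bt ℓ x₀ 1 x * bt κ x₀ ρ x) •
      (wt q x₀ x • q + ((-(wt q x₀ x) ^ 3) • innerSL ℝ (q (x - x₀))).smulRight (q (x - x₀))) +
    (bt ℓ x₀ 1 x • ((deriv b1 (‖κ (x - x₀)‖ ^ 2 / ρ ^ 2) * (2 / ρ ^ 2)) • innerSL ℝ (κ (x - x₀))) +
      bt κ x₀ ρ x •
        ((deriv b1 (‖ℓ (x - x₀)‖ ^ 2 / 1 ^ 2) * (2 / 1 ^ 2)) • innerSL ℝ (ℓ (x - x₀)))).smulRight
      (wt q x₀ x • q (x - x₀))

theorem contDiff_XX (ℓ κ q : E →L[ℝ] E) (x₀ : E) (ρ : ℝ) : ContDiff ℝ 1 (XX ℓ κ q x₀ ρ) :=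
  ((contDiff_bt _ _ _).mul (contDiff_bt _ _ _)).smul
    ((contDiff_wt q x₀).smul (q.contDiff.comp (contDiff_id.sub contDiff_const)))

theorem hasFDerivAt_XX {ℓ κ q : E →L[ℝ] E} (hℓ : IsPr ℓ) (hκ : IsPr κ) (hq : IsPr q) (x₀ : E)
    (ρ : ℝ) (x : E) : HasFDerivAt (XX ℓ κ q x₀ ρ) (DX ℓ κ q x₀ ρ x) x := by
  have h1 : HasFDerivAt (fun x : E => q (x - x₀)) q x :=
    q.hasFDerivAt.comp x ((hasFDerivAt_id x).sub_const x₀)
  exact ((hasFDerivAt_bt hℓ x₀ 1 x).mul (hasFDerivAt_bt hκ x₀ ρ x)).smul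
    ((hasFDerivAt_wt hq x₀ x).smul h1)

theorem tr_DX {ℓ κ q : E →L[ℝ] E} (x₀ : E) (ρ : ℝ) (x : E) (P : E →L[ℝ] E) :
    tr (DX ℓ κ q x₀ ρ x ∘L P) =
      (bt ℓ x₀ 1 x * bt κ x₀ ρ x) * (wt q x₀ x * tr (q ∘L P) -
        (wt q x₀ x) ^ 3 * ⟪q (x - x₀), P (q (x - x₀))⟫_ℝ) +
      bt ℓ x₀ 1 x * (deriv b1 (‖κ (x - x₀)‖ ^ 2 / ρ ^ 2) * (2 / ρ ^ 2)) *
        (wt q x₀ x * ⟪κ (x - x₀), P (q (x - x₀))⟫_ℝ) +
      bt κ x₀ ρ x * (deriv b1 (‖ℓ (x - x₀)‖ ^ 2 / 1 ^ 2) * (2 / 1 ^ 2)) *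
        (wt q x₀ x * ⟪ℓ (x - x₀), P (q (x - x₀))⟫_ℝ) := by
  unfold DX
  rw [ContinuousLinearMap.add_comp, tr_add, ContinuousLinearMap.smul_comp, tr_smul,
    ContinuousLinearMap.add_comp, tr_add, ContinuousLinearMap.smul_comp, tr_smul,
    tr_smulRight_comp, tr_smulRight_comp]
  simp only [smul_apply, add_apply, innerSL_apply_apply, smul_eq_mul, map_smul]
  ring

/-! ### pointwise estimates -/

theorem inner_P_le {P q : E →L[ℝ] E} (hP : IsPr P) (hq : IsPr q) {y : E} (hy : q y = y) :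
    ‖P y‖ ≤ √(tr (q ∘L P)) * ‖y‖ := by
  have h1 := hP.norm_sq_le hq hy
  have h0 := hP.tr_nonneg_conj hq
  refine (sq_le_sq₀ (norm_nonneg _) (by positivity)).mp ?_
  rw [mul_pow, Real.sq_sqrt h0]
  exact h1

/-- lower bound of the main term. -/
theorem main_term {P q : E →L[ℝ] E} (hP : IsPr P) (hq : IsPr q) (x₀ x : E) :
    (wt q x₀ x) ^ 3 * tr (q ∘L P) ≤ wt q x₀ x * tr (q ∘L P) -
        (wt q x₀ x) ^ 3 * ⟪q (x - x₀), P (q (x - x₀))⟫_ℝ := by
  have h1 := hP.norm_sq_le hq (hq.idem (x - x₀))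
  rw [hP.inner_self]
  have h2 := wt_sq q x₀ x
  have h3 := wt_pos q x₀ x
  have h4 : wt q x₀ x ^ 3 * ‖P (q (x - x₀))‖ ^ 2 ≤
      wt q x₀ x ^ 3 * (tr (q ∘L P) * ‖q (x - x₀)‖ ^ 2) := by gcongr
  have h5 : wt q x₀ x * tr (q ∘L P) =
      wt q x₀ x ^ 3 * (tr (q ∘L P) * ‖q (x - x₀)‖ ^ 2) + wt q x₀ x ^ 3 * tr (q ∘L P) := by
    have : wt q x₀ x = wt q x₀ x * (wt q x₀ x ^ 2 * (1 + ‖q (x - x₀)‖ ^ 2)) := by rw [h2, mul_one]
    calc wt q x₀ x * tr (q ∘L P)
        = wt q x₀ x * (wt q x₀ x ^ 2 * (1 + ‖q (x - x₀)‖ ^ 2)) * tr (q ∘L P) := by rw [← this]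
      _ = _ := by ring
  linarith

theorem third_le_wt {q : E →L[ℝ] E} (x₀ : E) {x : E} (hx : ‖q (x - x₀)‖ ≤ 1) :
    1 / 3 ≤ (wt q x₀ x) ^ 3 := by
  have h2 := wt_sq q x₀ x
  have h3 := wt_pos q x₀ x
  have h5 : ‖q (x - x₀)‖ ^ 2 ≤ 1 := by
    have := norm_nonneg (q (x - x₀))
    nlinarith
  have h4 : 1 / 2 ≤ wt q x₀ x ^ 2 := by nlinarith [sq_nonneg (wt q x₀ x)]
  have h6 : 2 / 3 ≤ wt q x₀ x := by
    by_contra hcon
    push Not at hcon
    nlinarith
  nlinarith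

theorem second_term {P κ q : E →L[ℝ] E} (ℓ : E →L[ℝ] E) (hP : IsPr P) (hq : IsPr q) (x₀ : E)
    {ρ : ℝ} (hρ : 0 < ρ) (x : E) :
    |bt ℓ x₀ 1 x * (deriv b1 (‖κ (x - x₀)‖ ^ 2 / ρ ^ 2) * (2 / ρ ^ 2)) *
        (wt q x₀ x * ⟪κ (x - x₀), P (q (x - x₀))⟫_ℝ)| ≤
      (ann ℓ κ x₀ ρ).indicator (fun _ => 4 * D1 / ρ * √(tr (q ∘L P))) x := by
  by_cases hx : x ∈ ann ℓ κ x₀ ρ
  · rw [indicator_of_mem hx, abs_mul, abs_mul, abs_mul (wt q x₀ x)]
    have e1 : |⟪κ (x - x₀), P (q (x - x₀))⟫_ℝ| ≤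
        ‖κ (x - x₀)‖ * (√(tr (q ∘L P)) * ‖q (x - x₀)‖) :=
      (abs_real_inner_le_norm _ _).trans (by gcongr; exact inner_P_le hP hq (hq.idem _))
    have e2 : |bt ℓ x₀ 1 x| ≤ 1 := by
      rw [abs_of_nonneg (bt_nonneg _ _ _ _)]; exact bt_le_one _ _ _ _
    have e3 := abs_deriv_bt_mul_le κ x₀ hρ x
    have e4 := wt_mul_le q x₀ x
    have e5 : |wt q x₀ x| = wt q x₀ x := abs_of_pos (wt_pos _ _ _)
    have e6 := (wt_pos q x₀ x).le
    rw [e5]
    calc |bt ℓ x₀ 1 x| * |deriv b1 (‖κ (x - x₀)‖ ^ 2 / ρ ^ 2) * (2 / ρ ^ 2)| *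
          (wt q x₀ x * |⟪κ (x - x₀), P (q (x - x₀))⟫_ℝ|)
        ≤ 1 * |deriv b1 (‖κ (x - x₀)‖ ^ 2 / ρ ^ 2) * (2 / ρ ^ 2)| *
          (wt q x₀ x * (‖κ (x - x₀)‖ * (√(tr (q ∘L P)) * ‖q (x - x₀)‖))) := by gcongr
      _ = (|deriv b1 (‖κ (x - x₀)‖ ^ 2 / ρ ^ 2) * (2 / ρ ^ 2)| * ‖κ (x - x₀)‖) *
          (√(tr (q ∘L P)) * (wt q x₀ x * ‖q (x - x₀)‖)) := by ring
      _ ≤ (4 * D1 / ρ) * (√(tr (q ∘L P)) * 1) := by
          have := one_le_D1
          gcongr
      _ = _ := by ring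
  · rw [indicator_of_notMem hx]
    have h0 : bt ℓ x₀ 1 x * (deriv b1 (‖κ (x - x₀)‖ ^ 2 / ρ ^ 2) * (2 / ρ ^ 2)) = 0 := by
      by_cases h1 : ‖ℓ (x - x₀)‖ ≤ 2
      · have h2 : ‖κ (x - x₀)‖ < ρ ∨ 2 * ρ ≤ ‖κ (x - x₀)‖ := by
          by_contra hcon
          push Not at hcon
          exact hx ⟨h1, hcon.1, hcon.2⟩
        rw [deriv_bt_eq_zero κ x₀ hρ h2]; simp
      · push Not at h1
        rw [bt_eq_zero ℓ x₀ one_pos (by linarith), zero_mul]
    rw [h0]; simp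

theorem third_term {P ℓ q : E →L[ℝ] E} (κ : E →L[ℝ] E) (hP : IsPr P) (hℓ : IsPr ℓ)
    (hℓq : ∀ x, ℓ (q x) = 0) (x₀ : E) {ρ : ℝ} (hρ : 0 < ρ) (x : E) :
    |bt κ x₀ ρ x * (deriv b1 (‖ℓ (x - x₀)‖ ^ 2 / 1 ^ 2) * (2 / 1 ^ 2)) *
        (wt q x₀ x * ⟪ℓ (x - x₀), P (q (x - x₀))⟫_ℝ)| ≤
      (slab ℓ κ x₀ (2 * ρ)).indicator (fun _ => 4 * D1 * √(tr (ℓ ∘L (1 - P)))) x := by
  by_cases hx : x ∈ slab ℓ κ x₀ (2 * ρ)
  · rw [indicator_of_mem hx, abs_mul, abs_mul, abs_mul (wt q x₀ x)]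
    have e0 : ⟪ℓ (x - x₀), P (q (x - x₀))⟫_ℝ = - ⟪(1 - P) (ℓ (x - x₀)), q (x - x₀)⟫_ℝ := by
      have : ⟪ℓ (x - x₀), q (x - x₀)⟫_ℝ = 0 := by rw [hℓ.sa, hℓq, inner_zero_right]
      rw [sub_apply, inner_sub_left, one_apply_eq_self, this, hP.sa]
      ring
    have e1 : |⟪ℓ (x - x₀), P (q (x - x₀))⟫_ℝ| ≤
        √(tr (ℓ ∘L (1 - P))) * ‖ℓ (x - x₀)‖ * ‖q (x - x₀)‖ := by
      rw [e0, abs_neg]
      exact (abs_real_inner_le_norm _ _).trans
        (by gcongr; exact inner_P_le hP.compl hℓ (hℓ.idem _))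
    have e2 : |bt κ x₀ ρ x| ≤ 1 := by
      rw [abs_of_nonneg (bt_nonneg _ _ _ _)]; exact bt_le_one _ _ _ _
    have e3 := abs_deriv_bt_mul_le ℓ x₀ one_pos x
    have e4 := wt_mul_le q x₀ x
    have e5 : |wt q x₀ x| = wt q x₀ x := abs_of_pos (wt_pos _ _ _)
    have e6 := (wt_pos q x₀ x).le
    rw [e5]
    calc |bt κ x₀ ρ x| * |deriv b1 (‖ℓ (x - x₀)‖ ^ 2 / 1 ^ 2) * (2 / 1 ^ 2)| *
          (wt q x₀ x * |⟪ℓ (x - x₀), P (q (x - x₀))⟫_ℝ|)
        ≤ 1 * |deriv b1 (‖ℓ (x - x₀)‖ ^ 2 / 1 ^ 2) * (2 / 1 ^ 2)| *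
          (wt q x₀ x * (√(tr (ℓ ∘L (1 - P))) * ‖ℓ (x - x₀)‖ * ‖q (x - x₀)‖)) := by gcongr
      _ = (|deriv b1 (‖ℓ (x - x₀)‖ ^ 2 / 1 ^ 2) * (2 / 1 ^ 2)| * ‖ℓ (x - x₀)‖) *
          (√(tr (ℓ ∘L (1 - P))) * (wt q x₀ x * ‖q (x - x₀)‖)) := by ring
      _ ≤ (4 * D1 / 1) * (√(tr (ℓ ∘L (1 - P))) * 1) := by
          have := one_le_D1
          gcongr
      _ = _ := by ring
  · rw [indicator_of_notMem hx]
    have h0 : bt κ x₀ ρ x * (deriv b1 (‖ℓ (x - x₀)‖ ^ 2 / 1 ^ 2) * (2 / 1 ^ 2)) = 0 := by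
      by_cases h1 : ‖ℓ (x - x₀)‖ ≤ 2
      · have h2 : 2 * ρ ≤ ‖κ (x - x₀)‖ := by
          by_contra hcon
          push Not at hcon
          exact hx ⟨h1, hcon.le⟩
        rw [bt_eq_zero κ x₀ hρ h2, zero_mul]
      · push Not at h1
        rw [deriv_bt_eq_zero ℓ x₀ one_pos (Or.inr (by linarith))]; simp
    rw [h0]; simp

/-- the pointwise inequality. -/
theorem pointwise {P ℓ κ q : E →L[ℝ] E} (hP : IsPr P) (hℓ : IsPr ℓ) (hq : IsPr q)
    (hℓq : ∀ x, ℓ (q x) = 0) (x₀ : E) {ρ : ℝ} (hρ : 1 ≤ ρ) (x : E) :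
    (bx ℓ κ q x₀).indicator (fun _ => 1 / 3 * tr (q ∘L P)) x ≤
      tr (DX ℓ κ q x₀ ρ x ∘L P) + (ann ℓ κ x₀ ρ).indicator (fun _ => 4 * D1 / ρ * √(tr (q ∘L P))) x
        + (slab ℓ κ x₀ (2 * ρ)).indicator (fun _ => 4 * D1 * √(tr (ℓ ∘L (1 - P)))) x := by
  have hρ0 : 0 < ρ := by linarith
  have h1 := main_term hP hq x₀ x
  have h2 := (abs_le.mp (second_term (κ := κ) ℓ hP hq x₀ hρ0 x)).1
  have h3 := (abs_le.mp (third_term κ hP hℓ hℓq x₀ hρ0 x)).1
  have h0 := hP.tr_nonneg_conj hq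
  have hw := wt_pos q x₀ x
  rw [tr_DX]
  have hb0 : 0 ≤ bt ℓ x₀ 1 x * bt κ x₀ ρ x := mul_nonneg (bt_nonneg _ _ _ _) (bt_nonneg _ _ _ _)
  have h4 : (bx ℓ κ q x₀).indicator (fun _ => 1 / 3 * tr (q ∘L P)) x ≤
      (bt ℓ x₀ 1 x * bt κ x₀ ρ x) * (wt q x₀ x * tr (q ∘L P) -
        (wt q x₀ x) ^ 3 * ⟪q (x - x₀), P (q (x - x₀))⟫_ℝ) := by
    by_cases hx : x ∈ bx ℓ κ q x₀
    · rw [indicator_of_mem hx, bt_eq_one ℓ x₀ one_pos hx.1,
        bt_eq_one κ x₀ hρ0 (hx.2.1.trans hρ), one_mul, one_mul]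
      refine le_trans ?_ h1
      have := third_le_wt x₀ hx.2.2
      gcongr
    · rw [indicator_of_notMem hx]
      refine mul_nonneg hb0 (le_trans ?_ h1)
      positivity
  linarith

end Crest.Agent.R234.Cacc_113
end

-- ▼ part R234/Log3_113
section

/-!
Row 234, VF-LOG, part 3: the integrated annulus inequality `St.annulus` and its sum over dyadic annuli
`St.slab_log`: a logarithmic lower bound of the tilt energy of a slab.
-/

set_option linter.unusedSectionVars false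

namespace Crest.Agent.R234.Cacc_113

open MeasureTheory Set Filter Topology
open scoped InnerProductSpace

variable {E : Type*} [NormedAddCommGroup E] [InnerProductSpace ℝ E] [FiniteDimensional ℝ E]
  [MeasurableSpace E] [BorelSpace E]

variable {U : Set E} {V : Measure (E × (E →L[ℝ] E))}

/-- bounded continuous functions are integrable over sets of finite mass. -/
theorem St.integrableOn_bdd (h : St U V) {S : Set E} (hfin : V (ov S) < ⊤)
    {g : E × (E →L[ℝ] E) → ℝ} (hg : Continuous g) {C : ℝ} (hb : ∀ x P, IsPr P → |g (x, P)| ≤ C) :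
    IntegrableOn g (ov S) V := by
  refine Measure.integrableOn_of_bounded hfin.ne hg.aestronglyMeasurable (M := C) ?_
  filter_upwards [ae_restrict_of_ae h.pr] with z hz
  exact hb z.1 z.2 hz

theorem tr_le_card {P Q : E →L[ℝ] E} (hP : IsPr P) (hQ : IsPr Q) :
    |tr (Q ∘L P)| ≤ Module.finrank ℝ E :=
  (abs_tr_comp_le Q hP).trans (mul_le_of_le_one_right (by positivity) hQ.opNorm_le)

theorem sqrt_tr_le_card {P Q : E →L[ℝ] E} (hP : IsPr P) (hQ : IsPr Q) :
    |√(tr (Q ∘L P))| ≤ √(Module.finrank ℝ E) := by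
  rw [abs_of_nonneg (Real.sqrt_nonneg _)]
  exact Real.sqrt_le_sqrt ((le_abs_self _).trans (tr_le_card hP hQ))

theorem continuous_tq (q : E →L[ℝ] E) :
    Continuous fun z : E × (E →L[ℝ] E) => tr (q ∘L z.2) :=
  continuous_tr.comp (continuous_const.clm_comp continuous_snd)

theorem continuous_tl (ℓ : E →L[ℝ] E) :
    Continuous fun z : E × (E →L[ℝ] E) => tr (ℓ ∘L (1 - z.2)) :=
  continuous_tr.comp (continuous_const.clm_comp (continuous_const.sub continuous_snd))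

/-- the tilt energy over a set `S`: the integral of `tr (Q P)`. -/
noncomputable def en (V : Measure (E × (E →L[ℝ] E))) (q : E →L[ℝ] E) (S : Set E) : ℝ :=
  ∫ z in ov S, tr (q ∘L z.2) ∂V

/-- the defect in the directions of `ℓ` over a set `S`: the integral of `tr (ℓ (1 - P))`. -/
noncomputable def el (V : Measure (E × (E →L[ℝ] E))) (ℓ : E →L[ℝ] E) (S : Set E) : ℝ :=
  ∫ z in ov S, tr (ℓ ∘L (1 - z.2)) ∂V

theorem St.en_int (h : St U V) {q : E →L[ℝ] E} (hq : IsPr q) {S : Set E}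
    (hfin : V (ov S) < ⊤) : IntegrableOn (fun z => tr (q ∘L z.2)) (ov S) V :=
  h.integrableOn_bdd hfin (continuous_tq q) fun _ _ hP => tr_le_card hP hq

theorem St.el_int (h : St U V) {ℓ : E →L[ℝ] E} (hℓ : IsPr ℓ) {S : Set E}
    (hfin : V (ov S) < ⊤) : IntegrableOn (fun z => tr (ℓ ∘L (1 - z.2))) (ov S) V :=
  h.integrableOn_bdd hfin (continuous_tl ℓ) fun _ _ hP => tr_le_card hP.compl hℓ

theorem St.en_nonneg (h : St U V) {q : E →L[ℝ] E} (hq : IsPr q) (S : Set E) : 0 ≤ en V q S :=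
  integral_nonneg_of_ae (by
    filter_upwards [ae_restrict_of_ae h.pr] with z hz
    exact hz.tr_nonneg_conj hq)

theorem St.el_nonneg (h : St U V) {ℓ : E →L[ℝ] E} (hℓ : IsPr ℓ) (S : Set E) : 0 ≤ el V ℓ S :=
  integral_nonneg_of_ae (by
    filter_upwards [ae_restrict_of_ae h.pr] with z hz
    exact hz.compl.tr_nonneg_conj hℓ)

theorem St.en_mono (h : St U V) {q : E →L[ℝ] E} (hq : IsPr q) {S T : Set E}
    (hfin : V (ov T) < ⊤) (hST : S ⊆ T) : en V q S ≤ en V q T :=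
  setIntegral_mono_set (h.en_int hq hfin) (by
    filter_upwards [ae_restrict_of_ae h.pr] with z hz
    exact hz.tr_nonneg_conj hq) (preimage_mono hST).eventuallyLE

theorem St.el_mono (h : St U V) {ℓ : E →L[ℝ] E} (hℓ : IsPr ℓ) {S T : Set E}
    (hfin : V (ov T) < ⊤) (hST : S ⊆ T) : el V ℓ S ≤ el V ℓ T :=
  setIntegral_mono_set (h.el_int hℓ hfin) (by
    filter_upwards [ae_restrict_of_ae h.pr] with z hz
    exact hz.compl.tr_nonneg_conj hℓ) (preimage_mono hST).eventuallyLE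

/-- Cauchy-Schwarz for square roots. -/
theorem integral_sqrt_le {α : Type*} [MeasurableSpace α] {μ : Measure α} {S : Set α}
    (hfin : μ S < ⊤) {f : α → ℝ} (hf : ∀ᵐ x ∂μ.restrict S, 0 ≤ f x)
    (hi : IntegrableOn f S μ) (hi' : IntegrableOn (fun x => √(f x)) S μ) :
    ∫ x in S, √(f x) ∂μ ≤ √(μ.real S * ∫ x in S, f x ∂μ) := by
  set M := μ.real S with hM
  set F := ∫ x in S, f x ∂μ with hF
  have hM0 : 0 ≤ M := measureReal_nonneg
  have hF0 : 0 ≤ F := integral_nonneg_of_ae hf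
  have key : ∀ t : ℝ, 0 < t → ∫ x in S, √(f x) ∂μ ≤ (t * M + F / t) / 2 := by
    intro t ht
    have h1 : ∫ x in S, √(f x) ∂μ ≤ ∫ x in S, (t + f x / t) / 2 ∂μ := by
      refine integral_mono_ae hi' (((integrable_const_iff.mpr (Or.inr ?_)).add
        (hi.div_const t)).div_const 2) ?_
      · exact ⟨by rw [Measure.restrict_apply_univ]; exact hfin⟩
      · filter_upwards [hf] with x hx
        have h2 := Real.sq_sqrt hx
        have h3 : (t + f x / t) / 2 - √(f x) = (t - √(f x)) ^ 2 / (2 * t) := by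
          field_simp
          nlinarith
        have h4 : 0 ≤ (t - √(f x)) ^ 2 / (2 * t) := by positivity
        show √(f x) ≤ (t + f x / t) / 2
        linarith
    refine h1.trans (le_of_eq ?_)
    rw [integral_div, integral_add, integral_div, setIntegral_const, smul_eq_mul, mul_comm]
    · exact integrable_const_iff.mpr (Or.inr ⟨by rw [Measure.restrict_apply_univ]; exact hfin⟩)
    · exact hi.div_const t
  rcases hM0.eq_or_lt with h0 | h0
  · -- mass zero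
    have h1 : μ S = 0 := by
      have := hM.symm.trans h0.symm
      rw [measureReal_def, ENNReal.toReal_eq_zero_iff] at this
      exact this.resolve_right hfin.ne
    rw [Measure.restrict_eq_zero.mpr h1]
    simp only [integral_zero_measure]
    exact Real.sqrt_nonneg _
  rcases hF0.eq_or_lt with h2 | h2
  · rw [← h2, mul_zero, Real.sqrt_zero]
    refine le_of_forall_pos_le_add fun ε hε => ?_
    have h3 := key (2 * ε / M) (by positivity)
    rw [← h2, zero_div, add_zero] at h3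
    refine h3.trans (le_of_eq ?_)
    field_simp
    ring
  · have h3 := key (√F / √M) (by positivity)
    refine h3.trans (le_of_eq ?_)
    have hsF := Real.sq_sqrt hF0
    have hsM := Real.sq_sqrt hM0
    have h4 : 0 < √F := Real.sqrt_pos.mpr h2
    have h5 : 0 < √M := Real.sqrt_pos.mpr h0
    rw [Real.sqrt_mul hM0]
    have e1 : √F / √M * M = √M * √F := by
      rw [div_mul_eq_mul_div, div_eq_iff h5.ne']
      nlinarith
    have e2 : F / (√F / √M) = √M * √F := by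
      rw [div_div_eq_mul_div, div_eq_iff h4.ne']
      nlinarith
    rw [e1, e2]
    ring


theorem norm_DX_le {ℓ κ q : E →L[ℝ] E} (hq : IsPr q) (x₀ : E) {ρ : ℝ} (hρ : 1 ≤ ρ) (x : E) :
    ‖DX ℓ κ q x₀ ρ x‖ ≤ 2 + 8 * D1 := by
  have hρ0 : 0 < ρ := by linarith
  have hD := one_le_D1
  have hw := wt_pos q x₀ x
  have hw1 := wt_le_one q x₀ x
  have hw2 := wt_mul_le q x₀ x
  have hw3 : ‖wt q x₀ x • q (x - x₀)‖ ≤ 1 := by
    rw [norm_smul, Real.norm_of_nonneg hw.le]; exact hw2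
  have a1 : |bt ℓ x₀ 1 x| ≤ 1 := by
    rw [abs_of_nonneg (bt_nonneg _ _ _ _)]; exact bt_le_one _ _ _ _
  have a2 : |bt κ x₀ ρ x| ≤ 1 := by
    rw [abs_of_nonneg (bt_nonneg _ _ _ _)]; exact bt_le_one _ _ _ _
  have e1 : ‖(bt ℓ x₀ 1 x * bt κ x₀ ρ x) • (wt q x₀ x • q +
      ((-(wt q x₀ x) ^ 3) • innerSL ℝ (q (x - x₀))).smulRight (q (x - x₀)))‖ ≤ 2 := by
    rw [norm_smul, Real.norm_eq_abs, abs_mul]
    have b1 : ‖wt q x₀ x • q‖ ≤ 1 := by
      rw [norm_smul, Real.norm_of_nonneg hw.le]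
      exact mul_le_one₀ hw1 (norm_nonneg _) hq.opNorm_le
    have b2 : ‖((-(wt q x₀ x) ^ 3) • innerSL ℝ (q (x - x₀))).smulRight (q (x - x₀))‖ ≤ 1 := by
      rw [ContinuousLinearMap.norm_smulRight_apply, norm_smul, innerSL_apply_norm, norm_neg,
        norm_pow, Real.norm_of_nonneg hw.le]
      calc wt q x₀ x ^ 3 * ‖q (x - x₀)‖ * ‖q (x - x₀)‖
          = wt q x₀ x * ((wt q x₀ x * ‖q (x - x₀)‖) * (wt q x₀ x * ‖q (x - x₀)‖)) := by ring
        _ ≤ 1 * (1 * 1) := by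
            have : 0 ≤ wt q x₀ x * ‖q (x - x₀)‖ := by positivity
            gcongr
        _ = 1 := by ring
    calc |bt ℓ x₀ 1 x| * |bt κ x₀ ρ x| * ‖wt q x₀ x • q +
          ((-(wt q x₀ x) ^ 3) • innerSL ℝ (q (x - x₀))).smulRight (q (x - x₀))‖
        ≤ 1 * 1 * (1 + 1) := by
          gcongr
          exact (norm_add_le _ _).trans (add_le_add b1 b2)
      _ = 2 := by norm_num
  have e2 : ‖(bt ℓ x₀ 1 x • ((deriv b1 (‖κ (x - x₀)‖ ^ 2 / ρ ^ 2) * (2 / ρ ^ 2)) •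
      innerSL ℝ (κ (x - x₀))) + bt κ x₀ ρ x •
        ((deriv b1 (‖ℓ (x - x₀)‖ ^ 2 / 1 ^ 2) * (2 / 1 ^ 2)) • innerSL ℝ (ℓ (x - x₀)))).smulRight
      (wt q x₀ x • q (x - x₀))‖ ≤ 8 * D1 := by
    rw [ContinuousLinearMap.norm_smulRight_apply]
    have c1 : ‖bt ℓ x₀ 1 x • ((deriv b1 (‖κ (x - x₀)‖ ^ 2 / ρ ^ 2) * (2 / ρ ^ 2)) •
        innerSL ℝ (κ (x - x₀)))‖ ≤ 4 * D1 := by
      rw [norm_smul, norm_smul, innerSL_apply_norm, Real.norm_eq_abs, Real.norm_eq_abs]
      calc _ ≤ 1 * (4 * D1 / ρ) := by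
            gcongr
            exact abs_deriv_bt_mul_le κ x₀ hρ0 x
        _ ≤ 4 * D1 := by
            rw [one_mul]
            exact div_le_self (by positivity) hρ
    have c2 : ‖bt κ x₀ ρ x • ((deriv b1 (‖ℓ (x - x₀)‖ ^ 2 / 1 ^ 2) * (2 / 1 ^ 2)) •
        innerSL ℝ (ℓ (x - x₀)))‖ ≤ 4 * D1 := by
      rw [norm_smul, norm_smul, innerSL_apply_norm, Real.norm_eq_abs, Real.norm_eq_abs]
      calc _ ≤ 1 * (4 * D1 / 1) := by
            gcongr
            exact abs_deriv_bt_mul_le ℓ x₀ one_pos x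
        _ = 4 * D1 := by ring
    calc _ ≤ (4 * D1 + 4 * D1) * 1 := by
          gcongr
          exact (norm_add_le _ _).trans (add_le_add c1 c2)
      _ = _ := by ring
  unfold DX
  exact (norm_add_le _ _).trans (add_le_add e1 e2)

theorem norm_XX_le {ℓ κ q : E →L[ℝ] E} (x₀ : E) {ρ : ℝ} (x : E) : ‖XX ℓ κ q x₀ ρ x‖ ≤ 1 := by
  have hw := wt_pos q x₀ x
  have hw2 := wt_mul_le q x₀ x
  have hw3 : ‖wt q x₀ x • q (x - x₀)‖ ≤ 1 := by
    rw [norm_smul, Real.norm_of_nonneg hw.le]; exact hw2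
  have a1 : |bt ℓ x₀ 1 x| ≤ 1 := by
    rw [abs_of_nonneg (bt_nonneg _ _ _ _)]; exact bt_le_one _ _ _ _
  have a2 : |bt κ x₀ ρ x| ≤ 1 := by
    rw [abs_of_nonneg (bt_nonneg _ _ _ _)]; exact bt_le_one _ _ _ _
  unfold XX
  rw [norm_smul, Real.norm_eq_abs, abs_mul]
  calc _ ≤ (1 : ℝ) * 1 * 1 := by gcongr
    _ = 1 := by norm_num

theorem XX_eq_zero {ℓ κ q : E →L[ℝ] E} (x₀ : E) {ρ : ℝ} (hρ : 0 < ρ) {x : E}
    (hx : x ∉ slab ℓ κ x₀ (2 * ρ)) : XX ℓ κ q x₀ ρ x = 0 := by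
  unfold XX
  by_cases h1 : ‖ℓ (x - x₀)‖ ≤ 2
  · have h2 : 2 * ρ ≤ ‖κ (x - x₀)‖ := by
      by_contra hcon
      push Not at hcon
      exact hx ⟨h1, hcon.le⟩
    rw [bt_eq_zero κ x₀ hρ h2, mul_zero, zero_smul]
  · push Not at h1
    rw [bt_eq_zero ℓ x₀ one_pos (by linarith), zero_mul, zero_smul]

/-- **the annulus inequality**. -/
theorem St.annulus (h : St U V) {ℓ κ q : E →L[ℝ] E} (hℓ : IsPr ℓ) (hκ : IsPr κ) (hq : IsPr q)
    (hℓq : ∀ x, ℓ (q x) = 0) (x₀ : E) {ρ : ℝ} (hρ : 1 ≤ ρ) (hU : slab ℓ κ x₀ (2 * ρ) ⊆ U)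
    (hfin : V (ov (slab ℓ κ x₀ (2 * ρ))) < ⊤) :
    1 / 3 * en V q (bx ℓ κ q x₀) ≤
      4 * D1 / ρ * √(V.real (ov (ann ℓ κ x₀ ρ)) * en V q (ann ℓ κ x₀ ρ)) +
        4 * D1 * √(V.real (ov (slab ℓ κ x₀ (2 * ρ))) * el V ℓ (slab ℓ κ x₀ (2 * ρ))) := by
  have hρ0 : 0 < ρ := by linarith
  have hD := one_le_D1
  have hS := (isClosed_slab ℓ κ x₀ (2 * ρ)).measurableSet
  have hA := measurableSet_ann ℓ κ x₀ ρ
  have hB := (isClosed_bx ℓ κ q x₀).measurableSet
  have hAS := ann_subset_slab ℓ κ x₀ ρ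
  have hBS : bx ℓ κ q x₀ ⊆ slab ℓ κ x₀ (2 * ρ) := bx_subset_slab ℓ κ q x₀ (by linarith)
  have hfinA : V (ov (ann ℓ κ x₀ ρ)) < ⊤ := (measure_mono (preimage_mono hAS)).trans_lt hfin
  have hfinB : V (ov (bx ℓ κ q x₀)) < ⊤ := (measure_mono (preimage_mono hBS)).trans_lt hfin
  have hfd : ∀ x, fderiv ℝ (XX ℓ κ q x₀ ρ) x = DX ℓ κ q x₀ ρ x := fun x =>
    (hasFDerivAt_XX hℓ hκ hq x₀ ρ x).fderiv
  have hst := h.noncompact (contDiff_XX ℓ κ q x₀ ρ) (isClosed_slab ℓ κ x₀ (2 * ρ)) hU hfin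
    (fun x hx => XX_eq_zero x₀ hρ0 hx) (C := 2 + 8 * D1)
    (fun x => (norm_XX_le x₀ x).trans (by linarith))
    (fun x => by rw [hfd]; exact norm_DX_le hq x₀ hρ x)
  simp_rw [hfd] at hst
  -- integrability
  have hDXc : Continuous fun x => DX ℓ κ q x₀ ρ x := by
    have := (contDiff_XX ℓ κ q x₀ ρ).continuous_fderiv one_ne_zero
    rwa [show fderiv ℝ (XX ℓ κ q x₀ ρ) = fun x => DX ℓ κ q x₀ ρ x from funext hfd] at this
  have hDXz : ∀ x, x ∉ slab ℓ κ x₀ (2 * ρ) → DX ℓ κ q x₀ ρ x = 0 := by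
    intro x hx
    rw [← hfd]
    have hts : tsupport (XX ℓ κ q x₀ ρ) ⊆ slab ℓ κ x₀ (2 * ρ) :=
      closure_minimal (fun y hy => by
        by_contra hcon
        exact hy (XX_eq_zero x₀ hρ0 hcon)) (isClosed_slab ℓ κ x₀ (2 * ρ))
    by_contra hcon
    exact hx (hts (support_fderiv_subset ℝ hcon))
  have i0 : Integrable (fun z : E × (E →L[ℝ] E) => tr (DX ℓ κ q x₀ ρ z.1 ∘L z.2)) V := by
    have : IntegrableOn (fun z : E × (E →L[ℝ] E) => tr (DX ℓ κ q x₀ ρ z.1 ∘L z.2))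
        (ov (slab ℓ κ x₀ (2 * ρ))) V :=
      h.integrableOn_bdd hfin (continuous_tr.comp
        ((hDXc.comp continuous_fst).clm_comp continuous_snd)) (C := Module.finrank ℝ E *
          (2 + 8 * D1)) fun x P hP => (abs_tr_comp_le _ hP).trans (by
            gcongr
            exact norm_DX_le hq x₀ hρ x)
    rw [← integrable_indicator_iff (measurableSet_ov hS)] at this
    refine this.congr (Eventually.of_forall fun z => ?_)
    by_cases hz : z.1 ∈ slab ℓ κ x₀ (2 * ρ)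
    · exact indicator_of_mem (show z ∈ ov (slab ℓ κ x₀ (2 * ρ)) from hz) _
    · rw [indicator_of_notMem (show z ∉ ov (slab ℓ κ x₀ (2 * ρ)) from hz)]
      simp [hDXz _ hz, tr]
  have iA : IntegrableOn (fun z : E × (E →L[ℝ] E) => √(tr (q ∘L z.2))) (ov (ann ℓ κ x₀ ρ)) V :=
    h.integrableOn_bdd hfinA (Real.continuous_sqrt.comp (continuous_tq q))
      fun _ _ hP => sqrt_tr_le_card hP hq
  have iS : IntegrableOn (fun z : E × (E →L[ℝ] E) => √(tr (ℓ ∘L (1 - z.2))))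
      (ov (slab ℓ κ x₀ (2 * ρ))) V :=
    h.integrableOn_bdd hfin (Real.continuous_sqrt.comp (continuous_tl ℓ))
      fun _ _ hP => sqrt_tr_le_card hP.compl hℓ
  have iB := h.en_int hq hfinB
  have jA := (integrable_indicator_iff (measurableSet_ov hA)).mpr
    (Integrable.const_mul iA (4 * D1 / ρ))
  have jS := (integrable_indicator_iff (measurableSet_ov hS)).mpr
    (Integrable.const_mul iS (4 * D1))
  have jB := (integrable_indicator_iff (measurableSet_ov hB)).mpr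
    (Integrable.const_mul iB (1 / 3))
  have hmono := integral_mono_ae jB ((i0.add jA).add jS) (by
    filter_upwards [h.pr] with z hz
    exact pointwise (κ := κ) hz hℓ hq hℓq x₀ hρ z.1)
  rw [integral_indicator (measurableSet_ov hB), integral_const_mul,
    integral_add' (i0.add jA) jS, integral_add' i0 jA, hst, zero_add,
    integral_indicator (measurableSet_ov hA), integral_const_mul,
    integral_indicator (measurableSet_ov hS), integral_const_mul] at hmono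
  have cA := integral_sqrt_le hfinA (ae_restrict_of_ae (h.pr.mono fun z hz =>
    hz.tr_nonneg_conj hq)) (h.en_int hq hfinA) iA
  have cS := integral_sqrt_le hfin (ae_restrict_of_ae (h.pr.mono fun z hz =>
    hz.compl.tr_nonneg_conj hℓ)) (h.el_int hℓ hfin) iS
  calc 1 / 3 * en V q (bx ℓ κ q x₀) ≤ _ := hmono
    _ ≤ _ := by
      unfold en el
      gcongr

theorem ann_subset_slab_pow (ℓ κ : E →L[ℝ] E) (x₀ : E) {j J : ℕ} (hj : j < J) :
    ann ℓ κ x₀ (2 ^ j) ⊆ slab ℓ κ x₀ (2 ^ J) := by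
  refine (ann_subset_slab ℓ κ x₀ _).trans fun x hx => ⟨hx.1, hx.2.trans ?_⟩
  have : (2 : ℝ) * 2 ^ j = 2 ^ (j + 1) := by ring
  rw [this]
  exact pow_le_pow_right₀ (by norm_num) hj

theorem disjoint_ann (ℓ κ : E →L[ℝ] E) (x₀ : E) {i j : ℕ} (hij : i ≠ j) :
    Disjoint (ann ℓ κ x₀ (2 ^ i)) (ann ℓ κ x₀ (2 ^ j)) := by
  wlog h : i < j generalizing i j
  · exact (this hij.symm (lt_of_le_of_ne (not_lt.mp h) hij.symm)).symm
  rw [Set.disjoint_left]
  intro x hx hy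
  have h1 := hx.2.2
  have h2 := hy.2.1
  have h3 : (2 : ℝ) * 2 ^ i = 2 ^ (i + 1) := by ring
  have h4 : (2 : ℝ) ^ (i + 1) ≤ 2 ^ j := pow_le_pow_right₀ (by norm_num) h
  linarith

theorem St.sum_ann_le (h : St U V) {q : E →L[ℝ] E} (hq : IsPr q) (ℓ κ : E →L[ℝ] E) (x₀ : E)
    {J : ℕ} (hfin : V (ov (slab ℓ κ x₀ (2 ^ J))) < ⊤) :
    ∑ j ∈ Finset.range J, en V q (ann ℓ κ x₀ (2 ^ j)) ≤ en V q (slab ℓ κ x₀ (2 ^ J)) := by
  have hsub : ∀ j ∈ Finset.range J, ann ℓ κ x₀ (2 ^ j) ⊆ slab ℓ κ x₀ (2 ^ J) := fun j hj =>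
    ann_subset_slab_pow ℓ κ x₀ (Finset.mem_range.mp hj)
  unfold en
  rw [← integral_biUnion_finset (Finset.range J) (s := fun j => ov (ann ℓ κ x₀ (2 ^ j)))
    (fun j _ => measurableSet_ov (measurableSet_ann ℓ κ x₀ _))
    (fun i _ j _ hij => (disjoint_ann ℓ κ x₀ hij).preimage _)
    (fun j hj => (h.en_int hq hfin).mono_set (preimage_mono (hsub j hj)))]
  refine setIntegral_mono_set (h.en_int hq hfin) ?_ (LE.le.eventuallyLE ?_)
  · filter_upwards [ae_restrict_of_ae h.pr] with z hz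
    exact hz.tr_nonneg_conj hq
  · exact iUnion₂_subset fun j hj => preimage_mono (hsub j hj)

/-- **the logarithmic lower bound of the tilt energy of a slab.** -/
theorem St.slab_log (h : St U V) {ℓ κ q : E →L[ℝ] E} (hℓ : IsPr ℓ) (hκ : IsPr κ) (hq : IsPr q)
    (hℓq : ∀ x, ℓ (q x) = 0) (x₀ : E) {J : ℕ} (hU : slab ℓ κ x₀ (2 ^ J) ⊆ U)
    (hfin : V (ov (slab ℓ κ x₀ (2 ^ J))) < ⊤) {C₁ ε : ℝ} (hC₁ : 0 < C₁) (hε : 0 < ε)
    (hmass : ∀ j < J, V.real (ov (ann ℓ κ x₀ (2 ^ j))) ≤ C₁ * (2 ^ j) ^ 2)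
    (hen : ε ≤ en V q (bx ℓ κ q x₀))
    (hel : 4 * D1 * √(V.real (ov (slab ℓ κ x₀ (2 ^ J))) * el V ℓ (slab ℓ κ x₀ (2 ^ J))) ≤ ε / 6) :
    J * (ε ^ 2 / (576 * D1 ^ 2 * C₁)) ≤ en V q (slab ℓ κ x₀ (2 ^ J)) := by
  have hD := one_le_D1
  have hD0 : 0 < D1 := by linarith
  refine le_trans ?_ (h.sum_ann_le hq ℓ κ x₀ hfin)
  have key : ∀ j ∈ Finset.range J,
      ε ^ 2 / (576 * D1 ^ 2 * C₁) ≤ en V q (ann ℓ κ x₀ (2 ^ j)) := by
    intro j hj
    have hj' := Finset.mem_range.mp hj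
    have hρ : (1 : ℝ) ≤ 2 ^ j := one_le_pow₀ (by norm_num)
    have hρ0 : (0 : ℝ) < 2 ^ j := by positivity
    have hsub : slab ℓ κ x₀ (2 * 2 ^ j) ⊆ slab ℓ κ x₀ (2 ^ J) := fun x hx => ⟨hx.1, hx.2.trans (by
      have : (2 : ℝ) * 2 ^ j = 2 ^ (j + 1) := by ring
      rw [this]
      exact pow_le_pow_right₀ (by norm_num) hj')⟩
    have hfin' : V (ov (slab ℓ κ x₀ (2 * 2 ^ j))) < ⊤ :=
      (measure_mono (preimage_mono hsub)).trans_lt hfin
    have h1 := h.annulus hℓ hκ hq hℓq x₀ hρ (hsub.trans hU) hfin'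
    have h2 : √(V.real (ov (slab ℓ κ x₀ (2 * 2 ^ j))) * el V ℓ (slab ℓ κ x₀ (2 * 2 ^ j))) ≤
        √(V.real (ov (slab ℓ κ x₀ (2 ^ J))) * el V ℓ (slab ℓ κ x₀ (2 ^ J))) := by
      refine Real.sqrt_le_sqrt (mul_le_mul (measureReal_mono (preimage_mono hsub) hfin.ne)
        (h.el_mono hℓ hfin hsub) (h.el_nonneg hℓ _) measureReal_nonneg)
    have h3 : 4 * D1 * √(V.real (ov (slab ℓ κ x₀ (2 * 2 ^ j))) *
        el V ℓ (slab ℓ κ x₀ (2 * 2 ^ j))) ≤ ε / 6 := le_trans (by gcongr) hel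
    have he0 := h.en_nonneg hq (ann ℓ κ x₀ (2 ^ j))
    have h4 : √(V.real (ov (ann ℓ κ x₀ (2 ^ j))) * en V q (ann ℓ κ x₀ (2 ^ j))) ≤
        2 ^ j * √(C₁ * en V q (ann ℓ κ x₀ (2 ^ j))) := by
      have h41 : (2 : ℝ) ^ j * √(C₁ * en V q (ann ℓ κ x₀ (2 ^ j))) =
          √((2 ^ j) ^ 2 * (C₁ * en V q (ann ℓ κ x₀ (2 ^ j)))) := by
        rw [Real.sqrt_mul (show (0 : ℝ) ≤ (2 ^ j) ^ 2 by positivity), Real.sqrt_sq hρ0.le]
      rw [h41]
      refine Real.sqrt_le_sqrt ?_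
      calc _ ≤ (C₁ * (2 ^ j) ^ 2) * en V q (ann ℓ κ x₀ (2 ^ j)) := by
            gcongr
            exact hmass j hj'
        _ = _ := by ring
    have h5 : 4 * D1 / 2 ^ j * √(V.real (ov (ann ℓ κ x₀ (2 ^ j))) *
        en V q (ann ℓ κ x₀ (2 ^ j))) ≤ 4 * D1 * √(C₁ * en V q (ann ℓ κ x₀ (2 ^ j))) := by
      calc _ ≤ 4 * D1 / 2 ^ j * (2 ^ j * √(C₁ * en V q (ann ℓ κ x₀ (2 ^ j)))) := by gcongr
        _ = _ := by field_simp
    have h6 : ε / 6 ≤ 4 * D1 * √(C₁ * en V q (ann ℓ κ x₀ (2 ^ j))) := by linarith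
    have h7 : (ε / 6) ^ 2 ≤ (4 * D1 * √(C₁ * en V q (ann ℓ κ x₀ (2 ^ j)))) ^ 2 := by gcongr
    rw [mul_pow, Real.sq_sqrt (by positivity)] at h7
    rw [div_le_iff₀ (by positivity)]
    nlinarith
  calc (J : ℝ) * (ε ^ 2 / (576 * D1 ^ 2 * C₁))
      = ∑ _j ∈ Finset.range J, ε ^ 2 / (576 * D1 ^ 2 * C₁) := by simp
    _ ≤ _ := Finset.sum_le_sum key

end Crest.Agent.R234.Cacc_113
end

-- ▼ part R234/Log4_113
section

/-!
Row 234, VF-LOG, part 4: finite sums and covers of energies, lattices in a subspace.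
-/

set_option linter.unusedSectionVars false

namespace Crest.Agent.R234.Cacc_113

open MeasureTheory Set Filter Topology Function
open scoped InnerProductSpace

section energy

variable {E : Type*} [NormedAddCommGroup E] [InnerProductSpace ℝ E] [FiniteDimensional ℝ E]
  [MeasurableSpace E] [BorelSpace E]

variable {U : Set E} {V : Measure (E × (E →L[ℝ] E))} {q : E →L[ℝ] E}

/-- disjoint sets. -/
theorem St.sum_en_le (h : St U V) (hq : IsPr q) {ι : Type*} (s : Finset ι) (A : ι → Set E)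
    (hA : ∀ i ∈ s, MeasurableSet (A i)) (hd : (s : Set ι).Pairwise (Disjoint on A)) {B : Set E}
    (hB : V (ov B) < ⊤) (hsub : ∀ i ∈ s, A i ⊆ B) : ∑ i ∈ s, en V q (A i) ≤ en V q B := by
  unfold en
  rw [← integral_biUnion_finset s (s := fun j => ov (A j))
    (fun j hj => measurableSet_ov (hA j hj))
    (fun i hi j hj hij => (hd hi hj hij).preimage _)
    (fun j hj => (h.en_int hq hB).mono_set (preimage_mono (hsub j hj)))]
  refine setIntegral_mono_set (h.en_int hq hB) ?_ (LE.le.eventuallyLE ?_)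
  · filter_upwards [ae_restrict_of_ae h.pr] with z hz
    exact hz.tr_nonneg_conj hq
  · exact iUnion₂_subset fun j hj => preimage_mono (hsub j hj)

theorem St.en_union_le (h : St U V) (hq : IsPr q) {A B : Set E} (hA : MeasurableSet A)
    (hB : MeasurableSet B) (hfA : V (ov A) < ⊤) (hfB : V (ov B) < ⊤) :
    en V q (A ∪ B) ≤ en V q A + en V q B := by
  have h1 : en V q (A ∪ B) = en V q A + en V q (B \ A) := by
    unfold en
    have e : ov (A ∪ B) = ov A ∪ ov (B \ A) := by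
      unfold ov
      rw [← preimage_union, union_sdiff_self]
    rw [e]
    refine setIntegral_union ?_ (measurableSet_ov (hB.diff hA)) (h.en_int hq hfA)
      ((h.en_int hq hfB).mono_set (preimage_mono sdiff_subset))
    exact disjoint_sdiff_self_right.preimage _
  rw [h1]
  gcongr
  exact h.en_mono hq hfB sdiff_subset

theorem St.en_biUnion_le (h : St U V) (hq : IsPr q) {ι : Type*} (s : Finset ι) (A : ι → Set E)
    (hA : ∀ i ∈ s, MeasurableSet (A i)) (hf : ∀ i ∈ s, V (ov (A i)) < ⊤) :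
    en V q (⋃ i ∈ s, A i) ≤ ∑ i ∈ s, en V q (A i) := by
  classical
  induction s using Finset.induction_on with
  | empty => simp [en, ov]
  | insert a s ha ih =>
    rw [Finset.set_biUnion_insert, Finset.sum_insert ha]
    have hA' : ∀ i ∈ s, MeasurableSet (A i) := fun i hi => hA i (Finset.mem_insert_of_mem hi)
    have hf' : ∀ i ∈ s, V (ov (A i)) < ⊤ := fun i hi => hf i (Finset.mem_insert_of_mem hi)
    have hfU : V (ov (⋃ i ∈ s, A i)) < ⊤ := by
      have e : ov (⋃ i ∈ s, A i) = ⋃ i ∈ s, ov (A i) := by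
        unfold ov; simp only [preimage_iUnion]
      rw [e]
      exact (measure_biUnion_finset_le _ _).trans_lt (ENNReal.sum_lt_top.mpr hf')
    refine (h.en_union_le hq (hA a (Finset.mem_insert_self _ _))
      (Finset.measurableSet_biUnion _ hA') (hf a (Finset.mem_insert_self _ _)) hfU).trans ?_
    gcongr
    exact ih hA' hf'

/-- pigeonhole: a finite cover has a member with a fair part of the energy. -/
theorem St.exists_en_ge (h : St U V) (hq : IsPr q) {ι : Type*} (s : Finset ι) (A : ι → Set E)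
    (hA : ∀ i ∈ s, MeasurableSet (A i)) (hf : ∀ i ∈ s, V (ov (A i)) < ⊤) {B : Set E} {ε : ℝ}
    (hcov : ∀ᵐ z ∂V, z.1 ∈ B → ∃ i ∈ s, z.1 ∈ A i) (hε : 0 < ε)
    (hB2 : ε ≤ en V q B) :
    ∃ i ∈ s, ε / s.card ≤ en V q (A i) := by
  have hfU : V (ov (⋃ i ∈ s, A i)) < ⊤ := by
    have e : ov (⋃ i ∈ s, A i) = ⋃ i ∈ s, ov (A i) := by
      unfold ov; simp only [preimage_iUnion]
    rw [e]
    exact (measure_biUnion_finset_le _ _).trans_lt (ENNReal.sum_lt_top.mpr hf)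
  have h1 : en V q B ≤ en V q (⋃ i ∈ s, A i) := by
    refine setIntegral_mono_set (h.en_int hq hfU) ?_ ?_
    · filter_upwards [ae_restrict_of_ae h.pr] with z hz
      exact hz.tr_nonneg_conj hq
    · filter_upwards [hcov] with z hz hzB
      obtain ⟨i, hi, hiz⟩ := hz hzB
      exact mem_biUnion (show i ∈ (s : Set ι) from hi) hiz
  have h2 := h.en_biUnion_le hq s A hA hf
  by_contra hcon
  push Not at hcon
  rcases s.eq_empty_or_nonempty with hs | hs
  · subst hs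
    simp only [Finset.sum_empty] at h2
    linarith
  · have hc : (0 : ℝ) < s.card := by exact_mod_cast hs.card_pos
    have h3 : ∑ i ∈ s, en V q (A i) < ∑ _i ∈ s, ε / s.card := Finset.sum_lt_sum_of_nonempty hs hcon
    rw [Finset.sum_const, nsmul_eq_mul, mul_div_cancel₀ _ hc.ne'] at h3
    linarith

end energy

/-! ### lattices -/

section lattice

variable {F : Type*} [NormedAddCommGroup F] [InnerProductSpace ℝ F] {d : ℕ} {v : Fin d → F}

/-- lattice points -/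
noncomputable def pt (v : Fin d → F) (n : Fin d → ℤ) : F := ∑ i, (n i : ℝ) • v i

theorem inner_pt (hv : Orthonormal ℝ v) (n : Fin d → ℤ) (i : Fin d) :
    ⟪v i, pt v n⟫_ℝ = n i := hv.inner_right_fintype _ _

theorem norm_pt_le (hv : Orthonormal ℝ v) {n : Fin d → ℤ} {N : ℝ} (hn : ∀ i, |(n i : ℝ)| ≤ N) :
    ‖pt v n‖ ≤ d * N := by
  unfold pt
  refine (norm_sum_le _ _).trans ?_
  calc ∑ i, ‖(n i : ℝ) • v i‖ ≤ ∑ _i : Fin d, N := by
        refine Finset.sum_le_sum fun i _ => ?_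
        rw [norm_smul, hv.1 i, mul_one, Real.norm_eq_abs]
        exact hn i
    _ = d * N := by simp

theorem one_le_norm_pt_sub (hv : Orthonormal ℝ v) {n n' : Fin d → ℤ} (hn : n ≠ n') :
    1 ≤ ‖pt v n - pt v n'‖ := by
  obtain ⟨i, hi⟩ := Function.ne_iff.mp hn
  have h1 : |⟪v i, pt v n - pt v n'⟫_ℝ| ≤ ‖pt v n - pt v n'‖ := by
    refine (abs_real_inner_le_norm _ _).trans ?_
    rw [hv.1 i, one_mul]
  rw [inner_sub_right, inner_pt hv, inner_pt hv] at h1
  refine le_trans ?_ h1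
  have h2 : (1 : ℤ) ≤ |n i - n' i| := Int.one_le_abs (sub_ne_zero.mpr hi)
  exact_mod_cast h2

/-- box of indices -/
noncomputable def ix (d : ℕ) (N : ℕ) : Finset (Fin d → ℤ) :=
  Fintype.piFinset fun _ => Finset.Icc (-(N : ℤ)) N

theorem card_ix (d N : ℕ) : (ix d N).card = (2 * N + 1) ^ d := by
  unfold ix
  rw [Fintype.card_piFinset]
  simp only [Int.card_Icc, Finset.prod_const, Finset.card_univ, Fintype.card_fin]
  congr 1
  omega

theorem abs_le_of_mem_ix {N : ℕ} {n : Fin d → ℤ} (hn : n ∈ ix d N) (i : Fin d) :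
    |(n i : ℝ)| ≤ N := by
  have h1 := Fintype.mem_piFinset.mp hn i
  rw [Finset.mem_Icc] at h1
  rw [abs_le]
  constructor
  · have := h1.1
    have h2 : ((-(N : ℤ) : ℤ) : ℝ) ≤ ((n i : ℤ) : ℝ) := by exact_mod_cast this
    simpa using h2
  · have := h1.2
    exact_mod_cast this



end lattice

end Crest.Agent.R234.Cacc_113
end

-- ▼ part R234/Pers4_540
section

/-!
Row 234, VF-PERS (helper540), file 4: tip persistence, the compactness argument.
-/

set_option autoImplicit false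

open MeasureTheory Set Filter Topology Crest.GeometryTopology.Submanifold Metric
open scoped ENNReal InnerProductSpace NNReal

noncomputable section

namespace Crest.Agent.R234.Pers_540

open Vf_884 Strat3_842 Vc_164

variable {m k : ℕ} {V A B : Measure (Euc k × L k)} {P : L k}

theorem integrable_cutoff_tilt {U : Set (Euc k)} (hA : Stat m k U A) {χ : Euc k → ℝ}
    (hχ : Continuous χ) (hχc : HasCompactSupport χ) (hχU : tsupport χ ⊆ U) :
    Integrable (fun p : Euc k × L k => χ p.1 * tilt P p) A :=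
  integrable_of_cont hA.conc hχc (hA.fin _ hχc hχU)
    ((hχ.comp continuous_fst).mul (continuous_tilt P)) fun p hp => by
      rw [image_eq_zero_of_notMem_tsupport hp, zero_mul]

theorem integrableOn_tilt (hP : P ∈ G m k) {U : Set (Euc k)} (hA : Stat m k U A)
    (hfin : A (U ×ˢ univ) < ⊤) :
    IntegrableOn (fun p : Euc k × L k => tilt P p) (U ×ˢ univ) A := by
  refine IntegrableOn.of_bound hfin (continuous_tilt P).aestronglyMeasurable m ?_
  filter_upwards [ae_restrict_of_ae hA.conc] with p hp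
  rw [Real.norm_of_nonneg (tilt_nonneg hp hP)]
  exact tilt_le hp hP

/-- the limit argument: contradiction. -/
theorem limit_contra (hP : P ∈ G m k) (hA : Stat m k (Bx P 2) A) (hB : Stat m k (Bx P 2) B)
    (heq : ∀ f : Euc k → ℝ, ContDiff ℝ 1 f → HasCompactSupport f → tsupport f ⊆ Bx P 2 →
      ∫ p, f p.1 ∂A = ∫ p, f p.1 ∂B)
    (hBt : ∀ χ : Euc k → ℝ, Continuous χ → HasCompactSupport χ → tsupport χ ⊆ Bx P 2 →
      (∀ x, 0 ≤ χ x ∧ χ x ≤ 1) → ∫ p, χ p.1 * tilt P p ∂B = 0)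
    {c : ℝ} (hc : 0 < c) (hd : ∀ x, Sp B x → ∀ r > 0, closedBall x r ⊆ Bx P 2 →
      ENNReal.ofReal (c * r ^ m) ≤ B (closedBall x r ×ˢ univ)) :
    ∀ χ : Euc k → ℝ, Continuous χ → HasCompactSupport χ → tsupport χ ⊆ Bx P (5/4) →
      ∫ p, χ p.1 * tilt P p ∂A = 0 := by
  have hUo : IsOpen (Bx P 2) := isOpen_Bx P 2
  -- B is horizontal
  have hp : ∀ K : Set (Euc k), IsCompact K → K ⊆ Bx P 2 → ∀ᵐ p ∂B, p.1 ∈ K → p.2 = P := by
    intro K hK hKU
    obtain ⟨χ, hχ1, hχc, hχU, hχ01⟩ := exists_cutoff hK hUo hKU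
    have h1 := hBt χ χ.continuous hχc hχU hχ01
    have hnn : 0 ≤ᵐ[B] fun p => χ p.1 * tilt P p := by
      filter_upwards [hB.conc] with p hp
      exact mul_nonneg (hχ01 _).1 (tilt_nonneg hp hP)
    have h2 := (integral_eq_zero_iff_of_nonneg_ae hnn
      (integrable_cutoff_tilt hB χ.continuous hχc hχU)).1 h1
    filter_upwards [h2, hB.conc] with p hp1 hp2 hp3
    have e : χ p.1 * tilt P p = 0 := hp1
    rw [hχ1 p.1 hp3, one_mul] at e
    exact eq_of_tilt hp2 hP e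
  set H : Set (Euc k) := {y | P y = 0 ∧ ‖y‖ ≤ 3/2 ∧ Sp B y} with hH
  -- finitely many heights
  have hHfin : H.Finite := by
    have hK : IsCompact (Bc P (15/8)) := isCompact_Bc P _
    have hKU : Bc P (15/8) ⊆ Bx P 2 := Bc_subset_Bx (by norm_num)
    have hfin : IsFiniteMeasure ((B.restrict (Bc P (15/8) ×ˢ univ)).map Prod.fst) := by
      have : IsFiniteMeasure (B.restrict (Bc P (15/8) ×ˢ (univ : Set (L k)))) :=
        ⟨by rw [Measure.restrict_apply_univ]; exact hB.fin _ hK hKU⟩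
      exact Measure.isFiniteMeasure_map _ _
    refine finite_heights hP ((B.restrict (Bc P (15/8) ×ˢ univ)).map Prod.fst)
      (fun y hy => hy.1) (c := c * (1/2) ^ m) (a := 1/2) (r₀ := 1/4) (by positivity) (by norm_num)
      (by norm_num) ?_
    intro y hy z hz hza r hr hr1
    have hzy : Sp B (y + z) := by
      refine sp_translate hB hUo (convex_Bx P 2) hp hz ?_ ?_ hy.2.2
      · refine ⟨by rw [hy.1]; simp, ?_⟩
        rw [hy.1, sub_zero]; linarith [hy.2.1]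
      · refine ⟨by rw [map_add, hy.1, hz, zero_add]; linarith, ?_⟩
        rw [map_add, hy.1, hz, zero_add, add_sub_cancel_right]; linarith [hy.2.1]
    have hmem : z + y ∈ Bc P (3/2) := by
      refine ⟨by rw [map_add, hy.1, hz, add_zero]; linarith, ?_⟩
      rw [map_add, hy.1, hz, add_zero, add_sub_cancel_left]; exact hy.2.1
    have hsub : ball (z + y) r ⊆ Bx P (15/8) :=
      ball_subset_Bx hP hmem (by linarith)
    have h1 := hd (y + z) hzy (r / 2) (by positivity) (by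
      rw [add_comm y z]
      refine (closedBall_subset_ball (by linarith : r / 2 < r)).trans (hsub.trans ?_)
      exact fun x hx => ⟨hx.1.trans (by norm_num), hx.2.trans (by norm_num)⟩)
    rw [map_fst_apply _ measurableSet_ball, Measure.restrict_apply
      (measurableSet_ball.prod MeasurableSet.univ)]
    have e1 : c * (r / 2) ^ m = c * (1 / 2) ^ m * r ^ m := by rw [div_pow, one_div, inv_pow]; ring
    rw [e1] at h1
    refine h1.trans (measure_mono ?_)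
    rintro p ⟨hp1, -⟩
    rw [add_comm y z] at hp1
    have h2 : p.1 ∈ ball (z + y) r := closedBall_subset_ball (by linarith) hp1
    exact ⟨⟨h2, mem_univ _⟩, ⟨Bx_subset_Bc (hsub h2), mem_univ _⟩⟩
  -- heights of support points of A
  have hheight : ∀ x, Sp A x → ‖P x‖ < 2 → ‖x - P x‖ ≤ 3/2 → x - P x ∈ H := by
    intro x hx h1 h2
    have hxU : x ∈ Bx P 2 := ⟨h1, by linarith⟩
    have hPq : P (x - P x) = 0 := by rw [map_sub, G_idem_apply hP, sub_self]
    have h3 := sp_of_eq hA hUo heq hxU hx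
    have h4 : Sp B (x + -(P x)) := by
      refine sp_translate hB hUo (convex_Bx P 2) hp ?_ hxU ?_ h3
      · rw [map_neg, G_idem_apply hP]
      · rw [← sub_eq_add_neg]
        refine ⟨by rw [hPq]; simp, ?_⟩
        rw [hPq, sub_zero]; linarith
    rw [← sub_eq_add_neg] at h4
    exact ⟨hPq, h2, h4⟩
  -- no tilt near each height
  have hlocal : ∀ y ∈ H, ‖y‖ ≤ 5/4 → ∀ᵐ p ∂A, ‖P p.1‖ < 3/2 → p.1 - P p.1 = y → tilt P p = 0 := by
    intro y hy hy2
    obtain ⟨δ, hδ, hδH⟩ : ∃ δ > 0, ∀ y' ∈ H, y' ≠ y → δ ≤ ‖y' - y‖ := by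
      have hfin2 : (H \ {y}).Finite := hHfin.sdiff
      by_cases hne : (H \ {y}).Nonempty
      · obtain ⟨w, hw, hwm⟩ := hfin2.exists_minimalFor (fun w => ‖w - y‖) _ hne
        refine ⟨‖w - y‖, norm_pos_iff.2 (sub_ne_zero.2 hw.2), fun y' hy' hne' => ?_⟩
        by_contra hlt
        rw [not_le] at hlt
        exact absurd (hwm ⟨hy', hne'⟩ hlt.le) (not_le.2 hlt)
      · refine ⟨1, one_pos, fun y' hy' hne' => (hne ⟨y', hy', hne'⟩).elim⟩
    set η := min (δ / 2) (1/8) with hη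
    have hη0 : 0 < η := by positivity
    have hη1 : η < δ := (min_le_left _ _).trans_lt (by linarith)
    have hη2 : η ≤ 1/8 := min_le_right _ _
    have key := tilt_zero_of_plane (U := Bx P 2) hP hA (y := y) (a := 3/2) (a' := 7/4) (δ := η / 2)
      (δ' := η) (by norm_num) (by norm_num) (by positivity) (by linarith) ?_ ?_
    · filter_upwards [key] with p hp h1 h2
      exact hp h1 (by rw [h2, sub_self, norm_zero]; positivity)
    · rintro x ⟨h1, h2⟩
      refine ⟨by linarith, ?_⟩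
      calc ‖x - P x‖ = ‖(x - P x - y) + y‖ := by congr 1; abel
        _ ≤ ‖x - P x - y‖ + ‖y‖ := norm_add_le _ _
        _ < 2 := by linarith
    · intro x hx h1 h2
      have h3 : x - P x ∈ H := by
        refine hheight x hx (by linarith) ?_
        calc ‖x - P x‖ = ‖(x - P x - y) + y‖ := by congr 1; abel
          _ ≤ ‖x - P x - y‖ + ‖y‖ := norm_add_le _ _
          _ ≤ 3/2 := by linarith
      by_contra hne
      have := hδH _ h3 hne
      linarith
  have hall : ∀ᵐ p ∂A, p.1 ∈ Bx P (5/4) → tilt P p = 0 := by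
    have h1 : ∀ᵐ p ∂A, ∀ y ∈ H ∩ {y | ‖y‖ ≤ 5/4}, ‖P p.1‖ < 3/2 → p.1 - P p.1 = y →
        tilt P p = 0 :=
      (ae_ball_iff (hHfin.subset inter_subset_left).countable).2 fun y hy => hlocal y hy.1 hy.2
    filter_upwards [h1, ae_sp A] with p hp1 hp2 hp3
    have h2 : p.1 - P p.1 ∈ H := hheight p.1 hp2 (by linarith [hp3.1]) (by linarith [hp3.2])
    exact hp1 _ ⟨h2, hp3.2.le⟩ (by linarith [hp3.1]) rfl
  intro χ hχ hχc hχU
  refine integral_eq_zero_of_ae ?_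
  filter_upwards [hall] with p hp
  by_cases h : p.1 ∈ tsupport χ
  · rw [hp (hχU h), mul_zero]; rfl
  · rw [image_eq_zero_of_notMem_tsupport h, zero_mul]; rfl

/-- **tip persistence.** -/
theorem pers (hP : P ∈ G m k) (C : ℝ≥0) {c τ : ℝ} (hc : 0 < c) (hτ : 0 < τ) :
    ∃ ε > 0, ∀ V V' : Measure (Euc k × L k), Stat m k (Bx P 2) V → Stat m k (Bx P 2) V' →
      V (Bx P 2 ×ˢ univ) ≤ C → V' (Bx P 2 ×ˢ univ) ≤ C → LowD m (Bx P 2) c V' →
      MClose (Bx P 2) ε V V' → τ ≤ ∫ p in Bc P 1 ×ˢ univ, tilt P p ∂V →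
      ε ≤ ∫ p in Bx P 2 ×ˢ univ, tilt P p ∂V' := by
  by_contra hcon
  push Not at hcon
  have hseq : ∀ n : ℕ, (0:ℝ) < 1 / (n + 1) := fun n => by positivity
  choose V V' hV hV' hVC hV'C hlow hclose hτV hlt using fun n : ℕ => hcon (1 / (n + 1)) (hseq n)
  have hUo : IsOpen (Bx P 2) := isOpen_Bx P 2
  set F : Ultrafilter ℕ := hyperfilter ℕ with hF
  have hFat : (F : Filter ℕ) ≤ atTop := Nat.hyperfilter_le_atTop
  have heps : Tendsto (fun n : ℕ => (1:ℝ) / (n + 1)) (F : Filter ℕ) (𝓝 0) :=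
    tendsto_one_div_add_atTop_nhds_zero_nat.mono_left hFat
  obtain ⟨A, hA, hAc, hAf⟩ := exists_limit F hUo V (Eventually.of_forall fun n => (hV n).conc)
    fun K hK hKU => ⟨C, Eventually.of_forall fun n =>
      (measure_mono (prod_mono hKU (subset_univ _))).trans (hVC n)⟩
  obtain ⟨B, hB, hBc, hBf⟩ := exists_limit F hUo V' (Eventually.of_forall fun n => (hV' n).conc)
    fun K hK hKU => ⟨C, Eventually.of_forall fun n =>
      (measure_mono (prod_mono hKU (subset_univ _))).trans (hV'C n)⟩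
  have hAs : Stat m k (Bx P 2) A := hA.stat_of_stat hUo (Eventually.of_forall hV)
  have hBs : Stat m k (Bx P 2) B := hB.stat_of_stat hUo (Eventually.of_forall hV')
  have hVc : ∀ᶠ n in (F : Filter ℕ), ∀ᵐ p ∂(V n), p.2 ∈ G m k :=
    Eventually.of_forall fun n => (hV n).conc
  have hV'c : ∀ᶠ n in (F : Filter ℕ), ∀ᵐ p ∂(V' n), p.2 ∈ G m k :=
    Eventually.of_forall fun n => (hV' n).conc
  -- equal masses
  have heq : ∀ f : Euc k → ℝ, ContDiff ℝ 1 f → HasCompactSupport f → tsupport f ⊆ Bx P 2 →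
      ∫ p, f p.1 ∂A = ∫ p, f p.1 ∂B := by
    intro f hf hfc hfU
    obtain ⟨M, hM⟩ : ∃ M, ∀ y, ‖fderiv ℝ f y‖ ≤ M :=
      (hfc.fderiv (𝕜 := ℝ)).exists_bound_of_continuous (hf.continuous_fderiv one_ne_zero)
    have h1 := hA.lim_fst hVc hAc (f := fun p => f p.1) (hf.continuous.comp continuous_fst) hfc hfU
      fun p hp => image_eq_zero_of_notMem_tsupport hp
    have h2 := hB.lim_fst hV'c hBc (f := fun p => f p.1) (hf.continuous.comp continuous_fst) hfc hfU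
      fun p hp => image_eq_zero_of_notMem_tsupport hp
    have h3 : Tendsto (fun n => ∫ p, f p.1 ∂(V n) - ∫ p, f p.1 ∂(V' n)) (F : Filter ℕ) (𝓝 0) := by
      have h4 : Tendsto (fun n : ℕ => (1:ℝ) / (n + 1) * M) (F : Filter ℕ) (𝓝 0) := by
        simpa using heps.mul_const M
      refine squeeze_zero_norm (fun n => ?_) h4
      rw [Real.norm_eq_abs]
      exact hclose n f hf hfc hfU M hM
    exact sub_eq_zero.1 (tendsto_nhds_unique (h1.sub h2) h3)
  -- tilt of B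
  have hBt : ∀ χ : Euc k → ℝ, Continuous χ → HasCompactSupport χ → tsupport χ ⊆ Bx P 2 →
      (∀ x, 0 ≤ χ x ∧ χ x ≤ 1) → ∫ p, χ p.1 * tilt P p ∂B = 0 := by
    intro χ hχ hχc hχU hχ01
    have h1 := hB.lim_fst hV'c hBc (f := fun p => χ p.1 * tilt P p)
      ((hχ.comp continuous_fst).mul (continuous_tilt P)) hχc hχU
      fun p hp => by rw [image_eq_zero_of_notMem_tsupport hp, zero_mul]
    refine tendsto_nhds_unique h1 (squeeze_zero (fun n => ?_) (fun n => ?_) heps)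
    · refine integral_nonneg_of_ae ?_
      filter_upwards [(hV' n).conc] with p hp
      exact mul_nonneg (hχ01 _).1 (tilt_nonneg hp hP)
    · refine le_trans ?_ (hlt n).le
      have hmeas : MeasurableSet (Bx P 2 ×ˢ (univ : Set (L k))) :=
        hUo.measurableSet.prod MeasurableSet.univ
      have hres : ∫ p, χ p.1 * tilt P p ∂(V' n) = ∫ p in Bx P 2 ×ˢ univ, χ p.1 * tilt P p ∂(V' n) := by
        rw [setIntegral_eq_integral_of_forall_compl_eq_zero]
        intro p hp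
        have : p.1 ∉ tsupport χ := fun h => hp ⟨hχU h, mem_univ _⟩
        rw [image_eq_zero_of_notMem_tsupport this, zero_mul]
      rw [hres]
      have hti := integrableOn_tilt hP (hV' n) ((hV'C n).trans_lt ENNReal.coe_lt_top)
      refine integral_mono_ae ((integrable_cutoff_tilt (hV' n) hχ hχc hχU).integrableOn) hti ?_
      filter_upwards [ae_restrict_of_ae (hV' n).conc] with p hp
      have h0 := tilt_nonneg hp hP
      have h2 := (hχ01 p.1).2
      nlinarith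
  -- lower density of B
  have hd : ∀ x, Sp B x → ∀ r > 0, closedBall x r ⊆ Bx P 2 →
      ENNReal.ofReal (c / 2 ^ m * r ^ m) ≤ B (closedBall x r ×ˢ univ) := by
    intro x hx r hr hrU
    rw [conc_prod_univ hBc]
    refine hB.le_compact (isOpen_prod_univ hUo) ((isCompact_closedBall x r).prod (isCompact_G m k))
      (prod_mono hrU (subset_univ _)) ?_
    have h1 := hB.lt_open (isOpen_prod_univ hUo) (O := ball x (r/2) ×ˢ (univ : Set (L k)))
      (isOpen_ball.prod isOpen_univ) (hx (r/2) (by positivity))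
    refine (h1.mono fun n hn => ?_).frequently
    obtain ⟨z, hz, hzs⟩ := exists_sp hn.ne'
    have hzsub : ball z (r/2) ⊆ closedBall x r := by
      intro w hw
      rw [mem_ball] at hw hz
      rw [mem_closedBall]
      have := dist_triangle w z x
      linarith
    have h2 := hlow n z hzs (r/2) (by positivity) (hzsub.trans hrU)
    rw [← conc_prod_univ (hV' n).conc]
    have e : c / 2 ^ m * r ^ m = c * (r/2) ^ m := by rw [div_pow]; ring
    rw [e]
    exact h2.trans (measure_mono (prod_mono hzsub (subset_univ _)))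
  have hc' : 0 < c / 2 ^ m := by positivity
  have key := limit_contra hP hAs hBs heq hBt hc' hd
  obtain ⟨χ, hχ1, hχc, hχU, hχ01⟩ := exists_cutoff (isCompact_Bc P 1) (isOpen_Bx P (5/4))
    (Bc_subset_Bx (by norm_num))
  have hsub2 : tsupport χ ⊆ Bx P 2 :=
    hχU.trans fun x hx => ⟨hx.1.trans (by norm_num), hx.2.trans (by norm_num)⟩
  have h0 := key χ χ.continuous hχc hχU
  have h1 := hA.lim_fst hVc hAc (f := fun p => χ p.1 * tilt P p)
      ((χ.continuous.comp continuous_fst).mul (continuous_tilt P)) hχc hsub2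
      fun p hp => by rw [image_eq_zero_of_notMem_tsupport hp, zero_mul]
  rw [h0] at h1
  have h2 : ∀ n, τ ≤ ∫ p, χ p.1 * tilt P p ∂(V n) := by
    intro n
    refine (hτV n).trans ?_
    have hmeas : MeasurableSet (Bc P 1 ×ˢ (univ : Set (L k))) :=
      (isCompact_Bc P 1).measurableSet.prod MeasurableSet.univ
    have hint := integrable_cutoff_tilt (P := P) (hV n) χ.continuous hχc hsub2
    have hnn : 0 ≤ᵐ[V n] fun p => χ p.1 * tilt P p := by
      filter_upwards [(hV n).conc] with p hp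
      exact mul_nonneg (hχ01 _).1 (tilt_nonneg hp hP)
    calc ∫ p in Bc P 1 ×ˢ univ, tilt P p ∂(V n)
        = ∫ p in Bc P 1 ×ˢ univ, χ p.1 * tilt P p ∂(V n) := by
          refine setIntegral_congr_fun hmeas fun p hp => ?_
          rw [hχ1 p.1 hp.1, one_mul]
      _ ≤ ∫ p, χ p.1 * tilt P p ∂(V n) := setIntegral_le_integral hint hnn
  have h3 := ge_of_tendsto h1 (Eventually.of_forall h2)
  linarith

end Crest.Agent.R234.Pers_540
end
end

-- ▼ part R234/Log5_113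
section

/-!
Row 234, VF-LOG, part 5: cylinders over the base, the horizontal projections, pigeonhole in the heights,
the mass of the annuli, the passage from boxes to unit balls.
-/

set_option autoImplicit false

open MeasureTheory Set Filter Topology Metric Crest.GeometryTopology.Submanifold
open scoped ENNReal InnerProductSpace NNReal

noncomputable section

namespace Crest.Agent.R234.Log_113

open Vf_884 Strat3_842 Pers_540
open Crest.Agent.R234.Cacc_113 (St en el slab ann bx D1 pt ix)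

variable {m k : ℕ} {π : Euc k →L[ℝ] Euc m}

/-! ### bridges -/

theorem isPr_of_G {P : L k} (hP : P ∈ G m k) : Cacc_113.IsPr P :=
  ⟨fun x => G_idem_apply hP x, fun x y => G_symm hP x y⟩

theorem st_of_stat {U : Set (Euc k)} {V : Measure (Euc k × L k)} (hV : Stat m k U V) : St U V where
  pr := by filter_upwards [hV.conc] with z hz using isPr_of_G hz
  fin := fun K hKU hK => hV.fin K hK hKU
  st := fun X hX hXc hXU => hV.stat X hX hXc hXU

theorem ov_eq (S : Set (Euc k)) :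
    (Cacc_113.ov S : Set (Euc k × L k)) = S ×ˢ (univ : Set (L k)) := by
  ext p; simp [Cacc_113.ov]

/-! ### projections -/

/-- the horizontal projection -/
def hp (π : Euc k →L[ℝ] Euc m) : L k := ContinuousLinearMap.adjoint π ∘L π

/-- the projection on the lift of a subspace of the base -/
def lp (π : Euc k →L[ℝ] Euc m) (S : Submodule ℝ (Euc m)) : L k :=
  ContinuousLinearMap.adjoint π ∘L S.starProjection ∘L π

theorem co_apply (h : Ar_870.IsCo π) (v : Euc m) : π (ContinuousLinearMap.adjoint π v) = v :=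
  congrArg (fun T : Euc m →L[ℝ] Euc m => T v) h

theorem inner_adj (π : Euc k →L[ℝ] Euc m) (v : Euc m) (x : Euc k) :
    ⟪ContinuousLinearMap.adjoint π v, x⟫_ℝ = ⟪v, π x⟫_ℝ :=
  ContinuousLinearMap.adjoint_inner_left _ _ _

theorem hp_apply (π : Euc k →L[ℝ] Euc m) (x : Euc k) :
    hp π x = ContinuousLinearMap.adjoint π (π x) := rfl

theorem lp_apply (π : Euc k →L[ℝ] Euc m) (S : Submodule ℝ (Euc m)) (x : Euc k) :
    lp π S x = ContinuousLinearMap.adjoint π (S.starProjection (π x)) := rfl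

theorem norm_hp (h : Ar_870.IsCo π) (x : Euc k) : ‖hp π x‖ = ‖π x‖ := by
  rw [hp_apply, Ar_870.norm_adjoint_co h]

theorem norm_lp (h : Ar_870.IsCo π) (S : Submodule ℝ (Euc m)) (x : Euc k) :
    ‖lp π S x‖ = ‖S.starProjection (π x)‖ := by
  rw [lp_apply, Ar_870.norm_adjoint_co h]

theorem starProjection_idem (S : Submodule ℝ (Euc m)) (v : Euc m) :
    S.starProjection (S.starProjection v) = S.starProjection v :=
  Submodule.starProjection_eq_self_iff.2 (Submodule.starProjection_apply_mem _ _)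

theorem starProjection_symm (S : Submodule ℝ (Euc m)) (u v : Euc m) :
    ⟪S.starProjection u, v⟫_ℝ = ⟪u, S.starProjection v⟫_ℝ :=
  Submodule.inner_starProjection_left_eq_right S u v

theorem norm_starProjection_le (S : Submodule ℝ (Euc m)) (v : Euc m) :
    ‖S.starProjection v‖ ≤ ‖v‖ := by
  have h1 : Cacc_113.IsPr S.starProjection := ⟨starProjection_idem S, starProjection_symm S⟩
  exact h1.norm_le v

theorem isPr_lp (h : Ar_870.IsCo π) (S : Submodule ℝ (Euc m)) : Cacc_113.IsPr (lp π S) where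
  idem x := by rw [lp_apply, lp_apply, co_apply h, starProjection_idem]
  sa x y := by
    have h1 : ⟪x, lp π S y⟫_ℝ = ⟪π x, S.starProjection (π y)⟫_ℝ := by
      rw [lp_apply]; exact ContinuousLinearMap.adjoint_inner_right _ _ _
    rw [h1, lp_apply, inner_adj]
    exact starProjection_symm S _ _

theorem isPr_hp (h : Ar_870.IsCo π) : Cacc_113.IsPr (hp π) where
  idem x := by rw [hp_apply, hp_apply, co_apply h]
  sa x y := by
    rw [hp_apply, hp_apply, inner_adj, real_inner_comm, ← inner_adj, real_inner_comm]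

theorem norm_co_le (h : Ar_870.IsCo π) (x : Euc k) : ‖π x‖ ≤ ‖x‖ := by
  rw [← norm_hp h]; exact (isPr_hp h).norm_le x

theorem hp_mem_G (h : Ar_870.IsCo π) : hp π ∈ G m k := by
  refine ⟨?_, ?_, ?_⟩
  · ext1 x; exact (isPr_hp h).idem x
  · rw [ContinuousLinearMap.isSelfAdjoint_iff']
    unfold hp
    rw [ContinuousLinearMap.adjoint_comp, ContinuousLinearMap.adjoint_adjoint]
  · rw [tr_apply]
    have h1 : LinearMap.trace ℝ (Euc k) (hp π).toLinearMap =
        LinearMap.trace ℝ (Euc m) (π ∘L ContinuousLinearMap.adjoint π).toLinearMap :=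
      LinearMap.trace_comp_comm' (R := ℝ) π.toLinearMap (ContinuousLinearMap.adjoint π).toLinearMap
    have h2 : π ∘L ContinuousLinearMap.adjoint π = ContinuousLinearMap.id ℝ (Euc m) := h
    rw [h1, h2]
    change LinearMap.trace ℝ (Euc m) LinearMap.id = _
    rw [LinearMap.trace_id, finrank_euclideanSpace_fin]

/-- the vertical projection -/
def vp (π : Euc k →L[ℝ] Euc m) : L k := 1 - hp π

theorem isPr_vp (h : Ar_870.IsCo π) : Cacc_113.IsPr (vp π) := (isPr_hp h).compl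

theorem vp_apply (π : Euc k →L[ℝ] Euc m) (x : Euc k) : vp π x = x - hp π x := rfl

theorem pi_vp (h : Ar_870.IsCo π) (x : Euc k) : π (vp π x) = 0 := by
  rw [vp_apply, map_sub, hp_apply, co_apply h, sub_self]

theorem lp_vp (h : Ar_870.IsCo π) (S : Submodule ℝ (Euc m)) (x : Euc k) :
    lp π S (vp π x) = 0 := by
  rw [lp_apply, pi_vp h, map_zero, map_zero]


/-! ### the class -/

/-- cylinder over a set of the base -/
def cy (π : Euc k →L[ℝ] Euc m) (A : Set (Euc m)) : Set (Euc k) := π ⁻¹' A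


/-- stationary varifolds over a ball of the base with mass bound at the centre and lower density. -/
structure Un (π : Euc k →L[ℝ] Euc m) (C₀ c₀ R : ℝ) (V : Measure (Euc k × L k)) : Prop where
  co : Ar_870.IsCo π
  one_le : 1 ≤ R
  C₀_nonneg : 0 ≤ C₀
  st : Stat m k (cy π (ball 0 R)) V
  mass : ∀ r : ℝ, 1 ≤ r → r ≤ R → V (cy π (ball 0 r) ×ˢ univ) ≤ ENNReal.ofReal (C₀ * r ^ m)
  low : LowD m (cy π (ball 0 R)) c₀ V

variable {C₀ c₀ R : ℝ} {V : Measure (Euc k × L k)}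

theorem Un.fin (h : Un π C₀ c₀ R V) {A : Set (Euc k)} (hA : A ⊆ cy π (ball 0 R)) :
    V (Cacc_113.ov A) < ⊤ := by
  rw [ov_eq]
  exact (measure_mono (prod_mono hA (subset_univ _))).trans_lt
    ((h.mass R h.one_le le_rfl).trans_lt ENNReal.ofReal_lt_top)

/-- pigeonhole in the heights. -/
theorem Un.exists_box (h : Un π C₀ c₀ R V) (hR : 2 ≤ R) (hc₀ : 0 < c₀) {N₀ : ℕ}
    (hN₀ : C₀ * 4 ^ m ≤ N₀ * c₀) {τ : ℝ} (hτ : 0 < τ)
    (hen : τ ≤ en V (vp π) (cy π (ball 0 1))) :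
    ∃ a : Euc k, ‖π a‖ < 1 ∧ τ / N₀ ≤ en V (vp π) {x | x - a ∈ Bc (hp π) 1} := by
  classical
  set B : Set (Euc k) := cy π (ball 0 1) with hB
  let good : Finset (Euc k) → Prop := fun F =>
    (∀ z ∈ F, z ∈ B ∧ Sp V z) ∧ ∀ z ∈ F, ∀ w ∈ F, z ≠ w → 1 ≤ dist z w
  -- cardinality bound
  have hcard : ∀ F, good F → F.card ≤ N₀ := by
    intro F hF
    have hdisj : (F : Set (Euc k)).PairwiseDisjoint fun z => ball z (1 / 2) ×ˢ (univ : Set (L k)) := by
      intro z hz w hw hzw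
      refine Disjoint.set_prod_left (ball_disjoint_ball ?_) _ _
      have := hF.2 z hz w hw hzw
      linarith
    have hsub : ∀ z ∈ F, ball z (1 / 2) ⊆ cy π (ball 0 2) := by
      intro z hz x hx
      have h1 : ‖π z‖ < 1 := by simpa [hB, cy] using (hF.1 z hz).1
      have h2 : ‖π (x - z)‖ ≤ ‖x - z‖ := norm_co_le h.co _
      rw [mem_ball, dist_eq_norm] at hx
      change π x ∈ ball 0 2
      rw [mem_ball_zero_iff]
      calc ‖π x‖ = ‖π (x - z) + π z‖ := by rw [← map_add]; congr 2; abel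
        _ ≤ ‖π (x - z)‖ + ‖π z‖ := norm_add_le _ _
        _ < 2 := by linarith
    have hsub2 : ball (0 : Euc m) 2 ⊆ ball 0 R := ball_subset_ball hR
    have h1 : ∀ z ∈ F, ENNReal.ofReal (c₀ * (1 / 2) ^ m) ≤ V (ball z (1 / 2) ×ˢ univ) := fun z hz =>
      h.low z (hF.1 z hz).2 (1 / 2) (by norm_num) ((hsub z hz).trans (preimage_mono hsub2))
    have h2 : ∑ z ∈ F, V (ball z (1 / 2) ×ˢ univ) ≤ ENNReal.ofReal (C₀ * 2 ^ m) := by
      rw [← measure_biUnion_finset hdisj fun z _ => measurableSet_ball.prod MeasurableSet.univ]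
      refine le_trans (measure_mono ?_) (h.mass 2 (by norm_num) hR)
      refine iUnion₂_subset fun z hz => prod_mono (hsub z hz) subset_rfl
    have h3 : (F.card : ℝ≥0∞) * ENNReal.ofReal (c₀ * (1 / 2) ^ m) ≤ ENNReal.ofReal (C₀ * 2 ^ m) := by
      refine le_trans ?_ h2
      rw [← nsmul_eq_mul, ← Finset.sum_const]
      exact Finset.sum_le_sum h1
    have hp0 : (0 : ℝ) < c₀ * (1 / 2) ^ m := by positivity
    have h4 : (F.card : ℝ) * (c₀ * (1 / 2) ^ m) ≤ C₀ * 2 ^ m := by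
      rw [← ENNReal.ofReal_natCast, ← ENNReal.ofReal_mul (by positivity)] at h3
      have h0 : 0 ≤ C₀ * 2 ^ m := mul_nonneg h.C₀_nonneg (by positivity)
      exact (ENNReal.ofReal_le_ofReal_iff h0).mp h3
    have h5 : (F.card : ℝ) ≤ N₀ := by
      have e1 : (F.card : ℝ) * c₀ ≤ C₀ * 4 ^ m := by
        have e2 : (2 : ℝ) ^ m * (1 / 2) ^ m = 1 := by rw [← mul_pow]; norm_num
        have e3 : (4 : ℝ) ^ m = 2 ^ m * 2 ^ m := by rw [← mul_pow]; norm_num
        calc (F.card : ℝ) * c₀ = 2 ^ m * (F.card * (c₀ * (1 / 2) ^ m)) := by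
              rw [show (2 : ℝ) ^ m * (F.card * (c₀ * (1 / 2) ^ m)) =
                (2 ^ m * (1 / 2) ^ m) * (F.card * c₀) by ring, e2, one_mul]
          _ ≤ 2 ^ m * (C₀ * 2 ^ m) := by gcongr
          _ = C₀ * 4 ^ m := by rw [e3]; ring
      exact le_of_mul_le_mul_right (e1.trans hN₀) hc₀
    exact_mod_cast h5
  -- maximal family
  have hex : ∃ n, n ≤ N₀ ∧ ∃ F, good F ∧ F.card = n := ⟨0, Nat.zero_le _, ∅, ⟨by simp, by simp⟩, rfl⟩
  obtain ⟨n, ⟨hn, F, hF, hFn⟩, hmax⟩ : ∃ n, (n ≤ N₀ ∧ ∃ F, good F ∧ F.card = n) ∧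
      ∀ n', (n' ≤ N₀ ∧ ∃ F, good F ∧ F.card = n') → n' ≤ n := by
    refine ⟨Nat.findGreatest (fun n => n ≤ N₀ ∧ ∃ F, good F ∧ F.card = n) N₀, ?_, ?_⟩
    · exact Nat.findGreatest_spec (P := fun n => n ≤ N₀ ∧ ∃ F, good F ∧ F.card = n)
        (Nat.zero_le _) ⟨Nat.zero_le _, ∅, ⟨by simp, by simp⟩, rfl⟩
    · intro n' hn'
      exact Nat.le_findGreatest hn'.1 hn'
  have hcov : ∀ z, z ∈ B → Sp V z → ∃ w ∈ F, dist z w < 1 := by
    intro z hz hzs
    by_contra hcon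
    push Not at hcon
    have hzF : z ∉ F := fun hzF => by
      have := hcon z hzF
      rw [dist_self] at this
      linarith
    have hg : good (insert z F) := by
      refine ⟨fun w hw => ?_, fun w hw w' hw' hne => ?_⟩
      · rcases Finset.mem_insert.mp hw with rfl | hw
        · exact ⟨hz, hzs⟩
        · exact hF.1 w hw
      · rcases Finset.mem_insert.mp hw with hw1 | hw1 <;>
          rcases Finset.mem_insert.mp hw' with hw2 | hw2
        · exact absurd (hw1.trans hw2.symm) hne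
        · rw [hw1]; exact hcon w' hw2
        · rw [hw2, dist_comm]; exact hcon w hw1
        · exact hF.2 w hw1 w' hw2 hne
    have h1 := hmax _ ⟨hcard _ hg, _, hg, rfl⟩
    rw [Finset.card_insert_of_notMem hzF] at h1
    omega
  have hst := st_of_stat h.st
  have hsubB : ∀ w ∈ F, {x : Euc k | x - w ∈ Bc (hp π) 1} ⊆ cy π (ball 0 R) := by
    intro w hw x hx
    have h1 : ‖π w‖ < 1 := by simpa [hB, cy] using (hF.1 w hw).1
    have h2 : ‖π (x - w)‖ ≤ 1 := by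
      rw [← norm_hp h.co]; exact hx.1
    change π x ∈ ball 0 R
    rw [mem_ball_zero_iff]
    calc ‖π x‖ = ‖π (x - w) + π w‖ := by rw [← map_add]; congr 2; abel
      _ ≤ ‖π (x - w)‖ + ‖π w‖ := norm_add_le _ _
      _ < R := by linarith
  obtain ⟨w, hw, hw2⟩ := hst.exists_en_ge (isPr_vp h.co) F (fun w => {x | x - w ∈ Bc (hp π) 1})
    (fun w _ => ((isCompact_Bc (hp π) 1).isClosed.preimage (continuous_id.sub
      continuous_const)).measurableSet) (fun w hw => h.fin (hsubB w hw)) (B := B) (ε := τ) (by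
        filter_upwards [ae_sp V] with z hz hzB
        obtain ⟨w, hw, hw2⟩ := hcov z.1 hzB hz
        refine ⟨w, hw, ?_⟩
        rw [dist_eq_norm] at hw2
        refine ⟨?_, ?_⟩
        · exact ((isPr_hp h.co).norm_le _).trans hw2.le
        · exact ((isPr_vp h.co).norm_le _).trans hw2.le) hτ hen
  refine ⟨w, by simpa [hB, cy] using (hF.1 w hw).1, le_trans ?_ hw2⟩
  have hFpos : (0 : ℝ) < F.card := by exact_mod_cast Finset.card_pos.mpr ⟨w, hw⟩
  have hFN : (F.card : ℝ) ≤ N₀ := by exact_mod_cast hcard F hF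
  gcongr

end Crest.Agent.R234.Log_113
end
end

-- ▼ part R234/Log6_113
section

/-!
Row 234, VF-LOG, part 6: the mass of a stationary varifold is almost invariant under translations in
directions with small defect, for test functions which are not compactly supported in the vertical
directions.
-/

set_option linter.unusedSectionVars false

namespace Crest.Agent.R234.Cacc_113

open MeasureTheory Set Filter Topology
open scoped InnerProductSpace

variable {E : Type*} [NormedAddCommGroup E] [InnerProductSpace ℝ E] [FiniteDimensional ℝ E]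
  [MeasurableSpace E] [BorelSpace E]

variable {U : Set E} {V : Measure (E × (E →L[ℝ] E))}

theorem St.integrable_supp (h : St U V) {S : Set E} (hS : IsClosed S) (hfin : V (ov S) < ⊤)
    {g : E × (E →L[ℝ] E) → ℝ} (hg : Continuous g) {C : ℝ} (hb : ∀ x P, IsPr P → |g (x, P)| ≤ C)
    (h0 : ∀ z, z.1 ∉ S → g z = 0) : Integrable g V := by
  have h1 := h.integrableOn_bdd hfin hg hb
  rw [← integrable_indicator_iff (measurableSet_ov hS.measurableSet)] at h1
  refine h1.congr (Eventually.of_forall fun z => ?_)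
  by_cases hz : z.1 ∈ S
  · exact indicator_of_mem (show z ∈ ov S from hz) _
  · rw [indicator_of_notMem (show z ∉ ov S from hz)]
    exact (h0 z hz).symm

set_option maxHeartbeats 1000000 in
/-- **translation lemma**. -/
theorem St.trans (h : St U V) {f : E → ℝ} (hf : ContDiff ℝ 1 f) {C : ℝ} (hb : ∀ x, |f x| ≤ C)
    (hb' : ∀ x, ‖fderiv ℝ f x‖ ≤ C) (ξ : E) {S : Set E} (hS : IsClosed S) (hSU : S ⊆ U)
    (hfin : V (ov S) < ⊤) (hsupp : ∀ t ∈ Icc (0 : ℝ) 1, ∀ x, x ∉ S → f (x - t • ξ) = 0) :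
    |∫ z, f (z.1 - ξ) ∂V - ∫ z, f z.1 ∂V| ≤ C * ∫ z in ov S, ‖ξ - z.2 ξ‖ ∂V := by
  have hC0 : 0 ≤ C := (abs_nonneg _).trans (hb 0)
  have hfc : Continuous (fderiv ℝ f) := hf.continuous_fderiv one_ne_zero
  have hSm := measurableSet_ov (E := E) hS.measurableSet
  -- the differential vanishes outside `S`
  have hd0 : ∀ t ∈ Icc (0 : ℝ) 1, ∀ x, x ∉ S → fderiv ℝ f (x - t • ξ) = 0 := by
    intro t ht x hx
    have h1 : (fun y => f (y - t • ξ)) =ᶠ[𝓝 x] fun _ => (0 : ℝ) := by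
      filter_upwards [hS.isOpen_compl.mem_nhds hx] with y hy
      exact hsupp t ht y hy
    have h2 := h1.fderiv_eq (𝕜 := ℝ)
    rw [fderiv_comp_sub] at h2
    rw [h2]
    simp
  set g : ℝ → ℝ := fun t => ∫ z, f (z.1 - t • ξ) ∂V with hg
  have hcont : ∀ t : ℝ, Continuous fun z : E × (E →L[ℝ] E) => f (z.1 - t • ξ) := fun t =>
    hf.continuous.comp (continuous_fst.sub continuous_const)
  have hcd : ∀ t : ℝ, Continuous fun z : E × (E →L[ℝ] E) => fderiv ℝ f (z.1 - t • ξ) ξ := fun t =>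
    (hfc.comp (continuous_fst.sub continuous_const)).clm_apply continuous_const
  have hbnd : Integrable ((ov S).indicator fun _ : E × (E →L[ℝ] E) => C) V := by
    rw [integrable_indicator_iff hSm]
    exact integrableOn_const hfin.ne
  have hbnd2 : Integrable ((ov S).indicator fun _ : E × (E →L[ℝ] E) => C * ‖ξ‖) V := by
    rw [integrable_indicator_iff hSm]
    exact integrableOn_const hfin.ne
  have hi : ∀ t ∈ Icc (0 : ℝ) 1, Integrable (fun z : E × (E →L[ℝ] E) => f (z.1 - t • ξ)) V :=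
    fun t ht => h.integrable_supp hS hfin (hcont t) (fun x P _ => hb _) fun z hz => hsupp t ht _ hz
  have hline : ∀ (x : E) (t : ℝ), HasDerivAt (fun t : ℝ => f (x - t • ξ))
      (-(fderiv ℝ f (x - t • ξ) ξ)) t := by
    intro x t
    have h1 : HasDerivAt (fun t : ℝ => x - t • ξ) (-ξ) t := by
      simpa using ((hasDerivAt_id t).smul_const ξ).const_sub x
    have h2 := (hf.differentiable one_ne_zero (x - t • ξ)).hasFDerivAt.comp_hasDerivAt t h1
    rw [map_neg] at h2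
    exact h2
  -- continuity
  have hgc : ContinuousOn g (Icc 0 1) := by
    refine continuousOn_of_dominated (bound := (ov S).indicator fun _ => C) ?_ ?_ hbnd ?_
    · exact fun t _ => (hcont t).aestronglyMeasurable
    · intro t ht
      refine Eventually.of_forall fun z => ?_
      by_cases hz : z.1 ∈ S
      · rw [indicator_of_mem (show z ∈ ov S from hz)]; exact hb _
      · rw [indicator_of_notMem (show z ∉ ov S from hz), hsupp t ht _ hz, norm_zero]
    · refine Eventually.of_forall fun z => ?_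
      exact (hf.continuous.comp (continuous_const.sub
        (continuous_id.smul continuous_const))).continuousOn
  -- derivative
  have hgd : ∀ t ∈ Ioo (0 : ℝ) 1, HasDerivAt g (∫ z, -(fderiv ℝ f (z.1 - t • ξ) ξ) ∂V) t := by
    intro t ht
    have h1 := hasDerivAt_integral_of_dominated_loc_of_deriv_le (μ := V) (𝕜 := ℝ)
      (F := fun (t : ℝ) (z : E × (E →L[ℝ] E)) => f (z.1 - t • ξ))
      (F' := fun (t : ℝ) (z : E × (E →L[ℝ] E)) => -(fderiv ℝ f (z.1 - t • ξ) ξ))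
      (x₀ := t) (s := Ioo 0 1) (bound := (ov S).indicator fun _ => C * ‖ξ‖)
      (isOpen_Ioo.mem_nhds ht) (Eventually.of_forall fun s => (hcont s).aestronglyMeasurable)
      (hi t (Ioo_subset_Icc_self ht)) (hcd t).neg.aestronglyMeasurable
      (Eventually.of_forall fun z s hs => by
        by_cases hz : z.1 ∈ S
        · rw [indicator_of_mem (show z ∈ ov S from hz), norm_neg]
          exact (ContinuousLinearMap.le_opNorm _ _).trans (by gcongr; exact hb' _)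
        · rw [indicator_of_notMem (show z ∉ ov S from hz),
            hd0 s (Ioo_subset_Icc_self hs) _ hz]
          simp) hbnd2
      (Eventually.of_forall fun z s _ => hline z.1 s)
    exact h1.2
  obtain ⟨c, hc, hc2⟩ := exists_hasDerivAt_eq_slope g (fun t => ∫ z, -(fderiv ℝ f (z.1 - t • ξ) ξ) ∂V)
    zero_lt_one hgc hgd
  have hc' := Ioo_subset_Icc_self hc
  -- stationarity
  have hX : ContDiff ℝ 1 fun x => f (x - c • ξ) • ξ :=
    (hf.comp (contDiff_id.sub contDiff_const)).smul contDiff_const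
  have hXd : ∀ x, HasFDerivAt (fun x => f (x - c • ξ) • ξ)
      ((fderiv ℝ f (x - c • ξ)).smulRight ξ) x := by
    intro x
    have h1 : HasFDerivAt (fun x => f (x - c • ξ)) (fderiv ℝ f (x - c • ξ)) x := by
      have := (hf.differentiable one_ne_zero (x - c • ξ)).hasFDerivAt.comp x
        ((hasFDerivAt_id x).sub_const (c • ξ))
      rw [ContinuousLinearMap.comp_id] at this
      exact this
    exact h1.smul_const ξ
  have hst := h.noncompact hX hS hSU hfin (fun x hx => by rw [hsupp c hc' x hx, zero_smul])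
    (C := C * ‖ξ‖) (fun x => by rw [norm_smul]; gcongr; exact hb _)
    (fun x => by
      rw [(hXd x).fderiv, ContinuousLinearMap.norm_smulRight_apply]
      gcongr
      exact hb' _)
  have e1 : ∀ z : E × (E →L[ℝ] E), tr (fderiv ℝ (fun x => f (x - c • ξ) • ξ) z.1 ∘L z.2) =
      fderiv ℝ f (z.1 - c • ξ) (z.2 ξ) := by
    intro z
    rw [(hXd z.1).fderiv, tr_smulRight_comp]
  simp_rw [e1] at hst
  have hi1 : Integrable (fun z : E × (E →L[ℝ] E) => fderiv ℝ f (z.1 - c • ξ) ξ) V :=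
    h.integrable_supp hS hfin (hcd c) (C := C * ‖ξ‖)
      (fun x P _ => by
        have h8 := hb' (x - c • ξ)
        exact ((fderiv ℝ f (x - c • ξ)).le_opNorm ξ).trans (by gcongr))
      fun z hz => by rw [hd0 c hc' _ hz]; simp
  have hi2 : Integrable (fun z : E × (E →L[ℝ] E) => fderiv ℝ f (z.1 - c • ξ) (z.2 ξ)) V :=
    h.integrable_supp hS hfin ((hfc.comp (continuous_fst.sub continuous_const)).clm_apply
      (continuous_snd.clm_apply continuous_const)) (C := C * ‖ξ‖)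
      (fun x P hP => by
        have h7 := hP.norm_le ξ
        have h8 := hb' (x - c • ξ)
        exact ((fderiv ℝ f (x - c • ξ)).le_opNorm (P ξ)).trans (by gcongr))
      fun z hz => by rw [hd0 c hc' _ hz]; simp
  have e2 : g 1 - g 0 = - ∫ z, fderiv ℝ f (z.1 - c • ξ) (ξ - z.2 ξ) ∂V := by
    have e3 : ∫ z, fderiv ℝ f (z.1 - c • ξ) (ξ - z.2 ξ) ∂V =
        ∫ z, fderiv ℝ f (z.1 - c • ξ) ξ ∂V := by
      simp_rw [map_sub]
      rw [integral_sub hi1 hi2, hst, sub_zero]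
    rw [e3, ← integral_neg, hc2]
    simp
  have e4 : g 1 - g 0 = ∫ z, f (z.1 - ξ) ∂V - ∫ z, f z.1 ∂V := by
    simp [hg]
  rw [← e4, e2, abs_neg, ← Real.norm_eq_abs]
  refine (norm_integral_le_integral_norm _).trans ?_
  have hi3 : Integrable ((ov S).indicator fun z : E × (E →L[ℝ] E) => C * ‖ξ - z.2 ξ‖) V := by
    rw [integrable_indicator_iff hSm]
    refine Integrable.const_mul ?_ C
    exact h.integrableOn_bdd hfin ((continuous_const.sub
      (continuous_snd.clm_apply continuous_const)).norm) (C := 2 * ‖ξ‖) fun x P hP => by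
        rw [abs_of_nonneg (norm_nonneg _)]
        exact (norm_sub_le _ _).trans (by have := hP.norm_le ξ; show ‖ξ‖ + ‖P ξ‖ ≤ 2 * ‖ξ‖; linarith)
  calc ∫ z, ‖fderiv ℝ f (z.1 - c • ξ) (ξ - z.2 ξ)‖ ∂V
      ≤ ∫ z, (ov S).indicator (fun z : E × (E →L[ℝ] E) => C * ‖ξ - z.2 ξ‖) z ∂V := by
        refine integral_mono_of_nonneg (Eventually.of_forall fun z => norm_nonneg _) hi3
          (Eventually.of_forall fun z => ?_)
        by_cases hz : z.1 ∈ S
        · rw [indicator_of_mem (show z ∈ ov S from hz)]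
          exact (ContinuousLinearMap.le_opNorm _ _).trans (by gcongr; exact hb' _)
        · rw [indicator_of_notMem (show z ∉ ov S from hz)]
          dsimp only
          rw [hd0 c hc' _ hz]
          simp
    _ = C * ∫ z in ov S, ‖ξ - z.2 ξ‖ ∂V := by
        rw [integral_indicator hSm, integral_const_mul]

/-- the defect integral. -/
theorem St.defect_le (h : St U V) {ℓ : E →L[ℝ] E} (hℓ : IsPr ℓ) {ξ : E} (hξ : ℓ ξ = ξ) {S : Set E}
    (hfin : V (ov S) < ⊤) :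
    ∫ z in ov S, ‖ξ - z.2 ξ‖ ∂V ≤ ‖ξ‖ * √(V.real (ov S) * el V ℓ S) := by
  have hiS : IntegrableOn (fun z : E × (E →L[ℝ] E) => √(tr (ℓ ∘L (1 - z.2)))) (ov S) V :=
    h.integrableOn_bdd hfin (Real.continuous_sqrt.comp (continuous_tl ℓ))
      fun _ _ hP => sqrt_tr_le_card hP.compl hℓ
  have hi1 : IntegrableOn (fun z : E × (E →L[ℝ] E) => ‖ξ - z.2 ξ‖) (ov S) V :=
    h.integrableOn_bdd hfin ((continuous_const.sub
      (continuous_snd.clm_apply continuous_const)).norm) (C := 2 * ‖ξ‖) fun x P hP => by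
        rw [abs_of_nonneg (norm_nonneg _)]
        exact (norm_sub_le _ _).trans (by have := hP.norm_le ξ; show ‖ξ‖ + ‖P ξ‖ ≤ 2 * ‖ξ‖; linarith)
  have h1 : ∫ z in ov S, ‖ξ - z.2 ξ‖ ∂V ≤ ∫ z in ov S, √(tr (ℓ ∘L (1 - z.2))) * ‖ξ‖ ∂V := by
    refine integral_mono_ae hi1 (hiS.mul_const _) ?_
    filter_upwards [ae_restrict_of_ae h.pr] with z hz
    exact inner_P_le hz.compl hℓ hξ
  refine h1.trans ?_
  rw [integral_mul_const, mul_comm]
  gcongr
  exact integral_sqrt_le hfin (ae_restrict_of_ae (h.pr.mono fun z hz =>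
    hz.compl.tr_nonneg_conj hℓ)) (h.el_int hℓ hfin) hiS

end Crest.Agent.R234.Cacc_113
end

-- ▼ part R234/Log7_113
section

/-!
Row 234, VF-LOG, part 7: mass of the slabs at all translates in the directions of the spine, from the mass
bound at the centre only (translation lemma + averaging over a lattice).
-/

set_option autoImplicit false

open MeasureTheory Set Filter Topology Metric Function Crest.GeometryTopology.Submanifold
open scoped ENNReal InnerProductSpace NNReal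

noncomputable section

namespace Crest.Agent.R234.Log_113

open Vf_884 Strat3_842 Pers_540
open Crest.Agent.R234.Cacc_113 (St en el slab ann bx D1 pt ix bt)

variable {m k : ℕ} {π : Euc k →L[ℝ] Euc m}

theorem norm_pi_le (h : Ar_870.IsCo π) (S : Submodule ℝ (Euc m)) (x : Euc k) :
    ‖π x‖ ≤ ‖lp π S x‖ + ‖lp π Sᗮ x‖ := by
  rw [norm_lp h, norm_lp h]
  have h1 : S.starProjection (π x) + Sᗮ.starProjection (π x) = π x :=
    Submodule.starProjection_add_starProjection_orthogonal (K := S) (π x)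
  calc ‖π x‖ = ‖S.starProjection (π x) + Sᗮ.starProjection (π x)‖ := by rw [h1]
    _ ≤ _ := norm_add_le _ _

theorem norm_lp_le (h : Ar_870.IsCo π) (S : Submodule ℝ (Euc m)) (x : Euc k) :
    ‖lp π S x‖ ≤ ‖π x‖ := by
  rw [norm_lp h]; exact norm_starProjection_le S _

theorem lp_adj (h : Ar_870.IsCo π) {S : Submodule ℝ (Euc m)} {v : Euc m} (hv : v ∈ S) :
    lp π S (ContinuousLinearMap.adjoint π v) = ContinuousLinearMap.adjoint π v := by
  rw [lp_apply, co_apply h, Submodule.starProjection_eq_self_iff.2 hv]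

/-- cut-off function of the slab -/
def cf (π : Euc k →L[ℝ] Euc m) (S : Submodule ℝ (Euc m)) (x₀ : Euc k) (ρ : ℝ) (x : Euc k) : ℝ :=
  bt (lp π S) x₀ 2 x * bt (lp π Sᗮ) x₀ (2 * ρ) x

theorem cf_translate (S : Submodule ℝ (Euc m)) (x₀ ξ : Euc k) (ρ : ℝ) (x : Euc k) :
    cf π S x₀ ρ (x - ξ) = cf π S (x₀ + ξ) ρ x := by
  have e : x - ξ - x₀ = x - (x₀ + ξ) := by abel
  simp only [cf, bt, e]

theorem contDiff_cf (S : Submodule ℝ (Euc m)) (x₀ : Euc k) (ρ : ℝ) :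
    ContDiff ℝ 1 (cf π S x₀ ρ) :=
  (Cacc_113.contDiff_bt _ _ _).mul (Cacc_113.contDiff_bt _ _ _)

theorem cf_nonneg (S : Submodule ℝ (Euc m)) (x₀ : Euc k) (ρ : ℝ) (x : Euc k) :
    0 ≤ cf π S x₀ ρ x := mul_nonneg (Cacc_113.bt_nonneg _ _ _ _) (Cacc_113.bt_nonneg _ _ _ _)

theorem cf_le_one (S : Submodule ℝ (Euc m)) (x₀ : Euc k) (ρ : ℝ) (x : Euc k) :
    cf π S x₀ ρ x ≤ 1 :=
  mul_le_one₀ (Cacc_113.bt_le_one _ _ _ _) (Cacc_113.bt_nonneg _ _ _ _)
    (Cacc_113.bt_le_one _ _ _ _)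

theorem cf_eq_one (S : Submodule ℝ (Euc m)) (x₀ : Euc k) {ρ : ℝ} (hρ : 0 < ρ) {x : Euc k}
    (hx : x ∈ slab (lp π S) (lp π Sᗮ) x₀ (2 * ρ)) : cf π S x₀ ρ x = 1 := by
  unfold cf
  rw [Cacc_113.bt_eq_one _ _ two_pos hx.1, Cacc_113.bt_eq_one _ _ (by positivity) hx.2, one_mul]

/-- the open region carrying the cut-off function -/
def ob (π : Euc k →L[ℝ] Euc m) (S : Submodule ℝ (Euc m)) (x₀ : Euc k) (ρ : ℝ) : Set (Euc k) :=
  {x | ‖lp π S (x - x₀)‖ < 4 ∧ ‖lp π Sᗮ (x - x₀)‖ < 4 * ρ}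

theorem isOpen_ob (S : Submodule ℝ (Euc m)) (x₀ : Euc k) (ρ : ℝ) : IsOpen (ob π S x₀ ρ) := by
  have h1 : Continuous fun x => ‖lp π S (x - x₀)‖ :=
    ((lp π S).continuous.comp (continuous_id.sub continuous_const)).norm
  have h2 : Continuous fun x => ‖lp π Sᗮ (x - x₀)‖ :=
    ((lp π Sᗮ).continuous.comp (continuous_id.sub continuous_const)).norm
  exact (isOpen_lt h1 continuous_const).inter (isOpen_lt h2 continuous_const)

theorem cf_eq_zero (S : Submodule ℝ (Euc m)) (x₀ : Euc k) {ρ : ℝ} (hρ : 0 < ρ) {x : Euc k}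
    (hx : x ∉ ob π S x₀ ρ) : cf π S x₀ ρ x = 0 := by
  unfold cf
  by_cases h1 : ‖lp π S (x - x₀)‖ < 4
  · have h2 : 4 * ρ ≤ ‖lp π Sᗮ (x - x₀)‖ := by
      by_contra hcon
      push Not at hcon
      exact hx ⟨h1, hcon⟩
    rw [Cacc_113.bt_eq_zero (lp π Sᗮ) x₀ (by positivity : 0 < 2 * ρ) (by linarith), mul_zero]
  · push Not at h1
    rw [Cacc_113.bt_eq_zero (lp π S) x₀ two_pos (by linarith), zero_mul]

theorem norm_fderiv_bt_le {A : L k} (hA : Cacc_113.IsPr A) (x₀ : Euc k) {r : ℝ} (hr : 0 < r)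
    (x : Euc k) : ‖fderiv ℝ (bt A x₀ r) x‖ ≤ 4 * D1 / r := by
  rw [(Cacc_113.hasFDerivAt_bt hA x₀ r x).fderiv, norm_smul, innerSL_apply_norm, Real.norm_eq_abs]
  exact Cacc_113.abs_deriv_bt_mul_le A x₀ hr x

theorem norm_fderiv_cf_le (h : Ar_870.IsCo π) (S : Submodule ℝ (Euc m)) (x₀ : Euc k) {ρ : ℝ}
    (hρ : 1 ≤ ρ) (x : Euc k) : ‖fderiv ℝ (cf π S x₀ ρ) x‖ ≤ 4 * D1 := by
  have hD := Cacc_113.one_le_D1
  have d1 := (Cacc_113.contDiff_bt (lp π S) x₀ 2).differentiable one_ne_zero x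
  have d2 := (Cacc_113.contDiff_bt (lp π Sᗮ) x₀ (2 * ρ)).differentiable one_ne_zero x
  have e : fderiv ℝ (cf π S x₀ ρ) x = bt (lp π S) x₀ 2 x • fderiv ℝ (bt (lp π Sᗮ) x₀ (2 * ρ)) x +
      bt (lp π Sᗮ) x₀ (2 * ρ) x • fderiv ℝ (bt (lp π S) x₀ 2) x :=
    (d1.hasFDerivAt.mul d2.hasFDerivAt).fderiv
  rw [e]
  have a1 : |bt (lp π S) x₀ 2 x| ≤ 1 := by
    rw [abs_of_nonneg (Cacc_113.bt_nonneg _ _ _ _)]; exact Cacc_113.bt_le_one _ _ _ _
  have a2 : |bt (lp π Sᗮ) x₀ (2 * ρ) x| ≤ 1 := by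
    rw [abs_of_nonneg (Cacc_113.bt_nonneg _ _ _ _)]; exact Cacc_113.bt_le_one _ _ _ _
  have b1 := norm_fderiv_bt_le (isPr_lp h Sᗮ) x₀ (r := 2 * ρ) (by positivity) x
  have b2 := norm_fderiv_bt_le (isPr_lp h S) x₀ (r := 2) two_pos x
  have b3 : 4 * D1 / (2 * ρ) ≤ 4 * D1 / 2 := by
    apply div_le_div_of_nonneg_left (by linarith) (by norm_num) (by linarith)
  refine (norm_add_le _ _).trans ?_
  rw [norm_smul, norm_smul, Real.norm_eq_abs, Real.norm_eq_abs]
  calc _ ≤ 1 * (4 * D1 / (2 * ρ)) + 1 * (4 * D1 / 2) := by gcongr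
    _ ≤ 4 * D1 := by linarith

variable {C₀ c₀ M : ℝ} {V : Measure (Euc k × L k)}

/-- the defect of the closed cylinder of radius `3M/2` -/
def Zc (π : Euc k →L[ℝ] Euc m) (M : ℝ) : Set (Euc k) := cy π (closedBall 0 (3 / 2 * M))

theorem isClosed_Zc (M : ℝ) : IsClosed (Zc π M) := isClosed_closedBall.preimage π.continuous

theorem Zc_subset (hM : 0 < M) : Zc π M ⊆ cy π (ball 0 (2 * M)) :=
  preimage_mono (closedBall_subset_ball (by linarith))

theorem mem_Zc {x : Euc k} (hx : ‖π x‖ ≤ 3 / 2 * M) : x ∈ Zc π M := by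
  change π x ∈ closedBall 0 _
  rwa [mem_closedBall_zero_iff]

/-- comparison of the masses of two translates of the cut-off function -/
theorem Un.translate (h : Un π C₀ c₀ (2 * M) V) (hM : 20 ≤ M) (S : Submodule ℝ (Euc m))
    {x₀ η ζ : Euc k} (hx₀ : ‖π x₀‖ ≤ 3) (hη : ‖η‖ ≤ M / 4) (hζ : ‖ζ‖ ≤ 3 / 8 * M)
    (hζS : lp π S ζ = ζ) {ρ : ℝ} (hρ : 1 ≤ ρ) (hρM : 8 * ρ ≤ M) :
    |∫ z, cf π S (x₀ + η + ζ) ρ z.1 ∂V - ∫ z, cf π S (x₀ + η) ρ z.1 ∂V| ≤
      4 * D1 * (M * √(V.real (Cacc_113.ov (Zc π M)) * el V (lp π S) (Zc π M))) := by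
  have hD := Cacc_113.one_le_D1
  have hM0 : 0 < M := by linarith
  have hfin := h.fin (Zc_subset (π := π) hM0)
  have hst := st_of_stat h.st
  have h1 := hst.trans (contDiff_cf (π := π) S (x₀ + η) ρ) (C := 4 * D1)
    (fun x => by
      rw [abs_of_nonneg (cf_nonneg _ _ _ _)]
      exact (cf_le_one _ _ _ _).trans (by linarith))
    (fun x => norm_fderiv_cf_le h.co S _ hρ x) ζ (isClosed_Zc M) (Zc_subset hM0) hfin ?_
  · have e1 : ∀ z : Euc k × L k, cf π S (x₀ + η) ρ (z.1 - ζ) = cf π S (x₀ + η + ζ) ρ z.1 :=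
      fun z => cf_translate S (x₀ + η) ζ ρ z.1
    simp_rw [e1] at h1
    refine h1.trans ?_
    gcongr
    refine (hst.defect_le (isPr_lp h.co S) hζS hfin).trans ?_
    gcongr
    linarith
  · intro t ht x hx
    refine cf_eq_zero S _ (by linarith) fun hob => hx (mem_Zc ?_)
    have h2 := norm_pi_le h.co S (x - t • ζ - (x₀ + η))
    have h3 := hob.1
    have h4 := hob.2
    have h5 : ‖π x‖ ≤ ‖π (x - t • ζ - (x₀ + η))‖ + ‖π (t • ζ)‖ + ‖π x₀‖ + ‖π η‖ := by
      calc ‖π x‖ = ‖π (x - t • ζ - (x₀ + η)) + π (t • ζ) + π x₀ + π η‖ := by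
            rw [← map_add, ← map_add, ← map_add]; congr 2; abel
        _ ≤ _ := by
            refine (norm_add_le _ _).trans ?_
            gcongr
            refine (norm_add_le _ _).trans ?_
            gcongr
            exact norm_add_le _ _
    have h6 : ‖π (t • ζ)‖ ≤ 3 / 8 * M := by
      refine (norm_co_le h.co _).trans ?_
      rw [norm_smul, Real.norm_of_nonneg ht.1]
      calc t * ‖ζ‖ ≤ 1 * (3 / 8 * M) := by gcongr; exact ht.2
        _ = _ := one_mul _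
    have h7 : ‖π η‖ ≤ M / 4 := (norm_co_le h.co _).trans hη
    linarith

/-- lattice in the directions of `S` -/
def xi (π : Euc k →L[ℝ] Euc m) {d : ℕ} (v : Fin d → Euc m) (n : Fin d → ℤ) : Euc k :=
  ContinuousLinearMap.adjoint π ((9 : ℝ) • pt v n)

theorem norm_xi_le (h : Ar_870.IsCo π) {d : ℕ} {v : Fin d → Euc m} (hv : Orthonormal ℝ v) {N : ℕ}
    {n : Fin d → ℤ} (hn : n ∈ ix d N) : ‖xi π v n‖ ≤ 9 * (d * N) := by
  unfold xi
  rw [Ar_870.norm_adjoint_co h, norm_smul]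
  have := Cacc_113.norm_pt_le hv (Cacc_113.abs_le_of_mem_ix hn)
  rw [show ‖(9 : ℝ)‖ = 9 by norm_num]
  gcongr

theorem lp_xi (h : Ar_870.IsCo π) {S : Submodule ℝ (Euc m)} {d : ℕ} {v : Fin d → Euc m}
    (hvS : ∀ i, v i ∈ S) (n : Fin d → ℤ) : lp π S (xi π v n) = xi π v n := by
  refine lp_adj h (S.smul_mem _ ?_)
  unfold Cacc_113.pt
  exact Submodule.sum_mem _ fun i _ => S.smul_mem _ (hvS i)

theorem nine_le_norm_xi_sub (h : Ar_870.IsCo π) {d : ℕ} {v : Fin d → Euc m}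
    (hv : Orthonormal ℝ v) {n n' : Fin d → ℤ} (hn : n ≠ n') : 9 ≤ ‖xi π v n - xi π v n'‖ := by
  unfold xi
  rw [← map_sub, Ar_870.norm_adjoint_co h, ← smul_sub, norm_smul]
  have := Cacc_113.one_le_norm_pt_sub hv hn
  rw [show ‖(9 : ℝ)‖ = 9 by norm_num]
  linarith

/-- number of lattice points -/
theorem card_ix_ge (d : ℕ) {t : ℝ} (ht : 0 ≤ t) :
    (t / (9 * (d + 1))) ^ d ≤ ((ix d ⌊t / (9 * (d + 1))⌋₊).card : ℝ) := by
  rw [Cacc_113.card_ix]
  push_cast
  have h1 : t / (9 * (d + 1)) < ⌊t / (9 * (d + 1))⌋₊ + 1 := Nat.lt_floor_add_one _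
  have h2 : (0 : ℝ) ≤ ⌊t / (9 * (d + 1))⌋₊ := by positivity
  gcongr
  linarith

theorem floor_mul_le (d : ℕ) {t : ℝ} (ht : 0 ≤ t) : 9 * (d * (⌊t / (9 * (d + 1))⌋₊ : ℝ)) ≤ t := by
  have h1 : (⌊t / (9 * (d + 1))⌋₊ : ℝ) ≤ t / (9 * (d + 1)) := Nat.floor_le (by positivity)
  calc 9 * (d * (⌊t / (9 * (d + 1))⌋₊ : ℝ)) ≤ 9 * ((d + 1) * (t / (9 * (d + 1)))) := by
        gcongr
        linarith
    _ = t := by field_simp

set_option maxHeartbeats 1000000 in
/-- **mass of the slabs at all translates**. -/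
theorem Un.slab_mass (h : Un π C₀ c₀ (2 * M) V) (hM : 20 ≤ M) (S : Submodule ℝ (Euc m)) {d : ℕ}
    {v : Fin d → Euc m} (hv : Orthonormal ℝ v) (hvS : ∀ i, v i ∈ S) (hd : d + 2 = m)
    {x₀ η : Euc k} (hx₀ : ‖π x₀‖ ≤ 3) (hη : ‖η‖ ≤ M / 4) (hηS : lp π S η = η)
    {ρ : ℝ} (hρ : 1 ≤ ρ) (hρM : 8 * ρ ≤ M)
    (hel : 4 * D1 * (M * √(V.real (Cacc_113.ov (Zc π M)) * el V (lp π S) (Zc π M))) ≤ 1) :
    V.real (Cacc_113.ov (slab (lp π S) (lp π Sᗮ) (x₀ + η) (2 * ρ))) ≤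
      (C₀ * 12 ^ m * (9 * (d + 1)) ^ d + 1) * ρ ^ 2 := by
  have hρ0 : 0 < ρ := by linarith
  have hM0 : 0 < M := by linarith
  have hst := st_of_stat h.st
  set N := ⌊ρ / (9 * (d + 1))⌋₊ with hN
  -- regions
  have hreg : ∀ n ∈ ix d N, ob π S (x₀ + xi π v n) ρ ⊆ cy π (ball 0 (12 * ρ)) := by
    intro n hn x hx
    have h1 := norm_pi_le h.co S (x - (x₀ + xi π v n))
    have h2 : ‖π (xi π v n)‖ ≤ ρ := (norm_co_le h.co _).trans
      ((norm_xi_le h.co hv hn).trans (floor_mul_le d hρ0.le))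
    have h3 : ‖π x‖ ≤ ‖π (x - (x₀ + xi π v n))‖ + ‖π x₀‖ + ‖π (xi π v n)‖ := by
      calc ‖π x‖ = ‖π (x - (x₀ + xi π v n)) + π x₀ + π (xi π v n)‖ := by
            rw [← map_add, ← map_add]; congr 2; abel
        _ ≤ _ := by
            refine (norm_add_le _ _).trans ?_
            gcongr
            exact norm_add_le _ _
    change π x ∈ ball 0 _
    rw [mem_ball_zero_iff]
    have h4 := hx.1
    have h5 := hx.2
    linarith
  have hsub12 : cy π (ball 0 (12 * ρ)) ⊆ cy π (ball 0 (2 * M)) :=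
    preimage_mono (ball_subset_ball (by linarith))
  have hfin12 := h.fin hsub12
  have hob_fin : ∀ n ∈ ix d N, V (Cacc_113.ov (ob π S (x₀ + xi π v n) ρ)) < ⊤ := fun n hn =>
    h.fin ((hreg n hn).trans hsub12)
  -- integrals of the cut-off functions
  have hcf_le : ∀ n ∈ ix d N, ∫ z, cf π S (x₀ + xi π v n) ρ z.1 ∂V ≤
      V.real (Cacc_113.ov (ob π S (x₀ + xi π v n) ρ)) := by
    intro n hn
    have hm := Cacc_113.measurableSet_ov (E := Euc k) (isOpen_ob (π := π) S (x₀ + xi π v n) ρ).measurableSet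
    have hi : Integrable ((Cacc_113.ov (ob π S (x₀ + xi π v n) ρ)).indicator fun _ => (1 : ℝ)) V := by
      rw [integrable_indicator_iff hm]
      exact integrableOn_const (hob_fin n hn).ne
    have h1 : ∫ z, cf π S (x₀ + xi π v n) ρ z.1 ∂V ≤
        ∫ z, (Cacc_113.ov (ob π S (x₀ + xi π v n) ρ)).indicator (fun _ => (1 : ℝ)) z ∂V := by
      refine integral_mono_of_nonneg (Eventually.of_forall fun z => cf_nonneg _ _ _ _) hi
        (Eventually.of_forall fun z => ?_)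
      by_cases hz : z.1 ∈ ob π S (x₀ + xi π v n) ρ
      · rw [indicator_of_mem (show z ∈ Cacc_113.ov (ob π S (x₀ + xi π v n) ρ) from hz)]
        exact cf_le_one _ _ _ _
      · rw [indicator_of_notMem (show z ∉ Cacc_113.ov (ob π S (x₀ + xi π v n) ρ) from hz)]
        exact (cf_eq_zero S _ hρ0 hz).le
    refine h1.trans (le_of_eq ?_)
    rw [integral_indicator hm, setIntegral_const, smul_eq_mul, mul_one]
  -- the slab
  set I₀ := ∫ z, cf π S (x₀ + η) ρ z.1 ∂V with hI₀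
  have hslab_sub : ob π S (x₀ + η) ρ ⊆ Zc π M := by
    intro x hx
    refine mem_Zc ?_
    have h1 := norm_pi_le h.co S (x - (x₀ + η))
    have h2 : ‖π η‖ ≤ M / 4 := (norm_co_le h.co _).trans hη
    have h3 : ‖π x‖ ≤ ‖π (x - (x₀ + η))‖ + ‖π x₀‖ + ‖π η‖ := by
      calc ‖π x‖ = ‖π (x - (x₀ + η)) + π x₀ + π η‖ := by
            rw [← map_add, ← map_add]; congr 2; abel
        _ ≤ _ := by
            refine (norm_add_le _ _).trans ?_
            gcongr
            exact norm_add_le _ _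
    have h4 := hx.1
    have h5 := hx.2
    linarith
  have hfinZ := h.fin (Zc_subset (π := π) hM0)
  have hcf_int : Integrable (fun z : Euc k × L k => cf π S (x₀ + η) ρ z.1) V :=
    hst.integrable_supp (isClosed_Zc M) hfinZ ((contDiff_cf S _ ρ).continuous.comp continuous_fst)
      (C := 1) (fun x P _ => by
        rw [abs_of_nonneg (cf_nonneg _ _ _ _)]; exact cf_le_one _ _ _ _)
      fun z hz => cf_eq_zero S _ hρ0 fun hob => hz (hslab_sub hob)
  have hI₀_ge : V.real (Cacc_113.ov (slab (lp π S) (lp π Sᗮ) (x₀ + η) (2 * ρ))) ≤ I₀ := by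
    have hm := Cacc_113.measurableSet_ov (E := Euc k)
      (Cacc_113.isClosed_slab (lp π S) (lp π Sᗮ) (x₀ + η) (2 * ρ)).measurableSet
    have h1 : ∫ z, (Cacc_113.ov (slab (lp π S) (lp π Sᗮ) (x₀ + η) (2 * ρ))).indicator
        (fun _ => (1 : ℝ)) z ∂V ≤ I₀ := by
      refine integral_mono_of_nonneg (Eventually.of_forall fun z =>
        indicator_nonneg (fun _ _ => zero_le_one) _) hcf_int (Eventually.of_forall fun z => ?_)
      by_cases hz : z.1 ∈ slab (lp π S) (lp π Sᗮ) (x₀ + η) (2 * ρ)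
      · rw [indicator_of_mem (show z ∈ Cacc_113.ov
          (slab (lp π S) (lp π Sᗮ) (x₀ + η) (2 * ρ)) from hz)]
        exact (cf_eq_one S _ hρ0 hz).ge
      · rw [indicator_of_notMem (show z ∉ Cacc_113.ov
          (slab (lp π S) (lp π Sᗮ) (x₀ + η) (2 * ρ)) from hz)]
        exact cf_nonneg _ _ _ _
    rwa [integral_indicator hm, setIntegral_const, smul_eq_mul, mul_one] at h1
  -- comparison
  have hcomp : ∀ n ∈ ix d N, I₀ ≤ V.real (Cacc_113.ov (ob π S (x₀ + xi π v n) ρ)) + 1 := by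
    intro n hn
    have hxi : ‖xi π v n‖ ≤ ρ := (norm_xi_le h.co hv hn).trans (floor_mul_le d hρ0.le)
    have h1 := h.translate hM S (x₀ := x₀) (η := η) (ζ := xi π v n - η) hx₀ hη
      ((norm_sub_le _ _).trans (by linarith)) (by rw [map_sub, lp_xi h.co hvS, hηS]) hρ hρM
    have h2 := (abs_le.mp h1).1
    have e : x₀ + η + (xi π v n - η) = x₀ + xi π v n := by abel
    rw [e] at h2
    have h3 := hcf_le n hn
    linarith
  have hdisj : Set.PairwiseDisjoint (ix d N : Set (Fin d → ℤ))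
      fun n => Cacc_113.ov (ob π S (x₀ + xi π v n) ρ) := by
    intro n _ n' _ hne
    refine Disjoint.preimage _ ?_
    rw [Set.disjoint_left]
    intro x hx hx'
    have h1 := nine_le_norm_xi_sub h.co hv hne
    have h2 : xi π v n - xi π v n' = lp π S (x - (x₀ + xi π v n')) - lp π S (x - (x₀ + xi π v n)) := by
      rw [← map_sub, show x - (x₀ + xi π v n') - (x - (x₀ + xi π v n)) = xi π v n - xi π v n' by abel,
        map_sub, lp_xi h.co hvS, lp_xi h.co hvS]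
    rw [h2] at h1
    have h3 := norm_sub_le (lp π S (x - (x₀ + xi π v n'))) (lp π S (x - (x₀ + xi π v n)))
    have h4 := hx.1
    have h5 := hx'.1
    linarith
  have hsum : ∑ n ∈ ix d N, V.real (Cacc_113.ov (ob π S (x₀ + xi π v n) ρ)) ≤
      C₀ * (12 * ρ) ^ m := by
    rw [← measureReal_biUnion_finset hdisj (fun n _ => Cacc_113.measurableSet_ov
      (isOpen_ob S _ ρ).measurableSet) fun n hn => (hob_fin n hn).ne]
    have h1 : V.real (⋃ n ∈ ix d N, Cacc_113.ov (ob π S (x₀ + xi π v n) ρ)) ≤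
        V.real (Cacc_113.ov (cy π (ball 0 (12 * ρ)))) :=
      measureReal_mono (iUnion₂_subset fun n hn => preimage_mono (hreg n hn)) hfin12.ne
    refine h1.trans ?_
    have h2 := h.mass (12 * ρ) (by linarith) (by linarith)
    rw [← ov_eq] at h2
    rw [measureReal_def]
    exact ENNReal.toReal_le_of_le_ofReal (mul_nonneg h.C₀_nonneg (by positivity)) h2
  have hcard : (ρ / (9 * (d + 1))) ^ d ≤ ((ix d N).card : ℝ) := card_ix_ge d hρ0.le
  have hcpos : (0 : ℝ) < (ix d N).card := lt_of_lt_of_le (by positivity) hcard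
  have h1 : ((ix d N).card : ℝ) * I₀ ≤ C₀ * (12 * ρ) ^ m + (ix d N).card := by
    calc ((ix d N).card : ℝ) * I₀ = ∑ _n ∈ ix d N, I₀ := by simp
      _ ≤ ∑ n ∈ ix d N, (V.real (Cacc_113.ov (ob π S (x₀ + xi π v n) ρ)) + 1) :=
          Finset.sum_le_sum hcomp
      _ = ∑ n ∈ ix d N, V.real (Cacc_113.ov (ob π S (x₀ + xi π v n) ρ)) + (ix d N).card := by
          rw [Finset.sum_add_distrib]; simp
      _ ≤ _ := by linarith
  have h2 : I₀ ≤ C₀ * (12 * ρ) ^ m / (ix d N).card + 1 := by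
    rw [← sub_le_iff_le_add, le_div_iff₀ hcpos]
    nlinarith
  have h3 : C₀ * (12 * ρ) ^ m / (ix d N).card ≤ C₀ * 12 ^ m * (9 * (d + 1)) ^ d * ρ ^ 2 := by
    rw [div_le_iff₀ hcpos]
    calc C₀ * (12 * ρ) ^ m = C₀ * 12 ^ m * (9 * (d + 1)) ^ d * ρ ^ 2 * (ρ / (9 * (d + 1))) ^ d := by
          rw [← hd, div_pow]
          field_simp
          ring
      _ ≤ _ := by
          have := h.C₀_nonneg
          gcongr
  have h4 : (1 : ℝ) ≤ ρ ^ 2 := by nlinarith
  calc _ ≤ I₀ := hI₀_ge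
    _ ≤ _ := h2
    _ ≤ C₀ * 12 ^ m * (9 * (d + 1)) ^ d * ρ ^ 2 + ρ ^ 2 := by linarith
    _ = _ := by ring

end Crest.Agent.R234.Log_113
end
end

-- ▼ part R234/Log8_113
section

/-!
Row 234, VF-LOG, part 8: persistence of the tip (Pers4_540) at all translates in the directions of the spine.
-/

set_option autoImplicit false

open MeasureTheory Set Filter Topology Metric Function Crest.GeometryTopology.Submanifold
open scoped ENNReal InnerProductSpace NNReal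

noncomputable section

namespace Crest.Agent.R234.Log_113

open Vf_884 Strat3_842 Pers_540 Vc_164
open Crest.Agent.R234.Cacc_113 (St en el slab ann bx D1 pt ix bt)

variable {m k : ℕ} {π : Euc k →L[ℝ] Euc m}

/-! ### translates of varifolds -/

/-- translate of a varifold: the point `a` is moved to the origin -/
def tv (a : Euc k) (V : Measure (Euc k × L k)) : Measure (Euc k × L k) :=
  V.map fun p => (p.1 - a, p.2)

theorem measurable_tv (a : Euc k) : Measurable fun p : Euc k × L k => (p.1 - a, p.2) :=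
  ((continuous_fst.sub continuous_const).prodMk continuous_snd).measurable

theorem tv_prod (a : Euc k) (V : Measure (Euc k × L k)) {A : Set (Euc k)} (hA : MeasurableSet A) :
    tv a V (A ×ˢ univ) = V ({x | x - a ∈ A} ×ˢ univ) := by
  unfold tv
  rw [Measure.map_apply (measurable_tv a) (hA.prod MeasurableSet.univ)]
  rfl

theorem tv_ball (a : Euc k) (V : Measure (Euc k × L k)) (x : Euc k) (r : ℝ) :
    tv a V (ball x r ×ˢ univ) = V (ball (x + a) r ×ˢ univ) := by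
  rw [tv_prod a V measurableSet_ball]
  congr 2
  ext y
  simp only [mem_ofPred_eq, mem_ball, dist_eq_norm]
  rw [show y - a - x = y - (x + a) by abel]

theorem tv_stat {U W : Set (Euc k)} {V : Measure (Euc k × L k)} (hV : Stat m k U V) (a : Euc k)
    (hW : ∀ x ∈ W, x + a ∈ U) : Stat m k W (tv a V) where
  conc := by
    unfold tv
    rw [ae_map_iff (measurable_tv a).aemeasurable ((measurableSet_G m k).preimage measurable_snd)]
    exact hV.conc
  fin K hK hKW := by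
    rw [tv_prod a V hK.measurableSet]
    have e : {x | x - a ∈ K} = (fun x => x + a) '' K := by
      ext x
      simp only [mem_ofPred_eq, mem_image]
      exact ⟨fun h => ⟨x - a, h, by abel⟩, by rintro ⟨y, hy, rfl⟩; simpa using hy⟩
    rw [e]
    refine hV.fin _ (hK.image (continuous_id.add continuous_const)) ?_
    rintro _ ⟨x, hx, rfl⟩
    exact hW x (hKW hx)
  stat X hX hXc hXW := by
    have hY : ContDiff ℝ 1 fun x => X (x - a) := hX.comp (contDiff_id.sub contDiff_const)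
    have hts : tsupport (fun x => X (x - a)) = {x | x - a ∈ tsupport X} := by
      have := tsupport_comp_eq_preimage X (Homeomorph.subRight a)
      exact this
    have hYc : HasCompactSupport fun x => X (x - a) := hXc.comp_homeomorph (Homeomorph.subRight a)
    have h1 := hV.stat _ hY hYc (by
      rw [hts]
      intro x hx
      have := hW _ (hXW hx)
      simpa using this)
    have h2 : ∀ p : Euc k × L k, fderiv ℝ (fun x => X (x - a)) p.1 = fderiv ℝ X (p.1 - a) :=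
      fun p => fderiv_comp_sub _
    simp_rw [h2] at h1
    unfold tv
    rw [integral_map (measurable_tv a).aemeasurable]
    · exact h1
    · exact (continuous_tr_fderiv hX).aestronglyMeasurable

theorem tv_integral (a : Euc k) (V : Measure (Euc k × L k)) {f : Euc k → ℝ} (hf : Continuous f) :
    ∫ p, f p.1 ∂(tv a V) = ∫ p, f (p.1 - a) ∂V := by
  unfold tv
  rw [integral_map (measurable_tv a).aemeasurable]
  exact (hf.comp continuous_fst).aestronglyMeasurable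

theorem tv_tilt (P : L k) (a : Euc k) (V : Measure (Euc k × L k)) {A : Set (Euc k)}
    (hA : MeasurableSet A) : ∫ p in A ×ˢ univ, tilt P p ∂(tv a V) =
      ∫ p in {x | x - a ∈ A} ×ˢ univ, tilt P p ∂V := by
  unfold tv
  rw [setIntegral_map (hA.prod MeasurableSet.univ) (continuous_tilt P).aestronglyMeasurable
    (measurable_tv a).aemeasurable]
  have e : (fun p : Euc k × L k => (p.1 - a, p.2)) ⁻¹' A ×ˢ univ = {x | x - a ∈ A} ×ˢ univ := by
    ext p; simp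
  rw [e]
  rfl

variable {C₀ c₀ M : ℝ} {V : Measure (Euc k × L k)}

/-- constant bounding the masses of the boxes -/
def Cm (m d : ℕ) (C₀ : ℝ) : ℝ := C₀ * 12 ^ m * (9 * (d + 1)) ^ d + 1

theorem Cm_pos (m d : ℕ) {C₀ : ℝ} (h : 0 ≤ C₀) : 0 < Cm m d C₀ := by
  unfold Cm; positivity

theorem en_eq (V : Measure (Euc k × L k)) (A : Set (Euc k)) :
    en V (vp π) A = ∫ p in A ×ˢ univ, tilt (hp π) p ∂V := by
  unfold Cacc_113.en
  rw [ov_eq]
  rfl

/-- defect at the scale `M` -/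
def df (π : Euc k →L[ℝ] Euc m) (M : ℝ) (S : Submodule ℝ (Euc m)) (V : Measure (Euc k × L k)) : ℝ :=
  M * √(V.real (Cacc_113.ov (Zc π M)) * el V (lp π S) (Zc π M))

theorem box_subset_Zc (h : Ar_870.IsCo π) (hM : 20 ≤ M) {a ξ : Euc k} (ha : ‖π a‖ ≤ 1)
    (hξ : ‖ξ‖ ≤ M / 4) {x : Euc k} (hx : x - (a + ξ) ∈ Bx (hp π) 2) : x ∈ Zc π M := by
  refine mem_Zc ?_
  have h1 : ‖π (x - (a + ξ))‖ < 2 := by rw [← norm_hp h]; exact hx.1
  have h2 : ‖π ξ‖ ≤ M / 4 := (norm_co_le h _).trans hξ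
  have h3 : ‖π x‖ ≤ ‖π (x - (a + ξ))‖ + ‖π a‖ + ‖π ξ‖ := by
    calc ‖π x‖ = ‖π (x - (a + ξ)) + π a + π ξ‖ := by
          rw [← map_add, ← map_add]; congr 2; abel
      _ ≤ _ := by
          refine (norm_add_le _ _).trans ?_
          gcongr
          exact norm_add_le _ _
  linarith

/-- **persistence at the translates**. -/
theorem exists_pers (hπ : Ar_870.IsCo π) {d : ℕ} (hd : d + 2 = m) (C₀ : ℝ) (hC₀ : 0 ≤ C₀) {c₀ τ : ℝ}
    (hc₀ : 0 < c₀) (hτ : 0 < τ) : ∃ ε > 0, ∀ (M : ℝ) (V : Measure (Euc k × L k))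
      (S : Submodule ℝ (Euc m)) (v : Fin d → Euc m), Orthonormal ℝ v → (∀ i, v i ∈ S) →
      Un π C₀ c₀ (2 * M) V → 20 ≤ M → 4 * D1 * df π M S V ≤ 1 → df π M S V ≤ ε →
      ∀ a : Euc k, ‖π a‖ ≤ 1 → τ ≤ en V (vp π) {x | x - a ∈ Bc (hp π) 1} →
      ∀ ξ : Euc k, lp π S ξ = ξ → ‖ξ‖ ≤ M / 4 → ε ≤ en V (vp π) {x | x - (a + ξ) ∈ Bx (hp π) 2} := by
  have hP := hp_mem_G hπ
  obtain ⟨ε, hε, hpers⟩ := pers hP (Cm m d C₀).toNNReal hc₀ hτ
  refine ⟨ε, hε, fun M V S v hv hvS h hM hel1 hel2 a ha hen ξ hξS hξ => ?_⟩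
  have hM0 : 0 < M := by linarith
  have hst := st_of_stat h.st
  have hboxm : MeasurableSet (Bx (hp π) 2) := (isOpen_Bx (hp π) 2).measurableSet
  -- the boxes
  have hbox : ∀ ξ : Euc k, ‖ξ‖ ≤ M / 4 → ∀ x ∈ Bx (hp π) 2, x + (a + ξ) ∈ cy π (ball 0 (2 * M)) := by
    intro ξ hξ x hx
    exact Zc_subset hM0 (box_subset_Zc hπ hM ha hξ (x := x + (a + ξ)) (by simpa using hx))
  have hmass : ∀ ξ : Euc k, lp π S ξ = ξ → ‖ξ‖ ≤ M / 4 →
      tv (a + ξ) V (Bx (hp π) 2 ×ˢ univ) ≤ ENNReal.ofReal (Cm m d C₀) := by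
    intro ξ hξS hξ
    rw [tv_prod _ V hboxm]
    have h1 := h.slab_mass hM S hv hvS hd (x₀ := a) (η := ξ) (by linarith) hξ hξS (ρ := 1) le_rfl
      (by linarith) hel1
    have hsub : {x | x - (a + ξ) ∈ Bx (hp π) 2} ⊆ slab (lp π S) (lp π Sᗮ) (a + ξ) (2 * 1) := by
      intro x hx
      have h2 : ‖π (x - (a + ξ))‖ < 2 := by rw [← norm_hp hπ]; exact hx.1
      exact ⟨(norm_lp_le hπ S _).trans h2.le, (norm_lp_le hπ Sᗮ _).trans (by linarith)⟩
    have hslabfin : V (Cacc_113.ov (slab (lp π S) (lp π Sᗮ) (a + ξ) (2 * 1))) < ⊤ := by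
      refine h.fin fun x hx => ?_
      change π x ∈ ball 0 _
      rw [mem_ball_zero_iff]
      have h3 := norm_pi_le hπ S (x - (a + ξ))
      have h4 := hx.1
      have h5 := hx.2
      have h6 : ‖π ξ‖ ≤ M / 4 := (norm_co_le hπ _).trans hξ
      have h7 : ‖π x‖ ≤ ‖π (x - (a + ξ))‖ + ‖π a‖ + ‖π ξ‖ := by
        calc ‖π x‖ = ‖π (x - (a + ξ)) + π a + π ξ‖ := by
              rw [← map_add, ← map_add]; congr 2; abel
          _ ≤ _ := by
              refine (norm_add_le _ _).trans ?_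
              gcongr
              exact norm_add_le _ _
      linarith
    have h8 : V (Cacc_113.ov (slab (lp π S) (lp π Sᗮ) (a + ξ) (2 * 1))) ≤
        ENNReal.ofReal (Cm m d C₀) := by
      rw [← ENNReal.ofReal_toReal hslabfin.ne]
      refine ENNReal.ofReal_le_ofReal ?_
      have h9 : (C₀ * 12 ^ m * (9 * (d + 1)) ^ d + 1) * 1 ^ 2 = Cm m d C₀ := by unfold Cm; ring
      rw [h9] at h1
      exact h1
    calc V ({x | x - (a + ξ) ∈ Bx (hp π) 2} ×ˢ univ)
        ≤ V (Cacc_113.ov (slab (lp π S) (lp π Sᗮ) (a + ξ) (2 * 1))) := by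
          rw [ov_eq]; exact measure_mono (prod_mono hsub subset_rfl)
      _ ≤ ENNReal.ofReal (Cm m d C₀) := h8
  have h0S : lp π S (0 : Euc k) = 0 := map_zero _
  have h0n : ‖(0 : Euc k)‖ ≤ M / 4 := by rw [norm_zero]; positivity
  have key := hpers (tv a V) (tv (a + ξ) V)
    (tv_stat h.st a fun x hx => by simpa using hbox 0 h0n x hx)
    (tv_stat h.st (a + ξ) fun x hx => hbox ξ hξ x hx)
    (by have h00 := hmass 0 h0S h0n; rw [add_zero] at h00; exact h00) (hmass ξ hξS hξ) ?_ ?_ ?_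
  · rw [tv_tilt _ _ _ hboxm] at key
    rw [en_eq]
    exact key
  · -- lower density
    intro x hx r hr hxr
    rw [tv_ball]
    refine h.low (x + (a + ξ)) (fun s hs => ?_) r hr ?_
    · have := hx s hs
      rwa [tv_ball] at this
    · intro y hy
      have h1 : y - (a + ξ) ∈ ball x r := by
        rw [mem_ball, dist_eq_norm] at hy ⊢
        rwa [show y - (a + ξ) - x = y - (x + (a + ξ)) by abel]
      have h2 := hbox ξ hξ _ (hxr h1)
      simpa using h2
  · -- closeness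
    intro f hf hfc hfU M' hM'
    have hM'0 : 0 ≤ M' := (norm_nonneg _).trans (hM' 0)
    rw [tv_integral _ _ hf.continuous, tv_integral _ _ hf.continuous]
    -- compact tube
    set K : Set (Euc k) := (fun q : ℝ × Euc k => q.2 + a + q.1 • ξ) '' (Icc (0 : ℝ) 1 ×ˢ tsupport f)
      with hK
    have hKc : IsCompact K := (isCompact_Icc.prod hfc).image (by fun_prop)
    have hKZ : K ⊆ Zc π M := by
      rintro _ ⟨⟨t, x⟩, ⟨ht, hx⟩, rfl⟩
      refine box_subset_Zc hπ hM ha (ξ := t • ξ) ?_ ?_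
      · rw [norm_smul, Real.norm_of_nonneg ht.1]
        calc t * ‖ξ‖ ≤ 1 * (M / 4) := by gcongr; exact ht.2
          _ = M / 4 := one_mul _
      · have := hfU hx
        simpa [add_assoc] using this
    have h1 := trans_close h.st (f := fun x => f (x - a)) (hf.comp (contDiff_id.sub contDiff_const))
      (M := M') (fun x => by rw [fderiv_comp_sub]; exact hM' _) ξ hKc
      (hKZ.trans (Zc_subset hM0)) (fun t ht x hx => by
        refine ⟨(t, x - t • ξ - a), ⟨ht, subset_tsupport _ hx⟩, ?_⟩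
        simp only
        abel)
    have e1 : ∀ p : Euc k × L k, f (p.1 - ξ - a) = f (p.1 - (a + ξ)) := fun p => by
      congr 1; abel
    simp only [e1] at h1
    refine h1.trans ?_
    rw [mul_comm ε M']
    refine mul_le_mul_of_nonneg_left ?_ hM'0
    have hfinZ := h.fin (Zc_subset (π := π) hM0)
    have h2 : ∫ p in K ×ˢ univ, ‖ξ - p.2 ξ‖ ∂V ≤ ∫ p in Cacc_113.ov (Zc π M), ‖ξ - p.2 ξ‖ ∂V := by
      refine setIntegral_mono_set ?_ (Eventually.of_forall fun p => norm_nonneg _) ?_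
      · exact hst.integrableOn_bdd hfinZ ((continuous_const.sub
          (continuous_snd.clm_apply continuous_const)).norm) (C := 2 * ‖ξ‖) fun x P hP => by
            rw [abs_of_nonneg (norm_nonneg _)]
            exact (norm_sub_le _ _).trans (by have := hP.norm_le ξ; show ‖ξ‖ + ‖P ξ‖ ≤ 2 * ‖ξ‖; linarith)
      · rw [ov_eq]
        exact (prod_mono hKZ subset_rfl).eventuallyLE
    refine h2.trans ((hst.defect_le (isPr_lp hπ S) hξS hfinZ).trans (le_trans ?_ hel2))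
    unfold df
    gcongr
    linarith
  · rw [tv_tilt _ _ _ (isCompact_Bc (hp π) 1).isClosed.measurableSet]
    rw [en_eq] at hen
    exact hen

end Crest.Agent.R234.Log_113
end
end

-- ▼ part R234/Log9_113

/-!
Row 234, VF-LOG, part 9: **(LOG)** at unit scale: a tip in the unit ball and small defect in the directions
of an `(m-2)`-plane force the energy growth `e(B_M) ≥ K M^(m-2)`.
-/

set_option autoImplicit false

open MeasureTheory Set Filter Topology Metric Function Crest.GeometryTopology.Submanifold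
open scoped ENNReal InnerProductSpace NNReal

noncomputable section

namespace Crest.Agent.R234.Log_113

open Vf_884 Strat3_842 Pers_540
open Crest.Agent.R234.Cacc_113 (St en el slab ann bx D1 pt ix bt)

variable {m k : ℕ} {π : Euc k →L[ℝ] Euc m} {C₀ c₀ M : ℝ} {V : Measure (Euc k × L k)}

theorem exists_cover (P : L k) : ∃ Z : Finset (Euc k), (∀ c ∈ Z, c ∈ Bc P 2) ∧
    ∀ x ∈ Bc P 2, ∃ c ∈ Z, dist x c < 1 := by
  obtain ⟨t, ht, htf, hcov⟩ := (isCompact_Bc P 2).finite_cover_balls one_pos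
  refine ⟨htf.toFinset, fun c hc => ht (by simpa using hc), fun x hx => ?_⟩
  obtain ⟨c, hc, hxc⟩ := mem_iUnion₂.mp (hcov hx)
  exact ⟨c, by simpa using hc, hxc⟩

/-- from the box of radius `2` to the unit box -/
theorem exists_unit (hπ : Ar_870.IsCo π) {Z : Finset (Euc k)} (hZ : ∀ c ∈ Z, c ∈ Bc (hp π) 2)
    (hcov : ∀ x ∈ Bc (hp π) 2, ∃ c ∈ Z, dist x c < 1) (h : Un π C₀ c₀ (2 * M) V) (hM : 20 ≤ M)
    (S : Submodule ℝ (Euc m)) {a ξ : Euc k} (ha : ‖π a‖ ≤ 1) (hξ : ‖ξ‖ ≤ M / 4) {ε : ℝ}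
    (hε : 0 < ε) (hen : ε ≤ en V (vp π) {x | x - (a + ξ) ∈ Bx (hp π) 2}) :
    ∃ c ∈ Z, ε / Z.card ≤ en V (vp π) (bx (lp π S) (lp π Sᗮ) (vp π) (a + c + ξ)) := by
  have hM0 : 0 < M := by linarith
  have hst := st_of_stat h.st
  have hsubZ : ∀ c ∈ Z, ball (a + c + ξ) 1 ⊆ cy π (ball 0 (2 * M)) := by
    intro c hc x hx
    refine Zc_subset hM0 (mem_Zc ?_)
    rw [mem_ball, dist_eq_norm] at hx
    have h1 : ‖π (x - (a + c + ξ))‖ ≤ 1 := (norm_co_le hπ _).trans hx.le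
    have h2 : ‖π ξ‖ ≤ M / 4 := (norm_co_le hπ _).trans hξ
    have h3 : ‖π c‖ ≤ 2 := by rw [← norm_hp hπ]; exact (hZ c hc).1
    have h4 : ‖π x‖ ≤ ‖π (x - (a + c + ξ))‖ + ‖π a‖ + ‖π c‖ + ‖π ξ‖ := by
      calc ‖π x‖ = ‖π (x - (a + c + ξ)) + π a + π c + π ξ‖ := by
            rw [← map_add, ← map_add, ← map_add]; congr 2; abel
        _ ≤ _ := by
            refine (norm_add_le _ _).trans ?_
            gcongr
            refine (norm_add_le _ _).trans ?_
            gcongr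
            exact norm_add_le _ _
    linarith
  obtain ⟨c, hc, hc2⟩ := hst.exists_en_ge (isPr_vp hπ) Z (fun c => ball (a + c + ξ) 1)
    (fun c _ => measurableSet_ball) (fun c hc => h.fin (hsubZ c hc))
    (B := {x | x - (a + ξ) ∈ Bx (hp π) 2}) (ε := ε) (Eventually.of_forall fun z hz => by
      obtain ⟨c, hc, hc2⟩ := hcov _ (Bx_subset_Bc hz)
      refine ⟨c, hc, ?_⟩
      rw [mem_ball, dist_eq_norm]
      rw [dist_eq_norm] at hc2
      rwa [show z.1 - (a + c + ξ) = z.1 - (a + ξ) - c by abel]) hε hen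
  refine ⟨c, hc, hc2.trans ?_⟩
  have hbsub : ball (a + c + ξ) 1 ⊆ bx (lp π S) (lp π Sᗮ) (vp π) (a + c + ξ) := by
    intro x hx
    rw [mem_ball, dist_eq_norm] at hx
    exact ⟨((isPr_lp hπ S).norm_le _).trans hx.le, ((isPr_lp hπ Sᗮ).norm_le _).trans hx.le,
      ((isPr_vp hπ).norm_le _).trans hx.le⟩
  refine hst.en_mono (isPr_vp hπ) (h.fin ?_) hbsub
  intro x hx
  refine Zc_subset hM0 (mem_Zc ?_)
  have h1 := norm_pi_le hπ S (x - (a + c + ξ))
  have h1a := hx.1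
  have h1b := hx.2.1
  have h2 : ‖π ξ‖ ≤ M / 4 := (norm_co_le hπ _).trans hξ
  have h3 : ‖π c‖ ≤ 2 := by rw [← norm_hp hπ]; exact (hZ c hc).1
  have h4 : ‖π x‖ ≤ ‖π (x - (a + c + ξ))‖ + ‖π a‖ + ‖π c‖ + ‖π ξ‖ := by
    calc ‖π x‖ = ‖π (x - (a + c + ξ)) + π a + π c + π ξ‖ := by
          rw [← map_add, ← map_add, ← map_add]; congr 2; abel
      _ ≤ _ := by
          refine (norm_add_le _ _).trans ?_
          gcongr
          refine (norm_add_le _ _).trans ?_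
          gcongr
          exact norm_add_le _ _
  linarith

theorem slab_subset (hπ : Ar_870.IsCo π) (S : Submodule ℝ (Euc m)) {b ξ : Euc k} (hb : ‖π b‖ ≤ 3)
    (hM : 20 ≤ M) (hξ : ‖ξ‖ ≤ M / 4) {r : ℝ} (hr : 4 * r ≤ M) :
    slab (lp π S) (lp π Sᗮ) (b + ξ) r ⊆ cy π (ball 0 M) := by
  intro x hx
  change π x ∈ ball 0 _
  rw [mem_ball_zero_iff]
  have h1 := norm_pi_le hπ S (x - (b + ξ))
  have h1a := hx.1
  have h1b := hx.2
  have h2 : ‖π ξ‖ ≤ M / 4 := (norm_co_le hπ _).trans hξ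
  have h4 : ‖π x‖ ≤ ‖π (x - (b + ξ))‖ + ‖π b‖ + ‖π ξ‖ := by
    calc ‖π x‖ = ‖π (x - (b + ξ)) + π b + π ξ‖ := by
          rw [← map_add, ← map_add]; congr 2; abel
      _ ≤ _ := by
          refine (norm_add_le _ _).trans ?_
          gcongr
          exact norm_add_le _ _
  linarith

theorem cy_subset_Zc (hM : 0 < M) : cy π (ball 0 M) ⊆ Zc π M :=
  preimage_mono (ball_subset_closedBall.trans (closedBall_subset_closedBall (by linarith)))

/-- logarithmic growth in one slab -/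
theorem Un.slab_growth (h : Un π C₀ c₀ (2 * M) V) (hM : 20 ≤ M) (S : Submodule ℝ (Euc m)) {d : ℕ}
    {v : Fin d → Euc m} (hv : Orthonormal ℝ v) (hvS : ∀ i, v i ∈ S) (hd : d + 2 = m)
    {b ξ : Euc k} (hb : ‖π b‖ ≤ 3) (hξ : ‖ξ‖ ≤ M / 4) (hξS : lp π S ξ = ξ) {ε : ℝ} (hε : 0 < ε)
    (hel1 : 4 * D1 * df π M S V ≤ 1) (hel2 : 4 * D1 * df π M S V ≤ ε / 6) {J : ℕ}
    (hJ : 4 * 2 ^ J ≤ M) (hen : ε ≤ en V (vp π) (bx (lp π S) (lp π Sᗮ) (vp π) (b + ξ))) :
    J * (ε ^ 2 / (576 * D1 ^ 2 * Cm m d C₀)) ≤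
      en V (vp π) (slab (lp π S) (lp π Sᗮ) (b + ξ) (2 ^ J)) := by
  have hπ := h.co
  have hM0 : 0 < M := by linarith
  have hD := Cacc_113.one_le_D1
  have hst := st_of_stat h.st
  have hsub := slab_subset hπ S hb hM hξ hJ
  have hsub2 : slab (lp π S) (lp π Sᗮ) (b + ξ) (2 ^ J) ⊆ Zc π M := hsub.trans (cy_subset_Zc hM0)
  have hfinZ := h.fin (Zc_subset (π := π) hM0)
  refine hst.slab_log (isPr_lp hπ S) (isPr_lp hπ Sᗮ) (isPr_vp hπ) (lp_vp hπ S) (b + ξ)
    (hsub2.trans (Zc_subset hM0)) (h.fin (hsub2.trans (Zc_subset hM0))) (Cm_pos m d h.C₀_nonneg) hε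
    ?_ hen ?_
  · intro j hj
    have hj2 : (2 : ℝ) ^ (j + 1) ≤ 2 ^ J := pow_le_pow_right₀ (by norm_num) hj
    have hj3 : (2 : ℝ) ^ (j + 1) = 2 * 2 ^ j := by ring
    have h1 := h.slab_mass hM S hv hvS hd (x₀ := b) (η := ξ) hb hξ hξS (ρ := 2 ^ j)
      (one_le_pow₀ (by norm_num)) (by linarith) hel1
    refine le_trans (measureReal_mono (preimage_mono (Cacc_113.ann_subset_slab _ _ _ _)) ?_) h1
    refine (h.fin ?_).ne
    refine (slab_subset hπ S hb hM hξ ?_).trans ((cy_subset_Zc hM0).trans (Zc_subset hM0))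
    linarith
  · refine le_trans ?_ hel2
    have h1 : √(V.real (Cacc_113.ov (slab (lp π S) (lp π Sᗮ) (b + ξ) (2 ^ J))) *
        el V (lp π S) (slab (lp π S) (lp π Sᗮ) (b + ξ) (2 ^ J))) ≤
        √(V.real (Cacc_113.ov (Zc π M)) * el V (lp π S) (Zc π M)) :=
      Real.sqrt_le_sqrt (mul_le_mul (measureReal_mono (preimage_mono hsub2) hfinZ.ne)
        (hst.el_mono (isPr_lp hπ S) hfinZ hsub2) (hst.el_nonneg (isPr_lp hπ S) _)
        measureReal_nonneg)
    have h2 : √(V.real (Cacc_113.ov (Zc π M)) * el V (lp π S) (Zc π M)) ≤ df π M S V := by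
      unfold df
      exact le_mul_of_one_le_left (Real.sqrt_nonneg _) (by linarith)
    gcongr
    exact h1.trans h2

set_option maxHeartbeats 1000000 in
/-- **(LOG), box energy, all constants fixed.** -/
theorem log_core (hπ : Ar_870.IsCo π) {d : ℕ} (hd : d + 2 = m) (C₀ : ℝ) (hC₀ : 0 ≤ C₀) {c₀ τ : ℝ}
    (hc₀ : 0 < c₀) (hτ : 0 < τ) : ∃ ε > 0, ∃ c > 0, ∀ (M : ℝ) (V : Measure (Euc k × L k))
      (S : Submodule ℝ (Euc m)) (v : Fin d → Euc m), Orthonormal ℝ v → (∀ i, v i ∈ S) →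
      Un π C₀ c₀ (2 * M) V → 20 ≤ M → df π M S V ≤ ε →
      ∀ a : Euc k, ‖π a‖ ≤ 1 → τ ≤ en V (vp π) {x | x - a ∈ Bc (hp π) 1} →
      ∀ J : ℕ, 4 * 2 ^ J ≤ M → c * J * M ^ d ≤ en V (vp π) (cy π (ball 0 M)) := by
  classical
  have hD := Cacc_113.one_le_D1
  have hD0 : 0 < D1 := by linarith
  obtain ⟨ε, hε, hpers⟩ := exists_pers hπ hd C₀ hC₀ hc₀ hτ
  obtain ⟨Z, hZ, hcov⟩ := exists_cover (hp π)
  have hZne : Z.Nonempty := by
    obtain ⟨c, hc, -⟩ := hcov 0 ⟨by simp, by simp⟩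
    exact ⟨c, hc⟩
  have hZpos : (0 : ℝ) < Z.card := by exact_mod_cast hZne.card_pos
  set ε' := ε / Z.card with hε'
  have hε'0 : 0 < ε' := by positivity
  have hCm := Cm_pos m d hC₀
  set ε₁ := min (1 / (4 * D1)) (min ε (ε' / (24 * D1))) with hε₁
  have hε₁0 : 0 < ε₁ := by positivity
  set c := ε' ^ 2 / (576 * D1 ^ 2 * Cm m d C₀) / (36 * (d + 1)) ^ d with hc
  have hc0 : 0 < c := by positivity
  refine ⟨ε₁, hε₁0, c, hc0, fun M V S v hv hvS h hM hdf a ha hen J hJ => ?_⟩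
  have hM0 : 0 < M := by linarith
  have hst := st_of_stat h.st
  have e1 : 4 * D1 * df π M S V ≤ 1 := by
    calc 4 * D1 * df π M S V ≤ 4 * D1 * (1 / (4 * D1)) := by
          gcongr
          exact hdf.trans (min_le_left _ _)
      _ = 1 := by field_simp
  have e2 : df π M S V ≤ ε := hdf.trans ((min_le_right _ _).trans (min_le_left _ _))
  have e3 : 4 * D1 * df π M S V ≤ ε' / 6 := by
    calc 4 * D1 * df π M S V ≤ 4 * D1 * (ε' / (24 * D1)) := by
          gcongr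
          exact hdf.trans ((min_le_right _ _).trans (min_le_right _ _))
      _ = ε' / 6 := by field_simp; ring
  set N := ⌊(M / 4) / (9 * (d + 1))⌋₊ with hN
  have hxi : ∀ n ∈ ix d N, ‖xi π v n‖ ≤ M / 4 := fun n hn =>
    (norm_xi_le hπ hv hn).trans (floor_mul_le d (by positivity))
  have hex : ∀ n ∈ ix d N, ∃ c ∈ Z,
      ε' ≤ en V (vp π) (bx (lp π S) (lp π Sᗮ) (vp π) (a + c + xi π v n)) := fun n hn =>
    exists_unit hπ hZ hcov h hM S ha (hxi n hn) hε
      (hpers M V S v hv hvS h hM e1 e2 a ha hen (xi π v n) (lp_xi hπ hvS n) (hxi n hn))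
  choose! g hg1 hg2 using hex
  have hb : ∀ n ∈ ix d N, ‖π (a + g n)‖ ≤ 3 := by
    intro n hn
    rw [map_add]
    have h3 : ‖π (g n)‖ ≤ 2 := by rw [← norm_hp hπ]; exact (hZ _ (hg1 n hn)).1
    exact (norm_add_le _ _).trans (by linarith)
  have hgrow : ∀ n ∈ ix d N, J * (ε' ^ 2 / (576 * D1 ^ 2 * Cm m d C₀)) ≤
      en V (vp π) (slab (lp π S) (lp π Sᗮ) (a + g n + xi π v n) (2 ^ J)) := fun n hn =>
    h.slab_growth hM S hv hvS hd (hb n hn) (hxi n hn) (lp_xi hπ hvS n) hε'0 e1 e3 hJ (hg2 n hn)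
  have hdisj : (ix d N : Set (Fin d → ℤ)).Pairwise
      (Disjoint on fun n => slab (lp π S) (lp π Sᗮ) (a + g n + xi π v n) (2 ^ J)) := by
    intro n hn n' hn' hne
    change Disjoint (slab _ _ _ _) (slab _ _ _ _)
    rw [Set.disjoint_left]
    intro x hx hx'
    have h1 := nine_le_norm_xi_sub hπ hv hne
    have h2 : xi π v n - xi π v n' =
        lp π S (x - (a + g n' + xi π v n')) - lp π S (x - (a + g n + xi π v n)) +
          (lp π S (g n') - lp π S (g n)) := by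
      rw [← map_sub, ← map_sub, ← map_add,
        show x - (a + g n' + xi π v n') - (x - (a + g n + xi π v n)) + (g n' - g n) =
          xi π v n - xi π v n' by abel,
        map_sub, lp_xi hπ hvS, lp_xi hπ hvS]
    rw [h2] at h1
    have h3 := norm_add_le (lp π S (x - (a + g n' + xi π v n')) - lp π S (x - (a + g n + xi π v n)))
      (lp π S (g n') - lp π S (g n))
    have h4 := norm_sub_le (lp π S (x - (a + g n' + xi π v n'))) (lp π S (x - (a + g n + xi π v n)))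
    have h5 := norm_sub_le (lp π S (g n')) (lp π S (g n))
    have h6 : ∀ n ∈ ix d N, ‖lp π S (g n)‖ ≤ 2 := fun n hn =>
      (norm_lp_le hπ S _).trans (by rw [← norm_hp hπ]; exact (hZ _ (hg1 n hn)).1)
    have h7 := h6 n hn
    have h8 := h6 n' hn'
    have h9 := hx.1
    have h10 := hx'.1
    linarith
  have hsum := hst.sum_en_le (isPr_vp hπ) (ix d N)
    (fun n => slab (lp π S) (lp π Sᗮ) (a + g n + xi π v n) (2 ^ J))
    (fun n _ => (Cacc_113.isClosed_slab _ _ _ _).measurableSet) hdisj (B := cy π (ball 0 M))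
    (h.fin ((cy_subset_Zc hM0).trans (Zc_subset hM0)))
    (fun n hn => slab_subset hπ S (hb n hn) hM (hxi n hn) hJ)
  have hcard := card_ix_ge d (t := M / 4) (by positivity)
  refine le_trans ?_ hsum
  calc c * J * M ^ d = ((M / 4) / (9 * (d + 1))) ^ d * (J * (ε' ^ 2 / (576 * D1 ^ 2 * Cm m d C₀))) := by
        rw [hc]
        have e4 : (M / 4) / (9 * ((d : ℝ) + 1)) = M / (36 * (d + 1)) := by field_simp; ring
        rw [e4, div_pow M (36 * ((d : ℝ) + 1)) d]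
        ring
    _ ≤ (ix d N).card * (J * (ε' ^ 2 / (576 * D1 ^ 2 * Cm m d C₀))) := by gcongr
    _ = ∑ _n ∈ ix d N, J * (ε' ^ 2 / (576 * D1 ^ 2 * Cm m d C₀)) := by simp
    _ ≤ _ := Finset.sum_le_sum hgrow

/-- **(LOG) at unit scale, box energy**. -/
theorem log_box (hπ : Ar_870.IsCo π) {d : ℕ} (hd : d + 2 = m) (C₀ : ℝ) (hC₀ : 0 ≤ C₀) {c₀ τ : ℝ}
    (hc₀ : 0 < c₀) (hτ : 0 < τ) (K : ℝ) : ∃ M₀ : ℝ, 20 ≤ M₀ ∧ ∀ M, M₀ ≤ M → ∃ dA > 0,
      ∀ (V : Measure (Euc k × L k)) (S : Submodule ℝ (Euc m)), Module.finrank ℝ S = d →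
      Un π C₀ c₀ (2 * M) V → el V (lp π S) (Zc π M) ≤ dA →
      ∀ a : Euc k, ‖π a‖ ≤ 1 → τ ≤ en V (vp π) {x | x - a ∈ Bc (hp π) 1} →
      K * M ^ d ≤ en V (vp π) (cy π (ball 0 M)) := by
  obtain ⟨ε, hε, c, hc, hcore⟩ := log_core hπ hd C₀ hC₀ hc₀ hτ
  obtain ⟨J, hJ⟩ := exists_nat_gt (K / c)
  refine ⟨max 20 (4 * 2 ^ J), le_max_left _ _, fun M hM => ?_⟩
  have hM20 : 20 ≤ M := (le_max_left _ _).trans hM
  have hMJ : 4 * 2 ^ J ≤ M := (le_max_right _ _).trans hM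
  have hM0 : 0 < M := by linarith
  set A := C₀ * (2 * M) ^ m + 1 with hA
  have hA0 : 0 < A := by positivity
  refine ⟨(ε / M) ^ 2 / A, by positivity, fun V S hS h hel a ha hen => ?_⟩
  let b := (stdOrthonormalBasis ℝ S).reindex (finCongr hS)
  have hv : Orthonormal ℝ fun i => (b i : Euc m) := b.orthonormal.comp_linearIsometry S.subtypeₗᵢ
  have hfinZ := h.fin (Zc_subset (π := π) hM0)
  have hmass : V.real (Cacc_113.ov (Zc π M)) ≤ A := by
    have h1 := h.mass (2 * M) (by linarith) le_rfl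
    have h2 : V (Cacc_113.ov (Zc π M)) ≤ ENNReal.ofReal (C₀ * (2 * M) ^ m) := by
      rw [ov_eq]
      exact (measure_mono (prod_mono (Zc_subset hM0) subset_rfl)).trans h1
    rw [measureReal_def]
    refine (ENNReal.toReal_le_of_le_ofReal (by positivity) h2).trans ?_
    rw [hA]; linarith
  have hel0 := (st_of_stat h.st).el_nonneg (isPr_lp hπ S) (Zc π M)
  have hdf : df π M S V ≤ ε := by
    unfold df
    calc M * √(V.real (Cacc_113.ov (Zc π M)) * el V (lp π S) (Zc π M))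
        ≤ M * √(A * ((ε / M) ^ 2 / A)) := by gcongr
      _ = M * (ε / M) := by
          rw [mul_div_cancel₀ _ hA0.ne', Real.sqrt_sq (by positivity)]
      _ = ε := by field_simp
  have h1 := hcore M V S (fun i => (b i : Euc m)) hv (fun i => (b i).2) h hM20 hdf a ha hen J hMJ
  refine le_trans ?_ h1
  have h2 : K ≤ c * J := by
    have := (div_lt_iff₀ hc).mp hJ
    linarith
  gcongr

/-- **(LOG) at unit scale**: a tip over the unit ball. -/
theorem log_ball (hπ : Ar_870.IsCo π) {d : ℕ} (hd : d + 2 = m) (C₀ : ℝ) (hC₀ : 0 ≤ C₀) {c₀ τ : ℝ}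
    (hc₀ : 0 < c₀) (hτ : 0 < τ) (K : ℝ) : ∃ M₀ : ℝ, 20 ≤ M₀ ∧ ∀ M, M₀ ≤ M → ∃ dA > 0,
      ∀ (V : Measure (Euc k × L k)) (S : Submodule ℝ (Euc m)), Module.finrank ℝ S = d →
      Un π C₀ c₀ (2 * M) V → el V (lp π S) (Zc π M) ≤ dA →
      τ ≤ en V (vp π) (cy π (ball 0 1)) →
      K * M ^ d ≤ en V (vp π) (cy π (ball 0 M)) := by
  obtain ⟨N₀, hN₀⟩ := exists_nat_gt (C₀ * 4 ^ m / c₀)
  have hN₀pos : (0 : ℝ) < N₀ := lt_of_le_of_lt (by positivity) hN₀
  have hN₀' : C₀ * 4 ^ m ≤ N₀ * c₀ := ((div_lt_iff₀ hc₀).mp hN₀).le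
  obtain ⟨M₀, hM₀, hlog⟩ := log_box hπ hd C₀ hC₀ hc₀ (τ := τ / N₀) (by positivity) K
  refine ⟨M₀, hM₀, fun M hM => ?_⟩
  obtain ⟨dA, hdA, hd2⟩ := hlog M hM
  refine ⟨dA, hdA, fun V S hS h hel hen => ?_⟩
  obtain ⟨a, ha, ha2⟩ := h.exists_box (by linarith) hc₀ hN₀' hτ hen
  exact hd2 V S hS h hel a ha.le ha2

end Crest.Agent.R234.Log_113
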