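import Crest.Agent.R234.Gi2_456
import Crest.Agent.R234.GLK2_128
import Crest.Agent.R234.GL1_394
import Crest.Agent.R234.Gi4_456
import Crest.Agent.R234.GL6_394

-- ▼ part R234/Pd5_435
section

/-!
# Row 234, VF-F11 (helper435): V-level instance of `Pin3_3.Data`, part 5: pointwise comparison of the
foot chart with the base coordinate and the graph height
-/

set_option autoImplicit false
set_option linter.unusedVariables false
set_option linter.unusedSectionVars false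

open MeasureTheory Filter Topology Set Metric
open scoped ENNReal NNReal ContDiff InnerProductSpace
open Crest.GeometryTopology.Submanifold Crest.Agent.R234.Vf_884
open Crest.Agent.R234.Main_456
open Crest.Agent.R234.Ell1_3 (adjL ginv gop)
open Crest.Agent.R234.GLK_128 (A0 AA BB gg hh Fr Inv NN TT Pj tau0)
open Crest.Agent.R234.Gi_456

noncomputable section

namespace Crest.Agent.R234.Pd_435

local notation "adj" => ContinuousLinearMap.adjoint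

section abs

variable {E F V : Type*} [NormedAddCommGroup E] [InnerProductSpace ℝ E] [FiniteDimensional ℝ E]
  [NormedAddCommGroup F] [InnerProductSpace ℝ F] [FiniteDimensional ℝ F]
  [NormedAddCommGroup V] [InnerProductSpace ℝ V] [FiniteDimensional ℝ V]
  {i : F →L[ℝ] E} {j : V →L[ℝ] E} {q q' : F →L[ℝ] V} {Y gi : F →L[ℝ] F} {hi : V →L[ℝ] V}
  {Li : F →L[ℝ] F} {P : E →L[ℝ] E}

theorem adjBB_NN (h : Fr i j) (H : Inv q Y gi hi Li) (v : E) :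
    adj (BB i j q) (NN i j q hi v) = adj (BB i j q) v := by
  have h1 : NN i j q hi v = BB i j q (hi (adj (BB i j q) v)) := rfl
  have h2 : ∀ w, adj (BB i j q) (BB i j q w) = hh q w := fun w =>
    congrArg (fun T : V →L[ℝ] V => T w) (GLK_128.BB_BB h)
  rw [h1, h2, H.h2a]

theorem norm_adjBB (h : Fr i j) (hq : ‖q‖ ≤ 1 / 4) : ‖adj (BB i j q)‖ ≤ 5 / 4 := by
  rw [GLK_128.norm_adj]
  unfold BB
  calc ‖j - i ∘L adj q‖ ≤ ‖j‖ + ‖i ∘L adj q‖ := norm_sub_le _ _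
    _ ≤ 1 + 1 * (1 / 4) := add_le_add h.norm_j_le
        ((ContinuousLinearMap.opNorm_comp_le _ _).trans
          (mul_le_mul h.norm_i_le (by rw [GLK_128.norm_adj]; exact hq) (norm_nonneg _) zero_le_one))
    _ = 5 / 4 := by norm_num

theorem norm_Pj_le (hP : Pj F P) (v : E) : ‖P v‖ ≤ ‖v‖ := by
  have h1 : ‖P v‖ ^ 2 = ⟪P v, v⟫_ℝ := by
    rw [← real_inner_self_eq_norm_sq]
    nth_rewrite 2 [← hP.sa]
    rw [ContinuousLinearMap.adjoint_inner_right]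
    congr 1
    exact congrArg (fun T : E →L[ℝ] E => T v) hP.idem
  have h2 := real_inner_le_norm (P v) v
  rcases (norm_nonneg (P v)).eq_or_lt with h0 | h0
  · rw [← h0]; exact norm_nonneg _
  · nlinarith

theorem norm_NNP_le (h : Fr i j) (H : Inv q Y gi hi Li) (hP : Pj F P) (v : E) :
    ‖NN i j q hi (P v)‖ ≤ √(tau0 i j q hi P) * ‖v‖ := by
  have h1 := GLK_128.tau0_le_one_norm h H hP
  have h2 : adj (P ∘L NN i j q hi) = NN i j q hi ∘L P := by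
    rw [ContinuousLinearMap.adjoint_comp, GLK_128.NN_adj H, hP.sa]
  have h3 : ‖NN i j q hi ∘L P‖ ≤ √(tau0 i j q hi P) := by
    rw [← h2, GLK_128.norm_adj]
    exact h1
  calc ‖NN i j q hi (P v)‖ = ‖(NN i j q hi ∘L P) v‖ := rfl
    _ ≤ ‖NN i j q hi ∘L P‖ * ‖v‖ := ContinuousLinearMap.le_opNorm _ _
    _ ≤ _ := by gcongr

/-- the derivative of the graph height on the varifold plane -/
theorem norm_Dh_sq_le (h : Fr i j) (H : Inv q Y gi hi Li) (hP : Pj F P) (hq : ‖q‖ ≤ 1 / 4) (v : E) :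
    ‖adj j (P v) - q' (adj i (P v))‖ ^ 2 ≤
      4 * (tau0 i j q hi P + ‖q - q'‖ ^ 2) * ‖v‖ ^ 2 := by
  have h1 : adj j (P v) - q' (adj i (P v)) =
      adj (BB i j q) (NN i j q hi (P v)) + (q - q') (adj i (P v)) := by
    rw [adjBB_NN h H, GLK_128.adj_BB_apply]
    simp
  have h2 : ‖adj (BB i j q) (NN i j q hi (P v))‖ ≤ 5 / 4 * (√(tau0 i j q hi P) * ‖v‖) := by
    refine (ContinuousLinearMap.le_opNorm _ _).trans ?_
    exact mul_le_mul (norm_adjBB h hq) (norm_NNP_le h H hP v) (norm_nonneg _) (by norm_num)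
  have h3 : ‖(q - q') (adj i (P v))‖ ≤ ‖q - q'‖ * ‖v‖ := by
    refine (ContinuousLinearMap.le_opNorm _ _).trans ?_
    gcongr
    refine (ContinuousLinearMap.le_opNorm _ _).trans ?_
    rw [GLK_128.norm_adj]
    calc ‖i‖ * ‖P v‖ ≤ 1 * ‖v‖ := mul_le_mul h.norm_i_le (norm_Pj_le hP v) (norm_nonneg _) zero_le_one
      _ = _ := one_mul _
  have h4 : ‖adj j (P v) - q' (adj i (P v))‖ ≤
      5 / 4 * (√(tau0 i j q hi P) * ‖v‖) + ‖q - q'‖ * ‖v‖ := by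
    rw [h1]
    exact (norm_add_le _ _).trans (add_le_add h2 h3)
  have h5 := pow_le_pow_left₀ (norm_nonneg _) h4 2
  have h6 : √(tau0 i j q hi P) ^ 2 = tau0 i j q hi P := Real.sq_sqrt (GLK_128.tau0_nonneg h H hP)
  refine h5.trans ?_
  set s := √(tau0 i j q hi P) with hs
  rw [← h6]
  have h7 : 0 ≤ ‖v‖ ^ 2 := sq_nonneg _
  have h8 : (5 / 4 * (s * ‖v‖) + ‖q - q'‖ * ‖v‖) ^ 2 = (5 / 4 * s + ‖q - q'‖) ^ 2 * ‖v‖ ^ 2 := by ring
  rw [h8]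
  refine mul_le_mul_of_nonneg_right ?_ h7
  nlinarith [sq_nonneg (5 / 4 * s - ‖q - q'‖), sq_nonneg s, sq_nonneg ‖q - q'‖]

/-- `Dh` on the tangent frame -/
theorem Dh_A0 (h : Fr i j) (v : F) : adj j (A0 i j q v) - q' (adj i (A0 i j q v)) = (q - q') v := by
  simp [A0, h.ii_apply, h.jj_apply, h.ij_apply, h.ji_apply]

/-- `Dh` on the normal frame -/
theorem Dh_BB (h : Fr i j) (y : V) :
    adj j (BB i j q y) - q' (adj i (BB i j q y)) = y + q' (adj q y) := by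
  simp [BB, h.ii_apply, h.jj_apply, h.ij_apply, h.ji_apply]

theorem norm_BB_sq (h : Fr i j) (y : V) : ‖BB i j q y‖ ^ 2 = ‖y‖ ^ 2 + ‖adj q y‖ ^ 2 := by
  rw [← real_inner_self_eq_norm_sq, ← ContinuousLinearMap.adjoint_inner_right]
  have h2 : adj (BB i j q) (BB i j q y) = hh q y :=
    congrArg (fun T : V →L[ℝ] V => T y) (GLK_128.BB_BB h)
  rw [h2, real_inner_comm, GLK_128.hh_inner]

theorem le_norm_BB (h : Fr i j) (y : V) : ‖y‖ ≤ ‖BB i j q y‖ := by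
  have h1 := norm_BB_sq (q := q) h y
  exact (sq_le_sq₀ (norm_nonneg _) (norm_nonneg _)).1 (by nlinarith [sq_nonneg ‖adj q y‖])

theorem norm_BB_le (h : Fr i j) {κ : ℝ} (hq : ‖q‖ ≤ κ) (y : V) : ‖BB i j q y‖ ≤ (1 + κ) * ‖y‖ := by
  have h1 : BB i j q y = j y - i (adj q y) := by simp [BB]
  rw [h1]
  calc ‖j y - i (adj q y)‖ ≤ ‖j y‖ + ‖i (adj q y)‖ := norm_sub_le _ _
    _ = ‖y‖ + ‖adj q y‖ := by rw [h.norm_j, h.norm_i]
    _ ≤ ‖y‖ + κ * ‖y‖ := by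
        gcongr
        refine (ContinuousLinearMap.le_opNorm _ _).trans ?_
        rw [GLK_128.norm_adj]
        gcongr
    _ = _ := by ring

/-- the horizontal lift of `L g₀ v` is close to `i v` -/
theorem norm_lift_sub (h : Fr i j) (H : Inv q Y gi hi Li) (hY : ‖Y‖ ≤ 1 / 2) {q0 : F →L[ℝ] V}
    {κ : ℝ} (hq : ‖q‖ ≤ κ) (hq0 : ‖q0‖ ≤ κ) (hκ : κ ≤ 1 / 4) (v : F) :
    ‖A0 i j q (Li (gg q0 v)) - i v‖ ≤ (5 * κ ^ 2 + 3 * ‖Y‖ + κ) * ‖v‖ := by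
  have hκ0 : 0 ≤ κ := (norm_nonneg _).trans hq
  set d := Li (gg q0 v) - v with hd
  have h1 : A0 i j q (Li (gg q0 v)) - i v = A0 i j q d + j (q v) := by
    rw [hd, map_sub]
    simp only [A0, _root_.add_apply, ContinuousLinearMap.comp_apply]
    abel
  have h2 : d = Li (adj q0 (q0 v) - adj q (q v) + Y v) := by
    have h3 : v = Li (gg q v - Y v) := (H.l1a v).symm
    rw [hd]
    nth_rewrite 2 [h3]
    rw [← map_sub]
    congr 1
    simp only [gg, _root_.add_apply, ContinuousLinearMap.id_apply,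
      ContinuousLinearMap.comp_apply]
    abel
  have hqq : ∀ {T : F →L[ℝ] V}, ‖T‖ ≤ κ → ‖adj T (T v)‖ ≤ κ ^ 2 * ‖v‖ := by
    intro T hT
    refine (ContinuousLinearMap.le_opNorm _ _).trans ?_
    rw [GLK_128.norm_adj]
    calc ‖T‖ * ‖T v‖ ≤ κ * (κ * ‖v‖) := by
          refine mul_le_mul hT ((T.le_opNorm v).trans (by gcongr)) (norm_nonneg _) hκ0
      _ = _ := by ring
  have h3 : ‖d‖ ≤ 2 * (2 * κ ^ 2 * ‖v‖ + ‖Y‖ * ‖v‖) := by
    rw [h2]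
    refine (Li.le_opNorm _).trans ?_
    refine mul_le_mul (H.norm_Li hY) ?_ (norm_nonneg _) zero_le_two
    refine (norm_add_le _ _).trans ?_
    have h4 := norm_sub_le (adj q0 (q0 v)) (adj q (q v))
    have h5 := hqq hq0
    have h6 := hqq hq
    have h7 := Y.le_opNorm v
    linarith
  have h4 : ‖A0 i j q d‖ ≤ 5 / 4 * ‖d‖ := by
    refine (ContinuousLinearMap.le_opNorm _ _).trans ?_
    exact mul_le_mul_of_nonneg_right (GLK_128.norm_A0 h (hq.trans hκ)) (norm_nonneg _)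
  have h5 : ‖j (q v)‖ ≤ κ * ‖v‖ := by
    rw [h.norm_j]
    exact (q.le_opNorm v).trans (by gcongr)
  rw [h1]
  refine (norm_add_le _ _).trans ?_
  have h6 : 0 ≤ ‖Y‖ * ‖v‖ := by positivity
  nlinarith

theorem norm_Li_gg_le (H : Inv q Y gi hi Li) (hY : ‖Y‖ ≤ 1 / 2) {q0 : F →L[ℝ] V}
    (hq0 : ‖q0‖ ≤ 1 / 4) (v : F) : ‖Li (gg q0 v)‖ ≤ 3 * ‖v‖ := by
  have h1 : ‖gg q0 v‖ ≤ 17 / 16 * ‖v‖ := by
    simp only [gg, _root_.add_apply, ContinuousLinearMap.id_apply,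
      ContinuousLinearMap.comp_apply]
    refine (norm_add_le _ _).trans ?_
    have h2 : ‖adj q0 (q0 v)‖ ≤ 1 / 16 * ‖v‖ := by
      refine (ContinuousLinearMap.le_opNorm _ _).trans ?_
      rw [GLK_128.norm_adj]
      calc ‖q0‖ * ‖q0 v‖ ≤ 1 / 4 * (1 / 4 * ‖v‖) := by
            refine mul_le_mul hq0 ((q0.le_opNorm v).trans (by gcongr)) (norm_nonneg _) (by norm_num)
        _ = _ := by ring
    linarith
  refine (Li.le_opNorm _).trans ?_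
  have h3 := mul_le_mul (H.norm_Li hY) h1 (norm_nonneg _) zero_le_two
  linarith [norm_nonneg v]

end abs

section tb

variable {m n k : ℕ} {π : Euc k →L[ℝ] Euc m} {ρ : Euc k →L[ℝ] Euc n} {x : Euc k} {r : ℝ}
  {w : Euc m → Euc n} {p : Euc k} {κ κ₂ : ℝ}

/-- height over the graph of `w` -/
def hw (π : Euc k →L[ℝ] Euc m) (ρ : Euc k →L[ℝ] Euc n) (x : Euc k) (w : Euc m → Euc n) (p : Euc k) :
    Euc n := ρ (p - x) - w (π (p - x))

/-- the smallness of the graph, global -/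
structure Sm (w : Euc m → Euc n) (κ κ₂ : ℝ) : Prop where
  k1 : ∀ v, ‖fderiv ℝ w v‖ ≤ κ
  k2 : ∀ v, ‖fderiv ℝ (fderiv ℝ w) v‖ ≤ κ₂
  k8 : κ ≤ 1 / 8

theorem Sm.k0 (hs : Sm w κ κ₂) : 0 ≤ κ := (norm_nonneg (fderiv ℝ w 0)).trans (hs.k1 0)

theorem Sm.k20 (hs : Sm w κ κ₂) : 0 ≤ κ₂ :=
  le_trans (norm_nonneg (fderiv ℝ (fderiv ℝ w) 0)) (hs.k2 0)


theorem norm_foot_sub_le (h : Gr r w) (hp : p ∈ tube π ρ x r w) (hs : Sm w κ κ₂) :
    ‖foot π ρ x r w p - π (p - x)‖ ≤ κ * ‖yy π ρ x r w p‖ := by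
  have h1 := h.foot_fix hp
  have h2 : foot π ρ x r w p - π (p - x) =
      adj (fderiv ℝ w (foot π ρ x r w p)) (yy π ρ x r w p) := by
    nth_rewrite 1 [h1]
    abel
  rw [h2]
  refine (ContinuousLinearMap.le_opNorm _ _).trans ?_
  rw [GLK_128.norm_adj]
  gcongr
  exact hs.k1 _

theorem norm_hw_sub_le (h : Gr r w) (hp : p ∈ tube π ρ x r w) (hs : Sm w κ κ₂) :
    ‖hw π ρ x w p - yy π ρ x r w p‖ ≤ κ ^ 2 * ‖yy π ρ x r w p‖ := by
  have hκ0 : 0 ≤ κ := (norm_nonneg _).trans (hs.k1 0)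
  have h1 : hw π ρ x w p - yy π ρ x r w p = w (foot π ρ x r w p) - w (π (p - x)) := by
    unfold hw yy
    abel
  rw [h1]
  have h2 := convex_univ.norm_image_sub_le_of_norm_fderiv_le (𝕜 := ℝ)
    (fun z _ => h.differentiable z) (fun z _ => hs.k1 z) (mem_univ (π (p - x)))
    (mem_univ (foot π ρ x r w p))
  have h3 := norm_foot_sub_le h hp hs
  calc ‖w (foot π ρ x r w p) - w (π (p - x))‖ ≤ κ * ‖foot π ρ x r w p - π (p - x)‖ := h2
    _ ≤ κ * (κ * ‖yy π ρ x r w p‖) := by gcongr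
    _ = _ := by ring

theorem norm_dw_sub_le (h : Gr r w) (hp : p ∈ tube π ρ x r w) (hs : Sm w κ κ₂) :
    ‖fderiv ℝ w (foot π ρ x r w p) - fderiv ℝ w (π (p - x))‖ ≤
      κ₂ * (κ * ‖yy π ρ x r w p‖) := by
  have hκ0 : 0 ≤ κ₂ := hs.k20
  have h2 := convex_univ.norm_image_sub_le_of_norm_fderiv_le (𝕜 := ℝ)
    (fun z _ => h.differentiable' z) (fun z _ => hs.k2 z) (mem_univ (π (p - x)))
    (mem_univ (foot π ρ x r w p))
  have h3 := norm_foot_sub_le h hp hs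
  exact h2.trans (by gcongr)

/-- the normal vector at the foot -/
def nut (π : Euc k →L[ℝ] Euc m) (ρ : Euc k →L[ℝ] Euc n) (x : Euc k) (r : ℝ) (w : Euc m → Euc n)
    (p : Euc k) : Euc k := Bt π ρ w (foot π ρ x r w p) (yy π ρ x r w p)

theorem norm_yy_le_nut (hf : Frame π ρ) : ‖yy π ρ x r w p‖ ≤ ‖nut π ρ x r w p‖ :=
  le_norm_BB (frame_fr hf) _

theorem norm_nut_le (hf : Frame π ρ) (hs : Sm w κ κ₂) :
    ‖nut π ρ x r w p‖ ≤ (1 + κ) * ‖yy π ρ x r w p‖ :=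
  norm_BB_le (frame_fr hf) (hs.k1 _) _

theorem norm_hw_le (h : Gr r w) (hf : Frame π ρ) (hp : p ∈ tube π ρ x r w) (hs : Sm w κ κ₂) :
    ‖hw π ρ x w p‖ ≤ 2 * ‖nut π ρ x r w p‖ := by
  have hκ0 : 0 ≤ κ := (norm_nonneg _).trans (hs.k1 0)
  have h1 := norm_hw_sub_le h hp hs
  have h2 := norm_yy_le_nut (x := x) (r := r) (w := w) (p := p) hf
  have h3 := norm_le_norm_add_norm_sub' (hw π ρ x w p) (yy π ρ x r w p)
  have h4 : κ ^ 2 ≤ 1 := by have := hs.k8; nlinarith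
  have h5 := norm_nonneg (yy π ρ x r w p)
  nlinarith

theorem norm_nut_le_hw (h : Gr r w) (hf : Frame π ρ) (hp : p ∈ tube π ρ x r w) (hs : Sm w κ κ₂) :
    ‖nut π ρ x r w p‖ ≤ 2 * ‖hw π ρ x w p‖ := by
  have hκ0 : 0 ≤ κ := (norm_nonneg _).trans (hs.k1 0)
  have h1 := norm_hw_sub_le h hp hs
  have h2 := norm_nut_le (x := x) (r := r) (p := p) hf hs
  have h3 := norm_le_norm_add_norm_sub (hw π ρ x w p) (yy π ρ x r w p)
  have h8 := hs.k8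
  have h4 : κ ^ 2 ≤ 1 / 64 := by nlinarith
  have h5 := norm_nonneg (yy π ρ x r w p)
  have h6 : ‖yy π ρ x r w p‖ ≤ 64 / 63 * ‖hw π ρ x w p‖ := by nlinarith
  nlinarith

/-- the derivative of the height over the graph of `w` -/
def dhw (π : Euc k →L[ℝ] Euc m) (ρ : Euc k →L[ℝ] Euc n) (x : Euc k) (w : Euc m → Euc n) (p : Euc k) :
    Euc k →L[ℝ] Euc n := ρ - (fderiv ℝ w (π (p - x))) ∘L π

theorem norm_dhw_le (hf : Frame π ρ) (hs : Sm w κ κ₂) : ‖dhw π ρ x w p‖ ≤ 2 := by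
  have h1 : ‖π‖ ≤ 1 := by
    have := (frame_fr hf).norm_i_le
    rwa [GLK_128.norm_adj] at this
  have h2 : ‖ρ‖ ≤ 1 := by
    have := (frame_fr hf).norm_j_le
    rwa [GLK_128.norm_adj] at this
  have h3 := hs.k1 (π (p - x))
  have h8 := hs.k8
  unfold dhw
  calc ‖ρ - (fderiv ℝ w (π (p - x))) ∘L π‖ ≤ ‖ρ‖ + ‖(fderiv ℝ w (π (p - x))) ∘L π‖ := norm_sub_le _ _
    _ ≤ 1 + ‖fderiv ℝ w (π (p - x))‖ * ‖π‖ := by
        gcongr
        exact ContinuousLinearMap.opNorm_comp_le _ _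
    _ ≤ 1 + 1 / 8 * 1 := by
        gcongr
        linarith
    _ ≤ 2 := by norm_num

theorem dhw_apply (v : Euc k) : dhw π ρ x w p v =
    adj (adj ρ) v - fderiv ℝ w (π (p - x)) (adj (adj π) v) := by
  rw [ContinuousLinearMap.adjoint_adjoint, ContinuousLinearMap.adjoint_adjoint]
  simp [dhw]

/-- (j2) -/
theorem dhw_P (h : Gr r w) (hf : Frame π ρ) (hp : p ∈ tube π ρ x r w) (hs : Sm w κ κ₂)
    {P : Euc k →L[ℝ] Euc k} (hP : Pj (Euc m) P) {δ s : ℝ} (hδ1 : δ ≤ 1) (hκ : κ ≤ δ) (hκ2 : κ₂ * s ≤ δ)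
    (hs0 : 0 < s) (v : Euc k) :
    ‖dhw π ρ x w p (P v)‖ ^ 2 ≤ 4 * (tau0 (adj π) (adj ρ) (fderiv ℝ w (foot π ρ x r w p))
      (hinv (fderiv ℝ w (foot π ρ x r w p))) P + δ ^ 2 * (‖nut π ρ x r w p‖ ^ 2 / s ^ 2)) *
        ‖v‖ ^ 2 := by
  have hκ0 : 0 ≤ κ := (norm_nonneg _).trans (hs.k1 0)
  have hκ20 : 0 ≤ κ₂ := hs.k20
  have H := h.inv (foot π ρ x r w p) (h.norm_yy_lt hp).le
  have h1 := norm_Dh_sq_le (q' := fderiv ℝ w (π (p - x))) (frame_fr hf) H hP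
    ((hs.k1 _).trans (by have := hs.k8; linarith)) v
  rw [dhw_apply]
  refine h1.trans ?_
  have h2 := norm_dw_sub_le h hp hs
  have h3 := norm_yy_le_nut (x := x) (r := r) (w := w) (p := p) hf
  have h4 : ‖fderiv ℝ w (foot π ρ x r w p) - fderiv ℝ w (π (p - x))‖ ≤
      δ * (‖nut π ρ x r w p‖ / s) := by
    refine h2.trans ?_
    rw [← mul_div_assoc, le_div_iff₀ hs0]
    calc κ₂ * (κ * ‖yy π ρ x r w p‖) * s = (κ₂ * s) * (κ * ‖yy π ρ x r w p‖) := by ring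
      _ ≤ δ * (1 * ‖nut π ρ x r w p‖) := by
          have : κ ≤ 1 := hκ.trans hδ1
          have : 0 ≤ δ := hκ0.trans hκ
          gcongr
      _ = _ := by ring
  have h5 : ‖fderiv ℝ w (foot π ρ x r w p) - fderiv ℝ w (π (p - x))‖ ^ 2 ≤
      δ ^ 2 * (‖nut π ρ x r w p‖ ^ 2 / s ^ 2) := by
    calc _ ≤ (δ * (‖nut π ρ x r w p‖ / s)) ^ 2 := pow_le_pow_left₀ (norm_nonneg _) h4 2
      _ = _ := by ring
  gcongr

/-- (j4) -/
theorem hw_sub_dhw (h : Gr r w) (hf : Frame π ρ) (hp : p ∈ tube π ρ x r w) (hs : Sm w κ κ₂) {δ : ℝ}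
    (hκ : κ ≤ δ) : ‖hw π ρ x w p - dhw π ρ x w p (nut π ρ x r w p)‖ ≤ δ * ‖nut π ρ x r w p‖ := by
  have hκ0 : 0 ≤ κ := (norm_nonneg _).trans (hs.k1 0)
  have h1 : dhw π ρ x w p (nut π ρ x r w p) = yy π ρ x r w p +
      fderiv ℝ w (π (p - x)) (adj (fderiv ℝ w (foot π ρ x r w p)) (yy π ρ x r w p)) := by
    rw [dhw_apply]
    exact Dh_BB (frame_fr hf) _
  have h2 : ‖fderiv ℝ w (π (p - x)) (adj (fderiv ℝ w (foot π ρ x r w p)) (yy π ρ x r w p))‖ ≤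
      κ ^ 2 * ‖yy π ρ x r w p‖ := by
    refine (ContinuousLinearMap.le_opNorm _ _).trans ?_
    have h3 : ‖adj (fderiv ℝ w (foot π ρ x r w p)) (yy π ρ x r w p)‖ ≤ κ * ‖yy π ρ x r w p‖ := by
      refine (ContinuousLinearMap.le_opNorm _ _).trans ?_
      rw [GLK_128.norm_adj]
      gcongr
      exact hs.k1 _
    calc _ ≤ κ * (κ * ‖yy π ρ x r w p‖) := mul_le_mul (hs.k1 _) h3 (norm_nonneg _) hκ0
      _ = _ := by ring
  have h3 := norm_hw_sub_le h hp hs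
  have h4 := norm_yy_le_nut (x := x) (r := r) (w := w) (p := p) hf
  have h5 : hw π ρ x w p - dhw π ρ x w p (nut π ρ x r w p) = (hw π ρ x w p - yy π ρ x r w p) -
      fderiv ℝ w (π (p - x)) (adj (fderiv ℝ w (foot π ρ x r w p)) (yy π ρ x r w p)) := by
    rw [h1]; abel
  rw [h5]
  refine (norm_sub_le _ _).trans ?_
  have h6 : 2 * κ ^ 2 ≤ δ := by have := hs.k8; nlinarith
  have h7 := norm_nonneg (yy π ρ x r w p)
  calc ‖hw π ρ x w p - yy π ρ x r w p‖ +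
      ‖fderiv ℝ w (π (p - x)) (adj (fderiv ℝ w (foot π ρ x r w p)) (yy π ρ x r w p))‖
      ≤ (2 * κ ^ 2) * ‖yy π ρ x r w p‖ := by linarith
    _ ≤ δ * ‖nut π ρ x r w p‖ := by
        have : 0 ≤ δ := hκ0.trans hκ
        gcongr

/-- `dx† (x)` for the chart at the centre `X0` -/
def xit (π : Euc k →L[ℝ] Euc m) (ρ : Euc k →L[ℝ] Euc n) (x : Euc k) (r : ℝ) (w : Euc m → Euc n)
    (X0 : Euc m) (p : Euc k) : Euc k :=
  A0t π ρ w (foot π ρ x r w p)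
    (Li w (foot π ρ x r w p) (yy π ρ x r w p) (gg (fderiv ℝ w X0) (foot π ρ x r w p - X0)))

theorem norm_Yo_small (h : Gr r w) (hp : p ∈ tube π ρ x r w) (hs : Sm w κ κ₂) :
    ‖Yo w (foot π ρ x r w p) (yy π ρ x r w p)‖ ≤ κ₂ * ‖yy π ρ x r w p‖ := by
  refine (norm_Yo_le _ _ _).trans ?_
  gcongr
  exact hs.k2 _

/-- (j3) -/
theorem dhw_xit (h : Gr r w) (hf : Frame π ρ) (hp : p ∈ tube π ρ x r w) (hs : Sm w κ κ₂)
    {X0 : Euc m} {δ s : ℝ} (hκ : κ ≤ δ) (hκ2 : κ₂ * s ≤ δ)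
    (hs0 : 0 < s) (hX : ‖foot π ρ x r w p - X0‖ ≤ 2 * s) :
    ‖dhw π ρ x w p (xit π ρ x r w X0 p)‖ ≤ 12 * δ * ‖nut π ρ x r w p‖ := by
  have hκ0 : 0 ≤ κ := (norm_nonneg _).trans (hs.k1 0)
  have hκ20 : 0 ≤ κ₂ := hs.k20
  have hδ0 : 0 ≤ δ := hκ0.trans hκ
  have hY : ‖Yo w (foot π ρ x r w p) (yy π ρ x r w p)‖ ≤ 1 / 2 :=
    (h.norm_Yo_le _ (h.norm_yy_lt hp).le).trans (by norm_num)
  have H := h.inv (foot π ρ x r w p) (h.norm_yy_lt hp).le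
  have h1 : dhw π ρ x w p (xit π ρ x r w X0 p) =
      (fderiv ℝ w (foot π ρ x r w p) - fderiv ℝ w (π (p - x)))
        (Li w (foot π ρ x r w p) (yy π ρ x r w p) (gg (fderiv ℝ w X0) (foot π ρ x r w p - X0))) := by
    rw [dhw_apply]
    exact Dh_A0 (frame_fr hf) _
  rw [h1]
  refine (ContinuousLinearMap.le_opNorm _ _).trans ?_
  have h2 := norm_dw_sub_le h hp hs
  have h3 := norm_Li_gg_le H hY (q0 := fderiv ℝ w X0)
    ((hs.k1 X0).trans (by have := hs.k8; linarith)) (foot π ρ x r w p - X0)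
  have h4 := norm_yy_le_nut (x := x) (r := r) (w := w) (p := p) hf
  calc _ ≤ (κ₂ * (κ * ‖yy π ρ x r w p‖)) * (3 * ‖foot π ρ x r w p - X0‖) :=
        mul_le_mul h2 h3 (norm_nonneg _) (by positivity)
    _ ≤ (κ₂ * (κ * ‖nut π ρ x r w p‖)) * (3 * (2 * s)) := by gcongr
    _ = 6 * (κ₂ * s) * κ * ‖nut π ρ x r w p‖ := by ring
    _ ≤ 6 * δ * 1 * ‖nut π ρ x r w p‖ := by
        have : κ ≤ 1 := by have := hs.k8; linarith
        gcongr
    _ ≤ _ := by nlinarith [mul_nonneg hδ0 (norm_nonneg (nut π ρ x r w p))]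

/-- (j1) -/
theorem xit_sub (h : Gr r w) (hf : Frame π ρ) (hp : p ∈ tube π ρ x r w) (hs : Sm w κ κ₂)
    {X0 : Euc m} {δ s : ℝ} (hκ : κ ≤ δ) (hκ2 : κ₂ * s ≤ δ)
    (hs0 : 0 < s) (hX : ‖foot π ρ x r w p - X0‖ ≤ 2 * s) (hy : ‖yy π ρ x r w p‖ ≤ s) :
    ‖xit π ρ x r w X0 p - adj π (π (p - x) - X0)‖ ≤ 12 * δ * s := by
  have hκ0 : 0 ≤ κ := (norm_nonneg _).trans (hs.k1 0)
  have hκ20 : 0 ≤ κ₂ := hs.k20
  have hδ0 : 0 ≤ δ := hκ0.trans hκ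
  have hY : ‖Yo w (foot π ρ x r w p) (yy π ρ x r w p)‖ ≤ 1 / 2 :=
    (h.norm_Yo_le _ (h.norm_yy_lt hp).le).trans (by norm_num)
  have H := h.inv (foot π ρ x r w p) (h.norm_yy_lt hp).le
  have h1 := norm_lift_sub (frame_fr hf) H hY (hs.k1 (foot π ρ x r w p)) (hs.k1 X0)
    (by have := hs.k8; linarith) (foot π ρ x r w p - X0)
  have h2 : ‖adj π (foot π ρ x r w p - π (p - x))‖ ≤ κ * ‖yy π ρ x r w p‖ := by
    rw [(frame_fr hf).norm_i]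
    exact norm_foot_sub_le h hp hs
  have h3 : xit π ρ x r w X0 p - adj π (π (p - x) - X0) =
      (xit π ρ x r w X0 p - adj π (foot π ρ x r w p - X0)) +
        adj π (foot π ρ x r w p - π (p - x)) := by
    have e : π (p - x) - X0 = (foot π ρ x r w p - X0) - (foot π ρ x r w p - π (p - x)) := by abel
    rw [e, map_sub (adj π) (foot π ρ x r w p - X0)]
    abel
  rw [h3]
  refine (norm_add_le _ _).trans ?_
  have h4 : ‖xit π ρ x r w X0 p - adj π (foot π ρ x r w p - X0)‖ ≤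
      (5 * κ ^ 2 + 3 * ‖Yo w (foot π ρ x r w p) (yy π ρ x r w p)‖ + κ) *
        ‖foot π ρ x r w p - X0‖ := h1
  have h5 := norm_Yo_small h hp hs
  have h6 : ‖Yo w (foot π ρ x r w p) (yy π ρ x r w p)‖ ≤ δ := by
    refine h5.trans ((mul_le_mul_of_nonneg_left hy hκ20).trans hκ2)
  have h7 : 5 * κ ^ 2 + 3 * ‖Yo w (foot π ρ x r w p) (yy π ρ x r w p)‖ + κ ≤ 5 * δ := by
    have := hs.k8
    nlinarith
  calc _ ≤ 5 * δ * (2 * s) + δ * s := by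
        refine add_le_add (h4.trans ?_) (h2.trans ?_)
        · gcongr
        · gcongr
    _ ≤ 12 * δ * s := by nlinarith [mul_nonneg hδ0 hs0.le]

end tb

end Crest.Agent.R234.Pd_435
end
end

-- ▼ part R234/F11c_435
section

/-!
# Row 234, VF-F11 (helper435), part 3: the pinching inequality (J)

For 394's frame at one centre: `RR - 2 α Ph + α² II` is a perfect square integral and dominates
`e^{-ml} ∫_S |Dh P w - α h|²`, where `h` is any height function, `Dh` its derivative and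
`w` a horizontal vector close to `dx† x`.
-/

set_option autoImplicit false
set_option linter.unusedVariables false

open MeasureTheory Set Function Filter Topology
open Crest.GeometryTopology.Submanifold
open Crest.Agent.R234.Vf_884 Crest.Agent.R234.Ar_870 Crest.Agent.R234.Cy_870
open Crest.Agent.R234.GL_394
open scoped ENNReal NNReal InnerProductSpace

noncomputable section

namespace Crest.Agent.R234.F11_435

variable {m n k : ℕ} {c : Ch m k} {K : Set (Euc k)} {D : Set (Euc m)}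
  {V : Measure (Euc k × L k)} {g g1 g2 : ℝ → ℝ}

theorem cont_x (h : Ok c K D) : ContinuousOn c.x K := fun z hz => (h.hx z hz).continuousAt.continuousWithinAt

theorem cont_f (h : Ok c K D) : ContinuousOn c.f K := fun z hz => (h.hf z hz).continuousAt.continuousWithinAt

theorem cont_nu (h : Ok c K D) : ContinuousOn c.nu K := fun z hz => (h.hnu z hz).continuousAt.continuousWithinAt

theorem cont_mu (h : Ok c K D) : ContinuousOn (fun z => c.mu (c.x z)) K :=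
  h.cmu.comp (cont_x h) h.mem

theorem cont_xi (h : Ok c K D) : ContinuousOn (xi c) K := by
  have h1 : ContinuousOn (fun z => ContinuousLinearMap.adjoint (c.dx z)) K :=
    (ContinuousLinearMap.adjoint (𝕜 := ℝ) (E := Euc k) (F := Euc m)).continuous.comp_continuousOn h.cdx
  exact h1.clm_apply (cont_x h)

/-- the square `μ⁻¹ |(1 - P) dx† x + α μ ν|²` -/
def sq (c : Ch m k) (α : ℝ) (p : Euc k × L k) : ℝ :=
  (c.mu (c.x p.1))⁻¹ * ‖(xi c p.1 - p.2 (xi c p.1)) + (α * c.mu (c.x p.1)) • c.nu p.1‖ ^ 2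

theorem inner_xi_nu (h : Ok c K D) {z : Euc k} (hz : z ∈ K) : ⟪xi c z, c.nu z⟫_ℝ = 0 := by
  unfold xi
  rw [ContinuousLinearMap.adjoint_inner_left, h.dxnu z hz, inner_zero_right]

theorem sq_eq (h : Ok c K D) (α : ℝ) {p : Euc k × L k} (hp : p ∈ K ×ˢ G m k) :
    sq c α p = rr c p - 2 * α * ph c p + α ^ 2 * (2 * (c.f p.1 * c.mu (c.x p.1))) := by
  have hμ : 0 < c.mu (c.x p.1) := h.mupos _ (h.mem _ hp.1)
  have hP := isPr_of_G hp.2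
  have h1 : ⟪xi c p.1 - p.2 (xi c p.1), c.nu p.1⟫_ℝ = -ph c p := by
    rw [inner_sub_left, inner_xi_nu h hp.1, zero_sub]
    congr 1
    unfold ph
    rw [← ContinuousLinearMap.adjoint_inner_left]
    change ⟪p.2 (xi c p.1), c.nu p.1⟫_ℝ = ⟪xi c p.1, p.2 (c.nu p.1)⟫_ℝ
    nth_rewrite 1 [← hP.2]
    rw [ContinuousLinearMap.adjoint_inner_left]
  unfold sq rr
  rw [@norm_add_sq_real, inner_smul_right, h1, norm_smul, mul_pow, h.nusq _ hp.1, Real.norm_eq_abs,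
    sq_abs]
  field_simp
  ring

theorem sq_nonneg' (h : Ok c K D) (α : ℝ) {p : Euc k × L k} (hp : p ∈ K ×ˢ G m k) : 0 ≤ sq c α p := by
  have hμ : 0 < c.mu (c.x p.1) := h.mupos _ (h.mem _ hp.1)
  unfold sq
  positivity

theorem fst_mapsTo : MapsTo (Prod.fst : Euc k × L k → Euc k) (K ×ˢ G m k) K := fun _ hp => hp.1

theorem cont_tt (h : Ok c K D) (l : ℝ) : ContinuousOn (fun p : Euc k × L k =>
    Real.exp (-2 * l) * ‖c.x p.1‖ ^ 2) (K ×ˢ G m k) :=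
  continuousOn_const.mul (((cont_x h).comp continuousOn_fst fst_mapsTo).norm.pow 2)

theorem cont_rr (h : Ok c K D) : ContinuousOn (rr c) (K ×ˢ G m k) := by
  have h1 : ContinuousOn (fun p : Euc k × L k => xi c p.1) (K ×ˢ G m k) :=
    (cont_xi h).comp continuousOn_fst fst_mapsTo
  have h2 : ContinuousOn (fun p : Euc k × L k => c.mu (c.x p.1)) (K ×ˢ G m k) :=
    (cont_mu h).comp continuousOn_fst fst_mapsTo
  have h3 : ContinuousOn (fun p : Euc k × L k => p.2 (xi c p.1)) (K ×ˢ G m k) :=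
    continuousOn_snd.clm_apply h1
  unfold rr
  exact (h2.inv₀ fun p hp => (h.mupos _ (h.mem _ hp.1)).ne').mul ((h1.sub h3).norm.pow 2)

theorem cont_ph (h : Ok c K D) : ContinuousOn (ph c) (K ×ˢ G m k) := by
  have h1 : ContinuousOn (fun p : Euc k × L k => c.nu p.1) (K ×ˢ G m k) :=
    (cont_nu h).comp continuousOn_fst fst_mapsTo
  have h2 : ContinuousOn (fun p : Euc k × L k => c.dx p.1) (K ×ˢ G m k) :=
    h.cdx.comp continuousOn_fst fst_mapsTo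
  have h3 : ContinuousOn (fun p : Euc k × L k => c.x p.1) (K ×ˢ G m k) :=
    (cont_x h).comp continuousOn_fst fst_mapsTo
  unfold ph
  exact h3.inner (𝕜 := ℝ) (h2.clm_apply (continuousOn_snd.clm_apply h1))

theorem cont_fmu (h : Ok c K D) : ContinuousOn (fun p : Euc k × L k => c.f p.1 * c.mu (c.x p.1))
    (K ×ˢ G m k) :=
  ((cont_f h).comp continuousOn_fst fst_mapsTo).mul ((cont_mu h).comp continuousOn_fst fst_mapsTo)

theorem cont_q (h : Ok c K D) {q : ℝ → ℝ} (hq : Continuous q) (l : ℝ) :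
    ContinuousOn (fun p : Euc k × L k => q (Real.exp (-2 * l) * ‖c.x p.1‖ ^ 2)) (K ×ˢ G m k) :=
  hq.comp_continuousOn (cont_tt h l)

/-- **`RR - 2 α Ph + α² II` is a perfect square integral.** -/
theorem square_eq (h : Ok c K D) (hV : On V m K) (hg : Prof g g1 g2) (α l : ℝ) :
    GL_394.RR c V g1 l - 2 * α * Ph c V g1 l + α ^ 2 * II c V g1 l =
      Real.exp (-m * l) * ∫ p, sq c α p * (-2 * g1 (Real.exp (-2 * l) * ‖c.x p.1‖ ^ 2)) ∂V := by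
  have hc1 := hg.k1.continuous
  have i1 : Integrable (fun p : Euc k × L k => rr c p *
      (-2 * g1 (Real.exp (-2 * l) * ‖c.x p.1‖ ^ 2))) V :=
    hV.integrable h.cpt ((cont_rr h).mul (continuousOn_const.mul (cont_q h hc1 l)))
  have i2 : Integrable (fun p : Euc k × L k => ph c p *
      (-2 * g1 (Real.exp (-2 * l) * ‖c.x p.1‖ ^ 2))) V :=
    hV.integrable h.cpt ((cont_ph h).mul (continuousOn_const.mul (cont_q h hc1 l)))
  have i3 : Integrable (fun p : Euc k × L k => (c.f p.1 * c.mu (c.x p.1)) *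
      (-4 * g1 (Real.exp (-2 * l) * ‖c.x p.1‖ ^ 2))) V :=
    hV.integrable h.cpt ((cont_fmu h).mul (continuousOn_const.mul (cont_q h hc1 l)))
  unfold GL_394.RR Ph II
  have i4 : Integrable (fun p : Euc k × L k => 2 * α * (ph c p *
      (-2 * g1 (Real.exp (-2 * l) * ‖c.x p.1‖ ^ 2)))) V := i2.const_mul _
  have i5 : Integrable (fun p : Euc k × L k => α ^ 2 * ((c.f p.1 * c.mu (c.x p.1)) *
      (-4 * g1 (Real.exp (-2 * l) * ‖c.x p.1‖ ^ 2)))) V := i3.const_mul _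
  have i6 : Integrable (fun p : Euc k × L k => rr c p *
      (-2 * g1 (Real.exp (-2 * l) * ‖c.x p.1‖ ^ 2)) - 2 * α * (ph c p *
      (-2 * g1 (Real.exp (-2 * l) * ‖c.x p.1‖ ^ 2)))) V := i1.sub i4
  have h1 : ∫ p, sq c α p * (-2 * g1 (Real.exp (-2 * l) * ‖c.x p.1‖ ^ 2)) ∂V =
      ∫ p, (rr c p * (-2 * g1 (Real.exp (-2 * l) * ‖c.x p.1‖ ^ 2)) - 2 * α * (ph c p *
        (-2 * g1 (Real.exp (-2 * l) * ‖c.x p.1‖ ^ 2))) + α ^ 2 * ((c.f p.1 * c.mu (c.x p.1)) *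
        (-4 * g1 (Real.exp (-2 * l) * ‖c.x p.1‖ ^ 2)))) ∂V := by
    refine integral_congr_ae ?_
    filter_upwards [hV.mem] with p hp
    rw [sq_eq h α hp]
    ring
  rw [h1, integral_add i6 i5, integral_sub i1 i4, integral_const_mul, integral_const_mul]
  ring


theorem cont_sq (h : Ok c K D) (α : ℝ) : ContinuousOn (sq c α) (K ×ˢ G m k) := by
  have h1 : ContinuousOn (fun p : Euc k × L k => rr c p - 2 * α * ph c p +
      α ^ 2 * (2 * (c.f p.1 * c.mu (c.x p.1)))) (K ×ˢ G m k) :=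
    ((cont_rr h).sub (continuousOn_const.mul (cont_ph h))).add
      (continuousOn_const.mul (continuousOn_const.mul (cont_fmu h)))
  exact h1.congr fun p hp => sq_eq h α hp

theorem five {F : Type*} [NormedAddCommGroup F] (a b c d e : F) : ‖a - b + c + d + e‖ ^ 2 ≤
    5 * (‖a‖ ^ 2 + ‖b‖ ^ 2 + ‖c‖ ^ 2 + ‖d‖ ^ 2 + ‖e‖ ^ 2) := by
  have e1 : ‖a - b + c + d + e‖ ≤ ‖a‖ + ‖b‖ + ‖c‖ + ‖d‖ + ‖e‖ := by
    have h1 := norm_add_le (a - b + c + d) e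
    have h2 := norm_add_le (a - b + c) d
    have h3 := norm_add_le (a - b) c
    have h4 := norm_sub_le a b
    linarith
  have e2 : ‖a - b + c + d + e‖ ^ 2 ≤ (‖a‖ + ‖b‖ + ‖c‖ + ‖d‖ + ‖e‖) ^ 2 :=
    pow_le_pow_left₀ (norm_nonneg _) e1 2
  refine e2.trans ?_
  generalize ‖a‖ = x1
  generalize ‖b‖ = x2
  generalize ‖c‖ = x3
  generalize ‖d‖ = x4
  generalize ‖e‖ = x5
  linarith [sq_nonneg (x1 - x2), sq_nonneg (x1 - x3), sq_nonneg (x1 - x4), sq_nonneg (x1 - x5),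
    sq_nonneg (x2 - x3), sq_nonneg (x2 - x4), sq_nonneg (x2 - x5), sq_nonneg (x3 - x4),
    sq_nonneg (x3 - x5), sq_nonneg (x4 - x5)]

/-- pointwise form of (J) -/
theorem ptw (h : Ok c K D) {p : Euc k × L k} (hp : p ∈ K ×ˢ G m k) {s ε C₁ α : ℝ} (hs : 0 < s)
    (hε0 : 0 ≤ ε) (hε1 : ε ≤ 1) (hC1 : 0 ≤ C₁) {w : Euc k} {y : Euc n} {Dh : Euc k →L[ℝ] Euc n}
    (j1 : ‖xi c p.1 - w‖ ≤ ε * s)
    (j2 : ∀ v, ‖Dh (p.2 v)‖ ^ 2 ≤ C₁ * (c.tau p.1 p.2 + ε ^ 2 * (‖c.nu p.1‖ ^ 2 / s ^ 2)) * ‖v‖ ^ 2)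
    (j3 : ‖Dh (xi c p.1)‖ ≤ ε * ‖c.nu p.1‖) (j4 : ‖y - Dh (c.nu p.1)‖ ≤ ε * ‖c.nu p.1‖)
    (j5 : ‖Dh‖ ≤ 2) (j6 : |c.mu (c.x p.1) - 1| ≤ ε) (j7 : 1 / 2 ≤ c.mu (c.x p.1))
    (j8 : c.mu (c.x p.1) ≤ 3 / 2) (j9 : 0 ≤ c.tau p.1 p.2) :
    ‖Dh (p.2 w) - α • y‖ ^ 2 ≤ 30 * sq c α p + 5 * C₁ * ε ^ 2 * s ^ 2 * c.tau p.1 p.2 +
      20 * ε ^ 2 * (C₁ + 1 + 5 * α ^ 2) * (c.f p.1 * c.mu (c.x p.1)) := by
  set μ := c.mu (c.x p.1) with hμ
  set ν := c.nu p.1 with hν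
  set ξ := xi c p.1 with hξ
  set τ := c.tau p.1 p.2 with hτ
  have hμ0 : 0 < μ := by linarith
  have hnusq := h.nusq _ hp.1
  rw [← hν] at hnusq
  -- the five terms
  set a1 := Dh (p.2 (w - ξ)) with ha1
  set a2 := Dh ((ξ - p.2 ξ) + (α * μ) • ν) with ha2
  set a3 := Dh ξ with ha3
  set a4 := (α * (μ - 1)) • Dh ν with ha4
  set a5 := α • (Dh ν - y) with ha5
  have hsum : Dh (p.2 w) - α • y = a1 - a2 + a3 + a4 + a5 := by
    rw [ha1, ha2, ha3, ha4, ha5]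
    simp only [map_sub, map_add, map_smul, smul_sub, mul_sub, sub_smul, mul_one]
    abel
  have b1 : ‖a1‖ ^ 2 ≤ C₁ * ε ^ 2 * s ^ 2 * τ + C₁ * ε ^ 2 * ‖ν‖ ^ 2 := by
    have e1 : ‖w - ξ‖ ^ 2 ≤ ε ^ 2 * s ^ 2 := by
      rw [norm_sub_rev, ← mul_pow]
      gcongr
    calc ‖a1‖ ^ 2 ≤ C₁ * (τ + ε ^ 2 * (‖ν‖ ^ 2 / s ^ 2)) * ‖w - ξ‖ ^ 2 := j2 _
      _ ≤ C₁ * (τ + ε ^ 2 * (‖ν‖ ^ 2 / s ^ 2)) * (ε ^ 2 * s ^ 2) := by gcongr
      _ = C₁ * ε ^ 2 * s ^ 2 * τ + C₁ * ε ^ 2 * (ε ^ 2 * ‖ν‖ ^ 2) := by field_simp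
      _ ≤ C₁ * ε ^ 2 * s ^ 2 * τ + C₁ * ε ^ 2 * (1 * ‖ν‖ ^ 2) := by
          have : ε ^ 2 ≤ 1 := pow_le_one₀ hε0 hε1
          gcongr
      _ = _ := by ring
  have b2 : ‖a2‖ ^ 2 ≤ 6 * sq c α p := by
    have e1 : ‖a2‖ ≤ 2 * ‖(ξ - p.2 ξ) + (α * μ) • ν‖ :=
      (Dh.le_opNorm _).trans (by gcongr)
    have e2 : ‖a2‖ ^ 2 ≤ 4 * ‖(ξ - p.2 ξ) + (α * μ) • ν‖ ^ 2 := by
      calc ‖a2‖ ^ 2 ≤ (2 * ‖(ξ - p.2 ξ) + (α * μ) • ν‖) ^ 2 := by gcongr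
        _ = _ := by ring
    have e3 : ‖(ξ - p.2 ξ) + (α * μ) • ν‖ ^ 2 = μ * sq c α p := by
      unfold sq
      rw [← hμ, ← hξ, ← hν]
      field_simp
    have e4 : 0 ≤ sq c α p := sq_nonneg' h α hp
    rw [e3] at e2
    nlinarith
  have b3 : ‖a3‖ ^ 2 ≤ ε ^ 2 * ‖ν‖ ^ 2 := by
    rw [← mul_pow]; gcongr
  have b4 : ‖a4‖ ^ 2 ≤ 4 * α ^ 2 * ε ^ 2 * ‖ν‖ ^ 2 := by
    have e1 : ‖Dh ν‖ ≤ 2 * ‖ν‖ := (Dh.le_opNorm _).trans (by gcongr)
    have e2 : ‖a4‖ ≤ |α| * ε * (2 * ‖ν‖) := by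
      rw [ha4, norm_smul, Real.norm_eq_abs, abs_mul]
      gcongr
    calc ‖a4‖ ^ 2 ≤ (|α| * ε * (2 * ‖ν‖)) ^ 2 := by gcongr
      _ = 4 * |α| ^ 2 * ε ^ 2 * ‖ν‖ ^ 2 := by ring
      _ = _ := by rw [sq_abs]
  have b5 : ‖a5‖ ^ 2 ≤ α ^ 2 * ε ^ 2 * ‖ν‖ ^ 2 := by
    have e2 : ‖a5‖ ≤ |α| * (ε * ‖ν‖) := by
      rw [ha5, norm_smul, Real.norm_eq_abs, norm_sub_rev]
      gcongr
    calc ‖a5‖ ^ 2 ≤ (|α| * (ε * ‖ν‖)) ^ 2 := by gcongr
      _ = |α| ^ 2 * ε ^ 2 * ‖ν‖ ^ 2 := by ring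
      _ = _ := by rw [sq_abs]
  have htot : ‖Dh (p.2 w) - α • y‖ ^ 2 ≤
      5 * (‖a1‖ ^ 2 + ‖a2‖ ^ 2 + ‖a3‖ ^ 2 + ‖a4‖ ^ 2 + ‖a5‖ ^ 2) := by
    rw [hsum]
    exact five _ _ _ _ _
  have hf0 : 0 ≤ c.f p.1 := by nlinarith [sq_nonneg ‖ν‖]
  have hν2 : ‖ν‖ ^ 2 ≤ 4 * (c.f p.1 * μ) := by
    rw [hnusq]; nlinarith
  have hα : 0 ≤ α ^ 2 := sq_nonneg α
  have hε2 : 0 ≤ ε ^ 2 := sq_nonneg ε
  calc ‖Dh (p.2 w) - α • y‖ ^ 2
      ≤ 5 * ((C₁ * ε ^ 2 * s ^ 2 * τ + C₁ * ε ^ 2 * ‖ν‖ ^ 2) + 6 * sq c α p + ε ^ 2 * ‖ν‖ ^ 2 +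
        4 * α ^ 2 * ε ^ 2 * ‖ν‖ ^ 2 + α ^ 2 * ε ^ 2 * ‖ν‖ ^ 2) := by linarith
    _ = 30 * sq c α p + 5 * C₁ * ε ^ 2 * s ^ 2 * τ +
        5 * (ε ^ 2 * (C₁ + 1 + 5 * α ^ 2)) * ‖ν‖ ^ 2 := by ring
    _ ≤ 30 * sq c α p + 5 * C₁ * ε ^ 2 * s ^ 2 * τ +
        5 * (ε ^ 2 * (C₁ + 1 + 5 * α ^ 2)) * (4 * (c.f p.1 * μ)) := by gcongr
    _ = _ := by ring

/-- the profile is nonnegative -/
theorem prof_nonneg (hg : Prof g g1 g2) {t : ℝ} (ht : 0 ≤ t) : 0 ≤ g t := by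
  by_contra hcon
  push Not at hcon
  have ht1 : t < 1 := by
    by_contra h1
    rw [hg.k0.zero t (not_lt.1 h1)] at hcon
    exact lt_irrefl _ hcon
  obtain ⟨u, hu, hu'⟩ := exists_hasDerivAt_eq_slope g g1 ht1
    (hg.k0.continuous.continuousOn) fun x _ => hg.k0.der x
  have h2 := hg.anti u (ht.trans hu.1.le)
  rw [hu', hg.k0.zero 1 le_rfl, zero_sub] at h2
  have h3 : 0 < -g t / (1 - t) := div_pos (by linarith) (by linarith)
  linarith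

/-- **(J), integrated.** On a set `S` where the profile is not small. -/
theorem jint (h : Ok c K D) (hV : On V m K) (hg : Prof g g1 g2) {l ε C₁ α cg : ℝ}
    (hε0 : 0 ≤ ε) (hε1 : ε ≤ 1) (hC1 : 0 ≤ C₁) (hcg : 0 < cg)
    (htau : ∀ p ∈ K ×ˢ G m k, 0 ≤ c.tau p.1 p.2)
    {S : Set (Euc k × L k)} (hS : MeasurableSet S)
    {w : Euc k × L k → Euc k} {y : Euc k × L k → Euc n} {Dh : Euc k × L k → Euc k →L[ℝ] Euc n}
    (hSg : ∀ p ∈ S, p ∈ K ×ˢ G m k → cg ≤ g (Real.exp (-2 * l) * ‖c.x p.1‖ ^ 2) ∧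
      cg ≤ -2 * g1 (Real.exp (-2 * l) * ‖c.x p.1‖ ^ 2))
    (j1 : ∀ p ∈ S, p ∈ K ×ˢ G m k → ‖xi c p.1 - w p‖ ≤ ε * Real.exp l)
    (j2 : ∀ p ∈ S, p ∈ K ×ˢ G m k → ∀ v, ‖Dh p (p.2 v)‖ ^ 2 ≤
      C₁ * (c.tau p.1 p.2 + ε ^ 2 * (‖c.nu p.1‖ ^ 2 / Real.exp l ^ 2)) * ‖v‖ ^ 2)
    (j3 : ∀ p ∈ S, p ∈ K ×ˢ G m k → ‖Dh p (xi c p.1)‖ ≤ ε * ‖c.nu p.1‖)
    (j4 : ∀ p ∈ S, p ∈ K ×ˢ G m k → ‖y p - Dh p (c.nu p.1)‖ ≤ ε * ‖c.nu p.1‖)
    (j5 : ∀ p ∈ S, p ∈ K ×ˢ G m k → ‖Dh p‖ ≤ 2)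
    (j6 : ∀ p ∈ S, p ∈ K ×ˢ G m k → |c.mu (c.x p.1) - 1| ≤ ε)
    (j7 : ∀ p ∈ S, p ∈ K ×ˢ G m k → 1 / 2 ≤ c.mu (c.x p.1))
    (j8 : ∀ p ∈ S, p ∈ K ×ˢ G m k → c.mu (c.x p.1) ≤ 3 / 2) :
    Real.exp (-m * l) * ∫ p in S, ‖Dh p (p.2 (w p)) - α • y p‖ ^ 2 ∂V ≤
      cg⁻¹ * (30 * (GL_394.RR c V g1 l - 2 * α * Ph c V g1 l + α ^ 2 * II c V g1 l) +
        5 * C₁ * ε ^ 2 * ee c V g l + 10 * ε ^ 2 * (C₁ + 1 + 5 * α ^ 2) * II c V g1 l) := by
  have hc1 := hg.k1.continuous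
  have hc0 := hg.k0.continuous
  have i1 : Integrable (fun p : Euc k × L k => sq c α p *
      (-2 * g1 (Real.exp (-2 * l) * ‖c.x p.1‖ ^ 2))) V :=
    hV.integrable h.cpt ((cont_sq h α).mul (continuousOn_const.mul (cont_q h hc1 l)))
  have i2 : Integrable (fun p : Euc k × L k => c.tau p.1 p.2 *
      g (Real.exp (-2 * l) * ‖c.x p.1‖ ^ 2)) V :=
    hV.integrable h.cpt (h.ctau.mul (cont_q h hc0 l))
  have i3 : Integrable (fun p : Euc k × L k => (c.f p.1 * c.mu (c.x p.1)) *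
      (-4 * g1 (Real.exp (-2 * l) * ‖c.x p.1‖ ^ 2))) V :=
    hV.integrable h.cpt ((cont_fmu h).mul (continuousOn_const.mul (cont_q h hc1 l)))
  set A1 : Euc k × L k → ℝ := fun p => sq c α p *
      (-2 * g1 (Real.exp (-2 * l) * ‖c.x p.1‖ ^ 2)) with hA1
  set A2 : Euc k × L k → ℝ := fun p => c.tau p.1 p.2 *
      g (Real.exp (-2 * l) * ‖c.x p.1‖ ^ 2) with hA2
  set A3 : Euc k × L k → ℝ := fun p => (c.f p.1 * c.mu (c.x p.1)) *
      (-4 * g1 (Real.exp (-2 * l) * ‖c.x p.1‖ ^ 2)) with hA3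
  set k1 := 30 * cg⁻¹ with hk1
  set k2 := 5 * C₁ * ε ^ 2 * Real.exp l ^ 2 * cg⁻¹ with hk2
  set k3 := 10 * ε ^ 2 * (C₁ + 1 + 5 * α ^ 2) * cg⁻¹ with hk3
  have iB : Integrable (fun p => k1 * A1 p + k2 * A2 p + k3 * A3 p) V :=
    ((i1.const_mul k1).add (i2.const_mul k2)).add (i3.const_mul k3)
  have hcgi : 0 < cg⁻¹ := inv_pos.2 hcg
  have hf0 : ∀ p ∈ K ×ˢ G m k, 0 ≤ c.f p.1 * c.mu (c.x p.1) := by
    intro p hp
    have h1 := h.nusq _ hp.1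
    have h2 := h.mupos _ (h.mem _ hp.1)
    have h3 : 0 ≤ c.f p.1 := by nlinarith [sq_nonneg ‖c.nu p.1‖]
    positivity
  have hB0 : ∀ᵐ p ∂V, 0 ≤ k1 * A1 p + k2 * A2 p + k3 * A3 p := by
    filter_upwards [hV.mem] with p hp
    have ht : 0 ≤ Real.exp (-2 * l) * ‖c.x p.1‖ ^ 2 := by positivity
    have h1 := hg.anti _ ht
    have h2 := prof_nonneg hg ht
    have h3 := htau p hp
    have h4 := hf0 p hp
    have h5 := sq_nonneg' h α hp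
    have e1 : 0 ≤ A1 p := mul_nonneg h5 (by linarith)
    have e2 : 0 ≤ A2 p := mul_nonneg h3 h2
    have e3 : 0 ≤ A3 p := mul_nonneg h4 (by linarith)
    positivity
  have hmono : ∫ p in S, ‖Dh p (p.2 (w p)) - α • y p‖ ^ 2 ∂V ≤
      ∫ p in S, (k1 * A1 p + k2 * A2 p + k3 * A3 p) ∂V := by
    refine integral_mono_of_nonneg (Filter.Eventually.of_forall fun p => by positivity)
      iB.integrableOn ?_
    filter_upwards [ae_restrict_of_ae hV.mem, ae_restrict_mem hS] with p hp hpS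
    have hpt := ptw (α := α) h hp (Real.exp_pos l) hε0 hε1 hC1 (j1 p hpS hp) (j2 p hpS hp)
      (j3 p hpS hp) (j4 p hpS hp) (j5 p hpS hp) (j6 p hpS hp) (j7 p hpS hp) (j8 p hpS hp)
      (htau p hp)
    refine hpt.trans ?_
    obtain ⟨hg0, hg1⟩ := hSg p hpS hp
    have h3 := htau p hp
    have h4 := hf0 p hp
    have h5 := sq_nonneg' h α hp
    have e1 : sq c α p ≤ cg⁻¹ * A1 p := by
      rw [← div_eq_inv_mul, le_div_iff₀ hcg]
      exact mul_le_mul_of_nonneg_left hg1 h5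
    have e2 : c.tau p.1 p.2 ≤ cg⁻¹ * A2 p := by
      rw [← div_eq_inv_mul, le_div_iff₀ hcg]
      exact mul_le_mul_of_nonneg_left hg0 h3
    have e3 : 2 * (c.f p.1 * c.mu (c.x p.1)) ≤ cg⁻¹ * A3 p := by
      rw [← div_eq_inv_mul, le_div_iff₀ hcg]
      have := mul_le_mul_of_nonneg_left hg1 h4
      simp only [hA3]
      linarith
    have c2 : 0 ≤ 5 * C₁ * ε ^ 2 * Real.exp l ^ 2 := by positivity
    have c3 : 0 ≤ 10 * ε ^ 2 * (C₁ + 1 + 5 * α ^ 2) := by positivity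
    calc 30 * sq c α p + 5 * C₁ * ε ^ 2 * Real.exp l ^ 2 * c.tau p.1 p.2 +
          20 * ε ^ 2 * (C₁ + 1 + 5 * α ^ 2) * (c.f p.1 * c.mu (c.x p.1))
        = 30 * sq c α p + (5 * C₁ * ε ^ 2 * Real.exp l ^ 2) * c.tau p.1 p.2 +
          (10 * ε ^ 2 * (C₁ + 1 + 5 * α ^ 2)) * (2 * (c.f p.1 * c.mu (c.x p.1))) := by ring
      _ ≤ 30 * (cg⁻¹ * A1 p) + (5 * C₁ * ε ^ 2 * Real.exp l ^ 2) * (cg⁻¹ * A2 p) +
          (10 * ε ^ 2 * (C₁ + 1 + 5 * α ^ 2)) * (cg⁻¹ * A3 p) := by gcongr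
      _ = _ := by rw [hk1, hk2, hk3]; ring
  have hset : ∫ p in S, (k1 * A1 p + k2 * A2 p + k3 * A3 p) ∂V ≤
      ∫ p, (k1 * A1 p + k2 * A2 p + k3 * A3 p) ∂V := setIntegral_le_integral iB hB0
  have hsum : ∫ p, (k1 * A1 p + k2 * A2 p + k3 * A3 p) ∂V =
      k1 * ∫ p, A1 p ∂V + k2 * ∫ p, A2 p ∂V + k3 * ∫ p, A3 p ∂V := by
    have i12 : Integrable (fun p => k1 * A1 p + k2 * A2 p) V :=
      (i1.const_mul k1).add (i2.const_mul k2)
    rw [integral_add i12 (i3.const_mul k3), integral_add (i1.const_mul k1) (i2.const_mul k2),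
      integral_const_mul, integral_const_mul, integral_const_mul]
  have hexp : Real.exp (-m * l) * Real.exp l ^ 2 = Real.exp ((2 - m) * l) := by
    rw [← Real.exp_nat_mul, ← Real.exp_add]
    congr 1
    push_cast
    ring
  calc Real.exp (-m * l) * ∫ p in S, ‖Dh p (p.2 (w p)) - α • y p‖ ^ 2 ∂V
      ≤ Real.exp (-m * l) * (k1 * ∫ p, A1 p ∂V + k2 * ∫ p, A2 p ∂V + k3 * ∫ p, A3 p ∂V) := by
        gcongr
        rw [← hsum]
        exact hmono.trans hset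
    _ = cg⁻¹ * (30 * (Real.exp (-m * l) * ∫ p, A1 p ∂V) +
        5 * C₁ * ε ^ 2 * (Real.exp (-m * l) * Real.exp l ^ 2 * ∫ p, A2 p ∂V) +
        10 * ε ^ 2 * (C₁ + 1 + 5 * α ^ 2) * (Real.exp (-m * l) * ∫ p, A3 p ∂V)) := by
        rw [hk1, hk2, hk3]; ring
    _ = _ := by
        rw [hexp, square_eq h hV hg]
        rfl

end Crest.Agent.R234.F11_435
end
end

-- ▼ part R234/Pd6_435

/-!
# Row 234, VF-F11 (helper435): V-level instance of `Pin3_3.Data`, part 6: (J), upper and lower bounds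
of the height for the chart `ch` of a graph through the base point
-/

set_option autoImplicit false
set_option linter.unusedVariables false
set_option linter.unusedSectionVars false

open MeasureTheory Filter Topology Set Metric
open scoped ENNReal NNReal InnerProductSpace
open Crest.GeometryTopology.Submanifold
open Crest.Agent.R234.Vf_884 Crest.Agent.R234.Ar_870 Crest.Agent.R234.Cy_870
open Crest.Agent.R234.GL_394
open Crest.Agent.R234.Main_456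
open Crest.Agent.R234.Ell1_3 (adjL ginv gop)
open Crest.Agent.R234.GLK_128 (A0 AA BB gg hh Fr Inv NN TT Pj tau0)
open Crest.Agent.R234.Gi_456

noncomputable section

namespace Crest.Agent.R234.Pd_435

local notation "adj" => ContinuousLinearMap.adjoint

variable {m n k : ℕ} {π : Euc k →L[ℝ] Euc m} {ρ : Euc k →L[ℝ] Euc n} {b : Euc k} {r : ℝ}
  {w : Euc m → Euc n} {κ κ₂ : ℝ}

theorem Pj_of_G {P : L k} (hP : P ∈ G m k) : Pj (Euc m) P := by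
  refine ⟨hP.1, ?_, ?_⟩
  · have := hP.2.1
    rwa [IsSelfAdjoint, ContinuousLinearMap.star_eq_adjoint] at this
  · rw [finrank_euclideanSpace, Fintype.card_fin]
    exact hP.2.2

theorem tau_eq (X0 : Euc m) (p : Euc k) (P : L k) : (ch π ρ b r w X0).tau p P =
    tau0 (adj π) (adj ρ) (fderiv ℝ w (foot π ρ b r w p)) (hinv (fderiv ℝ w (foot π ρ b r w p))) P :=
  rfl

theorem tau_nonneg (h : Gr r w) (hf : Frame π ρ) (X0 : Euc m) {p : Euc k}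
    (hp : p ∈ tube π ρ b r w) {P : L k} (hP : P ∈ G m k) : 0 ≤ (ch π ρ b r w X0).tau p P := by
  rw [tau_eq]
  exact GLK_128.tau0_nonneg (frame_fr hf) (h.inv _ (h.norm_yy_lt hp).le) (Pj_of_G hP)

theorem xi_eq (h : Gr r w) (X0 : Euc m) {p : Euc k} (hp : p ∈ tube π ρ b r w) :
    xi (ch π ρ b r w X0) p = xit π ρ b r w X0 p := by
  have h1 : xi (ch π ρ b r w X0) p = adj (Lo (fderiv ℝ w X0) ∘L dft π ρ b r w p)
      (Lo (fderiv ℝ w X0) (foot π ρ b r w p - X0)) := rfl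
  have h2 : adj (Lo (fderiv ℝ w X0)) (Lo (fderiv ℝ w X0) (foot π ρ b r w p - X0)) =
      gg (fderiv ℝ w X0) (foot π ρ b r w p - X0) :=
    congrArg (fun T : L m => T (foot π ρ b r w p - X0)) (adj_Lo_Lo (fderiv ℝ w X0))
  have h3 : adj (Li w (foot π ρ b r w p) (yy π ρ b r w p)) =
      Li w (foot π ρ b r w p) (yy π ρ b r w p) :=
    (h.inv (foot π ρ b r w p) (h.norm_yy_lt hp).le).Li_adj (h.Yo_adj _ _)
  rw [h1, ContinuousLinearMap.adjoint_comp, ContinuousLinearMap.comp_apply, h2]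
  unfold dft
  rw [ContinuousLinearMap.adjoint_comp, ContinuousLinearMap.adjoint_adjoint, h3]
  rfl

theorem norm_adj_Lo_le {κ : ℝ} {q0 : Euc m →L[ℝ] Euc n} (h : ‖q0‖ ≤ κ) (v : Euc m) :
    ‖adj (Lo q0) v‖ ^ 2 ≤ (1 + κ ^ 2) * ‖v‖ ^ 2 := by
  have hκ0 : 0 ≤ κ := (norm_nonneg q0).trans h
  have h1 : ‖Lo q0‖ ^ 2 ≤ 1 + κ ^ 2 := by
    have h2 : ‖Lo q0‖ ≤ √(1 + κ ^ 2) := by
      refine ContinuousLinearMap.opNorm_le_bound _ (Real.sqrt_nonneg _) fun z => ?_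
      have h3 := norm_Lo_sq q0 z
      have h4 : ‖q0 z‖ ≤ κ * ‖z‖ := (q0.le_opNorm z).trans (by gcongr)
      have h5 : ‖Lo q0 z‖ ^ 2 ≤ (1 + κ ^ 2) * ‖z‖ ^ 2 := by
        rw [h3]
        have : ‖q0 z‖ ^ 2 ≤ (κ * ‖z‖) ^ 2 := pow_le_pow_left₀ (norm_nonneg _) h4 2
        linarith
      calc ‖Lo q0 z‖ = √(‖Lo q0 z‖ ^ 2) := (Real.sqrt_sq (norm_nonneg _)).symm
        _ ≤ √((1 + κ ^ 2) * ‖z‖ ^ 2) := Real.sqrt_le_sqrt h5
        _ = _ := by rw [Real.sqrt_mul (by positivity), Real.sqrt_sq (norm_nonneg _)]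
    calc ‖Lo q0‖ ^ 2 ≤ √(1 + κ ^ 2) ^ 2 := pow_le_pow_left₀ (norm_nonneg _) h2 2
      _ = _ := Real.sq_sqrt (by positivity)
  have h2 : ‖adj (Lo q0) v‖ ≤ ‖Lo q0‖ * ‖v‖ := by
    refine (ContinuousLinearMap.le_opNorm _ _).trans ?_
    rw [GLK_128.norm_adj]
  calc ‖adj (Lo q0) v‖ ^ 2 ≤ (‖Lo q0‖ * ‖v‖) ^ 2 := pow_le_pow_left₀ (norm_nonneg _) h2 2
    _ = ‖Lo q0‖ ^ 2 * ‖v‖ ^ 2 := by ring
    _ ≤ _ := by gcongr

theorem le_norm_adj_Lo (q0 : Euc m →L[ℝ] Euc n) (v : Euc m) : ‖v‖ ^ 2 ≤ ‖adj (Lo q0) v‖ ^ 2 := by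
  have h1 : adj (Loi q0) (adj (Lo q0) v) = v := by
    refine ext_inner_right ℝ fun u => ?_
    rw [ContinuousLinearMap.adjoint_inner_left, ContinuousLinearMap.adjoint_inner_left, Lo_Loi]
  have h2 : ‖v‖ ≤ ‖adj (Lo q0) v‖ := by
    calc ‖v‖ = ‖adj (Loi q0) (adj (Lo q0) v)‖ := by rw [h1]
      _ ≤ ‖adj (Loi q0)‖ * ‖adj (Lo q0) v‖ := ContinuousLinearMap.le_opNorm _ _
      _ ≤ 1 * ‖adj (Lo q0) v‖ := by
          rw [GLK_128.norm_adj]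
          gcongr
          exact (Loi_spec q0).2.2
      _ = _ := one_mul _
  exact pow_le_pow_left₀ (norm_nonneg _) h2 2

theorem quad_ginv {κ : ℝ} {q : Euc m →L[ℝ] Euc n} (h : ‖q‖ ≤ κ) (a : Euc m) :
    ⟪a, ginv q a⟫_ℝ ≤ ‖a‖ ^ 2 ∧ ‖a‖ ^ 2 ≤ (1 + κ ^ 2) * ⟪a, ginv q a⟫_ℝ := by
  have hκ0 : 0 ≤ κ := (norm_nonneg q).trans h
  obtain ⟨c, hc⟩ : ∃ c, ginv q a = c := ⟨_, rfl⟩
  rw [hc]
  have hac : gg q c = a := by
    rw [← hc]
    exact congrArg (fun T : L m => T a) (Ell1_3.gop_ginv q)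
  have e1 : ⟪a, c⟫_ℝ = ‖c‖ ^ 2 + ‖q c‖ ^ 2 := by rw [← hac]; exact GLK_128.gg_inner q c
  have hqc : ‖q c‖ ≤ κ * ‖c‖ := (q.le_opNorm c).trans (by gcongr)
  have hqqc : ‖adj q (q c)‖ ≤ κ * ‖q c‖ := by
    refine (ContinuousLinearMap.le_opNorm _ _).trans ?_
    rw [GLK_128.norm_adj]
    gcongr
  have e2 : ‖a‖ ^ 2 = ‖c‖ ^ 2 + 2 * ‖q c‖ ^ 2 + ‖adj q (q c)‖ ^ 2 := by
    rw [← hac]
    have : gg q c = c + adj q (q c) := rfl
    rw [this, @norm_add_sq_real, ContinuousLinearMap.adjoint_inner_right, real_inner_self_eq_norm_sq]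
  have hqc2 : ‖q c‖ ^ 2 ≤ κ ^ 2 * ‖c‖ ^ 2 := by
    rw [← mul_pow]; exact pow_le_pow_left₀ (norm_nonneg _) hqc 2
  have hqqc2 : ‖adj q (q c)‖ ^ 2 ≤ κ ^ 2 * ‖q c‖ ^ 2 := by
    rw [← mul_pow]; exact pow_le_pow_left₀ (norm_nonneg _) hqqc 2
  rw [e1, e2]
  constructor
  · have := sq_nonneg ‖q c‖
    have := sq_nonneg ‖adj q (q c)‖
    linarith
  · calc ‖c‖ ^ 2 + 2 * ‖q c‖ ^ 2 + ‖adj q (q c)‖ ^ 2
        ≤ ‖c‖ ^ 2 + ‖q c‖ ^ 2 + κ ^ 2 * ‖c‖ ^ 2 + κ ^ 2 * ‖q c‖ ^ 2 := by linarith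
      _ = _ := by ring

theorem quad_giB {κ : ℝ} {q q0 : Euc m →L[ℝ] Euc n} (h : ‖q‖ ≤ κ) (h0 : ‖q0‖ ≤ κ) (hκ8 : κ ≤ 1 / 8)
    (v : Euc m) : (1 - κ) * ‖v‖ ^ 2 ≤ ⟪adj (Lo q0) v, ginv q (adj (Lo q0) v)⟫_ℝ ∧
      ⟪adj (Lo q0) v, ginv q (adj (Lo q0) v)⟫_ℝ ≤ (1 + κ) * ‖v‖ ^ 2 := by
  have hκ0 : 0 ≤ κ := (norm_nonneg q).trans h
  obtain ⟨h1, h2⟩ := quad_ginv h (adj (Lo q0) v)
  have h3 := norm_adj_Lo_le h0 v
  have h4 := le_norm_adj_Lo q0 v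
  generalize ⟪adj (Lo q0) v, ginv q (adj (Lo q0) v)⟫_ℝ = I at *
  generalize ‖adj (Lo q0) v‖ ^ 2 = A at *
  have hn := sq_nonneg ‖v‖
  generalize ‖v‖ ^ 2 = B at *
  have hκ2 : κ ^ 2 ≤ κ := by nlinarith
  have hI : 0 ≤ I := by
    by_contra hcon
    push Not at hcon
    have : (1 + κ ^ 2) * I < 0 := mul_neg_of_pos_of_neg (by positivity) hcon
    linarith
  constructor
  · have h6 : 0 ≤ 1 - κ := by linarith
    have h5 : (1 - κ) * (1 + κ ^ 2) ≤ 1 := by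
      have : 0 ≤ κ * (1 - κ) := mul_nonneg hκ0 h6
      have : 0 ≤ κ ^ 3 := by positivity
      nlinarith
    calc (1 - κ) * B ≤ (1 - κ) * ((1 + κ ^ 2) * I) := by
          gcongr
          linarith
      _ = ((1 - κ) * (1 + κ ^ 2)) * I := by ring
      _ ≤ 1 * I := by gcongr
      _ = _ := one_mul _
  · calc I ≤ (1 + κ ^ 2) * B := h1.trans h3
      _ ≤ (1 + κ) * B := by gcongr

/-- the radial function of the base metric is close to one -/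
theorem abs_mu_sub (hs : Sm w κ κ₂) (X0 v : Euc m) : |(ch π ρ b r w X0).mu v - 1| ≤ κ := by
  have hκ0 := hs.k0
  have hmu : (ch π ρ b r w X0).mu v = muG (giB w X0) v := rfl
  rw [hmu]
  by_cases hv : v = 0
  · rw [hv, muG_zero]; simpa using hκ0
  have hn2 : 0 < ‖v‖ ^ 2 := by
    have : 0 < ‖v‖ := norm_pos_iff.2 hv
    positivity
  have hmain : ⟪v, giB w X0 v v⟫_ℝ = ⟪adj (Lo (fderiv ℝ w X0)) v,
      ginv (fderiv ℝ w (pt w X0 v)) (adj (Lo (fderiv ℝ w X0)) v)⟫_ℝ := by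
    have : giB w X0 v v = Lo (fderiv ℝ w X0)
      (ginv (fderiv ℝ w (pt w X0 v)) (adj (Lo (fderiv ℝ w X0)) v)) := rfl
    rw [this, ← ContinuousLinearMap.adjoint_inner_left]
  obtain ⟨h1, h2⟩ := quad_giB (hs.k1 (pt w X0 v)) (hs.k1 X0) hs.k8 v
  rw [muG_of_ne hv, hmain, abs_le]
  constructor
  · rw [le_sub_iff_add_le, le_div_iff₀ hn2]
    linarith
  · rw [sub_le_iff_le_add, div_le_iff₀ hn2]
    linarith

theorem norm_chx_ge (X0 : Euc m) (p : Euc k) :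
    ‖foot π ρ b r w p - X0‖ ≤ ‖(ch π ρ b r w X0).x p‖ := le_norm_Lo _ _

theorem norm_chx_le (hs : Sm w κ κ₂) (X0 : Euc m) (p : Euc k) :
    ‖(ch π ρ b r w X0).x p‖ ≤ 65 / 64 * ‖foot π ρ b r w p - X0‖ :=
  norm_Lo_le ((hs.k1 _).trans hs.k8) _

/-- the part of the space over the cylinder of radius `t` about `X0` -/
def cyc (π : Euc k →L[ℝ] Euc m) (b : Euc k) (X0 : Euc m) (t : ℝ) : Set (Euc k × L k) :=
  {p | ‖π (p.1 - b) - X0‖ < t}

theorem measurableSet_cyc (X0 : Euc m) (t : ℝ) : MeasurableSet (cyc π b X0 t) :=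
  (isOpen_lt (by fun_prop) continuous_const).measurableSet

/-- hypotheses on the compact set -/
structure Kz (π : Euc k →L[ℝ] Euc m) (ρ : Euc k →L[ℝ] Euc n) (b : Euc k) (r : ℝ) (w : Euc m → Euc n)
    (κ κ₂ : ℝ) (Kc : Set (Euc k)) (h₀ : ℝ) : Prop where
  gr : Gr r w
  fr : Frame π ρ
  sm : Sm w κ κ₂
  cpt : IsCompact Kc
  tb : Kc ⊆ tube π ρ b r w
  ht : ∀ p ∈ Kc, ‖yy π ρ b r w p‖ ≤ h₀

variable {Kc : Set (Euc k)} {h₀ : ℝ}

theorem Kz.chx_le (h : Kz π ρ b r w κ κ₂ Kc h₀) {X0 : Euc m} {p : Euc k} (hp : p ∈ Kc) {t : ℝ}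
    (ht : ‖π (p - b) - X0‖ < t) : ‖(ch π ρ b r w X0).x p‖ ≤ 65 / 64 * (t + h₀ / 8) := by
  refine (norm_chx_le h.sm X0 p).trans ?_
  have h1 := norm_foot_sub_le h.gr (h.tb hp) h.sm
  have h2 := h.ht p hp
  have h3 := norm_sub_le_norm_sub_add_norm_sub (foot π ρ b r w p) (π (p - b)) X0
  have h4 : κ * ‖yy π ρ b r w p‖ ≤ 1 / 8 * h₀ := by
    have := h.sm.k0
    have := h.sm.k8
    have := norm_nonneg (yy π ρ b r w p)
    gcongr
  gcongr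
  linarith

theorem Kz.lt_of_chx (h : Kz π ρ b r w κ κ₂ Kc h₀) {X0 : Euc m} {p : Euc k} (hp : p ∈ Kc) {s : ℝ}
    (hs : ‖(ch π ρ b r w X0).x p‖ < s) : ‖π (p - b) - X0‖ < s + h₀ / 8 := by
  have h0 := norm_chx_ge (π := π) (ρ := ρ) (b := b) (r := r) (w := w) X0 p
  have h1 := norm_foot_sub_le h.gr (h.tb hp) h.sm
  have h2 := h.ht p hp
  have h3 := norm_sub_le_norm_sub_add_norm_sub (π (p - b)) (foot π ρ b r w p) X0
  rw [norm_sub_rev (π (p - b)) (foot π ρ b r w p)] at h3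
  have h4 : κ * ‖yy π ρ b r w p‖ ≤ 1 / 8 * h₀ := by
    have := h.sm.k0
    have := h.sm.k8
    have := norm_nonneg (yy π ρ b r w p)
    gcongr
  linarith

variable {V : Measure (Euc k × L k)} {g g1 g2 : ℝ → ℝ}

/-- **(J)** for the chart of a graph. -/
theorem Kz.J (h : Kz π ρ b r w κ κ₂ Kc h₀) (hV : On V m Kc) (hg : Prof g g1 g2) (X0 : Euc m)
    {l δ α cg t : ℝ} (hκ : κ ≤ δ) (hκ2 : κ₂ * Real.exp l ≤ δ) (hδ : δ ≤ 1 / 12) (hcg : 0 < cg)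
    (ht : 0 ≤ t) (hg0 : ∀ y, 0 ≤ y → y ≤ 1 / 2 → cg ≤ g y ∧ cg ≤ -2 * g1 y)
    (hts : t ≤ 2 / 3 * Real.exp l) (hh₀ : h₀ ≤ 1 / 8 * Real.exp l) :
    Real.exp (-m * l) * ∫ p in cyc π b X0 t,
      ‖dhw π ρ b w p.1 (p.2 (adj π (π (p.1 - b) - X0))) - α • hw π ρ b w p.1‖ ^ 2 ∂V ≤
      cg⁻¹ * (30 * (GL_394.RR (ch π ρ b r w X0) V g1 l - 2 * α * Ph (ch π ρ b r w X0) V g1 l +
        α ^ 2 * II (ch π ρ b r w X0) V g1 l) +
        2880 * δ ^ 2 * ee (ch π ρ b r w X0) V g l +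
        1440 * δ ^ 2 * (5 + 5 * α ^ 2) * II (ch π ρ b r w X0) V g1 l) := by
  have hE := Real.exp_pos l
  have hδ0 : 0 ≤ δ := h.sm.k0.trans hκ
  have hok := h.gr.ok h.fr X0 h.cpt h.tb
  have hfoot : ∀ p ∈ cyc π b X0 t, p.1 ∈ Kc → ‖foot π ρ b r w p.1 - X0‖ ≤ 2 * Real.exp l := by
    intro p hp hpK
    have h1 := (norm_chx_ge (π := π) (ρ := ρ) (b := b) (r := r) (w := w) X0 p.1).trans
      (h.chx_le hpK hp)
    linarith
  have h1 := F11_435.jint (n := n) hok hV hg (l := l) (ε := 12 * δ) (C₁ := 4) (α := α) (cg := cg)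
    (by positivity) (by linarith) (by norm_num) hcg
    (fun p hp => tau_nonneg h.gr h.fr X0 (h.tb hp.1) hp.2)
    (measurableSet_cyc (π := π) (b := b) X0 t)
    (w := fun p => adj π (π (p.1 - b) - X0)) (y := fun p => hw π ρ b w p.1)
    (Dh := fun p => dhw π ρ b w p.1)
    (fun p hp hpK => by
      refine hg0 _ (by positivity) ?_
      have e1 := h.chx_le hpK.1 hp
      have e2 : ‖(ch π ρ b r w X0).x p.1‖ ≤ 7 / 10 * Real.exp l := by linarith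
      have e3 : ‖(ch π ρ b r w X0).x p.1‖ ^ 2 ≤ (7 / 10 * Real.exp l) ^ 2 :=
        pow_le_pow_left₀ (norm_nonneg _) e2 2
      have e4 : Real.exp (-2 * l) * (Real.exp l) ^ 2 = 1 := by
        rw [← Real.exp_nat_mul, ← Real.exp_add]
        norm_num
      calc Real.exp (-2 * l) * ‖(ch π ρ b r w X0).x p.1‖ ^ 2
          ≤ Real.exp (-2 * l) * (7 / 10 * Real.exp l) ^ 2 := by gcongr
        _ = 49 / 100 * (Real.exp (-2 * l) * (Real.exp l) ^ 2) := by ring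
        _ ≤ 1 / 2 := by rw [e4]; norm_num)
    (fun p hp hpK => by
      rw [xi_eq h.gr X0 (h.tb hpK.1)]
      exact xit_sub h.gr h.fr (h.tb hpK.1) h.sm hκ hκ2 hE (hfoot p hp hpK.1)
        ((h.ht p.1 hpK.1).trans (by linarith)))
    (fun p hp hpK v => by
      have e1 := dhw_P h.gr h.fr (h.tb hpK.1) h.sm (Pj_of_G hpK.2) (δ := δ) (s := Real.exp l)
        (by linarith) hκ hκ2 hE v
      refine e1.trans ?_
      rw [← tau_eq X0]
      have e2 : δ ^ 2 ≤ (12 * δ) ^ 2 := by nlinarith [sq_nonneg δ]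
      have e3 : nut π ρ b r w p.1 = (ch π ρ b r w X0).nu p.1 := rfl
      rw [e3]
      gcongr)
    (fun p hp hpK => by
      rw [xi_eq h.gr X0 (h.tb hpK.1)]
      exact dhw_xit h.gr h.fr (h.tb hpK.1) h.sm hκ hκ2 hE (hfoot p hp hpK.1))
    (fun p hp hpK => by
      have e1 := hw_sub_dhw h.gr h.fr (h.tb hpK.1) h.sm hκ
      refine e1.trans ?_
      change δ * ‖(ch π ρ b r w X0).nu p.1‖ ≤ _
      gcongr
      linarith)
    (fun p hp hpK => norm_dhw_le h.fr h.sm)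
    (fun p hp hpK => (abs_mu_sub h.sm X0 _).trans (by linarith))
    (fun p hp hpK => by
      have e1 := (abs_le.1 (abs_mu_sub (π := π) (ρ := ρ) (b := b) (r := r) h.sm X0
        ((ch π ρ b r w X0).x p.1))).1
      have := h.sm.k8
      linarith)
    (fun p hp hpK => by
      have e1 := (abs_le.1 (abs_mu_sub (π := π) (ρ := ρ) (b := b) (r := r) h.sm X0
        ((ch π ρ b r w X0).x p.1))).2
      have := h.sm.k8
      linarith)
  refine h1.trans (le_of_eq ?_)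
  ring

theorem Kz.II_integrand (h : Kz π ρ b r w κ κ₂ Kc h₀) (X0 : Euc m) {p : Euc k} (hp : p ∈ Kc) :
    ‖hw π ρ b w p‖ ^ 2 / 16 ≤ (ch π ρ b r w X0).f p * (ch π ρ b r w X0).mu ((ch π ρ b r w X0).x p) ∧
    (ch π ρ b r w X0).f p * (ch π ρ b r w X0).mu ((ch π ρ b r w X0).x p) ≤
      3 * ‖hw π ρ b w p‖ ^ 2 := by
  have h1 := norm_hw_le h.gr h.fr (h.tb hp) h.sm
  have h2 := norm_nut_le_hw h.gr h.fr (h.tb hp) h.sm
  have h3 : (ch π ρ b r w X0).f p = ‖nut π ρ b r w p‖ ^ 2 / 2 := rfl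
  have h4 := abs_le.1 (abs_mu_sub (π := π) (ρ := ρ) (b := b) (r := r) h.sm X0
    ((ch π ρ b r w X0).x p))
  have h8 := h.sm.k8
  rw [h3]
  have e1 : ‖hw π ρ b w p‖ ^ 2 ≤ 4 * ‖nut π ρ b r w p‖ ^ 2 := by
    calc ‖hw π ρ b w p‖ ^ 2 ≤ (2 * ‖nut π ρ b r w p‖) ^ 2 := pow_le_pow_left₀ (norm_nonneg _) h1 2
      _ = _ := by ring
  have e2 : ‖nut π ρ b r w p‖ ^ 2 ≤ 4 * ‖hw π ρ b w p‖ ^ 2 := by
    calc ‖nut π ρ b r w p‖ ^ 2 ≤ (2 * ‖hw π ρ b w p‖) ^ 2 := pow_le_pow_left₀ (norm_nonneg _) h2 2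
      _ = _ := by ring
  constructor
  · calc ‖hw π ρ b w p‖ ^ 2 / 16 ≤ ‖nut π ρ b r w p‖ ^ 2 / 2 * (1 / 2) := by linarith
      _ ≤ _ := by
        gcongr
        linarith
  · calc ‖nut π ρ b r w p‖ ^ 2 / 2 * (ch π ρ b r w X0).mu ((ch π ρ b r w X0).x p)
        ≤ ‖nut π ρ b r w p‖ ^ 2 / 2 * (3 / 2) := by
          gcongr
          linarith
      _ ≤ _ := by linarith

theorem Kz.cont_hw (h : Kz π ρ b r w κ κ₂ Kc h₀) : Continuous (hw π ρ b w) := by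
  have := h.gr.differentiable.continuous
  unfold hw
  fun_prop

/-- `lo` -/
theorem Kz.lo (h : Kz π ρ b r w κ κ₂ Kc h₀) (hV : On V m Kc) (hg : Prof g g1 g2) (X0 : Euc m)
    {l cg t : ℝ} (hcg : 0 < cg) (hg0 : ∀ y, 0 ≤ y → y ≤ 1 / 2 → cg ≤ g y ∧ cg ≤ -2 * g1 y)
    (hts : t ≤ 2 / 3 * Real.exp l) (hh₀ : h₀ ≤ 1 / 8 * Real.exp l) :
    ∫ p in cyc π b X0 t, ‖hw π ρ b w p.1‖ ^ 2 ∂V ≤
      8 * cg⁻¹ * (Real.exp l ^ m * II (ch π ρ b r w X0) V g1 l) := by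
  have hE := Real.exp_pos l
  have hok := h.gr.ok h.fr X0 h.cpt h.tb
  have hc1 := hg.k1.continuous
  have i3 : Integrable (fun p : Euc k × L k => ((ch π ρ b r w X0).f p.1 *
      (ch π ρ b r w X0).mu ((ch π ρ b r w X0).x p.1)) *
      (-4 * g1 (Real.exp (-2 * l) * ‖(ch π ρ b r w X0).x p.1‖ ^ 2))) V :=
    hV.integrable h.cpt ((F11_435.cont_fmu hok).mul (continuousOn_const.mul
      (F11_435.cont_q hok hc1 l)))
  have hle : ∀ᵐ p ∂V, 0 ≤ ((ch π ρ b r w X0).f p.1 *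
      (ch π ρ b r w X0).mu ((ch π ρ b r w X0).x p.1)) *
      (-4 * g1 (Real.exp (-2 * l) * ‖(ch π ρ b r w X0).x p.1‖ ^ 2)) := by
    filter_upwards [hV.mem] with p hp
    have h1 := (h.II_integrand X0 hp.1).1
    have h2 := hg.anti (Real.exp (-2 * l) * ‖(ch π ρ b r w X0).x p.1‖ ^ 2) (by positivity)
    exact mul_nonneg (le_trans (by positivity) h1) (by linarith)
  have hmono : ∫ p in cyc π b X0 t, ‖hw π ρ b w p.1‖ ^ 2 ∂V ≤
      ∫ p in cyc π b X0 t, (8 * cg⁻¹) * (((ch π ρ b r w X0).f p.1 *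
      (ch π ρ b r w X0).mu ((ch π ρ b r w X0).x p.1)) *
      (-4 * g1 (Real.exp (-2 * l) * ‖(ch π ρ b r w X0).x p.1‖ ^ 2))) ∂V := by
    refine integral_mono_of_nonneg (Filter.Eventually.of_forall fun p => by positivity)
      (i3.const_mul _).integrableOn ?_
    filter_upwards [ae_restrict_of_ae hV.mem, ae_restrict_mem (measurableSet_cyc X0 t)] with p hp hpS
    have e1 := h.chx_le hp.1 hpS
    have e2 : ‖(ch π ρ b r w X0).x p.1‖ ≤ 7 / 10 * Real.exp l := by linarith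
    have e3 : ‖(ch π ρ b r w X0).x p.1‖ ^ 2 ≤ (7 / 10 * Real.exp l) ^ 2 :=
      pow_le_pow_left₀ (norm_nonneg _) e2 2
    have e4 : Real.exp (-2 * l) * (Real.exp l) ^ 2 = 1 := by
      rw [← Real.exp_nat_mul, ← Real.exp_add]
      norm_num
    have e5 : Real.exp (-2 * l) * ‖(ch π ρ b r w X0).x p.1‖ ^ 2 ≤ 1 / 2 := by
      calc Real.exp (-2 * l) * ‖(ch π ρ b r w X0).x p.1‖ ^ 2
          ≤ Real.exp (-2 * l) * (7 / 10 * Real.exp l) ^ 2 := by gcongr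
        _ = 49 / 100 * (Real.exp (-2 * l) * (Real.exp l) ^ 2) := by ring
        _ ≤ 1 / 2 := by rw [e4]; norm_num
    have e6 := (hg0 _ (by positivity) e5).2
    have e7 := (h.II_integrand X0 hp.1).1
    calc ‖hw π ρ b w p.1‖ ^ 2 = (8 * cg⁻¹) * (‖hw π ρ b w p.1‖ ^ 2 / 16 * (2 * cg)) := by
          field_simp
          ring
      _ ≤ (8 * cg⁻¹) * (((ch π ρ b r w X0).f p.1 *
          (ch π ρ b r w X0).mu ((ch π ρ b r w X0).x p.1)) *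
          (-4 * g1 (Real.exp (-2 * l) * ‖(ch π ρ b r w X0).x p.1‖ ^ 2))) := by
        have e8 : 0 ≤ (ch π ρ b r w X0).f p.1 *
          (ch π ρ b r w X0).mu ((ch π ρ b r w X0).x p.1) := le_trans (by positivity) e7
        exact mul_le_mul_of_nonneg_left (mul_le_mul e7 (by linarith) (by positivity) e8)
          (by positivity)
  have hexp : Real.exp l ^ m * Real.exp (-m * l) = 1 := by
    rw [← Real.exp_nat_mul, ← Real.exp_add]
    simp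
  have hset := setIntegral_le_integral (s := cyc π b X0 t) i3 hle
  calc _ ≤ _ := hmono
    _ = (8 * cg⁻¹) * ∫ p in cyc π b X0 t, ((ch π ρ b r w X0).f p.1 *
      (ch π ρ b r w X0).mu ((ch π ρ b r w X0).x p.1)) *
      (-4 * g1 (Real.exp (-2 * l) * ‖(ch π ρ b r w X0).x p.1‖ ^ 2)) ∂V := integral_const_mul _ _
    _ ≤ (8 * cg⁻¹) * ∫ p, ((ch π ρ b r w X0).f p.1 *
      (ch π ρ b r w X0).mu ((ch π ρ b r w X0).x p.1)) *
      (-4 * g1 (Real.exp (-2 * l) * ‖(ch π ρ b r w X0).x p.1‖ ^ 2)) ∂V := by gcongr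
    _ = 8 * cg⁻¹ * (Real.exp l ^ m * II (ch π ρ b r w X0) V g1 l) := by
        unfold II
        rw [← mul_assoc (Real.exp l ^ m), hexp, one_mul]

/-- `up` -/
theorem Kz.up (h : Kz π ρ b r w κ κ₂ Kc h₀) (hV : On V m Kc) (hg : Prof g g1 g2) (X0 : Euc m)
    {l B t : ℝ} (hB : ∀ y, 0 ≤ y → -g1 y ≤ B)
    (hts : Real.exp l + h₀ / 8 ≤ t) :
    Real.exp l ^ m * II (ch π ρ b r w X0) V g1 l ≤
      12 * B * ∫ p in cyc π b X0 t, ‖hw π ρ b w p.1‖ ^ 2 ∂V := by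
  have hE := Real.exp_pos l
  have hok := h.gr.ok h.fr X0 h.cpt h.tb
  have hc1 := hg.k1.continuous
  have hB0 : 0 ≤ B := by
    have h1 := hB 0 le_rfl
    have h2 := hg.anti 0 le_rfl
    linarith
  have i1 : Integrable (fun p : Euc k × L k => ‖hw π ρ b w p.1‖ ^ 2) V :=
    hV.integrable h.cpt (((h.cont_hw.comp continuous_fst).norm.pow 2).continuousOn)
  have hexp : Real.exp l ^ m * Real.exp (-m * l) = 1 := by
    rw [← Real.exp_nat_mul, ← Real.exp_add]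
    simp
  have h1 : ∫ p, ((ch π ρ b r w X0).f p.1 *
      (ch π ρ b r w X0).mu ((ch π ρ b r w X0).x p.1)) *
      (-4 * g1 (Real.exp (-2 * l) * ‖(ch π ρ b r w X0).x p.1‖ ^ 2)) ∂V ≤
      ∫ p, (cyc π b X0 t).indicator (fun p => 12 * B * ‖hw π ρ b w p.1‖ ^ 2) p ∂V := by
    refine integral_mono_of_nonneg ?_ ((i1.const_mul _).indicator (measurableSet_cyc X0 t)) ?_
    · filter_upwards [hV.mem] with p hp
      have h1 := (h.II_integrand X0 hp.1).1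
      have h2 := hg.anti (Real.exp (-2 * l) * ‖(ch π ρ b r w X0).x p.1‖ ^ 2) (by positivity)
      exact mul_nonneg (le_trans (by positivity) h1) (by linarith)
    · filter_upwards [hV.mem] with p hp
      have e7 := (h.II_integrand X0 hp.1)
      have h3 := hB (Real.exp (-2 * l) * ‖(ch π ρ b r w X0).x p.1‖ ^ 2) (by positivity)
      by_cases hpc : p ∈ cyc π b X0 t
      · rw [indicator_of_mem hpc]
        have h2 := hg.anti (Real.exp (-2 * l) * ‖(ch π ρ b r w X0).x p.1‖ ^ 2) (by positivity)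
        calc _ ≤ (3 * ‖hw π ρ b w p.1‖ ^ 2) * (4 * B) := by
              refine mul_le_mul e7.2 (by linarith) (by linarith) (by positivity)
          _ = _ := by ring
      · rw [indicator_of_notMem hpc]
        have h4 : Real.exp l ≤ ‖(ch π ρ b r w X0).x p.1‖ := by
          by_contra hcon
          push Not at hcon
          exact hpc ((h.lt_of_chx hp.1 hcon).trans_le hts)
        have h5 : 1 ≤ Real.exp (-2 * l) * ‖(ch π ρ b r w X0).x p.1‖ ^ 2 := by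
          have e4 : Real.exp (-2 * l) * (Real.exp l) ^ 2 = 1 := by
            rw [← Real.exp_nat_mul, ← Real.exp_add]
            norm_num
          rw [← e4]
          gcongr
        rw [hg.k1.zero _ h5, mul_zero, mul_zero]
  rw [integral_indicator (measurableSet_cyc X0 t), integral_const_mul] at h1
  unfold II
  rw [← mul_assoc (Real.exp l ^ m), hexp, one_mul]
  exact h1

end Crest.Agent.R234.Pd_435
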