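import Crest.Agent.R234.Qp2_534
import Crest.Agent.R234.Pd6_435
import Crest.Agent.R234.Pd2_435
import Crest.Agent.R234.GL6_394
import Crest.Agent.R234.Gs5_685

-- ▼ part R234/Pd7_435
section

/-!
# Row 234, VF-F11 (helper435): V-level instance of `Pin3_3.Data`, part 7: the bridge between the
integrals over base balls for `nu` and the integrals over cylinders for the part of `V` over the
compact `Kz` of the chart of a `Q`-point (534's `Qx`, `cz`).
-/

set_option autoImplicit false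
set_option linter.unusedVariables false
set_option linter.unusedSectionVars false

open MeasureTheory Filter Topology Set Metric
open scoped ENNReal NNReal ContDiff InnerProductSpace
open Crest.GeometryTopology.Submanifold Crest.Agent.R234.Vf_884
open Crest.Agent.R234.Main_456 Crest.Agent.R234.F11_435
open Crest.Agent.R234.Gi_456
open Crest.Agent.R234.Pin3_3 (BB HH)
open Crest.Agent.R234.GL_394 (VK On II ee EE bb RR RF Ph OO)
open Crest.Agent.R234.Qp_534 (Qx wz cz Tz)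

noncomputable section

namespace Crest.Agent.R234.Pd_435

local notation "adj" => ContinuousLinearMap.adjoint

variable {m n k : ℕ} {U : Set (Euc k)} {V : Measure (Euc k × L k)} {Q K : ℕ} {x : Euc k} {r : ℝ}
  {π : Euc k →L[ℝ] Euc m} {ρ : Euc k →L[ℝ] Euc n} {u : Euc m → Euc n} {ε C : ℝ}
  {W : Euc m → Euc n} {κ : ℝ} {zh : Euc k}

/-- the measure of the chart at `zh` -/
def Vz (m : ℕ) (V : Measure (Euc k × L k)) (Q : ℕ) (π : Euc k →L[ℝ] Euc m) (ρ : Euc k →L[ℝ] Euc n)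
    (x : Euc k) (r ε : ℝ) (W : Euc m → Euc n) (zh : Euc k) : Measure (Euc k × L k) :=
  VK V (Qp_534.Kz π ρ x r W zh (Qp_534.h0 m Q ε))

namespace Qz

variable (h : Qx U V Q K x r π ρ u ε C W κ zh)

include h

theorem ctr : Ctr V π x r (r⁻¹ • π (zh - x)) zh := ⟨h.mem, h.th1, rfl⟩

theorem on : On (Vz m V Q π ρ x r ε W zh) m (Qp_534.Kz π ρ x r W zh (Qp_534.h0 m Q ε)) :=
  (h.loc (L := Real.log (5 * r)) (by
    have := h.hr
    rw [Real.exp_log (by positivity)])).toOn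

theorem kz (hK : 2 ≤ K) : Kz π ρ zh r (wz π x zh r W) κ (κ / r)
    (Qp_534.Kz π ρ x r W zh (Qp_534.h0 m Q ε)) (3 * Qp_534.h0 m Q ε * r) where
  gr := h.gr
  fr := h.hf
  sm := ⟨fun v => h.ext.d1 h.hr (by omega) v, fun v => h.ext.d2 h.hr hK v, h.κ8⟩
  cpt := Qx.isCompact_Kz h.gr _
  tb := fun p hp => (h.Kz_spec h.hs hp).1
  ht := fun p hp => (h.Kz_spec h.hs hp).2.2

theorem ae_eq {t : ℝ} (ht0 : 0 < t) (ht : t ≤ 19 / 4) :
    (BB (Xr π x r) (r⁻¹ • π (zh - x)) t ∩ box π ρ x (8 * r) ×ˢ univ : Set (Euc k × L k)) =ᵐ[V]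
    (cyc π zh 0 (t * r) ∩ Qp_534.Kz π ρ x r W zh (Qp_534.h0 m Q ε) ×ˢ univ :
      Set (Euc k × L k)) := by
  have hr := h.hr
  have hz := ctr h
  have hcx := h.cx
  filter_upwards [h.cx.ae_box] with p hp
  apply propext
  constructor
  · rintro ⟨h1, h2, -⟩
    have h3 : ‖π (p.1 - zh)‖ < t * r := (hcx.mem_BB_iff hz).1 h1
    obtain ⟨h4, h5⟩ := hp h2
    have h6 : π (p.1 - x) = π (p.1 - zh) + π (zh - x) := by rw [← map_add, sub_add_sub_cancel]
    have h7 := h.norm_pi_z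
    have h8 : ‖π (p.1 - x)‖ < 7 * r := by
      rw [h6]
      refine (norm_add_le _ _).trans_lt ?_
      nlinarith
    have hs := h.hs
    have hs0 := Qp_534.h0_nonneg m Q ε
    have h9 : ‖ρ (p.1 - x)‖ < 7 * r := by
      refine h5.trans_lt ?_
      have h10 : √(Cx.hc m Q * ε) ≤ 1 / 16 := h.hs
      calc √(Cx.hc m Q * ε) * r ≤ 1 / 16 * r := by gcongr
        _ < 7 * r := by linarith
    have hb7 : p.1 ∈ box π ρ x (7 * r) := ⟨h8, h9⟩
    have hT := h.mem_Tz_of_box hb7 h4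
    have h11 := h.hgt_z_le hb7 h4
    have h12 := h.gr.norm_yy_le hT
    have h13 := h.foot_sub_le hT
    have hk8 := h.κ8
    have hk0 := h.k0
    have h14 : ‖yy π ρ zh r (wz π x zh r W) p.1‖ ≤ 3 * Qp_534.h0 m Q ε * r := by
      have : 0 ≤ Qp_534.h0 m Q ε * r := by positivity
      linarith
    refine ⟨?_, ?_, mem_univ _⟩
    · show ‖π (p.1 - zh) - 0‖ < t * r
      rwa [sub_zero]
    · refine h.mem_Kz hT ?_ h14
      have h15 : ‖foot π ρ zh r (wz π x zh r W) p.1‖ ≤ ‖π (p.1 - zh)‖ +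
          ‖foot π ρ zh r (wz π x zh r W) p.1 - π (p.1 - zh)‖ := by
        have := norm_add_le (π (p.1 - zh)) (foot π ρ zh r (wz π x zh r W) p.1 - π (p.1 - zh))
        simpa using this
      have h16 : κ * ‖yy π ρ zh r (wz π x zh r W) p.1‖ ≤ 1 / 8 * (3 * (1 / 16) * r) := by
        gcongr
        refine h14.trans ?_
        gcongr
      nlinarith
  · rintro ⟨h1, h2, -⟩
    have h3 : ‖π (p.1 - zh) - 0‖ < t * r := h1
    rw [sub_zero] at h3
    have h4 := h.Kz_box h.hs h2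
    refine ⟨(hcx.mem_BB_iff hz).2 h3, ⟨?_, ?_⟩, mem_univ _⟩
    · have := h4.1; linarith
    · have := h4.2; linarith

theorem bridge {F : Type*} [NormedAddCommGroup F] [NormedSpace ℝ F] (f : Euc k × L k → F)
    {t : ℝ} (ht0 : 0 < t) (ht : t ≤ 19 / 4) :
    ∫ p in BB (Xr π x r) (r⁻¹ • π (zh - x)) t, f p ∂(nu V π ρ x r) =
      (r ^ m)⁻¹ • ∫ p in cyc π zh 0 (t * r), f p ∂(Vz m V Q π ρ x r ε W zh) := by
  rw [setIntegral_nu h.hr measurableSet_BB', setIntegral_congr_set (ae_eq h ht0 ht)]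
  unfold Vz VK
  rw [Measure.restrict_restrict (measurableSet_cyc 0 (t * r))]

theorem hw_eq {p : Euc k} (hp : ‖π (p - x)‖ < 8 * r) :
    hw π ρ zh (wz π x zh r W) p = hgt π ρ x r u p - hgt π ρ x r u zh := h.hgt_z hp

theorem dhw_eq {p : Euc k × L k} (hp : ‖π (p.1 - x)‖ < 8 * r) :
    dhw π ρ zh (wz π x zh r W) p.1 = Dr π ρ x r u p := by
  unfold dhw Dr Xr
  rw [Qp_534.fderiv_wz h.hr.ne' h.ext.cd, ← map_add, sub_add_sub_cancel,
    h.ext.fderiv_eq ((h.cx.base_lt hp).trans (by norm_num))]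

theorem Y_eq {p : Euc k × L k} (hp : p.1 ∈ Qp_534.Kz π ρ x r W zh (Qp_534.h0 m Q ε)) :
    ‖Yr π ρ x r u p - r⁻¹ • hgt π ρ x r u zh‖ ^ 2 =
      (r ^ 2)⁻¹ * ‖hw π ρ zh (wz π x zh r W) p.1‖ ^ 2 := by
  have hr := h.hr
  have hb := h.Kz_box h.hs hp
  rw [hw_eq h (by have := hb.1; linarith)]
  unfold Yr
  rw [← smul_sub, norm_smul, norm_inv, Real.norm_of_nonneg hr.le, mul_pow, inv_pow]

theorem er_eq {p : Euc k × L k} (hp : p.1 ∈ Qp_534.Kz π ρ x r W zh (Qp_534.h0 m Q ε)) (α : ℝ) :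
    ‖Pin2_3.er (Tr π ρ x r u p) (Xr π x r p) (r⁻¹ • π (zh - x)) (Yr π ρ x r u p)
        (r⁻¹ • hgt π ρ x r u zh) α‖ ^ 2 =
      (r ^ 2)⁻¹ * ‖dhw π ρ zh (wz π x zh r W) p.1 (p.2 (adj π (π (p.1 - zh) - 0))) -
        α • hw π ρ zh (wz π x zh r W) p.1‖ ^ 2 := by
  have hr := h.hr
  have hb := h.Kz_box h.hs hp
  have hb8 : ‖π (p.1 - x)‖ < 8 * r := by have := hb.1; linarith
  rw [hw_eq h hb8, dhw_eq h hb8, sub_zero]
  have h1 : Pin2_3.er (Tr π ρ x r u p) (Xr π x r p) (r⁻¹ • π (zh - x)) (Yr π ρ x r u p)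
        (r⁻¹ • hgt π ρ x r u zh) α = r⁻¹ • (Dr π ρ x r u p (p.2 (adj π (π (p.1 - zh)))) -
          α • (hgt π ρ x r u p.1 - hgt π ρ x r u zh)) := by
    unfold Pin2_3.er Tr Yr
    have h2 : Xr π x r p - r⁻¹ • π (zh - x) = r⁻¹ • π (p.1 - zh) := by
      unfold Xr
      rw [← smul_sub, ← map_sub, sub_sub_sub_cancel_right]
    rw [h2]
    simp only [ContinuousLinearMap.comp_apply, map_smul]
    module
  rw [h1, norm_smul, norm_inv, Real.norm_of_nonneg hr.le, mul_pow, inv_pow]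

theorem int_Y {t : ℝ} (ht0 : 0 < t) (ht : t ≤ 19 / 4) :
    ∫ p in BB (Xr π x r) (r⁻¹ • π (zh - x)) t,
      ‖Yr π ρ x r u p - r⁻¹ • hgt π ρ x r u zh‖ ^ 2 ∂(nu V π ρ x r) =
    (r ^ (m + 2))⁻¹ * ∫ p in cyc π zh 0 (t * r), ‖hw π ρ zh (wz π x zh r W) p.1‖ ^ 2
      ∂(Vz m V Q π ρ x r ε W zh) := by
  rw [bridge h _ ht0 ht]
  have h1 : ∫ p in cyc π zh 0 (t * r), ‖Yr π ρ x r u p - r⁻¹ • hgt π ρ x r u zh‖ ^ 2
      ∂(Vz m V Q π ρ x r ε W zh) = ∫ p in cyc π zh 0 (t * r),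
      (r ^ 2)⁻¹ * ‖hw π ρ zh (wz π x zh r W) p.1‖ ^ 2 ∂(Vz m V Q π ρ x r ε W zh) := by
    refine integral_congr_ae ?_
    filter_upwards [ae_restrict_of_ae (on h).mem] with p hp
    exact Y_eq h hp.1
  rw [h1, integral_const_mul, smul_eq_mul, ← mul_assoc, ← mul_inv, ← pow_add]

theorem int_er {t : ℝ} (ht0 : 0 < t) (ht : t ≤ 19 / 4) (α : ℝ) :
    ∫ p in BB (Xr π x r) (r⁻¹ • π (zh - x)) t,
      ‖Pin2_3.er (Tr π ρ x r u p) (Xr π x r p) (r⁻¹ • π (zh - x)) (Yr π ρ x r u p)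
        (r⁻¹ • hgt π ρ x r u zh) α‖ ^ 2 ∂(nu V π ρ x r) =
    (r ^ (m + 2))⁻¹ * ∫ p in cyc π zh 0 (t * r),
      ‖dhw π ρ zh (wz π x zh r W) p.1 (p.2 (adj π (π (p.1 - zh) - 0))) -
        α • hw π ρ zh (wz π x zh r W) p.1‖ ^ 2 ∂(Vz m V Q π ρ x r ε W zh) := by
  rw [bridge h _ ht0 ht]
  have h1 : ∫ p in cyc π zh 0 (t * r), ‖Pin2_3.er (Tr π ρ x r u p) (Xr π x r p)
      (r⁻¹ • π (zh - x)) (Yr π ρ x r u p) (r⁻¹ • hgt π ρ x r u zh) α‖ ^ 2
      ∂(Vz m V Q π ρ x r ε W zh) = ∫ p in cyc π zh 0 (t * r),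
      (r ^ 2)⁻¹ * ‖dhw π ρ zh (wz π x zh r W) p.1 (p.2 (adj π (π (p.1 - zh) - 0))) -
        α • hw π ρ zh (wz π x zh r W) p.1‖ ^ 2 ∂(Vz m V Q π ρ x r ε W zh) := by
    refine integral_congr_ae ?_
    filter_upwards [ae_restrict_of_ae (on h).mem] with p hp
    exact er_eq h hp.1 α
  rw [h1, integral_const_mul, smul_eq_mul, ← mul_assoc, ← mul_inv, ← pow_add]

end Qz

end Crest.Agent.R234.Pd_435
end
end

-- ▼ part R234/Pd8_435
section

/-!
# Row 234, VF-F11 (helper435): V-level instance of `Pin3_3.Data`, part 8: the size of the frequency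
functions at a `Q`-point against the separation `sep 8` of the reference: (B1), (B2).
-/

set_option autoImplicit false
set_option linter.unusedVariables false
set_option linter.unusedSectionVars false

open MeasureTheory Filter Topology Set Metric
open scoped ENNReal NNReal ContDiff InnerProductSpace
open Crest.GeometryTopology.Submanifold Crest.Agent.R234.Vf_884
open Crest.Agent.R234.Main_456 Crest.Agent.R234.F11_435
open Crest.Agent.R234.Gi_456
open Crest.Agent.R234.Cy_870 (Prof)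
open Crest.Agent.R234.Pin3_3 (BB HH)
open Crest.Agent.R234.GL_394 (VK On II ee EE bb RR RF Ph OO qq)
open Crest.Agent.R234.Qp_534 (Qx wz cz Tz h0)

noncomputable section

namespace Crest.Agent.R234.Pd_435

local notation "adj" => ContinuousLinearMap.adjoint

variable {m n k : ℕ}

section chart

variable {π : Euc k →L[ℝ] Euc m} {ρ : Euc k →L[ℝ] Euc n} {b : Euc k} {r : ℝ}
  {w : Euc m → Euc n} {κ κ₂ : ℝ} {Kc : Set (Euc k)} {h₀ : ℝ} {V : Measure (Euc k × L k)}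
  {g g1 g2 : ℝ → ℝ}

/-- lower bound of the height function, general threshold -/
theorem Kz.lo' (h : Kz π ρ b r w κ κ₂ Kc h₀) (hV : On V m Kc) (hg : Prof g g1 g2) (X0 : Euc m)
    {l cg t a a' : ℝ} (hcg : 0 < cg) (hg0 : ∀ y, 0 ≤ y → y ≤ a → cg ≤ -2 * g1 y)
    (ha : a' ^ 2 ≤ a) (hts : 65 / 64 * (t + h₀ / 8) ≤ a' * Real.exp l) :
    ∫ p in cyc π b X0 t, ‖hw π ρ b w p.1‖ ^ 2 ∂V ≤
      8 * cg⁻¹ * (Real.exp l ^ m * II (ch π ρ b r w X0) V g1 l) := by
  have hE := Real.exp_pos l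
  have hok := h.gr.ok h.fr X0 h.cpt h.tb
  have hc1 := hg.k1.continuous
  have i3 : Integrable (fun p : Euc k × L k => ((ch π ρ b r w X0).f p.1 *
      (ch π ρ b r w X0).mu ((ch π ρ b r w X0).x p.1)) *
      (-4 * g1 (Real.exp (-2 * l) * ‖(ch π ρ b r w X0).x p.1‖ ^ 2))) V :=
    hV.integrable h.cpt ((F11_435.cont_fmu hok).mul (continuousOn_const.mul
      (F11_435.cont_q hok hc1 l)))
  have hle : ∀ᵐ p ∂V, 0 ≤ ((ch π ρ b r w X0).f p.1 *
      (ch π ρ b r w X0).mu ((ch π ρ b r w X0).x p.1)) *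
      (-4 * g1 (Real.exp (-2 * l) * ‖(ch π ρ b r w X0).x p.1‖ ^ 2)) := by
    filter_upwards [hV.mem] with p hp
    have h1 := (h.II_integrand X0 hp.1).1
    have h2 := hg.anti (Real.exp (-2 * l) * ‖(ch π ρ b r w X0).x p.1‖ ^ 2) (by positivity)
    exact mul_nonneg (le_trans (by positivity) h1) (by linarith)
  have hmono : ∫ p in cyc π b X0 t, ‖hw π ρ b w p.1‖ ^ 2 ∂V ≤
      ∫ p in cyc π b X0 t, (8 * cg⁻¹) * (((ch π ρ b r w X0).f p.1 *
      (ch π ρ b r w X0).mu ((ch π ρ b r w X0).x p.1)) *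
      (-4 * g1 (Real.exp (-2 * l) * ‖(ch π ρ b r w X0).x p.1‖ ^ 2))) ∂V := by
    refine integral_mono_of_nonneg (Filter.Eventually.of_forall fun p => by positivity)
      (i3.const_mul _).integrableOn ?_
    filter_upwards [ae_restrict_of_ae hV.mem, ae_restrict_mem (measurableSet_cyc X0 t)] with p hp hpS
    have e1 := h.chx_le hp.1 hpS
    have e2 : ‖(ch π ρ b r w X0).x p.1‖ ≤ a' * Real.exp l := e1.trans hts
    have e3 : ‖(ch π ρ b r w X0).x p.1‖ ^ 2 ≤ (a' * Real.exp l) ^ 2 :=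
      pow_le_pow_left₀ (norm_nonneg _) e2 2
    have e4 : Real.exp (-2 * l) * (Real.exp l) ^ 2 = 1 := by
      rw [← Real.exp_nat_mul, ← Real.exp_add]
      norm_num
    have e5 : Real.exp (-2 * l) * ‖(ch π ρ b r w X0).x p.1‖ ^ 2 ≤ a := by
      calc Real.exp (-2 * l) * ‖(ch π ρ b r w X0).x p.1‖ ^ 2
          ≤ Real.exp (-2 * l) * (a' * Real.exp l) ^ 2 := by gcongr
        _ = a' ^ 2 * (Real.exp (-2 * l) * (Real.exp l) ^ 2) := by ring
        _ ≤ a := by rw [e4, mul_one]; exact ha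
    have e6 := hg0 _ (by positivity) e5
    have e7 := (h.II_integrand X0 hp.1).1
    calc ‖hw π ρ b w p.1‖ ^ 2 = (8 * cg⁻¹) * (‖hw π ρ b w p.1‖ ^ 2 / 16 * (2 * cg)) := by
          field_simp
          ring
      _ ≤ (8 * cg⁻¹) * (((ch π ρ b r w X0).f p.1 *
          (ch π ρ b r w X0).mu ((ch π ρ b r w X0).x p.1)) *
          (-4 * g1 (Real.exp (-2 * l) * ‖(ch π ρ b r w X0).x p.1‖ ^ 2))) := by
        have e8 : 0 ≤ (ch π ρ b r w X0).f p.1 *
          (ch π ρ b r w X0).mu ((ch π ρ b r w X0).x p.1) := le_trans (by positivity) e7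
        exact mul_le_mul_of_nonneg_left (mul_le_mul e7 (by linarith) (by positivity) e8)
          (by positivity)
  have hexp : Real.exp l ^ m * Real.exp (-m * l) = 1 := by
    rw [← Real.exp_nat_mul, ← Real.exp_add]
    simp
  have hset := setIntegral_le_integral (s := cyc π b X0 t) i3 hle
  calc _ ≤ _ := hmono
    _ = (8 * cg⁻¹) * ∫ p in cyc π b X0 t, ((ch π ρ b r w X0).f p.1 *
      (ch π ρ b r w X0).mu ((ch π ρ b r w X0).x p.1)) *
      (-4 * g1 (Real.exp (-2 * l) * ‖(ch π ρ b r w X0).x p.1‖ ^ 2)) ∂V := integral_const_mul _ _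
    _ ≤ (8 * cg⁻¹) * ∫ p, ((ch π ρ b r w X0).f p.1 *
      (ch π ρ b r w X0).mu ((ch π ρ b r w X0).x p.1)) *
      (-4 * g1 (Real.exp (-2 * l) * ‖(ch π ρ b r w X0).x p.1‖ ^ 2)) ∂V := by gcongr
    _ = 8 * cg⁻¹ * (Real.exp l ^ m * II (ch π ρ b r w X0) V g1 l) := by
        unfold II
        rw [← mul_assoc (Real.exp l ^ m), hexp, one_mul]

end chart

variable {U : Set (Euc k)} {V : Measure (Euc k × L k)} {Q K : ℕ} {x : Euc k} {r : ℝ}
  {π : Euc k →L[ℝ] Euc m} {ρ : Euc k →L[ℝ] Euc n} {u : Euc m → Euc n} {ε C : ℝ}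
  {W : Euc m → Euc n} {κ : ℝ} {zh : Euc k}

/-- the height integral over a base ball at `zh` -/
def Hc (V : Measure (Euc k × L k)) (Q : ℕ) (π : Euc k →L[ℝ] Euc m) (ρ : Euc k →L[ℝ] Euc n)
    (x : Euc k) (r ε : ℝ) (W : Euc m → Euc n) (zh : Euc k) (t : ℝ) : ℝ :=
  ∫ p in cyc π zh 0 (t * r), ‖hw π ρ zh (wz π x zh r W) p.1‖ ^ 2 ∂(Vz m V Q π ρ x r ε W zh)

theorem sep_nonneg (V : Measure (Euc k × L k)) (π : Euc k →L[ℝ] Euc m) (ρ : Euc k →L[ℝ] Euc n)
    (x : Euc k) (r : ℝ) (u : Euc m → Euc n) (a : ℝ) : 0 ≤ sep V π ρ x r u a :=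
  integral_nonneg fun p => by positivity

theorem Cx.sep_mono (h : Cx U V Q K x r π ρ u ε C) :
    sep V π ρ x r u (1 / 4) ≤ sep V π ρ x r u 8 := by
  have hr := h.hr
  have hh := continuous_hgt (π := π) (ρ := ρ) (x := x) (r := r) h.cu
  unfold sep
  refine setIntegral_mono_set (h.intg (f := fun p => ‖hgt π ρ x r u p‖ ^ 2) (by fun_prop))
    (ae_of_all _ fun p => by positivity) (LE.le.eventuallyLE (prod_mono ?_ subset_rfl))
  intro p hp
  exact ⟨hp.1.trans (by linarith), hp.2.trans (by linarith)⟩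

/-- the constants of the doubling at a `Q`-point -/
theorem exists_dbl (m Q K : ℕ) {C : ℝ} (hC : 1 ≤ C) :
    ∃ ε₁ : ℝ, 0 < ε₁ ∧ ∃ C₂ : ℝ, 1 ≤ C₂ ∧ ∀ {n k : ℕ} {U : Set (Euc k)} {V : Measure (Euc k × L k)}
      {π : Euc k →L[ℝ] Euc m} {ρ : Euc k →L[ℝ] Euc n} {x zh : Euc k} {r ε : ℝ} {u : Euc m → Euc n},
      Cx U V Q K x r π ρ u ε C → zh ∈ closedBall x r → 1 ≤ Th m V zh → ε ≤ ε₁ →
        0 < sep V π ρ x r u 8 ∧ sep V π ρ x r u 8 ≤ C₂ * sepz V π ρ x r u zh (7 / 4) ∧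
        sepz V π ρ x r u zh 7 ≤ C₂ * sep V π ρ x r u 8 := by
  have home := ome_pos m
  obtain ⟨ε₁, hε₁, hε₁1, C₂, hC₂, hmain⟩ := dbl_z m Q K (C := C) (A := 33 / 32 * (ome m)⁻¹) hC
    (by positivity)
  refine ⟨ε₁, hε₁, max (2 * C) C₂, le_max_of_le_right hC₂, ?_⟩
  intro n k U V π ρ x zh r ε u h hzh hth hε
  have hA : ‖hgt π ρ x r u zh‖ ^ 2 * r ^ m ≤ 33 / 32 * (ome m)⁻¹ * sep V π ρ x r u 8 := by
    have h1 := h.sup8 (h.mem_box_of_closedBall (by norm_num) hzh) hth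
    calc ‖hgt π ρ x r u zh‖ ^ 2 * r ^ m =
        (ome m)⁻¹ * (ome m * ‖hgt π ρ x r u zh‖ ^ 2 * r ^ m) := by field_simp
      _ ≤ (ome m)⁻¹ * (33 / 32 * sep V π ρ x r u 8) := by gcongr
      _ = _ := by ring
  obtain ⟨h1, h2, h3, h4⟩ := hmain h.ref h.hr h.e0 hε hzh hA
  have h5 := h.sep_mono
  have h6 := h.ref.pos
  have h7 := h.ref.dbl
  have h8 := sep_nonneg V π ρ x r u 8
  refine ⟨h6.trans_le h5, ?_, ?_⟩
  · calc sep V π ρ x r u 8 ≤ C * sep V π ρ x r u (1 / 4) := h7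
      _ ≤ C * (2 * sepz V π ρ x r u zh (7 / 4)) := by gcongr
      _ = (2 * C) * sepz V π ρ x r u zh (7 / 4) := by ring
      _ ≤ _ := by gcongr; exact le_max_left _ _
  · calc sepz V π ρ x r u zh 7 ≤ C₂ * sep V π ρ x r u (1 / 4) := h3
      _ ≤ C₂ * sep V π ρ x r u 8 := by gcongr
      _ ≤ _ := by gcongr; exact le_max_right _ _

namespace Qz

variable (h : Qx U V Q K x r π ρ u ε C W κ zh)

include h

theorem sepz_eq {t : ℝ} (ht0 : 0 < t) (ht : t ≤ 19 / 4) :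
    sepz V π ρ x r u zh t = Hc V Q π ρ x r ε W zh t := by
  have hr := h.hr
  have h1 : (cyz π ρ x r zh t ×ˢ univ : Set (Euc k × L k)) =
      BB (Xr π x r) (r⁻¹ • π (zh - x)) t ∩ box π ρ x (8 * r) ×ˢ univ := by
    ext p
    constructor
    · rintro ⟨hp, -⟩
      have hp2 := cyz_subset h.hf hr h.mem (by linarith : t ≤ 7) hp
      exact ⟨(h.cx.mem_BB_iff (ctr h)).2 hp.1, hp2, mem_univ _⟩
    · rintro ⟨hp1, hp2, -⟩
      exact ⟨⟨(h.cx.mem_BB_iff (ctr h)).1 hp1, hp2.2⟩, mem_univ _⟩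
  unfold sepz Hc Vz VK
  rw [h1, setIntegral_congr_set (ae_eq h ht0 ht),
    Measure.restrict_restrict (measurableSet_cyc 0 (t * r))]
  have hK : IsCompact (Qp_534.Kz π ρ x r W zh (h0 m Q ε)) := Qx.isCompact_Kz h.gr _
  refine setIntegral_congr_fun ((measurableSet_cyc 0 (t * r)).inter
    (hK.isClosed.measurableSet.prod MeasurableSet.univ)) ?_
  intro p hp
  have hb := h.Kz_box h.hs hp.2.1
  simp only
  rw [hw_eq h (by have := hb.1; linarith)]

theorem intH (f : Euc k → ℝ) (hf : Continuous f) :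
    Integrable (fun p : Euc k × L k => f p.1) (Vz m V Q π ρ x r ε W zh) :=
  (on h).integrable (Qx.isCompact_Kz h.gr _) ((hf.comp continuous_fst).continuousOn)

theorem int_hw : Integrable (fun p : Euc k × L k => ‖hw π ρ zh (wz π x zh r W) p.1‖ ^ 2)
    (Vz m V Q π ρ x r ε W zh) := by
  have h1 := (kz h h.cx.hK).cont_hw
  exact intH h (fun p => ‖hw π ρ zh (wz π x zh r W) p‖ ^ 2) (by fun_prop)


omit h in
theorem Hc_nonneg (t : ℝ) : 0 ≤ Hc V Q π ρ x r ε W zh t := integral_nonneg fun p => by positivity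

theorem sepz_mono {s t : ℝ} (hst : s ≤ t) (ht : t ≤ 7) :
    sepz V π ρ x r u zh s ≤ sepz V π ρ x r u zh t := by
  have hr := h.hr
  have hh := continuous_hgt (π := π) (ρ := ρ) (x := x) (r := r) h.cx.cu
  unfold sepz
  have h1 := h.cx.intg (f := fun p => ‖hgt π ρ x r u p - hgt π ρ x r u zh‖ ^ 2) (by fun_prop)
  refine setIntegral_mono_set (h1.mono_set (prod_mono (cyz_subset h.hf hr h.mem ht) subset_rfl))
    (ae_of_all _ fun p => by positivity) (LE.le.eventuallyLE (prod_mono ?_ subset_rfl))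
  intro p hp
  refine ⟨hp.1.trans_le (by gcongr), hp.2⟩

/-- (B1) at any scale `e^l ≥ 2 r`-ish: heights are seen at the top -/
theorem B1 {C₂ : ℝ} (hC₂ : 0 ≤ C₂)
    (hs : sep V π ρ x r u 8 ≤ C₂ * sepz V π ρ x r u zh (7 / 4))
    {g g1 g2 : ℝ → ℝ} (hg : Prof g g1 g2) {cg : ℝ} (hcg : 0 < cg)
    (hg0 : ∀ y, 0 ≤ y → y ≤ 41 / 50 → cg ≤ -2 * g1 y) {l : ℝ} (hl : 2 * r ≤ Real.exp l) :
    sep V π ρ x r u 8 ≤ C₂ * (8 * cg⁻¹ * (Real.exp l ^ m *
      II (cz π ρ x r W zh) (Vz m V Q π ρ x r ε W zh) g1 l)) := by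
  have hr := h.hr
  have hs0 := h.hs
  have h1 := (kz h h.cx.hK).lo' (on h) hg 0 (l := l) (cg := cg) (t := 7 / 4 * r) (a := 41 / 50)
    (a' := 9055 / 10000) hcg hg0 (by norm_num) (by
      have e1 : 3 * h0 m Q ε * r ≤ 3 * (1 / 16) * r := by gcongr
      nlinarith)
  rw [sepz_eq h (by norm_num) (by norm_num)] at hs
  refine hs.trans ?_
  gcongr
  exact h1

/-- (B2), height -/
theorem B2I {C₂ : ℝ} (hC₂ : 0 ≤ C₂) (hs : sepz V π ρ x r u zh 7 ≤ C₂ * sep V π ρ x r u 8)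
    {g g1 g2 : ℝ → ℝ} (hg : Prof g g1 g2) {B : ℝ} (hB : ∀ y, 0 ≤ y → -g1 y ≤ B) {l : ℝ}
    (hl : Real.exp l ≤ 9 / 2 * r) :
    Real.exp l ^ m * II (cz π ρ x r W zh) (Vz m V Q π ρ x r ε W zh) g1 l ≤
      12 * B * (C₂ * sep V π ρ x r u 8) := by
  have hr := h.hr
  have hs0 := h.hs
  have hB0 : 0 ≤ B := by
    have h1 := hB 0 le_rfl
    have h2 := hg.anti 0 le_rfl
    linarith
  have h1 := (kz h h.cx.hK).up (on h) hg 0 (l := l) (B := B) (t := 19 / 4 * r) hB (by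
      have e1 : 3 * h0 m Q ε * r ≤ 3 * (1 / 16) * r := by gcongr
      linarith)
  refine h1.trans ?_
  have h2 : ∫ p in cyc π zh 0 (19 / 4 * r), ‖hw π ρ zh (wz π x zh r W) p.1‖ ^ 2
      ∂(Vz m V Q π ρ x r ε W zh) = sepz V π ρ x r u zh (19 / 4) :=
    (sepz_eq h (by norm_num) le_rfl).symm
  rw [h2]
  gcongr
  exact (sepz_mono h (by norm_num) le_rfl).trans hs

end Qz

end Crest.Agent.R234.Pd_435
end
end

-- ▼ part R234/Pd9_435

/-!
# Row 234, VF-F11 (helper435): V-level instance of `Pin3_3.Data`, part 9: the tilt energy at a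
`Q`-point against the separation `sep 8` of the reference: (B2) for `ee` and `OO`.
-/

set_option autoImplicit false
set_option linter.unusedVariables false
set_option linter.unusedSectionVars false

open MeasureTheory Filter Topology Set Metric
open scoped ENNReal NNReal ContDiff InnerProductSpace
open Crest.GeometryTopology.Submanifold Crest.Agent.R234.Vf_884
open Crest.Agent.R234.Main_456 Crest.Agent.R234.F11_435
open Crest.Agent.R234.Gi_456
open Crest.Agent.R234.Cy_870 (Prof)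
open Crest.Agent.R234.Pin3_3 (BB HH)
open Crest.Agent.R234.GL_394 (VK On II ee EE bb RR RF Ph OO qq)
open Crest.Agent.R234.Qp_534 (Qx wz cz Tz h0)
open Crest.Agent.R234.Gu_685 (reg dsq tfoot)
open Crest.Agent.R234.Gt_685 (Ket Ket_pos tcl)

noncomputable section

namespace Crest.Agent.R234.Pd_435

local notation "adj" => ContinuousLinearMap.adjoint

variable {m n k : ℕ} {U : Set (Euc k)} {V : Measure (Euc k × L k)} {Q K : ℕ} {x : Euc k} {r : ℝ}
  {π : Euc k →L[ℝ] Euc m} {ρ : Euc k →L[ℝ] Euc n} {u : Euc m → Euc n} {ε C : ℝ}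
  {W : Euc m → Euc n} {κ : ℝ} {zh : Euc k}

/-- the identity of the base -/
abbrev idm (m : ℕ) : Euc m →L[ℝ] Euc m := ContinuousLinearMap.id ℝ (Euc m)

namespace Qz

variable (h : Qx U V Q K x r π ρ u ε C W κ zh)

include h

theorem reg_box {p : Euc k} (hp : p ∈ reg π ρ zh (wz π x zh r W) (idm m) 0 (4 * r) r) :
    p ∈ box π ρ x (7 * r) := by
  have hr := h.hr
  have h1 : ‖π (p - zh) - 0‖ ≤ 4 * r := hp.1
  rw [sub_zero] at h1
  have h2 := hp.2
  have h3 := h.norm_wz_le (π (p - zh))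
  have h4 : ‖ρ (p - zh)‖ ≤ r + 1 / 8 * (4 * r) := by
    have h5 := norm_le_norm_add_norm_sub' (ρ (p - zh)) (wz π x zh r W (π (p - zh)))
    linarith
  have e : p - x = (p - zh) + (zh - x) := by abel
  have h5 := h.norm_pi_z
  have h6 := h.norm_rho_z
  constructor
  · rw [e, map_add]
    have := norm_add_le (π (p - zh)) (π (zh - x))
    linarith
  · rw [e, map_add]
    have := norm_add_le (ρ (p - zh)) (ρ (zh - x))
    linarith

/-- 685's standing hypotheses -/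
theorem hy : Gu_685.Hy V π ρ zh r (wz π x zh r W) (idm m) 0 (κ / r) (2 * h0 m Q ε * r)
    (4 * r) where
  frame := h.hf
  gr := h.gr
  le := fun v => le_rfl
  norm := (ContinuousLinearMap.norm_id_le).trans (by norm_num)
  k0 := div_nonneg h.k0 h.hr.le
  h0 := mul_nonneg (mul_nonneg zero_le_two (Qp_534.h0_nonneg m Q ε)) h.hr.le
  kh := by
    have hr := h.hr
    have h1 := h.hs
    have h2 := h.κ8
    have h3 := h.k0
    have h4 := Qp_534.h0_nonneg m Q ε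
    have e : κ / r * (2 * h0 m Q ε * r) = κ * (2 * h0 m Q ε) := by field_simp
    rw [e]
    calc κ * (2 * h0 m Q ε) ≤ 1 / 8 * (2 * (1 / 16)) := by gcongr
      _ ≤ 1 / 2 := by norm_num
  hr := by
    have hr := h.hr
    have h1 := h.hs
    calc 2 * (2 * h0 m Q ε * r) ≤ 2 * (2 * (1 / 16) * r) := by gcongr
      _ ≤ r := by linarith
  d2 := fun X _ => h.ext.d2 h.hr h.cx.hK X
  mn := fun X hX => by
    have hr := h.hr
    have h1 := h.hs
    have hX' : ‖X - 0‖ ≤ 4 * r + 2 * h0 m Q ε * r := hX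
    rw [sub_zero] at hX'
    have h2 : 2 * h0 m Q ε * r ≤ 2 * (1 / 16) * r := by gcongr
    have h3 := h.norm_pi_z
    have h4 : ‖r⁻¹ • (X + π (zh - x))‖ < 28 := by
      rw [norm_smul, norm_inv, Real.norm_of_nonneg hr.le, inv_mul_lt_iff₀ hr]
      have := norm_add_le X (π (zh - x))
      linarith
    rw [Qp_534.Msys_wz hr.ne' h.ext.cd, h.ext.Msys_eq h4,
      h.cx.ref.minimal _ (by rw [mem_ball_zero_iff]; linarith), smul_zero]
  ae := by
    filter_upwards [h.cx.th] with p hp hpr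
    have h1 := reg_box h hpr
    exact h.hgt_z_le h1 (hp (h.box_sub_U h1))

theorem reg_sub_U : reg π ρ zh (wz π x zh r W) (idm m) 0 (4 * r) r ⊆ U := fun p hp =>
  h.box_sub_U (reg_box h hp)

/-- the region of 685 lies a.e. over the compact -/
theorem ae_reg : ∀ᵐ p ∂V, p.1 ∈ reg π ρ zh (wz π x zh r W) (idm m) 0 (4 * r) r →
    p.1 ∈ Qp_534.Kz π ρ x r W zh (h0 m Q ε) := by
  have hr := h.hr
  have hs := h.hs
  have hs0 := Qp_534.h0_nonneg m Q ε
  filter_upwards [h.cx.th] with p hp hpr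
  have h1 := reg_box h hpr
  have h2 := hp (h.box_sub_U h1)
  have hT := h.mem_Tz_of_box h1 h2
  have h11 := h.hgt_z_le h1 h2
  have h12 := h.gr.norm_yy_le hT
  have h13 := h.foot_sub_le hT
  have hk8 := h.κ8
  have hk0 := h.k0
  have h14 : ‖yy π ρ zh r (wz π x zh r W) p.1‖ ≤ 3 * h0 m Q ε * r := by
    have : 0 ≤ h0 m Q ε * r := by positivity
    linarith
  refine h.mem_Kz hT ?_ h14
  have h3 : ‖π (p.1 - zh) - 0‖ ≤ 4 * r := hpr.1
  rw [sub_zero] at h3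
  have h15 : ‖foot π ρ zh r (wz π x zh r W) p.1‖ ≤ ‖π (p.1 - zh)‖ +
      ‖foot π ρ zh r (wz π x zh r W) p.1 - π (p.1 - zh)‖ := by
    have := norm_add_le (π (p.1 - zh)) (foot π ρ zh r (wz π x zh r W) p.1 - π (p.1 - zh))
    simpa using this
  have h16 : κ * ‖yy π ρ zh r (wz π x zh r W) p.1‖ ≤ 1 / 8 * (3 * (1 / 16) * r) := by
    gcongr
    refine h14.trans ?_
    gcongr
  linarith

theorem meas_reg : MeasurableSet (Prod.fst ⁻¹' reg π ρ zh (wz π x zh r W) (idm m) 0 (4 * r) r :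
    Set (Euc k × L k)) :=
  (((hy h).isCompact_reg (4 * r) r).isClosed.preimage continuous_fst).measurableSet

/-- squared distance over 685's region -/
theorem dsq_le : ∫ p in Prod.fst ⁻¹' reg π ρ zh (wz π x zh r W) (idm m) 0 (4 * r) r,
    dsq π ρ zh r (wz π x zh r W) p.1 ∂V ≤ 4 * Hc V Q π ρ x r ε W zh (19 / 4) := by
  have hr := h.hr
  have hK : IsCompact (Qp_534.Kz π ρ x r W zh (h0 m Q ε)) := Qx.isCompact_Kz h.gr _
  have h1 : (Prod.fst ⁻¹' reg π ρ zh (wz π x zh r W) (idm m) 0 (4 * r) r : Set (Euc k × L k))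
      =ᵐ[V] (Prod.fst ⁻¹' reg π ρ zh (wz π x zh r W) (idm m) 0 (4 * r) r ∩
        Qp_534.Kz π ρ x r W zh (h0 m Q ε) ×ˢ univ : Set (Euc k × L k)) := by
    filter_upwards [ae_reg h] with p hp
    apply propext
    constructor
    · intro h2
      exact ⟨h2, hp h2, mem_univ _⟩
    · intro h2
      exact h2.1
  rw [setIntegral_congr_set h1]
  have h2 : ∫ p in (Prod.fst ⁻¹' reg π ρ zh (wz π x zh r W) (idm m) 0 (4 * r) r ∩
        Qp_534.Kz π ρ x r W zh (h0 m Q ε) ×ˢ univ : Set (Euc k × L k)),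
      dsq π ρ zh r (wz π x zh r W) p.1 ∂V =
      ∫ p in Prod.fst ⁻¹' reg π ρ zh (wz π x zh r W) (idm m) 0 (4 * r) r,
        dsq π ρ zh r (wz π x zh r W) p.1 ∂(Vz m V Q π ρ x r ε W zh) := by
    unfold Vz VK
    rw [Measure.restrict_restrict (meas_reg h)]
  rw [h2]
  have h3 : ∫ p in Prod.fst ⁻¹' reg π ρ zh (wz π x zh r W) (idm m) 0 (4 * r) r,
        dsq π ρ zh r (wz π x zh r W) p.1 ∂(Vz m V Q π ρ x r ε W zh) ≤
      ∫ p in Prod.fst ⁻¹' reg π ρ zh (wz π x zh r W) (idm m) 0 (4 * r) r,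
        4 * ‖hw π ρ zh (wz π x zh r W) p.1‖ ^ 2 ∂(Vz m V Q π ρ x r ε W zh) := by
    refine integral_mono_of_nonneg (ae_of_all _ fun p => Gu_685.dsq_nonneg _)
      ((int_hw h).const_mul 4).integrableOn ?_
    filter_upwards [ae_restrict_of_ae (on h).mem] with p hp
    have h4 : dsq π ρ zh r (wz π x zh r W) p.1 = ‖nut π ρ zh r (wz π x zh r W) p.1‖ ^ 2 :=
      Gu_685.dsq_eq_norm h.hf _
    have h5 := norm_nut_le_hw h.gr h.hf (h.Kz_spec h.hs hp.1).1 (kz h h.cx.hK).sm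
    change dsq π ρ zh r (wz π x zh r W) p.1 ≤ _
    rw [h4]
    calc ‖nut π ρ zh r (wz π x zh r W) p.1‖ ^ 2 ≤ (2 * ‖hw π ρ zh (wz π x zh r W) p.1‖) ^ 2 := by
          gcongr
      _ = _ := by ring
  refine h3.trans ?_
  rw [integral_const_mul]
  unfold Hc
  refine mul_le_mul_of_nonneg_left ?_ (by norm_num)
  refine setIntegral_mono_set (int_hw h).integrableOn (ae_of_all _ fun p => by positivity)
    (LE.le.eventuallyLE ?_)
  intro p hp
  have h6 : ‖π (p.1 - zh) - 0‖ ≤ 4 * r := hp.1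
  exact (h6.trans_lt (by linarith) : ‖π (p.1 - zh) - 0‖ < 19 / 4 * r)

theorem cont_tfoot : ContinuousOn (tfoot π ρ zh r (wz π x zh r W))
    (Tz π ρ x r W zh ×ˢ (univ : Set (L k))) := by
  have h1 : ContinuousOn (foot π ρ zh r (wz π x zh r W)) (Tz π ρ x r W zh) := fun z hz =>
    (h.gr.contDiffAt_foot h.hf hz).continuousAt.continuousWithinAt
  have h2 : ContinuousOn (fun p : Euc k × L k => foot π ρ zh r (wz π x zh r W) p.1)
      (Tz π ρ x r W zh ×ˢ univ) := h1.comp continuousOn_fst fun p hp => hp.1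
  have h3 : ContinuousOn (fun p : Euc k × L k => Supm_685.nf π ρ
      (fderiv ℝ (wz π x zh r W) (foot π ρ zh r (wz π x zh r W) p.1)))
      (Tz π ρ x r W zh ×ˢ univ) := by
    unfold Supm_685.nf
    exact continuousOn_const.sub ((h.gr.cd1.continuous.comp_continuousOn h2).clm_comp
      continuousOn_const)
  unfold tfoot Supm_685.tau
  refine continuousOn_finsetSum _ fun j _ => ?_
  exact (h3.clm_apply ((continuous_snd.clm_apply continuous_const).continuousOn)).norm.pow 2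

/-- **energy bound** -/
theorem energy {s : ℝ} (hs0 : 0 ≤ s) (hs : s ≤ 3 * r) :
    ∫ p in {p : Euc k × L k | ‖(cz π ρ x r W zh).x p.1‖ ≤ s}, (cz π ρ x r W zh).tau p.1 p.2
      ∂(Vz m V Q π ρ x r ε W zh) ≤
      8 * Ket * (2 + (m + 1) ^ 2) * (r ^ 2)⁻¹ * Hc V Q π ρ x r ε W zh (19 / 4) := by
  have hr := h.hr
  have hs16 := h.hs
  have hh0 := Qp_534.h0_nonneg m Q ε
  have hK : IsCompact (Qp_534.Kz π ρ x r W zh (h0 m Q ε)) := Qx.isCompact_Kz h.gr _
  have hsub : Qp_534.Kz π ρ x r W zh (h0 m Q ε) ⊆ Tz π ρ x r W zh := fun p hp =>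
    (h.Kz_spec h.hs hp).1
  have hcx : ContinuousOn (fun p : Euc k × L k => ‖(cz π ρ x r W zh).x p.1‖)
      (Qp_534.Kz π ρ x r W zh (h0 m Q ε) ×ˢ univ) := by
    have h1 : ContinuousOn (cz π ρ x r W zh).x (Qp_534.Kz π ρ x r W zh (h0 m Q ε)) := fun z hz =>
      (h.ok.hx z hz).continuousAt.continuousWithinAt
    exact (h1.comp continuousOn_fst fun p hp => hp.1).norm
  have hKm : MeasurableSet (Qp_534.Kz π ρ x r W zh (h0 m Q ε) ×ˢ (univ : Set (L k))) :=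
    hK.isClosed.measurableSet.prod MeasurableSet.univ
  have hSm : NullMeasurableSet {p : Euc k × L k | ‖(cz π ρ x r W zh).x p.1‖ ≤ s}
      (Vz m V Q π ρ x r ε W zh) := by
    have h1 : AEStronglyMeasurable (fun p : Euc k × L k => ‖(cz π ρ x r W zh).x p.1‖)
        (Vz m V Q π ρ x r ε W zh) := hcx.aestronglyMeasurable hKm
    exact nullMeasurableSet_le h1.aemeasurable aemeasurable_const
  have i1 : Integrable (tfoot π ρ zh r (wz π x zh r W)) (Vz m V Q π ρ x r ε W zh) :=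
    (on h).integrable hK ((cont_tfoot h).mono (prod_mono hsub (subset_univ _)))
  -- tau ≤ tfoot
  have h1 : ∫ p in {p : Euc k × L k | ‖(cz π ρ x r W zh).x p.1‖ ≤ s},
        (cz π ρ x r W zh).tau p.1 p.2 ∂(Vz m V Q π ρ x r ε W zh) ≤
      ∫ p in {p : Euc k × L k | ‖(cz π ρ x r W zh).x p.1‖ ≤ s},
        tfoot π ρ zh r (wz π x zh r W) p ∂(Vz m V Q π ρ x r ε W zh) := by
    refine integral_mono_of_nonneg ?_ i1.integrableOn ?_
    · filter_upwards [ae_restrict_of_ae (on h).mem] with p hp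
      exact tau_nonneg h.gr h.hf 0 (hsub hp.1) hp.2
    · filter_upwards [ae_restrict_of_ae (on h).mem] with p hp
      exact Gu_685.tau0_le_tfoot h.hf h.gr (hsub hp.1) hp.2
  -- to a subset of the region
  have h2 : ∫ p in {p : Euc k × L k | ‖(cz π ρ x r W zh).x p.1‖ ≤ s},
        tfoot π ρ zh r (wz π x zh r W) p ∂(Vz m V Q π ρ x r ε W zh) =
      ∫ p in {p : Euc k × L k | ‖(cz π ρ x r W zh).x p.1‖ ≤ s} ∩
        Qp_534.Kz π ρ x r W zh (h0 m Q ε) ×ˢ univ, tfoot π ρ zh r (wz π x zh r W) p ∂V := by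
    unfold Vz VK at hSm ⊢
    rw [Measure.restrict_restrict₀ hSm]
  have h3 := Gt_685.energy_foot_set (Al7_182.st_of_stat h.cx.st) (Al7_182.tr_ae h.cx.st) (by simp)
    ((hy h).nt h.cx.st (reg_sub_U h)) (s := 25 / 8 * r) (by positivity) (by linarith) hr
    (by rw [← Gu_685.reg_eq]; exact reg_sub_U h)
    (S := {p : Euc k × L k | ‖(cz π ρ x r W zh).x p.1‖ ≤ s} ∩
        Qp_534.Kz π ρ x r W zh (h0 m Q ε) ×ˢ univ) (by
      refine LE.le.eventuallyLE ?_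
      rintro p ⟨hp1, hp2, -⟩
      obtain ⟨a1, a2, a3⟩ := h.Kz_spec h.hs hp2
      have a4 : ‖foot π ρ zh r (wz π x zh r W) p.1‖ ≤ s := (Qx.foot_le_x _).trans hp1
      have a5 := h.foot_sub_le a1
      have a6 : κ * ‖yy π ρ zh r (wz π x zh r W) p.1‖ ≤ 1 / 8 * (3 * (1 / 16) * r) := by
        have := h.k0
        have := h.κ8
        gcongr
        refine a3.trans ?_
        gcongr
      have a7 : ‖π (p.1 - zh)‖ ≤ ‖foot π ρ zh r (wz π x zh r W) p.1‖ +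
          ‖foot π ρ zh r (wz π x zh r W) p.1 - π (p.1 - zh)‖ :=
        norm_le_norm_add_norm_sub (foot π ρ zh r (wz π x zh r W) p.1) (π (p.1 - zh))
      refine ⟨?_, ?_⟩
      · show ‖π (p.1 - zh) - 0‖ ≤ 25 / 8 * r
        rw [sub_zero]
        linarith
      · rw [Gu_685.ht_eq]
        exact (show ‖ρ (p.1 - zh) - wz π x zh r W (π (p.1 - zh))‖ < r from a1).le)
  rw [← Gu_685.reg_eq] at h3
  have h4 := dsq_le h
  have hket := Ket_pos
  have h5 : Ket * (((4 * r - 25 / 8 * r) ^ 2)⁻¹ + (m + 1) ^ 2 * (κ / r) ^ 2) ≤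
      2 * Ket * (2 + (m + 1) ^ 2) * (r ^ 2)⁻¹ := by
    have e1 : ((4 * r - 25 / 8 * r) ^ 2)⁻¹ ≤ 2 * (r ^ 2)⁻¹ := by
      rw [show 4 * r - 25 / 8 * r = 7 / 8 * r by ring, mul_pow, mul_inv]
      gcongr
      norm_num
    have e2 : (κ / r) ^ 2 ≤ (r ^ 2)⁻¹ := by
      rw [div_pow, div_eq_mul_inv]
      have : κ ^ 2 ≤ 1 := by
        have := h.k0
        have := h.κ8
        nlinarith
      have : 0 < (r ^ 2)⁻¹ := by positivity
      nlinarith
    calc Ket * (((4 * r - 25 / 8 * r) ^ 2)⁻¹ + (m + 1) ^ 2 * (κ / r) ^ 2) ≤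
        Ket * (2 * (r ^ 2)⁻¹ + (m + 1) ^ 2 * (r ^ 2)⁻¹) := by gcongr
      _ = Ket * (2 + (m + 1) ^ 2) * (r ^ 2)⁻¹ := by ring
      _ ≤ 2 * Ket * (2 + (m + 1) ^ 2) * (r ^ 2)⁻¹ := by
        have : 0 ≤ Ket * (2 + ((m:ℝ) + 1) ^ 2) * (r ^ 2)⁻¹ := by positivity
        linarith
  refine h1.trans (h2.le.trans ?_)
  have h6 : ∫ p in Prod.fst ⁻¹' reg π ρ zh (wz π x zh r W) (idm m) 0 (4 * r) r,
    dsq π ρ zh r (wz π x zh r W) p.1 ∂V =
    ∫ p in Prod.fst ⁻¹' reg π ρ zh (wz π x zh r W) (idm m) 0 (4 * r) r,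
    Gs_685.tf (wz π x zh r W) (foot π ρ zh r (wz π x zh r W)) (yy π ρ zh r (wz π x zh r W)) p.1
      ∂V := rfl
  rw [← h6] at h3
  refine le_trans h3 ?_
  have hH := Hc_nonneg (V := V) (Q := Q) (π := π) (ρ := ρ) (x := x) (r := r) (ε := ε) (W := W)
    (zh := zh) (19 / 4)
  calc _ ≤ (2 * Ket * (2 + (m + 1) ^ 2) * (r ^ 2)⁻¹) *
        (4 * Hc V Q π ρ x r ε W zh (19 / 4)) := by
        refine mul_le_mul h5 h4 ?_ (by positivity)
        exact integral_nonneg fun p => Gu_685.dsq_nonneg _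
    _ = _ := by ring

omit h in
theorem nm_S (h : Qx U V Q K x r π ρ u ε C W κ zh) (s : ℝ) :
    NullMeasurableSet {p : Euc k × L k | ‖(cz π ρ x r W zh).x p.1‖ ≤ s}
      (Vz m V Q π ρ x r ε W zh) := by
  have hK : IsCompact (Qp_534.Kz π ρ x r W zh (h0 m Q ε)) := Qx.isCompact_Kz h.gr _
  have hKm : MeasurableSet (Qp_534.Kz π ρ x r W zh (h0 m Q ε) ×ˢ (univ : Set (L k))) :=
    hK.isClosed.measurableSet.prod MeasurableSet.univ
  have hcx : ContinuousOn (fun p : Euc k × L k => ‖(cz π ρ x r W zh).x p.1‖)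
      (Qp_534.Kz π ρ x r W zh (h0 m Q ε) ×ˢ univ) := by
    have h1 : ContinuousOn (cz π ρ x r W zh).x (Qp_534.Kz π ρ x r W zh (h0 m Q ε)) := fun z hz =>
      (h.ok.hx z hz).continuousAt.continuousWithinAt
    exact (h1.comp continuousOn_fst fun p hp => hp.1).norm
  have h1 : AEStronglyMeasurable (fun p : Euc k × L k => ‖(cz π ρ x r W zh).x p.1‖)
      (Vz m V Q π ρ x r ε W zh) := hcx.aestronglyMeasurable hKm
  exact nullMeasurableSet_le h1.aemeasurable aemeasurable_const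

theorem int_tau : Integrable (fun p : Euc k × L k => (cz π ρ x r W zh).tau p.1 p.2)
    (Vz m V Q π ρ x r ε W zh) :=
  (on h).integrable (Qx.isCompact_Kz h.gr _) h.ok.ctau

theorem int_f : Integrable (fun p : Euc k × L k => (cz π ρ x r W zh).f p.1)
    (Vz m V Q π ρ x r ε W zh) := by
  refine (on h).integrable (Qx.isCompact_Kz h.gr _) ?_
  have h1 : ContinuousOn (cz π ρ x r W zh).f (Qp_534.Kz π ρ x r W zh (h0 m Q ε)) := fun z hz =>
    (h.ok.hf z hz).continuousAt.continuousWithinAt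
  exact h1.comp continuousOn_fst fun p hp => hp.1

theorem tau_ae : ∀ᵐ p ∂(Vz m V Q π ρ x r ε W zh), 0 ≤ (cz π ρ x r W zh).tau p.1 p.2 := by
  filter_upwards [(on h).mem] with p hp
  exact tau_nonneg h.gr h.hf 0 (h.Kz_spec h.hs hp.1).1 hp.2

/-- the constant of the energy bounds -/
def Ce (m : ℕ) : ℝ := 72 * Ket * (2 + (m + 1) ^ 2) + 4

omit h in
theorem Ce_pos (m : ℕ) : 0 < Ce m := by
  have := Ket_pos
  unfold Ce
  positivity

/-- squared distance over `{|x| ≤ s}` -/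
theorem int_2f {s : ℝ} (hs : s ≤ 3 * r) :
    ∫ p in {p : Euc k × L k | ‖(cz π ρ x r W zh).x p.1‖ ≤ s}, 2 * (cz π ρ x r W zh).f p.1
      ∂(Vz m V Q π ρ x r ε W zh) ≤ 4 * Hc V Q π ρ x r ε W zh (19 / 4) := by
  have hr := h.hr
  have hs16 := h.hs
  have hh0 := Qp_534.h0_nonneg m Q ε
  have hf : ∀ p, 2 * (cz π ρ x r W zh).f p = ‖nut π ρ zh r (wz π x zh r W) p‖ ^ 2 := by
    intro p
    show 2 * (‖nut π ρ zh r (wz π x zh r W) p‖ ^ 2 / 2) = _
    ring
  have h1 : ∫ p in {p : Euc k × L k | ‖(cz π ρ x r W zh).x p.1‖ ≤ s}, 2 * (cz π ρ x r W zh).f p.1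
      ∂(Vz m V Q π ρ x r ε W zh) ≤
      ∫ p in {p : Euc k × L k | ‖(cz π ρ x r W zh).x p.1‖ ≤ s},
        4 * ‖hw π ρ zh (wz π x zh r W) p.1‖ ^ 2 ∂(Vz m V Q π ρ x r ε W zh) := by
    refine integral_mono_of_nonneg (ae_of_all _ fun p => ?_)
      ((int_hw h).const_mul 4).integrableOn ?_
    · change 0 ≤ 2 * (cz π ρ x r W zh).f p.1
      rw [hf]; positivity
    · filter_upwards [ae_restrict_of_ae (on h).mem] with p hp
      have h5 := norm_nut_le_hw h.gr h.hf (h.Kz_spec h.hs hp.1).1 (kz h h.cx.hK).sm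
      change 2 * (cz π ρ x r W zh).f p.1 ≤ _
      rw [hf]
      calc ‖nut π ρ zh r (wz π x zh r W) p.1‖ ^ 2 ≤ (2 * ‖hw π ρ zh (wz π x zh r W) p.1‖) ^ 2 := by
            gcongr
        _ = _ := by ring
  refine h1.trans ?_
  rw [integral_const_mul]
  unfold Hc
  refine mul_le_mul_of_nonneg_left ?_ (by norm_num)
  refine setIntegral_mono_set (int_hw h).integrableOn (ae_of_all _ fun p => by positivity) ?_
  filter_upwards [(on h).mem] with p hp hpS
  obtain ⟨a1, a2, a3⟩ := h.Kz_spec h.hs hp.1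
  have a4 : ‖foot π ρ zh r (wz π x zh r W) p.1‖ ≤ s := (Qx.foot_le_x _).trans hpS
  have a5 := h.foot_sub_le a1
  have a6 : κ * ‖yy π ρ zh r (wz π x zh r W) p.1‖ ≤ 1 / 8 * (3 * (1 / 16) * r) := by
    have := h.k0
    have := h.κ8
    gcongr
    refine a3.trans ?_
    gcongr
  have a7 : ‖π (p.1 - zh)‖ ≤ ‖foot π ρ zh r (wz π x zh r W) p.1‖ +
      ‖foot π ρ zh r (wz π x zh r W) p.1 - π (p.1 - zh)‖ :=
    norm_le_norm_add_norm_sub (foot π ρ zh r (wz π x zh r W) p.1) (π (p.1 - zh))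
  show ‖π (p.1 - zh) - 0‖ < 19 / 4 * r
  rw [sub_zero]
  linarith

/-- (B2), energy + height, sharp -/
theorem B2O {l : ℝ} (hl : Real.exp l ≤ 3 * r) :
    Real.exp l ^ m * OO (cz π ρ x r W zh) (Vz m V Q π ρ x r ε W zh) l ≤
      Ce m * Hc V Q π ρ x r ε W zh (19 / 4) := by
  have hr := h.hr
  have hE := Real.exp_pos l
  have h1 := energy h hE.le hl
  have h2 := int_2f h hl
  have hH := Hc_nonneg (V := V) (Q := Q) (π := π) (ρ := ρ) (x := x) (r := r) (ε := ε) (W := W)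
    (zh := zh) (19 / 4)
  have hket := Ket_pos
  have e1 : Real.exp l ^ m * Real.exp ((2 - m) * l) = Real.exp l ^ 2 := by
    rw [← Real.exp_nat_mul, ← Real.exp_nat_mul, ← Real.exp_add]
    congr 1
    push_cast
    ring
  have e2 : Real.exp l ^ 2 * Real.exp (-2 * l) = 1 := by
    rw [← Real.exp_nat_mul, ← Real.exp_add]
    norm_num
  have e3 : ∫ p in {p : Euc k × L k | ‖(cz π ρ x r W zh).x p.1‖ ≤ Real.exp l},
      ((cz π ρ x r W zh).tau p.1 p.2 + qq (cz π ρ x r W zh) l p.1)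
        ∂(Vz m V Q π ρ x r ε W zh) =
      ∫ p in {p : Euc k × L k | ‖(cz π ρ x r W zh).x p.1‖ ≤ Real.exp l},
        (cz π ρ x r W zh).tau p.1 p.2 ∂(Vz m V Q π ρ x r ε W zh) +
      Real.exp (-2 * l) * ∫ p in {p : Euc k × L k | ‖(cz π ρ x r W zh).x p.1‖ ≤ Real.exp l},
        2 * (cz π ρ x r W zh).f p.1 ∂(Vz m V Q π ρ x r ε W zh) := by
    unfold qq
    rw [integral_add (int_tau h).integrableOn
      (((int_f h).const_mul 2).const_mul (Real.exp (-2 * l))).integrableOn, integral_const_mul]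
  unfold OO
  rw [← mul_assoc, e1, e3, mul_add, ← mul_assoc, e2, one_mul]
  set A := ∫ p in {p : Euc k × L k | ‖(cz π ρ x r W zh).x p.1‖ ≤ Real.exp l},
        (cz π ρ x r W zh).tau p.1 p.2 ∂(Vz m V Q π ρ x r ε W zh) with hA
  have hA0 : 0 ≤ A := integral_nonneg_of_ae (ae_restrict_of_ae (tau_ae h))
  have h3 : Real.exp l ^ 2 ≤ 9 * r ^ 2 := by
    calc Real.exp l ^ 2 ≤ (3 * r) ^ 2 := by gcongr
      _ = _ := by ring
  have h4 : Real.exp l ^ 2 * A ≤
      72 * Ket * (2 + (m + 1) ^ 2) * Hc V Q π ρ x r ε W zh (19 / 4) := by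
    calc Real.exp l ^ 2 * A ≤ (9 * r ^ 2) *
          (8 * Ket * (2 + (m + 1) ^ 2) * (r ^ 2)⁻¹ * Hc V Q π ρ x r ε W zh (19 / 4)) :=
          mul_le_mul h3 h1 hA0 (by positivity)
      _ = _ := by
          field_simp
          ring
  unfold Ce
  linarith

/-- (B2), energy -/
theorem B2e {g g1 g2 : ℝ → ℝ} (hg : Prof g g1 g2) {B : ℝ} (hB : ∀ y, 0 ≤ y → g y ≤ B)
    (hg0 : ∀ y, 0 ≤ y → 0 ≤ g y) {l : ℝ} (hl : Real.exp l ≤ 3 * r) :
    Real.exp l ^ m * ee (cz π ρ x r W zh) (Vz m V Q π ρ x r ε W zh) g l ≤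
      B * (Ce m * Hc V Q π ρ x r ε W zh (19 / 4)) := by
  have hr := h.hr
  have hE := Real.exp_pos l
  have hB0 : 0 ≤ B := (hg0 0 le_rfl).trans (hB 0 le_rfl)
  have h2 := B2O h hl
  have i1 := int_tau h
  have hS := nm_S h (Real.exp l)
  -- the cut-off energy
  have h3 : ∫ p, (cz π ρ x r W zh).tau p.1 p.2 *
      g (Real.exp (-2 * l) * ‖(cz π ρ x r W zh).x p.1‖ ^ 2) ∂(Vz m V Q π ρ x r ε W zh) ≤
      B * ∫ p in {p : Euc k × L k | ‖(cz π ρ x r W zh).x p.1‖ ≤ Real.exp l},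
        ((cz π ρ x r W zh).tau p.1 p.2 + qq (cz π ρ x r W zh) l p.1)
          ∂(Vz m V Q π ρ x r ε W zh) := by
    have i2 : Integrable (fun p : Euc k × L k => (cz π ρ x r W zh).tau p.1 p.2 +
        qq (cz π ρ x r W zh) l p.1) (Vz m V Q π ρ x r ε W zh) :=
      (int_tau h).add (((int_f h).const_mul 2).const_mul (Real.exp (-2 * l)))
    rw [← setIntegral_eq_integral_of_forall_compl_eq_zero
      (s := {p : Euc k × L k | ‖(cz π ρ x r W zh).x p.1‖ ≤ Real.exp l}), ← integral_const_mul]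
    · refine integral_mono_of_nonneg ?_ (i2.const_mul B).integrableOn ?_
      · filter_upwards [ae_restrict_of_ae (tau_ae h)] with p hp
        exact mul_nonneg hp (hg0 _ (by positivity))
      · filter_upwards [ae_restrict_of_ae (tau_ae h), ae_restrict_of_ae (on h).mem] with p hp hp2
        have e1 : 0 ≤ qq (cz π ρ x r W zh) l p.1 := by
          refine mul_nonneg (Real.exp_pos _).le ?_
          show 0 ≤ 2 * (‖nut π ρ zh r (wz π x zh r W) p.1‖ ^ 2 / 2)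
          positivity
        calc (cz π ρ x r W zh).tau p.1 p.2 *
            g (Real.exp (-2 * l) * ‖(cz π ρ x r W zh).x p.1‖ ^ 2) ≤
            ((cz π ρ x r W zh).tau p.1 p.2 + qq (cz π ρ x r W zh) l p.1) * B :=
              mul_le_mul (by linarith) (hB _ (by positivity)) (hg0 _ (by positivity))
                (by linarith)
          _ = _ := mul_comm _ _
    · intro p hp
      have h4 : ¬ ‖(cz π ρ x r W zh).x p.1‖ ≤ Real.exp l := hp
      rw [hg.k0.zero _ (GL_394.t_ge h4), mul_zero]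
  unfold ee
  have e1 : 0 ≤ Real.exp l ^ m * Real.exp ((2 - m) * l) := by positivity
  calc Real.exp l ^ m * (Real.exp ((2 - m) * l) * ∫ p, (cz π ρ x r W zh).tau p.1 p.2 *
      g (Real.exp (-2 * l) * ‖(cz π ρ x r W zh).x p.1‖ ^ 2) ∂(Vz m V Q π ρ x r ε W zh)) =
      (Real.exp l ^ m * Real.exp ((2 - m) * l)) * ∫ p, (cz π ρ x r W zh).tau p.1 p.2 *
      g (Real.exp (-2 * l) * ‖(cz π ρ x r W zh).x p.1‖ ^ 2) ∂(Vz m V Q π ρ x r ε W zh) := by
        rw [mul_assoc]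
    _ ≤ (Real.exp l ^ m * Real.exp ((2 - m) * l)) *
        (B * ∫ p in {p : Euc k × L k | ‖(cz π ρ x r W zh).x p.1‖ ≤ Real.exp l},
        ((cz π ρ x r W zh).tau p.1 p.2 + qq (cz π ρ x r W zh) l p.1)
          ∂(Vz m V Q π ρ x r ε W zh)) := by gcongr
    _ = B * (Real.exp l ^ m * OO (cz π ρ x r W zh) (Vz m V Q π ρ x r ε W zh) l) := by
        unfold OO; ring
    _ ≤ _ := by gcongr

end Qz

end Crest.Agent.R234.Pd_435
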