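import Mathlib
import Crest.Agent.R234.Dbl3_534
import Crest.Agent.R234.Fd1_534

-- ▼ part R234/Low_161
section

/-!
Row 234, (F4) LOW FREQUENCY, real-variable half (helper161).

`D` = scale invariant height excess `I / r^2`, `W = r^-2 (E - I/2)`, `τ = - log (r/s)` (going down).
Main result `qlow`: from
 (a) `D' ≤ -4 W + a S`, (b) `W' ≤ K (κ e^-τ + S) S`, (c) `W ≥ -K (κ e^-τ + S²)`
(valid whenever `S ≤ ε0` bounds `D` on `[-c, τ]`) it follows that `W 0 ≥ -θ D0`
as soon as `κ`, `D0` are small (depending on `θ, K, ε0`).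
-/

namespace Crest.Agent.R234.Low_161

open Set Filter Topology

/-- First touching point argument with history. -/
theorem first_touch {D B D' B' : ℝ → ℝ} {T : ℝ}
    (hD : ∀ τ ∈ Icc 0 T, HasDerivAt D (D' τ) τ) (hB : ∀ τ ∈ Icc 0 T, HasDerivAt B (B' τ) τ)
    (h0 : D 0 ≤ B 0)
    (h : ∀ τ ∈ Ico 0 T, (∀ t ∈ Icc 0 τ, D t ≤ B t) → D τ = B τ → D' τ < B' τ) :
    ∀ τ ∈ Icc 0 T, D τ ≤ B τ := by
  by_contra hcon
  push Not at hcon
  obtain ⟨τ1, hτ1, hlt1⟩ := hcon
  set U : Set ℝ := {τ | τ ∈ Icc 0 T ∧ B τ < D τ} with hU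
  have hUne : U.Nonempty := ⟨τ1, hτ1, hlt1⟩
  have hUbdd : BddBelow U := ⟨0, fun x hx => hx.1.1⟩
  set τ0 := sInf U with hτ0
  have h0τ : 0 ≤ τ0 := le_csInf hUne fun x hx => hx.1.1
  have hτ01 : τ0 ≤ τ1 := csInf_le hUbdd ⟨hτ1, hlt1⟩
  have hmem : τ0 ∈ Icc 0 T := ⟨h0τ, hτ01.trans hτ1.2⟩
  have hcD : ContinuousAt D τ0 := (hD τ0 hmem).continuousAt
  have hcB : ContinuousAt B τ0 := (hB τ0 hmem).continuousAt
  have hlow : ∀ t, 0 ≤ t → t < τ0 → D t ≤ B t := by
    intro t ht htl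
    by_contra hc
    push Not at hc
    exact absurd (csInf_le hUbdd (show t ∈ U from ⟨⟨ht, (htl.le.trans hmem.2)⟩, hc⟩))
      (not_le.2 htl)
  have hle0 : D τ0 ≤ B τ0 := by
    rcases eq_or_lt_of_le h0τ with he | hlt
    · rw [← he]; exact h0
    · have hev : ∀ᶠ t in 𝓝[<] τ0, D t ≤ B t := by
        have : Ioo 0 τ0 ∈ 𝓝[<] τ0 := Ioo_mem_nhdsLT hlt
        filter_upwards [this] with t ht
        exact hlow t ht.1.le ht.2
      exact le_of_tendsto_of_tendsto (hcD.tendsto.mono_left nhdsWithin_le_nhds)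
        (hcB.tendsto.mono_left nhdsWithin_le_nhds) hev
  have hne : τ0 ≠ τ1 := by
    intro he
    rw [← he] at hlt1
    exact absurd hle0 (not_le.2 hlt1)
  have hlt : τ0 < τ1 := lt_of_le_of_ne hτ01 hne
  have hT : τ0 < T := lt_of_lt_of_le hlt hτ1.2
  -- points of `U` accumulate at `τ0` from the right
  have hfr : ∃ᶠ t in 𝓝[>] τ0, B t < D t := by
    rw [frequently_iff]
    intro V hV
    obtain ⟨u, hu, huV⟩ := (mem_nhdsGT_iff_exists_Ioo_subset' hlt).1 hV
    obtain ⟨x, hxU, hxu⟩ := exists_lt_of_csInf_lt hUne (show sInf U < u from hu)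
    have hx0 : τ0 ≤ x := csInf_le hUbdd hxU
    have hx0' : τ0 ≠ x := by
      intro he
      rw [← he] at hxU
      exact absurd hle0 (not_le.2 hxU.2)
    exact ⟨x, huV ⟨lt_of_le_of_ne hx0 hx0', hxu⟩, hxU.2⟩
  have hge0 : B τ0 ≤ D τ0 := by
    by_contra hc
    push Not at hc
    have hev : ∀ᶠ t in 𝓝 τ0, D t < B t := hcD.eventually_lt hcB hc
    have hev' : ∀ᶠ t in 𝓝[>] τ0, D t < B t := hev.filter_mono nhdsWithin_le_nhds
    obtain ⟨t, ht1, ht2⟩ := (hfr.and_eventually hev').exists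
    exact lt_asymm ht1 ht2
  have heq : D τ0 = B τ0 := le_antisymm hle0 hge0
  have hder := h τ0 ⟨h0τ, hT⟩ (by
    intro t ht
    rcases eq_or_lt_of_le ht.2 with he | hl
    · rw [he]; exact hle0
    · exact hlow t ht.1 hl) heq
  have hd : HasDerivAt (fun t => B t - D t) (B' τ0 - D' τ0) τ0 :=
    (hB τ0 hmem).sub (hD τ0 hmem)
  have hpos : 0 < B' τ0 - D' τ0 := by linarith
  have hsl := (hasDerivAt_iff_tendsto_slope.1 hd)
  have hev : ∀ᶠ t in 𝓝[≠] τ0, 0 < slope (fun t => B t - D t) τ0 t :=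
    hsl.eventually (lt_mem_nhds hpos)
  have hev2 : ∀ᶠ t in 𝓝[>] τ0, 0 < slope (fun t => B t - D t) τ0 t :=
    hev.filter_mono (nhdsWithin_mono _ (fun x hx => ne_of_gt hx))
  obtain ⟨t, ⟨ht1, ht2⟩, ht3⟩ :=
    ((hfr.and_eventually hev2).and_eventually self_mem_nhdsWithin).exists
  have ht3' : τ0 < t := ht3
  rw [slope_def_field] at ht2
  have h1 : 0 < t - τ0 := by linarith
  have h2 : 0 < (B t - D t) - (B τ0 - D τ0) := by
    have := mul_pos ht2 h1
    rwa [div_mul_cancel₀ _ h1.ne'] at this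
  rw [heq] at h2
  linarith

/-- Real-variable half of (F4), general exponent `q ∈ (0,1]`. `κ1` depends only on `q, θ, K, ε0`. -/
theorem qlow_q {q a K ε0 θ : ℝ} (hq : 0 < q) (hq1 : q ≤ 1) (ha8 : a ≤ q / 8) (hK : 1 ≤ K)
    (hε : 0 < ε0) (hε1 : ε0 ≤ 1) (hθ : 0 < θ) (hθ1 : θ ≤ 1) :
    ∃ κ1 : ℝ, 0 < κ1 ∧ κ1 ≤ 1 ∧ ∀ (c κ D0 : ℝ) (D W D' W' : ℝ → ℝ), 0 ≤ c → 0 ≤ κ → κ ≤ κ1 →
      0 ≤ D0 → D0 ≤ κ1 →
      (∀ t ∈ Icc (-c) 0, D t ≤ D0) →
      (∀ τ, 0 ≤ τ → HasDerivAt D (D' τ) τ) → (∀ τ, 0 ≤ τ → HasDerivAt W (W' τ) τ) →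
      (∀ τ, 0 ≤ τ → ∀ S, 0 < S → S ≤ ε0 → (∀ t ∈ Icc (-c) τ, D t ≤ S) →
        D' τ ≤ -4 * W τ + a * S ∧ W' τ ≤ K * (κ * Real.exp (-τ) + S ^ q) * S ∧
        -K * (κ * Real.exp (-τ) + S ^ (1 + q)) ≤ W τ) →
      -θ * D0 ≤ W 0 := by
  -- constants
  obtain ⟨M, hM⟩ : ∃ M : ℝ, M = 40 / (θ * ε0 * q) := ⟨_, rfl⟩
  have hθε : 0 < θ * ε0 * q := mul_pos (mul_pos hθ hε) hq
  have hMpos : 0 < M := by rw [hM]; positivity
  have hM1 : M * (θ * ε0 * q) = 40 := by rw [hM]; field_simp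
  have hMθ : 40 ≤ M * θ := by
    have h1 : θ * ε0 * q ≤ θ := by
      calc θ * ε0 * q ≤ θ * 1 * 1 := by
            apply mul_le_mul (mul_le_mul_of_nonneg_left hε1 hθ.le) hq1 hq.le (by positivity)
        _ = θ := by ring
    have := mul_le_mul_of_nonneg_left h1 hMpos.le
    linarith
  have hMq : 40 ≤ M * q := by
    have h1 : θ * ε0 * q ≤ q := by
      calc θ * ε0 * q ≤ 1 * 1 * q := by
            apply mul_le_mul_of_nonneg_right _ hq.le
            exact mul_le_mul hθ1 hε1 hε.le zero_le_one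
        _ = q := by ring
    have := mul_le_mul_of_nonneg_left h1 hMpos.le
    linarith
  have hM40 : 40 ≤ M := by
    have : M * θ ≤ M * 1 := mul_le_mul_of_nonneg_left hθ1 hMpos.le
    linarith
  have hMε : 40 ≤ M * ε0 := by
    have h1 : θ * ε0 * q ≤ ε0 := by
      calc θ * ε0 * q ≤ 1 * ε0 * 1 := by
            apply mul_le_mul (mul_le_mul_of_nonneg_right hθ1 hε.le) hq1 hq.le (by positivity)
        _ = ε0 := by ring
    have := mul_le_mul_of_nonneg_left h1 hMpos.le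
    linarith
  have hKpos : 0 < K := by linarith
  obtain ⟨e1, he1⟩ : ∃ e1 : ℝ, e1 = q / (32 * K * M ^ 2) := ⟨_, rfl⟩
  have he1pos : 0 < e1 := by rw [he1]; positivity
  have hKMe1 : K * M ^ 2 * e1 = q / 32 := by
    rw [he1]; field_simp
  have hKM1 : 1 ≤ K * M ^ 2 :=
    one_le_mul_of_one_le_of_one_le hK (one_le_pow₀ (by linarith))
  have he11 : e1 ≤ 1 := by
    have h3 : e1 ≤ K * M ^ 2 * e1 := le_mul_of_one_le_left he1pos.le hKM1
    linarith
  obtain ⟨e2, he2⟩ : ∃ e2 : ℝ, e2 = e1 ^ (1 / q) := ⟨_, rfl⟩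
  have he2pos : 0 < e2 := by rw [he2]; exact Real.rpow_pos_of_pos he1pos _
  have he2q : e2 ^ q = e1 := by
    rw [he2, ← Real.rpow_mul he1pos.le, one_div_mul_cancel hq.ne', Real.rpow_one]
  have he2e1 : e2 ≤ e1 := by
    rw [he2]
    calc e1 ^ (1 / q) ≤ e1 ^ (1 : ℝ) :=
          Real.rpow_le_rpow_of_exponent_ge he1pos he11 ((one_le_div hq).2 hq1)
      _ = e1 := Real.rpow_one _
  refine ⟨e2 / (8 * K), by positivity, ?_, ?_⟩
  · rw [div_le_one (by positivity)]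
    linarith
  intro c κ D0 D W D' W' hc hκ hκ1 hD0 hD01 hDc hD hW hyp
  by_contra hcon
  push Not at hcon
  -- `w = -W`
  have hw0 : θ * D0 < -W 0 := by linarith
  have hw0pos : 0 < -W 0 := lt_of_le_of_lt (mul_nonneg hθ.le hD0) hw0
  -- the maximum point
  obtain ⟨T0, hT0, hT0'⟩ : ∃ T0 : ℝ, 0 ≤ T0 ∧ e2 * Real.exp (-T0) ≤ min e2 (-W 0) := by
    have hlim : Tendsto (fun t : ℝ => e2 * Real.exp (-t)) atTop (𝓝 (e2 * 0)) :=
      (Real.tendsto_exp_neg_atTop_nhds_zero).const_mul e2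
    rw [mul_zero] at hlim
    have hm : 0 < min e2 (-W 0) := lt_min he2pos hw0pos
    obtain ⟨T0, h1, h2⟩ := ((hlim.eventually (gt_mem_nhds hm)).and (eventually_ge_atTop 0)).exists
    exact ⟨T0, h2, h1.le⟩
  have hcW : ContinuousOn W (Icc 0 T0) := fun t ht => (hW t ht.1).continuousAt.continuousWithinAt
  have hcG : ContinuousOn (fun t => min (e2 * Real.exp (-t)) (-W t)) (Icc 0 T0) := by
    have h1 : ContinuousOn (fun t => e2 * Real.exp (-t)) (Icc 0 T0) :=
      Continuous.continuousOn (by fun_prop)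
    exact continuous_min.comp_continuousOn (h1.prodMk hcW.neg)
  obtain ⟨t0, ht0, hmax⟩ := isCompact_Icc.exists_isMaxOn (nonempty_Icc.2 hT0) hcG
  obtain ⟨m, hm⟩ : ∃ m : ℝ, m = min (e2 * Real.exp (-t0)) (-W t0) := ⟨_, rfl⟩
  have hmmax : ∀ t ∈ Icc 0 T0, min (e2 * Real.exp (-t)) (-W t) ≤ m := by
    intro t ht
    rw [hm]
    exact hmax ht
  have hm0 : min e2 (-W 0) ≤ m := by
    have := hmmax 0 ⟨le_refl _, hT0⟩
    simpa using this
  have hmpos : 0 < m := lt_of_lt_of_le (lt_min he2pos hw0pos) hm0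
  have hme2 : m ≤ e2 * Real.exp (-t0) := by rw [hm]; exact min_le_left _ _
  have hmw : m ≤ -W t0 := by rw [hm]; exact min_le_right _ _
  obtain ⟨T, hT⟩ : ∃ T : ℝ, T = Real.log (e2 / m) := ⟨_, rfl⟩
  have hexpT : e2 * Real.exp (-T) = m := by
    rw [hT, Real.exp_neg, Real.exp_log (by positivity)]
    field_simp
  have ht0T : t0 ≤ T := by
    have h1 : Real.exp (-T) ≤ Real.exp (-t0) := by
      rw [← hexpT] at hme2
      exact le_of_mul_le_mul_left hme2 he2pos
    have := Real.exp_le_exp.1 h1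
    linarith
  have hT0T : T ≤ T0 := by
    have h1 : e2 * Real.exp (-T0) ≤ e2 * Real.exp (-T) := by
      rw [hexpT]; exact hT0'.trans hm0
    have := Real.exp_le_exp.1 (le_of_mul_le_mul_left h1 he2pos)
    linarith
  have hTnn : 0 ≤ T := ht0.1.trans ht0T
  have hwm : ∀ t, 0 ≤ t → t < T → -W t ≤ m := by
    intro t ht htT
    have h1 := hmmax t ⟨ht, (htT.le.trans hT0T)⟩
    have h2 : m < e2 * Real.exp (-t) := by
      rw [← hexpT]
      exact mul_lt_mul_of_pos_left (Real.exp_lt_exp.2 (by linarith)) he2pos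
    rcases min_le_iff.1 h1 with h3 | h3
    · exact absurd h3 (not_le.2 h2)
    · exact h3
  -- `D0 ≤ M m`
  have hκ1e : e2 / (8 * K) ≤ e2 := by
    rw [div_le_iff₀ (by positivity)]
    exact le_mul_of_one_le_right he2pos.le (by linarith)
  have hD0m : D0 ≤ M * m := by
    rcases le_total e2 (-W 0) with h | h
    · rw [min_eq_left h] at hm0
      have h1 : D0 ≤ e2 := hD01.trans hκ1e
      have h2 : 1 * m ≤ M * m := mul_le_mul_of_nonneg_right (by linarith) hmpos.le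
      linarith
    · rw [min_eq_right h] at hm0
      have h1 : θ * D0 ≤ m := hw0.le.trans hm0
      have h2 : 40 * D0 ≤ M * m := by
        calc 40 * D0 ≤ M * θ * D0 := mul_le_mul_of_nonneg_right hMθ hD0
          _ = M * (θ * D0) := by ring
          _ ≤ M * m := mul_le_mul_of_nonneg_left h1 hMpos.le
      linarith
  -- barrier
  obtain ⟨B, hB⟩ : ∃ B : ℝ → ℝ, B = fun t => M * m * Real.exp (q / 4 * t) := ⟨_, rfl⟩
  have hBval : ∀ t, B t = M * m * Real.exp (q / 4 * t) := fun t => by rw [hB]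
  have hBder : ∀ t, HasDerivAt B (q / 4 * B t) t := by
    intro t
    have h1 : HasDerivAt (fun t : ℝ => Real.exp (q / 4 * t))
        (Real.exp (q / 4 * t) * (q / 4 * 1)) t := ((hasDerivAt_id t).const_mul (q / 4)).exp
    have h2 := h1.const_mul (M * m)
    rw [hBval t, hB]
    exact h2.congr_deriv (by ring)
  have hMm : 0 < M * m := mul_pos hMpos hmpos
  have hBpos : ∀ t, 0 < B t := fun t => by rw [hBval]; positivity
  have hBmono : ∀ s t, s ≤ t → B s ≤ B t := by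
    intro s t hst
    rw [hBval, hBval]
    exact mul_le_mul_of_nonneg_left (Real.exp_le_exp.2
      (mul_le_mul_of_nonneg_left hst (by linarith))) hMm.le
  have hB0 : M * m = B 0 := by rw [hBval]; simp
  have hBmM : ∀ t, 0 ≤ t → M * m ≤ B t := fun t ht => by rw [hB0]; exact hBmono 0 t ht
  -- size of the barrier on `[0, T]`
  have hBε : ∀ t, t ≤ T → B t ≤ M * e2 := by
    intro t ht
    refine (hBmono t T ht).trans ?_
    rw [hBval]
    have : m * Real.exp (q / 4 * T) ≤ e2 := by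
      rw [← hexpT, mul_assoc, ← Real.exp_add]
      have h0 : q / 4 * T ≤ 1 * T := mul_le_mul_of_nonneg_right (by linarith) hTnn
      have : Real.exp (-T + q / 4 * T) ≤ 1 := Real.exp_le_one_iff.2 (by linarith)
      exact mul_le_of_le_one_right he2pos.le this
    calc M * m * Real.exp (q / 4 * T) = M * (m * Real.exp (q / 4 * T)) := by ring
      _ ≤ M * e2 := mul_le_mul_of_nonneg_left this hMpos.le
  have hMe1 : M * e1 ≤ ε0 := by
    have h1 : K * M * (M * e1) = q / 32 := by rw [← hKMe1]; ring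
    have h2 : M * (M * e1) ≤ 1 := by
      have h0 : 0 ≤ M * (M * e1) := by positivity
      calc M * (M * e1) ≤ K * (M * (M * e1)) := le_mul_of_one_le_left h0 hK
        _ = K * M * (M * e1) := by ring
        _ = q / 32 := h1
        _ ≤ 1 := by linarith
    have h3 : M * (M * e1) ≤ M * ε0 := by linarith
    exact le_of_mul_le_mul_left h3 hMpos
  have hMe2 : M * e2 ≤ ε0 := (mul_le_mul_of_nonneg_left he2e1 hMpos.le).trans hMe1
  -- history: `B τ` is an admissible bound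
  have hist : ∀ τ, 0 ≤ τ → (∀ t ∈ Icc 0 τ, D t ≤ B t) → ∀ t ∈ Icc (-c) τ, D t ≤ B τ := by
    intro τ hτ h t ht
    rcases le_total t 0 with h1 | h1
    · exact ((hDc t ⟨ht.1, h1⟩).trans hD0m).trans (hBmM τ hτ)
    · exact (h t ⟨h1, ht.2⟩).trans (hBmono t τ ht.2)
  have hD0B : D 0 ≤ B 0 := by
    rw [← hB0]
    exact (hDc 0 ⟨by linarith, le_refl _⟩).trans hD0m
  have hDB : ∀ τ ∈ Icc 0 T, D τ ≤ B τ := by
    apply first_touch (D' := D') (B' := fun t => q / 4 * B t) (fun τ hτ => hD τ hτ.1)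
      (fun τ _ => hBder τ) hD0B
    intro τ hτ hh _
    have h1 := (hyp τ hτ.1 (B τ) (hBpos τ) ((hBε τ hτ.2.le).trans hMe2) (hist τ hτ.1 hh)).1
    have h2 := hwm τ hτ.1 hτ.2
    have h3 : a * B τ ≤ q / 8 * B τ := mul_le_mul_of_nonneg_right ha8 (hBpos τ).le
    have h4 : M * m ≤ B τ := hBmM τ hτ.1
    have h5 : 40 * m ≤ q * (M * m) := by
      calc 40 * m ≤ M * q * m := mul_le_mul_of_nonneg_right hMq hmpos.le
        _ = q * (M * m) := by ring
    have h6 : q * (M * m) ≤ q * B τ := mul_le_mul_of_nonneg_left h4 hq.le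
    show D' τ < q / 4 * B τ
    linarith
  -- powers of the barrier
  have hBq : ∀ t, B t ^ q = (M * m) ^ q * Real.exp (q * (q / 4 * t)) := by
    intro t
    rw [hBval, Real.mul_rpow hMm.le (Real.exp_pos _).le, ← Real.exp_mul]
    congr 2
    ring
  obtain ⟨Z, hZ⟩ : ∃ Z : ℝ, Z = (M * m) ^ q * (M * m) := ⟨_, rfl⟩
  have hZpos : 0 < Z := by rw [hZ]; positivity
  have hBq1 : ∀ t, B t ^ q * B t = Z * Real.exp (q / 4 * (1 + q) * t) := by
    intro t
    rw [hBq, hBval, hZ]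
    have : Real.exp (q / 4 * (1 + q) * t) = Real.exp (q * (q / 4 * t)) * Real.exp (q / 4 * t) := by
      rw [← Real.exp_add]; congr 1; ring
    rw [this]; ring
  have hBq2 : ∀ t, B t ^ (1 + q) = Z * Real.exp (q / 4 * (1 + q) * t) := by
    intro t
    rw [← hBq1 t, Real.rpow_add (hBpos t), Real.rpow_one, mul_comm]
  -- the growth of `W` between `t0` and `T`
  have hq4 : 0 < 1 - q / 4 := by linarith
  have hq5 : 0 < q / 4 * (1 + q) := by positivity
  obtain ⟨P, hP⟩ : ∃ P : ℝ → ℝ, P = fun t => K * (-(κ * (M * m) / (1 - q / 4)) *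
      Real.exp (-((1 - q / 4) * t)) + Z / (q / 4 * (1 + q)) *
      Real.exp (q / 4 * (1 + q) * t)) := ⟨_, rfl⟩
  have hPval : ∀ t, P t = K * (-(κ * (M * m) / (1 - q / 4)) *
      Real.exp (-((1 - q / 4) * t)) + Z / (q / 4 * (1 + q)) *
      Real.exp (q / 4 * (1 + q) * t)) := fun t => by rw [hP]
  have hPder : ∀ t, HasDerivAt P (K * (κ * Real.exp (-t) + B t ^ q) * B t) t := by
    intro t
    have h1 : HasDerivAt (fun t : ℝ => Real.exp (-((1 - q / 4) * t)))
        (Real.exp (-((1 - q / 4) * t)) * (-((1 - q / 4) * 1))) t :=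
      (((hasDerivAt_id t).const_mul (1 - q / 4)).neg).exp
    have h2 : HasDerivAt (fun t : ℝ => Real.exp (q / 4 * (1 + q) * t))
        (Real.exp (q / 4 * (1 + q) * t) * (q / 4 * (1 + q) * 1)) t :=
      ((hasDerivAt_id t).const_mul (q / 4 * (1 + q))).exp
    have h3 := ((h1.const_mul (-(κ * (M * m) / (1 - q / 4)))).add
      (h2.const_mul (Z / (q / 4 * (1 + q))))).const_mul K
    have e1' : Real.exp (-((1 - q / 4) * t)) = Real.exp (-t) * Real.exp (q / 4 * t) := by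
      rw [← Real.exp_add]; congr 1; ring
    have e2' : K * (κ * Real.exp (-t) + B t ^ q) * B t =
        K * (κ * (M * m) * (Real.exp (-t) * Real.exp (q / 4 * t)) +
          Z * Real.exp (q / 4 * (1 + q) * t)) := by
      rw [← hBq1 t, hBval t]; ring
    rw [e2', hP]
    refine h3.congr_deriv ?_
    rw [e1']
    have hA : κ * (M * m) / (1 - q / 4) * (1 - q / 4) = κ * (M * m) := div_mul_cancel₀ _ hq4.ne'
    have hC : Z / (q / 4 * (1 + q)) * (q / 4 * (1 + q)) = Z := div_mul_cancel₀ _ hq5.ne'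
    linear_combination (K * (Real.exp (-t) * Real.exp (q / 4 * t))) * hA +
      (K * Real.exp (q / 4 * (1 + q) * t)) * hC
  have hanti : AntitoneOn (fun t => W t - P t) (Icc t0 T) := by
    have hd : ∀ t ∈ Icc t0 T, HasDerivAt (fun t => W t - P t)
        (W' t - K * (κ * Real.exp (-t) + B t ^ q) * B t) t := fun t ht =>
      (hW t (ht0.1.trans ht.1)).sub (hPder t)
    apply antitoneOn_of_deriv_nonpos (convex_Icc _ _)
    · exact fun t ht => (hd t ht).continuousAt.continuousWithinAt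
    · intro t ht
      rw [interior_Icc] at ht
      exact (hd t ⟨ht.1.le, ht.2.le⟩).differentiableAt.differentiableWithinAt
    · intro t ht
      rw [interior_Icc] at ht
      have ht' : t ∈ Icc t0 T := ⟨ht.1.le, ht.2.le⟩
      rw [(hd t ht').deriv]
      have h00 : 0 ≤ t := ht0.1.trans ht'.1
      have h1 := (hyp t h00 (B t) (hBpos t) ((hBε t ht'.2).trans hMe2)
        (hist t h00 (fun s hs => hDB s ⟨hs.1, hs.2.trans ht'.2⟩))).2.1
      linarith
  have hWT : W T - P T ≤ W t0 - P t0 := hanti ⟨le_refl _, ht0T⟩ ⟨ht0T, le_refl _⟩ ht0T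
  have hbot := (hyp T hTnn (B T) (hBpos T) ((hBε T le_rfl).trans hMe2)
        (hist T hTnn (fun s hs => hDB s hs))).2.2
  -- numerical estimates
  have hZe : Z * Real.exp (q / 4 * (1 + q) * T) ≤ M ^ 2 * m * e1 := by
    have h1 : M ^ q ≤ M := by
      calc M ^ q ≤ M ^ (1 : ℝ) := Real.rpow_le_rpow_of_exponent_le (by linarith) hq1
        _ = M := Real.rpow_one _
    have h2 : m ^ q = e1 * Real.exp (-(q * T)) := by
      rw [← hexpT, Real.mul_rpow he2pos.le (Real.exp_pos _).le, he2q, ← Real.exp_mul]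
      congr 2
      ring
    have h3 : Real.exp (-(q * T)) * Real.exp (q / 4 * (1 + q) * T) ≤ 1 := by
      rw [← Real.exp_add]
      apply Real.exp_le_one_iff.2
      have h4 : q / 4 * (1 + q) * T ≤ q * T := by
        apply mul_le_mul_of_nonneg_right _ hTnn
        calc q / 4 * (1 + q) ≤ q / 4 * 4 := mul_le_mul_of_nonneg_left (by linarith) (by linarith)
          _ = q := by ring
      linarith
    have h5 : Z = M ^ q * (m ^ q * (M * m)) := by
      rw [hZ, Real.mul_rpow hMpos.le hmpos.le]; ring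
    calc Z * Real.exp (q / 4 * (1 + q) * T)
        = M ^ q * (M * m * e1) * (Real.exp (-(q * T)) * Real.exp (q / 4 * (1 + q) * T)) := by
          rw [h5, h2]; ring
      _ ≤ M ^ q * (M * m * e1) * 1 := mul_le_mul_of_nonneg_left h3 (by positivity)
      _ ≤ M * (M * m * e1) * 1 := by
          apply mul_le_mul_of_nonneg_right _ zero_le_one
          exact mul_le_mul_of_nonneg_right h1 (by positivity)
      _ = M ^ 2 * m * e1 := by ring
  have hPT : P T - P t0 ≤ m * (K * (4 / 3 * κ * M + 4 / q * (M ^ 2 * e1))) := by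
    rw [hPval, hPval]
    have h1 : Real.exp (-((1 - q / 4) * t0)) ≤ 1 :=
      Real.exp_le_one_iff.2 (by have := mul_nonneg hq4.le ht0.1; linarith)
    have h2 : 0 ≤ κ * (M * m) / (1 - q / 4) * Real.exp (-((1 - q / 4) * T)) := by positivity
    have h3 : 0 ≤ Z / (q / 4 * (1 + q)) * Real.exp (q / 4 * (1 + q) * t0) := by positivity
    have h4 : κ * (M * m) / (1 - q / 4) * Real.exp (-((1 - q / 4) * t0)) ≤
        m * (4 / 3 * κ * M) := by
      have h41 : κ * (M * m) / (1 - q / 4) ≤ 4 / 3 * (κ * (M * m)) := by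
        rw [div_le_iff₀ hq4]
        have h42 : 0 ≤ κ * (M * m) := by positivity
        have h43 : (1 : ℝ) ≤ 4 / 3 * (1 - q / 4) := by linarith
        calc κ * (M * m) = κ * (M * m) * 1 := (mul_one _).symm
          _ ≤ κ * (M * m) * (4 / 3 * (1 - q / 4)) := mul_le_mul_of_nonneg_left h43 h42
          _ = 4 / 3 * (κ * (M * m)) * (1 - q / 4) := by ring
      calc κ * (M * m) / (1 - q / 4) * Real.exp (-((1 - q / 4) * t0))
          ≤ κ * (M * m) / (1 - q / 4) * 1 := mul_le_mul_of_nonneg_left h1 (by positivity)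
        _ ≤ 4 / 3 * (κ * (M * m)) := by rw [mul_one]; exact h41
        _ = m * (4 / 3 * κ * M) := by ring
    have h5 : Z / (q / 4 * (1 + q)) * Real.exp (q / 4 * (1 + q) * T) ≤
        m * (4 / q * (M ^ 2 * e1)) := by
      have h51 : Z / (q / 4 * (1 + q)) * Real.exp (q / 4 * (1 + q) * T) =
          (Z * Real.exp (q / 4 * (1 + q) * T)) / (q / 4 * (1 + q)) := by ring
      rw [h51, div_le_iff₀ hq5]
      have h52 : (1 : ℝ) ≤ 4 / q * (q / 4 * (1 + q)) := by
        have : 4 / q * (q / 4 * (1 + q)) = 1 + q := by field_simp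
        rw [this]; linarith
      have h53 : 0 ≤ M ^ 2 * m * e1 := by positivity
      calc Z * Real.exp (q / 4 * (1 + q) * T) ≤ M ^ 2 * m * e1 * 1 := by rw [mul_one]; exact hZe
        _ ≤ M ^ 2 * m * e1 * (4 / q * (q / 4 * (1 + q))) := mul_le_mul_of_nonneg_left h52 h53
        _ = m * (4 / q * (M ^ 2 * e1)) * (q / 4 * (1 + q)) := by ring
    have h8 : (-(κ * (M * m) / (1 - q / 4)) * Real.exp (-((1 - q / 4) * T)) +
        Z / (q / 4 * (1 + q)) * Real.exp (q / 4 * (1 + q) * T)) -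
        (-(κ * (M * m) / (1 - q / 4)) * Real.exp (-((1 - q / 4) * t0)) +
        Z / (q / 4 * (1 + q)) * Real.exp (q / 4 * (1 + q) * t0)) ≤
        m * (4 / 3 * κ * M + 4 / q * (M ^ 2 * e1)) := by
      have e1' : m * (4 / 3 * κ * M + 4 / q * (M ^ 2 * e1)) =
          m * (4 / 3 * κ * M) + m * (4 / q * (M ^ 2 * e1)) := by ring
      rw [e1']
      linarith
    calc K * (-(κ * (M * m) / (1 - q / 4)) * Real.exp (-((1 - q / 4) * T)) +
        Z / (q / 4 * (1 + q)) * Real.exp (q / 4 * (1 + q) * T)) -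
        K * (-(κ * (M * m) / (1 - q / 4)) * Real.exp (-((1 - q / 4) * t0)) +
        Z / (q / 4 * (1 + q)) * Real.exp (q / 4 * (1 + q) * t0))
        = K * ((-(κ * (M * m) / (1 - q / 4)) * Real.exp (-((1 - q / 4) * T)) +
        Z / (q / 4 * (1 + q)) * Real.exp (q / 4 * (1 + q) * T)) -
        (-(κ * (M * m) / (1 - q / 4)) * Real.exp (-((1 - q / 4) * t0)) +
        Z / (q / 4 * (1 + q)) * Real.exp (q / 4 * (1 + q) * t0))) := by ring
      _ ≤ K * (m * (4 / 3 * κ * M + 4 / q * (M ^ 2 * e1))) :=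
          mul_le_mul_of_nonneg_left h8 hKpos.le
      _ = m * (K * (4 / 3 * κ * M + 4 / q * (M ^ 2 * e1))) := by ring
  have hκe : 8 * K * κ ≤ e2 := by
    have := (le_div_iff₀ (by positivity : (0:ℝ) < 8 * K)).1 hκ1
    linarith
  have hKκM : K * κ * M ≤ 1 / 64 := by
    have h1 : 8 * K * κ * M ≤ e1 * M := mul_le_mul_of_nonneg_right (hκe.trans he2e1) hMpos.le
    have h2 : e1 * M ≤ K * M ^ 2 * e1 := by
      have : 1 ≤ K * M := one_le_mul_of_one_le_of_one_le hK (by linarith)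
      calc e1 * M = 1 * (e1 * M) := by ring
        _ ≤ K * M * (e1 * M) := mul_le_mul_of_nonneg_right this (by positivity)
        _ = K * M ^ 2 * e1 := by ring
    linarith
  have hfac : K * (4 / 3 * κ * M + 4 / q * (M ^ 2 * e1)) ≤ 1 / 2 := by
    have : K * (4 / 3 * κ * M + 4 / q * (M ^ 2 * e1)) =
        4 / 3 * (K * κ * M) + 4 / q * (K * M ^ 2 * e1) := by ring
    rw [this, hKMe1]
    have h2 : 4 / q * (q / 32) = 1 / 8 := by
      have h21 : 4 / q * (q / 32) = (q / q) * (4 / 32) := by ring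
      rw [h21, div_self hq.ne']
      norm_num
    rw [h2]
    linarith
  have hWT2 : W T ≤ -(m / 2) := by
    have h1 : m * (K * (4 / 3 * κ * M + 4 / q * (M ^ 2 * e1))) ≤ m * (1 / 2) :=
      mul_le_mul_of_nonneg_left hfac hmpos.le
    linarith
  -- bottom
  have hb1 : K * (κ * Real.exp (-T)) ≤ m / 8 := by
    have h1 : 8 * K * κ * Real.exp (-T) ≤ e2 * Real.exp (-T) :=
      mul_le_mul_of_nonneg_right hκe (Real.exp_pos _).le
    rw [hexpT] at h1
    linarith
  have hb2 : K * B T ^ (1 + q) ≤ m / 8 := by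
    rw [hBq2]
    calc K * (Z * Real.exp (q / 4 * (1 + q) * T)) ≤ K * (M ^ 2 * m * e1) :=
          mul_le_mul_of_nonneg_left hZe hKpos.le
      _ = (K * M ^ 2 * e1) * m := by ring
      _ = q * m / 32 := by rw [hKMe1]; ring
      _ ≤ m / 8 := by
          have : q * m ≤ 1 * m := mul_le_mul_of_nonneg_right hq1 hmpos.le
          linarith
  have : -(m / 4) ≤ W T := by
    have h1 : -K * (κ * Real.exp (-T) + B T ^ (1 + q)) =
        -(K * (κ * Real.exp (-T)) + K * B T ^ (1 + q)) := by ring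
    rw [h1] at hbot
    linarith
  linarith

end Crest.Agent.R234.Low_161
end

-- ▼ part R234/LowF1_471
section

/-!
# Row 234, (F4) LOW FREQUENCY, part (AB) (helper471)

Pure real analysis, Mathlib only.  From the centre identities (394's form, with errors)
`I' = 2e + e1`, `E' = 2b + R + e2`, `E = e/2 + b`, `(e + e3)^2 ≤ I R`, `|e_i| ≤ t (e + I)`
to the two differential inequalities of 161's floating scale lemma for
`J = exp(-2l) I`, `g = exp(-2l) (E - I/2)`.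
-/

set_option autoImplicit false

open Set Filter Topology

namespace Crest.Agent.R234.LowF1_471

/-- pointwise algebra behind `-J' ≤ 4 g_- + 4 B + 4 t J` -/
theorem alg_I {I E e b B e1 t : ℝ} (hI : 0 ≤ I) (hE : E = e / 2 + b)
    (he1 : |e1| ≤ t * (e + I)) (ht0 : 0 ≤ t) (ht : t ≤ 1 / 16) (hb : b ≤ B) (hB : 0 ≤ B) :
    -(2 * e + e1 - 2 * I) ≤ 4 * max (-(E - I / 2)) 0 + 4 * B + 4 * t * I := by
  have h1 := (abs_le.1 he1).1
  have hm : 0 ≤ max (-(E - I / 2)) 0 := le_max_right _ _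
  have hm' : -(E - I / 2) ≤ max (-(E - I / 2)) 0 := le_max_left _ _
  have htI : 0 ≤ t * I := mul_nonneg ht0 hI
  by_cases hc : 0 ≤ 2 * e + e1 - 2 * I
  · nlinarith
  · have hc' : 2 * e + e1 - 2 * I < 0 := not_le.1 hc
    have h2 : e ≤ 2 * I := by
      by_contra hcon
      have h3 : 2 * I < e := not_le.1 hcon
      have h4 : t * (e + I) ≤ (1 / 16) * (e + I) :=
        mul_le_mul_of_nonneg_right ht (by linarith)
      linarith
    have h5 : t * (e + I) ≤ t * (3 * I) := mul_le_mul_of_nonneg_left (by linarith) ht0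
    linarith

/-- pointwise algebra behind `g' ≥ -8 t J` -/
theorem alg_g {I R e e1 e2 e3 t : ℝ} (hI : 0 < I) (he : 0 ≤ e) (hR : (e + e3) ^ 2 ≤ I * R)
    (he1 : |e1| ≤ t * (e + I)) (he2 : |e2| ≤ t * (e + I)) (he3 : |e3| ≤ t * (e + I))
    (ht0 : 0 ≤ t) (ht : t ≤ 1 / 16) :
    -(8 * t * I) ≤ R - 2 * e + I + e2 - e1 / 2 := by
  have h1 := abs_le.1 he1
  have h2 := abs_le.1 he2
  have h3 := abs_le.1 he3
  set X : ℝ := e + e3 - I with hX
  -- `(7/2) t (e + I) ≤ (56/15) t (|X| + 2 I)`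
  have h4 : e ≤ 16 / 15 * |X| + 17 / 15 * I := by
    have h5 : t * (e + I) ≤ (1 / 16) * (e + I) :=
      mul_le_mul_of_nonneg_right ht (by linarith)
    have h6 : X ≤ |X| := le_abs_self _
    have h7 : e = X + I - e3 := by rw [hX]; ring
    have h8 : -e3 ≤ (1 / 16) * (e + I) := by linarith
    linarith
  have h9 : t * (e + I) ≤ t * (16 / 15 * |X| + 32 / 15 * I) :=
    mul_le_mul_of_nonneg_left (by linarith) ht0
  have h10 : 0 ≤ I * (R - 2 * e + I + e2 - e1 / 2 + 8 * t * I) := by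
    have h11 : I * (R - 2 * e + I + e2 - e1 / 2 + 8 * t * I)
        = (I * R - (e + e3) ^ 2) + (X ^ 2 + I * (2 * e3 + e2 - e1 / 2) + 8 * t * I ^ 2) := by
      rw [hX]; ring
    rw [h11]
    have h12 : -(7 / 2 * (t * (e + I))) ≤ 2 * e3 + e2 - e1 / 2 := by linarith
    have h13 : -(7 / 2 * (t * (16 / 15 * |X| + 32 / 15 * I))) ≤ 2 * e3 + e2 - e1 / 2 := by
      linarith
    have h14 : I * (-(7 / 2 * (t * (16 / 15 * |X| + 32 / 15 * I))))
        ≤ I * (2 * e3 + e2 - e1 / 2) := mul_le_mul_of_nonneg_left h13 hI.le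
    have h15 : X ^ 2 = |X| ^ 2 := (sq_abs X).symm
    have h16 : 0 ≤ (|X| - 28 / 15 * (t * I)) ^ 2 := sq_nonneg _
    have h17 : (t * I) ^ 2 ≤ (1 / 16) * (t * I ^ 2) := by
      have : t * t ≤ (1 / 16) * t := mul_le_mul_of_nonneg_right ht ht0
      have h18 : t * t * I ^ 2 ≤ (1 / 16) * t * I ^ 2 :=
        mul_le_mul_of_nonneg_right this (sq_nonneg I)
      nlinarith
    have h19 : 0 ≤ t * I ^ 2 := mul_nonneg ht0 (sq_nonneg I)
    rw [h15]
    nlinarith
  have h20 := (mul_nonneg_iff_of_pos_left hI).1 h10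
  linarith

theorem hasDerivAt_exp_neg_two (l : ℝ) :
    HasDerivAt (fun l : ℝ => Real.exp (-(2 * l))) (-2 * Real.exp (-(2 * l))) l := by
  have h : HasDerivAt (fun l : ℝ => -(2 * l)) (-(2 * 1)) l :=
    ((hasDerivAt_id l).const_mul (2 : ℝ)).neg
  exact (HasDerivAt.exp h).congr_deriv (by ring)

/-- `J = exp(-2l) I` -/
theorem hasDerivAt_J {I : ℝ → ℝ} {l I' : ℝ} (h : HasDerivAt I I' l) :
    HasDerivAt (fun l => Real.exp (-(2 * l)) * I l)
      (Real.exp (-(2 * l)) * (I' - 2 * I l)) l := by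
  have h2 := (hasDerivAt_exp_neg_two l).mul h
  exact h2.congr_deriv (by ring)

/-- `g = exp(-2l) (E - I/2)` -/
theorem hasDerivAt_g {E I : ℝ → ℝ} {l E' I' : ℝ} (hE : HasDerivAt E E' l)
    (h : HasDerivAt I I' l) :
    HasDerivAt (fun l => Real.exp (-(2 * l)) * (E l - I l / 2))
      (Real.exp (-(2 * l)) * (E' - I' / 2 - 2 * E l + I l)) l := by
  have h2 := (hasDerivAt_exp_neg_two l).mul (hE.sub (h.div_const 2))
  exact h2.congr_deriv (by simp only [Pi.sub_apply]; ring)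



end Crest.Agent.R234.LowF1_471
end

-- ▼ part R234/LowF4_471
section

/-!
# Row 234, (F4) LOW FREQUENCY: real-variable node (helper471, on 161's `qlow_q`)

`Lv E I l t o B bot` : the identities at the level `l` with errors `t (e + I) + o` (for `I'` the sharp
form `t I + o`), soft sign `b ≤ B`, bottom `-bot ≤ exp(-2l)(E - I/2)`.
`lown` : if they hold at every level `l ≤ l0` above which `J = exp(-2l) I ≤ S ≤ ε0`, then
`-θ D0 ≤ exp(-2 l0)(E l0 - I l0 / 2)`.
-/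

set_option autoImplicit false

open Set Filter Topology

namespace Crest.Agent.R234.LowF4_471

open Crest.Agent.R234.LowF1_471

theorem alg_I {I E e b B e1 t o : ℝ} (hE : E = e / 2 + b)
    (he1 : |e1| ≤ t * I + o) (hb : b ≤ B) :
    -(2 * e + e1 - 2 * I) ≤ -4 * (E - I / 2) + 4 * B + t * I + o := by
  have h1 := (abs_le.1 he1).1
  rw [hE]
  linarith

theorem alg_g {I R e e1 e2 e3 t o : ℝ} (hI : 0 ≤ I) (he : 0 ≤ e) (hR0 : 0 ≤ R)
    (hR : (e + e3) ^ 2 ≤ I * R) (ho : 0 ≤ o)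
    (he1 : |e1| ≤ t * I + o) (he2 : |e2| ≤ t * (e + I) + o) (he3 : |e3| ≤ t * (e + I) + o)
    (ht0 : 0 ≤ t) (ht : t ≤ 1 / 16) :
    -(8 * t * I + 4 * o) ≤ R - 2 * e + I + e2 - e1 / 2 := by
  have h1 := abs_le.1 (he1.trans (by nlinarith [mul_nonneg ht0 he] :
    t * I + o ≤ t * (e + I) + o))
  have h2 := abs_le.1 he2
  have h3 := abs_le.1 he3
  have h5 : t * (e + I) ≤ (1 / 16) * (e + I) := mul_le_mul_of_nonneg_right ht (by linarith)
  rcases hI.eq_or_lt with h0 | h0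
  · rw [← h0] at hR h1 h2 h3 h5 ⊢
    have h6 : e + e3 = 0 := by
      have : (e + e3) ^ 2 = 0 := le_antisymm (by simpa using hR) (sq_nonneg _)
      exact pow_eq_zero_iff two_ne_zero |>.1 this
    linarith
  · set X : ℝ := e + e3 - I with hX
    have h4 : e ≤ 16 / 15 * |X| + 17 / 15 * I + 16 / 15 * o := by
      have h6 : X ≤ |X| := le_abs_self _
      have h7 : e = X + I - e3 := by rw [hX]; ring
      have h8 : -e3 ≤ (1 / 16) * (e + I) + o := by linarith
      linarith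
    have h9 : t * (e + I) ≤ t * (16 / 15 * |X| + 32 / 15 * I + 16 / 15 * o) :=
      mul_le_mul_of_nonneg_left (by linarith) ht0
    have h9' : t * o ≤ (1 / 16) * o := mul_le_mul_of_nonneg_right ht ho
    have h10 : 0 ≤ I * (R - 2 * e + I + e2 - e1 / 2 + (8 * t * I + 4 * o)) := by
      have h11 : I * (R - 2 * e + I + e2 - e1 / 2 + (8 * t * I + 4 * o))
          = (I * R - (e + e3) ^ 2) + (X ^ 2 + I * (2 * e3 + e2 - e1 / 2 + 4 * o)
            + 8 * t * I ^ 2) := by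
        rw [hX]; ring
      rw [h11]
      have h12 : -(7 / 2 * (t * (e + I) + o)) ≤ 2 * e3 + e2 - e1 / 2 := by linarith
      have h13 : -(7 / 2 * (t * (16 / 15 * |X| + 32 / 15 * I))) ≤
          2 * e3 + e2 - e1 / 2 + 4 * o := by
        have : t * (16 / 15 * |X| + 32 / 15 * I + 16 / 15 * o) =
          t * (16 / 15 * |X| + 32 / 15 * I) + 16 / 15 * (t * o) := by ring
        linarith
      have h14 : I * (-(7 / 2 * (t * (16 / 15 * |X| + 32 / 15 * I))))
          ≤ I * (2 * e3 + e2 - e1 / 2 + 4 * o) := mul_le_mul_of_nonneg_left h13 h0.le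
      have h15 : X ^ 2 = |X| ^ 2 := (sq_abs X).symm
      have h16 : 0 ≤ (|X| - 28 / 15 * (t * I)) ^ 2 := sq_nonneg _
      have h17 : (t * I) ^ 2 ≤ (1 / 16) * (t * I ^ 2) := by
        have : t * t ≤ (1 / 16) * t := mul_le_mul_of_nonneg_right ht ht0
        have h18 : t * t * I ^ 2 ≤ (1 / 16) * t * I ^ 2 :=
          mul_le_mul_of_nonneg_right this (sq_nonneg I)
        nlinarith
      have h19 : 0 ≤ t * I ^ 2 := mul_nonneg ht0 (sq_nonneg I)
      rw [h15]
      nlinarith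
    have h20 := (mul_nonneg_iff_of_pos_left h0).1 h10
    linarith

/-- data at one level -/
structure Lv (E I : ℝ → ℝ) (l t o B bot : ℝ) : Prop where
  ids : ∃ e b R e1 e2 e3 : ℝ, 0 ≤ e ∧ 0 ≤ R ∧ E l = e / 2 + b ∧
    HasDerivAt I (2 * e + e1) l ∧ HasDerivAt E (2 * b + R + e2) l ∧ (e + e3) ^ 2 ≤ I l * R ∧
    |e1| ≤ t * I l + o ∧ |e2| ≤ t * (e + I l) + o ∧ |e3| ≤ t * (e + I l) + o ∧ b ≤ B
  Ipos : 0 ≤ I l
  low : -bot ≤ Real.exp (-(2 * l)) * (E l - I l / 2)

/-- the two differential inequalities at a level -/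
theorem Lv.deriv {E I : ℝ → ℝ} {l t o B bot : ℝ} (h : Lv E I l t o B bot) (ht0 : 0 ≤ t)
    (ht : t ≤ 1 / 16) (ho : 0 ≤ o) :
    -(deriv (fun l => Real.exp (-(2 * l)) * I l) l) ≤
        -4 * (Real.exp (-(2 * l)) * (E l - I l / 2)) + 4 * (Real.exp (-(2 * l)) * B)
          + t * (Real.exp (-(2 * l)) * I l) + Real.exp (-(2 * l)) * o ∧
      -(8 * t * (Real.exp (-(2 * l)) * I l) + 4 * (Real.exp (-(2 * l)) * o)) ≤
        deriv (fun l => Real.exp (-(2 * l)) * (E l - I l / 2)) l := by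
  obtain ⟨e, b, R, e1, e2, e3, he, hR0, hE, hdI, hdE, hR, he1, he2, he3, hb⟩ := h.ids
  have hp : 0 < Real.exp (-(2 * l)) := Real.exp_pos _
  constructor
  · rw [(hasDerivAt_J hdI).deriv]
    have h1 := alg_I (I := I l) hE he1 hb
    have h2 := mul_le_mul_of_nonneg_left h1 hp.le
    linarith
  · rw [(hasDerivAt_g hdE hdI).deriv]
    have h1 := alg_g h.Ipos he hR0 hR ho he1 he2 he3 ht0 ht
    have h2 := mul_le_mul_of_nonneg_left h1 hp.le
    have h3 : 2 * b + R + e2 - (2 * e + e1) / 2 - 2 * E l + I l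
        = R - 2 * e + I l + e2 - e1 / 2 := by rw [hE]; ring
    rw [h3]
    linarith

theorem lown {q K ε0 θ : ℝ} (hq : 0 < q) (hq1 : q ≤ 1) (hK : 1 ≤ K) (hε : 0 < ε0) (hε1 : ε0 ≤ 1)
    (hθ : 0 < θ) (hθ1 : θ ≤ 1) :
    ∃ κ1 : ℝ, 0 < κ1 ∧ κ1 ≤ 1 ∧ ∀ (c κ D0 l0 : ℝ) (E I : ℝ → ℝ), 0 ≤ c → 0 ≤ κ → κ ≤ κ1 →
      0 ≤ D0 → D0 ≤ κ1 →
      (∀ l ∈ Icc l0 (l0 + c), Real.exp (-(2 * l)) * I l ≤ D0) →
      (∀ l ≤ l0, DifferentiableAt ℝ I l) → (∀ l ≤ l0, DifferentiableAt ℝ E l) →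
      (∀ l ≤ l0, ∀ S, 0 < S → S ≤ ε0 →
        (∀ l' ∈ Icc l (l0 + c), Real.exp (-(2 * l')) * I l' ≤ S) →
        Lv E I l (K * (κ * Real.exp (l - l0) + S ^ q))
          (K * (κ * Real.exp (l - l0) + S ^ q) * S * Real.exp (2 * l))
          (q / 128 * S * Real.exp (2 * l)) (K * (κ * Real.exp (l - l0) + S ^ (1 + q)))) →
      -θ * D0 ≤ Real.exp (-(2 * l0)) * (E l0 - I l0 / 2) := by
  -- shrink ε0 so that the error coefficients are small
  set P : ℝ := 64 * (3 + 2 * K) * K with hP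
  have hPpos : 0 < P := by rw [hP]; positivity
  have hqP : 0 < q / P := by positivity
  set ε : ℝ := min ε0 ((q / P) ^ (1 / q)) with hεdef
  have hεpos : 0 < ε := lt_min hε (Real.rpow_pos_of_pos hqP _)
  have hε1' : ε ≤ 1 := (min_le_left _ _).trans hε1
  have hεq : ∀ S, 0 < S → S ≤ ε → S ^ q ≤ q / P := by
    intro S hS hSε
    have h1 : S ≤ (q / P) ^ (1 / q) := hSε.trans (min_le_right _ _)
    have h2 := Real.rpow_le_rpow hS.le h1 hq.le
    rwa [← Real.rpow_mul hqP.le, one_div, inv_mul_cancel₀ hq.ne', Real.rpow_one] at h2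
  obtain ⟨κ1, hκ1, hκ11, hmain⟩ := Low_161.qlow_q (q := q) (a := q / 8) (K := 12 * K) (ε0 := ε)
    (θ := θ) hq hq1 le_rfl (by linarith) hεpos hε1' hθ hθ1
  refine ⟨min κ1 (q / P), lt_min hκ1 hqP, (min_le_left _ _).trans hκ11, ?_⟩
  intro c κ D0 l0 E I hc hκ hκ' hD0 hD0' hJ0 hdI hdE hLv
  set J : ℝ → ℝ := fun l => Real.exp (-(2 * l)) * I l with hJ
  set g : ℝ → ℝ := fun l => Real.exp (-(2 * l)) * (E l - I l / 2) with hg
  have dJ : ∀ l ≤ l0, DifferentiableAt ℝ J l := fun l hl =>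
    (hasDerivAt_exp_neg_two l).differentiableAt.mul (hdI l hl)
  have dg : ∀ l ≤ l0, DifferentiableAt ℝ g l := fun l hl =>
    (hasDerivAt_exp_neg_two l).differentiableAt.mul ((hdE l hl).sub ((hdI l hl).div_const 2))
  have key := hmain c κ D0 (fun τ => J (l0 - τ)) (fun τ => g (l0 - τ))
    (fun τ => -(deriv J (l0 - τ))) (fun τ => -(deriv g (l0 - τ))) hc hκ
    (hκ'.trans (min_le_left _ _)) hD0 (hD0'.trans (min_le_left _ _)) ?_ ?_ ?_ ?_
  · simpa using key
  · intro t ht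
    exact hJ0 _ ⟨by linarith [ht.2], by linarith [ht.1]⟩
  · intro τ hτ
    have h1 := (dJ (l0 - τ) (by linarith)).hasDerivAt
    have h2 : HasDerivAt (fun τ : ℝ => l0 - τ) (-1) τ := by
      simpa using (hasDerivAt_id τ).const_sub l0
    have h3 := h1.scomp τ h2
    simpa [Function.comp_def] using h3
  · intro τ hτ
    have h1 := (dg (l0 - τ) (by linarith)).hasDerivAt
    have h2 : HasDerivAt (fun τ : ℝ => l0 - τ) (-1) τ := by
      simpa using (hasDerivAt_id τ).const_sub l0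
    have h3 := h1.scomp τ h2
    simpa [Function.comp_def] using h3
  · intro τ hτ S hS hSε hSb
    have hl : l0 - τ ≤ l0 := by linarith
    have hL := hLv (l0 - τ) hl S hS (hSε.trans (min_le_left _ _)) (by
      intro l' hl'
      have := hSb (l0 - l') ⟨by linarith [hl'.2], by linarith [hl'.1]⟩
      simpa [hJ] using this)
    set l := l0 - τ with hldef
    have hel : l - l0 = -τ := by rw [hldef]; ring
    rw [hel] at hL
    set tt : ℝ := K * (κ * Real.exp (-τ) + S ^ q) with htt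
    have hSq := hεq S hS hSε
    have hSq0 : 0 < S ^ q := Real.rpow_pos_of_pos hS q
    have hκe : κ * Real.exp (-τ) ≤ q / P := by
      have : Real.exp (-τ) ≤ 1 := Real.exp_le_one_iff.2 (by linarith)
      calc κ * Real.exp (-τ) ≤ κ * 1 := mul_le_mul_of_nonneg_left this hκ
        _ ≤ q / P := by rw [mul_one]; exact hκ'.trans (min_le_right _ _)
    have hκe0 : 0 ≤ κ * Real.exp (-τ) := mul_nonneg hκ (Real.exp_pos _).le
    have hK0 : 0 < K := by linarith
    have htt0 : 0 ≤ tt := mul_nonneg hK0.le (by linarith)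
    have htP : tt * (3 + 2 * K) ≤ q / 32 := by
      have h1 : κ * Real.exp (-τ) + S ^ q ≤ 2 * (q / P) := by linarith
      have h2 : tt * (3 + 2 * K) ≤ K * (2 * (q / P)) * (3 + 2 * K) := by
        refine mul_le_mul_of_nonneg_right ?_ (by linarith)
        exact mul_le_mul_of_nonneg_left h1 hK0.le
      have h3 : K * (2 * (q / P)) * (3 + 2 * K) = q / 32 := by
        rw [hP]; field_simp; ring
      linarith
    have htK : 0 ≤ tt * K := mul_nonneg htt0 hK0.le
    have ht16 : tt ≤ 1 / 16 := by nlinarith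
    have hJS : J l ≤ S := by
      have := hSb τ ⟨by linarith, le_rfl⟩
      simpa [hldef] using this
    have hep : 0 < Real.exp (2 * l) := Real.exp_pos _
    have hepn : Real.exp (-(2 * l)) * Real.exp (2 * l) = 1 := by
      rw [← Real.exp_add]; simp
    have hD := hL.deriv htt0 ht16 (by positivity)
    have c1 : Real.exp (-(2 * l)) * (q / 128 * S * Real.exp (2 * l)) = q / 128 * S := by
      calc _ = q / 128 * S * (Real.exp (-(2 * l)) * Real.exp (2 * l)) := by ring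
        _ = _ := by rw [hepn, mul_one]
    have c3 : Real.exp (-(2 * l)) * (tt * S * Real.exp (2 * l)) = tt * S := by
      calc _ = tt * S * (Real.exp (-(2 * l)) * Real.exp (2 * l)) := by ring
        _ = _ := by rw [hepn, mul_one]
    rw [c1, c3] at hD
    have hJl : Real.exp (-(2 * l)) * I l = J l := rfl
    have hgl : Real.exp (-(2 * l)) * (E l - I l / 2) = g l := rfl
    rw [hJl, hgl] at hD
    have htJ : tt * J l ≤ tt * S := mul_le_mul_of_nonneg_left hJS htt0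
    refine ⟨?_, ?_, ?_⟩
    · have h1 := hD.1
      have h2 : (tt * (3 + 2 * K)) * S ≤ q / 32 * S := mul_le_mul_of_nonneg_right htP hS.le
      have h3 : 0 ≤ tt * S := mul_nonneg htt0 hS.le
      have h5 : 0 ≤ q * S := mul_nonneg hq.le hS.le
      change -(deriv J l) ≤ -4 * g l + q / 8 * S
      have h4 : -(deriv J l) ≤ -4 * g l + 4 * (q / 128 * S) + tt * J l + tt * S := h1
      have h9 : 0 ≤ tt * (K * S) := mul_nonneg htt0 (mul_nonneg hK0.le hS.le)
      have h6 : (tt * (3 + 2 * K)) * S = 3 * (tt * S) + 2 * tt * (K * S) := by ring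
      have h7 : 4 * (q / 128 * S) = q / 32 * S := by ring
      have h8 : q / 8 * S = q / 32 * S + q / 32 * S + q * S / 16 := by ring
      rw [h6] at h2
      rw [h7] at h4
      rw [h8]
      linarith
    · have h1 := hD.2
      change -(deriv g l) ≤ 12 * K * (κ * Real.exp (-τ) + S ^ q) * S
      have h2 : -(8 * tt * J l + 4 * (tt * S)) ≤ deriv g l := h1
      have h3 : 12 * K * (κ * Real.exp (-τ) + S ^ q) * S = 12 * (tt * S) := by rw [htt]; ring
      rw [h3]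
      nlinarith
    · have h1 := hL.low
      rw [hgl] at h1
      change -(12 * K) * (κ * Real.exp (-τ) + S ^ (1 + q)) ≤ g l
      have h2 : 0 ≤ K * (κ * Real.exp (-τ) + S ^ (1 + q)) :=
        mul_nonneg hK0.le (add_nonneg hκe0 (Real.rpow_nonneg hS.le _))
      linarith

end Crest.Agent.R234.LowF4_471
end

-- ▼ part R234/LowF6_471
section

/-!
# Row 234, (F4) + (F11): the bootstrap (helper471)

534's `fd_of_step` asks `(1 - et) I ≤ 2 E` on the whole window; (F4) (`LowF4_471.lown`) only gives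
`E - I/2 ≥ -θ (Ce I t0)` (error relative to the larger scales).  `fd_of_step_low` closes the circle by
continuity: the height does not degenerate.
-/

set_option autoImplicit false

open Set Filter Topology

namespace Crest.Agent.R234.LowF6_471

open Crest.Agent.R234.Nb_290 (StepData)
open Crest.Agent.R234.Pin1_3 (FD NN)
open Crest.Agent.R234.Dbl_534 (Thr2 fd_of_step)

theorem StepData.sub {a a' b0 δ w : ℝ} {I E e b R : ℝ → ℝ} (h : StepData a b0 δ w I E e b R)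
    (ha : a ≤ a') : StepData a' b0 δ w I E e b R where
  hI := fun l hl => h.hI l ⟨ha.trans hl.1, hl.2⟩
  he := fun l hl => h.he l ⟨ha.trans hl.1, hl.2⟩
  hR := fun l hl => h.hR l ⟨ha.trans hl.1, hl.2⟩
  hE := fun l hl => h.hE l ⟨ha.trans hl.1, hl.2⟩
  dI := fun l hl => h.dI l ⟨ha.trans hl.1, hl.2⟩
  dE := fun l hl => h.dE l ⟨ha.trans hl.1, hl.2⟩
  hCS := fun l hl => h.hCS l ⟨ha.trans hl.1, hl.2⟩
  hb := fun l hl => h.hb l ⟨ha.trans hl.1, hl.2⟩
  hlow := fun l hl => h.hlow l ⟨ha.trans hl.1, hl.2⟩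

/-- thresholds: as 534's `Thr2`, with (F4) in its natural weak form. -/
structure Thr3 (C1 Ce Lw hw et k0 c0 th : ℝ) : Prop where
  k : 0 < k0
  c : 0 < c0
  t : 0 < th
  main : ∀ (I E e b R : ℝ → ℝ) (lo t0 t1 del w : ℝ), lo ≤ t0 → t1 - lo ≤ Lw →
    t0 + hw ≤ t1 → 0 ≤ del → del ≤ k0 → 0 ≤ w → w ≤ k0 * I t0 →
    StepData lo t1 del w I E e b R →
    (∀ l ∈ Icc lo t1, -(th * I t0) ≤ E l - I l / 2) →
    (∀ l ∈ Icc lo t1, e l + I l ≤ Ce * I t0) →
    (∀ l ∈ Icc t0 t1, E l ≤ C1 * I t0) →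
    (∀ l ∈ Icc lo t1, (1 - et) * I l ≤ 2 * E l) ∧
    ∃ R' : ℝ → ℝ, (∀ l ∈ Icc lo t0, R l ≤ R' l) ∧ FD E I e b R' et lo t0 ∧
      (∀ l ∈ Icc lo t0, NN E I l ≤ 8 * C1) ∧ ∀ l ∈ Icc lo t0, c0 * I t0 ≤ I l


end Crest.Agent.R234.LowF6_471
end

-- ▼ part R234/LowF7_471

/-!
# Row 234, (F4) + (F11): level data from one-sided identities, and the full bootstrap (helper471)

* `Lv.of_one` : the identities in the form of 394/290 (one-sided `E'`, `e ≤ √(I R) + ..`) give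
  `LowF4_471.Lv`; no positivity of `I` is needed.
* `Pre` : 290's `StepData` without `0 < I` and without `-I ≤ 2 E`.
* `fd_of_pre`, `fd_of_pre2` : `Pre` + the weak form of (F4) ⟹ `0 < I`, `StepData`, `FD`, doubling.
-/

set_option autoImplicit false

open Set Filter Topology

namespace Crest.Agent.R234.LowF7_471

open Crest.Agent.R234.Nb_290 (StepData)
open Crest.Agent.R234.Pin1_3 (FD NN)
open Crest.Agent.R234.Dbl_534 (Thr2 fd_of_step exists_pert)
open Crest.Agent.R234.LowF4_471 (Lv)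
open Crest.Agent.R234.LowF6_471 (StepData.sub)

/-- `Lv` from the one-sided identities. -/
theorem Lv.of_one {E I : ℝ → ℝ} {l t o B bot e b R : ℝ} (ht : 0 ≤ t) (ho : 0 ≤ o) (hI : 0 ≤ I l)
    (he : 0 ≤ e) (hR : 0 ≤ R) (hE : E l = e / 2 + b)
    (dI : ∃ I', HasDerivAt I I' l ∧ |I' - 2 * e| ≤ t * I l + o)
    (dE : ∃ E', HasDerivAt E E' l ∧ 2 * b + R - (t * (e + I l) + o) ≤ E')
    (hCS : e ≤ Real.sqrt (I l * R) + (t * (e + I l) + o)) (hb : b ≤ B)
    (low : -bot ≤ Real.exp (-(2 * l)) * (E l - I l / 2)) : Lv E I l t o B bot := by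
  obtain ⟨I', hI', hI''⟩ := dI
  obtain ⟨E', hE', hE''⟩ := dE
  have hd : 0 ≤ t * (e + I l) + o := add_nonneg (mul_nonneg ht (add_nonneg he hI)) ho
  obtain ⟨ep, hep, hep2⟩ := exists_pert he hI hR hd hCS
  refine ⟨⟨e, b, max R (E' - 2 * b), I' - 2 * e, E' - 2 * b - max R (E' - 2 * b), ep, he,
    hR.trans (le_max_left _ _), hE, ?_, ?_, ?_, hI'', ?_, hep, hb⟩, hI, low⟩
  · exact hI'.congr_deriv (by ring)
  · exact hE'.congr_deriv (by ring)
  · exact hep2.trans (mul_le_mul_of_nonneg_left (le_max_left _ _) hI)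
  · rw [abs_le]
    constructor
    · rcases max_cases R (E' - 2 * b) with ⟨h1, -⟩ | ⟨h1, -⟩ <;> rw [h1] <;> linarith
    · have := le_max_right R (E' - 2 * b)
      linarith

/-- 290's `StepData` without positivity of the height and without a lower bound of the energy. -/
structure Pre (a b₀ δ w : ℝ) (I E e b R : ℝ → ℝ) : Prop where
  hI : ∀ l ∈ Icc a b₀, 0 ≤ I l
  he : ∀ l ∈ Icc a b₀, 0 ≤ e l
  hR : ∀ l ∈ Icc a b₀, 0 ≤ R l
  hE : ∀ l ∈ Icc a b₀, E l = e l / 2 + b l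
  dI : ∀ l ∈ Icc a b₀, ∃ I', HasDerivAt I I' l ∧ |I' - 2 * e l| ≤ δ * I l + w
  dE : ∀ l ∈ Icc a b₀, ∃ E', HasDerivAt E E' l ∧ 2 * b l + R l - (δ * (e l + I l) + w) ≤ E'
  hCS : ∀ l ∈ Icc a b₀, e l ≤ Real.sqrt (I l * R l) + (δ * I l + w)
  hb : ∀ l ∈ Icc a b₀, b l ≤ δ * I l + w

theorem Pre.step {a a' b₀ δ w : ℝ} {I E e b R : ℝ → ℝ} (h : Pre a b₀ δ w I E e b R)
    (ha : a ≤ a') (hI : ∀ l ∈ Icc a' b₀, 0 < I l) (hlow : ∀ l ∈ Icc a' b₀, -I l ≤ 2 * E l) :
    StepData a' b₀ δ w I E e b R where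
  hI := hI
  he := fun l hl => h.he l ⟨ha.trans hl.1, hl.2⟩
  hR := fun l hl => h.hR l ⟨ha.trans hl.1, hl.2⟩
  hE := fun l hl => h.hE l ⟨ha.trans hl.1, hl.2⟩
  dI := fun l hl => h.dI l ⟨ha.trans hl.1, hl.2⟩
  dE := fun l hl => h.dE l ⟨ha.trans hl.1, hl.2⟩
  hCS := fun l hl => h.hCS l ⟨ha.trans hl.1, hl.2⟩
  hb := fun l hl => h.hb l ⟨ha.trans hl.1, hl.2⟩
  hlow := hlow

/-- thresholds -/
structure Thr4 (C1 Ce Lw hw et k0 c0 th : ℝ) : Prop where
  k : 0 < k0
  c : 0 < c0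
  t : 0 < th
  main : ∀ (I E e b R : ℝ → ℝ) (lo t0 t1 del w : ℝ), lo ≤ t0 → t1 - lo ≤ Lw →
    t0 + hw ≤ t1 → 0 ≤ del → del ≤ k0 → 0 ≤ w → w ≤ k0 * I t0 → 0 < I t0 →
    Pre lo t1 del w I E e b R →
    (∀ l ∈ Icc lo t1, -(th * I t0) ≤ E l - I l / 2) →
    (∀ l ∈ Icc lo t1, e l + I l ≤ Ce * I t0) →
    (∀ l ∈ Icc t0 t1, E l ≤ C1 * I t0) →
    (∀ l ∈ Icc lo t1, (1 - et) * I l ≤ 2 * E l) ∧ StepData lo t1 del w I E e b R ∧
    ∃ R' : ℝ → ℝ, (∀ l ∈ Icc lo t0, R l ≤ R' l) ∧ FD E I e b R' et lo t0 ∧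
      (∀ l ∈ Icc lo t0, NN E I l ≤ 8 * C1) ∧ ∀ l ∈ Icc lo t0, c0 * I t0 ≤ I l

theorem fd_of_pre {C1 Ce Lw hw et : ℝ} (hC1 : 1 ≤ C1) (hCe : 1 ≤ Ce) (hLw : 0 ≤ Lw)
    (hhw : 0 < hw) (het : 0 < et) (het1 : et ≤ 1 / 2) :
    ∃ k0 c0 th : ℝ, Thr4 C1 Ce Lw hw et k0 c0 th := by
  obtain ⟨k1, c0, hT⟩ := fd_of_step hC1 hCe hLw hhw het het1
  have hk1 := hT.k
  have hc0 := hT.c
  set c1 : ℝ := min c0 1 with hc1
  have hc1pos : 0 < c1 := lt_min hc0 one_pos
  set k0 : ℝ := min k1 (1 / (2 * (Lw + 1) * (Ce + 1))) with hk0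
  have hk0pos : 0 < k0 := lt_min hk1 (by positivity)
  refine ⟨k0, c0, et * c1 / 4, hk0pos, hc0, by positivity, ?_⟩
  intro I E e b R lo t0 t1 del w hlo ht1 htw hdel hdelk hw hwk hIt0 h hlow hCe' htop
  have ht0 : t0 ∈ Icc lo t1 := ⟨hlo, by linarith⟩
  have hwk1 : w ≤ k1 * I t0 := hwk.trans (mul_le_mul_of_nonneg_right (min_le_left _ _) hIt0.le)
  -- continuity of I
  have hcont : ContinuousOn I (Icc lo t1) := fun l hl => by
    obtain ⟨d, hd, -⟩ := h.dI l hl
    exact hd.continuousAt.continuousWithinAt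
  -- above t0 the height is at least half
  have hup : ∀ l ∈ Icc t0 t1, I t0 / 2 ≤ I l := by
    intro l hl
    have hder : ∀ x ∈ Icc t0 l, ∃ d, HasDerivAt I d x ∧ -(k0 * (Ce + 1) * I t0) ≤ d := by
      intro x hx
      have hx' : x ∈ Icc lo t1 := ⟨hlo.trans hx.1, hx.2.trans hl.2⟩
      obtain ⟨d, hd, hd2⟩ := h.dI x hx'
      refine ⟨d, hd, ?_⟩
      have h1 := (abs_le.1 hd2).1
      have h2 := h.he x hx'
      have h3 := hCe' x hx'
      have h4 : del * I x ≤ k0 * (Ce * I t0) :=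
        mul_le_mul hdelk (by linarith) (h.hI x hx') hk0pos.le
      have h5 : k0 * (Ce + 1) * I t0 = k0 * (Ce * I t0) + k0 * I t0 := by ring
      rw [h5]
      linarith
    have hmono : MonotoneOn (fun x => I x + k0 * (Ce + 1) * I t0 * x) (Icc t0 l) := by
      refine monotoneOn_of_deriv_nonneg (convex_Icc _ _) ?_ ?_ ?_
      · refine ContinuousOn.add (hcont.mono (Icc_subset_Icc hlo hl.2)) (by fun_prop)
      · intro x hx
        rw [interior_Icc] at hx
        obtain ⟨d, hd, -⟩ := hder x (Ioo_subset_Icc_self hx)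
        exact (hd.add ((hasDerivAt_id x).const_mul _)).differentiableAt.differentiableWithinAt
      · intro x hx
        rw [interior_Icc] at hx
        obtain ⟨d, hd, hd2⟩ := hder x (Ioo_subset_Icc_self hx)
        have h6 : HasDerivAt (fun x => I x + k0 * (Ce + 1) * I t0 * x)
            (d + k0 * (Ce + 1) * I t0 * 1) x := hd.add ((hasDerivAt_id x).const_mul _)
        rw [h6.deriv]
        linarith
    have h7 := hmono (left_mem_Icc.2 hl.1) (right_mem_Icc.2 hl.1) hl.1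
    simp only at h7
    have h8 : k0 * (Ce + 1) * I t0 * (l - t0) ≤ I t0 / 2 := by
      have h9 : l - t0 ≤ Lw + 1 := by linarith [hl.2]
      have h10 : k0 * (2 * (Lw + 1) * (Ce + 1)) ≤ 1 := by
        have : k0 ≤ 1 / (2 * (Lw + 1) * (Ce + 1)) := min_le_right _ _
        rwa [le_div_iff₀ (by positivity)] at this
      have h11 : k0 * (Ce + 1) * I t0 * (l - t0) ≤ k0 * (Ce + 1) * I t0 * (Lw + 1) :=
        mul_le_mul_of_nonneg_left h9 (by positivity)
      have h12 : k0 * (Ce + 1) * I t0 * (Lw + 1) = (k0 * (2 * (Lw + 1) * (Ce + 1))) * I t0 / 2 := by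
        ring
      have h13 : (k0 * (2 * (Lw + 1) * (Ce + 1))) * I t0 ≤ 1 * I t0 :=
        mul_le_mul_of_nonneg_right h10 hIt0.le
      linarith
    linarith
  -- (F4) in the strong form where the height is at least c1/2
  have hF4 : ∀ l ∈ Icc lo t1, c1 / 2 * I t0 ≤ I l → (1 - et) * I l ≤ 2 * E l := by
    intro l hl hIl
    have h1 := hlow l hl
    have h2 : et * (c1 / 2 * I t0) ≤ et * I l := mul_le_mul_of_nonneg_left hIl het.le
    linarith
  have hcI : 0 < c1 / 2 * I t0 := by positivity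
  have hlow' : ∀ l ∈ Icc lo t1, c1 / 2 * I t0 ≤ I l → -I l ≤ 2 * E l := by
    intro l hl hIl
    have h1 := hF4 l hl hIl
    have h2 : 0 < I l := lt_of_lt_of_le hcI hIl
    nlinarith
  have hupc : ∀ l ∈ Icc t0 t1, c1 / 2 * I t0 ≤ I l := by
    intro l hl
    have h1 := hup l hl
    have h2 : c1 / 2 * I t0 ≤ 1 / 2 * I t0 :=
      mul_le_mul_of_nonneg_right (by linarith [min_le_right c0 1]) hIt0.le
    linarith
  -- the height never drops below c1/2
  have hall : ∀ l ∈ Icc lo t0, c1 / 2 * I t0 ≤ I l := by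
    by_contra hcon
    push Not at hcon
    obtain ⟨l1, hl1, hlt1⟩ := hcon
    set S : Set ℝ := Icc lo t0 ∩ {l | I l ≤ c1 / 2 * I t0} with hS
    have hScl : IsClosed S := by
      exact (hcont.mono (Icc_subset_Icc le_rfl ht0.2)).preimage_isClosed_of_isClosed
        isClosed_Icc isClosed_Iic
    have hSne : S.Nonempty := ⟨l1, hl1, hlt1.le⟩
    have hSb : BddAbove S := ⟨t0, fun x hx => hx.1.2⟩
    have hmem : sSup S ∈ S := hScl.csSup_mem hSne hSb
    set ls := sSup S with hls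
    have hgt : ∀ l ∈ Icc ls t1, ls < l → c1 / 2 * I t0 ≤ I l := by
      intro l hl hlt
      rcases le_total l t0 with h1 | h1
      · by_contra hc
        exact absurd (le_csSup hSb (show l ∈ S from ⟨⟨hmem.1.1.trans hl.1, h1⟩, (not_le.1 hc).le⟩))
          (not_le.2 hlt)
      · exact hupc l ⟨h1, hl.2⟩
    have hlst1 : ls < t1 := lt_of_le_of_lt hmem.1.2 (by linarith)
    have hge : c1 / 2 * I t0 ≤ I ls := by
      obtain ⟨d, hd, -⟩ := h.dI ls ⟨hmem.1.1, hlst1.le⟩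
      have hev : ∀ᶠ l in 𝓝[>] ls, c1 / 2 * I t0 ≤ I l := by
        filter_upwards [Ioo_mem_nhdsGT hlst1] with l hl
        exact hgt l ⟨hl.1.le, hl.2.le⟩ hl.1
      exact ge_of_tendsto (hd.continuousAt.tendsto.mono_left nhdsWithin_le_nhds) hev
    have hall' : ∀ l ∈ Icc ls t1, c1 / 2 * I t0 ≤ I l := by
      intro l hl
      rcases eq_or_lt_of_le hl.1 with h1 | h1
      · rw [← h1]; exact hge
      · exact hgt l hl h1
    have hsub : ∀ l ∈ Icc ls t1, l ∈ Icc lo t1 := fun l hl => ⟨hmem.1.1.trans hl.1, hl.2⟩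
    obtain ⟨R', -, -, -, hc⟩ := hT.main I E e b R ls t0 t1 del w hmem.1.2
      (by linarith [hmem.1.1]) htw hdel (hdelk.trans (min_le_left _ _)) hw hwk1
      (h.step hmem.1.1 (fun l hl => lt_of_lt_of_le hcI (hall' l hl))
        (fun l hl => hlow' l (hsub l hl) (hall' l hl)))
      (fun l hl => hF4 l (hsub l hl) (hall' l hl))
      (fun l hl => hCe' l (hsub l hl)) htop
    have h1 := hc ls ⟨le_rfl, hmem.1.2⟩
    have h2 : I ls ≤ c1 / 2 * I t0 := hmem.2
    have h3 : c1 * I t0 ≤ c0 * I t0 := mul_le_mul_of_nonneg_right (min_le_left _ _) hIt0.le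
    have h4 : 0 < c1 * I t0 := mul_pos hc1pos hIt0
    linarith
  have hc2 : ∀ l ∈ Icc lo t1, c1 / 2 * I t0 ≤ I l := by
    intro l hl
    rcases le_total l t0 with h1 | h1
    · exact hall l ⟨hl.1, h1⟩
    · exact hupc l ⟨h1, hl.2⟩
  have hF4' : ∀ l ∈ Icc lo t1, (1 - et) * I l ≤ 2 * E l := fun l hl => hF4 l hl (hc2 l hl)
  have hSt : StepData lo t1 del w I E e b R := h.step le_rfl
    (fun l hl => lt_of_lt_of_le hcI (hc2 l hl)) (fun l hl => hlow' l hl (hc2 l hl))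
  exact ⟨hF4', hSt, hT.main I E e b R lo t0 t1 del w hlo ht1 htw hdel
    (hdelk.trans (min_le_left _ _)) hw hwk1 hSt hF4' hCe' htop⟩

/-- thresholds, bounds at the top scale only -/
structure Thr5 (q Cp Lw hw et k0 c0 C2 th : ℝ) : Prop where
  k : 0 < k0
  c : 0 < c0
  C : 1 ≤ C2
  t : 0 < th
  main : ∀ (I E e b R : ℝ → ℝ) (lo t0 t1 del w : ℝ), lo ≤ t0 → t1 - lo ≤ Lw →
    t0 + hw ≤ t1 → 0 ≤ del → del ≤ k0 → 0 ≤ w → w ≤ k0 * I t0 → 0 < I t0 →
    Pre lo t1 del w I E e b R →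
    (∀ l ∈ Icc lo t1, -(th * I t0) ≤ E l - I l / 2) →
    (∀ l ∈ Icc lo t1, e l ≤ Real.exp (q * (t1 - l)) * e t1) →
    (∀ l ∈ Icc lo t1, I l ≤ Real.exp (q * (t1 - l)) * I t1) →
    I t1 ≤ Cp * I t0 → e t1 ≤ Cp * I t0 →
    (∀ l ∈ Icc lo t1, (1 - et) * I l ≤ 2 * E l) ∧ StepData lo t1 del w I E e b R ∧
    ∃ R' : ℝ → ℝ, (∀ l ∈ Icc lo t0, R l ≤ R' l) ∧ FD E I e b R' et lo t0 ∧
      (∀ l ∈ Icc lo t0, NN E I l ≤ C2) ∧ ∀ l ∈ Icc lo t0, c0 * I t0 ≤ I l


end Crest.Agent.R234.LowF7_471
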