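import Crest.Agent.R234.Ng2_290
import Crest.Agent.R234.GL8_394

-- ▼ part R234/Ng3_290
section

/-!
# Row 234, node F7-GL, part 3 (helper290)

(T0), (T1) from 618's total variation measure (structure `GL_394.TV`), numerical form of the error
`w` : power of `N` times the square root of the height at the top.
-/

set_option autoImplicit false

open MeasureTheory Set Function Filter Topology
open Crest.GeometryTopology.Submanifold
open Crest.Agent.R234.Vf_884 Crest.Agent.R234.Ar_870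
open Crest.Agent.R234.GL_394
open scoped ENNReal NNReal InnerProductSpace

noncomputable section

namespace Crest.Agent.R234.Ng_290

variable {m k : ℕ} {c : Ch m k} {K Kt Kh W U : Set (Euc k)} {D : Set (Euc m)}
  {V : Measure (Euc k × L k)} {g g1 g2 : ℝ → ℝ} {Q c0 d0 hh C0 C1 B l : ℝ} {zN : Euc k → Euc k}

theorem Sub.tv {L ρ Ct kq sig : ℝ} (h : Sub c V Kt Kh L) (hρ : ρ ≤ Real.exp L)
    {e2 : Measure (Euc m)} (hT : TV c (VK V Kt) Q ρ Ct kq sig e2) :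
    TV c (VK V Kh) Q ρ Ct kq sig e2 where
  fin := hT.fin
  i F hF hb h0 := by
    have e1 : ∫ p, F (c.x p.1) * (1 - c.tau p.1 p.2 / 2) ∂(VK V Kh) =
        ∫ p, F (c.x p.1) * (1 - c.tau p.1 p.2 / 2) ∂(VK V Kt) :=
      h.int_eq (t := ρ) hρ fun p hp => by
        rw [h0 _ (by rwa [mem_closedBall_zero_iff]), zero_mul]
    rw [e1]
    exact hT.i F hF hb h0
  iii F Lf hF hL h0 := by
    have e1 : ∫ p, F (c.x p.1) * (c.tau p.1 p.2 + kq * (2 * c.f p.1)) ∂(VK V Kh) =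
        ∫ p, F (c.x p.1) * (c.tau p.1 p.2 + kq * (2 * c.f p.1)) ∂(VK V Kt) :=
      h.int_eq (t := ρ) hρ fun p hp => by
        rw [h0 _ (by rwa [mem_closedBall_zero_iff]), zero_mul]
    rw [e1]
    exact hT.iii F Lf hF hL h0

/-- the total variation constant -/
def C2 (Ct B : ℝ) : ℝ := Ct * (1 + B) + 1 / 2

theorem C2_nonneg {Ct : ℝ} (hCt : 0 ≤ Ct) (hB : 0 ≤ B) : 0 ≤ C2 Ct B := by
  unfold C2; positivity

/-- (T0), (T1) at one level -/
theorem tv_one (hm : 1 ≤ m) (h : Ok c K D) (hV : On V m K) (hp : Pf g g1 g2 B)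
    (hk : KB c K l c0 d0 hh C0 zN) {ρ Ct kq sig lo : ℝ} {e2 : Measure (Euc m)} (hCt : 0 ≤ Ct)
    (hkq : 0 ≤ kq) (hsig : 0 ≤ sig) (hT : TV c V Q ρ Ct kq sig e2) (hl : Real.exp l ≤ ρ)
    (hlo : lo ≤ l) (hk1 : kq * Real.exp (2 * l) ≤ 1) (hD : Metric.closedBall 0 (Real.exp l) ⊆ D) :
    |bb c V g Q l| ≤ C2 Ct B * (ee c V g l + II c V g1 l) +
        2 * B * Real.exp ((1 - m) * lo) * sig ∧
      Real.exp ((2 - m) * l) * |er1a c V g Q l| ≤
        c0 * (C2 Ct B * (ee c V g l + II c V g1 l) + 2 * B * Real.exp ((1 - m) * lo) * sig) := by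
  have hB : 0 ≤ B := (hp.nn 0 le_rfl).trans (hp.b0 0 le_rfl)
  have hI : 0 ≤ II c V g1 l := II_nonneg h hV hp.pr.anti l
  have he : 0 ≤ ee c V g l := ee_nonneg h hV hp hk
  have h0 := abs_bb_le h hV hp hk hCt hkq hT hl
  have h1 := er1a_le_TV h hV hp hk hCt hkq hT hl hD
  have hE : Real.exp ((1 - m) * l) ≤ Real.exp ((1 - m) * lo) := by
    refine Real.exp_le_exp.2 ?_
    have : (1:ℝ) ≤ m := by exact_mod_cast hm
    nlinarith
  have h2 : TVb c V g g1 B Ct kq sig l ≤ Ct * (1 + B) * (ee c V g l + II c V g1 l) +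
      2 * B * Real.exp ((1 - m) * lo) * sig := by
    unfold TVb
    have a1 : kq * Real.exp (2 * l) * (B * II c V g1 l) ≤ 1 * (B * II c V g1 l) :=
      mul_le_mul_of_nonneg_right hk1 (by positivity)
    have a2 : Ct * (ee c V g l + kq * Real.exp (2 * l) * (B * II c V g1 l)) ≤
        Ct * (ee c V g l + 1 * (B * II c V g1 l)) :=
      mul_le_mul_of_nonneg_left (by linarith) hCt
    have a3 : 2 * B * Real.exp ((1 - m) * l) * sig ≤ 2 * B * Real.exp ((1 - m) * lo) * sig :=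
      mul_le_mul_of_nonneg_right (mul_le_mul_of_nonneg_left hE (by positivity)) hsig
    have a4 : 0 ≤ Ct * (B * ee c V g l + II c V g1 l) := by positivity
    nlinarith
  have hc0 := hk.c0n
  have h3 : 0 ≤ ee c V g l + II c V g1 l := add_nonneg he hI
  have h4 : Ct * (1 + B) * (ee c V g l + II c V g1 l) + 1 / 2 * (ee c V g l + II c V g1 l) =
      C2 Ct B * (ee c V g l + II c V g1 l) := by unfold C2; ring
  constructor
  · refine (h0.trans h2).trans ?_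
    linarith
  · refine h1.trans (mul_le_mul_of_nonneg_left ?_ hc0)
    linarith

/-- the constant of the heights: `hh² ≤ Ph N^(m+2) H` -/
def Ph (m : ℕ) (C1 bl T : ℝ) : ℝ := C1 * 4 ^ m * Real.exp m * (4 / bl) * Real.exp (2 * T)

/-- the constant of `w` -/
def Pw (m : ℕ) (A B C0 C1 bl T : ℝ) : ℝ :=
  Cg m B C0 * (1 + A) * (√(Ph m C1 bl T) * ((4 * C1 + 1) * (4 / bl) * Real.exp (m * T)))

set_option maxHeartbeats 1000000 in
/-- **F7-GL, numerical form** : window `[lo, cT - 1/N]` of length `≤ T`;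
`w = Pw N^(m+6) √H II(cT) + 2 B e^((1-m) lo) sig + ωb`, `H = e^(-2 cT) II(cT)`. -/
theorem stepW_num {LT cT N lo bl T κ A δb ωb ρ Ct kq sig : ℝ} {e2 : Measure (Euc m)} (hm : 1 ≤ m)
    (hr : Reg c W D) (h : Loc c U W Kt V LT)
    (hcT : cT - 1 / (2 * N) ≤ LT) (hD : Metric.closedBall 0 (Real.exp cT) ⊆ D)
    (hp : Pf g g1 g2 B)
    (hbl : 0 < bl) (hlow : ∀ a t, 0 ≤ t → t ≤ a → a ≤ 1 → bl * (1 - a) ^ 2 ≤ -g1 t)
    (hmu : ∀ v : Euc m, ‖v‖ ≤ Real.exp cT → 1 / 2 ≤ c.mu v) (hN : 1 ≤ N)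
    (hS : Sup c (VK V Kt) cT N C1) (hT : cT - lo ≤ T)
    (hA : 0 ≤ A) (hC0 : 0 ≤ C0) (hκ : 0 ≤ κ) (hAκ : A * κ ≤ 1) (hκ1 : κ ≤ 1)
    (hKB : ∀ l ∈ Icc lo (cT - 1 / N), ∀ hh, 0 ≤ hh → hh ≤ 1 → ∀ K' ⊆ Kt, IsCompact K' →
      (∀ z ∈ K', ‖c.x z‖ ≤ Real.exp l → ‖c.nu z‖ ≤ hh * Real.exp l) →
      KB c K' l (A * κ) (A * κ * hh) hh C0 zN)
    (hTV : TV c (VK V Kt) Q ρ Ct kq sig e2) (hρ1 : Real.exp (cT - 1 / N) ≤ ρ)
    (hρ2 : ρ ≤ Real.exp (cT - 3 / (4 * N))) (hCt : 0 ≤ Ct) (hkq : 0 ≤ kq)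
    (hkq1 : kq * Real.exp (2 * cT) ≤ 1) (hsig : 0 ≤ sig)
    (hH1 : Ph m C1 bl T * N ^ (m + 2) * (Real.exp (-2 * cT) * II c (VK V Kt) g1 cT) ≤ 1)
    (hδb : 0 ≤ δb) (hωb : 0 ≤ ωb)
    (hb : ∀ l ∈ Icc lo (cT - 1 / N), bb c (VK V Kt) g Q l ≤ δb * II c (VK V Kt) g1 l + ωb) :
    Nb_290.StepW (C2 Ct B) lo (cT - 1 / N) ((Cg m B C0 + C2 Ct B) * (2 * A) * κ + δb)
      (Pw m A B C0 C1 bl T * N ^ (m + 6) * √(Real.exp (-2 * cT) * II c (VK V Kt) g1 cT) *
        II c (VK V Kt) g1 cT + 2 * B * Real.exp ((1 - m) * lo) * sig + ωb)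
      (II c (VK V Kt) g1) (EE c (VK V Kt) g Q) (ee c (VK V Kt) g) (bb c (VK V Kt) g Q)
      (RF c (VK V Kt) g1 B (A * κ)
        (A * κ * (√(Ph m C1 bl T * N ^ (m + 2) * (Real.exp (-2 * cT) *
          II c (VK V Kt) g1 cT))))) := by
  have hN0 : 0 < N := by linarith
  have hok : Ok c Kt D := hr.ok h.cpt (h.sub.trans inter_subset_left)
  have hOn := h.toOn
  have hB : 0 ≤ B := (hp.nn 0 le_rfl).trans (hp.b0 0 le_rfl)
  have hC1 := hS.C1n
  set I := II c (VK V Kt) g1 cT with hIdef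
  have hI : 0 ≤ I := II_nonneg hok hOn hp.pr.anti cT
  set H := Real.exp (-2 * cT) * I with hHdef
  have hH0 : 0 ≤ H := by positivity
  have hPh0 : 0 ≤ Ph m C1 bl T := by unfold Ph; positivity
  set X := Ph m C1 bl T * N ^ (m + 2) * H with hX
  have hX0 : 0 ≤ X := by positivity
  set hh := √X with hhh
  have hh0 : 0 ≤ hh := Real.sqrt_nonneg _
  have hh1 : hh ≤ 1 := by
    rw [hhh]
    calc √X ≤ √1 := Real.sqrt_le_sqrt hH1
      _ = 1 := Real.sqrt_one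
  have hh2 : hh ^ 2 = X := Real.sq_sqrt hX0
  -- heights
  set h2 := X * Real.exp (2 * lo) with hh2def
  have hh2' : C1 * (4 * N * Real.exp (-(cT - 3 / (4 * N)))) ^ m *
      HH c (VK V Kt) (Real.exp (cT - 1 / (2 * N))) ≤ h2 := by
    have e1 := HH_le_II hok hOn hp hbl hlow hN hmu
    have e2 : C1 * (4 * N * Real.exp (-(cT - 3 / (4 * N)))) ^ m *
        HH c (VK V Kt) (Real.exp (cT - 1 / (2 * N))) ≤
        C1 * (4 * N * Real.exp (-(cT - 3 / (4 * N)))) ^ m *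
          (4 * N ^ 2 / bl * (Real.exp (m * cT) * I)) :=
      mul_le_mul_of_nonneg_left e1 (by positivity)
    refine e2.trans ?_
    have e3 : (4 * N * Real.exp (-(cT - 3 / (4 * N)))) ^ m =
        4 ^ m * N ^ m * Real.exp (-(m * cT) + m * (3 / (4 * N))) := by
      rw [mul_pow, mul_pow, ← Real.exp_nat_mul]
      congr 2
      ring
    have e4 : Real.exp (-(m * cT) + m * (3 / (4 * N))) * Real.exp (m * cT) ≤ Real.exp m := by
      rw [← Real.exp_add]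
      refine Real.exp_le_exp.2 ?_
      have : 3 / (4 * N) ≤ 1 := by
        rw [div_le_one (by positivity)]; linarith
      have hm0 : (0:ℝ) ≤ m := Nat.cast_nonneg m
      nlinarith
    have e5 : (1:ℝ) ≤ Real.exp (2 * T) * (Real.exp (-2 * cT) * Real.exp (2 * lo)) := by
      rw [← Real.exp_add, ← Real.exp_add]
      refine Real.one_le_exp ?_
      linarith
    rw [e3, hh2def, hX, hHdef]
    unfold Ph
    have hpos : 0 ≤ C1 * 4 ^ m * (4 / bl) * N ^ (m + 2) * I := by positivity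
    calc C1 * (4 ^ m * N ^ m * Real.exp (-(m * cT) + m * (3 / (4 * N)))) *
          (4 * N ^ 2 / bl * (Real.exp (m * cT) * I)) =
        (C1 * 4 ^ m * (4 / bl) * N ^ (m + 2) * I) *
          (Real.exp (-(m * cT) + m * (3 / (4 * N))) * Real.exp (m * cT)) := by ring
      _ ≤ (C1 * 4 ^ m * (4 / bl) * N ^ (m + 2) * I) * Real.exp m :=
          mul_le_mul_of_nonneg_left e4 hpos
      _ = (C1 * 4 ^ m * (4 / bl) * N ^ (m + 2) * I) * Real.exp m * 1 := by ring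
      _ ≤ (C1 * 4 ^ m * (4 / bl) * N ^ (m + 2) * I) * Real.exp m *
          (Real.exp (2 * T) * (Real.exp (-2 * cT) * Real.exp (2 * lo))) :=
          mul_le_mul_of_nonneg_left e5 (by positivity)
      _ = _ := by ring
  have hH := HH_nonneg hok hOn (cT - 1 / (2 * N))
  have hae := height_le hN0 hS hH hh2'
  have h34 : 1 / N = 3 / (4 * N) + 1 / (4 * N) := by field_simp; ring
  have hN4 : 0 < 1 / (4 * N) := by positivity
  have h340 : 0 < 3 / (4 * N) := by positivity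
  have h12 : 3 / (4 * N) = 1 / (2 * N) + 1 / (4 * N) := by field_simp; ring
  obtain ⟨hloc, hsub⟩ := loc_Kc (L := cT - 3 / (4 * N)) (h2 := h2) hr h (by linarith) hae
  have hok' : Ok c (Kc c Kt h2 (cT - 3 / (4 * N))) D :=
    hr.ok hloc.cpt (hloc.sub.trans inter_subset_left)
  have hKB' : ∀ l ∈ Icc lo (cT - 1 / N), KB c (Kc c Kt h2 (cT - 3 / (4 * N))) l (A * κ)
      (A * κ * hh) hh C0 zN := by
    intro l hl
    refine hKB l hl hh hh0 hh1 _ (fun z hz => hz.1) hloc.cpt ?_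
    intro z hz _
    have e1 : ‖c.nu z‖ ^ 2 ≤ (hh * Real.exp l) ^ 2 := by
      rw [hok'.nusq z hz, mul_pow, hh2, ← Real.exp_nat_mul]
      refine hz.2.1.trans ?_
      rw [hh2def]
      refine mul_le_mul_of_nonneg_left (Real.exp_le_exp.2 ?_) hX0
      push_cast
      linarith [hl.1]
    exact le_of_sq_le_sq e1 (by positivity)
  have htv := hsub.tv hρ2 hTV
  have htt : ∀ l ∈ Icc lo (cT - 1 / N),
      |bb c (VK V Kt) g Q l| ≤ C2 Ct B * (ee c (VK V Kt) g l + II c (VK V Kt) g1 l) +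
        2 * B * Real.exp ((1 - m) * lo) * sig ∧
      Real.exp ((2 - m) * l) * |er1a c (VK V Kt) g Q l| ≤
        (A * κ) * (C2 Ct B * (ee c (VK V Kt) g l + II c (VK V Kt) g1 l) +
          2 * B * Real.exp ((1 - m) * lo) * sig) := by
    intro l hl
    have hlL : l ≤ cT - 3 / (4 * N) := by linarith [hl.2]
    have h1 := tv_one (Q := Q) hm hok' hloc.toOn hp (hKB' l hl) hCt hkq hsig htv
      ((Real.exp_le_exp.2 hl.2).trans hρ1) hl.1
      (le_trans (mul_le_mul_of_nonneg_left (Real.exp_le_exp.2 (by linarith)) hkq) hkq1)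
      ((Metric.closedBall_subset_closedBall (Real.exp_le_exp.2 (by linarith))).trans hD)
    rw [hsub.bb_eq hp hlL, hsub.ee_eq' hp hlL, hsub.II_eq' hp hlL, hsub.er1a_eq hp hlL] at h1
    exact h1
  have hω : 0 ≤ 2 * B * Real.exp ((1 - m) * lo) * sig := by positivity
  have hmain := stepW_win hr h hcT hD hp hbl hlow hmu hN hS hh2' hKB' hAκ (C2_nonneg hCt hB) hω
    (fun l hl => (htt l hl).1) (fun l hl => (htt l hl).2) hδb hωb hb
  refine hmain.weaken le_rfl ?_ ?_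
  · have e1 : A * κ * hh ≤ A * κ * 1 := mul_le_mul_of_nonneg_left hh1 (by positivity)
    have e2 : 0 ≤ Cg m B C0 + C2 Ct B := add_nonneg (Cg_nonneg hB hC0) (C2_nonneg hCt hB)
    have e3 := mul_le_mul_of_nonneg_left e1 e2
    linarith
  · have e0 : 0 ≤ Cg m B C0 := Cg_nonneg hB hC0
    have e1 : hh ^ 2 + A * κ * hh ≤ (1 + A) * hh := by
      have a1 : hh * hh ≤ 1 * hh := mul_le_mul_of_nonneg_right hh1 hh0
      have a2 : A * κ * hh ≤ A * hh := by
        refine mul_le_mul_of_nonneg_right ?_ hh0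
        calc A * κ ≤ A * 1 := mul_le_mul_of_nonneg_left hκ1 hA
          _ = A := mul_one A
      rw [pow_two]
      linarith
    have e2 : OB m C1 bl N (cT - lo) I ≤ (4 * C1 + 1) * (4 / bl) * Real.exp (m * T) * N ^ 4 * I := by
      unfold OB
      have a1 : 4 * N ^ 2 * C1 + 1 ≤ (4 * C1 + 1) * N ^ 2 := by
        have : (1:ℝ) ≤ N ^ 2 := one_le_pow₀ hN
        linarith
      have a2 : Real.exp (m * (cT - lo)) ≤ Real.exp (m * T) :=
        Real.exp_le_exp.2 (mul_le_mul_of_nonneg_left hT (Nat.cast_nonneg m))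
      calc (4 * N ^ 2 * C1 + 1) * (4 * N ^ 2 / bl) * Real.exp (m * (cT - lo)) * I ≤
          ((4 * C1 + 1) * N ^ 2) * (4 * N ^ 2 / bl) * Real.exp (m * T) * I := by gcongr
        _ = _ := by ring
    have e3 : hh ≤ √(Ph m C1 bl T) * N ^ (m + 2) * √H := by
      rw [hhh, hX, Real.sqrt_mul (by positivity), Real.sqrt_mul hPh0]
      gcongr
      have a1 : (1:ℝ) ≤ N ^ (m + 2) := one_le_pow₀ hN
      exact (Real.sqrt_le_left (by positivity)).2 (by
        nlinarith)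
    have hOB : 0 ≤ OB m C1 bl N (cT - lo) I := by unfold OB; positivity
    have e4 : Cg m B C0 * ((hh ^ 2 + A * κ * hh) * OB m C1 bl N (cT - lo) I) ≤
        Pw m A B C0 C1 bl T * N ^ (m + 6) * √H * I := by
      calc Cg m B C0 * ((hh ^ 2 + A * κ * hh) * OB m C1 bl N (cT - lo) I) ≤
          Cg m B C0 * (((1 + A) * (√(Ph m C1 bl T) * N ^ (m + 2) * √H)) *
            ((4 * C1 + 1) * (4 / bl) * Real.exp (m * T) * N ^ 4 * I)) := by
            refine mul_le_mul_of_nonneg_left ?_ e0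
            refine mul_le_mul (e1.trans ?_) e2 hOB (by positivity)
            exact mul_le_mul_of_nonneg_left e3 (by positivity)
        _ = _ := by unfold Pw; ring
    linarith

end Crest.Agent.R234.Ng_290
end
end

-- ▼ part R234/Ng4_290
section

/-!
# Row 234, node F7-GL, part 4 (helper290)

The total energy below the collar, `sig` of 618's (iii), and "exponential beats powers".
-/

set_option autoImplicit false
set_option linter.unusedVariables false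

open MeasureTheory Set Function Filter Topology
open Crest.GeometryTopology.Submanifold
open Crest.Agent.R234.Vf_884 Crest.Agent.R234.Ar_870
open Crest.Agent.R234.GL_394
open scoped ENNReal NNReal InnerProductSpace

noncomputable section

namespace Crest.Agent.R234.Ng_290

variable {m k : ℕ} {c : Ch m k} {K Kt Kh W U : Set (Euc k)} {D : Set (Euc m)}
  {V : Measure (Euc k × L k)} {g g1 g2 : ℝ → ℝ} {Q c0 d0 hh C0 C1 B l : ℝ} {zN : Euc k → Euc k}

/-- monotonicity of the sharp height integral -/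
theorem HH_mono (h : Ok c K D) (hV : On V m K) {s t : ℝ} (hst : s ≤ t) :
    HH c V (Real.exp s) ≤ HH c V (Real.exp t) := by
  unfold HH
  have hres1 : V.restrict (Sr c (Real.exp s)) =
      V.restrict ((K ×ˢ G m k) ∩ Sr c (Real.exp s)) := region_eq h hV s
  have hres2 : V.restrict (Sr c (Real.exp t)) =
      V.restrict ((K ×ˢ G m k) ∩ Sr c (Real.exp t)) := region_eq h hV t
  rw [hres1, hres2]
  have i3 : Integrable (fun p : Euc k × Vf_884.L k => 2 * c.f p.1) V :=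
    hV.integrable h.cpt (continuousOn_const.mul (lift h.cf))
  refine setIntegral_mono_set i3.integrableOn ?_ ?_
  · filter_upwards [ae_restrict_mem (region_closed (m := m) h t).measurableSet] with p hp
    have := h.f_nonneg hp.1.1
    simp only [Pi.zero_apply]
    linarith
  · refine LE.le.eventuallyLE ?_
    intro p hp
    exact ⟨hp.1, le_trans hp.2 (Real.exp_le_exp.2 hst)⟩

/-- constant of the total energy -/
def Pt (m : ℕ) (C1 bl : ℝ) : ℝ :=
  (2 * Real.exp 1) ^ m * (16 * C1 * Real.exp 2 + 4 * Real.exp 2) * (4 / bl)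

/-- **total energy** `t = s^(-m) ∫_{|x| ≤ r'} (tau + κ 2f / s²) ≤ Pt N^4 H` -/
theorem tot_le (h : Ok c K D) (hV : On V m K) (hp : Pf g g1 g2 B) {bl : ℝ} (hbl : 0 < bl)
    (hlow : ∀ a t, 0 ≤ t → t ≤ a → a ≤ 1 → bl * (1 - a) ^ 2 ≤ -g1 t) {cT N s κ : ℝ} (hN : 1 ≤ N)
    (hmu : ∀ v : Euc m, ‖v‖ ≤ Real.exp cT → 1 / 2 ≤ c.mu v)
    (hS : Sup c V cT N C1) (hs : Real.exp (cT - 1) / 2 ≤ s) (hκ : 0 ≤ κ) (hκ1 : κ ≤ 1) :
    (s⁻¹) ^ m * ∫ p in Sr c (Real.exp (cT - 3 / (4 * N))), (c.tau p.1 p.2 +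
        κ * (2 * c.f p.1 / s ^ 2)) ∂V ≤
      Pt m C1 bl * N ^ 4 * (Real.exp (-2 * cT) * II c V g1 cT) := by
  have hN0 : 0 < N := by linarith
  have hC1 := hS.C1n
  have hs0 : 0 < s := lt_of_lt_of_le (by positivity) hs
  have hsi : s⁻¹ ≤ 2 * Real.exp 1 * Real.exp (-cT) := by
    have h1 : s⁻¹ ≤ (Real.exp (cT - 1) / 2)⁻¹ := inv_anti₀ (by positivity) hs
    refine h1.trans (le_of_eq ?_)
    rw [inv_div, div_eq_mul_inv, ← Real.exp_neg, mul_assoc, ← Real.exp_add]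
    congr 2
    ring
  have hI : 0 ≤ II c V g1 cT := II_nonneg h hV hp.pr.anti cT
  have e0 : cT - 3 / (4 * N) + 1 / (4 * N) ≤ cT - 1 / (2 * N) := by
    have : 3 / (4 * N) = 1 / (2 * N) + 1 / (4 * N) := by field_simp; ring
    linarith
  have h340 : 0 < 1 / (4 * N) := by positivity
  obtain ⟨hg1, hg2⟩ := gap_ge (N := 4 * N) (by positivity) e0
  set l := cT - 3 / (4 * N) with hl
  set H' := HH c V (Real.exp (cT - 1 / (2 * N))) with hH'
  have hH0 : 0 ≤ H' := HH_nonneg h hV _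
  have hHle : H' ≤ 4 * N ^ 2 / bl * (Real.exp (m * cT) * II c V g1 cT) :=
    HH_le_II h hV hp hbl hlow hN hmu
  have i1 : Integrable (fun p : Euc k × Vf_884.L k => c.tau p.1 p.2) V :=
    hV.integrable h.cpt h.ctau
  have i3 : Integrable (fun p : Euc k × Vf_884.L k => 2 * c.f p.1) V :=
    hV.integrable h.cpt (continuousOn_const.mul (lift h.cf))
  have e1 : ∫ p in Sr c (Real.exp l), c.tau p.1 p.2 ∂V ≤
      C1 * ((Real.exp (cT - 1 / (2 * N)) - Real.exp l)⁻¹) ^ 2 * H' :=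
    hS.s2 _ (Real.exp_pos _) le_rfl
  have e2 : HH c V (Real.exp l) ≤ H' := HH_mono h hV (by linarith)
  have e3 : ∫ p in Sr c (Real.exp l), (c.tau p.1 p.2 + κ * (2 * c.f p.1 / s ^ 2)) ∂V =
      ∫ p in Sr c (Real.exp l), c.tau p.1 p.2 ∂V + κ * (s⁻¹) ^ 2 * HH c V (Real.exp l) := by
    have i4 : Integrable (fun p : Euc k × Vf_884.L k => κ * (s⁻¹) ^ 2 * (2 * c.f p.1)) V :=
      i3.const_mul _
    unfold HH
    rw [← integral_const_mul, ← integral_add i1.integrableOn i4.integrableOn]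
    refine integral_congr_ae (Eventually.of_forall fun p => ?_)
    simp only
    rw [inv_pow]
    ring
  have e4 : ((Real.exp (cT - 1 / (2 * N)) - Real.exp l)⁻¹) ^ 2 ≤
      16 * N ^ 2 * (Real.exp 2 * Real.exp (-2 * cT)) := by
    have h1 : ((Real.exp (cT - 1 / (2 * N)) - Real.exp l)⁻¹) ^ 2 ≤ (4 * N * Real.exp (-l)) ^ 2 :=
      pow_le_pow_left₀ (inv_nonneg.2 hg1.le) hg2 2
    refine h1.trans ?_
    have h2 : Real.exp (-l) ^ 2 ≤ Real.exp 2 * Real.exp (-2 * cT) := by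
      rw [← Real.exp_nat_mul, ← Real.exp_add]
      refine Real.exp_le_exp.2 ?_
      have h3 : 3 / (4 * N) ≤ 1 := by rw [div_le_one (by positivity)]; linarith
      push_cast
      linarith
    calc (4 * N * Real.exp (-l)) ^ 2 = 16 * N ^ 2 * Real.exp (-l) ^ 2 := by ring
      _ ≤ _ := by gcongr
  have e5 : (s⁻¹) ^ 2 ≤ 4 * (Real.exp 2 * Real.exp (-2 * cT)) := by
    have h1 : (s⁻¹) ^ 2 ≤ (2 * Real.exp 1 * Real.exp (-cT)) ^ 2 :=
      pow_le_pow_left₀ (by positivity) hsi 2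
    refine h1.trans (le_of_eq ?_)
    have h2 : Real.exp 1 ^ 2 = Real.exp 2 := by rw [← Real.exp_nat_mul]; norm_num
    have h3 : Real.exp (-cT) ^ 2 = Real.exp (-2 * cT) := by
      rw [← Real.exp_nat_mul]; congr 1; push_cast; ring
    rw [mul_pow, mul_pow, h2, h3]; ring
  have e6 : (s⁻¹) ^ m ≤ (2 * Real.exp 1) ^ m * Real.exp (-(m * cT)) := by
    have h1 : (s⁻¹) ^ m ≤ (2 * Real.exp 1 * Real.exp (-cT)) ^ m :=
      pow_le_pow_left₀ (by positivity) hsi m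
    refine h1.trans (le_of_eq ?_)
    rw [mul_pow, ← Real.exp_nat_mul (-cT)]
    congr 2
    ring
  have hN2 : (1:ℝ) ≤ N ^ 2 := one_le_pow₀ hN
  have e7 : ∫ p in Sr c (Real.exp l), (c.tau p.1 p.2 + κ * (2 * c.f p.1 / s ^ 2)) ∂V ≤
      (16 * C1 * Real.exp 2 + 4 * Real.exp 2) * (N ^ 2 * Real.exp (-2 * cT)) * H' := by
    rw [e3]
    have a1 : C1 * ((Real.exp (cT - 1 / (2 * N)) - Real.exp l)⁻¹) ^ 2 * H' ≤
        C1 * (16 * N ^ 2 * (Real.exp 2 * Real.exp (-2 * cT))) * H' := by gcongr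
    have a2 : κ * (s⁻¹) ^ 2 * HH c V (Real.exp l) ≤
        1 * (4 * (Real.exp 2 * Real.exp (-2 * cT))) * H' := by
      refine mul_le_mul (mul_le_mul hκ1 e5 (by positivity) zero_le_one) e2 (HH_nonneg h hV _)
        (by positivity)
    have a3 : 1 * (4 * (Real.exp 2 * Real.exp (-2 * cT))) * H' ≤
        N ^ 2 * (4 * (Real.exp 2 * Real.exp (-2 * cT))) * H' := by gcongr
    calc _ ≤ C1 * (16 * N ^ 2 * (Real.exp 2 * Real.exp (-2 * cT))) * H' +
          N ^ 2 * (4 * (Real.exp 2 * Real.exp (-2 * cT))) * H' := by linarith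
      _ = _ := by ring
  have hfac : 0 ≤ (16 * C1 * Real.exp 2 + 4 * Real.exp 2) * (N ^ 2 * Real.exp (-2 * cT)) := by
    positivity
  calc _ ≤ (s⁻¹) ^ m * ((16 * C1 * Real.exp 2 + 4 * Real.exp 2) *
        (N ^ 2 * Real.exp (-2 * cT)) * H') := mul_le_mul_of_nonneg_left e7 (by positivity)
    _ ≤ ((2 * Real.exp 1) ^ m * Real.exp (-(m * cT))) *
        ((16 * C1 * Real.exp 2 + 4 * Real.exp 2) * (N ^ 2 * Real.exp (-2 * cT)) *
          (4 * N ^ 2 / bl * (Real.exp (m * cT) * II c V g1 cT))) := by gcongr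
    _ = (Real.exp (-(m * cT)) * Real.exp (m * cT)) * (Pt m C1 bl * N ^ 4 *
        (Real.exp (-2 * cT) * II c V g1 cT)) := by unfold Pt; ring
    _ = _ := by rw [← Real.exp_add, neg_add_cancel, Real.exp_zero, one_mul]

/-- constant of `sig` -/
def Ps (m : ℕ) (B Ct C1 bl T : ℝ) : ℝ :=
  2 * B * Ct * 4 ^ (2 * m + 2) * Real.exp (m * T) * (Pt m C1 bl * Pt m C1 bl ^ (1 / (m : ℝ)))

/-- **618's `sig`** : `2 B e^((1-m) lo) sig ≤ Ps N^(2m+10) H^(1/m) I` -/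
theorem sig_le (hm : 1 ≤ m) {B Ct C1 bl cT lo N s t I T ε : ℝ} (hB : 0 ≤ B) (hCt : 0 ≤ Ct)
    (hC1 : 0 ≤ C1) (hbl : 0 < bl) (hN : 1 ≤ N) (hs0 : 0 ≤ s) (hs : s ≤ Real.exp cT) (hI : 0 ≤ I)
    (hε : ε⁻¹ ≤ 4 * N) (hε0 : 0 < ε) (hlo : lo ≤ cT) (hT : cT - lo ≤ T) (ht0 : 0 ≤ t)
    (ht : t ≤ Pt m C1 bl * N ^ 4 * (Real.exp (-2 * cT) * I)) :
    2 * B * Real.exp ((1 - m) * lo) * (Ct * (ε⁻¹) ^ (2 * m + 2) * s ^ (m + 1) *
      (t * t ^ (1 / (m : ℝ)))) ≤
      Ps m B Ct C1 bl T * N ^ (2 * m + 10) * (Real.exp (-2 * cT) * I) ^ (1 / (m : ℝ)) * I := by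
  have hN0 : 0 < N := by linarith
  set H := Real.exp (-2 * cT) * I with hH
  have hH0 : 0 ≤ H := by positivity
  have hP : 0 ≤ Pt m C1 bl := by unfold Pt; positivity
  have hm1 : (1:ℝ) ≤ m := by exact_mod_cast hm
  have hm0 : (0:ℝ) ≤ 1 / (m : ℝ) := by positivity
  have hm2 : 1 / (m : ℝ) ≤ 1 := by rw [div_le_one (by linarith)]; exact hm1
  have e1 : t ^ (1 / (m : ℝ)) ≤ Pt m C1 bl ^ (1 / (m : ℝ)) * N ^ 4 * H ^ (1 / (m : ℝ)) := by
    calc t ^ (1 / (m : ℝ)) ≤ (Pt m C1 bl * N ^ 4 * H) ^ (1 / (m : ℝ)) :=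
          Real.rpow_le_rpow ht0 ht hm0
      _ = Pt m C1 bl ^ (1 / (m : ℝ)) * (N ^ 4) ^ (1 / (m : ℝ)) * H ^ (1 / (m : ℝ)) := by
          rw [Real.mul_rpow (by positivity) hH0, Real.mul_rpow hP (by positivity)]
      _ ≤ _ := by
          gcongr
          calc (N ^ 4) ^ (1 / (m : ℝ)) ≤ (N ^ 4) ^ (1:ℝ) :=
                Real.rpow_le_rpow_of_exponent_le (one_le_pow₀ hN) hm2
            _ = N ^ 4 := Real.rpow_one _
  have e2 : t * t ^ (1 / (m : ℝ)) ≤ (Pt m C1 bl * N ^ 4 * H) *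
      (Pt m C1 bl ^ (1 / (m : ℝ)) * N ^ 4 * H ^ (1 / (m : ℝ))) :=
    mul_le_mul ht e1 (Real.rpow_nonneg ht0 _) (by positivity)
  have e3 : (ε⁻¹) ^ (2 * m + 2) ≤ 4 ^ (2 * m + 2) * N ^ (2 * m + 2) := by
    rw [← mul_pow]
    exact pow_le_pow_left₀ (by positivity) hε _
  have e4 : s ^ (m + 1) ≤ Real.exp ((m + 1) * cT) := by
    calc s ^ (m + 1) ≤ Real.exp cT ^ (m + 1) := pow_le_pow_left₀ hs0 hs _
      _ = _ := by rw [← Real.exp_nat_mul]; congr 1; push_cast; ring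
  have e5 : Real.exp ((1 - m) * lo) * Real.exp ((m + 1) * cT) * Real.exp (-2 * cT) ≤
      Real.exp (m * T) := by
    rw [← Real.exp_add, ← Real.exp_add]
    refine Real.exp_le_exp.2 ?_
    nlinarith
  have hp1 : 0 ≤ Pt m C1 bl ^ (1 / (m : ℝ)) := Real.rpow_nonneg hP _
  have hp2 : 0 ≤ H ^ (1 / (m : ℝ)) := Real.rpow_nonneg hH0 _
  calc 2 * B * Real.exp ((1 - m) * lo) * (Ct * (ε⁻¹) ^ (2 * m + 2) * s ^ (m + 1) *
        (t * t ^ (1 / (m : ℝ)))) ≤
      2 * B * Real.exp ((1 - m) * lo) * (Ct * (4 ^ (2 * m + 2) * N ^ (2 * m + 2)) *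
        Real.exp ((m + 1) * cT) * ((Pt m C1 bl * N ^ 4 * H) *
          (Pt m C1 bl ^ (1 / (m : ℝ)) * N ^ 4 * H ^ (1 / (m : ℝ))))) := by gcongr
    _ = (2 * B * Ct * 4 ^ (2 * m + 2) * (Pt m C1 bl * Pt m C1 bl ^ (1 / (m : ℝ))) *
        N ^ (2 * m + 10) * H ^ (1 / (m : ℝ)) * I) *
        (Real.exp ((1 - m) * lo) * Real.exp ((m + 1) * cT) * Real.exp (-2 * cT)) := by
        have : N ^ (2 * m + 10) = N ^ (2 * m + 2) * N ^ 4 * N ^ 4 := by
          rw [← pow_add, ← pow_add]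
        rw [this]
        nth_rewrite 1 [hH]
        ring
    _ ≤ (2 * B * Ct * 4 ^ (2 * m + 2) * (Pt m C1 bl * Pt m C1 bl ^ (1 / (m : ℝ))) *
        N ^ (2 * m + 10) * H ^ (1 / (m : ℝ)) * I) * Real.exp (m * T) := by gcongr
    _ = _ := by unfold Ps; ring

/-- exponential beats powers -/
theorem beat {P θ : ℝ} (hθ : 0 < θ) (p : ℕ) :
    ∃ L0 : ℝ, 1 ≤ L0 ∧ ∀ L, L0 ≤ L → P * (L ^ p * Real.exp (-(θ * L))) ≤ 1 := by
  have h1 : Tendsto (fun L : ℝ => P * (L ^ p * Real.exp (-(θ * L)))) atTop (𝓝 (P * 0)) := by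
    refine Tendsto.const_mul P ?_
    have h2 := (Real.tendsto_pow_mul_exp_neg_atTop_nhds_zero p).comp
      (tendsto_id.const_mul_atTop hθ)
    have h3 : Tendsto (fun L : ℝ => (θ⁻¹) ^ p * ((θ * L) ^ p * Real.exp (-(θ * L)))) atTop
        (𝓝 ((θ⁻¹) ^ p * 0)) := h2.const_mul _
    rw [mul_zero] at h3
    refine h3.congr fun L => ?_
    rw [mul_pow, ← mul_assoc, ← mul_assoc, ← mul_pow, inv_mul_cancel₀ hθ.ne', one_pow, one_mul]
  rw [mul_zero] at h1
  obtain ⟨L0, hL0⟩ := eventually_atTop.1 (h1.eventually (ge_mem_nhds zero_lt_one))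
  exact ⟨max 1 L0, le_max_left _ _, fun L hL => hL0 L ((le_max_right _ _).trans hL)⟩

/-- powers of `N ≤ A L^a` times a power of `H ≤ A e^(-L)` are below `L^(-q)` -/
theorem beat2 {P A θ : ℝ} (hP : 0 ≤ P) (hA : 0 ≤ A) (hθ : 0 < θ) (p a q : ℕ) :
    ∃ L0 : ℝ, 1 ≤ L0 ∧ ∀ L N H : ℝ, L0 ≤ L → 0 ≤ N → N ≤ A * L ^ a → 0 ≤ H →
      H ≤ A * Real.exp (-L) → P * N ^ p * H ^ θ ≤ (L ^ q)⁻¹ := by
  obtain ⟨L0, h0, h1⟩ := beat (P := P * A ^ p * A ^ θ) hθ (a * p + q)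
  refine ⟨L0, h0, fun L N H hL hN hN1 hH hH1 => ?_⟩
  have hL1 : 0 < L := by linarith
  have hb := h1 L hL
  have e1 : H ^ θ ≤ A ^ θ * Real.exp (-(θ * L)) := by
    calc H ^ θ ≤ (A * Real.exp (-L)) ^ θ := Real.rpow_le_rpow hH hH1 hθ.le
      _ = A ^ θ * Real.exp (-(θ * L)) := by
        rw [Real.mul_rpow hA (Real.exp_pos _).le, ← Real.exp_mul]
        congr 2; ring
  have e2 : N ^ p ≤ A ^ p * L ^ (a * p) := by
    calc N ^ p ≤ (A * L ^ a) ^ p := pow_le_pow_left₀ hN hN1 p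
      _ = _ := by rw [mul_pow, ← pow_mul]
  have hAθ : 0 ≤ A ^ θ := Real.rpow_nonneg hA θ
  rw [← one_div, le_div_iff₀ (by positivity)]
  calc P * N ^ p * H ^ θ * L ^ q ≤ P * (A ^ p * L ^ (a * p)) * (A ^ θ * Real.exp (-(θ * L))) *
        L ^ q := by
        have := Real.rpow_nonneg hH θ
        gcongr
    _ = P * A ^ p * A ^ θ * (L ^ (a * p + q) * Real.exp (-(θ * L))) := by rw [pow_add]; ring
    _ ≤ 1 := hb

end Crest.Agent.R234.Ng_290
end
end

-- ▼ part R234/Ng5_290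

/-!
# Row 234, node F7-GL, part 5 (helper290)

Final abstract form: `Gl` (all V-level inputs on one window) ==> `StepW` with
`w = P N^(2m+10) H^(1/(m+2)) II(cT) + ωb`, and `w = L^(-q) II(cT) + ωb` for `N ≤ A L^a`,
`H ≤ A e^(-L)`.
-/

set_option autoImplicit false
set_option linter.unusedVariables false

open MeasureTheory Set Function Filter Topology
open Crest.GeometryTopology.Submanifold
open Crest.Agent.R234.Vf_884 Crest.Agent.R234.Ar_870
open Crest.Agent.R234.GL_394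
open scoped ENNReal NNReal InnerProductSpace

noncomputable section

namespace Crest.Agent.R234.Ng_290

variable {m k : ℕ} {c : Ch m k} {K Kt Kh W U : Set (Euc k)} {D : Set (Euc m)}
  {V : Measure (Euc k × L k)} {g g1 g2 : ℝ → ℝ} {Q C0 C1 B : ℝ} {zN : Euc k → Euc k}

/-- collar of the total variation -/
def eN (N : ℝ) : ℝ := 1 / (4 * N)

/-- scale of the total variation: `(1 + eN) sN = e^(cT - 3/(4N))` -/
def sN (cT N : ℝ) : ℝ := Real.exp (cT - 3 / (4 * N)) / (1 + eN N)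

section scales
variable {cT N : ℝ} (hN : 1 ≤ N)
include hN

theorem eN_pos : 0 < eN N := by unfold eN; positivity
theorem eN_le : eN N ≤ 1 / 4 := by
  unfold eN
  rw [div_le_div_iff₀ (by positivity) (by norm_num)]
  linarith
omit hN in
theorem eN_inv : (eN N)⁻¹ = 4 * N := by unfold eN; rw [one_div, inv_inv]
theorem sN_pos : 0 < sN cT N := by
  have := eN_pos hN
  unfold sN; positivity
theorem sN_mul : (1 + eN N) * sN cT N = Real.exp (cT - 3 / (4 * N)) := by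
  have := eN_pos hN
  unfold sN; field_simp
theorem sN_ge : Real.exp (cT - 1) / 2 ≤ sN cT N := by
  have h1 := eN_pos hN
  have h2 := eN_le hN
  have h3 : Real.exp (cT - 1) ≤ Real.exp (cT - 3 / (4 * N)) := by
    refine Real.exp_le_exp.2 ?_
    have : 3 / (4 * N) ≤ 1 := by rw [div_le_one (by positivity)]; linarith
    linarith
  unfold sN
  rw [div_le_div_iff₀ (by norm_num) (by linarith)]
  have := Real.exp_pos (cT - 1)
  nlinarith
theorem sN_le : sN cT N ≤ Real.exp cT := by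
  have h1 := eN_pos hN
  have h4 : 0 < 3 / (4 * N) := by positivity
  have h3 : Real.exp (cT - 3 / (4 * N)) ≤ Real.exp cT := Real.exp_le_exp.2 (by linarith)
  unfold sN
  rw [div_le_iff₀ (by linarith)]
  have := Real.exp_pos cT
  nlinarith
theorem sN_half_le : (1 + eN N / 2) * sN cT N ≤ Real.exp (cT - 3 / (4 * N)) := by
  rw [← sN_mul hN (cT := cT)]
  have := sN_pos hN (cT := cT)
  have := eN_pos hN
  nlinarith
theorem sN_half_ge : Real.exp (cT - 1 / N) ≤ (1 + eN N / 2) * sN cT N := by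
  have h1 := eN_pos hN
  have h2 := eN_le hN
  have h0 : eN N ≤ 1 := by linarith
  have h34 : cT - 1 / N = (cT - 3 / (4 * N)) + -eN N := by
    have hN0 : N ≠ 0 := by positivity
    unfold eN; field_simp; ring
  have h5 := one_sub_exp_ge h1.le h0
  have h6 : Real.exp (-eN N) ≤ (1 + eN N / 2) / (1 + eN N) := by
    rw [le_div_iff₀ (by linarith)]
    nlinarith
  rw [h34, Real.exp_add]
  unfold sN
  calc Real.exp (cT - 3 / (4 * N)) * Real.exp (-eN N) ≤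
        Real.exp (cT - 3 / (4 * N)) * ((1 + eN N / 2) / (1 + eN N)) :=
        mul_le_mul_of_nonneg_left h6 (Real.exp_pos _).le
    _ = _ := by ring
end scales

/-- the total energy of 618 at the scale `sN` -/
def tN (c : Ch m k) (V : Measure (Euc k × L k)) (cT N κ : ℝ) : ℝ :=
  ((sN cT N)⁻¹) ^ m * ∫ p in Sr c (Real.exp (cT - 3 / (4 * N))), (c.tau p.1 p.2 +
        κ * (2 * c.f p.1 / (sN cT N) ^ 2)) ∂V

/-- **all inputs of F7-GL on one window** `[lo, cT]`, accuracy `1/N` -/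
structure Gl (c : Ch m k) (W : Set (Euc k)) (D : Set (Euc m)) (U Kt : Set (Euc k))
    (V : Measure (Euc k × L k)) (Q A C0 C1 Ct κ LT cT lo N : ℝ) (zN : Euc k → Euc k) : Prop where
  reg : Reg c W D
  loc : Loc c U W Kt V LT
  hcT : cT - 1 / (2 * N) ≤ LT
  hD : Metric.closedBall 0 (Real.exp cT) ⊆ D
  hmu : ∀ v : Euc m, ‖v‖ ≤ Real.exp cT → 1 / 2 ≤ c.mu v
  tau0 : ∀ p ∈ Kt ×ˢ G m k, 0 ≤ c.tau p.1 p.2
  sup : Sup c (VK V Kt) cT N C1
  kb : ∀ l ∈ Icc lo (cT - 1 / N), ∀ hh, 0 ≤ hh → hh ≤ 1 → ∀ K' ⊆ Kt, IsCompact K' →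
      (∀ z ∈ K', ‖c.x z‖ ≤ Real.exp l → ‖c.nu z‖ ≤ hh * Real.exp l) →
      KB c K' l (A * κ) (A * κ * hh) hh C0 zN
  tv : ∃ (e2 : Measure (Euc m)) (sig : ℝ),
    TV c (VK V Kt) Q ((1 + eN N / 2) * sN cT N) Ct (κ / (sN cT N) ^ 2) sig e2 ∧ 0 ≤ sig ∧
      sig ≤ Ct * ((eN N)⁻¹) ^ (2 * m + 2) * (sN cT N) ^ (m + 1) *
        (tN c (VK V Kt) cT N κ * tN c (VK V Kt) cT N κ ^ (1 / (m : ℝ)))

/-- constant of the final `w` -/
def PF (m : ℕ) (A B C0 C1 bl Ct T : ℝ) : ℝ := Pw m A B C0 C1 bl T + Ps m B Ct C1 bl T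

/-- exponent of the height -/
def th0 (m : ℕ) : ℝ := 1 / ((m : ℝ) + 2)

theorem th0_pos : 0 < th0 m := by unfold th0; positivity

/-- the constant of the heights condition -/
theorem pow_th_le {H : ℝ} (hm : 1 ≤ m) (hH : 0 ≤ H) (hH1 : H ≤ 1) :
    √H ≤ H ^ th0 m ∧ H ^ (1 / (m : ℝ)) ≤ H ^ th0 m := by
  have hm1 : (1:ℝ) ≤ m := by exact_mod_cast hm
  rcases hH.eq_or_lt with h0 | h0
  · rw [← h0, Real.sqrt_zero, Real.zero_rpow (one_div_ne_zero (by linarith : (m:ℝ) ≠ 0)),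
      Real.zero_rpow (th0_pos (m := m)).ne']
    exact ⟨le_rfl, le_rfl⟩
  · constructor
    · rw [Real.sqrt_eq_rpow]
      refine Real.rpow_le_rpow_of_exponent_ge h0 hH1 ?_
      unfold th0
      rw [div_le_div_iff₀ (by positivity) (by norm_num)]
      linarith
    · refine Real.rpow_le_rpow_of_exponent_ge h0 hH1 ?_
      unfold th0
      rw [div_le_div_iff₀ (by positivity) (by positivity)]
      linarith

set_option maxHeartbeats 1000000 in
/-- **F7-GL** -/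
theorem Gl.stepW {LT cT N lo bl T κ A δb ωb Ct : ℝ} (hm : 1 ≤ m)
    (h : Gl c W D U Kt V Q A C0 C1 Ct κ LT cT lo N zN) (hp : Pf g g1 g2 B)
    (hbl : 0 < bl) (hlow : ∀ a t, 0 ≤ t → t ≤ a → a ≤ 1 → bl * (1 - a) ^ 2 ≤ -g1 t)
    (hN : 1 ≤ N) (hlo : lo ≤ cT) (hT : cT - lo ≤ T) (hA : 0 ≤ A) (hC0 : 0 ≤ C0) (hκ : 0 ≤ κ)
    (hAκ : A * κ ≤ 1) (hκ1 : κ * (4 * Real.exp 2) ≤ 1) (hCt : 0 ≤ Ct)
    (hH1 : Ph m C1 bl T * N ^ (m + 2) * (Real.exp (-2 * cT) * II c (VK V Kt) g1 cT) ≤ 1)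
    (hH2 : Real.exp (-2 * cT) * II c (VK V Kt) g1 cT ≤ 1)
    (hδb : 0 ≤ δb) (hωb : 0 ≤ ωb)
    (hb : ∀ l ∈ Icc lo (cT - 1 / N), bb c (VK V Kt) g Q l ≤ δb * II c (VK V Kt) g1 l + ωb) :
    Nb_290.StepW (C2 Ct B) lo (cT - 1 / N) ((Cg m B C0 + C2 Ct B) * (2 * A) * κ + δb)
      (PF m A B C0 C1 bl Ct T * N ^ (2 * m + 10) *
        (Real.exp (-2 * cT) * II c (VK V Kt) g1 cT) ^ th0 m * II c (VK V Kt) g1 cT + ωb)
      (II c (VK V Kt) g1) (EE c (VK V Kt) g Q) (ee c (VK V Kt) g) (bb c (VK V Kt) g Q)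
      (RF c (VK V Kt) g1 B (A * κ)
        (A * κ * (√(Ph m C1 bl T * N ^ (m + 2) * (Real.exp (-2 * cT) *
          II c (VK V Kt) g1 cT))))) := by
  obtain ⟨e2, sig, hTV, hsig, hsig2⟩ := h.tv
  have hN0 : 0 < N := by linarith
  have hok : Ok c Kt D := h.reg.ok h.loc.cpt (h.loc.sub.trans inter_subset_left)
  have hOn := h.loc.toOn
  have hB : 0 ≤ B := (hp.nn 0 le_rfl).trans (hp.b0 0 le_rfl)
  have hC1 := h.sup.C1n
  have he2 : (1:ℝ) ≤ Real.exp 2 := Real.one_le_exp (by norm_num)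
  have hκ2 : κ ≤ 1 := by nlinarith
  set s := sN cT N with hs
  have hs0 : 0 < s := sN_pos hN
  set I := II c (VK V Kt) g1 cT with hIdef
  have hI : 0 ≤ I := II_nonneg hok hOn hp.pr.anti cT
  have hkq : κ / s ^ 2 * Real.exp (2 * cT) ≤ 1 := by
    have h1 := sN_ge hN (cT := cT)
    have h2 : Real.exp (2 * cT) ≤ 4 * Real.exp 2 * s ^ 2 := by
      have h3 : (Real.exp (cT - 1) / 2) ^ 2 ≤ s ^ 2 := pow_le_pow_left₀ (by positivity) h1 2
      have h4 : (Real.exp (cT - 1) / 2) ^ 2 * (4 * Real.exp 2) = Real.exp (2 * cT) := by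
        rw [div_pow, ← Real.exp_nat_mul]
        rw [show (2 * cT) = ((2:ℕ):ℝ) * (cT - 1) + 2 by push_cast; ring, Real.exp_add]
        ring
      have : (Real.exp (cT - 1) / 2) ^ 2 * (4 * Real.exp 2) ≤ s ^ 2 * (4 * Real.exp 2) :=
        mul_le_mul_of_nonneg_right h3 (by positivity)
      linarith
    rw [div_mul_eq_mul_div, div_le_one (by positivity)]
    calc κ * Real.exp (2 * cT) ≤ κ * (4 * Real.exp 2 * s ^ 2) := mul_le_mul_of_nonneg_left h2 hκ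
      _ = κ * (4 * Real.exp 2) * s ^ 2 := by ring
      _ ≤ 1 * s ^ 2 := mul_le_mul_of_nonneg_right hκ1 (by positivity)
      _ = s ^ 2 := one_mul _
  have hmain := stepW_num (T := T) hm h.reg h.loc h.hcT h.hD hp hbl hlow h.hmu hN h.sup hT hA
    hC0 hκ hAκ hκ2 h.kb hTV (sN_half_ge hN) (sN_half_le hN) hCt (by positivity) hkq hsig hH1 hδb
    hωb hb
  refine hmain.weaken le_rfl le_rfl ?_
  set H := Real.exp (-2 * cT) * I with hH
  have hH0 : 0 ≤ H := by positivity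
  obtain ⟨q1, q2⟩ := pow_th_le hm hH0 hH2
  set t := tN c (VK V Kt) cT N κ with ht
  have htle : t ≤ Pt m C1 bl * N ^ 4 * H :=
    tot_le hok hOn hp hbl hlow hN h.hmu h.sup (sN_ge hN) hκ hκ2
  have ht0 : 0 ≤ t := by
    rw [ht]
    unfold tN
    refine mul_nonneg (by positivity) ?_
    have hres : (VK V Kt).restrict (Sr c (Real.exp (cT - 3 / (4 * N)))) =
        (VK V Kt).restrict ((Kt ×ˢ G m k) ∩ Sr c (Real.exp (cT - 3 / (4 * N)))) :=
      region_eq hok hOn _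
    rw [hres]
    refine setIntegral_nonneg (region_closed hok _).measurableSet fun p hp => ?_
    have h1 := hok.f_nonneg hp.1.1
    have h2 := h.tau0 p hp.1
    positivity
  have hsig3 := sig_le (T := T) hm hB hCt hC1 hbl hN hs0.le (sN_le hN) hI
    (by rw [eN_inv]) (eN_pos hN) hlo hT ht0 htle
  have hsig4 : 2 * B * Real.exp ((1 - m) * lo) * sig ≤
      2 * B * Real.exp ((1 - m) * lo) * (Ct * ((eN N)⁻¹) ^ (2 * m + 2) * s ^ (m + 1) *
        (t * t ^ (1 / (m : ℝ)))) := mul_le_mul_of_nonneg_left hsig2 (by positivity)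
  have hPw : 0 ≤ Pw m A B C0 C1 bl T := by
    have := Cg_nonneg (m := m) hB hC0
    unfold Pw; positivity
  have hPs : 0 ≤ Ps m B Ct C1 bl T := by
    have : 0 ≤ Pt m C1 bl := by unfold Pt; positivity
    have := Real.rpow_nonneg this (1 / (m : ℝ))
    unfold Ps; positivity
  have hNp : N ^ (m + 6) ≤ N ^ (2 * m + 10) := pow_le_pow_right₀ hN (by omega)
  have a1 : Pw m A B C0 C1 bl T * N ^ (m + 6) * √H * I ≤
      Pw m A B C0 C1 bl T * N ^ (2 * m + 10) * H ^ th0 m * I := by gcongr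
  have a2 : Ps m B Ct C1 bl T * N ^ (2 * m + 10) * H ^ (1 / (m : ℝ)) * I ≤
      Ps m B Ct C1 bl T * N ^ (2 * m + 10) * H ^ th0 m * I := by gcongr
  unfold PF
  have a3 : (Pw m A B C0 C1 bl T + Ps m B Ct C1 bl T) * N ^ (2 * m + 10) * H ^ th0 m * I =
      Pw m A B C0 C1 bl T * N ^ (2 * m + 10) * H ^ th0 m * I +
      Ps m B Ct C1 bl T * N ^ (2 * m + 10) * H ^ th0 m * I := by ring
  linarith

end Crest.Agent.R234.Ng_290
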