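import Crest.Agent.R234.Qp2_534
import Crest.Agent.R234.GLK6_128
import Crest.Agent.R234.GL7_394
import Crest.Agent.R234.Fd1_534
import Crest.Agent.R234.LowF7_471
import Crest.Agent.R234.Nb5_290
import Crest.Agent.R234.Ng5_290

-- ▼ part R234/Qp3_534
section

/-!
# Row 234, node QP-CH (helper534), part 3: 128's hypotheses `Hy` at a `Q`-point, the frequency
functions at a `Q`-point, monotonicity in the scale.
-/

set_option autoImplicit false
set_option linter.unusedVariables false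
set_option linter.unusedSectionVars false
set_option maxSynthPendingDepth 3

open MeasureTheory Filter Topology Set Metric
open scoped ENNReal NNReal ContDiff InnerProductSpace
open Crest.GeometryTopology.Submanifold Crest.Agent.R234.Vf_884
open Crest.Agent.R234.Main_456 Crest.Agent.R234.F11_435
open Crest.Agent.R234.Gi_456

noncomputable section

namespace Crest.Agent.R234.Qp_534

variable {m n k : ℕ}

variable {U : Set (Euc k)} {V : Measure (Euc k × L k)} {Q K : ℕ} {x : Euc k} {r : ℝ}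
  {π : Euc k →L[ℝ] Euc m} {ρ : Euc k →L[ℝ] Euc n} {u : Euc m → Euc n} {ε C : ℝ}
  {W : Euc m → Euc n} {κ : ℝ} {zh : Euc k}

theorem Ext.d3' {z : Euc k} (h : Ext u W K κ) (hr : 0 < r) (hK : 3 ≤ K) (ξ : Euc m) :
    ‖fderiv ℝ (fderiv ℝ (fderiv ℝ (wz π x z r W))) ξ‖ ≤ κ / r ^ 2 := by
  have h1 := h.d3 (π := π) (x := x) (z := z) hr hK ξ
  rw [← norm_iteratedFDeriv_one, norm_iteratedFDeriv_fderiv, norm_iteratedFDeriv_fderiv]
  exact h1

namespace Qx

variable (h : Qx U V Q K x r π ρ u ε C W κ zh)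

include h

/-- minimality of the graph function of the centre -/
theorem msys {X : Euc m} (hX : ‖X‖ < 20 * r) : Msys (wz π x zh r W) X = 0 := by
  have hr := h.hr
  rw [Msys_wz hr.ne' h.ext.cd]
  have h1 : ‖r⁻¹ • (X + π (zh - x))‖ < 28 := by
    rw [norm_smul, norm_inv, Real.norm_of_nonneg hr.le, inv_mul_lt_iff₀ hr]
    have := norm_add_le X (π (zh - x))
    have := h.norm_pi_z
    linarith
  rw [h.ext.Msys_eq h1, h.cx.ref.minimal _ (by
    rw [mem_ball_zero_iff]; linarith), smul_zero]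

theorem msys_ev {X : Euc m} (hX : ‖X‖ < 20 * r) : ∀ᶠ X' in 𝓝 X, Msys (wz π x zh r W) X' = 0 := by
  filter_upwards [(isOpen_lt continuous_norm continuous_const).mem_nhds
    (show X ∈ {y : Euc m | ‖y‖ < 20 * r} from hX)] with y hy
  exact h.msys hy

/-- **128's hypotheses** at the scale `e^l ≤ 4 r`. -/
theorem hy {l hb : ℝ} {S : Set (Euc k)} (hl : Real.exp l ≤ 4 * r) (hS : S ⊆ Tz π ρ x r W zh)
    (hb0 : 0 ≤ hb) (hb1 : hb ≤ 1)
    (hnu : ∀ z ∈ S, ‖(cz π ρ x r W zh).x z‖ ≤ Real.exp l →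
      ‖(cz π ρ x r W zh).nu z‖ ≤ hb * Real.exp l) :
    GLK_128.Hy π ρ zh r (wz π x zh r W) 0 S l κ (κ / r) (κ / r ^ 2) hb where
  gr := h.gr
  fr := h.hf
  sub := hS
  k1 := fun X _ => h.ext.d1 h.hr (by have := h.hK; omega) X
  k2 := fun X _ => h.ext.d2 h.hr (by have := h.hK; omega) X
  k3 := fun X _ => h.ext.d3' h.hr h.hK X
  k1le := h.κ8.trans (by norm_num)
  k2s := by
    have hr := h.hr
    have h1 := h.κ8
    have h2 := h.k0
    calc κ / r * Real.exp l ≤ κ / r * (4 * r) := by gcongr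
      _ = 4 * κ := by field_simp
      _ ≤ 1 / 2 := by linarith
  hb0 := hb0
  hb1 := hb1
  min := fun X hX => h.msys_ev (by
    rw [sub_zero] at hX
    have := h.hr
    linarith)
  nu := hnu

/-- on `Kz` the relative height at the scale `e^l` is at most `4 h₀ r e^{-l}`. -/
theorem nu_le_scale {l lo : ℝ} (hlo : lo ≤ l) {z : Euc k} (hz : z ∈ Kz π ρ x r W zh (h0 m Q ε)) :
    ‖(cz π ρ x r W zh).nu z‖ ≤ (4 * h0 m Q ε * r * Real.exp (-lo)) * Real.exp l := by
  have h1 := h.nu_le_Kz hz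
  have h2 : 0 ≤ 4 * h0 m Q ε * r := by
    have := h0_nonneg m Q ε
    have := h.hr
    positivity
  have h3 : 1 ≤ Real.exp (-lo) * Real.exp l := by
    rw [← Real.exp_add]
    exact Real.one_le_exp (by linarith)
  calc ‖(cz π ρ x r W zh).nu z‖ ≤ (4 * h0 m Q ε * r) * 1 := by linarith
    _ ≤ (4 * h0 m Q ε * r) * (Real.exp (-lo) * Real.exp l) := by gcongr
    _ = _ := by ring

/-- **128's hypotheses on `Kz`** at all scales `e^lo ≤ e^l ≤ 4 r`. -/
theorem hyK {l lo : ℝ} (hlo : lo ≤ l) (hl : Real.exp l ≤ 4 * r)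
    (hs : 4 * h0 m Q ε * r * Real.exp (-lo) ≤ 1) :
    GLK_128.Hy π ρ zh r (wz π x zh r W) 0 (Kz π ρ x r W zh (h0 m Q ε)) l κ (κ / r) (κ / r ^ 2)
      (4 * h0 m Q ε * r * Real.exp (-lo)) := by
  refine h.hy hl (fun p hp => (h.Kz_spec h.hs hp).1) ?_ hs fun z hz _ => h.nu_le_scale hlo hz
  have := h0_nonneg m Q ε
  have := h.hr
  positivity

theorem tau_nonneg {p : Euc k × L k} (hp : p ∈ Kz π ρ x r W zh (h0 m Q ε) ×ˢ G m k) :
    0 ≤ (cz π ρ x r W zh).tau p.1 p.2 := by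
  have H := h.gr.inv (foot π ρ zh r (wz π x zh r W) p.1) (Y := yy π ρ zh r (wz π x zh r W) p.1)
    (h.gr.norm_yy_lt (h.Kz_spec h.hs hp.1).1).le
  exact GLK_128.tau0_nonneg (frame_fr h.hf) H (GLK_128.pj_of_mem hp.2)

end Qx

/-! ### the frequency functions at a `Q`-point -/

open Crest.Agent.R234.GI_640 (g3 g31 g32)

/-- the part of `V` over `Kz` -/
def Vz (V : Measure (Euc k × L k)) (π : Euc k →L[ℝ] Euc m) (ρ : Euc k →L[ℝ] Euc n) (x : Euc k)
    (r : ℝ) (W : Euc m → Euc n) (zh : Euc k) (t : ℝ) : Measure (Euc k × L k) :=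
  GL_394.VK V (Kz π ρ x r W zh t)

def Iz (V : Measure (Euc k × L k)) (π : Euc k →L[ℝ] Euc m) (ρ : Euc k →L[ℝ] Euc n) (x : Euc k)
    (r : ℝ) (W : Euc m → Euc n) (zh : Euc k) (t : ℝ) : ℝ → ℝ :=
  GL_394.II (cz π ρ x r W zh) (Vz V π ρ x r W zh t) g31

def Ez (V : Measure (Euc k × L k)) (π : Euc k →L[ℝ] Euc m) (ρ : Euc k →L[ℝ] Euc n) (x : Euc k)
    (r : ℝ) (W : Euc m → Euc n) (zh : Euc k) (t : ℝ) (Q : ℕ) : ℝ → ℝ :=
  GL_394.EE (cz π ρ x r W zh) (Vz V π ρ x r W zh t) g3 Q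

def ez (V : Measure (Euc k × L k)) (π : Euc k →L[ℝ] Euc m) (ρ : Euc k →L[ℝ] Euc n) (x : Euc k)
    (r : ℝ) (W : Euc m → Euc n) (zh : Euc k) (t : ℝ) : ℝ → ℝ :=
  GL_394.ee (cz π ρ x r W zh) (Vz V π ρ x r W zh t) g3

def bz (V : Measure (Euc k × L k)) (π : Euc k →L[ℝ] Euc m) (ρ : Euc k →L[ℝ] Euc n) (x : Euc k)
    (r : ℝ) (W : Euc m → Euc n) (zh : Euc k) (t : ℝ) (Q : ℕ) : ℝ → ℝ :=
  GL_394.bb (cz π ρ x r W zh) (Vz V π ρ x r W zh t) g3 Q

/-- radial energy of 394's output, with the constants `c0, d0` of `KB` -/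
def Rz (V : Measure (Euc k × L k)) (π : Euc k →L[ℝ] Euc m) (ρ : Euc k →L[ℝ] Euc n) (x : Euc k)
    (r : ℝ) (W : Euc m → Euc n) (zh : Euc k) (t c0 d0 : ℝ) : ℝ → ℝ :=
  GL_394.RF (cz π ρ x r W zh) (Vz V π ρ x r W zh t) g31 6 c0 d0

namespace Qx

variable (h : Qx U V Q K x r π ρ u ε C W κ zh)

include h

theorem on : GL_394.On (Vz V π ρ x r W zh (h0 m Q ε)) m (Kz π ρ x r W zh (h0 m Q ε)) :=
  (h.loc (L := Real.log r) (by
    rw [Real.exp_log h.hr]
    have := h.hr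
    linarith)).toOn

theorem ez_nonneg (l : ℝ) : 0 ≤ ez V π ρ x r W zh (h0 m Q ε) l :=
  Fd_534.ee_nonneg h.on GL_394.pf_cubic.pr (fun p hp => h.tau_nonneg hp) l

theorem Iz_nonneg (l : ℝ) : 0 ≤ Iz V π ρ x r W zh (h0 m Q ε) l :=
  GL_394.II_nonneg h.ok h.on GL_394.pf_cubic.pr.anti l

theorem ez_mono {l l' : ℝ} (hl : l ≤ l') : ez V π ρ x r W zh (h0 m Q ε) l ≤
    Real.exp (m * (l' - l)) * ez V π ρ x r W zh (h0 m Q ε) l' := by
  refine (Fd_534.ee_mono h.ok h.on GL_394.pf_cubic.pr (fun p hp => h.tau_nonneg hp) hl).trans ?_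
  have h1 := h.ez_nonneg l'
  refine mul_le_mul_of_nonneg_right (Real.exp_le_exp.2 ?_) h1
  exact mul_le_mul_of_nonneg_right (by linarith) (by linarith)

theorem Iz_mono {l l' : ℝ} (hl : l ≤ l') : Iz V π ρ x r W zh (h0 m Q ε) l ≤
    Real.exp (m * (l' - l)) * Iz V π ρ x r W zh (h0 m Q ε) l' :=
  Fd_534.II_mono h.ok h.on GL_394.pf_cubic.pr (fun t ht => by
    unfold g32
    positivity) hl

end Qx

end Crest.Agent.R234.Qp_534
end
end

-- ▼ part R234/Fd2_534
section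

/-!
# Row 234, VF-F11 node, part 2 (helper534)

* `fd_of_pre3` : 471's full bootstrap (`Pre` + weak (F4)) with a frequency bound independent of the
  length of the window and of the accuracy.
* shift of the logarithmic scale and multiplication by a constant.
-/

set_option autoImplicit false

open Set Real Filter Topology

namespace Crest.Agent.R234.Fd_534

open Crest.Agent.R234.Nb_290 (StepData StepW)
open Crest.Agent.R234.Pin1_3 (FD NN)
open Crest.Agent.R234.Dbl_534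
open Crest.Agent.R234.LowF7_471 (Pre Thr4 fd_of_pre)

/-- **final real-variable form** of the frequency package at a `Q`-point. -/
structure Fin (q Cp Lw H1 hw et k0 c0 th : ℝ) : Prop where
  k : 0 < k0
  c : 0 < c0
  t : 0 < th
  main : ∀ (I E e b R : ℝ → ℝ) (lo t0 t1 del w : ℝ), lo ≤ t0 → t1 - lo ≤ Lw →
    t0 + hw ≤ t1 → t1 ≤ t0 + H1 → 0 ≤ del → del ≤ k0 → 0 ≤ w → w ≤ k0 * I t0 → 0 < I t0 →
    Pre lo t1 del w I E e b R →
    (∀ l ∈ Icc lo t1, -(th * I t0) ≤ E l - I l / 2) →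
    (∀ l ∈ Icc lo t1, e l ≤ exp (q * (t1 - l)) * e t1) →
    (∀ l ∈ Icc lo t1, I l ≤ exp (q * (t1 - l)) * I t1) →
    I t1 ≤ Cp * I t0 → e t1 ≤ Cp * I t0 →
    ∃ R' : ℝ → ℝ, (∀ l ∈ Icc lo t0, R l ≤ R' l) ∧ FD E I e b R' et lo t0 ∧
      (∀ l ∈ Icc lo t0, NN E I l ≤ Ctop q Cp H1) ∧ ∀ l ∈ Icc lo t0, c0 * I t0 ≤ I l

theorem fd_of_pre3 {q Cp Lw H1 hw et : ℝ} (hq : 0 ≤ q) (hCp : 1 ≤ Cp) (hLw : 0 ≤ Lw)
    (hhw : 0 < hw) (hH1 : 0 ≤ H1) (het : 0 < et) (het1 : et ≤ 1 / 2) :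
    ∃ k0 c0 th : ℝ, Fin q Cp Lw H1 hw et k0 c0 th := by
  set X : ℝ := exp (q * Lw) with hX
  have hX1 : 1 ≤ X := one_le_exp (by positivity)
  set Y : ℝ := exp (q * H1) with hY
  have hY1 : 1 ≤ Y := one_le_exp (by positivity)
  have hYC : 1 ≤ Y * Cp := by nlinarith
  set Ce : ℝ := 2 * X * Cp with hCe
  have hCe1 : 1 ≤ Ce := by rw [hCe]; nlinarith
  set C1 : ℝ := 6 * (Y * Cp) with hC1
  obtain ⟨k0, c0, th, hT⟩ :=
    fd_of_pre (C1 := C1) (Ce := Ce) (by rw [hC1]; linarith) hCe1 hLw hhw het het1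
  refine ⟨min k0 1, c0, th, lt_min hT.k one_pos, hT.c, hT.t, ?_⟩
  intro I E e b R lo t0 t1 del w hlo ht1 htw htH hdel hdelk hw hwk hIt0 h hlow he hI hI1 he1
  have ht0 : t0 ∈ Icc lo t1 := ⟨hlo, by linarith⟩
  have hk1 : min k0 1 * I t0 ≤ k0 * I t0 := by gcongr; exact min_le_left _ _
  have h4 := h.he t1 ⟨hlo.trans ht0.2, le_rfl⟩
  have h5 := h.hI t1 ⟨hlo.trans ht0.2, le_rfl⟩
  -- bounds with a general factor
  have gen : ∀ Z l, l ∈ Icc lo t1 → exp (q * (t1 - l)) ≤ Z → 0 ≤ Z →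
      e l ≤ Z * Cp * I t0 ∧ I l ≤ Z * Cp * I t0 := by
    intro Z l hl hZ hZ0
    constructor
    · calc e l ≤ exp (q * (t1 - l)) * e t1 := he l hl
        _ ≤ Z * (Cp * I t0) := by gcongr
        _ = Z * Cp * I t0 := by ring
    · calc I l ≤ exp (q * (t1 - l)) * I t1 := hI l hl
        _ ≤ Z * (Cp * I t0) := by gcongr
        _ = Z * Cp * I t0 := by ring
  have hsum : ∀ l ∈ Icc lo t1, e l + I l ≤ Ce * I t0 := by
    intro l hl
    have := gen X l hl (by
      apply exp_le_exp.2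
      apply mul_le_mul_of_nonneg_left _ hq
      linarith [hl.1]) (by linarith)
    have h2 : Ce * I t0 = X * Cp * I t0 + X * Cp * I t0 := by rw [hCe]; ring
    linarith [this.1, this.2]
  have hC8 : Ctop q Cp H1 = 8 * C1 := by
    rw [hC1, hY]; unfold Ctop; ring
  rw [hC8]
  refine (hT.main I E e b R lo t0 t1 del w hlo ht1 htw hdel
    (hdelk.trans (min_le_left _ _)) hw (hwk.trans hk1) hIt0 h hlow hsum ?_).2.2
  intro l hl
  have hl' : l ∈ Icc lo t1 := ⟨hlo.trans hl.1, hl.2⟩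
  have h1 := h.hE l hl'
  have h2 := h.hb l hl'
  have h3 := gen Y l hl' (by
      apply exp_le_exp.2
      apply mul_le_mul_of_nonneg_left _ hq
      linarith [hl.1]) (by linarith)
  have h5 := h.hI l hl'
  have h6 : del * I l ≤ 1 * I l := by
    gcongr
    exact hdelk.trans (min_le_right _ _)
  have h7 : w ≤ 1 * I t0 := hwk.trans (by gcongr; exact min_le_right _ _)
  have h8 : 1 * I t0 ≤ Y * Cp * I t0 := by gcongr
  have h9 : C1 * I t0 = 6 * (Y * Cp * I t0) := by rw [hC1]; ring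
  have h10 : 0 ≤ Y * Cp * I t0 := by positivity
  linarith [h3.1, h3.2]

/-- 290's `StepW` is a `Pre`. -/
theorem pre_of_stepW {C₀ a b₀ δ w : ℝ} {I E e b R : ℝ → ℝ} (h : StepW C₀ a b₀ δ w I E e b R) :
    Pre a b₀ δ w I E e b R :=
  ⟨h.hI, h.he, h.hR, h.hE, h.dI, h.dE, h.hCS, h.hb⟩

/-! ### shift and rescaling of `FD` -/

theorem FD.shift {E I e b R : ℝ → ℝ} {η l₀ l₁ : ℝ} (h : FD E I e b R η l₀ l₁) {κ : ℝ} (hκ : 0 < κ)
    (s : ℝ) : FD (fun l => κ * E (l + s)) (fun l => κ * I (l + s)) (fun l => κ * e (l + s))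
      (fun l => κ * b (l + s)) (fun l => κ * R (l + s)) η (l₀ - s) (l₁ - s) := by
  have hm : ∀ l ∈ Icc (l₀ - s) (l₁ - s), l + s ∈ Icc l₀ l₁ := fun l hl =>
    ⟨by linarith [hl.1], by linarith [hl.2]⟩
  have hsh : ∀ (f : ℝ → ℝ) (d l : ℝ), HasDerivAt f d (l + s) →
      HasDerivAt (fun l => κ * f (l + s)) (κ * d) l := by
    intro f d l hf
    have h1 : HasDerivAt (fun l : ℝ => l + s) 1 l := (hasDerivAt_id l).add_const s
    have h2 := (hf.comp l h1).const_mul κ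
    simpa using h2
  have hab : ∀ l ε : ℝ, |ε| ≤ η * (E (l + s) + |b (l + s)| + I (l + s)) →
      |κ * ε| ≤ η * (κ * E (l + s) + |κ * b (l + s)| + κ * I (l + s)) := by
    intro l ε hε
    rw [abs_mul, abs_mul, abs_of_pos hκ]
    calc κ * |ε| ≤ κ * (η * (E (l + s) + |b (l + s)| + I (l + s))) := by gcongr
      _ = _ := by ring
  refine ⟨?_, ?_, ?_, ?_, ?_, ?_, ?_⟩
  · intro l hl
    exact mul_pos hκ (h.pos _ (hm l hl))
  · intro l hl
    obtain ⟨ε, h1, h2⟩ := h.dE _ (hm l hl)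
    exact ⟨κ * ε, hab l ε h1, (hsh _ _ l h2).congr_deriv (by ring)⟩
  · intro l hl
    obtain ⟨ε, h1, h2⟩ := h.dI _ (hm l hl)
    exact ⟨κ * ε, hab l ε h1, (hsh _ _ l h2).congr_deriv (by ring)⟩
  · intro l hl
    have := h.eE _ (hm l hl)
    linear_combination κ * this
  · intro l hl
    obtain ⟨ε, h1, h2⟩ := h.cs _ (hm l hl)
    refine ⟨κ * ε, hab l ε h1, ?_⟩
    calc (κ * e (l + s) + κ * ε) ^ 2 = κ ^ 2 * (e (l + s) + ε) ^ 2 := by ring
      _ ≤ κ ^ 2 * (I (l + s) * R (l + s)) := by gcongr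
      _ = _ := by ring
  · intro l hl
    have := h.low _ (hm l hl)
    nlinarith
  · intro l hl
    have := h.bu _ (hm l hl)
    nlinarith

theorem NN_shift (E I : ℝ → ℝ) {κ : ℝ} (hκ : 0 < κ) (s l : ℝ) :
    NN (fun l => κ * E (l + s)) (fun l => κ * I (l + s)) l = NN E I (l + s) := by
  unfold NN
  have : κ ≠ 0 := hκ.ne'
  field_simp

end Crest.Agent.R234.Fd_534
end

-- ▼ part R234/Fd3_534
section

/-!
# Row 234, VF-F11 node, part 3 (helper534): the real-variable assembly at a `Q`-point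

290's `StepW` on the window (no lower bound of the frequency, no positivity), the top bounds
`e(b₀) ≤ C₁ I(b₀)`, `0 < I(b₀)`, and the weak form of (F4) on `[lo, t₁]` give
`I(b₀) ≤ e^G I(t₀)` and the pinching data `FD` on `[lo, t₀]` with a frequency bound `Cf` independent of the
length of the window and of the accuracy.
-/

set_option autoImplicit false

open Set Real Filter Topology

namespace Crest.Agent.R234.Fd_534

open Crest.Agent.R234.Nb_290 (StepData StepW Fr)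
open Crest.Agent.R234.Pin1_3 (FD NN)
open Crest.Agent.R234.Dbl_534
open Crest.Agent.R234.LowF7_471 (Pre)

/-- the collar constant of the top window. -/
noncomputable def KT (C1 : ℝ) : ℝ := 32 + 8 * (C1 + 1)

/-- the doubling exponent of the top window. -/
noncomputable def GT (C1 C2 H1 : ℝ) : ℝ := (KT C1 + (120 * C2 + 61)) * H1 + 5 / 4 + 40 * C2

/-- the frequency bound of the whole window. -/
noncomputable def Cf (q C1 C2 H1 : ℝ) : ℝ := Ctop q (exp (q * H1 + GT C1 C2 H1) * C1) H1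


/-- thresholds of the assembly. -/
structure Asm (q C1 C2 Lw H1 hw et k0 c0 th : ℝ) : Prop where
  k : 0 < k0
  c : 0 < c0
  t : 0 < th
  dbl : ∀ (I E e b R : ℝ → ℝ) (lo t0 b0 del w : ℝ), lo ≤ t0 → t0 ≤ b0 → b0 ≤ t0 + H1 →
    0 ≤ del → del ≤ k0 → 0 ≤ w → w ≤ k0 * I b0 → 0 < I b0 → e b0 ≤ C1 * I b0 →
    StepW C2 (lo - 1) b0 del w I E e b R → I b0 ≤ exp (GT C1 C2 H1) * I t0
  main : ∀ (I E e b R : ℝ → ℝ) (lo t0 t1 b0 del w : ℝ), lo ≤ t0 → b0 - lo ≤ Lw →
    t0 + hw ≤ t1 → t1 ≤ b0 → b0 ≤ t0 + H1 →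
    0 ≤ del → del ≤ k0 → 0 ≤ w → w ≤ k0 * I b0 → 0 < I b0 → e b0 ≤ C1 * I b0 →
    StepW C2 (lo - 1) b0 del w I E e b R →
    (∀ l l', lo ≤ l → l ≤ l' → l' ≤ b0 → e l ≤ exp (q * (l' - l)) * e l') →
    (∀ l l', lo ≤ l → l ≤ l' → l' ≤ b0 → I l ≤ exp (q * (l' - l)) * I l') →
    (∀ l ∈ Icc lo t1, -(th * I t0) ≤ E l - I l / 2) →
    I b0 ≤ exp (GT C1 C2 H1) * I t0 ∧
    ∃ R' : ℝ → ℝ, (∀ l ∈ Icc lo t0, R l ≤ R' l) ∧ FD E I e b R' et lo t0 ∧
      (∀ l ∈ Icc lo t0, NN E I l ≤ Cf q C1 C2 H1) ∧ ∀ l ∈ Icc lo t0, c0 * I t0 ≤ I l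

/-- **assembly**. -/
theorem asm {q C1 C2 Lw H1 hw et : ℝ} (hq : 0 ≤ q) (hC1 : 1 ≤ C1) (hC2 : 1 ≤ C2) (hLw : 0 ≤ Lw)
    (hH1 : 0 ≤ H1) (hhw : 0 < hw) (het : 0 < et) (het1 : et ≤ 1 / 2) :
    ∃ k0 c0 th : ℝ, Asm q C1 C2 Lw H1 hw et k0 c0 th := by
  set G : ℝ := GT C1 C2 H1 with hG
  have hG0 : 0 ≤ G := by rw [hG]; unfold GT KT; positivity
  set Cp : ℝ := exp (q * H1 + G) * C1 with hCp
  have hE1 : 1 ≤ exp (q * H1 + G) := one_le_exp (by positivity)
  have hCp1 : 1 ≤ Cp := by rw [hCp]; exact one_le_mul_of_one_le_of_one_le hE1 hC1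
  obtain ⟨k1, c1, th, hF⟩ := fd_of_pre3 (q := q) (Cp := Cp) (Lw := Lw) (H1 := H1) (hw := hw)
    (et := et) hq hCp1 hLw hhw hH1 het het1
  have hk1 := hF.k
  set Y : ℝ := min (1 / 100) (1 / (1100 * (H1 + 1))) with hY
  have hY0 : 0 < Y := lt_min (by norm_num) (by positivity)
  have hYle : Y ≤ 1 / 100 := min_le_left _ _
  have hYH : Y * H1 ≤ 1 / 1100 := by
    have h1 : Y ≤ 1 / (1100 * (H1 + 1)) := min_le_right _ _
    calc Y * H1 ≤ 1 / (1100 * (H1 + 1)) * H1 := mul_le_mul_of_nonneg_right h1 hH1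
      _ ≤ 1 / (1100 * (H1 + 1)) * (H1 + 1) := by gcongr; linarith
      _ = 1 / 1100 := by field_simp
  set k0 : ℝ := min (1 / 4) (min (k1 * exp (-G)) (Y / (1 + exp (G + 1)))) with hk0
  have hk0pos : 0 < k0 := lt_min (by norm_num) (lt_min (by positivity) (by positivity))
  have hk04 : k0 ≤ 1 / 4 := min_le_left _ _
  have hk0k : k0 ≤ k1 * exp (-G) := (min_le_right _ _).trans (min_le_left _ _)
  have hk0k1 : k0 ≤ k1 := by
    refine hk0k.trans ?_
    have : exp (-G) ≤ 1 := exp_le_one_iff.2 (by linarith)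
    nlinarith
  have hk0Y : k0 * (1 + exp (G + 1)) ≤ Y := by
    have : k0 ≤ Y / (1 + exp (G + 1)) := (min_le_right _ _).trans (min_le_right _ _)
    rwa [le_div_iff₀ (by positivity)] at this
  have hK32 : 32 ≤ KT C1 := by unfold KT; linarith
  have hKpos : 0 < KT C1 := by linarith
  have hK1 : 1 / KT C1 ≤ 1 := by
    rw [div_le_one hKpos]; linarith
  have hdblall : ∀ (I E e b R : ℝ → ℝ) (lo t0 b0 del w : ℝ), lo ≤ t0 → t0 ≤ b0 → b0 ≤ t0 + H1 →
      0 ≤ del → del ≤ k0 → 0 ≤ w → w ≤ k0 * I b0 → 0 < I b0 → e b0 ≤ C1 * I b0 →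
      StepW C2 (lo - 1) b0 del w I E e b R → I b0 ≤ exp (GT C1 C2 H1) * I t0 := by
    intro I E e b R lo t0 b0 del w hlo htb hbH hdel hdelk hw0 hwk hIb heb hS
    have hb0 : b0 ∈ Icc (lo - 1) b0 := ⟨by linarith, le_rfl⟩
    -- frequency at the top
    have hN0 : 8 * Fr E I b0 ≤ KT C1 := by
      have h1 := hS.hE b0 hb0
      have h2 := hS.hb b0 hb0
      have h3 : Fr E I b0 ≤ C1 + 1 := by
        unfold Fr
        rw [div_le_iff₀ hIb]
        have h4 : del * I b0 ≤ 1 / 4 * I b0 := mul_le_mul_of_nonneg_right (hdelk.trans hk04) hIb.le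
        have h5 : k0 * I b0 ≤ 1 / 4 * I b0 := mul_le_mul_of_nonneg_right hk04 hIb.le
        have h6 : (C1 + 1) * I b0 = C1 * I b0 + I b0 := by ring
        linarith
      unfold KT
      linarith
    have hy : del + w * exp (G + 1) / I b0 ≤ Y := by
      have h1 : w * exp (G + 1) / I b0 ≤ k0 * exp (G + 1) := by
        rw [div_le_iff₀ hIb]
        calc w * exp (G + 1) ≤ (k0 * I b0) * exp (G + 1) :=
              mul_le_mul_of_nonneg_right hwk (exp_pos _).le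
          _ = _ := by ring
      have h2 : k0 * (1 + exp (G + 1)) = k0 + k0 * exp (G + 1) := by ring
      linarith
    have hwin := hS.window6 (a := t0) hC2 hdel hw0 (y := Y) (K := KT C1) (G := G) hK32 hYle
      (by linarith) htb (by
        calc Y * (b0 - t0) ≤ Y * H1 := mul_le_mul_of_nonneg_left (by linarith) hY0.le
          _ ≤ _ := hYH) (by
        rw [hG]
        unfold GT
        have h1 : (KT C1 + (120 * C2 + 61)) * (b0 - t0) ≤ (KT C1 + (120 * C2 + 61)) * H1 :=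
          mul_le_mul_of_nonneg_left (by linarith) (by positivity)
        linarith) hy hN0 hIb
    exact hwin.2.1 t0 ⟨le_rfl, htb⟩
  refine ⟨k0, c1, th, hk0pos, hF.c, hF.t, hdblall, ?_⟩
  intro I E e b R lo t0 t1 b0 del w hlo hLw' ht1 ht1b hbH hdel hdelk hw0 hwk hIb heb hS hem hIm hF4
  have htb : t0 ≤ b0 := by linarith
  have hb0 : b0 ∈ Icc (lo - 1) b0 := ⟨by linarith, le_rfl⟩
  have hdbl : I b0 ≤ exp G * I t0 :=
    hdblall I E e b R lo t0 b0 del w hlo htb hbH hdel hdelk hw0 hwk hIb heb hS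
  have hIt0 : 0 < I t0 := by
    by_contra hcon
    have : exp G * I t0 ≤ 0 := mul_nonpos_of_nonneg_of_nonpos (exp_pos _).le (not_lt.1 hcon)
    linarith
  refine ⟨hdbl, ?_⟩
  have hIb0 : 0 ≤ I b0 := hIb.le
  have heb0 : 0 ≤ e b0 := hS.he b0 hb0
  refine hF.main I E e b R lo t0 t1 del w hlo (by linarith) ht1 (by linarith) hdel
    (hdelk.trans hk0k1) hw0 ?_ hIt0 (pre_of_stepW (hS.mono (by linarith) ht1b)) hF4
    (fun l hl => hem l t1 hl.1 hl.2 ht1b) (fun l hl => hIm l t1 hl.1 hl.2 ht1b) ?_ ?_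
  · calc w ≤ k0 * I b0 := hwk
      _ ≤ (k1 * exp (-G)) * (exp G * I t0) :=
        mul_le_mul hk0k hdbl hIb0 (by positivity)
      _ = k1 * (exp (-G) * exp G) * I t0 := by ring
      _ = k1 * I t0 := by rw [← exp_add]; simp
  · have h1 := hIm t1 b0 (by linarith) ht1b le_rfl
    calc I t1 ≤ exp (q * (b0 - t1)) * I b0 := h1
      _ ≤ exp (q * H1) * (exp G * I t0) := by
        gcongr
        linarith
      _ = exp (q * H1 + G) * I t0 := by rw [exp_add]; ring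
      _ ≤ exp (q * H1 + G) * C1 * I t0 := by
        have h2 : exp (q * H1 + G) * 1 ≤ exp (q * H1 + G) * C1 := by gcongr
        have h3 := mul_le_mul_of_nonneg_right h2 hIt0.le
        linarith
  · have h1 := hem t1 b0 (by linarith) ht1b le_rfl
    calc e t1 ≤ exp (q * (b0 - t1)) * e b0 := h1
      _ ≤ exp (q * H1) * (C1 * (exp G * I t0)) := by
        refine mul_le_mul (exp_le_exp.2 (mul_le_mul_of_nonneg_left (by linarith) hq)) ?_ heb0
          (exp_pos _).le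
        exact heb.trans (mul_le_mul_of_nonneg_left hdbl (by linarith))
      _ = exp (q * H1 + G) * C1 * I t0 := by rw [exp_add]; ring

end Crest.Agent.R234.Fd_534
end

-- ▼ part R234/Fd4_534
section

/-!
# Row 234, VF-F11 node, part 4 (helper534): the window `[lm, -3]` of `Pin8_3.CtrK`

`fd_core` : functions `II, EE, ee, bb, RR` of the logarithmic scale with 290's `StepW` on
`[log r + lm - 2, log r + log 2]`, top bounds and the weak form of (F4) give the pinching data `FD` on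
`[lm, -3]` for the functions `r⁻² f (l + log r - log (4/3))`.
-/

set_option autoImplicit false

open Set Real Filter Topology

namespace Crest.Agent.R234.Fd_534

open Crest.Agent.R234.Nb_290 (StepData StepW Fr)
open Crest.Agent.R234.Pin1_3 (FD NN)
open Crest.Agent.R234.Dbl_534

/-- the shift `l ↦ l + log r - log (4/3)` -/
noncomputable def sh (r : ℝ) : ℝ := log r - log (4 / 3)

/-- the functions of the pinching data -/
noncomputable def rs (r : ℝ) (f : ℝ → ℝ) (l : ℝ) : ℝ := (r ^ 2)⁻¹ * f (l + sh r)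

theorem FD.mono_eta {E I e b R : ℝ → ℝ} {η η' l₀ l₁ : ℝ} (h : FD E I e b R η l₀ l₁) (hη : η ≤ η')
    (hη0 : η ≤ 1) : FD E I e b R η' l₀ l₁ := by
  have hE : ∀ l ∈ Icc l₀ l₁, 0 ≤ E l := by
    intro l hl
    have h1 := h.low l hl
    have h2 := h.pos l hl
    nlinarith
  have hS : ∀ l ∈ Icc l₀ l₁, 0 ≤ E l + |b l| + I l := by
    intro l hl
    have h1 := hE l hl
    have h2 := h.pos l hl
    have h3 := abs_nonneg (b l)
    linarith
  refine ⟨h.pos, ?_, ?_, h.eE, ?_, ?_, ?_⟩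
  · intro l hl
    obtain ⟨ε, h1, h2⟩ := h.dE l hl
    exact ⟨ε, h1.trans (mul_le_mul_of_nonneg_right hη (hS l hl)), h2⟩
  · intro l hl
    obtain ⟨ε, h1, h2⟩ := h.dI l hl
    exact ⟨ε, h1.trans (mul_le_mul_of_nonneg_right hη (hS l hl)), h2⟩
  · intro l hl
    obtain ⟨ε, h1, h2⟩ := h.cs l hl
    exact ⟨ε, h1.trans (mul_le_mul_of_nonneg_right hη (hS l hl)), h2⟩
  · intro l hl
    have h1 := h.low l hl
    have h2 := h.pos l hl
    nlinarith
  · intro l hl
    exact (h.bu l hl).trans (mul_le_mul_of_nonneg_right hη (hE l hl))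

/-- **the per-centre frequency package**. -/
theorem fd_core (m : ℕ) {C1 C2 lm η : ℝ} (hC1 : 1 ≤ C1) (hC2 : 1 ≤ C2) (hlm : lm < -3)
    (hη : 0 < η) : ∃ k0 : ℝ, 0 < k0 ∧
    ∀ (I E e b R : ℝ → ℝ) (r del w : ℝ), 0 < r →
    0 ≤ del → del ≤ k0 → 0 ≤ w → w ≤ k0 * I (log r + log 2) → 0 < I (log r + log 2) →
    e (log r + log 2) ≤ C1 * I (log r + log 2) →
    StepW C2 (log r + lm - 2) (log r + log 2) del w I E e b R →
    (∀ l l', log r + lm - 2 ≤ l → l ≤ l' → l' ≤ log r + log 2 → e l ≤ exp (m * (l' - l)) * e l') →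
    (∀ l l', log r + lm - 2 ≤ l → l ≤ l' → l' ≤ log r + log 2 → I l ≤ exp (m * (l' - l)) * I l') →
    (∀ l ∈ Icc (log r + lm - 2) (log r - 3), -(k0 * I (log r + log 2)) ≤ E l - I l / 2) →
    I (log r + log 2) ≤ exp (GT C1 C2 5) * I (-3 + sh r) ∧
    NN (rs r E) (rs r I) (-3) ≤ Cf m C1 C2 5 ∧
    ∃ R' : ℝ → ℝ, (∀ l ∈ Icc lm (-3), rs r R l ≤ R' l) ∧
      FD (rs r E) (rs r I) (rs r e) (rs r b) R' η lm (-3) := by
  have hl43 : 1 / 4 ≤ log (4 / 3) := by
    have := one_sub_inv_le_log_of_pos (show (0:ℝ) < 4 / 3 by norm_num)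
    norm_num at this ⊢
    linarith
  have hl43' : log (4 / 3) ≤ 1 / 3 := by
    have := log_le_sub_one_of_pos (show (0:ℝ) < 4 / 3 by norm_num)
    linarith
  have hl2 : 0 < log 2 := log_pos (by norm_num)
  have hl2' : log 2 ≤ 7 / 10 := by
    have := log_two_lt_d9
    linarith
  obtain ⟨k1, c1, th, hA⟩ := asm (q := (m : ℝ)) (C1 := C1) (C2 := C2) (Lw := 3 - lm) (H1 := 5)
    (hw := 1 / 16) (et := min η (1 / 2)) (Nat.cast_nonneg m) hC1 hC2 (by linarith) (by norm_num)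
    (by norm_num) (lt_min hη (by norm_num)) (min_le_right _ _)
  set G : ℝ := GT C1 C2 5 with hG
  refine ⟨min k1 (th * exp (-G)), lt_min hA.k (mul_pos hA.t (exp_pos _)), ?_⟩
  intro I E e b R r del w hr hdel hdelk hw hwk hIb heb hS hem hIm hF4
  set b0 : ℝ := log r + log 2 with hb0
  set t0 : ℝ := -3 + sh r with ht0
  have ht0' : t0 = log r - 3 - log (4 / 3) := by rw [ht0, sh]; ring
  set lo : ℝ := lm + sh r with hlo
  have hlo' : lo = log r + lm - log (4 / 3) := by rw [hlo, sh]; ring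
  have hthI : ∀ l ∈ Icc lo (t0 + 1 / 16), -(th * exp (-G) * I b0) ≤ E l - I l / 2 := by
    intro l hl
    have h1 := hF4 l ⟨by rw [hlo'] at hl; linarith [hl.1], by rw [ht0'] at hl; linarith [hl.2]⟩
    have h2 : min k1 (th * exp (-G)) * I b0 ≤ th * exp (-G) * I b0 :=
      mul_le_mul_of_nonneg_right (min_le_right _ _) hIb.le
    linarith
  have hS' : StepW C2 (lo - 1) b0 del w I E e b R := hS.mono (by rw [hlo']; linarith) le_rfl
  -- first pass: the doubling, with the (F4) input replaced through the window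
  have hwk1 : w ≤ k1 * I b0 := hwk.trans (mul_le_mul_of_nonneg_right (min_le_left _ _) hIb.le)
  have key := hA.dbl I E e b R lo t0 b0 del w (by rw [hlo', ht0']; linarith)
    (by rw [ht0']; linarith) (by rw [ht0']; linarith) hdel (hdelk.trans (min_le_left _ _)) hw hwk1
    hIb heb hS'
  have hmain := hA.main I E e b R lo t0 (t0 + 1 / 16) b0 del w (by rw [hlo', ht0']; linarith)
    (by rw [hlo']; linarith) le_rfl (by rw [ht0']; linarith) (by rw [ht0']; linarith) hdel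
    (hdelk.trans (min_le_left _ _)) hw hwk1 hIb heb hS'
    (fun l l' h1 h2 h3 => hem l l' (by rw [hlo'] at h1; linarith) h2 h3)
    (fun l l' h1 h2 h3 => hIm l l' (by rw [hlo'] at h1; linarith) h2 h3) (by
      intro l hl
      have h1 := hthI l hl
      have h2 : th * exp (-G) * I b0 ≤ th * exp (-G) * (exp G * I t0) :=
        mul_le_mul_of_nonneg_left key (mul_nonneg hA.t.le (exp_pos _).le)
      have h3 : th * exp (-G) * (exp G * I t0) = th * I t0 := by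
        have : exp (-G) * exp G = 1 := by rw [← exp_add]; simp
        calc th * exp (-G) * (exp G * I t0) = th * (exp (-G) * exp G) * I t0 := by ring
          _ = _ := by rw [this, mul_one]
      linarith)
  obtain ⟨h1, R', h2, h3, h4, -⟩ := hmain
  have hr2 : 0 < (r ^ 2)⁻¹ := by positivity
  refine ⟨h1, ?_, fun l => (r ^ 2)⁻¹ * R' (l + sh r), ?_, ?_⟩
  · have h5 : NN (rs r E) (rs r I) (-3) = NN E I (-3 + sh r) := NN_shift E I hr2 (sh r) (-3)
    rw [h5]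
    exact h4 t0 ⟨by rw [hlo', ht0']; linarith, le_rfl⟩
  · intro l hl
    have h5 := h2 (l + sh r) ⟨by rw [hlo]; linarith [hl.1], by rw [ht0]; linarith [hl.2]⟩
    exact mul_le_mul_of_nonneg_left h5 hr2.le
  · have h5 := FD.shift h3 hr2 (sh r)
    have h6 : lo - sh r = lm := by rw [hlo]; ring
    have h7 : t0 - sh r = -3 := by rw [ht0]; ring
    rw [h6, h7] at h5
    exact FD.mono_eta h5 (min_le_left _ _) ((min_le_right _ _).trans (by norm_num))

end Crest.Agent.R234.Fd_534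
end

-- ▼ part R234/Qp4_534

/-!
# Row 234, node QP-CH (helper534), part 4: the frequency package at a `Q`-point from the one-level
inputs (sup bounds, pointwise bounds, total variation, soft sign, (F4), top bounds)
-/

set_option autoImplicit false
set_option linter.unusedVariables false
set_option linter.unusedSectionVars false

open MeasureTheory Filter Topology Set Metric
open scoped ENNReal NNReal ContDiff InnerProductSpace
open Crest.GeometryTopology.Submanifold Crest.Agent.R234.Vf_884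
open Crest.Agent.R234.Main_456 Crest.Agent.R234.F11_435
open Crest.Agent.R234.Gi_456
open Crest.Agent.R234.GI_640 (g3 g31 g32)
open Crest.Agent.R234.GL_394 (Pf pf_cubic KB TV)
open Crest.Agent.R234.Fd_534 (GT Cf rs sh fd_core)
open Crest.Agent.R234.Pin1_3 (FD NN)

noncomputable section

namespace Crest.Agent.R234.Qp_534

variable {m n k : ℕ}

/-- the top level of the sup bounds, `e^{cTop} = 2 e^{1/4} r` -/
def cTop (r : ℝ) : ℝ := Real.log r + Real.log 2 + 1 / 4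

/-- the level of the doubling, `e^{bTop} = 2 r` -/
def bTop (r : ℝ) : ℝ := Real.log r + Real.log 2

theorem cTop_sub (r : ℝ) : cTop r - 1 / 4 = bTop r := by unfold cTop bTop; ring

theorem exp_cTop {r : ℝ} (hr : 0 < r) : Real.exp (cTop r) ≤ 3 * r := by
  unfold cTop
  rw [Real.exp_add, Real.exp_add, Real.exp_log hr, Real.exp_log (by norm_num)]
  have h1 : Real.exp (1 / 4) ≤ 3 / 2 := by
    have h2 : Real.exp (1 / 4) ^ 4 = Real.exp 1 := by
      rw [← Real.exp_nat_mul]; norm_num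
    have h3 := Real.exp_one_lt_d9
    by_contra hcon
    push Not at hcon
    have h4 : (3 / 2 : ℝ) ^ 4 < Real.exp (1 / 4) ^ 4 := pow_lt_pow_left₀ hcon (by norm_num) (by norm_num)
    rw [h2] at h4
    norm_num at h4
    linarith
  nlinarith

/-- the one-level inputs at a `Q`-point. `lo` = bottom of the window. -/
structure Inp (U : Set (Euc k)) (V : Measure (Euc k × L k)) (Q : ℕ) (x : Euc k) (r : ℝ)
    (π : Euc k →L[ℝ] Euc m) (ρ : Euc k →L[ℝ] Euc n) (W : Euc m → Euc n) (zh : Euc k)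
    (t lo κ A C0 Cs Ct C1 θ : ℝ) : Prop where
  /-- 290's inputs: sup bounds of 685, pointwise bounds of 128, total variation of 618 -/
  gl : ∃ zN : Euc k → Euc k, Ng_290.Gl (cz π ρ x r W zh) (Tz π ρ x r W zh) univ U
    (Kz π ρ x r W zh t) V Q A C0 Cs Ct κ (Real.log (4 * r)) (cTop r) lo 4 zN
  /-- soft sign of 354 -/
  sg : ∀ l ∈ Icc lo (bTop r), bz V π ρ x r W zh t Q l ≤
    θ * Iz V π ρ x r W zh t l + θ * Iz V π ρ x r W zh t (bTop r)
  /-- top bounds of 435 -/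
  pos : 0 < Iz V π ρ x r W zh t (bTop r)
  eb : ez V π ρ x r W zh t (bTop r) ≤ C1 * Iz V π ρ x r W zh t (bTop r)
  Ic : Iz V π ρ x r W zh t (cTop r) ≤ C1 * Iz V π ρ x r W zh t (bTop r)
  /-- smallness of the height -/
  small : Real.exp (-2 * cTop r) * Iz V π ρ x r W zh t (cTop r) ≤ θ
  /-- (F4) of 471 -/
  f4 : ∀ l ∈ Icc lo (Real.log r - 3), -(θ * Iz V π ρ x r W zh t (bTop r)) ≤
    Ez V π ρ x r W zh t Q l - Iz V π ρ x r W zh t l / 2

/-- the constant of `StepW` -/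
def C2s (Ct : ℝ) : ℝ := max 1 (Ng_290.C2 Ct 6)

/-- the `d0` of the radial energy -/
def dz (V : Measure (Euc k × L k)) (x : Euc k) (r : ℝ)
    (π : Euc k →L[ℝ] Euc m) (ρ : Euc k →L[ℝ] Euc n) (W : Euc m → Euc n) (zh : Euc k)
    (t κ A Cs T : ℝ) : ℝ :=
  A * κ * √(Ng_290.Ph m Cs 3 T * 4 ^ (m + 2) *
    (Real.exp (-2 * cTop r) * Iz V π ρ x r W zh t (cTop r)))

/-- **the frequency package at a `Q`-point** (half `fd, top, sep` of `Pin8_3.CtrK`). -/
theorem ctr_fd (hm : 1 ≤ m) {A C0 Cs Ct C1 lm η : ℝ} (hA : 0 ≤ A) (hC0 : 0 ≤ C0) (hCs : 0 ≤ Cs)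
    (hCt : 0 ≤ Ct) (hC1 : 1 ≤ C1) (hlm : lm < -3) (hη : 0 < η) : ∃ θ : ℝ, 0 < θ ∧
    ∀ (k n : ℕ) (U : Set (Euc k)) (V : Measure (Euc k × L k)) (Q K : ℕ) (x : Euc k) (r : ℝ)
      (π : Euc k →L[ℝ] Euc m) (ρ : Euc k →L[ℝ] Euc n) (u : Euc m → Euc n) (ε C : ℝ)
      (W : Euc m → Euc n) (κ : ℝ) (zh : Euc k), Qx U V Q K x r π ρ u ε C W κ zh → κ ≤ θ →
      Inp U V Q x r π ρ W zh (h0 m Q ε) (Real.log r + lm - 2) κ A C0 Cs Ct C1 θ →
      Iz V π ρ x r W zh (h0 m Q ε) (bTop r) ≤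
        Real.exp (GT C1 (C2s Ct) 5) * Iz V π ρ x r W zh (h0 m Q ε) (-3 + sh r) ∧
      NN (rs r (Ez V π ρ x r W zh (h0 m Q ε) Q)) (rs r (Iz V π ρ x r W zh (h0 m Q ε))) (-3) ≤
        Cf m C1 (C2s Ct) 5 ∧
      ∃ R' : ℝ → ℝ, (∀ l ∈ Icc lm (-3), rs r (Rz V π ρ x r W zh (h0 m Q ε) (A * κ)
          (dz V x r π ρ W zh (h0 m Q ε) κ A Cs (3 - lm))) l ≤ R' l) ∧
        FD (rs r (Ez V π ρ x r W zh (h0 m Q ε) Q)) (rs r (Iz V π ρ x r W zh (h0 m Q ε)))
          (rs r (ez V π ρ x r W zh (h0 m Q ε))) (rs r (bz V π ρ x r W zh (h0 m Q ε) Q)) R' η lm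
          (-3) := by
  have hC2 : 1 ≤ C2s Ct := le_max_left _ _
  obtain ⟨k0, hk0, hcore⟩ := fd_core m hC1 hC2 hlm hη
  have hCg0 : 0 ≤ GL_394.Cg m 6 C0 := Ng_290.Cg_nonneg (by norm_num) hC0
  set P : ℝ := Ng_290.PF m A 6 C0 Cs 3 Ct (3 - lm) * 4 ^ (2 * m + 10) with hP
  set Pp : ℝ := Ng_290.Ph m Cs 3 (3 - lm) * 4 ^ (m + 2) with hPp
  have hPh0 : 0 ≤ Ng_290.Ph m Cs 3 (3 - lm) := by unfold Ng_290.Ph; positivity
  have hPt0 : 0 ≤ Ng_290.Pt m Cs 3 := by unfold Ng_290.Pt; positivity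
  have hPtr := Real.rpow_nonneg hPt0 (1 / (m : ℝ))
  have hP0 : 0 ≤ P := by
    rw [hP]
    unfold Ng_290.PF Ng_290.Pw Ng_290.Ps
    positivity
  have hPp0 : 0 ≤ Pp := by rw [hPp]; positivity
  have hN2 : 0 ≤ Ng_290.C2 Ct 6 := Ng_290.C2_nonneg hCt (by norm_num)
  set D : ℝ := (GL_394.Cg m 6 C0 + Ng_290.C2 Ct 6) * (2 * A) + 1 with hD
  have hD1 : 1 ≤ D := by
    rw [hD]
    have : 0 ≤ (GL_394.Cg m 6 C0 + Ng_290.C2 Ct 6) * (2 * A) := by positivity
    linarith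
  -- the threshold
  set θ : ℝ := min (min (min 1 (k0 / D)) (min (1 / (A + 1)) (1 / (Pp + 1))))
    (min (k0 / 2) (min ((k0 / (2 * (P * C1 + 1))) ^ (m + 2)) (1 / (4 * Real.exp 2)))) with hθ
  have hθ0 : 0 < θ := by
    refine lt_min (lt_min (lt_min one_pos ?_) (lt_min ?_ ?_)) (lt_min ?_ (lt_min ?_ ?_)) <;>
      positivity
  have t1 : θ ≤ 1 := (min_le_left _ _).trans ((min_le_left _ _).trans (min_le_left _ _))
  have t2 : θ ≤ k0 / D := (min_le_left _ _).trans ((min_le_left _ _).trans (min_le_right _ _))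
  have t3 : θ ≤ 1 / (A + 1) := (min_le_left _ _).trans ((min_le_right _ _).trans (min_le_left _ _))
  have t4 : θ ≤ 1 / (Pp + 1) :=
    (min_le_left _ _).trans ((min_le_right _ _).trans (min_le_right _ _))
  have t5 : θ ≤ k0 / 2 := (min_le_right _ _).trans (min_le_left _ _)
  have t6 : θ ≤ (k0 / (2 * (P * C1 + 1))) ^ (m + 2) :=
    (min_le_right _ _).trans ((min_le_right _ _).trans (min_le_left _ _))
  have t7 : θ ≤ 1 / (4 * Real.exp 2) :=
    (min_le_right _ _).trans ((min_le_right _ _).trans (min_le_right _ _))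
  refine ⟨θ, hθ0, ?_⟩
  intro k n U V Q K x r π ρ u ε C W κ zh h hκ H
  have hr := h.hr
  have hκ0 := h.k0
  set lo : ℝ := Real.log r + lm - 2 with hlo
  set I := Iz V π ρ x r W zh (h0 m Q ε) with hI
  have hIb := H.pos
  obtain ⟨zN, hgl⟩ := H.gl
  have hl2 : 0 < Real.log 2 := Real.log_pos (by norm_num)
  have hl2' : Real.log 2 ≤ 7 / 10 := by
    have := Real.log_two_lt_d9
    linarith
  have hIc0 : 0 ≤ I (cTop r) := h.Iz_nonneg _
  have hH0 : 0 ≤ Real.exp (-2 * cTop r) * I (cTop r) := by positivity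
  have step := hgl.stepW (bl := 3) (T := 3 - lm) (δb := θ) (ωb := θ * I (bTop r)) hm pf_cubic
    (by norm_num) (fun a t _ ht ha => GI_640.g31_lower' ha ht) (by norm_num)
    (by rw [hlo]; unfold cTop; linarith) (by rw [hlo]; unfold cTop; linarith) hA hC0 hκ0
    (by
      have h1 : A * κ ≤ A * θ := mul_le_mul_of_nonneg_left hκ hA
      have h2 : A * θ ≤ A * (1 / (A + 1)) := mul_le_mul_of_nonneg_left t3 hA
      have h3 : A * (1 / (A + 1)) ≤ 1 := by
        rw [mul_one_div, div_le_one (by positivity)]; linarith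
      linarith)
    (by
      have h1 : κ ≤ 1 / (4 * Real.exp 2) := hκ.trans t7
      rwa [le_div_iff₀ (by positivity)] at h1) hCt
    (by
      have h1 : Real.exp (-2 * cTop r) * I (cTop r) ≤ 1 / (Pp + 1) := H.small.trans t4
      calc Ng_290.Ph m Cs 3 (3 - lm) * 4 ^ (m + 2) * (Real.exp (-2 * cTop r) * I (cTop r))
          ≤ Pp * (1 / (Pp + 1)) := mul_le_mul_of_nonneg_left h1 hPp0
        _ ≤ 1 := by rw [mul_one_div, div_le_one (by positivity)]; linarith)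
    (H.small.trans t1) hθ0.le (mul_nonneg hθ0.le hIb.le)
    (by rw [cTop_sub]; exact H.sg)
  rw [cTop_sub] at step
  -- weaken the constants
  have hdel : (GL_394.Cg m 6 C0 + Ng_290.C2 Ct 6) * (2 * A) * κ + θ ≤ k0 := by
    have h1 : (GL_394.Cg m 6 C0 + Ng_290.C2 Ct 6) * (2 * A) * κ ≤
        (GL_394.Cg m 6 C0 + Ng_290.C2 Ct 6) * (2 * A) * θ :=
      mul_le_mul_of_nonneg_left hκ (by positivity)
    have h2 : D * θ ≤ D * (k0 / D) := mul_le_mul_of_nonneg_left t2 (by linarith)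
    have h3 : D * (k0 / D) = k0 := by field_simp
    have h4 : D * θ = (GL_394.Cg m 6 C0 + Ng_290.C2 Ct 6) * (2 * A) * θ + θ := by rw [hD]; ring
    linarith
  set w : ℝ := P * (Real.exp (-2 * cTop r) * I (cTop r)) ^ Ng_290.th0 m * I (cTop r) +
    θ * I (bTop r) with hw
  have hHr := Real.rpow_nonneg hH0 (Ng_290.th0 m)
  have hw0 : 0 ≤ w := by
    rw [hw]
    have : 0 ≤ θ * I (bTop r) := mul_nonneg hθ0.le hIb.le
    positivity
  have hwk : w ≤ k0 * I (bTop r) := by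
    have hs : (Real.exp (-2 * cTop r) * I (cTop r)) ^ Ng_290.th0 m ≤
        k0 / (2 * (P * C1 + 1)) := by
      have e1 : (Real.exp (-2 * cTop r) * I (cTop r)) ^ Ng_290.th0 m ≤
          ((k0 / (2 * (P * C1 + 1))) ^ (m + 2)) ^ Ng_290.th0 m :=
        Real.rpow_le_rpow hH0 (H.small.trans t6) (Ng_290.th0_pos (m := m)).le
      refine e1.trans (le_of_eq ?_)
      rw [← Real.rpow_natCast, ← Real.rpow_mul (by positivity)]
      have e2 : ((m + 2 : ℕ) : ℝ) * Ng_290.th0 m = 1 := by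
        unfold Ng_290.th0
        push_cast
        field_simp
      rw [e2, Real.rpow_one]
    have h1 : P * (Real.exp (-2 * cTop r) * I (cTop r)) ^ Ng_290.th0 m * I (cTop r) ≤
        k0 / 2 * I (bTop r) := by
      calc P * (Real.exp (-2 * cTop r) * I (cTop r)) ^ Ng_290.th0 m * I (cTop r)
          ≤ P * (k0 / (2 * (P * C1 + 1))) * (C1 * I (bTop r)) := by
            refine mul_le_mul (mul_le_mul_of_nonneg_left hs hP0) H.Ic hIc0 (by positivity)
        _ = (P * C1) / (P * C1 + 1) * (k0 / 2) * I (bTop r) := by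
            field_simp
        _ ≤ 1 * (k0 / 2) * I (bTop r) := by
            have : (P * C1) / (P * C1 + 1) ≤ 1 := by
              rw [div_le_one (by positivity)]; linarith
            gcongr
        _ = _ := by ring
    have h2 : θ * I (bTop r) ≤ k0 / 2 * I (bTop r) := mul_le_mul_of_nonneg_right t5 hIb.le
    rw [hw]
    linarith
  have step2 := step.weaken (C₁ := C2s Ct) (δ' := k0) (w' := w) (le_max_right _ _) hdel (by
    rw [hw]
    exact le_rfl)
  refine hcore I (Ez V π ρ x r W zh (h0 m Q ε) Q) (ez V π ρ x r W zh (h0 m Q ε))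
    (bz V π ρ x r W zh (h0 m Q ε) Q) _ r k0 w hr hk0.le le_rfl hw0 hwk hIb H.eb step2
    (fun l l' _ h2 _ => h.ez_mono h2) (fun l l' _ h2 _ => h.Iz_mono h2) ?_
  intro l hl
  have h1 := H.f4 l hl
  have h2 : θ * I (bTop r) ≤ k0 * I (bTop r) := mul_le_mul_of_nonneg_right (by linarith) hIb.le
  have h3 : Iz V π ρ x r W zh (h0 m Q ε) = I := rfl
  show -(k0 * I (bTop r)) ≤ _
  linarith

end Crest.Agent.R234.Qp_534
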