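import Crest.Agent.R234.Vf6_884
import Crest.Agent.R234.Cy1_870
import Crest.Agent.R234.GL1_394
import Crest.Agent.R234.GL5_394
import Crest.Agent.R234.LowF7_471

-- ▼ part R234/LowF2_471
section

/-!
# Row 234, (F4) LOW FREQUENCY, part (BOT) (helper471)

* `mass_profile` : `Q ≤ Th m V z`, `g` a nonincreasing profile (870's `Ker`) ==>
  `Q ∫ g(|v|²/s²) dv ≤ ∫ g(|p - z|²/s²) dV`.
* `bot_ptw`, `bot_int` : comparison of `g(ζ)` with `g(ξ) + g1(ξ) η`, `ζ ≥ ξ + η - 2 q`.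
-/

set_option autoImplicit false

open MeasureTheory Set Filter Topology Crest.GeometryTopology.Submanifold
open Crest.Agent.R234.Vf_884 Crest.Agent.R234.Cy_870
open scoped ENNReal NNReal

noncomputable section

namespace Crest.Agent.R234.LowF2_471

variable {g g1 : ℝ → ℝ}

theorem antitoneOn (hg : Ker g g1) (ha : ∀ t, 0 ≤ t → g1 t ≤ 0) : AntitoneOn g (Ici 0) := by
  refine antitoneOn_of_deriv_nonpos (convex_Ici 0) hg.continuous.continuousOn ?_ ?_
  · intro t _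
    exact (hg.der t).differentiableAt.differentiableWithinAt
  · intro t ht
    rw [interior_Ici] at ht
    rw [(hg.der t).deriv]
    exact ha t (le_of_lt ht)

theorem g_nonneg (hg : Ker g g1) (ha : ∀ t, 0 ≤ t → g1 t ≤ 0) {t : ℝ} (ht : 0 ≤ t) : 0 ≤ g t := by
  rcases le_or_gt 1 t with h | h
  · exact (hg.zero t h).ge
  · have := antitoneOn hg ha (show t ∈ Ici (0:ℝ) from ht) (show (1:ℝ) ∈ Ici (0:ℝ) by
      simp) h.le
    rwa [hg.zero 1 le_rfl] at this

/-- superlevel sets of the profile are intervals `[0, a)` -/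
theorem superlevel (hg : Ker g g1) (ha : ∀ t, 0 ≤ t → g1 t ≤ 0) {t : ℝ} (ht : 0 ≤ t) :
    ∃ a : ℝ, 0 ≤ a ∧ a ≤ 1 ∧ ∀ τ, 0 ≤ τ → (t < g τ ↔ τ < a) := by
  set S : Set ℝ := {τ | 0 ≤ τ ∧ g τ ≤ t} with hS
  have h1 : (1:ℝ) ∈ S := ⟨zero_le_one, by rw [hg.zero 1 le_rfl]; exact ht⟩
  have hbdd : BddBelow S := ⟨0, fun τ hτ => hτ.1⟩
  have hcl : IsClosed S := by
    have : S = Ici 0 ∩ g ⁻¹' Iic t := by ext; simp [hS]
    rw [this]
    exact isClosed_Ici.inter (isClosed_Iic.preimage hg.continuous)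
  have hmem : sInf S ∈ S := hcl.csInf_mem ⟨1, h1⟩ hbdd
  refine ⟨sInf S, hmem.1, csInf_le hbdd h1, fun τ hτ => ⟨fun h => ?_, fun h => ?_⟩⟩
  · by_contra hcon
    have h2 := antitoneOn hg ha (show sInf S ∈ Ici (0:ℝ) from hmem.1) (show τ ∈ Ici (0:ℝ) from hτ)
      (not_lt.1 hcon)
    linarith [hmem.2]
  · by_contra hcon
    exact absurd (csInf_le hbdd (show τ ∈ S from ⟨hτ, not_lt.1 hcon⟩)) (not_le.2 h)

variable {m k : ℕ} {U : Set (Euc k)} {V : Measure (Euc k × L k)}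

/-- weighted mass ratio, lower integral form -/
theorem mass_profile_lintegral (hV : Stat m k U V) (hm : 1 ≤ m) {z : Euc k} {s : ℝ} (hs : 0 < s)
    (hU : Metric.ball z s ⊆ U) {c : ℝ≥0∞} (hc : c ≤ Th m V z)
    (hg : Ker g g1) (ha : ∀ t, 0 ≤ t → g1 t ≤ 0) :
    c * ∫⁻ v : Euc m, ENNReal.ofReal (g ((s ^ 2)⁻¹ * ‖v‖ ^ 2)) ≤
      ∫⁻ p, ENNReal.ofReal (g ((s ^ 2)⁻¹ * ‖p.1 - z‖ ^ 2)) ∂V := by
  have hs2 : (0:ℝ) < s ^ 2 := by positivity
  have hn1 : ∀ v : Euc m, 0 ≤ (s ^ 2)⁻¹ * ‖v‖ ^ 2 := fun v => by positivity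
  have hn2 : ∀ p : Euc k × L k, 0 ≤ (s ^ 2)⁻¹ * ‖p.1 - z‖ ^ 2 := fun v => by positivity
  rw [lintegral_eq_lintegral_meas_lt volume (f := fun v : Euc m => g ((s ^ 2)⁻¹ * ‖v‖ ^ 2))
      (Eventually.of_forall fun v => g_nonneg hg ha (hn1 v))
      (hg.continuous.comp (by fun_prop)).aemeasurable,
    lintegral_eq_lintegral_meas_lt V (f := fun p : Euc k × L k => g ((s ^ 2)⁻¹ * ‖p.1 - z‖ ^ 2))
      (Eventually.of_forall fun v => g_nonneg hg ha (hn2 v))
      (hg.continuous.comp (by fun_prop)).aemeasurable]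
  rw [← lintegral_const_mul' _ _ (hc.trans_lt ?_).ne]
  rotate_left
  · rcases eq_or_ne (Th m V z) ⊤ with h | h
    · exact absurd h (by
        have h2 := (Th_le_rat hV hm (half_pos hs)
          ((Metric.ball_subset_ball (by linarith)).trans hU))
        have h3 := rat_lt_top hV (half_pos hs)
          ((Metric.closedBall_subset_ball (by linarith : s / 2 < s)).trans hU)
        exact (h2.trans_lt h3).ne)
    · exact lt_top_iff_ne_top.2 h
  refine setLIntegral_mono' measurableSet_Ioi fun t ht => ?_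
  obtain ⟨a, ha0, ha1, hiff⟩ := superlevel hg ha (le_of_lt (mem_Ioi.1 ht))
  rcases ha0.eq_or_lt with h0 | h0
  · have : {v : Euc m | t < g ((s ^ 2)⁻¹ * ‖v‖ ^ 2)} = ∅ := by
      ext v
      simp only [mem_ofPred_eq, mem_empty_iff_false, iff_false]
      rw [hiff _ (hn1 v), ← h0]
      exact not_lt.2 (hn1 v)
    rw [this, measure_empty, mul_zero]
    exact zero_le
  · set ρ : ℝ := s * Real.sqrt a with hρ
    have hsa : 0 < Real.sqrt a := Real.sqrt_pos.2 h0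
    have hρ0 : 0 < ρ := mul_pos hs hsa
    have hρs : ρ ≤ s := by
      have : Real.sqrt a ≤ 1 := Real.sqrt_le_one.2 ha1
      calc ρ = s * Real.sqrt a := rfl
        _ ≤ s * 1 := mul_le_mul_of_nonneg_left this hs.le
        _ = s := mul_one s
    have key : ∀ x : ℝ, 0 ≤ x → (t < g ((s ^ 2)⁻¹ * x ^ 2) ↔ x < ρ) := by
      intro x hx
      rw [hiff _ (by positivity), hρ]
      rw [inv_mul_lt_iff₀ hs2]
      have h5 : s ^ 2 * a = (s * Real.sqrt a) ^ 2 := by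
        rw [mul_pow, Real.sq_sqrt ha0]
      rw [h5]
      exact pow_lt_pow_iff_left₀ hx (by positivity) two_ne_zero
    have e1 : {v : Euc m | t < g ((s ^ 2)⁻¹ * ‖v‖ ^ 2)} = Metric.ball (0 : Euc m) ρ := by
      ext v
      rw [mem_ofPred_eq, key _ (norm_nonneg v), mem_ball_zero_iff]
    have e2 : {p : Euc k × L k | t < g ((s ^ 2)⁻¹ * ‖p.1 - z‖ ^ 2)} =
        Prod.fst ⁻¹' Metric.ball z ρ := by
      ext p
      rw [mem_ofPred_eq, key _ (norm_nonneg _), mem_preimage, Metric.mem_ball, dist_eq_norm]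
    rw [e1, e2, ← mass_apply V measurableSet_ball, volume_ball_eq m 0 hρ0]
    exact mul_le_mass hV hm hρ0 ((Metric.ball_subset_ball hρs).trans hU) hc

theorem integrable_profile (hV : Stat m k U V) {z : Euc k} {s : ℝ} (hs : 0 < s)
    (hU : Metric.closedBall z s ⊆ U) (hg : Ker g g1) :
    Integrable (fun p : Euc k × L k => g ((s ^ 2)⁻¹ * ‖p.1 - z‖ ^ 2)) V := by
  obtain ⟨K, hK0, hK, -, -⟩ := hg.exists_bound
  have hfin : V (Prod.fst ⁻¹' Metric.closedBall z s) < ⊤ := by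
    rw [← mass_apply V Metric.isClosed_closedBall.measurableSet]
    exact mass_lt_top hV (isCompact_closedBall z s) hU
  have hI : Integrable ((Prod.fst ⁻¹' Metric.closedBall z s : Set (Euc k × L k)).indicator
      (fun _ => K)) V := by
    rw [integrable_indicator_iff (measurable_fst Metric.isClosed_closedBall.measurableSet)]
    exact integrableOn_const hfin.ne
  refine hI.mono' (hg.continuous.comp (by fun_prop)).aestronglyMeasurable
    (Eventually.of_forall fun p => ?_)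
  by_cases hp : p ∈ (Prod.fst ⁻¹' Metric.closedBall z s : Set (Euc k × L k))
  · rw [indicator_of_mem hp]
    exact hK _ (by positivity)
  · rw [indicator_of_notMem hp]
    have : s < ‖p.1 - z‖ := by
      have h2 : ¬ p.1 ∈ Metric.closedBall z s := hp
      rw [Metric.mem_closedBall, dist_eq_norm, not_le] at h2
      exact h2
    have h3 : 1 ≤ (s ^ 2)⁻¹ * ‖p.1 - z‖ ^ 2 := by
      rw [inv_mul_eq_div, one_le_div (by positivity)]
      exact pow_le_pow_left₀ hs.le this.le 2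
    rw [hg.zero _ h3, norm_zero]

/-- **weighted mass ratio**: `Q ∫ g(|v|²/s²) dv ≤ ∫ g(|p - z|²/s²) dV`. -/
theorem mass_profile (hV : Stat m k U V) (hm : 1 ≤ m) {z : Euc k} {s : ℝ} (hs : 0 < s)
    (hU : Metric.closedBall z s ⊆ U) {Q : ℝ} (hQ : 0 ≤ Q) (hc : ENNReal.ofReal Q ≤ Th m V z)
    (hg : Ker g g1) (ha : ∀ t, 0 ≤ t → g1 t ≤ 0) :
    Q * ∫ v : Euc m, g ((s ^ 2)⁻¹ * ‖v‖ ^ 2) ≤
      ∫ p, g ((s ^ 2)⁻¹ * ‖p.1 - z‖ ^ 2) ∂V := by
  have h := mass_profile_lintegral hV hm hs (Metric.ball_subset_closedBall.trans hU) hc hg ha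
  have hI := integrable_profile hV hs hU hg
  rw [integral_eq_lintegral_of_nonneg_ae
      (Eventually.of_forall fun v => g_nonneg hg ha (by positivity))
      (hg.continuous.comp (by fun_prop)).aestronglyMeasurable,
    integral_eq_lintegral_of_nonneg_ae
      (Eventually.of_forall fun v => g_nonneg hg ha (by positivity))
      (hg.continuous.comp (by fun_prop)).aestronglyMeasurable]
  have hfin : ∫⁻ p, ENNReal.ofReal (g ((s ^ 2)⁻¹ * ‖p.1 - z‖ ^ 2)) ∂V ≠ ⊤ := by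
    have h2 := hI.hasFiniteIntegral
    rw [hasFiniteIntegral_iff_ofReal
      (Eventually.of_forall fun v => g_nonneg hg ha (by positivity))] at h2
    exact h2.ne
  have h3 := ENNReal.toReal_mono hfin h
  rwa [ENNReal.toReal_mul, ENNReal.toReal_ofReal hQ] at h3

/-! ### comparison of the kernel of the true ball with the kernel of the chart -/

/-- pointwise comparison -/
theorem bot_ptw (hg : Ker g g1) (ha : ∀ t, 0 ≤ t → g1 t ≤ 0) {Lp : ℝ} (hL : 0 ≤ Lp)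
    (hLip : ∀ a b, 0 ≤ a → 0 ≤ b → |g1 a - g1 b| ≤ Lp * |a - b|)
    {ξ η ζ q : ℝ} (hξ : 0 ≤ ξ) (hζ : 0 ≤ ζ) (h : ξ + η - 2 * q ≤ ζ) :
    g ζ ≤ g ξ + g1 ξ * (η - 2 * q) + Lp * (η - 2 * q) ^ 2 := by
  set b : ℝ := max (ξ + η - 2 * q) 0 with hb
  have hb0 : 0 ≤ b := le_max_right _ _
  have hbζ : b ≤ ζ := max_le h hζ
  have h1 : g ζ ≤ g b := antitoneOn hg ha (show b ∈ Ici (0:ℝ) from hb0)
    (show ζ ∈ Ici (0:ℝ) from hζ) hbζ
  have h2 : η - 2 * q ≤ b - ξ := by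
    have := le_max_left (ξ + η - 2 * q) 0
    linarith
  have h3 : (b - ξ) ^ 2 ≤ (η - 2 * q) ^ 2 := by
    rcases le_total 0 (ξ + η - 2 * q) with h4 | h4
    · have : b - ξ = η - 2 * q := by rw [hb, max_eq_left h4]; ring
      rw [this]
    · have h5 : b = 0 := by rw [hb, max_eq_right h4]
      rw [h5]
      nlinarith
  -- Taylor
  have h6 : g b ≤ g ξ + g1 ξ * (b - ξ) + Lp * (b - ξ) ^ 2 := by
    rcases lt_trichotomy b ξ with hlt | heq | hgt
    · obtain ⟨c, hc, hc2⟩ := exists_hasDerivAt_eq_slope g g1 hlt hg.continuous.continuousOn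
        (fun x _ => hg.der x)
      have hc0 : 0 ≤ c := hb0.trans hc.1.le
      have h7 : g ξ - g b = g1 c * (ξ - b) := by
        rw [hc2]; field_simp [(sub_pos.2 hlt).ne']
      have h8 := hLip c ξ hc0 hξ
      have h9 : |c - ξ| ≤ ξ - b := by rw [abs_of_nonpos (by linarith [hc.2])]; linarith [hc.1]
      have h10 : |g1 c - g1 ξ| ≤ Lp * (ξ - b) := h8.trans (mul_le_mul_of_nonneg_left h9 hL)
      have h11 := (abs_le.1 h10).1
      have h12 : 0 < ξ - b := sub_pos.2 hlt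
      nlinarith
    · rw [heq]; simp
    · obtain ⟨c, hc, hc2⟩ := exists_hasDerivAt_eq_slope g g1 hgt hg.continuous.continuousOn
        (fun x _ => hg.der x)
      have hc0 : 0 ≤ c := hξ.trans hc.1.le
      have h7 : g b - g ξ = g1 c * (b - ξ) := by
        rw [hc2]; field_simp [(sub_pos.2 hgt).ne']
      have h8 := hLip c ξ hc0 hξ
      have h9 : |c - ξ| ≤ b - ξ := by rw [abs_of_nonneg (by linarith [hc.1])]; linarith [hc.2]
      have h10 : |g1 c - g1 ξ| ≤ Lp * (b - ξ) := h8.trans (mul_le_mul_of_nonneg_left h9 hL)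
      have h11 := (abs_le.1 h10).2
      have h12 : 0 < b - ξ := sub_pos.2 hgt
      nlinarith
  have h13 : g1 ξ * (b - ξ) ≤ g1 ξ * (η - 2 * q) := mul_le_mul_of_nonpos_left h2 (ha ξ hξ)
  have h14 : Lp * (b - ξ) ^ 2 ≤ Lp * (η - 2 * q) ^ 2 := mul_le_mul_of_nonneg_left h3 hL
  linarith

/-- integrated comparison.  `|q| ≤ a`, `q² ≤ κ² η + a2`, `η ≤ h²`, all on the support of `μ`
(the chart domain). -/
theorem bot_int {Ω : Type*} [MeasurableSpace Ω] {μ : Measure Ω} [IsFiniteMeasure μ]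
    (hg : Ker g g1) (ha : ∀ t, 0 ≤ t → g1 t ≤ 0) {Lp : ℝ} (hL : 0 ≤ Lp)
    (hLip : ∀ a b, 0 ≤ a → 0 ≤ b → |g1 a - g1 b| ≤ Lp * |a - b|)
    {ξ η ζ q : Ω → ℝ} (mξ : AEMeasurable ξ μ) (mη : AEMeasurable η μ) (mζ : AEMeasurable ζ μ)
    {κ h a a2 : ℝ}
    (hξ : ∀ᵐ p ∂μ, 0 ≤ ξ p) (hη : ∀ᵐ p ∂μ, 0 ≤ η p) (hηh : ∀ᵐ p ∂μ, η p ≤ h ^ 2)
    (hζ : ∀ᵐ p ∂μ, 0 ≤ ζ p) (hq : ∀ᵐ p ∂μ, |q p| ≤ a)
    (hq2 : ∀ᵐ p ∂μ, (q p) ^ 2 ≤ κ ^ 2 * η p + a2)
    (hk : ∀ᵐ p ∂μ, ξ p + η p - 2 * q p ≤ ζ p) :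
    ∫ p, g (ζ p) ∂μ ≤ ∫ p, g (ξ p) ∂μ + ∫ p, g1 (ξ p) * η p ∂μ
      + 2 * a * ∫ p, -g1 (ξ p) ∂μ + 2 * Lp * (h ^ 2 + 4 * κ ^ 2) * ∫ p, η p ∂μ
      + 8 * Lp * a2 * μ.real univ := by
  obtain ⟨K, hK0, hK, hK1, -⟩ := hg.exists_bound
  have i1 : Integrable (fun p => g (ζ p)) μ :=
    Integrable.mono' (integrable_const K)
      (hg.continuous.measurable.comp_aemeasurable mζ).aestronglyMeasurable
      (by filter_upwards [hζ] with p hp using hK _ hp)
  have i2 : Integrable (fun p => g (ξ p)) μ :=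
    Integrable.mono' (integrable_const K)
      (hg.continuous.measurable.comp_aemeasurable mξ).aestronglyMeasurable
      (by filter_upwards [hξ] with p hp using hK _ hp)
  have i3 : Integrable (fun p => g1 (ξ p)) μ :=
    Integrable.mono' (integrable_const K)
      (hg.cont.measurable.comp_aemeasurable mξ).aestronglyMeasurable
      (by filter_upwards [hξ] with p hp using hK1 _ hp)
  have i4 : Integrable (fun p => η p) μ :=
    Integrable.mono' (integrable_const (h ^ 2)) mη.aestronglyMeasurable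
      (by filter_upwards [hη, hηh] with p hp hp2
          rw [Real.norm_eq_abs, abs_of_nonneg hp]; exact hp2)
  have i5 : Integrable (fun p => g1 (ξ p) * η p) μ :=
    Integrable.mono' (integrable_const (K * h ^ 2))
      ((hg.cont.measurable.comp_aemeasurable mξ).mul mη).aestronglyMeasurable
      (by filter_upwards [hξ, hη, hηh] with p hp0 hp hp2
          rw [Real.norm_eq_abs, abs_mul, abs_of_nonneg hp]
          exact mul_le_mul (hK1 _ hp0) hp2 hp hK0)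
  have hpt : ∀ᵐ p ∂μ, g (ζ p) ≤ g (ξ p) + g1 (ξ p) * η p + 2 * a * (-g1 (ξ p))
      + 2 * Lp * (h ^ 2 + 4 * κ ^ 2) * η p + 8 * Lp * a2 := by
    filter_upwards [hξ, hη, hηh, hζ, hq, hq2, hk] with p p1 p2 p3 p4 p5 p6 p7
    have h1 := bot_ptw hg ha hL hLip p1 p4 p7
    have h2 : g1 (ξ p) * (η p - 2 * q p) ≤ g1 (ξ p) * η p + 2 * a * (-g1 (ξ p)) := by
      have h3 : 0 ≤ -g1 (ξ p) := by linarith [ha _ p1]
      have h4 : q p ≤ a := (le_abs_self _).trans p5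
      nlinarith
    have h5 : Lp * (η p - 2 * q p) ^ 2 ≤ 2 * Lp * (h ^ 2 + 4 * κ ^ 2) * η p + 8 * Lp * a2 := by
      have h6 : (η p - 2 * q p) ^ 2 ≤ 2 * (η p ^ 2 + 4 * q p ^ 2) := by
        nlinarith [sq_nonneg (η p + 2 * q p)]
      have h7 : η p ^ 2 ≤ h ^ 2 * η p := by nlinarith
      have h8 : 2 * (η p ^ 2 + 4 * q p ^ 2) ≤ 2 * ((h ^ 2 + 4 * κ ^ 2) * η p + 4 * a2) := by
        nlinarith
      calc Lp * (η p - 2 * q p) ^ 2 ≤ Lp * (2 * ((h ^ 2 + 4 * κ ^ 2) * η p + 4 * a2)) :=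
            mul_le_mul_of_nonneg_left (h6.trans h8) hL
        _ = _ := by ring
    linarith
  have j1 : Integrable (fun p => g (ξ p) + g1 (ξ p) * η p) μ := i2.add i5
  have j2 : Integrable (fun p => 2 * a * (-g1 (ξ p))) μ := i3.neg.const_mul (2 * a)
  have j3 : Integrable (fun p => g (ξ p) + g1 (ξ p) * η p + 2 * a * (-g1 (ξ p))) μ := j1.add j2
  have j4 : Integrable (fun p => 2 * Lp * (h ^ 2 + 4 * κ ^ 2) * η p) μ := i4.const_mul _
  have j5 : Integrable (fun p => g (ξ p) + g1 (ξ p) * η p + 2 * a * (-g1 (ξ p))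
      + 2 * Lp * (h ^ 2 + 4 * κ ^ 2) * η p) μ := j3.add j4
  have j6 : Integrable (fun p => g (ξ p) + g1 (ξ p) * η p + 2 * a * (-g1 (ξ p))
      + 2 * Lp * (h ^ 2 + 4 * κ ^ 2) * η p + 8 * Lp * a2) μ := j5.add (integrable_const _)
  refine (integral_mono_ae i1 j6 hpt).trans (le_of_eq ?_)
  rw [integral_add j5 (integrable_const _), integral_add j3 j4, integral_add j1 j2,
    integral_add i2 i5, integral_const_mul, integral_const_mul, integral_const, smul_eq_mul]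
  ring

end Crest.Agent.R234.LowF2_471
end
end

-- ▼ part R234/LowF3_471
section

/-!
# Row 234, (F4) LOW FREQUENCY, part (BOT), assembled (helper471)

`bottom` : the bottom inequality at one scale `s` for any chart data `ξ = |x|²/s²`, `η = |B y|²/s²`,
weights `w1 = 1/j`, `w2 = μ/j`.
-/

set_option autoImplicit false

open MeasureTheory Set Filter Topology Crest.GeometryTopology.Submanifold
open Crest.Agent.R234.Vf_884 Crest.Agent.R234.Cy_870
open scoped ENNReal NNReal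

noncomputable section

namespace Crest.Agent.R234.LowF3_471

open Crest.Agent.R234.LowF2_471

variable {g g1 : ℝ → ℝ} {m k : ℕ} {U : Set (Euc k)} {V : Measure (Euc k × L k)}

/-- the true ball kernel only sees the chart domain -/
theorem integral_eq_dom {z : Euc k} {s : ℝ} (hs : 0 < s) (hg : Ker g g1)
    {Dm : Set (Euc k × L k)} (hDm : MeasurableSet Dm)
    (hcov : ∀ᵐ p ∂V, ‖p.1 - z‖ < s → p ∈ Dm) :
    ∫ p in Dm, g ((s ^ 2)⁻¹ * ‖p.1 - z‖ ^ 2) ∂V = ∫ p, g ((s ^ 2)⁻¹ * ‖p.1 - z‖ ^ 2) ∂V := by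
  rw [← integral_indicator hDm]
  refine integral_congr_ae ?_
  filter_upwards [hcov] with p hp
  by_cases h : p ∈ Dm
  · rw [indicator_of_mem h]
  · rw [indicator_of_notMem h]
    have h2 : s ≤ ‖p.1 - z‖ := by
      by_contra hcon
      exact h (hp (not_le.1 hcon))
    have h3 : 1 ≤ (s ^ 2)⁻¹ * ‖p.1 - z‖ ^ 2 := by
      rw [inv_mul_eq_div, one_le_div (by positivity)]
      exact pow_le_pow_left₀ hs.le h2 2
    rw [hg.zero _ h3]

/-- **bottom inequality** at scale `s`, chart data arbitrary. -/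
theorem bottom (hV : Stat m k U V) (hm : 1 ≤ m) {z : Euc k} {s : ℝ} (hs : 0 < s)
    (hU : Metric.closedBall z s ⊆ U) {Q : ℝ} (hQ : 0 ≤ Q) (hc : ENNReal.ofReal Q ≤ Th m V z)
    (hg : Ker g g1) (ha : ∀ t, 0 ≤ t → g1 t ≤ 0) {Lp : ℝ} (hL : 0 ≤ Lp)
    (hLip : ∀ a b, 0 ≤ a → 0 ≤ b → |g1 a - g1 b| ≤ Lp * |a - b|)
    {Dm : Set (Euc k × L k)} (hDm : MeasurableSet Dm) (hfin : V Dm < ⊤)
    (hcov : ∀ᵐ p ∂V, ‖p.1 - z‖ < s → p ∈ Dm)
    {ξ η q w1 w2 : Euc k × L k → ℝ} (mξ : AEMeasurable ξ (V.restrict Dm))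
    (mη : AEMeasurable η (V.restrict Dm)) (mw1 : AEMeasurable w1 (V.restrict Dm))
    (mw2 : AEMeasurable w2 (V.restrict Dm)) {κ h a a2 κw : ℝ}
    (hξ : ∀ᵐ p ∂(V.restrict Dm), 0 ≤ ξ p) (hη : ∀ᵐ p ∂(V.restrict Dm), 0 ≤ η p)
    (hηh : ∀ᵐ p ∂(V.restrict Dm), η p ≤ h ^ 2)
    (hq : ∀ᵐ p ∂(V.restrict Dm), |q p| ≤ a)
    (hq2 : ∀ᵐ p ∂(V.restrict Dm), (q p) ^ 2 ≤ κ ^ 2 * η p + a2)
    (hw1 : ∀ᵐ p ∂(V.restrict Dm), |w1 p - 1| ≤ κw)
    (hw2 : ∀ᵐ p ∂(V.restrict Dm), |w2 p - 1| ≤ κw)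
    (hk : ∀ᵐ p ∂(V.restrict Dm), ξ p + η p - 2 * q p ≤ (s ^ 2)⁻¹ * ‖p.1 - z‖ ^ 2) :
    Q * ∫ v : Euc m, g ((s ^ 2)⁻¹ * ‖v‖ ^ 2) ≤
      ∫ p in Dm, g (ξ p) * w1 p ∂V + ∫ p in Dm, g1 (ξ p) * η p * w2 p ∂V
      + (2 * a * ∫ p in Dm, -g1 (ξ p) ∂V
        + 2 * Lp * (h ^ 2 + 4 * κ ^ 2) * ∫ p in Dm, η p ∂V
        + 8 * Lp * a2 * V.real Dm
        + κw * (∫ p in Dm, g (ξ p) ∂V + ∫ p in Dm, -g1 (ξ p) * η p ∂V)) := by
  have hfm : IsFiniteMeasure (V.restrict Dm) := ⟨by rwa [Measure.restrict_apply_univ]⟩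
  have hmp := mass_profile hV hm hs hU hQ hc hg ha
  rw [← integral_eq_dom hs hg hDm hcov] at hmp
  have hζ : ∀ᵐ p ∂(V.restrict Dm), 0 ≤ (s ^ 2)⁻¹ * ‖p.1 - z‖ ^ 2 :=
    Eventually.of_forall fun p => by positivity
  have hb := bot_int (μ := V.restrict Dm) hg ha hL hLip mξ mη
    (ζ := fun p => (s ^ 2)⁻¹ * ‖p.1 - z‖ ^ 2) (by fun_prop) hξ hη hηh hζ hq hq2 hk
  rw [measureReal_restrict_apply_univ] at hb
  obtain ⟨K, hK0, hK, hK1, -⟩ := hg.exists_bound
  have i2 : Integrable (fun p => g (ξ p)) (V.restrict Dm) :=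
    Integrable.mono' (integrable_const K)
      (hg.continuous.measurable.comp_aemeasurable mξ).aestronglyMeasurable
      (by filter_upwards [hξ] with p hp using hK _ hp)
  have i5 : Integrable (fun p => g1 (ξ p) * η p) (V.restrict Dm) :=
    Integrable.mono' (integrable_const (K * h ^ 2))
      ((hg.cont.measurable.comp_aemeasurable mξ).mul mη).aestronglyMeasurable
      (by filter_upwards [hξ, hη, hηh] with p hp0 hp hp2
          rw [Real.norm_eq_abs, abs_mul, abs_of_nonneg hp]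
          exact mul_le_mul (hK1 _ hp0) hp2 hp hK0)
  have bdd : ∀ w : Euc k × L k → ℝ, (∀ᵐ p ∂(V.restrict Dm), |w p - 1| ≤ κw) →
      ∀ᵐ p ∂(V.restrict Dm), ‖w p‖ ≤ 1 + κw := by
    intro w hw
    filter_upwards [hw] with p hp
    rw [Real.norm_eq_abs]
    have h1 := abs_le.1 hp
    exact abs_le.2 ⟨by linarith, by linarith⟩
  have i6 : Integrable (fun p => g (ξ p) * w1 p) (V.restrict Dm) :=
    i2.mul_bdd mw1.aestronglyMeasurable (bdd w1 hw1)
  have i7 : Integrable (fun p => g1 (ξ p) * η p * w2 p) (V.restrict Dm) :=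
    i5.mul_bdd mw2.aestronglyMeasurable (bdd w2 hw2)
  have h1 : ∫ p in Dm, g (ξ p) ∂V ≤ ∫ p in Dm, g (ξ p) * w1 p ∂V
      + κw * ∫ p in Dm, g (ξ p) ∂V := by
    rw [← integral_const_mul, ← integral_add i6 (i2.const_mul (κw))]
    refine integral_mono_ae i2 (i6.add (i2.const_mul (κw))) ?_
    filter_upwards [hξ, hw1] with p p1 p2
    have h3 := (abs_le.1 p2).1
    have h4 := g_nonneg hg ha p1
    nlinarith
  have h2 : ∫ p in Dm, g1 (ξ p) * η p ∂V ≤ ∫ p in Dm, g1 (ξ p) * η p * w2 p ∂V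
      + κw * ∫ p in Dm, -g1 (ξ p) * η p ∂V := by
    have i8 : Integrable (fun p => -g1 (ξ p) * η p) (V.restrict Dm) := by
      have := i5.neg
      refine this.congr (Eventually.of_forall fun p => ?_)
      simp only [Pi.neg_apply]; ring
    rw [← integral_const_mul, ← integral_add i7 (i8.const_mul (κw))]
    refine integral_mono_ae i5 (i7.add (i8.const_mul (κw))) ?_
    filter_upwards [hξ, hη, hw2] with p p1 p2 p3
    have h3 := (abs_le.1 p3).2
    have h4 : 0 ≤ -g1 (ξ p) * η p := mul_nonneg (by linarith [ha _ p1]) p2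
    nlinarith
  have h3 : κw * (∫ p in Dm, g (ξ p) ∂V + ∫ p in Dm, -g1 (ξ p) * η p ∂V)
      = κw * ∫ p in Dm, g (ξ p) ∂V + κw * ∫ p in Dm, -g1 (ξ p) * η p ∂V := by ring
  rw [h3]
  linarith


end Crest.Agent.R234.LowF3_471
end
end

-- ▼ part R234/LowF5_471
section

/-!
# Row 234, (F4) LOW FREQUENCY: the bottom inequality in the frame of VF-GL (helper471)

`bottom_GL` : `exp(-2l) (EE - II/2) ≥ - error` at a point `z0` of density `≥ Q`, for the frame functions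
`EE`, `II` of GL1_394 relative to a graph through `z0`.
-/

set_option autoImplicit false

open MeasureTheory Set Filter Topology Crest.GeometryTopology.Submanifold
open Crest.Agent.R234.Vf_884 Crest.Agent.R234.Cy_870
open scoped ENNReal NNReal InnerProductSpace

noncomputable section

namespace Crest.Agent.R234.LowF5_471

open Crest.Agent.R234.LowF2_471 Crest.Agent.R234.LowF3_471
open Crest.Agent.R234.GL_394 (Ch Ok EE II)

variable {g g1 g2 : ℝ → ℝ} {m k : ℕ} {U : Set (Euc k)} {V : Measure (Euc k × L k)}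

/-- Lipschitz constant of `g1` on `[0, ∞)` -/
theorem lip_of_ker (h : Ker g1 g2) : ∃ Lp : ℝ, 0 ≤ Lp ∧
    ∀ a b, 0 ≤ a → 0 ≤ b → |g1 a - g1 b| ≤ Lp * |a - b| := by
  obtain ⟨K, hK0, -, hK, -⟩ := h.exists_bound
  refine ⟨K, hK0, fun a b ha hb => ?_⟩
  have h1 := (convex_Ici (0:ℝ)).norm_image_sub_le_of_norm_hasDerivWithin_le (f := g1) (f' := g2)
    (C := K) (fun x _ => (h.der x).hasDerivWithinAt) (fun x hx => hK x hx)
    (show b ∈ Ici (0:ℝ) from hb) (show a ∈ Ici (0:ℝ) from ha)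
  simpa [Real.norm_eq_abs] using h1

/-- the part of the chart domain over the ball of radius `2s` -/
def Dm (c : Ch m k) (K : Set (Euc k)) (s : ℝ) : Set (Euc k × L k) :=
  {p | p.1 ∈ K ∧ ‖c.x p.1‖ ≤ 2 * s}

theorem measurableSet_Dm {c : Ch m k} {K : Set (Euc k)} {D : Set (Euc m)} (hok : Ok c K D)
    (s : ℝ) : MeasurableSet (Dm c K s) := by
  have h1 : IsClosed {z | z ∈ K ∧ ‖c.x z‖ ≤ 2 * s} := by
    have hc : ContinuousOn (fun z => ‖c.x z‖) K :=
      (ContinuousOn.norm fun z hz => (hok.hx z hz).continuousAt.continuousWithinAt)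
    exact hc.preimage_isClosed_of_isClosed hok.cpt.isClosed isClosed_Iic
  exact measurable_fst h1.measurableSet

set_option maxHeartbeats 800000 in
/-- **bottom inequality in the frame of VF-GL.** -/
theorem bottom_GL (hm : 1 ≤ m) {c : Ch m k} {K : Set (Euc k)} {D : Set (Euc m)} (hok : Ok c K D)
    (hV : Stat m k U V) (hKU : K ⊆ U) {z0 : Euc k} {l : ℝ}
    (hU : Metric.closedBall z0 (Real.exp l) ⊆ U) {Q : ℝ} (hQ : 0 ≤ Q)
    (hc : ENNReal.ofReal Q ≤ Th m V z0) (hg : Prof g g1 g2)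
    {Kg Lp : ℝ} (hKg : ∀ t, 0 ≤ t → |g t| ≤ Kg ∧ |g1 t| ≤ Kg) (hL : 0 ≤ Lp)
    (hLip : ∀ a b, 0 ≤ a → 0 ≤ b → |g1 a - g1 b| ≤ Lp * |a - b|)
    {κ0 κ3 h M0 H : ℝ} (hκ0 : 0 ≤ κ0) (hκ3 : 0 ≤ κ3) (hh0 : 0 ≤ h)
    (hcov : ∀ᵐ p ∂V, ‖p.1 - z0‖ < Real.exp l → p.1 ∈ K)
    (hdist : ∀ z ∈ K, (1 - κ3 * ‖c.x z‖) * ‖c.x z‖ ^ 2 + ‖c.nu z‖ ^ 2
      - 2 * (κ0 * ‖c.x z‖ ^ 2 * ‖c.nu z‖) ≤ ‖z - z0‖ ^ 2)
    (hsm : ∀ z ∈ K, 8 * (κ0 * ‖c.nu z‖) ≤ 1) (hsm3 : ∀ z ∈ K, 4 * (κ3 * ‖c.x z‖) ≤ 1)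
    (hj : ∀ v, ‖v‖ ≤ Real.exp l → c.j v ≤ 1 + κ3 * Real.exp l)
    (hmu : ∀ v, ‖v‖ ≤ 2 * Real.exp l → |c.mu v - 1| ≤ κ3 * Real.exp l)
    (hh : ∀ᵐ p ∂V, p ∈ Dm c K (Real.exp l) → ‖c.nu p.1‖ ≤ h * Real.exp l)
    (hM : V.real (Dm c K (Real.exp l)) ≤ M0 * Real.exp (m * l))
    (hH : ∫ p in Dm c K (Real.exp l), ‖c.nu p.1‖ ^ 2 ∂V ≤ H * Real.exp (m * l) *
      Real.exp (2 * l)) :
    -(8 * (κ0 * h + κ3) * Real.exp l * Kg * M0
        + 2 * Lp * (h ^ 2 + 256 * (κ0 * Real.exp l) ^ 2) * H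
        + 256 * Lp * (κ3 * Real.exp l) ^ 2 * M0
        + κ3 * Real.exp l * (Kg * M0 + Kg * H)
        + Q * (κ3 * Real.exp l * ∫ v : Euc m, g (‖v‖ ^ 2))) ≤
      Real.exp (-(2 * l)) * (EE c (V.restrict (K ×ˢ univ)) g Q l
        - II c (V.restrict (K ×ˢ univ)) g1 l / 2) := by
  set s : ℝ := Real.exp l with hs
  have hs0 : 0 < s := Real.exp_pos l
  have hgk : Ker g g1 := hg.k0
  have ha := hg.anti
  have es : Real.exp (-2 * l) = (s ^ 2)⁻¹ := by
    rw [hs, ← Real.exp_nat_mul, ← Real.exp_neg]; congr 1; push_cast; ring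
  have mD : MeasurableSet (Dm c K s) := measurableSet_Dm hok s
  have hDK : Dm c K s ⊆ K ×ˢ (univ : Set (L k)) := fun p hp => ⟨hp.1, mem_univ _⟩
  have mK : MeasurableSet (K ×ˢ (univ : Set (L k))) :=
    hok.cpt.isClosed.measurableSet.prod MeasurableSet.univ
  have hfinK : V (K ×ˢ (univ : Set (L k))) < ⊤ := hV.fin K hok.cpt hKU
  have hfin : V (Dm c K s) < ⊤ := (measure_mono hDK).trans_lt hfinK
  have hfm : IsFiniteMeasure (V.restrict (Dm c K s)) := ⟨by rwa [Measure.restrict_apply_univ]⟩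
  -- measurability
  have cx : ContinuousOn (fun p : Euc k × L k => c.x p.1) (K ×ˢ (univ : Set (L k))) :=
    ContinuousOn.comp (t := K) (fun z hz => (hok.hx z hz).continuousAt.continuousWithinAt)
      continuousOn_fst (fun p hp => hp.1)
  have cnu : ContinuousOn (fun p : Euc k × L k => c.nu p.1) (K ×ˢ (univ : Set (L k))) :=
    ContinuousOn.comp (t := K) (fun z hz => (hok.hnu z hz).continuousAt.continuousWithinAt)
      continuousOn_fst (fun p hp => hp.1)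
  have cmu : ContinuousOn (fun p : Euc k × L k => c.mu (c.x p.1)) (K ×ˢ (univ : Set (L k))) :=
    hok.cmu.comp cx (fun p hp => hok.mem _ hp.1)
  have mξ' : AEStronglyMeasurable (fun p : Euc k × L k => (s ^ 2)⁻¹ * ‖c.x p.1‖ ^ 2)
      (V.restrict (K ×ˢ univ)) :=
    (continuousOn_const.mul (cx.norm.pow 2)).aestronglyMeasurable mK
  have mη' : AEStronglyMeasurable (fun p : Euc k × L k => (s ^ 2)⁻¹ * ‖c.nu p.1‖ ^ 2)
      (V.restrict (K ×ˢ univ)) :=
    (continuousOn_const.mul (cnu.norm.pow 2)).aestronglyMeasurable mK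
  have mμ' : AEStronglyMeasurable (fun p : Euc k × L k => c.mu (c.x p.1))
      (V.restrict (K ×ˢ univ)) := cmu.aestronglyMeasurable mK
  have hle : V.restrict (Dm c K s) ≤ V.restrict (K ×ˢ univ) := Measure.restrict_mono hDK le_rfl
  have hmem : ∀ᵐ p ∂(V.restrict (Dm c K s)), p ∈ Dm c K s := ae_restrict_mem mD
  have hξ4 : ∀ p ∈ Dm c K s, (s ^ 2)⁻¹ * ‖c.x p.1‖ ^ 2 ≤ 4 := by
    intro p hp
    rw [inv_mul_le_iff₀ (by positivity)]
    have := pow_le_pow_left₀ (norm_nonneg _) hp.2 2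
    linarith
  set q1 : Euc k × L k → ℝ := fun p => (s ^ 2)⁻¹ * (κ0 * ‖c.x p.1‖ ^ 2 * ‖c.nu p.1‖) with hq1
  set q2 : Euc k × L k → ℝ := fun p => (s ^ 2)⁻¹ * (κ3 * ‖c.x p.1‖ * ‖c.x p.1‖ ^ 2 / 2) with hq2
  have hhr : ∀ᵐ p ∂(V.restrict (Dm c K s)), ‖c.nu p.1‖ ≤ h * s := by
    filter_upwards [hmem, ae_restrict_of_ae hh] with p h1 h2 using h2 h1
  have hqle : ∀ p ∈ Dm c K s, q1 p ≤ 4 * κ0 * ‖c.nu p.1‖ := by
    intro p hp
    have h1 := hξ4 p hp
    have h2 : 0 ≤ κ0 * ‖c.nu p.1‖ := mul_nonneg hκ0 (norm_nonneg _)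
    calc q1 p = ((s ^ 2)⁻¹ * ‖c.x p.1‖ ^ 2) * (κ0 * ‖c.nu p.1‖) := by rw [hq1]; ring
      _ ≤ 4 * (κ0 * ‖c.nu p.1‖) := mul_le_mul_of_nonneg_right h1 h2
      _ = _ := by ring
  have hq2le : ∀ p ∈ Dm c K s, q2 p ≤ 4 * κ3 * s := by
    intro p hp
    have h1 := hξ4 p hp
    have h2 : κ3 * ‖c.x p.1‖ / 2 ≤ κ3 * s := by
      have := mul_le_mul_of_nonneg_left hp.2 hκ3
      linarith
    have h3 : 0 ≤ (s ^ 2)⁻¹ * ‖c.x p.1‖ ^ 2 := by positivity
    calc q2 p = ((s ^ 2)⁻¹ * ‖c.x p.1‖ ^ 2) * (κ3 * ‖c.x p.1‖ / 2) := by rw [hq2]; ring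
      _ ≤ 4 * (κ3 * s) := mul_le_mul h1 h2 (by positivity) (by norm_num)
      _ = _ := by ring
  have hq0 : ∀ p, 0 ≤ q1 p := fun p => by rw [hq1]; positivity
  have hq20 : ∀ p, 0 ≤ q2 p := fun p => by rw [hq2]; positivity
  have hb := bottom hV hm hs0 hU hQ hc hgk ha hL hLip mD hfin
    (ξ := fun p => (s ^ 2)⁻¹ * ‖c.x p.1‖ ^ 2) (η := fun p => (s ^ 2)⁻¹ * ‖c.nu p.1‖ ^ 2)
    (q := fun p => q1 p + q2 p) (w1 := fun _ => 1) (w2 := fun p => c.mu (c.x p.1))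
    (κ := 8 * κ0 * s) (h := h) (a := 4 * κ0 * s * h + 4 * κ3 * s) (a2 := 32 * (κ3 * s) ^ 2)
    (κw := κ3 * s) ?_ (mξ'.mono_measure hle).aemeasurable (mη'.mono_measure hle).aemeasurable
    aemeasurable_const (mμ'.mono_measure hle).aemeasurable
    (Eventually.of_forall fun p => by positivity) (Eventually.of_forall fun p => by positivity)
    ?_ ?_ ?_ ?_ ?_ ?_
  · -- assemble
    have hgm : ∀ F : Euc k × L k → ℝ, (∀ p ∈ K ×ˢ (univ : Set (L k)), p ∉ Dm c K s → F p = 0) →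
        ∫ p in K ×ˢ univ, F p ∂V = ∫ p in Dm c K s, F p ∂V := by
      intro F hF
      rw [← integral_indicator mK, ← integral_indicator mD]
      congr 1
      ext p
      by_cases h1 : p ∈ Dm c K s
      · rw [indicator_of_mem h1, indicator_of_mem (hDK h1)]
      · rw [indicator_of_notMem h1]
        by_cases h2 : p ∈ K ×ˢ (univ : Set (L k))
        · rw [indicator_of_mem h2, hF p h2 h1]
        · rw [indicator_of_notMem h2]
    have hout : ∀ p ∈ K ×ˢ (univ : Set (L k)), p ∉ Dm c K s → 1 ≤ (s ^ 2)⁻¹ * ‖c.x p.1‖ ^ 2 := by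
      intro p hp hn
      have h1 : 2 * s < ‖c.x p.1‖ := by
        by_contra hcon
        exact hn ⟨hp.1, not_lt.1 hcon⟩
      rw [inv_mul_eq_div, one_le_div (by positivity)]
      nlinarith [norm_nonneg (c.x p.1)]
    -- EE
    have e1 : ∫ p in K ×ˢ univ, 1 * g (Real.exp (-2 * l) * ‖c.x p.1‖ ^ 2) ∂V =
        ∫ p in Dm c K s, g ((s ^ 2)⁻¹ * ‖c.x p.1‖ ^ 2) * (1:ℝ) ∂V := by
      rw [hgm _ (fun p hp hn => by rw [es, hgk.zero _ (hout p hp hn), mul_zero])]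
      refine integral_congr_ae (Eventually.of_forall fun p => ?_)
      simp only [es]; ring
    have e2 : ∫ p in K ×ˢ univ, (c.f p.1 * c.mu (c.x p.1)) *
        (-4 * g1 (Real.exp (-2 * l) * ‖c.x p.1‖ ^ 2)) ∂V =
        -2 * s ^ 2 * ∫ p in Dm c K s, g1 ((s ^ 2)⁻¹ * ‖c.x p.1‖ ^ 2) *
          ((s ^ 2)⁻¹ * ‖c.nu p.1‖ ^ 2) * c.mu (c.x p.1) ∂V := by
      rw [hgm _ (fun p hp hn => by rw [es, hgk.zero' _ (hout p hp hn)]; ring),
        ← integral_const_mul]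
      refine setIntegral_congr_fun mD fun p hp => ?_
      have h1 : ‖c.nu p.1‖ ^ 2 = 2 * c.f p.1 := hok.nusq _ hp.1
      simp only [es, h1]
      field_simp
      ring
    have hIg : Integrable (fun v : Euc m => g ((s ^ 2)⁻¹ * ‖v‖ ^ 2)) := by
      refine Continuous.integrable_of_hasCompactSupport
        (hgk.continuous.comp (by fun_prop)) ?_
      refine HasCompactSupport.intro (isCompact_closedBall (0 : Euc m) s) fun v hv => ?_
      rw [mem_closedBall_zero_iff, not_le] at hv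
      refine hgk.zero _ ?_
      rw [inv_mul_eq_div, one_le_div (by positivity)]
      exact pow_le_pow_left₀ hs0.le hv.le 2
    -- the graph part
    have e3 : ∫ v : Euc m, c.j v * g (Real.exp (-2 * l) * ‖v‖ ^ 2) ≤
        (1 + κ3 * s) * ∫ v : Euc m, g ((s ^ 2)⁻¹ * ‖v‖ ^ 2) := by
      rw [es, ← integral_const_mul]
      have hz : ∀ v : Euc m, s < ‖v‖ → g ((s ^ 2)⁻¹ * ‖v‖ ^ 2) = 0 := by
        intro v hv
        refine hgk.zero _ ?_
        rw [inv_mul_eq_div, one_le_div (by positivity)]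
        exact pow_le_pow_left₀ hs0.le hv.le 2
      have hle : ∀ v : Euc m, c.j v * g ((s ^ 2)⁻¹ * ‖v‖ ^ 2) ≤
          (1 + κ3 * s) * g ((s ^ 2)⁻¹ * ‖v‖ ^ 2) := by
        intro v
        rcases le_or_gt ‖v‖ s with h1 | h1
        · exact mul_le_mul_of_nonneg_right (hj v h1) (g_nonneg hgk ha (by positivity))
        · rw [hz v h1, mul_zero, mul_zero]
      by_cases hint : Integrable (fun v : Euc m => c.j v * g ((s ^ 2)⁻¹ * ‖v‖ ^ 2))
      · exact integral_mono hint (hIg.const_mul _) hle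
      · rw [integral_undef hint]
        exact integral_nonneg fun v => mul_nonneg (by positivity) (g_nonneg hgk ha (by positivity))
    have e4 : ∫ v : Euc m, g ((s ^ 2)⁻¹ * ‖v‖ ^ 2) = Real.exp (m * l) * ∫ v : Euc m, g (‖v‖ ^ 2) := by
      have := leb_scale g (0 : Euc m) l
      simp only [sub_zero, es] at this
      exact this
    have i0 : 0 ≤ ∫ v : Euc m, g (‖v‖ ^ 2) := integral_nonneg fun v => g_nonneg hgk ha (by positivity)
    -- bounds of the error integrals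
    have hMr : (V.restrict (Dm c K s)).real univ ≤ M0 * Real.exp (m * l) := by
      rw [measureReal_restrict_apply_univ]; exact hM
    have j0 : AEMeasurable (fun p : Euc k × L k => (s ^ 2)⁻¹ * ‖c.x p.1‖ ^ 2)
      (V.restrict (Dm c K s)) := (mξ'.mono_measure hle).aemeasurable
    have j1 : ∫ p in Dm c K s, -g1 ((s ^ 2)⁻¹ * ‖c.x p.1‖ ^ 2) ∂V ≤ Kg * M0 * Real.exp (m * l) := by
      have hKg0 : 0 ≤ Kg := (abs_nonneg _).trans (hKg 0 le_rfl).1
      have h1 : ∫ p in Dm c K s, -g1 ((s ^ 2)⁻¹ * ‖c.x p.1‖ ^ 2) ∂V ≤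
          ∫ _p in Dm c K s, Kg ∂V := by
        refine integral_mono_of_nonneg (Eventually.of_forall fun p => ?_) (integrable_const Kg)
          (Eventually.of_forall fun p => ?_)
        · simp only [Pi.zero_apply]
          linarith [ha _ (show 0 ≤ (s ^ 2)⁻¹ * ‖c.x p.1‖ ^ 2 by positivity)]
        · have := (hKg _ (show 0 ≤ (s ^ 2)⁻¹ * ‖c.x p.1‖ ^ 2 by positivity)).2
          exact (neg_le_abs _).trans this
      rw [integral_const, smul_eq_mul] at h1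
      calc _ ≤ _ := h1
        _ ≤ (M0 * Real.exp (m * l)) * Kg := mul_le_mul_of_nonneg_right hMr hKg0
        _ = _ := by ring
    have hKg0 : 0 ≤ Kg := (abs_nonneg _).trans (hKg 0 le_rfl).1
    have j2 : ∫ p in Dm c K s, g ((s ^ 2)⁻¹ * ‖c.x p.1‖ ^ 2) ∂V ≤ Kg * M0 * Real.exp (m * l) := by
      have h1 : ∫ p in Dm c K s, g ((s ^ 2)⁻¹ * ‖c.x p.1‖ ^ 2) ∂V ≤
          ∫ _p in Dm c K s, Kg ∂V := by
        refine integral_mono_of_nonneg (Eventually.of_forall fun p => ?_) (integrable_const Kg)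
          (Eventually.of_forall fun p => ?_)
        · exact g_nonneg hgk ha (by positivity)
        · exact (le_abs_self _).trans
            (hKg _ (show 0 ≤ (s ^ 2)⁻¹ * ‖c.x p.1‖ ^ 2 by positivity)).1
      rw [integral_const, smul_eq_mul] at h1
      calc _ ≤ _ := h1
        _ ≤ (M0 * Real.exp (m * l)) * Kg := mul_le_mul_of_nonneg_right hMr hKg0
        _ = _ := by ring
    have iη : Integrable (fun p : Euc k × L k => (s ^ 2)⁻¹ * ‖c.nu p.1‖ ^ 2)
        (V.restrict (Dm c K s)) := by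
      refine Integrable.mono' (integrable_const (h ^ 2)) (mη'.mono_measure hle) ?_
      filter_upwards [hhr] with p hp
      rw [Real.norm_eq_abs, abs_of_nonneg (by positivity), inv_mul_le_iff₀ (by positivity)]
      calc ‖c.nu p.1‖ ^ 2 ≤ (h * s) ^ 2 := pow_le_pow_left₀ (norm_nonneg _) hp 2
        _ = s ^ 2 * h ^ 2 := by ring
    have j3 : ∫ p in Dm c K s, (s ^ 2)⁻¹ * ‖c.nu p.1‖ ^ 2 ∂V ≤ H * Real.exp (m * l) := by
      rw [integral_const_mul, inv_mul_le_iff₀ (by positivity)]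
      refine hH.trans (le_of_eq ?_)
      rw [hs, ← Real.exp_nat_mul]; push_cast; ring
    have j4 : ∫ p in Dm c K s, -g1 ((s ^ 2)⁻¹ * ‖c.x p.1‖ ^ 2) * ((s ^ 2)⁻¹ * ‖c.nu p.1‖ ^ 2) ∂V ≤
        Kg * H * Real.exp (m * l) := by
      have h1 : ∫ p in Dm c K s, -g1 ((s ^ 2)⁻¹ * ‖c.x p.1‖ ^ 2) *
          ((s ^ 2)⁻¹ * ‖c.nu p.1‖ ^ 2) ∂V ≤
          ∫ p in Dm c K s, Kg * ((s ^ 2)⁻¹ * ‖c.nu p.1‖ ^ 2) ∂V := by
        refine integral_mono_of_nonneg (Eventually.of_forall fun p => ?_) (iη.const_mul Kg)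
          (Eventually.of_forall fun p => ?_)
        · exact mul_nonneg (by linarith [ha _ (show 0 ≤ (s ^ 2)⁻¹ * ‖c.x p.1‖ ^ 2 by positivity)])
            (by positivity)
        · exact mul_le_mul_of_nonneg_right ((neg_le_abs _).trans
            (hKg _ (show 0 ≤ (s ^ 2)⁻¹ * ‖c.x p.1‖ ^ 2 by positivity)).2) (by positivity)
      rw [integral_const_mul] at h1
      calc _ ≤ _ := h1
        _ ≤ Kg * (H * Real.exp (m * l)) := mul_le_mul_of_nonneg_left j3 hKg0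
        _ = _ := by ring
    -- final
    set A := ∫ p in Dm c K s, g ((s ^ 2)⁻¹ * ‖c.x p.1‖ ^ 2) * (1:ℝ) ∂V with hA
    set B := ∫ p in Dm c K s, g1 ((s ^ 2)⁻¹ * ‖c.x p.1‖ ^ 2) *
          ((s ^ 2)⁻¹ * ‖c.nu p.1‖ ^ 2) * c.mu (c.x p.1) ∂V with hB
    have hEE : EE c (V.restrict (K ×ˢ univ)) g Q l - II c (V.restrict (K ×ˢ univ)) g1 l / 2 =
        Real.exp ((2 - m) * l) * (A + B - Q * ∫ v : Euc m, c.j v *
          g (Real.exp (-2 * l) * ‖v‖ ^ 2)) := by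
      unfold GL_394.EE GL_394.II
      rw [e1, e2]
      have h1 : Real.exp ((2 - m) * l) = Real.exp (-m * l) * s ^ 2 := by
        rw [hs, ← Real.exp_nat_mul, ← Real.exp_add]; congr 1; push_cast; ring
      rw [h1]
      ring
    rw [hEE]
    have hx1 : Real.exp (-(2 * l)) * Real.exp ((2 - m) * l) = Real.exp (-(m * l)) := by
      rw [← Real.exp_add]; congr 1; ring
    rw [← mul_assoc (Real.exp (-(2 * l))) (Real.exp ((2 - (m:ℝ)) * l)) _, hx1]
    have hem : 0 < Real.exp (m * l) := Real.exp_pos _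
    have hem' : Real.exp (-(m * l)) * Real.exp (m * l) = 1 := by
      rw [← Real.exp_add]; simp
    have hQj : Q * ∫ v : Euc m, c.j v * g (Real.exp (-2 * l) * ‖v‖ ^ 2) ≤
        Q * ((1 + κ3 * s) * ∫ v : Euc m, g ((s ^ 2)⁻¹ * ‖v‖ ^ 2)) :=
      mul_le_mul_of_nonneg_left e3 hQ
    rw [e4] at hb hQj
    -- nonnegativity of coefficients
    have c1 : 0 ≤ 2 * (4 * κ0 * s * h + 4 * κ3 * s) := by positivity
    have c2 : 0 ≤ 2 * Lp * (h ^ 2 + 4 * (8 * κ0 * s) ^ 2) := by positivity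
    have c3 : 0 ≤ κ3 * s := by positivity
    have c4 : 0 ≤ 8 * Lp * (32 * (κ3 * s) ^ 2) := by positivity
    have k1 := mul_le_mul_of_nonneg_left j1 c1
    have k2 := mul_le_mul_of_nonneg_left j3 c2
    have k3 := mul_le_mul_of_nonneg_left (add_le_add j2 j4) c3
    have k4 := mul_le_mul_of_nonneg_left hM c4
    have hfinal : -((8 * (κ0 * h + κ3) * s * Kg * M0 + 2 * Lp * (h ^ 2 + 256 * (κ0 * s) ^ 2) * H
        + 256 * Lp * (κ3 * s) ^ 2 * M0 + κ3 * s * (Kg * M0 + Kg * H)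
        + Q * (κ3 * s * ∫ v : Euc m, g (‖v‖ ^ 2))) * Real.exp (m * l)) ≤
        A + B - Q * ∫ v : Euc m, c.j v * g (Real.exp (-2 * l) * ‖v‖ ^ 2) := by
      have r1 : -((8 * (κ0 * h + κ3) * s * Kg * M0
        + 2 * Lp * (h ^ 2 + 256 * (κ0 * s) ^ 2) * H
        + 256 * Lp * (κ3 * s) ^ 2 * M0 + κ3 * s * (Kg * M0 + Kg * H)
        + Q * (κ3 * s * ∫ v : Euc m, g (‖v‖ ^ 2))) * Real.exp (m * l)) =
        Q * (Real.exp (m * l) * ∫ v : Euc m, g (‖v‖ ^ 2))
        - (2 * (4 * κ0 * s * h + 4 * κ3 * s) * (Kg * M0 * Real.exp (m * l))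
          + 2 * Lp * (h ^ 2 + 4 * (8 * κ0 * s) ^ 2) * (H * Real.exp (m * l))
          + 8 * Lp * (32 * (κ3 * s) ^ 2) * (M0 * Real.exp (m * l))
          + κ3 * s * (Kg * M0 * Real.exp (m * l) + Kg * H * Real.exp (m * l)))
        - Q * ((1 + κ3 * s) * (Real.exp (m * l) * ∫ v : Euc m, g (‖v‖ ^ 2))) := by ring
      rw [r1]
      linarith
    have h5 := mul_le_mul_of_nonneg_left hfinal (Real.exp_pos (-(m * l))).le
    refine le_trans (le_of_eq ?_) h5
    calc _ = -((8 * (κ0 * h + κ3) * s * Kg * M0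
        + 2 * Lp * (h ^ 2 + 256 * (κ0 * s) ^ 2) * H
        + 256 * Lp * (κ3 * s) ^ 2 * M0 + κ3 * s * (Kg * M0 + Kg * H)
        + Q * (κ3 * s * ∫ v : Euc m, g (‖v‖ ^ 2))) *
          (Real.exp (-(m * l)) * Real.exp (m * l))) := by rw [hem', mul_one]
      _ = _ := by ring
  · -- covering
    filter_upwards [hcov] with p hp hlt
    have hpK := hp hlt
    refine ⟨hpK, ?_⟩
    have h1 := hdist _ hpK
    have h2 := hsm _ hpK
    have h2' := hsm3 _ hpK
    have h3 : ‖p.1 - z0‖ ^ 2 ≤ s ^ 2 := pow_le_pow_left₀ (norm_nonneg _) hlt.le 2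
    have h4 : 2 * (κ0 * ‖c.x p.1‖ ^ 2 * ‖c.nu p.1‖) ≤ 1 / 4 * ‖c.x p.1‖ ^ 2 := by
      have := mul_le_mul_of_nonneg_right h2 (sq_nonneg ‖c.x p.1‖)
      nlinarith
    have h4' : κ3 * ‖c.x p.1‖ * ‖c.x p.1‖ ^ 2 ≤ 1 / 4 * ‖c.x p.1‖ ^ 2 :=
      mul_le_mul_of_nonneg_right (by linarith) (sq_nonneg _)
    have h5 : ‖c.x p.1‖ ^ 2 ≤ (2 * s) ^ 2 := by nlinarith [sq_nonneg ‖c.nu p.1‖]
    exact le_of_sq_le_sq h5 (by positivity)
  · filter_upwards [hhr] with p hp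
    rw [inv_mul_le_iff₀ (by positivity)]
    calc ‖c.nu p.1‖ ^ 2 ≤ (h * s) ^ 2 := pow_le_pow_left₀ (norm_nonneg _) hp 2
      _ = s ^ 2 * h ^ 2 := by ring
  · filter_upwards [hmem, hhr] with p h1 h2
    rw [abs_of_nonneg (add_nonneg (hq0 p) (hq20 p))]
    have h3 : 4 * κ0 * ‖c.nu p.1‖ ≤ 4 * κ0 * (h * s) := mul_le_mul_of_nonneg_left h2 (by positivity)
    have h4 := hqle p h1
    have h5 := hq2le p h1
    linarith
  · filter_upwards [hmem] with p h1
    have h2 := pow_le_pow_left₀ (hq0 p) (hqle p h1) 2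
    have h3 := pow_le_pow_left₀ (hq20 p) (hq2le p h1) 2
    have h4 : (q1 p + q2 p) ^ 2 ≤ 2 * q1 p ^ 2 + 2 * q2 p ^ 2 := by nlinarith [sq_nonneg (q1 p - q2 p)]
    have h5 : (8 * κ0 * s) ^ 2 * ((s ^ 2)⁻¹ * ‖c.nu p.1‖ ^ 2) = 64 * (κ0 * ‖c.nu p.1‖) ^ 2 := by
      field_simp; ring
    rw [h5]
    nlinarith [sq_nonneg (κ0 * ‖c.nu p.1‖)]
  · exact Eventually.of_forall fun p => by simp; positivity
  · filter_upwards [hmem] with p h1
    exact hmu _ h1.2
  · filter_upwards [hmem] with p h1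
    have h2 := hdist _ h1.1
    have h3 := mul_le_mul_of_nonneg_left h2 (inv_nonneg.2 (sq_nonneg s))
    refine le_trans (le_of_eq ?_) h3
    rw [hq1, hq2]; ring

end Crest.Agent.R234.LowF5_471
end
end

-- ▼ part R234/LowF8_471
section

/-!
# Row 234, (F4) LOW FREQUENCY, V level, part 1 (helper471): bounds of one level

From `J = exp(-2l) II ≤ S` on `[l, l0 + cc]`: sharp integrals of `2 f` and `tau` over
`{|x| ≤ 2 exp l}` and the sup bound of `|nu|`.
-/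

set_option autoImplicit false

open MeasureTheory Set Filter Topology Crest.GeometryTopology.Submanifold
open Crest.Agent.R234.Vf_884 Crest.Agent.R234.Cy_870
open scoped ENNReal NNReal InnerProductSpace

noncomputable section

namespace Crest.Agent.R234.LowF8_471

open Crest.Agent.R234.GL_394

variable {m k : ℕ} {c : Ch m k} {K : Set (Euc k)} {D : Set (Euc m)}
  {W : Measure (Euc k × L k)} {g g1 g2 : ℝ → ℝ}

/-- the sharp region -/
def Sh (c : Ch m k) (t : ℝ) : Set (Euc k × L k) := {p | ‖c.x p.1‖ ≤ t}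

theorem Sh_mono {s t : ℝ} (h : s ≤ t) : Sh c s ⊆ Sh c t := fun _ hp => le_trans hp h

theorem restrict_Sh (hV : On W m K) (t : ℝ) :
    W.restrict (Sh c t) = W.restrict ((K ×ˢ G m k) ∩ Sh c t) := by
  refine Measure.restrict_congr_set ?_
  filter_upwards [hV.mem] with p hp
  exact propext ⟨fun h1 => ⟨hp, h1⟩, fun h1 => h1.2⟩

theorem measurableSet_KSh (h : Ok c K D) (t : ℝ) :
    MeasurableSet ((K ×ˢ G m k) ∩ Sh c t) := by
  have hK : IsClosed (K ×ˢ G m k) := (h.cpt.prod (isCompact_G m k)).isClosed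
  have : IsClosed ((K ×ˢ G m k) ∩ Sh c t) :=
    (lift (m := m) h.cx).norm.preimage_isClosed_of_isClosed hK isClosed_Iic
  exact this.measurableSet

theorem ae_Sh (h : Ok c K D) (hV : On W m K) (t : ℝ) :
    ∀ᵐ p ∂(W.restrict (Sh c t)), p ∈ K ×ˢ G m k ∧ ‖c.x p.1‖ ≤ t := by
  rw [restrict_Sh hV t]
  filter_upwards [ae_restrict_mem (measurableSet_KSh h t)] with p hp
  exact ⟨hp.1, hp.2⟩

/-- monotonicity of sharp integrals -/
theorem int_Sh_mono (h : Ok c K D) (hV : On W m K) {F : Euc k × L k → ℝ}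
    (hF : ContinuousOn F (K ×ˢ G m k)) (hF0 : ∀ p ∈ K ×ˢ G m k, 0 ≤ F p) {s t : ℝ} (hst : s ≤ t) :
    ∫ p in Sh c s, F p ∂W ≤ ∫ p in Sh c t, F p ∂W := by
  refine setIntegral_mono_set (hV.integrable h.cpt hF).integrableOn ?_
    (Sh_mono hst).eventuallyLE
  filter_upwards [ae_Sh h hV t] with p hp
  exact hF0 p hp.1

theorem int_Sh_nonneg (h : Ok c K D) (hV : On W m K) {F : Euc k × L k → ℝ}
    (hF0 : ∀ p ∈ K ×ˢ G m k, 0 ≤ F p) (t : ℝ) : 0 ≤ ∫ p in Sh c t, F p ∂W := by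
  refine integral_nonneg_of_ae ?_
  filter_upwards [ae_Sh h hV t] with p hp
  exact hF0 p hp.1

/-- `∫_{|x| ≤ e^l/2} 2 f ≤ b0⁻¹ e^(ml) II(l)` -/
theorem int_f_le_II (h : Ok c K D) (hV : On W m K) (hp : Prof g g1 g2) {b0 : ℝ} (hb0 : 0 < b0)
    (hb : ∀ t, 0 ≤ t → t ≤ 1 / 4 → b0 ≤ -g1 t) {l : ℝ}
    (hmu : ∀ v : Euc m, ‖v‖ ≤ Real.exp l → 1 / 2 ≤ c.mu v) :
    ∫ p in Sh c (Real.exp l / 2), 2 * c.f p.1 ∂W ≤ b0⁻¹ * Real.exp (m * l) * II c W g1 l := by
  have hel : 0 < Real.exp l := Real.exp_pos l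
  have i1 := h.int hV h.cfmu (q := fun t => -4 * g1 t)
    (continuous_const.mul hp.k1.continuous) l
  have hfull : b0 * ∫ p in Sh c (Real.exp l / 2), 2 * c.f p.1 ∂W ≤
      ∫ p, (c.f p.1 * c.mu (c.x p.1)) * (-4 * g1 (Real.exp (-2 * l) * ‖c.x p.1‖ ^ 2)) ∂W := by
    rw [← integral_const_mul]
    have hnn : 0 ≤ᵐ[W] fun p => (c.f p.1 * c.mu (c.x p.1)) *
        (-4 * g1 (Real.exp (-2 * l) * ‖c.x p.1‖ ^ 2)) := by
      filter_upwards [hV.mem] with p hpm
      have h1 := h.f_nonneg hpm.1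
      have h2 := (h.mupos _ (h.mem _ hpm.1)).le
      have h3 := hp.anti (Real.exp (-2 * l) * ‖c.x p.1‖ ^ 2) (by positivity)
      exact mul_nonneg (mul_nonneg h1 h2) (by linarith)
    refine le_trans ?_ (setIntegral_le_integral i1 hnn (s := Sh c (Real.exp l / 2)))
    have i2 : Integrable (fun p : Euc k × L k => b0 * (2 * c.f p.1)) W :=
      hV.integrable h.cpt (continuousOn_const.mul (continuousOn_const.mul (lift h.cf)))
    refine integral_mono_ae i2.integrableOn i1.integrableOn ?_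
    filter_upwards [ae_Sh h hV (Real.exp l / 2)] with p hpp
    obtain ⟨hpm, hx⟩ := hpp
    have h1 := h.f_nonneg hpm.1
    have hxl : ‖c.x p.1‖ ≤ Real.exp l := by linarith
    have h2 := hmu _ hxl
    have ht : Real.exp (-2 * l) * ‖c.x p.1‖ ^ 2 ≤ 1 / 4 := by
      have h3 : ‖c.x p.1‖ ^ 2 ≤ (Real.exp l / 2) ^ 2 := pow_le_pow_left₀ (norm_nonneg _) hx 2
      have h4 : Real.exp (-2 * l) * (Real.exp l) ^ 2 = 1 := by
        rw [← Real.exp_nat_mul, ← Real.exp_add]; simp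
      calc Real.exp (-2 * l) * ‖c.x p.1‖ ^ 2 ≤ Real.exp (-2 * l) * (Real.exp l / 2) ^ 2 := by gcongr
        _ = (Real.exp (-2 * l) * (Real.exp l) ^ 2) / 4 := by ring
        _ = 1 / 4 := by rw [h4]
    have h3 := hb (Real.exp (-2 * l) * ‖c.x p.1‖ ^ 2) (by positivity) ht
    have h5 : 2 * b0 ≤ 4 * (-g1 (Real.exp (-2 * l) * ‖c.x p.1‖ ^ 2)) * c.mu (c.x p.1) := by
      nlinarith
    calc b0 * (2 * c.f p.1) = (2 * b0) * c.f p.1 := by ring
      _ ≤ (4 * (-g1 (Real.exp (-2 * l) * ‖c.x p.1‖ ^ 2)) * c.mu (c.x p.1)) * c.f p.1 :=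
        mul_le_mul_of_nonneg_right h5 h1
      _ = _ := by ring
  have e1 : Real.exp (m * l) * Real.exp (-m * l) = 1 := by rw [← Real.exp_add]; simp
  have e2 : b0⁻¹ * Real.exp (m * l) * II c W g1 l = b0⁻¹ * ((Real.exp (m * l) * Real.exp (-m * l)) *
      ∫ p, (c.f p.1 * c.mu (c.x p.1)) * (-4 * g1 (Real.exp (-2 * l) * ‖c.x p.1‖ ^ 2)) ∂W) := by
    unfold II; ring
  rw [e2, e1, one_mul, ← div_eq_inv_mul, le_div_iff₀ hb0, mul_comm]
  exact hfull

/-- constants of one level -/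
def C1 (m : ℕ) (A b0 : ℝ) : ℝ := A * b0⁻¹ * 8 ^ m * 64

/-- hypotheses (S1), (S2) of VF-GL-SUP at all scales up to `T` -/
structure Sup (c : Ch m k) (W : Measure (Euc k × L k)) (A T : ℝ) : Prop where
  s1 : ∀ s t, 0 < s → s < t → t ≤ T → ∀ᵐ p ∂W, ‖c.x p.1‖ ≤ s →
    2 * c.f p.1 ≤ A * ((t - s) ^ m)⁻¹ * ∫ p in Sh c t, 2 * c.f p.1 ∂W
  s2 : ∀ s t, 0 < s → s < t → t ≤ T → (∀ᵐ p ∂W, ‖c.x p.1‖ ≤ t → ‖c.nu p.1‖ ≤ (t - s) / 8) →
    ∫ p in Sh c s, c.tau p.1 p.2 ∂W ≤ A * ((t - s) ^ 2)⁻¹ * ∫ p in Sh c t, 2 * c.f p.1 ∂W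

theorem exp_three : (8:ℝ) ≤ Real.exp 3 := by
  have h1 : (2:ℝ) ≤ Real.exp 1 := by
    have := Real.add_one_le_exp (1:ℝ); linarith
  have h2 : Real.exp 3 = Real.exp 1 ^ 3 := by rw [← Real.exp_nat_mul]; norm_num
  rw [h2]
  calc (8:ℝ) = 2 ^ 3 := by norm_num
    _ ≤ _ := pow_le_pow_left₀ (by norm_num) h1 3

theorem log_eight : Real.log 8 ≤ 3 := by
  rw [Real.log_le_iff_le_exp (by norm_num)]; exact exp_three

/-- **one level**: `J(l + log 8) ≤ S` bounds everything on `{|x| ≤ 2 e^l}`. -/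
theorem level (h : Ok c K D) (hV : On W m K) (hp : Prof g g1 g2) {b0 A T : ℝ} (hb0 : 0 < b0)
    (hb : ∀ t, 0 ≤ t → t ≤ 1 / 4 → b0 ≤ -g1 t) (hA : 1 ≤ A) {l S : ℝ} (hS : 0 ≤ S)
    (hT : 8 * Real.exp l ≤ T)
    (hmu : ∀ v : Euc m, ‖v‖ ≤ T → 1 / 2 ≤ c.mu v) (hsup : Sup c W A T)
    (hJ : Real.exp (-(2 * (l + Real.log 8))) * II c W g1 (l + Real.log 8) ≤ S) :
    (∫ p in Sh c (4 * Real.exp l), 2 * c.f p.1 ∂W ≤
      C1 m A b0 * S * Real.exp (m * l) * Real.exp (2 * l)) ∧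
    (∀ᵐ p ∂W, ‖c.x p.1‖ ≤ 3 * Real.exp l →
      ‖c.nu p.1‖ ≤ Real.sqrt (C1 m A b0 * S) * Real.exp l) ∧
    (C1 m A b0 * S ≤ 1 / 64 →
      ∫ p in Sh c (2 * Real.exp l), c.tau p.1 p.2 ∂W ≤ C1 m A b0 * S * Real.exp (m * l)) := by
  have hel : 0 < Real.exp l := Real.exp_pos l
  have he8 : Real.exp (l + Real.log 8) = 8 * Real.exp l := by
    rw [Real.exp_add, Real.exp_log (by norm_num)]; ring
  have hem : Real.exp (m * (l + Real.log 8)) = 8 ^ m * Real.exp (m * l) := by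
    rw [Real.exp_nat_mul, he8, mul_pow, ← Real.exp_nat_mul]
  have he2 : Real.exp (2 * (l + Real.log 8)) = 64 * Real.exp (2 * l) := by
    have e1 : (2:ℝ) * (l + Real.log 8) = ((2:ℕ):ℝ) * (l + Real.log 8) := by norm_num
    have e2 : (2:ℝ) * l = ((2:ℕ):ℝ) * l := by norm_num
    rw [e1, e2, Real.exp_nat_mul, he8, mul_pow, ← Real.exp_nat_mul]
    norm_num
  have hX0 : 0 ≤ b0⁻¹ * 8 ^ m * 64 * S * Real.exp (m * l) * Real.exp (2 * l) := by positivity
  have hI8 : II c W g1 (l + Real.log 8) ≤ S * (64 * Real.exp (2 * l)) := by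
    have h1 := mul_le_mul_of_nonneg_left hJ (Real.exp_pos (2 * (l + Real.log 8))).le
    rw [← mul_assoc, ← Real.exp_add] at h1
    have h2 : 2 * (l + Real.log 8) + -(2 * (l + Real.log 8)) = 0 := by ring
    rw [h2, Real.exp_zero, one_mul, he2] at h1
    linarith
  have hi' : ∫ p in Sh c (4 * Real.exp l), 2 * c.f p.1 ∂W ≤
      b0⁻¹ * 8 ^ m * 64 * S * Real.exp (m * l) * Real.exp (2 * l) := by
    have h1 := int_f_le_II h hV hp hb0 hb (l := l + Real.log 8) (fun v hv => hmu v (by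
      rw [he8] at hv; exact hv.trans hT))
    rw [he8, hem] at h1
    have h2 : 8 * Real.exp l / 2 = 4 * Real.exp l := by ring
    rw [h2] at h1
    refine h1.trans ?_
    calc b0⁻¹ * (8 ^ m * Real.exp (m * l)) * II c W g1 (l + Real.log 8) ≤
        b0⁻¹ * (8 ^ m * Real.exp (m * l)) * (S * (64 * Real.exp (2 * l))) := by gcongr
      _ = _ := by ring
  have hf0 : ∀ p ∈ K ×ˢ G m k, 0 ≤ 2 * c.f p.1 := fun p hpm => by
    have := h.f_nonneg hpm.1; linarith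
  have cf2 : ContinuousOn (fun p : Euc k × L k => 2 * c.f p.1) (K ×ˢ G m k) :=
    continuousOn_const.mul (lift h.cf)
  have hsh : ∀ᵐ p ∂W, ‖c.x p.1‖ ≤ 3 * Real.exp l →
      ‖c.nu p.1‖ ≤ Real.sqrt (C1 m A b0 * S) * Real.exp l := by
    filter_upwards [hsup.s1 (3 * Real.exp l) (4 * Real.exp l) (by positivity) (by linarith)
      (by linarith), hV.mem] with p h1 hpm hx
    have h2 := h1 hx
    have h3 : 4 * Real.exp l - 3 * Real.exp l = Real.exp l := by ring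
    rw [h3] at h2
    have h4 : ((Real.exp l) ^ m)⁻¹ * Real.exp (m * l) = 1 := by
      rw [Real.exp_nat_mul]; exact inv_mul_cancel₀ (by positivity)
    have h5 : 2 * c.f p.1 ≤ C1 m A b0 * S * Real.exp (2 * l) := by
      calc 2 * c.f p.1 ≤ A * ((Real.exp l) ^ m)⁻¹ * ∫ p in Sh c (4 * Real.exp l), 2 * c.f p.1 ∂W := h2
        _ ≤ A * ((Real.exp l) ^ m)⁻¹ *
            (b0⁻¹ * 8 ^ m * 64 * S * Real.exp (m * l) * Real.exp (2 * l)) := by gcongr
        _ = C1 m A b0 * S * Real.exp (2 * l) * (((Real.exp l) ^ m)⁻¹ * Real.exp (m * l)) := by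
            unfold C1; ring
        _ = _ := by rw [h4, mul_one]
    rw [← h.nusq _ hpm.1] at h5
    have hC : 0 ≤ C1 m A b0 * S := by unfold C1; positivity
    refine le_of_sq_le_sq ?_ (by positivity)
    rw [mul_pow, Real.sq_sqrt hC, ← Real.exp_nat_mul]
    push_cast
    exact h5
  refine ⟨?_, hsh, fun hsm => ?_⟩
  · refine hi'.trans ?_
    calc b0⁻¹ * 8 ^ m * 64 * S * Real.exp (m * l) * Real.exp (2 * l) =
        1 * (b0⁻¹ * 8 ^ m * 64 * S * Real.exp (m * l) * Real.exp (2 * l)) := by ring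
      _ ≤ A * (b0⁻¹ * 8 ^ m * 64 * S * Real.exp (m * l) * Real.exp (2 * l)) :=
        mul_le_mul_of_nonneg_right hA hX0
      _ = _ := by unfold C1; ring
  · have hC : 0 ≤ C1 m A b0 * S := by unfold C1; positivity
    have hs8 : Real.sqrt (C1 m A b0 * S) ≤ 1 / 8 := by
      rw [Real.sqrt_le_left (by norm_num)]
      norm_num at hsm ⊢
      exact hsm
    have h1 := hsup.s2 (2 * Real.exp l) (3 * Real.exp l) (by positivity) (by linarith)
      (by linarith) (by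
        filter_upwards [hsh] with p h2 h3
        have h4 := h2 h3
        have h5 := mul_le_mul_of_nonneg_right hs8 hel.le
        linarith)
    have h3 : 3 * Real.exp l - 2 * Real.exp l = Real.exp l := by ring
    rw [h3] at h1
    have h4 : ((Real.exp l) ^ 2)⁻¹ * Real.exp (2 * l) = 1 := by
      have e2 : (2:ℝ) * l = ((2:ℕ):ℝ) * l := by norm_num
      rw [e2, Real.exp_nat_mul]; exact inv_mul_cancel₀ (by positivity)
    have h5 : ∫ p in Sh c (3 * Real.exp l), 2 * c.f p.1 ∂W ≤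
        b0⁻¹ * 8 ^ m * 64 * S * Real.exp (m * l) * Real.exp (2 * l) :=
      (int_Sh_mono h hV cf2 hf0 (by linarith)).trans hi'
    calc ∫ p in Sh c (2 * Real.exp l), c.tau p.1 p.2 ∂W ≤
        A * ((Real.exp l) ^ 2)⁻¹ * ∫ p in Sh c (3 * Real.exp l), 2 * c.f p.1 ∂W := h1
      _ ≤ A * ((Real.exp l) ^ 2)⁻¹ *
          (b0⁻¹ * 8 ^ m * 64 * S * Real.exp (m * l) * Real.exp (2 * l)) := by gcongr
      _ = C1 m A b0 * S * Real.exp (m * l) * (((Real.exp l) ^ 2)⁻¹ * Real.exp (2 * l)) := by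
          unfold C1; ring
      _ = _ := by rw [h4, mul_one]

end Crest.Agent.R234.LowF8_471
end
end

-- ▼ part R234/LowF9_471

/-!
# Row 234, (F4) LOW FREQUENCY, V level, part 2 (helper471)

`FRef` : a reference surface through a point `z0` of density `≥ Q`, with the pointwise bounds of
VF-GL at every level `l ≤ l0`, sup/energy bounds, anomaly bound.
`f4` : the lower frequency bound at `z0`.
-/

set_option autoImplicit false

open MeasureTheory Set Filter Topology Crest.GeometryTopology.Submanifold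
open Crest.Agent.R234.Vf_884 Crest.Agent.R234.Cy_870
open scoped ENNReal NNReal InnerProductSpace

noncomputable section

namespace Crest.Agent.R234.LowF9_471

open Crest.Agent.R234.GL_394
open Crest.Agent.R234.LowF4_471 (Lv lown)
open Crest.Agent.R234.LowF5_471
open Crest.Agent.R234.LowF7_471 (Lv.of_one)
open Crest.Agent.R234.LowF8_471

variable {m k : ℕ} {c : Ch m k} {K : Set (Euc k)} {D : Set (Euc m)}
  {g g1 g2 : ℝ → ℝ}

theorem Ok_mono (h : Ok c K D) {K' : Set (Euc k)} (hs : K' ⊆ K) (hc : IsCompact K') :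
    Ok c K' D where
  cpt := hc
  opn := h.opn
  mem := fun z hz => h.mem z (hs hz)
  hx := fun z hz => h.hx z (hs hz)
  hf := fun z hz => h.hf z (hs hz)
  hnu := fun z hz => h.hnu z (hs hz)
  hA := fun z hz => h.hA z (hs hz)
  cdx := h.cdx.mono hs
  cH := h.cH.mono hs
  cdA := h.cdA.mono hs
  ctau := h.ctau.mono (prod_mono_left hs)
  dxA := fun z hz => h.dxA z (hs hz)
  dxnu := fun z hz => h.dxnu z (hs hz)
  nusq := fun z hz => h.nusq z (hs hz)
  hgi := h.hgi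
  cdgi := h.cdgi
  hj := h.hj
  clam := h.clam
  cmu := h.cmu
  mupos := h.mupos
  hmu := h.hmu
  hbe := h.hbe
  hdbe := h.hdbe
  cdbe := h.cdbe

theorem KB_mono {l c0 d0 hh C0 c0' d0' C0' : ℝ} {zN : Euc k → Euc k}
    (h : KB c K l c0 d0 hh C0 zN) (hO : Ok c K D) (h0 : c0 ≤ c0') (h1 : d0 ≤ d0')
    (h2 : C0 ≤ C0') : KB c K l c0' d0' hh C0' zN := by
  have hq : ∀ p ∈ K ×ˢ G m k, 0 ≤ qq c l p.1 := fun p hp => qq_nonneg hO hp.1
  have hr : 0 < Real.exp (2 * l) := Real.exp_pos _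
  exact
  { c0n := h.c0n.trans h0
    d0n := h.d0n.trans h1
    hhn := h.hhn
    hh1 := h.hh1
    C0n := h.C0n.trans h2
    czN := h.czN
    tau0 := h.tau0
    taule := fun p hp hx => (h.taule p hp hx).trans h2
    qle := h.qle
    k1 := fun p hp hx => (h.k1 p hp hx).trans
      (mul_le_mul_of_nonneg_right h0 (add_nonneg (h.tau0 p hp hx) (hq p hp)))
    k2 := fun p hp hx => (h.k2 p hp hx).trans
      (mul_le_mul_of_nonneg_right h2 (add_nonneg (h.tau0 p hp hx) (hq p hp)))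
    k3 := fun p hp hx v => (h.k3 p hp hx v).trans (by
      have := add_nonneg (h.tau0 p hp hx) (hq p hp)
      gcongr)
    k4 := fun p hp hx => (h.k4 p hp hx).trans (by
      have a1 := h.tau0 p hp hx
      have a2 := hq p hp
      gcongr)
    k5 := fun z hz hx => (h.k5 z hz hx).trans (by gcongr)
    k5a := fun p hp hx => (h.k5a p hp hx).trans (by
      have a1 := h.tau0 p hp hx
      gcongr)
    k5b := fun p hp hx => (h.k5b p hp hx).trans (by
      have a1 := h.tau0 p hp hx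
      have a2 := hq p hp
      gcongr)
    hth := fun v hv => (h.hth v hv).trans h0
    hth3 := fun v hv => (h.hth3 v hv).trans h0
    hdbe := fun v hv => (h.hdbe v hv).trans h0
    hmu := h.hmu
    hgi := fun v hv => (h.hgi v hv).trans h2
    hdgv := fun v hv => (h.hdgv v hv).trans h2 }

theorem On_of_Stat {U : Set (Euc k)} {V : Measure (Euc k × L k)} (hK : IsCompact K)
    (hV : Stat m k U V) (hKU : K ⊆ U) : On (V.restrict (K ×ˢ univ)) m K where
  fin := ⟨by rw [Measure.restrict_apply_univ]; exact hV.fin K hK hKU⟩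
  mem := by
    filter_upwards [ae_restrict_mem (hK.isClosed.measurableSet.prod MeasurableSet.univ),
      ae_restrict_of_ae hV.conc] with p h1 h2
    exact ⟨h1.1, h2⟩

/-- the domain of the bottom inequality is the sharp region -/
theorem restrict_Dm {U : Set (Euc k)} {V : Measure (Euc k × L k)} (h : Ok c K D)
    (hV : Stat m k U V) (hKU : K ⊆ U) (s : ℝ) :
    V.restrict (Dm c K s) = (V.restrict (K ×ˢ univ)).restrict (Sh c (2 * s)) := by
  rw [restrict_Sh (On_of_Stat h.cpt hV hKU) (2 * s),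
    Measure.restrict_restrict (measurableSet_KSh h (2 * s))]
  refine Measure.restrict_congr_set ?_
  filter_upwards [hV.conc] with p hp
  refine propext ⟨fun h1 => ⟨⟨⟨h1.1, hp⟩, h1.2⟩, ⟨h1.1, mem_univ _⟩⟩, fun h1 => ⟨h1.1.1.1, h1.1.2⟩⟩

/-- a reference surface through `z0` with bounds at all levels `l ≤ l0` -/
structure FRef (c : Ch m k) (K : Set (Euc k)) (D : Set (Euc m)) (U : Set (Euc k))
    (V : Measure (Euc k × L k)) (z0 : Euc k) (g g1 : ℝ → ℝ) (A C0 Q κ l0 : ℝ)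
    (zN : Euc k → Euc k) (hs : ℝ) : Prop where
  ok : Ok c K D
  st : Stat m k U V
  KU : K ⊆ U
  hU : Metric.closedBall z0 (4 * Real.exp l0) ⊆ U
  hD : Metric.closedBall 0 (Real.exp (l0 + 3)) ⊆ D
  th : ENNReal.ofReal Q ≤ Th m V z0
  cov : ∀ᵐ p ∂V, ‖p.1 - z0‖ < Real.exp l0 → p.1 ∈ K
  dist : ∀ z ∈ K, (1 - A * κ * Real.exp (-l0) * ‖c.x z‖) * ‖c.x z‖ ^ 2 + ‖c.nu z‖ ^ 2
      - 2 * (A * κ * Real.exp (-l0) * ‖c.x z‖ ^ 2 * ‖c.nu z‖) ≤ ‖z - z0‖ ^ 2
  sm : ∀ z ∈ K, 8 * (A * κ * Real.exp (-l0) * ‖c.nu z‖) ≤ 1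
  sm3 : ∀ z ∈ K, 4 * (A * κ * Real.exp (-l0) * ‖c.x z‖) ≤ 1
  hj : ∀ l ≤ l0, ∀ v, ‖v‖ ≤ Real.exp l → c.j v ≤ 1 + A * κ * Real.exp (-l0) * Real.exp l
  hmu : ∀ l ≤ l0, ∀ v, ‖v‖ ≤ 2 * Real.exp l →
    |c.mu v - 1| ≤ A * κ * Real.exp (-l0) * Real.exp l
  mu2 : ∀ v : Euc m, ‖v‖ ≤ Real.exp (l0 + 3) → 1 / 2 ≤ c.mu v
  tau0 : ∀ p ∈ K ×ˢ G m k, 0 ≤ c.tau p.1 p.2
  sup : Sup c (V.restrict (K ×ˢ univ)) A (Real.exp (l0 + 3))
  kb : ∀ l ≤ l0, ∀ hh, 0 ≤ hh → hh ≤ 1 → ∀ K' ⊆ K, IsCompact K' →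
    (∀ z ∈ K', ‖c.x z‖ ≤ Real.exp l → ‖c.nu z‖ ≤ hh * Real.exp l) →
    KB c K' l (A * (κ * Real.exp (l - l0))) (A * (κ * Real.exp (l - l0)) * hh) hh C0 zN
  fv : ∀ l ≤ l0, FV (V.restrict (K ×ˢ univ)) (X1 c g l) = 0 ∧
    FV (V.restrict (K ×ˢ univ)) (X2 c g l) = 0 ∧ FV (V.restrict (K ×ˢ univ)) (X3 c g1 l) = 0
  er : ∀ l ≤ l0, ∀ K' ⊆ K, IsCompact K' →
    (∀ z ∈ K', ‖c.x z‖ ≤ 2 * Real.exp l → ‖c.nu z‖ ≤ hs * Real.exp l) →
    (∀ᵐ p ∂(V.restrict (K ×ˢ univ)), p.1 ∈ K') →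
    Real.exp ((2 - m) * l) * |er1a c (V.restrict (K ×ˢ univ)) g Q l| ≤
    A * (κ * Real.exp (l - l0)) * (Real.exp ((2 - m) * l) *
      ∫ p in Sh c (2 * Real.exp l), (c.tau p.1 p.2 + qq c l p.1) ∂(V.restrict (K ×ˢ univ)))
  dist2 : ∀ z ∈ K, ‖z - z0‖ ≤ 5 / 4 * ‖c.x z‖ + ‖c.nu z‖
  mass : ∀ l ≤ l0, V.real (Metric.ball z0 (4 * Real.exp l) ×ˢ univ) ≤ A * Real.exp (m * l)

/-- the energy + height over the double region -/
theorem int_sum (h : Ok c K D) {W : Measure (Euc k × L k)} (hV : On W m K) (l t : ℝ) :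
    ∫ p in Sh c t, (c.tau p.1 p.2 + qq c l p.1) ∂W =
      ∫ p in Sh c t, c.tau p.1 p.2 ∂W + Real.exp (-2 * l) * ∫ p in Sh c t, 2 * c.f p.1 ∂W := by
  have i1 : Integrable (fun p : Euc k × L k => c.tau p.1 p.2) W := hV.integrable h.cpt h.ctau
  have i2 : Integrable (fun p : Euc k × L k => 2 * c.f p.1) W :=
    hV.integrable h.cpt (continuousOn_const.mul (lift h.cf))
  have e : (fun p : Euc k × L k => c.tau p.1 p.2 + qq c l p.1) =
      fun p => c.tau p.1 p.2 + Real.exp (-2 * l) * (2 * c.f p.1) := rfl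
  rw [e, integral_add i1.integrableOn (i2.const_mul _).integrableOn, integral_const_mul]

/-- the constant of one level -/
def Kb (m : ℕ) (A B b0 C0 Q Lp G : ℝ) : ℝ :=
  2 * A * Cg m B C0 + 2 * C1 m A b0 * Cg m B C0 * (C1 m A b0 + A) + 2 * A * C1 m A b0 +
    16 * A ^ 2 * B + 512 * Lp * A * C1 m A b0 + 256 * Lp * A ^ 2 + A * B * (A + C1 m A b0) +
    Q * A * G + 2 * Lp * C1 m A b0 ^ 2 + 1

theorem C1_nonneg {A b0 : ℝ} (hA : 0 ≤ A) (hb0 : 0 ≤ b0) : 0 ≤ C1 m A b0 := by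
  unfold C1; positivity

theorem Cg_nonneg {B C0 : ℝ} (hB : 0 ≤ B) (hC0 : 0 ≤ C0) : 0 ≤ Cg m B C0 := by
  unfold Cg; positivity

set_option maxHeartbeats 1000000 in
theorem FRef.lv (hm : 1 ≤ m) {U : Set (Euc k)} {V : Measure (Euc k × L k)} {z0 : Euc k}
    {A C0 Q κ l0 B b0 Lp hs : ℝ} {zN : Euc k → Euc k}
    (hF : FRef c K D U V z0 g g1 A C0 Q κ l0 zN hs) (hhs : 0 ≤ hs)
    (hp : Pf g g1 g2 B) (hb0 : 0 < b0) (hb : ∀ t, 0 ≤ t → t ≤ 1 / 4 → b0 ≤ -g1 t) (hA : 1 ≤ A)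
    (hC0 : 1 ≤ C0) (hQ : 0 ≤ Q) (hL : 0 ≤ Lp)
    (hLip : ∀ a b, 0 ≤ a → 0 ≤ b → |g1 a - g1 b| ≤ Lp * |a - b|) (hκ : 0 ≤ κ) (hκ1 : A * κ ≤ 1)
    {l S bt : ℝ} (hl : l ≤ l0) (hS : 0 < S) (hS1 : S ≤ 1) (hSC : C1 m A b0 * S ≤ 1 / 64)
    (hSh : C1 m A b0 * S ≤ hs ^ 2)
    (hJ : Real.exp (-(2 * (l + Real.log 8))) *
      II c (V.restrict (K ×ˢ univ)) g1 (l + Real.log 8) ≤ S)
    (hbt : bb c (V.restrict (K ×ˢ univ)) g Q l ≤ bt) :
    Lv (EE c (V.restrict (K ×ˢ univ)) g Q) (II c (V.restrict (K ×ˢ univ)) g1) l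
      (Kb m A B b0 C0 Q Lp (∫ v : Euc m, g (‖v‖ ^ 2)) *
        (κ * Real.exp (l - l0) + S ^ (1 / 2 : ℝ)))
      (Kb m A B b0 C0 Q Lp (∫ v : Euc m, g (‖v‖ ^ 2)) *
        (κ * Real.exp (l - l0) + S ^ (1 / 2 : ℝ)) * S * Real.exp (2 * l)) bt
      (Kb m A B b0 C0 Q Lp (∫ v : Euc m, g (‖v‖ ^ 2)) *
        (κ * Real.exp (l - l0) + S ^ (1 + 1 / 2 : ℝ))) := by
  have hok := hF.ok
  have hOn := On_of_Stat hok.cpt hF.st hF.KU
  have hA0 : 0 ≤ A := by linarith
  have hB0 : 0 ≤ B := (hp.nn 0 le_rfl).trans (hp.b0 0 le_rfl)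
  have hG0 : 0 ≤ ∫ v : Euc m, g (‖v‖ ^ 2) := integral_nonneg fun v => hp.nn _ (by positivity)
  have hf0 : ∀ p ∈ K ×ˢ G m k, 0 ≤ 2 * c.f p.1 := fun p hpm => by
    have := hok.f_nonneg hpm.1; linarith
  set W := V.restrict (K ×ˢ univ) with hW
  set Gi : ℝ := ∫ v : Euc m, g (‖v‖ ^ 2) with hGi
  set C := C1 m A b0 with hC
  have hC0' : 0 ≤ C := C1_nonneg hA0 hb0.le
  set Gg := Cg m B C0 with hGg
  have hGg0 : 0 ≤ Gg := Cg_nonneg hB0 (by linarith)
  set lam : ℝ := κ * Real.exp (l - l0) with hlam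
  have hel1 : Real.exp (l - l0) ≤ 1 := Real.exp_le_one_iff.2 (by linarith)
  have hlam0 : 0 ≤ lam := mul_nonneg hκ (Real.exp_pos _).le
  have hAlam : A * lam ≤ 1 := by
    calc A * lam = (A * κ) * Real.exp (l - l0) := by rw [hlam]; ring
      _ ≤ 1 * 1 := mul_le_mul hκ1 hel1 (Real.exp_pos _).le zero_le_one
      _ = 1 := one_mul 1
  have hAlam0 : 0 ≤ A * lam := mul_nonneg hA0 hlam0
  have hel : 0 < Real.exp l := Real.exp_pos l
  have he2l : 0 < Real.exp (2 * l) := Real.exp_pos _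
  have heml : 0 < Real.exp (m * l) := Real.exp_pos _
  have hex : Real.exp ((2 - m) * l) * Real.exp (m * l) = Real.exp (2 * l) := by
    rw [← Real.exp_add]; congr 1; ring
  have hexm : Real.exp (-2 * l) * Real.exp (2 * l) = 1 := by
    rw [← Real.exp_add]; simp
  -- level bounds
  have hT : 8 * Real.exp l ≤ Real.exp (l0 + 3) := by
    rw [Real.exp_add, mul_comm]
    exact mul_le_mul (Real.exp_le_exp.2 hl) exp_three (by norm_num) (Real.exp_pos _).le
  obtain ⟨hf4, hnu, htau⟩ := level hok hOn hp.pr hb0 hb hA hS.le hT hF.mu2 hF.sup hJ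
  have htau2 := htau hSC
  set h : ℝ := Real.sqrt (C * S) with hh
  have hCS0 : 0 ≤ C * S := mul_nonneg hC0' hS.le
  have hh0 : 0 ≤ h := Real.sqrt_nonneg _
  have hhsq : h ^ 2 = C * S := Real.sq_sqrt hCS0
  have hh1 : h ≤ 1 := by
    rw [hh, Real.sqrt_le_left (by norm_num)]
    linarith
  have cf2 : ContinuousOn (fun p : Euc k × L k => 2 * c.f p.1) (K ×ˢ G m k) :=
    continuousOn_const.mul (lift hok.cf)
  have hf2 : ∫ p in Sh c (2 * Real.exp l), 2 * c.f p.1 ∂W ≤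
      C * S * Real.exp (m * l) * Real.exp (2 * l) :=
    (int_Sh_mono hok hOn cf2 hf0 (by linarith)).trans hf4
  have hsum2 : ∫ p in Sh c (2 * Real.exp l), (c.tau p.1 p.2 + qq c l p.1) ∂W ≤
      2 * (C * S * Real.exp (m * l)) := by
    rw [int_sum hok hOn]
    have h1 := mul_le_mul_of_nonneg_left hf2 (Real.exp_pos (-2 * l)).le
    have h2 : Real.exp (-2 * l) * (C * S * Real.exp (m * l) * Real.exp (2 * l)) =
        C * S * Real.exp (m * l) := by
      calc _ = C * S * Real.exp (m * l) * (Real.exp (-2 * l) * Real.exp (2 * l)) := by ring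
        _ = _ := by rw [hexm, mul_one]
    rw [h2] at h1
    linarith
  have hOO : OO c W l ≤ 2 * (C * S * Real.exp (2 * l)) := by
    have h1 : ∫ p in Sh c (Real.exp l), (c.tau p.1 p.2 + qq c l p.1) ∂W ≤
        ∫ p in Sh c (2 * Real.exp l), (c.tau p.1 p.2 + qq c l p.1) ∂W :=
      int_Sh_mono hok hOn (hok.ctau.add (hok.cqq l))
        (fun p hpm => add_nonneg (hF.tau0 p hpm) (qq_nonneg hok hpm.1)) (by linarith)
    have h2 := mul_le_mul_of_nonneg_left (h1.trans hsum2) (Real.exp_pos ((2 - m) * l)).le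
    have h3 : OO c W l = Real.exp ((2 - m) * l) *
      ∫ p in Sh c (Real.exp l), (c.tau p.1 p.2 + qq c l p.1) ∂W := rfl
    rw [h3]
    refine h2.trans (le_of_eq ?_)
    calc _ = 2 * (C * S * (Real.exp ((2 - m) * l) * Real.exp (m * l))) := by ring
      _ = _ := by rw [hex]
  -- the domain of the level
  set Kl : Set (Euc k) := {z | z ∈ K ∧ ‖c.nu z‖ ≤ h * Real.exp l} ∪
    {z | z ∈ K ∧ 5 / 2 * Real.exp l ≤ ‖c.x z‖} with hKl
  have hsub : Kl ⊆ K := union_subset (fun z hz => hz.1) (fun z hz => hz.1)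
  have hKc : IsCompact Kl := by
    have a1 : IsClosed {z | z ∈ K ∧ ‖c.nu z‖ ≤ h * Real.exp l} :=
      hok.cnu.norm.preimage_isClosed_of_isClosed hok.cpt.isClosed isClosed_Iic
    have a2 : IsClosed {z | z ∈ K ∧ 5 / 2 * Real.exp l ≤ ‖c.x z‖} :=
      hok.cx.norm.preimage_isClosed_of_isClosed hok.cpt.isClosed isClosed_Ici
    exact hok.cpt.of_isClosed_subset (a1.union a2) hsub
  have hOnl : On W m Kl := by
    refine ⟨hOn.fin, ?_⟩
    filter_upwards [hOn.mem, hnu] with p h1 h2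
    refine ⟨?_, h1.2⟩
    rcases le_total (5 / 2 * Real.exp l) ‖c.x p.1‖ with h3 | h3
    · exact Or.inr ⟨h1.1, h3⟩
    · exact Or.inl ⟨h1.1, h2 (by linarith)⟩
  have hkb := hF.kb l hl h hh0 hh1 Kl hsub hKc (by
    rintro z (hz | hz) hx
    · exact hz.2
    · exact absurd hz.2 (by linarith))
  have hhhs : h ≤ hs := by
    rw [hh]
    exact Real.sqrt_le_iff.2 ⟨hhs, hSh⟩
  have her : Real.exp ((2 - m) * l) * |er1a c W g Q l| ≤
      A * lam * (2 * (C * S * Real.exp (2 * l))) := by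
    refine (hF.er l hl Kl hsub hKc (by
      rintro z (hz | hz) hx
      · exact hz.2.trans (mul_le_mul_of_nonneg_right hhhs hel.le)
      · exact absurd hz.2 (by linarith)) (by
      filter_upwards [hOnl.mem] with p hp using hp.1)).trans ?_
    refine mul_le_mul_of_nonneg_left ?_ hAlam0
    have h2 := mul_le_mul_of_nonneg_left hsum2 (Real.exp_pos ((2 - m) * l)).le
    refine h2.trans (le_of_eq ?_)
    calc _ = 2 * (C * S * (Real.exp ((2 - m) * l) * Real.exp (m * l))) := by ring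
      _ = _ := by rw [hex]
  have hOkl := Ok_mono hok hsub hKc
  obtain ⟨f1, f2, f3⟩ := hF.fv l hl
  obtain ⟨o1, o2, o3, o4, ⟨I', dI, dI'⟩, ⟨E', dE, dE'⟩, o7⟩ :=
    gl_out hOkl hOnl hp hkb hAlam Q (show l < l0 + 3 by linarith) hF.hD f1 f2 f3
  -- numerical constants
  set KK : ℝ := Kb m A B b0 C0 Q Lp Gi with hKK
  set s2 : ℝ := S ^ (1 / 2 : ℝ) with hs2
  set s3 : ℝ := S ^ (1 + 1 / 2 : ℝ) with hs3
  have hSs2 : S ≤ s2 := by
    have := Real.rpow_le_rpow_of_exponent_ge hS hS1 (show (1 / 2 : ℝ) ≤ 1 by norm_num)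
    rwa [Real.rpow_one] at this
  have hSs3 : S ^ 2 ≤ s3 := by
    have := Real.rpow_le_rpow_of_exponent_ge hS hS1 (show (1 + 1 / 2 : ℝ) ≤ 2 by norm_num)
    rwa [Real.rpow_two] at this
  have hs20 : 0 ≤ s2 := Real.rpow_nonneg hS.le _
  have hs30 : 0 ≤ s3 := Real.rpow_nonneg hS.le _
  have hd0 : A * lam * h ≤ A * lam := by
    calc A * lam * h ≤ A * lam * 1 := mul_le_mul_of_nonneg_left hh1 hAlam0
      _ = _ := mul_one _
  have hKKp : 2 * A * Gg + 2 * C * Gg * (C + A) + 2 * A * C ≤ KK ∧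
      16 * A ^ 2 * B + 512 * Lp * A * C + 256 * Lp * A ^ 2 + A * B * (A + C) +
        Q * A * Gi ≤ KK ∧ 2 * Lp * C ^ 2 ≤ KK := by
    have e : KK = 2 * A * Gg + 2 * C * Gg * (C + A) + 2 * A * C +
        16 * A ^ 2 * B + 512 * Lp * A * C + 256 * Lp * A ^ 2 + A * B * (A + C) +
        Q * A * Gi + 2 * Lp * C ^ 2 + 1 := rfl
    have a1 : 0 ≤ 2 * A * Gg := by positivity
    have a2 : 0 ≤ 2 * C * Gg * (C + A) := by positivity
    have a3 : 0 ≤ 2 * A * C := by positivity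
    have a4 : 0 ≤ 16 * A ^ 2 * B := by positivity
    have a5 : 0 ≤ 512 * Lp * A * C := by positivity
    have a6 : 0 ≤ 256 * Lp * A ^ 2 := by positivity
    have a7 : 0 ≤ A * B * (A + C) := by positivity
    have a8 : 0 ≤ Q * A * Gi := by positivity
    have a9 : 0 ≤ 2 * Lp * C ^ 2 := by positivity
    refine ⟨by linarith, by linarith, by linarith⟩
  obtain ⟨hK1, hK2, hK3⟩ := hKKp
  have hK0 : 0 ≤ KK := le_trans (by positivity) hK3
  have hls : 0 ≤ lam + s2 := add_nonneg hlam0 hs20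
  -- coefficient of the sharp terms
  have ht : Gg * (A * lam + A * lam * h) ≤ KK * (lam + s2) := by
    have h1 : Gg * (A * lam + A * lam * h) ≤ Gg * (A * lam + A * lam) :=
      mul_le_mul_of_nonneg_left (by linarith) hGg0
    have h2 : Gg * (A * lam + A * lam) = 2 * A * Gg * lam := by ring
    have h3 : 2 * A * Gg * lam ≤ KK * (lam + s2) := by
      have a1 : 2 * A * Gg ≤ KK := by
        have a2 : 0 ≤ 2 * C * Gg * (C + A) := by positivity
        have a3 : 0 ≤ 2 * A * C := by positivity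
        linarith
      exact mul_le_mul a1 (by linarith) hlam0 hK0
    linarith
  have hOO0 : 0 ≤ OO c W l := OO_nonneg hOkl hOnl hkb
  have ho : Gg * ((h ^ 2 + A * lam * h) * OO c W l) + A * lam * (2 * (C * S * Real.exp (2 * l))) ≤
      KK * (lam + s2) * S * Real.exp (2 * l) := by
    have h1 : h ^ 2 + A * lam * h ≤ (C + A) * (lam + s2) := by
      rw [hhsq]
      have a1 : C * S ≤ C * s2 := mul_le_mul_of_nonneg_left hSs2 hC0'
      have a2 : 0 ≤ C * lam := mul_nonneg hC0' hlam0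
      have a3 : 0 ≤ A * s2 := mul_nonneg hA0 hs20
      calc C * S + A * lam * h ≤ C * s2 + A * lam := by linarith
        _ ≤ C * s2 + A * lam + C * lam + A * s2 := by linarith
        _ = _ := by ring
    have h2 : (h ^ 2 + A * lam * h) * OO c W l ≤
        ((C + A) * (lam + s2)) * (2 * (C * S * Real.exp (2 * l))) :=
      mul_le_mul h1 hOO hOO0 (mul_nonneg (by linarith) hls)
    have h3 := mul_le_mul_of_nonneg_left h2 hGg0
    have h4 : A * lam * (2 * (C * S * Real.exp (2 * l))) ≤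
        A * (lam + s2) * (2 * (C * S * Real.exp (2 * l))) := by
      refine mul_le_mul_of_nonneg_right ?_ (by positivity)
      exact mul_le_mul_of_nonneg_left (by linarith) hA0
    have h5 : Gg * (((C + A) * (lam + s2)) * (2 * (C * S * Real.exp (2 * l)))) +
        A * (lam + s2) * (2 * (C * S * Real.exp (2 * l))) =
        (2 * C * Gg * (C + A) + 2 * A * C) * ((lam + s2) * S * Real.exp (2 * l)) := by ring
    have h6 : (2 * C * Gg * (C + A) + 2 * A * C) * ((lam + s2) * S * Real.exp (2 * l)) ≤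
        KK * ((lam + s2) * S * Real.exp (2 * l)) := by
      refine mul_le_mul_of_nonneg_right ?_ (by positivity)
      have a1 : 0 ≤ 2 * A * Gg := by positivity
      linarith
    calc _ ≤ Gg * (((C + A) * (lam + s2)) * (2 * (C * S * Real.exp (2 * l)))) +
        A * (lam + s2) * (2 * (C * S * Real.exp (2 * l))) := by linarith
      _ ≤ KK * ((lam + s2) * S * Real.exp (2 * l)) := by rw [h5]; exact h6
      _ = _ := by ring
  have her0 : 0 ≤ A * lam * (2 * (C * S * Real.exp (2 * l))) := by positivity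
  have hII0 := o2
  have hee0 := o3
  have htI : Gg * ((A * lam + A * lam * h) * II c W g1 l) ≤ KK * (lam + s2) * II c W g1 l := by
    calc _ = (Gg * (A * lam + A * lam * h)) * II c W g1 l := by ring
      _ ≤ _ := mul_le_mul_of_nonneg_right ht hII0
  have hte : Gg * ((A * lam + A * lam * h) * ee c W g l) ≤ KK * (lam + s2) * ee c W g l := by
    calc _ = (Gg * (A * lam + A * lam * h)) * ee c W g l := by ring
      _ ≤ _ := mul_le_mul_of_nonneg_right ht hee0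
  have hte0 : 0 ≤ KK * (lam + s2) * ee c W g l := by positivity
  refine Lv.of_one (e := ee c W g l) (b := bb c W g Q l)
    (R := RF c W g1 B (A * lam) (A * lam * h) l) (by positivity) (by positivity) o2 o3 o1 o4
    ⟨I', dI, dI'.trans (by linarith)⟩ ⟨E', dE, ?_⟩ ?_ hbt ?_
  · have h1 := (abs_le.1 dE').1
    have h2 : Gg * ((A * lam + A * lam * h) * ee c W g l + (A * lam + A * lam * h) * II c W g1 l) =
      Gg * ((A * lam + A * lam * h) * ee c W g l) +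
        Gg * ((A * lam + A * lam * h) * II c W g1 l) := by ring
    rw [h2] at h1
    linarith
  · refine o7.trans ?_
    have : KK * (lam + s2) * (ee c W g l + II c W g1 l) =
      KK * (lam + s2) * ee c W g l + KK * (lam + s2) * II c W g1 l := by ring
    linarith
  · -- the bottom
    have hκl : A * κ * Real.exp (-l0) * Real.exp l = A * lam := by
      rw [hlam, mul_assoc, ← Real.exp_add, mul_assoc]
      congr 3
      ring
    have hκ0 : 0 ≤ A * κ * Real.exp (-l0) := by positivity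
    have hbot := bottom_GL hm hok hF.st hF.KU (z0 := z0) (l := l)
      ((Metric.closedBall_subset_closedBall (by
        have := Real.exp_le_exp.2 hl
        linarith [Real.exp_pos l0])).trans hF.hU) hQ hF.th hp.pr
      (Kg := B) (fun t ht => ⟨by rw [abs_of_nonneg (hp.nn t ht)]; exact hp.b0 t ht, by
        rw [abs_of_nonpos (hp.pr.anti t ht)]; exact hp.b1 t ht⟩) hL hLip
      (κ0 := A * κ * Real.exp (-l0)) (κ3 := A * κ * Real.exp (-l0)) (h := h) (M0 := A)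
      (H := C * S) hκ0 hκ0 hh0
      (by
        filter_upwards [hF.cov] with p h1 h2
        exact h1 (h2.trans_le (Real.exp_le_exp.2 hl)))
      hF.dist hF.sm hF.sm3 (hF.hj l hl) (hF.hmu l hl)
      (by
        have h1 := (ae_restrict_iff' (hok.cpt.isClosed.measurableSet.prod
          (MeasurableSet.univ (α := L k)))).1 hnu
        filter_upwards [h1] with p h2 h3
        exact h2 ⟨h3.1, mem_univ _⟩ (h3.2.trans (by linarith)))
      (by
        refine le_trans ?_ (hF.mass l hl)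
        have hfin : V (Metric.ball z0 (4 * Real.exp l) ×ˢ univ) ≠ ⊤ := by
          refine ((measure_mono (prod_mono_left ?_)).trans_lt
            (hF.st.fin _ (isCompact_closedBall z0 (4 * Real.exp l0)) hF.hU)).ne
          refine (Metric.ball_subset_closedBall).trans (Metric.closedBall_subset_closedBall ?_)
          have := Real.exp_le_exp.2 hl
          linarith
        refine ENNReal.toReal_mono hfin (measure_mono_ae ?_)
        have h1 := (ae_restrict_iff' (hok.cpt.isClosed.measurableSet.prod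
          (MeasurableSet.univ (α := L k)))).1 hnu
        filter_upwards [h1] with p h2 h3
        have h4 := h2 ⟨h3.1, mem_univ _⟩ (h3.2.trans (by linarith))
        refine ⟨?_, mem_univ _⟩
        rw [Metric.mem_ball, dist_eq_norm]
        have h5 := hF.dist2 _ h3.1
        have h6 : ‖c.x p.1‖ ≤ 2 * Real.exp l := h3.2
        have h7 : h * Real.exp l ≤ 1 * Real.exp l := mul_le_mul_of_nonneg_right hh1 hel.le
        linarith)
      (by
        rw [restrict_Dm hok hF.st hF.KU]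
        refine le_trans (le_of_eq ?_) hf2
        refine integral_congr_ae ?_
        filter_upwards [ae_Sh hok hOn (2 * Real.exp l)] with p h1
        exact hok.nusq _ h1.1.1)
    refine le_trans (neg_le_neg ?_) hbot
    have t1 : 8 * (A * κ * Real.exp (-l0) * h + A * κ * Real.exp (-l0)) * Real.exp l * B * A =
        8 * (A * lam * h + A * lam) * B * A := by
      calc _ = 8 * ((A * κ * Real.exp (-l0) * Real.exp l) * h +
            A * κ * Real.exp (-l0) * Real.exp l) * B * A := by ring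
        _ = _ := by rw [hκl]
    rw [t1, hκl, hhsq]
    have hl2 : (A * lam) ^ 2 ≤ A * lam := by
      rw [pow_two]
      calc A * lam * (A * lam) ≤ A * lam * 1 := mul_le_mul_of_nonneg_left hAlam hAlam0
        _ = _ := mul_one _
    have u1 : 8 * (A * lam * h + A * lam) * B * A ≤ 16 * A ^ 2 * B * lam := by
      calc 8 * (A * lam * h + A * lam) * B * A ≤ 8 * (A * lam + A * lam) * B * A := by gcongr
        _ = _ := by ring
    have u2 : 2 * Lp * (C * S + 256 * (A * lam) ^ 2) * (C * S) ≤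
        2 * Lp * C ^ 2 * s3 + 512 * Lp * A * C * lam := by
      have v1 : 2 * Lp * (C * S + 256 * (A * lam) ^ 2) * (C * S) ≤
          2 * Lp * (C * S + 256 * (A * lam)) * (C * S) := by gcongr
      have v2 : 2 * Lp * (C * S + 256 * (A * lam)) * (C * S) =
          2 * Lp * C ^ 2 * S ^ 2 + 512 * Lp * A * C * lam * S := by ring
      have v3 : 2 * Lp * C ^ 2 * S ^ 2 ≤ 2 * Lp * C ^ 2 * s3 :=
        mul_le_mul_of_nonneg_left hSs3 (by positivity)
      have v4 : 512 * Lp * A * C * lam * S ≤ 512 * Lp * A * C * lam * 1 :=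
        mul_le_mul_of_nonneg_left hS1 (by positivity)
      linarith
    have u3 : 256 * Lp * (A * lam) ^ 2 * A ≤ 256 * Lp * A ^ 2 * lam := by
      calc 256 * Lp * (A * lam) ^ 2 * A ≤ 256 * Lp * (A * lam) * A := by gcongr
        _ = _ := by ring
    have u4 : A * lam * (B * A + B * (C * S)) ≤ A * B * (A + C) * lam := by
      have v1 : C * S ≤ C * 1 := mul_le_mul_of_nonneg_left hS1 hC0'
      calc A * lam * (B * A + B * (C * S)) ≤ A * lam * (B * A + B * (C * 1)) := by gcongr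
        _ = _ := by ring
    have u5 : Q * (A * lam * Gi) = Q * A * Gi * lam := by ring
    have u6 : (16 * A ^ 2 * B + 512 * Lp * A * C + 256 * Lp * A ^ 2 + A * B * (A + C) +
        Q * A * Gi) * lam ≤ KK * lam := mul_le_mul_of_nonneg_right hK2 hlam0
    have u7 : 2 * Lp * C ^ 2 * s3 ≤ KK * s3 := mul_le_mul_of_nonneg_right hK3 hs30
    rw [u5]
    calc _ ≤ 16 * A ^ 2 * B * lam + (2 * Lp * C ^ 2 * s3 + 512 * Lp * A * C * lam) +
        256 * Lp * A ^ 2 * lam + A * B * (A + C) * lam + Q * A * Gi * lam := by linarith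
      _ = (16 * A ^ 2 * B + 512 * Lp * A * C + 256 * Lp * A ^ 2 + A * B * (A + C) +
        Q * A * Gi) * lam + 2 * Lp * C ^ 2 * s3 := by ring
      _ ≤ KK * lam + KK * s3 := by linarith
      _ = _ := by ring

end Crest.Agent.R234.LowF9_471
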