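import Crest.Agent.R234.Pd2_435
import Crest.Agent.R234.Pin7_3
import Crest.Agent.R234.NearZ_148

-- ▼ part R234/Pd3_435
section

/-!
# Row 234, VF-F11 (helper435): V-level instance of `Pin3_3.Data`, part 3: the field `slab`
-/

set_option autoImplicit false
set_option linter.unusedVariables false
set_option linter.unusedSectionVars false

open MeasureTheory Filter Topology Set Metric
open scoped ENNReal NNReal ContDiff InnerProductSpace
open Crest.GeometryTopology.Submanifold Crest.Agent.R234.Vf_884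
open Crest.Agent.R234.Main_456 Crest.Agent.R234.F11_435
open Crest.Agent.R234.AS_456 (hp vp)
open Crest.Agent.R234.Pin3_3 (BB HH)

noncomputable section

namespace Crest.Agent.R234.Pd_435

variable {m n k : ℕ}

/-- the slab in a ball -/
def Sl (w : Euc m) (R s a : ℝ) : Set (Euc m) := {v | ‖v‖ < R ∧ |⟪w, v⟫_ℝ - s| < a}

theorem measurableSet_Sl (w : Euc m) (R s a : ℝ) : MeasurableSet (Sl w R s a) := by
  have h1 : IsOpen {v : Euc m | ‖v‖ < R} := isOpen_lt continuous_norm continuous_const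
  have h2 : IsOpen {v : Euc m | |⟪w, v⟫_ℝ - s| < a} := isOpen_lt (by fun_prop) continuous_const
  exact (h1.inter h2).measurableSet

theorem volume_Sl_ne_top (w : Euc m) (R s a : ℝ) : volume (Sl w R s a) ≠ ⊤ := by
  refine ((measure_mono (?_ : Sl w R s a ⊆ ball 0 R)).trans_lt measure_ball_lt_top).ne
  intro v hv
  simpa using hv.1

/-- volume of a slab in a ball. -/
theorem volume_Sl {w : Euc m} (hw : ‖w‖ = 1) {R a : ℝ} (hR : 0 < R) (ha : 0 < a) (s : ℝ) :
    volume.real (Sl w R s a) * R ≤ 5 ^ m * (ome m * R ^ m) * a := by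
  have home := ome_pos m
  have hball : ∀ {T : ℝ}, 0 < T → volume.real (ball (0 : Euc m) T) = ome m * T ^ m := by
    intro T hT
    rw [measureReal_def, volume_ball_eq m 0 hT, ENNReal.toReal_ofReal (by positivity)]
  rcases lt_or_ge R a with haR | haR
  · have h1 : volume.real (Sl w R s a) ≤ ome m * R ^ m := by
      rw [← hball hR]
      refine measureReal_mono ?_ measure_ball_lt_top.ne
      intro v hv
      simpa using hv.1
    have h5 : (1:ℝ) ≤ 5 ^ m := one_le_pow₀ (by norm_num)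
    have h2 : 0 ≤ volume.real (Sl w R s a) := measureReal_nonneg
    calc volume.real (Sl w R s a) * R ≤ (ome m * R ^ m) * a := by gcongr
      _ = 1 * (ome m * R ^ m) * a := by ring
      _ ≤ _ := by gcongr
  · obtain ⟨N, hN1, hN2⟩ : ∃ N : ℕ, R / a ≤ N ∧ (N:ℝ) < R / a + 1 :=
      ⟨⌈R / a⌉₊, Nat.le_ceil _, Nat.ceil_lt_add_one (by positivity)⟩
    have hNR : R ≤ N * a := by rwa [div_le_iff₀ ha] at hN1
    have hNR2 : N * a < R + a := by
      have := mul_lt_mul_of_pos_right hN2 ha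
      rwa [add_mul, div_mul_cancel₀ _ ha.ne', one_mul] at this
    set f : ℕ → Set (Euc m) := fun j => (fun v => v + (-(2 * a * j)) • w) ⁻¹' Sl w R s a with hf
    have hfm : ∀ j, MeasurableSet (f j) := fun j =>
      (measurable_id.add_const _) (measurableSet_Sl w R s a)
    have hfv : ∀ j, volume (f j) = volume (Sl w R s a) := fun j => by
      simp only [hf]
      exact measure_preimage_add_right volume _ _
    have hmem : ∀ j v, v ∈ f j → |⟪w, v⟫_ℝ - 2 * a * j - s| < a := by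
      intro j v hv
      have h1 := hv.2
      rw [inner_add_right, inner_smul_right, real_inner_self_eq_norm_sq, hw] at h1
      convert h1 using 2
      ring
    have hdis : ((Finset.range N : Finset ℕ) : Set ℕ).PairwiseDisjoint f := by
      intro i _ j _ hij
      rw [Function.onFun, Set.disjoint_left]
      intro v hi hj
      have h1 := abs_lt.1 (hmem i v hi)
      have h2 := abs_lt.1 (hmem j v hj)
      rcases lt_or_gt_of_ne hij with h3 | h3
      · have h4 : (i:ℝ) + 1 ≤ j := by exact_mod_cast h3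
        nlinarith
      · have h4 : (j:ℝ) + 1 ≤ i := by exact_mod_cast h3
        nlinarith
    have hsum : volume (⋃ j ∈ Finset.range N, f j) = N * volume (Sl w R s a) := by
      rw [measure_biUnion_finset hdis fun j _ => hfm j]
      simp [hfv]
    have hsub : (⋃ j ∈ Finset.range N, f j) ⊆ ball (0 : Euc m) (5 * R) := by
      intro v hv
      simp only [mem_iUnion, exists_prop] at hv
      obtain ⟨j, hj, hv⟩ := hv
      rw [Finset.mem_range] at hj
      have h1 : ‖v + (-(2 * a * j)) • w‖ < R := hv.1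
      have h2 : v = (v + (-(2 * a * j)) • w) + (2 * a * j) • w := by
        rw [add_assoc, ← add_smul]; simp
      have h3 : ‖(2 * a * (j:ℝ)) • w‖ = 2 * a * j := by
        rw [norm_smul, hw, mul_one, Real.norm_of_nonneg (by positivity)]
      rw [mem_ball_zero_iff, h2]
      have h4 := norm_add_le (v + (-(2 * a * (j:ℝ))) • w) ((2 * a * (j:ℝ)) • w)
      have h5 : (j:ℝ) ≤ N := by exact_mod_cast hj.le
      have h6 : 2 * a * (j:ℝ) ≤ 2 * (N * a) := by nlinarith
      rw [h3] at h4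
      linarith
    have h1 : (N:ℝ) * volume.real (Sl w R s a) ≤ ome m * (5 * R) ^ m := by
      rw [← hball (by positivity : (0:ℝ) < 5 * R), measureReal_def, measureReal_def]
      have h2 : ((N : ℝ≥0∞) * volume (Sl w R s a)).toReal = N * (volume (Sl w R s a)).toReal := by
        rw [ENNReal.toReal_mul, ENNReal.toReal_natCast]
      rw [← h2, ← hsum]
      exact ENNReal.toReal_mono measure_ball_lt_top.ne (measure_mono hsub)
    have h2 : 0 ≤ volume.real (Sl w R s a) := measureReal_nonneg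
    calc volume.real (Sl w R s a) * R ≤ volume.real (Sl w R s a) * (N * a) := by gcongr
      _ = (N * volume.real (Sl w R s a)) * a := by ring
      _ ≤ (ome m * (5 * R) ^ m) * a := by gcongr
      _ = _ := by rw [mul_pow]; ring

/-- the Lipschitz cut-off of the slab -/
def psi (w z : Euc m) (t s b d : ℝ) (v : Euc m) : ℝ :=
  max 0 (d - max 0 (max (‖v - z‖ - t) (|⟪w, v - z⟫_ℝ - s| - b)))

theorem psi_nonneg (w z : Euc m) (t s b d : ℝ) (v : Euc m) : 0 ≤ psi w z t s b d v := le_max_left _ _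

theorem psi_le {w z : Euc m} {t s b d : ℝ} (hd : 0 ≤ d) (v : Euc m) : psi w z t s b d v ≤ d := by
  unfold psi
  refine max_le hd ?_
  have := le_max_left 0 (max (‖v - z‖ - t) (|⟪w, v - z⟫_ℝ - s| - b))
  linarith

theorem psi_eq {w z : Euc m} {t s b d : ℝ} (hd : 0 ≤ d) {v : Euc m} (h1 : ‖v - z‖ < t)
    (h2 : |⟪w, v - z⟫_ℝ - s| ≤ b) : psi w z t s b d v = d := by
  unfold psi
  rw [max_eq_left (a := (0:ℝ)) (b := max (‖v - z‖ - t) (|⟪w, v - z⟫_ℝ - s| - b))
    (max_le (by linarith) (by linarith)), sub_zero, max_eq_right hd]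

theorem psi_ne {w z : Euc m} {t s b d : ℝ} {v : Euc m} (h : psi w z t s b d v ≠ 0) :
    v - z ∈ Sl w (t + d) s (b + d) := by
  unfold psi at h
  have h1 : 0 < d - max 0 (max (‖v - z‖ - t) (|⟪w, v - z⟫_ℝ - s| - b)) := by
    by_contra hcon
    exact h (max_eq_left (not_lt.1 hcon))
  have h2 := (le_max_left (‖v - z‖ - t) (|⟪w, v - z⟫_ℝ - s| - b)).trans (le_max_right (0:ℝ) _)
  have h3 := (le_max_right (‖v - z‖ - t) (|⟪w, v - z⟫_ℝ - s| - b)).trans (le_max_right (0:ℝ) _)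
  exact ⟨by linarith, by linarith⟩

theorem lip_psi {w z : Euc m} (hw : ‖w‖ = 1) (t s b d : ℝ) : LipschitzWith 1 (psi w z t s b d) := by
  unfold psi
  have h1 : LipschitzWith 1 fun v : Euc m => ‖v - z‖ - t := by
    refine LipschitzWith.of_dist_le_mul fun v v' => ?_
    rw [NNReal.coe_one, one_mul, Real.dist_eq, dist_eq_norm]
    have := abs_norm_sub_norm_le (v - z) (v' - z)
    rw [sub_sub_sub_cancel_right] at this
    rwa [sub_sub_sub_cancel_right]
  have h2 : LipschitzWith 1 fun v : Euc m => |⟪w, v - z⟫_ℝ - s| - b := by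
    refine LipschitzWith.of_dist_le_mul fun v v' => ?_
    rw [NNReal.coe_one, one_mul, Real.dist_eq, dist_eq_norm, sub_sub_sub_cancel_right]
    refine (abs_abs_sub_abs_le _ _).trans ?_
    rw [sub_sub_sub_cancel_right, ← inner_sub_right, sub_sub_sub_cancel_right]
    refine (abs_real_inner_le_norm _ _).trans ?_
    rw [hw, one_mul]
  have h3 := h1.max h2
  rw [max_self] at h3
  have h4 := (h3.const_max 0)
  have h5 : LipschitzWith 1 fun v : Euc m => d - max 0 (max (‖v - z‖ - t) (|⟪w, v - z⟫_ℝ - s| - b)) := by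
    refine LipschitzWith.of_dist_le_mul fun v v' => ?_
    have h6 := h4.dist_le_mul v v'
    rw [Real.dist_eq] at h6 ⊢
    rw [sub_sub_sub_cancel_left, abs_sub_comm]
    exact h6
  exact h5.const_max 0

/-- integral of the cut-off. -/
theorem integral_psi_le {w z : Euc m} (hw : ‖w‖ = 1) {t s b d : ℝ} (hd : 0 ≤ d) :
    ∫ v, psi w z t s b d v ≤ d * volume.real (Sl w (t + d) s (b + d)) := by
  set S : Set (Euc m) := (fun v => v - z) ⁻¹' Sl w (t + d) s (b + d) with hS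
  have hSm : MeasurableSet S := (measurable_id.sub_const z) (measurableSet_Sl _ _ _ _)
  have hSv : volume S = volume (Sl w (t + d) s (b + d)) := by
    rw [hS]
    simp only [sub_eq_add_neg]
    exact measure_preimage_add_right volume _ _
  have h1 : ∫ v, psi w z t s b d v = ∫ v in S, psi w z t s b d v := by
    rw [setIntegral_eq_integral_of_forall_compl_eq_zero]
    intro v hv
    by_contra hcon
    exact hv (psi_ne hcon)
  rw [h1]
  have hfin : volume S < ⊤ := by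
    rw [hSv]; exact (volume_Sl_ne_top _ _ _ _).lt_top
  calc ∫ v in S, psi w z t s b d v ≤ ∫ v in S, d := by
        refine setIntegral_mono_on ?_ (integrableOn_const hfin.ne) hSm fun v _ => psi_le hd v
        refine Measure.integrableOn_of_bounded (M := d) hfin.ne
          (lip_psi hw t s b d).continuous.aestronglyMeasurable (ae_of_all _ fun v => ?_)
        rw [Real.norm_of_nonneg (psi_nonneg _ _ _ _ _ _ _)]
        exact psi_le hd v
    _ = d * volume.real (Sl w (t + d) s (b + d)) := by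
        rw [setIntegral_const, smul_eq_mul, mul_comm, measureReal_def, measureReal_def, hSv]

/-- the varifold projects to `Q` times Lebesgue measure up to `η'` in the ball of radius `4 r` -/
def QL (V : Measure (Euc k × L k)) (π : Euc k →L[ℝ] Euc m) (x : Euc k) (r : ℝ) (Q : ℕ) (η' : ℝ) :
    Prop :=
  ∀ φ : Euc m → ℝ, LipschitzWith 1 φ → (∀ v, |φ v| ≤ 1) → (∀ v, φ v ≠ 0 → ‖v‖ ≤ 2) →
    |∫ p in Metric.ball x (3 * (2 * r)) ×ˢ univ, φ ((2 * r)⁻¹ • π (p.1 - x)) ∂V
      - (2 * r) ^ m * (Q * ∫ v, φ v)| ≤ η' * (2 * r) ^ m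

variable {U : Set (Euc k)} {V : Measure (Euc k × L k)} {Q K : ℕ} {x : Euc k} {r : ℝ}
  {π : Euc k →L[ℝ] Euc m} {ρ : Euc k →L[ℝ] Euc n} {u : Euc m → Euc n} {ε C : ℝ}
  {z : Euc m} {zh : Euc k}

theorem Cx.slab_aux (h : Cx U V Q K x r π ρ u ε C) (hz : Ctr V π x r z zh) {η' : ℝ}
    (hQL : QL V π x r Q η') {t b d s : ℝ} {w : Euc m} (hw : ‖w‖ = 1) (ht : 0 < t) (ht1 : t ≤ 1)
    (hb : 0 ≤ b) (hd : 0 < d) (hd1 : d ≤ 1) (hs : √(hc m Q * ε) ≤ 1) :
    (nu V π ρ x r).real {q | ‖Xr π x r q - z‖ < t ∧ |⟪w, Xr π x r q - z⟫_ℝ - s| ≤ b} ≤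
      Q * volume.real (Sl w (t + d) s (b + d)) + 2 ^ (m + 1) * η' / d := by
  have hr := h.hr
  set S : Set (Euc k × L k) := {q | ‖Xr π x r q - z‖ < t ∧ |⟪w, Xr π x r q - z⟫_ℝ - s| ≤ b} with hS
  have hSm : MeasurableSet S := by
    have h1 : Continuous (Xr π x r : Euc k × L k → Euc m) := continuous_Xr
    have m1 : MeasurableSet {q : Euc k × L k | ‖Xr π x r q - z‖ < t} :=
      measurableSet_lt ((h1.sub continuous_const).norm).measurable measurable_const
    have m2 : MeasurableSet {q : Euc k × L k | |⟪w, Xr π x r q - z⟫_ℝ - s| ≤ b} := by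
      refine measurableSet_le ?_ measurable_const
      exact (((continuous_const.inner (h1.sub continuous_const)).sub
        continuous_const).abs).measurable
    exact m1.inter m2
  rw [real_nu hr hSm]
  have hz1 := h.c_norm hz
  set φ : Euc m → ℝ := fun v => (1 / 2) * psi w z t s b d ((2:ℝ) • v) with hφ
  have hlip : LipschitzWith 1 φ := by
    refine LipschitzWith.of_dist_le_mul fun v v' => ?_
    have h1 := (lip_psi (z := z) hw t s b d).dist_le_mul ((2:ℝ) • v) ((2:ℝ) • v')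
    rw [NNReal.coe_one, one_mul] at h1 ⊢
    rw [dist_smul₀, Real.norm_of_nonneg (by norm_num : (0:ℝ) ≤ 2)] at h1
    rw [Real.dist_eq] at h1 ⊢
    simp only [hφ]
    rw [← mul_sub, abs_mul, abs_of_pos (by norm_num : (0:ℝ) < 1 / 2)]
    linarith
  have hle : ∀ v, |φ v| ≤ 1 := by
    intro v
    have h1 := psi_nonneg w z t s b d ((2:ℝ) • v)
    have h2 := psi_le (w := w) (z := z) (t := t) (s := s) (b := b) hd.le ((2:ℝ) • v)
    simp only [hφ]
    rw [abs_of_nonneg (by positivity)]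
    linarith
  have hsupp : ∀ v, φ v ≠ 0 → ‖v‖ ≤ 2 := by
    intro v hv
    have h1 : psi w z t s b d ((2:ℝ) • v) ≠ 0 := fun hcon => hv (by simp [hφ, hcon])
    have h2 := (psi_ne h1).1
    have h3 : ‖(2:ℝ) • v‖ ≤ ‖(2:ℝ) • v - z‖ + ‖z‖ := by
      simpa using norm_add_le ((2:ℝ) • v - z) z
    rw [norm_smul, Real.norm_of_nonneg (by norm_num : (0:ℝ) ≤ 2)] at h3
    linarith
  have h1 := (abs_le.1 (hQL φ hlip hle hsupp)).2
  have hpt : ∀ p : Euc k × L k, φ ((2 * r)⁻¹ • π (p.1 - x)) = (1 / 2) * psi w z t s b d (Xr π x r p) := by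
    intro p
    simp only [hφ]
    congr 2
    rw [smul_smul]
    unfold Xr
    congr 1
    field_simp
  simp only [hpt] at h1
  rw [integral_const_mul] at h1
  have hint : ∫ v, φ v = (1 / 2) * ((2 ^ m)⁻¹ * ∫ v, psi w z t s b d v) := by
    simp only [hφ]
    rw [integral_const_mul]
    congr 1
    rw [Measure.integral_comp_smul volume (psi w z t s b d) (2:ℝ), smul_eq_mul]
    congr 1
    rw [abs_of_pos (by positivity)]
    simp
  rw [hint] at h1
  have h2 := integral_psi_le (z := z) hw (t := t) (s := s) (b := b) hd.le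
  -- lower bound
  have h3 : d * V.real (S ∩ box π ρ x (8 * r) ×ˢ univ) ≤
      ∫ p in Metric.ball x (3 * (2 * r)) ×ˢ univ, psi w z t s b d (Xr π x r p) ∂V := by
    have hfin6 : V (Metric.ball x (3 * (2 * r)) ×ˢ univ) < ⊤ := by
      refine (measure_mono (prod_mono (ball_subset_closedBall.trans
        (closedBall_subset_closedBall ?_)) subset_rfl)).trans_lt h.fin64
      linarith
    have hcont : Continuous fun p : Euc k × L k => psi w z t s b d (Xr π x r p) :=
      (lip_psi hw t s b d).continuous.comp continuous_Xr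
    have hi : IntegrableOn (fun p : Euc k × L k => psi w z t s b d (Xr π x r p))
        (Metric.ball x (3 * (2 * r)) ×ˢ univ) V := by
      refine Measure.integrableOn_of_bounded (M := d) hfin6.ne
        hcont.aestronglyMeasurable (ae_of_all _ fun v => ?_)
      rw [Real.norm_of_nonneg (psi_nonneg _ _ _ _ _ _ _)]
      exact psi_le hd.le _
    set S' : Set (Euc k × L k) := S ∩ Metric.ball x (3 * (2 * r)) ×ˢ univ with hS'
    have hS'm : MeasurableSet S' := hSm.inter (measurableSet_ball.prod MeasurableSet.univ)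
    have hfinS' : V S' < ⊤ := (measure_mono inter_subset_right).trans_lt hfin6
    have e1 : V.real (S ∩ box π ρ x (8 * r) ×ˢ univ) ≤ V.real S' := by
      rw [measureReal_def, measureReal_def]
      refine ENNReal.toReal_mono hfinS'.ne (measure_mono_ae ?_)
      filter_upwards [h.ae_box] with p hp
      rintro ⟨hp1, hp2⟩
      refine ⟨hp1, ?_, mem_univ _⟩
      obtain ⟨g1, g2⟩ := hp hp2.1
      have g3 : ‖π (p.1 - x)‖ < 2 * r := by
        have g4 : ‖Xr π x r p - z‖ < t := hp1.1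
        have g5 : ‖Xr π x r p‖ < 2 := by
          have := norm_add_le (Xr π x r p - z) z
          rw [sub_add_cancel] at this
          linarith
        unfold Xr at g5
        rw [norm_smul, norm_inv, Real.norm_of_nonneg hr.le, inv_mul_lt_iff₀ hr] at g5
        linarith
      have g4 : ‖ρ (p.1 - x)‖ ≤ r := g2.trans (by nlinarith)
      have g5 := frame_norm_sq h.ref.frame (p.1 - x)
      rw [mem_ball, dist_eq_norm]
      refine lt_of_pow_lt_pow_left₀ 2 (by positivity) ?_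
      have g6 : ‖π (p.1 - x)‖ ^ 2 < (2 * r) ^ 2 := pow_lt_pow_left₀ g3 (norm_nonneg _) two_ne_zero
      have g7 : ‖ρ (p.1 - x)‖ ^ 2 ≤ r ^ 2 := pow_le_pow_left₀ (norm_nonneg _) g4 2
      nlinarith [sq_nonneg r]
    calc d * V.real (S ∩ box π ρ x (8 * r) ×ˢ univ) ≤ d * V.real S' := by gcongr
      _ = ∫ p in S', d ∂V := by rw [setIntegral_const, smul_eq_mul, mul_comm]
      _ = ∫ p in S', psi w z t s b d (Xr π x r p) ∂V :=
          setIntegral_congr_fun hS'm fun p hp => (psi_eq hd.le hp.1.1 hp.1.2).symm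
      _ ≤ _ := setIntegral_mono_set hi (ae_of_all _ fun p => psi_nonneg _ _ _ _ _ _ _)
          (LE.le.eventuallyLE inter_subset_right)
  have h4 : (1 / 2) * (d * V.real (S ∩ box π ρ x (8 * r) ×ˢ univ)) ≤
      (2 * r) ^ m * (Q * (1 / 2 * ((2 ^ m)⁻¹ * (d * volume.real (Sl w (t + d) s (b + d)))))) +
        η' * (2 * r) ^ m := by
    have h5 : (2 * r) ^ m * (Q * (1 / 2 * ((2 ^ m)⁻¹ * ∫ v, psi w z t s b d v))) ≤
        (2 * r) ^ m * (Q * (1 / 2 * ((2 ^ m)⁻¹ * (d * volume.real (Sl w (t + d) s (b + d)))))) := by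
      gcongr
    linarith
  have h5 : (2 * r) ^ m = 2 ^ m * r ^ m := mul_pow _ _ _
  rw [h5] at h4
  have h6 : V.real (S ∩ box π ρ x (8 * r) ×ˢ univ) ≤
      (Q * volume.real (Sl w (t + d) s (b + d)) + 2 ^ (m + 1) * η' / d) * r ^ m := by
    have h7 : d * V.real (S ∩ box π ρ x (8 * r) ×ˢ univ) ≤
        d * ((Q * volume.real (Sl w (t + d) s (b + d)) + 2 ^ (m + 1) * η' / d) * r ^ m) := by
      calc d * V.real (S ∩ box π ρ x (8 * r) ×ˢ univ)
          = 2 * ((1 / 2) * (d * V.real (S ∩ box π ρ x (8 * r) ×ˢ univ))) := by ring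
        _ ≤ 2 * (2 ^ m * r ^ m * (Q * (1 / 2 * ((2 ^ m)⁻¹ *
            (d * volume.real (Sl w (t + d) s (b + d)))))) + η' * (2 ^ m * r ^ m)) := by gcongr
        _ = _ := by
            field_simp
            ring
    exact le_of_mul_le_mul_left h7 hd
  calc (r ^ m)⁻¹ * V.real (S ∩ box π ρ x (8 * r) ×ˢ univ)
      ≤ (r ^ m)⁻¹ * ((Q * volume.real (Sl w (t + d) s (b + d)) + 2 ^ (m + 1) * η' / d) * r ^ m) := by
        gcongr
    _ = _ := by field_simp

/-- field `slab` -/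
theorem Cx.f_slab (h : Cx U V Q K x r π ρ u ε C) (hz : Ctr V π x r z zh) {η η' t₀ : ℝ}
    (hη : 0 < η) (hη1 : η ≤ 1) (ht₀ : 0 < t₀)
    (hQL : QL V π x r Q η') (hη' : 2 ^ (m + 1) * η' ≤ (η * t₀) * (η * t₀ ^ m)) {t b s : ℝ} {w : Euc m}
    (hw : ‖w‖ = 1) (ht : t₀ ≤ t) (ht1 : t ≤ 1) (hb : 0 ≤ b) (hs : √(hc m Q * ε) ≤ 1) :
    (nu V π ρ x r).real {q | ‖Xr π x r q - z‖ < t ∧ |⟪w, Xr π x r q - z⟫_ℝ - s| ≤ b * t} ≤
      (Q * (5 ^ m * ome m * 2 ^ m) + 1) * (b + η) * t ^ m := by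
  have home := ome_pos m
  have ht0 : 0 < t := ht₀.trans_le ht
  have hd : 0 < η * t₀ := by positivity
  have hdt : η * t₀ ≤ η * t := by gcongr
  have hηt : η * t ≤ t := by nlinarith
  have h1 := h.slab_aux hz hQL hw ht0 ht1 (b := b * t) (s := s) (by positivity) hd (by
    have : η * t₀ ≤ 1 * 1 := by
      gcongr
      exact ht.trans ht1
    linarith) hs
  refine h1.trans ?_
  have h2 : 2 ^ (m + 1) * η' / (η * t₀) ≤ η * t ^ m := by
    rw [div_le_iff₀ hd]
    calc 2 ^ (m + 1) * η' ≤ (η * t₀) * (η * t₀ ^ m) := hη'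
      _ ≤ (η * t₀) * (η * t ^ m) := by gcongr
      _ = _ := mul_comm _ _
  have h3 := volume_Sl hw (R := t + η * t₀) (a := b * t + η * t₀) (by positivity) (by positivity) s
  have h4 : volume.real (Sl w (t + η * t₀) s (b * t + η * t₀)) * t ≤
      (5 ^ m * ome m * 2 ^ m * (b + η) * t ^ m) * t := by
    have h5 : 0 ≤ volume.real (Sl w (t + η * t₀) s (b * t + η * t₀)) := measureReal_nonneg
    calc volume.real (Sl w (t + η * t₀) s (b * t + η * t₀)) * t
        ≤ volume.real (Sl w (t + η * t₀) s (b * t + η * t₀)) * (t + η * t₀) := by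
          gcongr
          linarith
      _ ≤ 5 ^ m * (ome m * (t + η * t₀) ^ m) * (b * t + η * t₀) := h3
      _ ≤ 5 ^ m * (ome m * (2 * t) ^ m) * (b * t + η * t) := by
          gcongr
          linarith
      _ = _ := by rw [mul_pow]; ring
  have h5 := le_of_mul_le_mul_right h4 ht0
  calc Q * volume.real (Sl w (t + η * t₀) s (b * t + η * t₀)) + 2 ^ (m + 1) * η' / (η * t₀)
      ≤ Q * (5 ^ m * ome m * 2 ^ m * (b + η) * t ^ m) + η * t ^ m := by gcongr
    _ ≤ Q * (5 ^ m * ome m * 2 ^ m * (b + η) * t ^ m) + (b + η) * t ^ m := by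
        gcongr
        linarith
    _ = _ := by ring

end Crest.Agent.R234.Pd_435
end
end

-- ▼ part R234/Pd4_435
section

/-!
# Row 234, VF-F11 (helper435): V-level instance of `Pin3_3.Data`, part 4: the field `bar`
-/

set_option autoImplicit false
set_option linter.unusedVariables false
set_option linter.unusedSectionVars false

open MeasureTheory Filter Topology Set Metric
open scoped ENNReal NNReal ContDiff InnerProductSpace
open Crest.GeometryTopology.Submanifold Crest.Agent.R234.Vf_884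
open Crest.Agent.R234.Main_456 Crest.Agent.R234.F11_435
open Crest.Agent.R234.Pin3_3 (BB HH)

noncomputable section

namespace Crest.Agent.R234.Pd_435

variable {m n k : ℕ}

/-- the fixed profile -/
def prf (t : ℝ) : ℝ := Real.smoothTransition (4 / 3 * (1 - t))

theorem prf_nonneg (t : ℝ) : 0 ≤ prf t := Real.smoothTransition.nonneg _
theorem prf_le_one (t : ℝ) : prf t ≤ 1 := Real.smoothTransition.le_one _

theorem prf_eq_one {t : ℝ} (ht : t ≤ 1 / 4) : prf t = 1 :=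
  Real.smoothTransition.one_of_one_le (by linarith)

theorem prf_eq_zero {t : ℝ} (ht : 1 ≤ t) : prf t = 0 :=
  Real.smoothTransition.zero_of_nonpos (by linarith)

theorem contDiff_prf : ContDiff ℝ ∞ prf := by
  unfold prf
  exact Real.smoothTransition.contDiff.comp (by fun_prop)

theorem continuous_prf : Continuous prf := contDiff_prf.continuous

/-- affine coordinates -/
def cof (o : Option (Fin m)) (v : Euc m) : ℝ := match o with
  | none => 1
  | some j => v j

theorem contDiff_cof (o : Option (Fin m)) : ContDiff ℝ ∞ (cof o) := by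
  rcases o with _ | j
  · exact contDiff_const
  · exact (EuclideanSpace.proj j : Euc m →L[ℝ] ℝ).contDiff

/-- the fixed test functions -/
def Gf (o o' : Option (Fin m)) (v : Euc m) : ℝ := prf (‖v‖ ^ 2) * (cof o v * cof o' v)

theorem contDiff_Gf (o o' : Option (Fin m)) : ContDiff ℝ ∞ (Gf o o') := by
  unfold Gf
  exact (contDiff_prf.comp (contDiff_norm_sq ℝ)).mul ((contDiff_cof o).mul (contDiff_cof o'))

theorem tsupport_Gf (o o' : Option (Fin m)) : tsupport (Gf o o') ⊆ closedBall 0 1 := by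
  refine closure_minimal ?_ isClosed_closedBall
  intro v hv
  rw [mem_closedBall_zero_iff]
  by_contra hcon
  push Not at hcon
  refine hv ?_
  unfold Gf
  rw [prf_eq_zero (one_le_pow₀ hcon.le), zero_mul]

theorem exists_Gf_bound (m K : ℕ) : ∃ M : ℝ, 1 ≤ M ∧ ∀ (o o' : Option (Fin m)), ∀ j ≤ K, ∀ v,
    ‖iteratedFDeriv ℝ j (Gf o o') v‖ ≤ M := by
  have hb : ∀ (q : Option (Fin m) × Option (Fin m) × Fin (K + 1)), ∃ B : ℝ, ∀ v,
      ‖iteratedFDeriv ℝ q.2.2 (Gf q.1 q.2.1) v‖ ≤ B := by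
    intro q
    have h1 : Continuous (iteratedFDeriv ℝ q.2.2 (Gf q.1 q.2.1)) :=
      (contDiff_Gf q.1 q.2.1).continuous_iteratedFDeriv (m := q.2.2) (by exact_mod_cast le_top)
    have h2 : HasCompactSupport (Gf q.1 q.2.1) :=
      HasCompactSupport.of_support_subset_isCompact (isCompact_closedBall 0 1)
        ((subset_tsupport _).trans (tsupport_Gf _ _))
    have h3 : HasCompactSupport (iteratedFDeriv ℝ q.2.2 (Gf q.1 q.2.1)) := h2.iteratedFDeriv _
    obtain ⟨B, hB⟩ := h1.bounded_above_of_compact_support h3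
    exact ⟨B, hB⟩
  choose B hB using hb
  refine ⟨1 + ∑ q, |B q|, by
    have : 0 ≤ ∑ q, |B q| := Finset.sum_nonneg fun q _ => abs_nonneg _
    linarith, ?_⟩
  intro o o' j hj v
  have h1 := hB (o, o', ⟨j, by omega⟩) v
  refine h1.trans ((le_abs_self _).trans ?_)
  have h2 := Finset.single_le_sum (f := fun q => |B q|) (fun q _ => abs_nonneg _)
    (Finset.mem_univ (o, o', (⟨j, by omega⟩ : Fin (K + 1))))
  linarith

/-- derivatives of rescaled functions -/
theorem iter_scale {f : Euc m → ℝ} (hf : ContDiff ℝ ∞ f) {t : ℝ} (ht : 0 < t) (j : ℕ) (v : Euc m) :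
    ‖iteratedFDeriv ℝ j (fun v => f (t⁻¹ • v)) v‖ ≤ (t⁻¹) ^ j * ‖iteratedFDeriv ℝ j f (t⁻¹ • v)‖ := by
  set g : Euc m →L[ℝ] Euc m := t⁻¹ • ContinuousLinearMap.id ℝ (Euc m) with hg
  have h1 : (fun v => f (t⁻¹ • v)) = f ∘ g := by
    ext v; simp [hg]
  rw [h1, ContinuousLinearMap.iteratedFDeriv_comp_right g (hf.of_le (by exact_mod_cast le_top :
    ((j : ℕ∞) : WithTop ℕ∞) ≤ ((⊤ : ℕ∞) : WithTop ℕ∞))) v le_rfl]
  refine (ContinuousMultilinearMap.norm_compContinuousLinearMap_le _ _).trans ?_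
  have h2 : ‖g‖ ≤ t⁻¹ := by
    rw [hg, norm_smul, norm_inv, Real.norm_of_nonneg ht.le]
    have := ContinuousLinearMap.norm_id_le (𝕜 := ℝ) (E := Euc m)
    have h3 : 0 ≤ t⁻¹ := by positivity
    nlinarith
  have h3 : g v = t⁻¹ • v := by simp [hg]
  rw [h3, mul_comm, Finset.prod_const, Finset.card_univ, Fintype.card_fin]
  gcongr

/-- scale factors -/
def scf (t : ℝ) (o : Option (Fin m)) : ℝ := match o with
  | none => 1
  | some _ => t

theorem scf_nonneg {t : ℝ} (ht : 0 ≤ t) (o : Option (Fin m)) : 0 ≤ scf t o := by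
  rcases o with _ | j
  · exact zero_le_one
  · exact ht

theorem scf_le_one {t : ℝ} (ht : t ≤ 1) (o : Option (Fin m)) : scf t o ≤ 1 := by
  rcases o with _ | j
  · exact le_rfl
  · exact ht

theorem cof_eq {t : ℝ} (ht : t ≠ 0) (o : Option (Fin m)) (v : Euc m) :
    cof o v = scf t o * cof o (t⁻¹ • v) := by
  rcases o with _ | j
  · simp [cof, scf]
  · simp only [cof, scf, PiLp.smul_apply, smul_eq_mul]
    field_simp

/-- coefficients of an affine function -/
def Av (a₀ : ℝ) (a₁ : Euc m) (o : Option (Fin m)) : ℝ := match o with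
  | none => a₀
  | some j => a₁ j

theorem sum_Av (a₀ : ℝ) (a₁ : Euc m) (v : Euc m) : ∑ o, Av a₀ a₁ o * cof o v = a₀ + ⟪a₁, v⟫_ℝ := by
  rw [Fintype.sum_option]
  simp only [Av, cof, mul_one]
  congr 1
  rw [PiLp.inner_apply]
  refine Finset.sum_congr rfl fun j _ => ?_
  simp [mul_comm]

theorem abs_Av_le (a₀ : ℝ) (a₁ : Euc m) (o : Option (Fin m)) : |Av a₀ a₁ o| ≤ |a₀| + ‖a₁‖ := by
  rcases o with _ | j
  · simp only [Av]
    linarith [norm_nonneg a₁]
  · simp only [Av]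
    have h1 := PiLp.norm_apply_le a₁ j
    rw [Real.norm_eq_abs] at h1
    linarith [abs_nonneg a₀]

/-- coefficients of a vector valued affine function -/
def Bv (b₀ : Euc n) (B : Euc m →L[ℝ] Euc n) (o : Option (Fin m)) : Euc n := match o with
  | none => b₀
  | some j => B (EuclideanSpace.single j 1)

theorem sum_Bv (b₀ : Euc n) (B : Euc m →L[ℝ] Euc n) (v : Euc m) :
    ∑ o, cof o v • Bv b₀ B o = b₀ + B v := by
  rw [Fintype.sum_option]
  simp only [Bv, cof, one_smul]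
  congr 1
  have h1 : v = ∑ j, v j • EuclideanSpace.single j (1:ℝ) := by
    ext i
    simp [Finset.sum_apply, Pi.single_apply]
  conv_rhs => rw [h1]
  rw [map_sum]
  simp

theorem norm_Bv_le (b₀ : Euc n) (B : Euc m →L[ℝ] Euc n) (o : Option (Fin m)) :
    ‖Bv b₀ B o‖ ≤ ‖b₀‖ + ‖B‖ := by
  rcases o with _ | j
  · simp only [Bv]
    linarith [norm_nonneg B]
  · simp only [Bv]
    have h1 := B.le_opNorm (EuclideanSpace.single j 1)
    simp only [PiLp.norm_single, norm_one, mul_one] at h1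
    linarith [norm_nonneg b₀]

theorem Gf_scale {t : ℝ} (ht : 0 < t) (o o' : Option (Fin m)) (v : Euc m) :
    prf (‖v‖ ^ 2 / t ^ 2) * (cof o v * cof o' v) =
      scf t o * scf t o' * Gf o o' (t⁻¹ • v) := by
  unfold Gf
  have h1 : ‖t⁻¹ • v‖ ^ 2 = ‖v‖ ^ 2 / t ^ 2 := by
    rw [norm_smul, norm_inv, Real.norm_of_nonneg ht.le]
    field_simp
  rw [h1, cof_eq ht.ne' o v, cof_eq ht.ne' o' v]
  ring

variable {U : Set (Euc k)} {V : Measure (Euc k × L k)} {Q K : ℕ} {x : Euc k} {r : ℝ}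
  {π : Euc k →L[ℝ] Euc m} {ρ : Euc k →L[ℝ] Euc n} {u : Euc m → Euc n} {ε C : ℝ}
  {z : Euc m} {zh : Euc k}

/-- continuous functions are integrable for `nu` -/
theorem Cx.int_nu (h : Cx U V Q K x r π ρ u ε C) {F : Type*} [NormedAddCommGroup F]
    [SecondCountableTopologyEither (Euc k × L k) F]
    {f : Euc k × L k → F} (hf : Continuous f) : Integrable f (nu V π ρ x r) := by
  have := h.fin_nu
  have hK : IsCompact (closedBall x (64 * r) ×ˢ G m k) :=
    (isCompact_closedBall _ _).prod (isCompact_G m k)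
  obtain ⟨B, hB⟩ := hK.exists_bound_of_continuousOn hf.continuousOn
  refine Integrable.of_bound hf.aestronglyMeasurable B ?_
  unfold nu
  refine Measure.ae_smul_measure_le _ ?_
  filter_upwards [ae_restrict_mem (measurableSet_bx π ρ x (8 * r)),
    ae_restrict_of_ae h.st.conc] with p hp hp2
  exact hB p ⟨ball_subset_closedBall (box_subset_ball h.ref.frame h.hr hp.1), hp2⟩

/-- the moments against the fixed test functions -/
theorem Cx.moment (h : Cx U V Q K x r π ρ u ε C) (hz : Ctr V π x r z zh) {M t₀ t : ℝ}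
    (hM1 : 1 ≤ M)
    (hM : ∀ (o o' : Option (Fin m)), ∀ j ≤ K, ∀ v, ‖iteratedFDeriv ℝ j (Gf o o') v‖ ≤ M)
    (ht₀ : 0 < t₀) (ht : t₀ ≤ t) (ht1 : t ≤ 1) (o o' : Option (Fin m)) :
    ‖∫ q, Gf o o' (t⁻¹ • (Xr π x r q - z)) • Yr π ρ x r u q ∂(nu V π ρ x r)‖ ≤
      M * (t₀⁻¹) ^ K * ε * √(sep V π ρ x r u 8 / r ^ (m + 2)) := by
  have hr := h.hr
  have ht0 : 0 < t := ht₀.trans_le ht
  have hsep0 : 0 ≤ sep V π ρ x r u 8 := integral_nonneg fun p => by positivity
  set η : Euc m → ℝ := fun v => Gf o o' (t⁻¹ • v) with hη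
  have hηc : ContDiff ℝ ∞ η := (contDiff_Gf o o').comp (contDiff_const_smul _)
  have hηs : tsupport η ⊆ Metric.ball 0 7 := by
    have h1 : Function.support η ⊆ closedBall 0 t := by
      intro v hv
      have h2 : t⁻¹ • v ∈ closedBall (0 : Euc m) 1 :=
        tsupport_Gf o o' (subset_tsupport _ (Function.mem_support.2 hv))
      rw [mem_closedBall_zero_iff, norm_smul, norm_inv, Real.norm_of_nonneg ht0.le,
        inv_mul_le_iff₀ ht0, mul_one] at h2
      simpa using h2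
    refine (closure_minimal h1 isClosed_closedBall).trans (closedBall_subset_ball (by linarith))
  have ht₀1 : t₀ ≤ 1 := ht.trans ht1
  have hinv : 1 ≤ t₀⁻¹ := one_le_inv_iff₀.2 ⟨ht₀, ht₀1⟩
  have hB : ∀ j ≤ K, ∀ v, ‖iteratedFDeriv ℝ j η v‖ ≤ M * (t₀⁻¹) ^ K := by
    intro j hj v
    refine (iter_scale (contDiff_Gf o o') ht0 j v).trans ?_
    calc (t⁻¹) ^ j * ‖iteratedFDeriv ℝ j (Gf o o') (t⁻¹ • v)‖ ≤ (t₀⁻¹) ^ j * M := by
          gcongr
          exact hM o o' j hj _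
      _ ≤ (t₀⁻¹) ^ K * M := by
          gcongr
      _ = _ := mul_comm _ _
  have h1 := mean_z h.ref hr hz.mem hηc hηs (B := M * (t₀⁻¹) ^ K) (by positivity) hB
  have h2 : ∫ q, Gf o o' (t⁻¹ • (Xr π x r q - z)) • Yr π ρ x r u q ∂(nu V π ρ x r) =
      (r ^ m)⁻¹ • r⁻¹ • ∫ p in box π ρ x (8 * r) ×ˢ univ,
        η (r⁻¹ • π (p.1 - zh)) • hgt π ρ x r u p.1 ∂V := by
    rw [← setIntegral_univ, setIntegral_nu hr MeasurableSet.univ, univ_inter]
    congr 1
    rw [← integral_smul r⁻¹]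
    refine integral_congr_ae (ae_of_all _ fun q => ?_)
    simp only [hη, Yr]
    rw [← h.c_pi hz, smul_comm]
    rfl
  rw [h2, norm_smul, norm_smul, norm_inv, norm_inv, Real.norm_of_nonneg hr.le,
    Real.norm_of_nonneg (by positivity : (0:ℝ) ≤ r ^ m)]
  set J := ‖∫ p in box π ρ x (8 * r) ×ˢ univ,
        η (r⁻¹ • π (p.1 - zh)) • hgt π ρ x r u p.1 ∂V‖ with hJ
  have h3 : J ≤ √((M * (t₀⁻¹) ^ K) ^ 2 * (ε ^ 2 * r ^ m * sep V π ρ x r u 8)) :=
    Real.le_sqrt_of_sq_le h1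
  have h4 : √((M * (t₀⁻¹) ^ K) ^ 2 * (ε ^ 2 * r ^ m * sep V π ρ x r u 8)) =
      (M * (t₀⁻¹) ^ K) * ε * √(sep V π ρ x r u 8 / r ^ (m + 2)) * (r ^ m * r) := by
    have h5 : (M * (t₀⁻¹) ^ K) ^ 2 * (ε ^ 2 * r ^ m * sep V π ρ x r u 8) =
        ((M * (t₀⁻¹) ^ K) * ε * (r ^ m * r)) ^ 2 * (sep V π ρ x r u 8 / r ^ (m + 2)) := by
      rw [pow_add]
      field_simp
    rw [h5, Real.sqrt_mul (by positivity), Real.sqrt_sq (by have := h.e0; positivity)]
    ring
  rw [h4] at h3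
  calc (r ^ m)⁻¹ * (r⁻¹ * J) ≤ (r ^ m)⁻¹ * (r⁻¹ *
        ((M * (t₀⁻¹) ^ K) * ε * √(sep V π ρ x r u 8 / r ^ (m + 2)) * (r ^ m * r))) := by gcongr
    _ = _ := by field_simp

/-- field `bar` -/
theorem Cx.f_bar (h : Cx U V Q K x r π ρ u ε C) (hz : Ctr V π x r z zh) {M t₀ t : ℝ}
    (hM1 : 1 ≤ M)
    (hM : ∀ (o o' : Option (Fin m)), ∀ j ≤ K, ∀ v, ‖iteratedFDeriv ℝ j (Gf o o') v‖ ≤ M)
    (ht₀ : 0 < t₀) (ht : t₀ ≤ t) (ht1 : t ≤ 1) (a₀ : ℝ) (a₁ : Euc m) (b₀ : Euc n)
    (B : Euc m →L[ℝ] Euc n) :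
    |∫ q, prf (‖Xr π x r q - z‖ ^ 2 / t ^ 2) * ((a₀ + ⟪a₁, Xr π x r q - z⟫_ℝ) *
      ⟪b₀ + B (Xr π x r q - z), Yr π ρ x r u q⟫_ℝ) ∂(nu V π ρ x r)| ≤
      ((m + 1) ^ 2 * M * (t₀⁻¹) ^ K * ε) * (|a₀| + ‖a₁‖) * (‖b₀‖ + ‖B‖) *
        √(sep V π ρ x r u 8 / r ^ (m + 2)) := by
  have hr := h.hr
  have ht0 : 0 < t := ht₀.trans_le ht
  have hXc : Continuous (Xr π x r : Euc k × L k → Euc m) := continuous_Xr
  have hexp : ∀ q : Euc k × L k, prf (‖Xr π x r q - z‖ ^ 2 / t ^ 2) *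
      ((a₀ + ⟪a₁, Xr π x r q - z⟫_ℝ) * ⟪b₀ + B (Xr π x r q - z), Yr π ρ x r u q⟫_ℝ) =
      ∑ o, ∑ o', (Av a₀ a₁ o * scf t o * scf t o') *
        ⟪Bv b₀ B o', Gf o o' (t⁻¹ • (Xr π x r q - z)) • Yr π ρ x r u q⟫_ℝ := by
    intro q
    set v := Xr π x r q - z with hv
    rw [← sum_Av a₀ a₁ v, ← sum_Bv b₀ B v, sum_inner, Finset.sum_mul_sum, Finset.mul_sum]
    refine Finset.sum_congr rfl fun o _ => ?_
    rw [Finset.mul_sum]
    refine Finset.sum_congr rfl fun o' _ => ?_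
    rw [real_inner_smul_left, real_inner_smul_right]
    have h1 := Gf_scale ht0 o o' v
    calc prf (‖v‖ ^ 2 / t ^ 2) * (Av a₀ a₁ o * cof o v * (cof o' v * ⟪Bv b₀ B o', Yr π ρ x r u q⟫_ℝ))
        = (prf (‖v‖ ^ 2 / t ^ 2) * (cof o v * cof o' v)) *
          (Av a₀ a₁ o * ⟪Bv b₀ B o', Yr π ρ x r u q⟫_ℝ) := by ring
      _ = _ := by rw [h1]; ring
  have hGi : ∀ o o' : Option (Fin m), Integrable
      (fun q => Gf o o' (t⁻¹ • (Xr π x r q - z)) • Yr π ρ x r u q) (nu V π ρ x r) := by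
    intro o o'
    refine h.int_nu ?_
    have h1 := (contDiff_Gf o o').continuous
    have h2 : Continuous fun q : Euc k × L k => t⁻¹ • (Xr π x r q - z) := by
      have : Continuous fun q : Euc k × L k => Xr π x r q - z := hXc.sub continuous_const
      exact Continuous.const_smul (M := ℝ) this _
    exact Continuous.smul (M := ℝ) (h1.comp h2) h.continuous_Yr
  simp only [hexp]
  rw [integral_finsetSum _ fun o _ => integrable_finsetSum _ fun o' _ =>
    ((hGi o o').const_inner _).const_mul _]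
  refine (Finset.abs_sum_le_sum_abs _ _).trans ?_
  have hterm : ∀ o o' : Option (Fin m), |∫ q, (Av a₀ a₁ o * scf t o * scf t o') *
        ⟪Bv b₀ B o', Gf o o' (t⁻¹ • (Xr π x r q - z)) • Yr π ρ x r u q⟫_ℝ ∂(nu V π ρ x r)| ≤
      (|a₀| + ‖a₁‖) * (‖b₀‖ + ‖B‖) * (M * (t₀⁻¹) ^ K * ε * √(sep V π ρ x r u 8 / r ^ (m + 2))) := by
    intro o o'
    rw [integral_const_mul, integral_inner (hGi o o'), abs_mul]
    have h1 : |Av a₀ a₁ o * scf t o * scf t o'| ≤ |a₀| + ‖a₁‖ := by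
      rw [abs_mul, abs_mul, abs_of_nonneg (scf_nonneg ht0.le o), abs_of_nonneg (scf_nonneg ht0.le o')]
      calc |Av a₀ a₁ o| * scf t o * scf t o' ≤ (|a₀| + ‖a₁‖) * 1 * 1 := by
            have := scf_nonneg ht0.le o
            have := scf_nonneg ht0.le o'
            gcongr
            · exact abs_Av_le _ _ _
            · exact scf_le_one ht1 _
            · exact scf_le_one ht1 _
        _ = _ := by ring
    have h2 : |⟪Bv b₀ B o', ∫ q, Gf o o' (t⁻¹ • (Xr π x r q - z)) • Yr π ρ x r u q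
        ∂(nu V π ρ x r)⟫_ℝ| ≤ (‖b₀‖ + ‖B‖) *
        (M * (t₀⁻¹) ^ K * ε * √(sep V π ρ x r u 8 / r ^ (m + 2))) := by
      refine (abs_real_inner_le_norm _ _).trans ?_
      gcongr
      · exact norm_Bv_le _ _ _
      · exact h.moment hz hM1 hM ht₀ ht ht1 o o'
    calc _ ≤ (|a₀| + ‖a₁‖) * ((‖b₀‖ + ‖B‖) *
        (M * (t₀⁻¹) ^ K * ε * √(sep V π ρ x r u 8 / r ^ (m + 2)))) := by gcongr
      _ = _ := by ring
  calc ∑ o, |∫ q, ∑ o', (Av a₀ a₁ o * scf t o * scf t o') *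
        ⟪Bv b₀ B o', Gf o o' (t⁻¹ • (Xr π x r q - z)) • Yr π ρ x r u q⟫_ℝ ∂(nu V π ρ x r)|
      ≤ ∑ o : Option (Fin m), ∑ o' : Option (Fin m), (|a₀| + ‖a₁‖) * (‖b₀‖ + ‖B‖) *
        (M * (t₀⁻¹) ^ K * ε * √(sep V π ρ x r u 8 / r ^ (m + 2))) := by
        refine Finset.sum_le_sum fun o _ => ?_
        rw [integral_finsetSum _ fun o' _ => ((hGi o o').const_inner _).const_mul _]
        refine (Finset.abs_sum_le_sum_abs _ _).trans ?_
        exact Finset.sum_le_sum fun o' _ => hterm o o'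
    _ = _ := by
        simp only [Finset.sum_const, Finset.card_univ, Fintype.card_option, Fintype.card_fin,
          nsmul_eq_mul]
        push_cast
        ring

end Crest.Agent.R234.Pd_435
end
private theorem rz_805eb45871 : type_of% @_root_.Crest.Agent.R234.Pd_435.Av.eq_1 := @_root_.Crest.Agent.R234.Pd_435.Av.eq_1 -- L133
private theorem rz_e242e69a0c : type_of% @_root_.Crest.Agent.R234.Pd_435.Bv.eq_1 := @_root_.Crest.Agent.R234.Pd_435.Bv.eq_1 -- L155
private theorem rz_718f15d59c : type_of% @_root_.Crest.Agent.R234.Pd_435.cof.eq_1 := @_root_.Crest.Agent.R234.Pd_435.cof.eq_1 -- L42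
private theorem rz_1d58af65f2 : type_of% @_root_.Crest.Agent.R234.Pd_435.scf.eq_1 := @_root_.Crest.Agent.R234.Pd_435.scf.eq_1 -- L111
end

-- ▼ part R234/Pin8_3

/-!
R234 (helper3), VF-PIN part 8 (P-GLUE): `PinDataK` from 435's fields (`Pd2..Pd4_435`), `QLeb` and the
per-centre data `CtrK` (fields `fd`, `top`, `up`, `lo`, `J` and the size of `I` at the top).
-/

open MeasureTheory Set Metric
open scoped RealInnerProductSpace ENNReal

namespace Crest.Agent.R234.Pin8_3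

set_option linter.unusedSectionVars false
set_option linter.unusedVariables false

open Crest.Agent.R234.Pin1_3 Crest.Agent.R234.Pin2_3 Crest.Agent.R234.Pin3_3
open Crest.Agent.R234.Pin6_3 Crest.Agent.R234.Pin7_3
open Crest.GeometryTopology.Submanifold Crest.Agent.R234.Vf_884
open Crest.Agent.R234.Main_456 Crest.Agent.R234.Pd_435
open Crest.Agent.R234.AS_456 (hp vp)

/-- the frequency data at one centre `zh` (foot `z = r⁻¹ π (zh - x)`, height `r⁻¹ hgt zh`). -/
structure CtrData {m n k : ℕ} (V : Measure (Euc k × L k)) (x : Euc k) (r : ℝ)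
    (π' : Euc k →L[ℝ] Euc m) (ρ : Euc k →L[ℝ] Euc n) (u : Euc m → Euc n) (zh : Euc k)
    (F I e b R : ℝ → ℝ) (C η lm : ℝ) : Prop where
  fd : FD F I e b R η lm (-3)
  top : NN F I (-3) ≤ C
  up : ∀ l ∈ Icc lm (-3), Real.exp l ^ m * I l ≤ C *
    ∫ ω in BB (Xr π' x r) (r⁻¹ • π' (zh - x)) (Real.exp l),
      ‖Yr π' ρ x r u ω - r⁻¹ • hgt π' ρ x r u zh‖ ^ 2 ∂(nu V π' ρ x r)
  lo : ∀ l ∈ Icc lm (-3), ∫ ω in BB (Xr π' x r) (r⁻¹ • π' (zh - x)) (Real.exp l / 2),
      ‖Yr π' ρ x r u ω - r⁻¹ • hgt π' ρ x r u zh‖ ^ 2 ∂(nu V π' ρ x r) ≤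
    C * (Real.exp l ^ m * I l)
  J : ∀ l ∈ Icc lm (-3), ∀ α, 0 ≤ α → α ≤ 2 * C →
    ∫ ω in BB (Xr π' x r) (r⁻¹ • π' (zh - x)) (Real.exp l / 2),
      ‖er (Tr π' ρ x r u ω) (Xr π' x r ω) (r⁻¹ • π' (zh - x)) (Yr π' ρ x r u ω)
        (r⁻¹ • hgt π' ρ x r u zh) α‖ ^ 2 ∂(nu V π' ρ x r) ≤
      Real.exp l ^ m * (C * (R l - 2 * α * e l + α ^ 2 * I l) + η * I l)
  sep : Main_456.sep V π' ρ x r u 8 / r ^ (m + 2) ≤ C * I (-3)

/-- per-centre input: 435 (`up`, `lo`, `J`, `sep`) and 534 (`fd`, `top`). -/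
def CtrK (m n K : ℕ) : Prop :=
  ∀ (Q : ℕ) (C : ℝ), 2 ≤ Q → ∃ C₀ : ℝ, 1 ≤ C₀ ∧ ∀ C₁ : ℝ, C₀ ≤ C₁ →
    ∀ (lm η : ℝ), lm < -3 → 0 < η → ∃ ε₀ : ℝ, 0 < ε₀ ∧ ∀ ε : ℝ, 0 < ε → ε ≤ ε₀ →
      ∀ (U : Set (Euc (m + n))), IsOpen U → ∀ D : VarifoldData m (m + n),
        IsIntegralVarifoldIn U D → IsStationaryIn U D → ∀ (x : Euc (m + n)) (r : ℝ)
        (π' : Euc (m + n) →L[ℝ] Euc m) (ρ : Euc (m + n) →L[ℝ] Euc n) (u : Euc m → Euc n),
          Cx U (VD D) Q K x r π' ρ u ε C → Th m (VD D) x = (Q : ℝ≥0∞) →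
          ∀ zh ∈ closedBall x r, (Q : ℝ≥0∞) ≤ Th m (VD D) zh →
            ∃ F I e b R : ℝ → ℝ, CtrData (VD D) x r π' ρ u zh F I e b R C₁ η lm

theorem nearQ_mono {m k : ℕ} {V : Measure (Euc k × L k)} {Q : ℕ} {x : Euc k} {r ε ε' : ℝ} {P : L k}
    (hr : 0 ≤ r) (h : NearQ m V Q x r ε P) (hε : ε ≤ ε') : NearQ m V Q x r ε' P := by
  obtain ⟨h1, h2, h3⟩ := h
  refine ⟨h1, h2.trans (by gcongr), h3.trans ?_⟩
  gcongr

/-- **P-GLUE**. -/
theorem pinDataK_of {m n K : ℕ} (hm : 3 ≤ m) (hK : 2 ≤ K) (hQL : QLeb) (hC : CtrK m n K) :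
    PinDataK m n K := by
  intro Q C hQ
  have hm1 : 1 ≤ m := by omega
  obtain ⟨C₀, hC₀, hctr⟩ := hC Q C hQ
  have home := ome_pos m
  have h31 : Real.exp (-3) ≤ 1 := Real.exp_le_one_iff.2 (by norm_num)
  obtain ⟨C₁, hC₁⟩ : ∃ C₁ : ℝ, C₀ ≤ C₁ ∧ (Q + 1) * ome m * 4 ^ m ≤ C₁ ∧ (ome m)⁻¹ ≤ C₁ ∧
      2 * (ome m)⁻¹ ≤ C₁ ∧ (Q * (5 ^ m * ome m * 2 ^ m) + 1 : ℝ) ≤ C₁ :=
    ⟨max C₀ (max ((Q + 1) * ome m * 4 ^ m) (max ((ome m)⁻¹) (max (2 * (ome m)⁻¹)
      (Q * (5 ^ m * ome m * 2 ^ m) + 1)))), by simp, by simp, by simp, by simp, by simp⟩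
  obtain ⟨hC₁a, hC₁b, hC₁c, hC₁d, hC₁e⟩ := hC₁
  have hC₁1 : 1 ≤ C₁ := hC₀.trans hC₁a
  refine ⟨C₁, hC₁1, fun lm η' hlm hη' => ?_⟩
  -- `η ≤ 1`
  obtain ⟨η, hηdef⟩ : ∃ η, η = min η' (1 / 2) := ⟨_, rfl⟩
  have hη : 0 < η := by rw [hηdef]; exact lt_min hη' (by norm_num)
  have hη1 : η ≤ 1 / 2 := by rw [hηdef]; exact min_le_right _ _
  have hηη : η ≤ η' := by rw [hηdef]; exact min_le_left _ _
  obtain ⟨ε₀, hε₀, hctr⟩ := hctr C₁ hC₁a lm η hlm hη
  obtain ⟨t₀, ht₀def⟩ : ∃ t₀, t₀ = Real.exp lm := ⟨_, rfl⟩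
  have ht₀ : 0 < t₀ := by rw [ht₀def]; exact Real.exp_pos _
  have ht₀1 : t₀ ≤ 1 := by rw [ht₀def]; exact Real.exp_le_one_iff.2 (by linarith)
  obtain ⟨η₂, hη₂⟩ : ∃ η₂, η₂ = (η * t₀) * (η * t₀ ^ m) / 2 ^ (m + 1) := ⟨_, rfl⟩
  have hη₂0 : 0 < η₂ := by rw [hη₂]; positivity
  obtain ⟨εQ, hεQ, hQL'⟩ := hQL m (m + n) Q hm1 (by omega) η₂ hη₂0
  obtain ⟨εZ, hεZ, hZ⟩ := NearZ_148.nearZ hQL m (m + n) Q hm1 (by omega) 1 εQ one_pos hεQ
  obtain ⟨M, hM1, hM⟩ := exists_Gf_bound m K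
  obtain ⟨d, hd⟩ : ∃ d, d = min (t₀ / 8) (η / 2) := ⟨_, rfl⟩
  have hd0 : 0 < d := by rw [hd]; exact lt_min (by positivity) (by positivity)
  have hd1 : d ≤ t₀ / 8 := by rw [hd]; exact min_le_left _ _
  have hd2 : d ≤ η / 2 := by rw [hd]; exact min_le_right _ _
  have hhc := Cx.hc_pos m Q
  obtain ⟨ε, hε, hε1, hε2, hε3, hε4, hε5, hε6⟩ : ∃ ε : ℝ, 0 < ε ∧ ε ≤ ε₀ ∧ ε ≤ 1 / 4 ∧
      ε ≤ 1 / (64 * m) ∧ ε ≤ d ^ 2 / Cx.hc m Q ∧ ε ≤ εZ ∧
      ε ≤ η / ((m + 1) ^ 2 * M * (t₀⁻¹) ^ K * √C₁) := by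
    have hm0 : (0:ℝ) < m := by exact_mod_cast hm1
    refine ⟨min ε₀ (min (1 / 4) (min (1 / (64 * m)) (min (d ^ 2 / Cx.hc m Q) (min εZ
      (η / ((m + 1) ^ 2 * M * (t₀⁻¹) ^ K * √C₁)))))), ?_, by simp, by simp, by simp, by simp,
      by simp, by simp⟩
    have : 0 < √C₁ := Real.sqrt_pos.2 (by linarith)
    refine lt_min hε₀ (lt_min (by norm_num) (lt_min (by positivity) (lt_min (by positivity)
      (lt_min hεZ (by positivity)))))
  have hsm : √(Cx.hc m Q * ε) ≤ d := by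
    rw [Real.sqrt_le_left hd0.le]
    calc Cx.hc m Q * ε ≤ Cx.hc m Q * (d ^ 2 / Cx.hc m Q) := by gcongr
      _ = d ^ 2 := by field_simp
  refine ⟨ε, hε, fun U hU D hD hst x r hr hxU hTh π' ρ u href => ?_⟩
  have hcx : Cx U (VD D) Q K x r π' ρ u ε C := by
    refine ⟨hm1, stat_VD hD hst, ?_, hr, hxU, href, hK, hε.le, by linarith, ?_, hε2⟩
    · filter_upwards [Al7_182.ae_mem_spt (VD D)] with p hp hpU
      have h1 : p.1 ∈ support D := by
        intro ρ hρ
        have := hp ρ hρ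
        rwa [mass_VD hD] at this
      exact one_le_Th hD hst hm1 hU hpU h1
    · have hm0 : (0:ℝ) < m := by exact_mod_cast hm1
      calc 64 * (m:ℝ) * ε ^ 2 = (64 * m * ε) * ε := by ring
        _ ≤ (64 * m * (1 / (64 * m))) * 1 := by gcongr; linarith
        _ = 1 := by field_simp
  have hQ1 : (1 : ℝ≥0∞) ≤ (Q : ℝ≥0∞) := by exact_mod_cast (by omega : 1 ≤ Q)
  have hQLx : QL (VD D) π' x r Q η₂ := by
    have h1 : NearQ m (VD D) Q x (4 * (2 * r)) εQ (hp π') := by
      refine hZ U hU D hD hst x r hr ?_ hTh.ge (hp π') (nearQ_mono (by positivity) href.near hε5) x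
        (mem_closedBall_self (by positivity)) hTh.ge _ (by linarith) (by linarith)
      exact (closedBall_subset_closedBall (by linarith)).trans hxU
    exact hQL' U hU D hD hst x (2 * r) (by positivity)
      ((closedBall_subset_closedBall (by linarith)).trans hxU) hTh.ge π' href.frame.coπ h1
  constructor
  · intro z hz z' hz' hzQ hzQ'
    have hb : ∀ {z}, z ∈ closedBall x r → z ∈ ball x (32 * r) := by
      intro z hz
      rw [mem_closedBall] at hz
      rw [mem_ball]; linarith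
    have h1 := hcx.rho_small (hb hz) (hQ1.trans hzQ)
    have h2 := hcx.rho_small (hb hz') (hQ1.trans hzQ')
    have h3 : ρ (z - z') = ρ (z - x) - ρ (z' - x) := by rw [← map_sub]; congr 1; abel
    rw [h3]
    refine (norm_sub_le _ _).trans ?_
    have h4 : √(Cx.hc m Q * ε) * r ≤ η / 2 * r := by gcongr; exact hsm.trans hd2
    have h5 : η * r ≤ η' * r := by gcongr
    linarith
  · intro A zh hA
    have hch : ∀ a : Euc m, ∃ F I e b R : ℝ → ℝ, a ∈ A →
        CtrData (VD D) x r π' ρ u (zh a) F I e b R C₁ η lm := by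
      intro a
      by_cases ha : a ∈ A
      · obtain ⟨F, I, e, b, R, h⟩ := hctr ε hε hε1 U hU D hD hst x r π' ρ u hcx hTh (zh a)
          (hA a ha).1 (hA a ha).2.1
        exact ⟨F, I, e, b, R, fun _ => h⟩
      · exact ⟨0, 0, 0, 0, 0, fun h => absurd h ha⟩
    choose F I e b R hdat using hch
    refine ⟨Euc (m + n) × L (m + n), inferInstance, nu (VD D) π' ρ x r, Xr π' x r, Yr π' ρ x r u,
      Tr π' ρ x r u, fun a => r⁻¹ • hgt π' ρ x r u (zh a), F, I, e, b, R, prf, ?_⟩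
    have hctrs : ∀ a ∈ A, Ctr (VD D) π' x r a (zh a) := fun a ha =>
      ⟨(hA a ha).1, hQ1.trans (hA a ha).2.1, (hA a ha).2.2⟩
    have hfin := hcx.fin_nu
    have hmain : Data m (nu (VD D) π' ρ x r) (Xr π' x r) (Yr π' ρ x r u) (Tr π' ρ x r u) A
        (fun a => r⁻¹ • hgt π' ρ x r u (zh a)) F I e b R prf C₁ η lm (-3) := by
      refine ⟨hfin, continuous_Xr.measurable, hcx.continuous_Yr.aestronglyMeasurable,
        hcx.continuous_Tr.aestronglyMeasurable, hcx.f_bd, continuous_prf, prf_nonneg, prf_le_one,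
        fun t ht => prf_eq_one ht, fun t ht => prf_eq_zero ht, fun z hz => (hdat z hz).fd,
        fun z hz => (hdat z hz).top, ?_, ?_, ?_, ?_, ?_, ?_, ?_, ?_, ?_⟩
      · intro z hz l hl
        have h1 := (hdat z hz).up l hl
        rw [(hA z hz).2.2] at h1
        exact h1
      · intro z hz l hl
        have h1 := (hdat z hz).lo l hl
        rw [(hA z hz).2.2] at h1
        exact h1
      · intro z hz l hl α h0 h1
        have h1 := (hdat z hz).J l hl α h0 h1
        rw [(hA z hz).2.2] at h1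
        exact h1
      · intro z hz t h0 h1
        rw [← ht₀def] at h0
        replace h1 := h1.trans h31
        have ht : 0 < t := ht₀.trans_le h0
        filter_upwards [hcx.f_sup (hctrs z hz) ht h1 (hsm.trans (by linarith))] with ω hω hb
        refine (hω hb).trans ?_
        have : 0 ≤ HH (nu (VD D) π' ρ x r) (Xr π' x r) (Yr π' ρ x r u) z (2 * t) :=
          integral_nonneg fun _ => by positivity
        gcongr
      · intro z hz t h0 h1
        rw [← ht₀def] at h0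
        replace h1 := h1.trans h31
        have ht : 0 < t := ht₀.trans_le h0
        refine (hcx.f_hgt (hctrs z hz) ht h1).trans ?_
        have : 0 ≤ HH (nu (VD D) π' ρ x r) (Xr π' x r) (Yr π' ρ x r u) z t :=
          integral_nonneg fun _ => by positivity
        gcongr
      · intro z hz t h0 h1
        rw [← ht₀def] at h0
        replace h1 := h1.trans h31
        have ht : 0 < t := ht₀.trans_le h0
        refine (hcx.f_mass (hctrs z hz) ht (by linarith) (hsm.trans (by linarith))).trans ?_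
        gcongr
      · intro z hz t h0 h1
        rw [← ht₀def] at h0
        replace h1 := h1.trans h31
        have ht : 0 < t := ht₀.trans_le h0
        refine (hcx.f_massl (hctrs z hz) ht (by linarith)).trans ?_
        gcongr
      · intro z hz t h0 h1 w hw s b hb
        rw [← ht₀def] at h0
        replace h1 := h1.trans h31
        have ht : 0 < t := ht₀.trans_le h0
        refine (hcx.f_slab (hctrs z hz) hη (by linarith) ht₀ hQLx (le_of_eq ?_) hw h0 h1 hb
          (hsm.trans (by linarith))).trans ?_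
        · rw [hη₂]; field_simp
        · gcongr
      · intro z hz t h0 h1 a₀ a₁ b₀ B
        rw [← ht₀def] at h0
        replace h1 := h1.trans h31
        refine (hcx.f_bar (hctrs z hz) hM1 hM ht₀ h0 h1 a₀ a₁ b₀ B).trans ?_
        have h2 := (hdat z hz).sep
        have h3 : √(Main_456.sep (VD D) π' ρ x r u 8 / r ^ (m + 2)) ≤ √C₁ * √(I z (-3)) := by
          rw [← Real.sqrt_mul (by linarith)]
          exact Real.sqrt_le_sqrt h2
        have hsC : 0 < √C₁ := Real.sqrt_pos.2 (by linarith)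
        calc ((m + 1) ^ 2 * M * (t₀⁻¹) ^ K * ε) * (|a₀| + ‖a₁‖) * (‖b₀‖ + ‖B‖) *
              √(Main_456.sep (VD D) π' ρ x r u 8 / r ^ (m + 2))
            ≤ ((m + 1) ^ 2 * M * (t₀⁻¹) ^ K * ε) * (|a₀| + ‖a₁‖) * (‖b₀‖ + ‖B‖) *
              (√C₁ * √(I z (-3))) := by gcongr
          _ = (((m + 1) ^ 2 * M * (t₀⁻¹) ^ K * √C₁) * ε) * (|a₀| + ‖a₁‖) * (‖b₀‖ + ‖B‖) *
              √(I z (-3)) := by ring
          _ ≤ (((m + 1) ^ 2 * M * (t₀⁻¹) ^ K * √C₁) * (η / ((m + 1) ^ 2 * M * (t₀⁻¹) ^ K * √C₁))) *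
              (|a₀| + ‖a₁‖) * (‖b₀‖ + ‖B‖) * √(I z (-3)) := by gcongr
          _ = _ := by field_simp
    exact Data.mono_eta hmain (by linarith) hη.le hη1 hηη

/-- `PinData` from `QLeb` and the per-centre data. -/
theorem pinData_of (hQL : QLeb)
    (h : ∀ m n : ℕ, 3 ≤ m → 1 ≤ n → ∃ K₁ : ℕ, ∀ K : ℕ, K₁ ≤ K → CtrK m n K) : PinData := by
  intro m n hm hn
  obtain ⟨K₁, hK₁⟩ := h m n hm hn
  exact ⟨max K₁ 2, fun K hK => pinDataK_of hm ((le_max_right _ _).trans hK) hQL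
    (hK₁ K ((le_max_left _ _).trans hK))⟩

end Crest.Agent.R234.Pin8_3
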