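import Crest.Agent.R234.NearChg_660
import Crest.Agent.R234.NearZ_148

-- ▼ part R234/QLeb1_433
section

/-!
Row 234 (helper433), task VF-QLEB, part 1: almost translation invariance of the horizontal
projection of a flat stationary varifold (one test field, explicit error).
-/

set_option autoImplicit false
set_option linter.unusedVariables false

open MeasureTheory Filter Topology Set Metric
open scoped ENNReal NNReal ContDiff InnerProductSpace
open Crest.GeometryTopology.Submanifold Crest.Agent.R234.Vf_884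
open Crest.Agent.R234.Strat3_842 (tilt height)
open Crest.Agent.R234.AS_456 (hp vp)

noncomputable section

namespace Crest.Agent.R234.QLeb_433

open Crest.Agent.R234.Main_456 Crest.Agent.R234.Al4_182

variable {m k : ℕ} {π : Euc k →L[ℝ] Euc m}

/-! ### linear algebra of a coisometry -/

theorem co_apply (hπ : Ar_870.IsCo π) (w : Euc m) : π (ContinuousLinearMap.adjoint π w) = w :=
  congrArg (fun T : Euc m →L[ℝ] Euc m => T w) hπ

theorem norm_hp (hπ : Ar_870.IsCo π) (v : Euc k) : ‖hp π v‖ = ‖π v‖ := by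
  have : hp π v = ContinuousLinearMap.adjoint π (π v) := rfl
  rw [this, Ar_870.norm_adjoint_co hπ]

theorem pyth (hπ : Ar_870.IsCo π) (v : Euc k) : ‖v‖ ^ 2 = ‖π v‖ ^ 2 + ‖v - hp π v‖ ^ 2 := by
  have h1 : ⟪hp π v, v - hp π v⟫_ℝ = 0 := by
    have e : hp π v = ContinuousLinearMap.adjoint π (π v) := rfl
    rw [e, ContinuousLinearMap.adjoint_inner_left, map_sub, co_apply hπ, sub_self, inner_zero_right]
  have h2 : v = hp π v + (v - hp π v) := by abel
  have h3 := norm_add_sq_real (hp π v) (v - hp π v)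
  rw [← h2, h1, norm_hp hπ] at h3
  linarith

theorem norm_pi_le (hπ : Ar_870.IsCo π) (v : Euc k) : ‖π v‖ ≤ ‖v‖ := by
  have h := pyth hπ v
  have h1 := norm_nonneg (π v)
  have h2 := norm_nonneg v
  nlinarith [sq_nonneg ‖v - hp π v‖]

theorem norm_vp_le (hπ : Ar_870.IsCo π) (v : Euc k) : ‖v - hp π v‖ ≤ ‖v‖ := by
  have h := pyth hπ v
  have h1 := norm_nonneg (v - hp π v)
  have h2 := norm_nonneg v
  nlinarith [sq_nonneg ‖π v‖]

/-! ### cut-off in the height -/

/-- base point in units of `r` -/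
def tt (π : Euc k →L[ℝ] Euc m) (x : Euc k) (r : ℝ) (y : Euc k) : Euc m := r⁻¹ • π (y - x)

/-- cut-off in the height variable -/
def chi (π : Euc k →L[ℝ] Euc m) (x : Euc k) (r : ℝ) (y : Euc k) : ℝ :=
  ph 2 (‖(y - x) - hp π (y - x)‖ ^ 2 / (3 * r) ^ 2)

theorem continuous_tt (x : Euc k) (r : ℝ) : Continuous (tt π x r) := by
  unfold tt; fun_prop

theorem hasFDerivAt_tt (x : Euc k) (r : ℝ) (y : Euc k) :
    HasFDerivAt (tt π x r) (r⁻¹ • π) y := by
  have h1 : HasFDerivAt (fun y : Euc k => y - x) (ContinuousLinearMap.id ℝ (Euc k)) y :=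
    (hasFDerivAt_id y).sub_const x
  have h2 : HasFDerivAt (fun y : Euc k => π (y - x)) (π ∘L ContinuousLinearMap.id ℝ (Euc k)) y :=
    π.hasFDerivAt.comp y h1
  have h3 := h2.const_smul r⁻¹
  refine h3.congr_fderiv ?_
  ext v; simp

theorem contDiff_tt (x : Euc k) (r : ℝ) : ContDiff ℝ 1 (tt π x r) := by
  unfold tt; fun_prop

theorem chi_nonneg (x : Euc k) (r : ℝ) (y : Euc k) : 0 ≤ chi π x r y := ph_nonneg _ _

theorem chi_le_one (x : Euc k) (r : ℝ) (y : Euc k) : chi π x r y ≤ 1 :=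
  ph_le_one _ (by positivity)

theorem continuous_chi (x : Euc k) (r : ℝ) : Continuous (chi π x r) := by
  unfold chi
  refine (continuous_ph 2).comp ?_
  fun_prop

theorem chi_zero {x : Euc k} {r : ℝ} (hr : 0 < r) {y : Euc k}
    (h : 3 * r ≤ ‖(y - x) - hp π (y - x)‖) : chi π x r y = 0 := by
  refine ph_zero_of_ge two_ne_zero ?_
  rw [le_div_iff₀ (by positivity), one_mul]
  exact pow_le_pow_left₀ (by positivity) h 2

theorem hasFDerivAt_chi (x : Euc k) (r : ℝ) (y : Euc k) :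
    HasFDerivAt (chi π x r) ((-4 * ph 1 (‖(y - x) - hp π (y - x)‖ ^ 2 / (3 * r) ^ 2) /
      (3 * r) ^ 2) • (innerSL ℝ ((y - x) - hp π (y - x)) ∘L
        (ContinuousLinearMap.id ℝ (Euc k) - hp π))) y := by
  have h0 : HasFDerivAt (fun y : Euc k => (y - x) - hp π (y - x))
      (ContinuousLinearMap.id ℝ (Euc k) - hp π) y := by
    have h1 : HasFDerivAt (fun y : Euc k => y - x) (ContinuousLinearMap.id ℝ (Euc k)) y :=
      (hasFDerivAt_id y).sub_const x
    have h2 := h1.sub ((hp π).hasFDerivAt.comp y h1)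
    refine h2.congr_fderiv ?_
    ext v; simp
  have h1 := h0.norm_sq
  have h3 : HasFDerivAt (fun y : Euc k => ‖(y - x) - hp π (y - x)‖ ^ 2 / (3 * r) ^ 2)
      (((3 * r) ^ 2)⁻¹ • (2 • innerSL ℝ ((y - x) - hp π (y - x)) ∘L
        (ContinuousLinearMap.id ℝ (Euc k) - hp π))) y := by
    have := h1.const_smul (((3 * r) ^ 2)⁻¹)
    refine this.congr_of_eventuallyEq (Eventually.of_forall fun y => ?_)
    simp [div_eq_inv_mul]
  have h4 := (hasDerivAt_ph2 (‖(y - x) - hp π (y - x)‖ ^ 2 / (3 * r) ^ 2)).comp_hasFDerivAt y h3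
  refine HasFDerivAt.congr_fderiv h4 ?_
  ext v
  simp
  ring

theorem contDiff_chi (x : Euc k) (r : ℝ) : ContDiff ℝ 1 (chi π x r) := by
  unfold chi
  refine contDiff_ph2.comp ?_
  refine ContDiff.div_const ?_ _
  refine ContDiff.norm_sq ℝ ?_
  fun_prop

/-- derivative of the cut-off. -/
theorem chi_deriv (hπ : Ar_870.IsCo π) {x : Euc k} {r : ℝ} (hr : 0 < r) (y u : Euc k) :
    |fderiv ℝ (chi π x r) y u| ≤ 4 / (9 * r ^ 2) * ‖(y - x) - hp π (y - x)‖ * ‖u‖ := by
  rw [(hasFDerivAt_chi x r y).fderiv]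
  set a := (y - x) - hp π (y - x) with ha
  have h0 := ph_nonneg 1 (‖a‖ ^ 2 / (3 * r) ^ 2)
  have h1 : ph 1 (‖a‖ ^ 2 / (3 * r) ^ 2) ≤ 1 := ph_le_one _ (by positivity)
  have h2 : |⟪a, u - hp π u⟫_ℝ| ≤ ‖a‖ * ‖u‖ :=
    (abs_real_inner_le_norm _ _).trans (by
      gcongr
      exact norm_vp_le hπ u)
  generalize ph 1 (‖a‖ ^ 2 / (3 * r) ^ 2) = c at h0 h1 ⊢
  have h3 : ((-4 * c / (3 * r) ^ 2) •
      (innerSL ℝ a ∘L (ContinuousLinearMap.id ℝ (Euc k) - hp π))) u =
      -(4 / (9 * r ^ 2) * (c * ⟪a, u - hp π u⟫_ℝ)) := by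
    have e : ((-4 * c / (3 * r) ^ 2) •
      (innerSL ℝ a ∘L (ContinuousLinearMap.id ℝ (Euc k) - hp π))) u =
      (-4 * c / (3 * r) ^ 2) * ⟪a, u - hp π u⟫_ℝ := rfl
    rw [e]
    field_simp
    ring
  rw [h3, abs_neg, abs_mul, abs_mul, abs_of_nonneg h0, abs_of_nonneg (by positivity :
    (0:ℝ) ≤ 4 / (9 * r ^ 2)), mul_assoc (4 / (9 * r ^ 2))]
  refine mul_le_mul_of_nonneg_left ?_ (by positivity)
  calc c * |⟪a, u - hp π u⟫_ℝ| ≤ 1 * (‖a‖ * ‖u‖) :=
        mul_le_mul h1 h2 (abs_nonneg _) zero_le_one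
    _ = _ := one_mul _

/-- outside of the ball of radius `4r` one of the two cut-offs vanishes. -/
theorem out {x : Euc k} (hπ : Ar_870.IsCo π) {r : ℝ} (hr : 0 < r) {y : Euc k}
    (hy : 4 * r ≤ ‖y - x‖) (ht : ‖tt π x r y‖ < 5 / 2) :
    3 * r ≤ ‖(y - x) - hp π (y - x)‖ := by
  have h1 := pyth hπ (y - x)
  have h2 : ‖π (y - x)‖ < 5 / 2 * r := by
    unfold tt at ht
    rw [norm_smul, norm_inv, Real.norm_eq_abs, abs_of_pos hr, inv_mul_lt_iff₀ hr] at ht
    linarith
  have h3 := norm_nonneg (π (y - x))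
  have h4 : (3 * r) ^ 2 ≤ ‖(y - x) - hp π (y - x)‖ ^ 2 := by nlinarith
  exact le_of_sq_le_sq h4 (norm_nonneg _)

/-! ### the test field -/

variable {U : Set (Euc k)} {V : Measure (Euc k × L k)}

/-- the scalar factor of the test field -/
def gg (π : Euc k →L[ℝ] Euc m) (x : Euc k) (r : ℝ) (ζ : Euc m → ℝ) (y : Euc k) : ℝ :=
  ζ (tt π x r y) * chi π x r y

theorem contDiff_gg (x : Euc k) (r : ℝ) {ζ : Euc m → ℝ} (hζ : ContDiff ℝ 1 ζ) :
    ContDiff ℝ 1 (gg π x r ζ) :=
  (hζ.comp (contDiff_tt x r)).mul (contDiff_chi x r)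

theorem fderiv_gg (x : Euc k) (r : ℝ) {ζ : Euc m → ℝ} (hζ : ContDiff ℝ 1 ζ) (y u : Euc k) :
    fderiv ℝ (gg π x r ζ) y u =
      ζ (tt π x r y) * fderiv ℝ (chi π x r) y u +
        chi π x r y * fderiv ℝ ζ (tt π x r y) (r⁻¹ • π u) := by
  have h1 : HasFDerivAt (fun y => ζ (tt π x r y)) (fderiv ℝ ζ (tt π x r y) ∘L (r⁻¹ • π)) y :=
    ((hζ.differentiable one_ne_zero _).hasFDerivAt).comp y (hasFDerivAt_tt x r y)
  have h2 := ((contDiff_chi (π := π) x r).differentiable one_ne_zero y).hasFDerivAt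
  have h3 : HasFDerivAt (gg π x r ζ) _ y := h1.mul h2
  rw [h3.fderiv]
  simp

theorem gg_zero (hπ : Ar_870.IsCo π) {x : Euc k} {r : ℝ} (hr : 0 < r) {ζ : Euc m → ℝ}
    (hs : ∀ z, 5 / 2 ≤ ‖z‖ → ζ z = 0) {y : Euc k} (hy : 4 * r ≤ ‖y - x‖) : gg π x r ζ y = 0 := by
  unfold gg
  rcases lt_or_ge ‖tt π x r y‖ (5 / 2) with h | h
  · rw [chi_zero hr (out hπ hr hy h), mul_zero]
  · rw [hs _ h, zero_mul]

theorem tsupport_gg (hπ : Ar_870.IsCo π) {x : Euc k} {r : ℝ} (hr : 0 < r) {ζ : Euc m → ℝ}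
    (hs : ∀ z, 5 / 2 ≤ ‖z‖ → ζ z = 0) : tsupport (gg π x r ζ) ⊆ closedBall x (4 * r) := by
  refine closure_minimal ?_ isClosed_closedBall
  intro y hy
  rw [mem_closedBall, dist_eq_norm]
  by_contra hcon
  exact hy (gg_zero hπ hr hs (not_le.1 hcon).le)

/-- pointwise estimate -/
theorem pt_est (hπ : Ar_870.IsCo π) (hP : hp π ∈ G m k) {x : Euc k} {r θ A B : ℝ} (hr : 0 < r)
    (hθ : 0 < θ) (hA : 0 ≤ A) (hB : 0 ≤ B) {ζ : Euc m → ℝ} (hζ : ContDiff ℝ 1 ζ)
    (h0 : ∀ z, |ζ z| ≤ A) (h1 : ∀ z, ‖fderiv ℝ ζ z‖ ≤ B) (w : Euc m) {p : Euc k × L k}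
    (hp2 : p.2 ∈ G m k) :
    |chi π x r p.1 * fderiv ℝ ζ (tt π x r p.1) w -
      r * fderiv ℝ (gg π x r ζ) p.1 (p.2 (ContinuousLinearMap.adjoint π w))| ≤
      ‖w‖ * (A + B) * (θ + 2 / θ * (((4 * r) ^ 2)⁻¹ *
        ((4 * r) ^ 2 * tilt (hp π) p + height (hp π) x p))) := by
  set v := ContinuousLinearMap.adjoint π w with hv
  have hvn : ‖v‖ = ‖w‖ := Ar_870.norm_adjoint_co hπ w
  have hπv : π v = w := co_apply hπ w
  have hPv : hp π v = v := by
    change ContinuousLinearMap.adjoint π (π v) = v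
    rw [hπv]
  set a := ‖(p.1 - x) - hp π (p.1 - x)‖ with ha
  set b := ‖(p.2 - hp π) v‖ with hb
  have ha0 : 0 ≤ a := norm_nonneg _
  have hb0 : 0 ≤ b := norm_nonneg _
  have hw0 : 0 ≤ ‖w‖ := norm_nonneg _
  have hht : height (hp π) x p = a ^ 2 := rfl
  have ht0 : 0 ≤ tilt (hp π) p := Strat3_842.tr_perp_nonneg hp2 hP
  have hb2 : b ^ 2 ≤ 2 * tilt (hp π) p * ‖w‖ ^ 2 := by
    have h6 := Strat3_842.norm_sq_le_tr (A := p.2 - hp π) (Strat3_842.sub_symm hp2 hP) v
    rw [Strat3_842.tr_sub_sq hp2 hP, hvn] at h6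
    exact h6
  have hSv : ‖p.2 v‖ ≤ ‖w‖ := by
    have := G_norm_apply_le hp2 v
    rwa [hvn] at this
  have hx : π (p.2 v) = w + π ((p.2 - hp π) v) := by
    rw [sub_apply, hPv, map_sub, hπv]; abel
  have e1 : chi π x r p.1 * fderiv ℝ ζ (tt π x r p.1) w -
      r * fderiv ℝ (gg π x r ζ) p.1 (p.2 v) =
      -(r * (ζ (tt π x r p.1) * fderiv ℝ (chi π x r) p.1 (p.2 v))) -
        chi π x r p.1 * fderiv ℝ ζ (tt π x r p.1) (π ((p.2 - hp π) v)) := by
    rw [fderiv_gg x r hζ, hx, map_smul, map_add, smul_eq_mul]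
    field_simp
    ring
  have e2 : |r * (ζ (tt π x r p.1) * fderiv ℝ (chi π x r) p.1 (p.2 v))| ≤
      A * (4 / 9 * (a / r) * ‖w‖) := by
    have h3 := chi_deriv hπ (x := x) hr p.1 (p.2 v)
    rw [abs_mul, abs_mul, abs_of_pos hr]
    calc r * (|ζ (tt π x r p.1)| * |fderiv ℝ (chi π x r) p.1 (p.2 v)|)
        ≤ r * (A * (4 / (9 * r ^ 2) * a * ‖w‖)) := by
          gcongr
          · exact h0 _
          · exact h3.trans (by gcongr)
      _ = A * (4 / 9 * (a / r) * ‖w‖) := by field_simp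
  have e3 : |chi π x r p.1 * fderiv ℝ ζ (tt π x r p.1) (π ((p.2 - hp π) v))| ≤ B * b := by
    rw [abs_mul, abs_of_nonneg (chi_nonneg _ _ _)]
    calc chi π x r p.1 * |fderiv ℝ ζ (tt π x r p.1) (π ((p.2 - hp π) v))|
        ≤ 1 * (B * b) := by
          refine mul_le_mul (chi_le_one _ _ _) ?_ (abs_nonneg _) zero_le_one
          rw [← Real.norm_eq_abs]
          refine (ContinuousLinearMap.le_opNorm _ _).trans ?_
          exact mul_le_mul (h1 _) (norm_pi_le hπ _) (norm_nonneg _) hB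
      _ = B * b := one_mul _
  have e4 : 4 / 9 * (a / r) ≤ θ + 2 / θ * (((4 * r) ^ 2)⁻¹ *
        ((4 * r) ^ 2 * tilt (hp π) p + height (hp π) x p)) := by
    rw [hht]
    have h5 : 2 / θ * (((4 * r) ^ 2)⁻¹ * ((4 * r) ^ 2 * tilt (hp π) p + a ^ 2)) =
        2 / θ * tilt (hp π) p + (a / r) ^ 2 / (8 * θ) := by
      field_simp
      ring
    rw [h5]
    have h6 : 0 ≤ 2 / θ * tilt (hp π) p := by positivity
    have h7 : 4 / 9 * (a / r) ≤ θ + (a / r) ^ 2 / (8 * θ) := by
      set q := a / r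
      have h8 : θ + q ^ 2 / (8 * θ) - 4 / 9 * q = (8 * θ ^ 2 + q ^ 2 - 32 / 9 * θ * q) / (8 * θ) := by
        field_simp
        ring
      have h9 : 0 ≤ (8 * θ ^ 2 + q ^ 2 - 32 / 9 * θ * q) / (8 * θ) := by
        refine div_nonneg ?_ (by positivity)
        nlinarith [sq_nonneg (q - 16 / 9 * θ), sq_nonneg θ]
      linarith
    linarith
  have e5 : b ≤ ‖w‖ * (θ + 2 / θ * (((4 * r) ^ 2)⁻¹ *
        ((4 * r) ^ 2 * tilt (hp π) p + height (hp π) x p))) := by
    rw [hht]
    have h5 : 2 / θ * (((4 * r) ^ 2)⁻¹ * ((4 * r) ^ 2 * tilt (hp π) p + a ^ 2)) =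
        2 / θ * tilt (hp π) p + (a / r) ^ 2 / (8 * θ) := by
      field_simp
      ring
    rw [h5]
    have h6 : 0 ≤ (a / r) ^ 2 / (8 * θ) := by positivity
    set t := tilt (hp π) p
    have h7 : b ≤ ‖w‖ * (θ + 2 / θ * t) := by
      refine le_of_sq_le_sq ?_ (by positivity)
      refine hb2.trans ?_
      rw [mul_pow]
      have h8 : 2 * t ≤ (θ + 2 / θ * t) ^ 2 := by
        have h9 : (θ + 2 / θ * t) ^ 2 = θ ^ 2 + 4 * t + (2 / θ * t) ^ 2 := by
          field_simp
          ring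
        rw [h9]
        nlinarith [sq_nonneg θ, sq_nonneg (2 / θ * t)]
      calc 2 * t * ‖w‖ ^ 2 ≤ (θ + 2 / θ * t) ^ 2 * ‖w‖ ^ 2 := by gcongr
        _ = _ := by ring
    refine h7.trans ?_
    gcongr
    linarith
  rw [e1]
  have e6 := abs_sub (-(r * (ζ (tt π x r p.1) * fderiv ℝ (chi π x r) p.1 (p.2 v))))
    (chi π x r p.1 * fderiv ℝ ζ (tt π x r p.1) (π ((p.2 - hp π) v)))
  rw [abs_neg] at e6
  refine e6.trans ?_
  set Z := θ + 2 / θ * (((4 * r) ^ 2)⁻¹ *
        ((4 * r) ^ 2 * tilt (hp π) p + height (hp π) x p))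
  calc |r * (ζ (tt π x r p.1) * fderiv ℝ (chi π x r) p.1 (p.2 v))| +
        |chi π x r p.1 * fderiv ℝ ζ (tt π x r p.1) (π ((p.2 - hp π) v))|
      ≤ A * (Z * ‖w‖) + B * (‖w‖ * Z) := by
        refine add_le_add (e2.trans ?_) (e3.trans ?_)
        · gcongr
        · gcongr
    _ = ‖w‖ * (A + B) * Z := by ring

/-- **almost translation invariance.** -/
theorem inv_est (hV : Stat m k U V) (hπ : Ar_870.IsCo π) (hP : hp π ∈ G m k) {x : Euc k}
    {r θ A B : ℝ} (hr : 0 < r) (hU : closedBall x (4 * r) ⊆ U)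
    (hθ : 0 < θ) (hA : 0 ≤ A) (hB : 0 ≤ B) {ζ : Euc m → ℝ} (hζ : ContDiff ℝ 1 ζ)
    (h0 : ∀ z, |ζ z| ≤ A) (h1 : ∀ z, ‖fderiv ℝ ζ z‖ ≤ B) (hs : ∀ z, 5 / 2 ≤ ‖z‖ → ζ z = 0)
    (w : Euc m) :
    |∫ p in ball x (4 * r) ×ˢ univ, chi π x r p.1 * fderiv ℝ ζ (tt π x r p.1) w ∂V| ≤
      ‖w‖ * (A + B) * (θ * V.real (ball x (4 * r) ×ˢ univ) + 2 / θ * (((4 * r) ^ 2)⁻¹ *
        ∫ p in ball x (4 * r) ×ˢ univ, ((4 * r) ^ 2 * tilt (hp π) p + height (hp π) x p) ∂V)) := by
  have hK := isCompact_closedBall x (4 * r)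
  have hB4 : MeasurableSet (ball x (4 * r) ×ˢ (univ : Set (L k))) := measurableSet_ball.prod .univ
  have hct : Continuous (tilt (hp π)) :=
    Cacc_113.continuous_tr.comp (continuous_const.clm_comp continuous_snd)
  have hch : Continuous (height (hp π) x) := by
    have e : height (hp π) x = fun p : Euc k × L k => ‖(p.1 - x) - hp π (p.1 - x)‖ ^ 2 := rfl
    rw [e]
    fun_prop
  have hint : ∀ g : Euc k × L k → ℝ, Continuous g →
      IntegrableOn g (ball x (4 * r) ×ˢ (univ : Set (L k))) V := fun g hg =>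
    NearChg_660.intOn hV hg measurableSet_ball hK ball_subset_closedBall hU
  set v := ContinuousLinearMap.adjoint π w with hv
  have hcg := contDiff_gg (π := π) x r hζ
  have hc1 : Continuous fun p : Euc k × L k => fderiv ℝ (gg π x r ζ) p.1 (p.2 v) :=
    ((hcg.continuous_fderiv one_ne_zero).comp continuous_fst).clm_apply
      (continuous_snd.clm_apply continuous_const)
  have hc2 : Continuous fun p : Euc k × L k =>
      chi π x r p.1 * fderiv ℝ ζ (tt π x r p.1) w :=
    ((continuous_chi x r).comp continuous_fst).mul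
      (((hζ.continuous_fderiv one_ne_zero).comp ((continuous_tt x r).comp continuous_fst)).clm_apply
        continuous_const)
  -- stationarity
  have hst : ∫ p in ball x (4 * r) ×ˢ univ, fderiv ℝ (gg π x r ζ) p.1 (p.2 v) ∂V = 0 := by
    have hX : ContDiff ℝ 1 (fun y => gg π x r ζ y • v) := hcg.smul contDiff_const
    have hts : tsupport (fun y => gg π x r ζ y • v) ⊆ closedBall x (4 * r) :=
      (tsupport_smul_subset_left _ _).trans (tsupport_gg hπ hr hs)
    have h2 := hV.stat _ hX (hK.of_isClosed_subset (isClosed_tsupport _) hts) (hts.trans hU)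
    have h3 : ∀ p : Euc k × L k, tr ((fderiv ℝ (fun y => gg π x r ζ y • v) p.1) ∘L p.2) =
        fderiv ℝ (gg π x r ζ) p.1 (p.2 v) := by
      intro p
      rw [fderiv_smul_const (hcg.differentiable one_ne_zero _), tr_smulRight_comp]
    simp only [h3] at h2
    rw [setIntegral_eq_integral_of_forall_compl_eq_zero, h2]
    intro p hpo
    have hp1 : p.1 ∉ ball x (4 * r) := fun h => hpo ⟨h, mem_univ _⟩
    rw [mem_ball, dist_eq_norm, not_lt] at hp1
    rcases hp1.lt_or_eq with h | h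
    · have h4 : p.1 ∉ tsupport (gg π x r ζ) := by
        intro h5
        have := tsupport_gg hπ hr hs h5
        rw [mem_closedBall, dist_eq_norm] at this
        linarith
      have h5 : fderiv ℝ (gg π x r ζ) p.1 = 0 := by
        by_contra h6
        exact h4 (support_fderiv_subset ℝ (Function.mem_support.2 h6))
      rw [h5]; rfl
    · -- on the sphere: the height is at least `3 r`, all terms vanish
      rw [fderiv_gg x r hζ]
      rcases lt_or_ge ‖tt π x r p.1‖ (5 / 2) with h6 | h6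
      · have h7 := out hπ hr h.le h6
        rw [chi_zero hr h7, zero_mul, add_zero, (hasFDerivAt_chi x r p.1).fderiv]
        have h8 : ph 1 (‖(p.1 - x) - hp π (p.1 - x)‖ ^ 2 / (3 * r) ^ 2) = 0 := by
          refine ph_zero_of_ge one_ne_zero ?_
          rw [le_div_iff₀ (by positivity), one_mul]
          exact pow_le_pow_left₀ (by positivity) h7 2
        rw [h8]
        simp
      · have h7 : fderiv ℝ ζ (tt π x r p.1) = 0 := by
          rcases h6.lt_or_eq with h8 | h8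
          · have h9 : ζ =ᶠ[𝓝 (tt π x r p.1)] fun _ => (0:ℝ) := by
              have : {z : Euc m | 5 / 2 < ‖z‖} ∈ 𝓝 (tt π x r p.1) :=
                (isOpen_lt continuous_const continuous_norm).mem_nhds h8
              filter_upwards [this] with z hz
              exact hs z hz.le
            rw [h9.fderiv_eq, fderiv_fun_const]; rfl
          · by_contra h9
            have h10 := (hζ.continuous_fderiv one_ne_zero).tendsto (tt π x r p.1)
            have h11 : ∀ᶠ z in 𝓝 (tt π x r p.1), fderiv ℝ ζ z ≠ 0 := h10.eventually_ne h9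
            have h12 : ∃ᶠ z in 𝓝 (tt π x r p.1), 5 / 2 < ‖z‖ := by
              have h13 : Tendsto (fun s : ℝ => s • tt π x r p.1) (𝓝[>] 1) (𝓝 (tt π x r p.1)) := by
                have : Tendsto (fun s : ℝ => s • tt π x r p.1) (𝓝 1) (𝓝 ((1:ℝ) • tt π x r p.1)) :=
                  (continuous_id.smul continuous_const).tendsto 1
                rw [one_smul] at this
                exact this.mono_left nhdsWithin_le_nhds
              refine h13.frequently (Eventually.frequently ?_)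
              filter_upwards [self_mem_nhdsWithin] with s hs1
              have hs2 : (1:ℝ) < s := hs1
              rw [norm_smul, Real.norm_eq_abs, abs_of_pos (by linarith), ← h8]
              nlinarith
            obtain ⟨z, hz1, hz2⟩ := (h12.and_eventually h11).exists
            have h14 : ζ =ᶠ[𝓝 z] fun _ => (0:ℝ) := by
              filter_upwards [(isOpen_lt continuous_const continuous_norm).mem_nhds hz1] with z' hz'
              exact hs z' (le_of_lt hz')
            exact hz2 (by rw [h14.fderiv_eq, fderiv_fun_const]; rfl)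
        rw [h7, hs _ h6]
        simp
  -- the estimate
  have hmain : ∫ p in ball x (4 * r) ×ˢ univ, chi π x r p.1 * fderiv ℝ ζ (tt π x r p.1) w ∂V =
      ∫ p in ball x (4 * r) ×ˢ univ, (chi π x r p.1 * fderiv ℝ ζ (tt π x r p.1) w -
        r * fderiv ℝ (gg π x r ζ) p.1 (p.2 v)) ∂V := by
    rw [integral_sub (hint _ hc2) ((hint _ hc1).const_mul _), integral_const_mul, hst]
    ring
  have hci : IntegrableOn (fun p : Euc k × L k => ‖w‖ * (A + B) * (θ + 2 / θ *
      (((4 * r) ^ 2)⁻¹ * ((4 * r) ^ 2 * tilt (hp π) p + height (hp π) x p))))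
      (ball x (4 * r) ×ˢ (univ : Set (L k))) V := by
    refine hint _ ?_
    fun_prop
  rw [hmain]
  refine (abs_integral_le_integral_abs).trans ?_
  refine (integral_mono_ae ((hint _ (hc2.sub (continuous_const.mul hc1))).abs) hci ?_).trans ?_
  · have h4 : ∀ᵐ p ∂(V.restrict (ball x (4 * r) ×ˢ (univ : Set (L k)))), p.2 ∈ G m k :=
      ae_restrict_of_ae hV.conc
    filter_upwards [h4] with p hp2
    exact pt_est hπ hP hr hθ hA hB hζ h0 h1 w hp2
  · have h5 : IntegrableOn (fun _ : Euc k × L k => θ)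
        (ball x (4 * r) ×ˢ (univ : Set (L k))) V := hint _ continuous_const
    have h6 : IntegrableOn (fun p : Euc k × L k => 2 / θ *
      (((4 * r) ^ 2)⁻¹ * ((4 * r) ^ 2 * tilt (hp π) p + height (hp π) x p)))
        (ball x (4 * r) ×ˢ (univ : Set (L k))) V := by
      refine hint _ ?_
      fun_prop
    rw [integral_const_mul, integral_add h5 h6, integral_const_mul, integral_const_mul,
      setIntegral_const, smul_eq_mul, mul_comm (V.real _) θ]

end Crest.Agent.R234.QLeb_433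
end
end

-- ▼ part R234/QLeb2_433
section

/-!
Row 234 (helper433), task VF-QLEB, part 2: the bump, translation differences, averaging (Fubini),
radial comparison (layer cake).
-/

set_option autoImplicit false
set_option linter.unusedVariables false

open MeasureTheory Topology Set Metric
open Filter hiding ker
open scoped ENNReal NNReal ContDiff InnerProductSpace
open Crest.GeometryTopology.Submanifold Crest.Agent.R234.Vf_884
open Crest.Agent.R234.Strat3_842 (tilt height)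
open Crest.Agent.R234.AS_456 (hp vp)

noncomputable section

namespace Crest.Agent.R234.QLeb_433

open Crest.Agent.R234.Main_456 Crest.Agent.R234.Al4_182

variable {m k : ℕ} {π : Euc k →L[ℝ] Euc m}

/-! ### the bump -/

theorem ker_shift (p : ℕ) (z' : Euc m) (δ : ℝ) (z : Euc m) :
    ker p z' δ z = ker p (0 : Euc m) δ (z - z') := by
  unfold Al4_182.ker; rw [sub_zero]

theorem norm_fderiv_ker2 (z' : Euc m) {δ : ℝ} (hδ : 0 < δ) (z : Euc m) :
    ‖fderiv ℝ (ker 2 z' δ) z‖ ≤ 4 / δ := by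
  rw [(hasFDerivAt_ker2 z' δ z).fderiv]
  rcases le_or_gt δ ‖z - z'‖ with h | h
  · rw [ker_zero one_ne_zero hδ h]
    simp
    positivity
  · rw [norm_smul, innerSL_apply_norm, Real.norm_eq_abs]
    have h2 := ker_nonneg 1 z' δ z
    have h3 := ker_le_one 1 z' δ z
    have h5 : -4 * ker 1 z' δ z / δ ^ 2 = -(4 * ker 1 z' δ z / δ ^ 2) := by ring
    rw [h5, abs_neg, abs_of_nonneg (by positivity)]
    calc 4 * ker 1 z' δ z / δ ^ 2 * ‖z - z'‖ ≤ 4 * 1 / δ ^ 2 * δ := by gcongr
      _ = 4 / δ := by field_simp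

theorem ph2_lip {s t : ℝ} (hs : 0 ≤ s) (ht : 0 ≤ t) : |ph 2 s - ph 2 t| ≤ 2 * |s - t| := by
  have h : ∀ u ∈ Set.Ici (0:ℝ), HasDerivWithinAt (ph 2) (-2 * ph 1 u) (Set.Ici 0) u :=
    fun u _ => (hasDerivAt_ph2 u).hasDerivWithinAt
  have h2 : ∀ u ∈ Set.Ici (0:ℝ), ‖-2 * ph 1 u‖ ≤ 2 := by
    intro u hu
    have h3 := ph_nonneg 1 u
    have h4 : ph 1 u ≤ 1 := ph_le_one 1 hu
    rw [Real.norm_eq_abs, abs_le]
    constructor <;> linarith
  have := (convex_Ici (0:ℝ)).norm_image_sub_le_of_norm_hasDerivWithin_le h h2 ht hs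
  simpa [Real.norm_eq_abs] using this

theorem ph2_zero : ph 2 0 = 1 := by simp [ph]

/-! ### translation differences -/

variable {U : Set (Euc k)} {V : Measure (Euc k × L k)}

/-- the functional. -/
def aa (V : Measure (Euc k × L k)) (π : Euc k →L[ℝ] Euc m) (x : Euc k) (r : ℝ) (f : Euc m → ℝ) : ℝ :=
  ∫ p in ball x (4 * r) ×ˢ univ, chi π x r p.1 * f (tt π x r p.1) ∂V

theorem hfin (hV : Stat m k U V) {x : Euc k} {r : ℝ} (hU : closedBall x (4 * r) ⊆ U) :
    V (ball x (4 * r) ×ˢ univ) < ⊤ :=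
  (measure_mono (Set.prod_mono ball_subset_closedBall le_rfl)).trans_lt
    (hV.fin _ (isCompact_closedBall x (4 * r)) hU)

/-- translation of the bump. -/
theorem transl (hV : Stat m k U V) (hπ : Ar_870.IsCo π) (hP : hp π ∈ G m k) {x : Euc k}
    {r θ δ e : ℝ} (hr : 0 < r) (hU : closedBall x (4 * r) ⊆ U) (hθ : 0 < θ) (hδ : 0 < δ)
    (hδ2 : δ ≤ 1 / 2)
    (he : θ * V.real (ball x (4 * r) ×ˢ univ) + 2 / θ * (((4 * r) ^ 2)⁻¹ *
        ∫ p in ball x (4 * r) ×ˢ univ, ((4 * r) ^ 2 * tilt (hp π) p + height (hp π) x p) ∂V) ≤ e)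
    (he0 : 0 ≤ e) {z' : Euc m} (hz' : ‖z'‖ ≤ 2) :
    |aa V π x r (ker 2 z' δ) - aa V π x r (ker 2 0 δ)| ≤ 2 * (1 + 4 / δ) * e := by
  have hfin' : IsFiniteMeasure (V.restrict (ball x (4 * r) ×ˢ (univ : Set (L k)))) :=
    ⟨by rw [Measure.restrict_apply_univ]; exact hfin hV hU⟩
  set F : ℝ → ℝ := fun s => aa V π x r (ker 2 (s • z') δ) with hF
  set F' : ℝ → ℝ := fun s => ∫ p in ball x (4 * r) ×ˢ univ,
    chi π x r p.1 * -(fderiv ℝ (ker 2 (s • z') δ) (tt π x r p.1) z') ∂V with hF'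
  have hcont : ∀ s : ℝ, Continuous fun p : Euc k × L k =>
      chi π x r p.1 * ker 2 (s • z') δ (tt π x r p.1) := fun s =>
    ((continuous_chi x r).comp continuous_fst).mul
      ((continuous_ker 2 _ _).comp ((continuous_tt x r).comp continuous_fst))
  have hcont' : ∀ s : ℝ, Continuous fun p : Euc k × L k =>
      chi π x r p.1 * -(fderiv ℝ (ker 2 (s • z') δ) (tt π x r p.1) z') := fun s =>
    ((continuous_chi x r).comp continuous_fst).mul
      (((((contDiff_ker2 (s • z') δ).continuous_fderiv one_ne_zero).comp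
        ((continuous_tt x r).comp continuous_fst)).clm_apply continuous_const).neg)
  have hder : ∀ s : ℝ, HasDerivAt F (F' s) s := by
    intro s
    have h1 := hasDerivAt_integral_of_dominated_loc_of_deriv_le
      (μ := V.restrict (ball x (4 * r) ×ˢ (univ : Set (L k))))
      (F := fun s p => chi π x r p.1 * ker 2 (s • z') δ (tt π x r p.1))
      (F' := fun s p => chi π x r p.1 * -(fderiv ℝ (ker 2 (s • z') δ) (tt π x r p.1) z'))
      (x₀ := s) (s := univ) (bound := fun _ => 4 / δ * 2) univ_mem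
      (Eventually.of_forall fun s => (hcont s).aestronglyMeasurable)
      (by
        refine Integrable.of_bound (hcont s).aestronglyMeasurable 1 ?_
        refine Eventually.of_forall fun p => ?_
        rw [norm_mul, Real.norm_eq_abs, Real.norm_eq_abs, abs_of_nonneg (chi_nonneg _ _ _),
          abs_of_nonneg (ker_nonneg _ _ _ _)]
        exact mul_le_one₀ (chi_le_one _ _ _) (ker_nonneg _ _ _ _) (ker_le_one _ _ _ _))
      (hcont' s).aestronglyMeasurable
      (by
        refine Eventually.of_forall fun p s _ => ?_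
        rw [norm_mul, Real.norm_eq_abs, abs_of_nonneg (chi_nonneg _ _ _), norm_neg]
        calc chi π x r p.1 * ‖fderiv ℝ (ker 2 (s • z') δ) (tt π x r p.1) z'‖
            ≤ 1 * (4 / δ * 2) := by
              refine mul_le_mul (chi_le_one _ _ _) ?_ (norm_nonneg _) zero_le_one
              refine (ContinuousLinearMap.le_opNorm _ _).trans ?_
              exact mul_le_mul (norm_fderiv_ker2 _ hδ _) hz' (norm_nonneg _) (by positivity)
          _ = _ := one_mul _)
      (integrable_const _)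
      (by
        refine Eventually.of_forall fun p s _ => ?_
        refine HasDerivAt.const_mul _ ?_
        have h3 : HasDerivAt (fun s : ℝ => tt π x r p.1 - s • z') (-z') s := by
          have := ((hasDerivAt_id s).smul_const z').const_sub (tt π x r p.1)
          simpa using this
        have h4 := (hasFDerivAt_ker2 (0 : Euc m) δ (tt π x r p.1 - s • z')).comp_hasDerivAt s h3
        have h5 : (fun s : ℝ => ker 2 (s • z') δ (tt π x r p.1)) =
            (ker 2 (0 : Euc m) δ) ∘ fun s : ℝ => tt π x r p.1 - s • z' := by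
          funext s
          exact ker_shift 2 _ _ _
        rw [h5]
        refine h4.congr_deriv ?_
        rw [(hasFDerivAt_ker2 (s • z') δ (tt π x r p.1)).fderiv, ker_shift 1 (s • z')]
        simp
        ring)
    exact h1.2
  have hb : ∀ s ∈ Set.Icc (0:ℝ) 1, ‖F' s‖ ≤ 2 * (1 + 4 / δ) * e := by
    intro s hs
    have h1 := inv_est hV hπ hP (x := x) hr hU hθ (zero_le_one (α := ℝ))
      (by positivity : (0:ℝ) ≤ 4 / δ)
      (contDiff_ker2 (s • z') δ) (fun z => by
        rw [abs_of_nonneg (ker_nonneg _ _ _ _)]; exact ker_le_one _ _ _ _)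
      (fun z => norm_fderiv_ker2 (s • z') hδ z) (fun z hz => by
        refine ker_zero two_ne_zero hδ ?_
        have h2 : ‖s • z'‖ ≤ 2 := by
          rw [norm_smul, Real.norm_eq_abs, abs_of_nonneg hs.1]
          nlinarith [hs.2, norm_nonneg z']
        have h3 := norm_sub_norm_le z (s • z')
        linarith) z'
    have h4 : F' s = -∫ p in ball x (4 * r) ×ˢ univ,
        chi π x r p.1 * fderiv ℝ (ker 2 (s • z') δ) (tt π x r p.1) z' ∂V := by
      rw [hF', ← integral_neg]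
      refine integral_congr_ae (Eventually.of_forall fun p => ?_)
      simp
    rw [h4, norm_neg, Real.norm_eq_abs]
    refine h1.trans ?_
    have h5 : ‖z'‖ * (1 + 4 / δ) ≤ 2 * (1 + 4 / δ) := by gcongr
    exact mul_le_mul h5 he (by
      have h6 : 0 ≤ |∫ p in ball x (4 * r) ×ˢ univ,
        chi π x r p.1 * fderiv ℝ (ker 2 (s • z') δ) (tt π x r p.1) z' ∂V| := abs_nonneg _
      by_contra hcon
      rw [not_le] at hcon
      have h7 : 0 ≤ ∫ p in ball x (4 * r) ×ˢ univ,
          ((4 * r) ^ 2 * tilt (hp π) p + height (hp π) x p) ∂V := by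
        refine integral_nonneg_of_ae ?_
        filter_upwards [ae_restrict_of_ae hV.conc] with p hp2
        have h8 : 0 ≤ tilt (hp π) p := Strat3_842.tr_perp_nonneg hp2 hP
        have h9 : 0 ≤ height (hp π) x p := sq_nonneg _
        change (0:ℝ) ≤ (4 * r) ^ 2 * tilt (hp π) p + height (hp π) x p
        positivity
      have h10 : 0 ≤ V.real (ball x (4 * r) ×ˢ univ) := measureReal_nonneg
      have : 0 ≤ θ * V.real (ball x (4 * r) ×ˢ univ) + 2 / θ * (((4 * r) ^ 2)⁻¹ *
        ∫ p in ball x (4 * r) ×ˢ univ, ((4 * r) ^ 2 * tilt (hp π) p + height (hp π) x p) ∂V) := by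
        positivity
      linarith) (by positivity)
  have h := norm_image_sub_le_of_norm_deriv_le_segment_01' (f := F) (f' := F')
    (C := 2 * (1 + 4 / δ) * e) (fun s hs => (hder s).hasDerivWithinAt)
    (fun s hs => hb s ⟨hs.1, hs.2.le⟩)
  rw [Real.norm_eq_abs] at h
  have e1 : F 1 = aa V π x r (ker 2 z' δ) := by rw [hF]; simp
  have e0 : F 0 = aa V π x r (ker 2 0 δ) := by rw [hF]; simp
  rwa [e1, e0] at h

/-! ### averaging -/

/-- the mass of the bump -/
def cb (m : ℕ) (δ : ℝ) : ℝ := ∫ z, ker 2 (0 : Euc m) δ z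

theorem ker_supp {δ : ℝ} (hδ : 0 < δ) (z' z : Euc m) (h : ker 2 z' δ z ≠ 0) : ‖z - z'‖ < δ := by
  by_contra hcon
  exact h (ker_zero two_ne_zero hδ (not_lt.1 hcon))

theorem ker_integrable {δ : ℝ} (hδ : 0 < δ) : Integrable (ker 2 (0 : Euc m) δ) := by
  refine (continuous_ker 2 0 δ).integrable_of_hasCompactSupport ?_
  refine HasCompactSupport.intro (isCompact_closedBall (0 : Euc m) δ) ?_
  intro z hz
  by_contra h
  have := ker_supp hδ 0 z h
  rw [sub_zero] at this
  exact hz (by rw [mem_closedBall, dist_zero_right]; exact this.le)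

theorem cb_pos {δ : ℝ} (hδ : 0 < δ) : 0 < cb m δ := by
  refine (continuous_ker 2 (0 : Euc m) δ).integral_pos_of_hasCompactSupport_nonneg_nonzero ?_ ?_
    (x := 0) ?_
  · refine HasCompactSupport.intro (isCompact_closedBall (0 : Euc m) δ) ?_
    intro z hz
    by_contra h
    have := ker_supp hδ 0 z h
    rw [sub_zero] at this
    exact hz (by rw [mem_closedBall, dist_zero_right]; exact this.le)
  · intro z; exact ker_nonneg _ _ _ _
  · have : ker 2 (0 : Euc m) δ 0 = 1 := by simp [Al4_182.ker, ph]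
    rw [this]; exact one_ne_zero

theorem ker_int_shift {δ : ℝ} (T : Euc m) : ∫ z', ker 2 z' δ T = cb m δ := by
  have h : (fun z' : Euc m => ker 2 z' δ T) = fun z' => ker 2 (0 : Euc m) δ (T - z') := by
    funext z'; exact ker_shift 2 _ _ _
  rw [h]
  exact integral_sub_left_eq_self (ker 2 (0 : Euc m) δ) volume T

theorem ker_shift_integrable {δ : ℝ} (hδ : 0 < δ) (T : Euc m) :
    Integrable fun z' : Euc m => ker 2 z' δ T := by
  have h : (fun z' : Euc m => ker 2 z' δ T) = fun z' => ker 2 (0 : Euc m) δ (T - z') := by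
    funext z'; exact ker_shift 2 _ _ _
  rw [h]
  exact (ker_integrable hδ).comp_sub_left T

theorem cont_ker_joint (δ : ℝ) : Continuous fun q : Euc m × Euc m => ker 2 q.1 δ q.2 := by
  have h : (fun q : Euc m × Euc m => ker 2 q.1 δ q.2) =
      fun q => ker 2 (0 : Euc m) δ (q.2 - q.1) := by
    funext q; exact ker_shift 2 _ _ _
  rw [h]
  exact (continuous_ker 2 _ _).comp (continuous_snd.sub continuous_fst)

variable {φ : Euc m → ℝ}

theorem phi_integrable (hφ : LipschitzWith 1 φ) (hsupp : ∀ z, φ z ≠ 0 → ‖z‖ ≤ 2) :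
    Integrable φ := by
  refine hφ.continuous.integrable_of_hasCompactSupport ?_
  refine HasCompactSupport.intro (isCompact_closedBall (0 : Euc m) 2) ?_
  intro z hz
  by_contra h
  exact hz (by rw [mem_closedBall, dist_zero_right]; exact hsupp z h)

theorem phi_abs_int (hφ : LipschitzWith 1 φ) (hb : ∀ z, |φ z| ≤ 1)
    (hsupp : ∀ z, φ z ≠ 0 → ‖z‖ ≤ 2) : ∫ z, |φ z| ≤ ome m * 2 ^ m := by
  have h1 : ∫ z, |φ z| ≤ ∫ z, (closedBall (0 : Euc m) 2).indicator (fun _ => (1:ℝ)) z := by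
    refine integral_mono (phi_integrable hφ hsupp).abs ?_ ?_
    · exact (integrable_indicator_iff measurableSet_closedBall).2
        (integrableOn_const measure_closedBall_lt_top.ne)
    · intro z
      by_cases hz : z ∈ closedBall (0 : Euc m) 2
      · rw [indicator_of_mem hz]; exact hb z
      · rw [indicator_of_notMem hz]
        have : φ z = 0 := by
          by_contra h
          exact hz (by rw [mem_closedBall, dist_zero_right]; exact hsupp z h)
        change |φ z| ≤ 0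
        rw [this, abs_zero]
  refine h1.trans ?_
  rw [integral_indicator measurableSet_closedBall, setIntegral_const, smul_eq_mul, mul_one,
    measureReal_def, Measure.addHaar_closedBall _ _ zero_le_two, ENNReal.toReal_mul,
    ENNReal.toReal_ofReal (by positivity), finrank_euclideanSpace_fin]
  exact le_of_eq (mul_comm _ _)

theorem avg_pt {δ : ℝ} (hδ : 0 < δ) (hφ : LipschitzWith 1 φ)
    (hsupp : ∀ z, φ z ≠ 0 → ‖z‖ ≤ 2) (hb : ∀ z, |φ z| ≤ 1) (T : Euc m) :
    |cb m δ * φ T - ∫ z', φ z' * ker 2 z' δ T| ≤ δ * cb m δ := by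
  have hi := ker_shift_integrable (m := m) hδ T
  have hi2 : Integrable fun z' : Euc m => φ z' * ker 2 z' δ T := by
    refine Integrable.bdd_mul (c := 1) hi hφ.continuous.aestronglyMeasurable ?_
    exact Eventually.of_forall fun z => by rw [Real.norm_eq_abs]; exact hb z
  have h1 : cb m δ * φ T = ∫ z', φ T * ker 2 z' δ T := by
    rw [integral_const_mul, ker_int_shift]; ring
  rw [h1, ← integral_sub (hi.const_mul _) hi2]
  calc |∫ z', (φ T * ker 2 z' δ T - φ z' * ker 2 z' δ T)|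
      ≤ ∫ z', |φ T * ker 2 z' δ T - φ z' * ker 2 z' δ T| := abs_integral_le_integral_abs
    _ ≤ ∫ z', δ * ker 2 z' δ T := by
        refine integral_mono ((hi.const_mul _).sub hi2).abs (hi.const_mul _) ?_
        intro z'
        change |φ T * ker 2 z' δ T - φ z' * ker 2 z' δ T| ≤ δ * ker 2 z' δ T
        rw [← sub_mul, abs_mul, abs_of_nonneg (ker_nonneg _ _ _ _)]
        by_cases h : ker 2 z' δ T = 0
        · rw [h]; simp
        · have h2 := ker_supp hδ z' T h
          have h3 := hφ.dist_le_mul T z'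
          rw [Real.dist_eq, dist_eq_norm] at h3
          refine mul_le_mul_of_nonneg_right ?_ (ker_nonneg _ _ _ _)
          simp at h3
          linarith
    _ = δ * cb m δ := by rw [integral_const_mul, ker_int_shift]

/-! #### abstract form -/

section abs

variable {Ω : Type*} [MeasurableSpace Ω] {μ : Measure Ω} [IsFiniteMeasure μ] {T : Ω → Euc m}
  {c : Ω → ℝ}

/-- the functional, abstractly -/
def ag (μ : Measure Ω) (c : Ω → ℝ) (T : Ω → Euc m) (f : Euc m → ℝ) : ℝ := ∫ p, c p * f (T p) ∂μ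

theorem meas_joint (hT : Measurable T) (hc : Measurable c) (δ : ℝ) :
    Measurable fun q : Euc m × Ω => c q.2 * ker 2 q.1 δ (T q.2) := by
  have h1 : Measurable fun q : Euc m × Ω => c q.2 := hc.comp measurable_snd
  have h3 : Measurable fun q : Euc m × Ω => (q.1, T q.2) :=
    measurable_fst.prodMk (hT.comp measurable_snd)
  have h4 : Measurable fun q : Euc m × Euc m => ker 2 q.1 δ q.2 :=
    (cont_ker_joint (m := m) δ).measurable
  have h2 := Measurable.comp h4 h3
  have h5 : ((fun q : Euc m × Euc m => ker 2 q.1 δ q.2) ∘ fun q : Euc m × Ω => (q.1, T q.2)) =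
      fun q : Euc m × Ω => ker 2 q.1 δ (T q.2) := rfl
  rw [h5] at h2
  exact h1.mul h2

/-- Fubini. -/
theorem fubini (hT : Measurable T) (hc : Measurable c) (hc0 : ∀ p, 0 ≤ c p) (hc1 : ∀ p, c p ≤ 1)
    {δ : ℝ} (hφ : LipschitzWith 1 φ) (hsupp : ∀ z, φ z ≠ 0 → ‖z‖ ≤ 2) :
    ∫ z', φ z' * ag μ c T (ker 2 z' δ) =
      ∫ p, (c p * ∫ z', φ z' * ker 2 z' δ (T p)) ∂μ := by
  unfold ag
  simp_rw [← integral_const_mul]
  rw [integral_integral_swap]
  · refine integral_congr_ae (Eventually.of_forall fun p => ?_)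
    refine integral_congr_ae (Eventually.of_forall fun z => ?_)
    simp only
    ring
  · have h1 : Integrable (fun q : Euc m × Ω => φ q.1 * (1:ℝ)) (volume.prod μ) :=
      (phi_integrable hφ hsupp).mul_prod (integrable_const 1)
    refine h1.mono ?_ ?_
    · have h3 : Measurable fun q : Euc m × Ω => φ q.1 := hφ.continuous.measurable.comp measurable_fst
      exact (h3.mul (meas_joint hT hc δ)).aestronglyMeasurable
    · refine Eventually.of_forall fun q => ?_
      change ‖φ q.1 * (c q.2 * ker 2 q.1 δ (T q.2))‖ ≤ ‖φ q.1 * 1‖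
      rw [norm_mul (φ q.1) (c q.2 * ker 2 q.1 δ (T q.2)), norm_mul (φ q.1) 1]
      refine mul_le_mul_of_nonneg_left ?_ (norm_nonneg (φ q.1))
      rw [norm_mul, Real.norm_eq_abs, Real.norm_eq_abs, abs_of_nonneg (hc0 _),
          abs_of_nonneg (ker_nonneg _ _ _ _), norm_one]
      exact mul_le_one₀ (hc1 _) (ker_nonneg _ _ _ _) (ker_le_one _ _ _ _)

theorem avg1 (hT : Measurable T) (hc : Measurable c) (hc0 : ∀ p, 0 ≤ c p) (hc1 : ∀ p, c p ≤ 1)
    {δ : ℝ} (hδ : 0 < δ) (hφ : LipschitzWith 1 φ) (hsupp : ∀ z, φ z ≠ 0 → ‖z‖ ≤ 2)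
    (hb : ∀ z, |φ z| ≤ 1) :
    |cb m δ * ag μ c T φ - ∫ z', φ z' * ag μ c T (ker 2 z' δ)| ≤
      δ * cb m δ * μ.real univ := by
  have hcb := cb_pos (m := m) hδ
  rw [fubini hT hc hc0 hc1 hφ hsupp]
  set Φ : Euc m → ℝ := fun T => ∫ z', φ z' * ker 2 z' δ T with hΦ
  have hΦm : Measurable Φ := by
    refine StronglyMeasurable.measurable ?_
    refine StronglyMeasurable.integral_prod_left' (f := fun q : Euc m × Euc m =>
      φ q.1 * ker 2 q.1 δ q.2) ?_
    exact ((hφ.continuous.comp continuous_fst).mul (cont_ker_joint δ)).stronglyMeasurable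
  have hΦb : ∀ T, |cb m δ * φ T - Φ T| ≤ δ * cb m δ := fun T => avg_pt hδ hφ hsupp hb T
  have hΦb2 : ∀ T, |Φ T| ≤ cb m δ + δ * cb m δ := by
    intro T
    have h1 := hΦb T
    have h2 : |cb m δ * φ T| ≤ cb m δ := by
      rw [abs_mul, abs_of_pos hcb]
      nlinarith [hb T]
    have h3 : Φ T = cb m δ * φ T - (cb m δ * φ T - Φ T) := by ring
    rw [h3]
    exact (abs_sub _ _).trans (add_le_add h2 h1)
  have hi1 : Integrable (fun p => c p * Φ (T p)) μ := by
    refine Integrable.of_bound (hc.mul (hΦm.comp hT)).aestronglyMeasurable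
      (cb m δ + δ * cb m δ) ?_
    refine Eventually.of_forall fun p => ?_
    rw [norm_mul, Real.norm_eq_abs, Real.norm_eq_abs, abs_of_nonneg (hc0 _)]
    calc c p * |Φ (T p)| ≤ 1 * (cb m δ + δ * cb m δ) :=
          mul_le_mul (hc1 _) (hΦb2 _) (abs_nonneg _) zero_le_one
      _ = _ := one_mul _
  have hi2 : Integrable (fun p => c p * φ (T p)) μ := by
    refine Integrable.of_bound (hc.mul (hφ.continuous.measurable.comp hT)).aestronglyMeasurable 1 ?_
    refine Eventually.of_forall fun p => ?_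
    rw [norm_mul, Real.norm_eq_abs, Real.norm_eq_abs, abs_of_nonneg (hc0 _)]
    exact mul_le_one₀ (hc1 _) (abs_nonneg _) (hb _)
  have h0 : ag μ c T φ = ∫ p, c p * φ (T p) ∂μ := rfl
  rw [h0, ← integral_const_mul, ← integral_sub (hi2.const_mul _) hi1]
  have h2 : ∀ p, ‖cb m δ * (c p * φ (T p)) - c p * Φ (T p)‖ ≤ δ * cb m δ := by
    intro p
    have h3 : cb m δ * (c p * φ (T p)) - c p * Φ (T p) =
      c p * (cb m δ * φ (T p) - Φ (T p)) := by ring
    rw [h3, norm_mul, Real.norm_eq_abs, Real.norm_eq_abs, abs_of_nonneg (hc0 _)]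
    calc c p * |cb m δ * φ (T p) - Φ (T p)| ≤ 1 * (δ * cb m δ) :=
          mul_le_mul (hc1 _) (hΦb _) (abs_nonneg _) zero_le_one
      _ = _ := one_mul _
  have h4 := norm_integral_le_of_norm_le_const (μ := μ) (Eventually.of_forall h2)
  rwa [Real.norm_eq_abs] at h4

theorem avg2 (hT : Measurable T) (hc : Measurable c) {δ e : ℝ}
    (he : ∀ z' : Euc m, ‖z'‖ ≤ 2 → |ag μ c T (ker 2 z' δ) - ag μ c T (ker 2 0 δ)| ≤ e)
    (hφ : LipschitzWith 1 φ) (hsupp : ∀ z, φ z ≠ 0 → ‖z‖ ≤ 2) (hb : ∀ z, |φ z| ≤ 1) :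
    |(∫ z', φ z' * ag μ c T (ker 2 z' δ)) - (∫ z, φ z) * ag μ c T (ker 2 0 δ)| ≤
      e * (ome m * 2 ^ m) := by
  have he0 : 0 ≤ e := (abs_nonneg _).trans (he 0 (by simp))
  have hφi := phi_integrable hφ hsupp
  have hmeas : Measurable (fun z' : Euc m => ag μ c T (ker 2 z' δ)) := by
    refine StronglyMeasurable.measurable ?_
    unfold ag
    exact StronglyMeasurable.integral_prod_right' (f := fun q : Euc m × Ω =>
      c q.2 * ker 2 q.1 δ (T q.2)) (meas_joint hT hc δ).stronglyMeasurable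
  generalize hA : ag μ c T (ker 2 0 δ) = A at he ⊢
  generalize hF : (fun z' : Euc m => ag μ c T (ker 2 z' δ)) = F at hmeas
  have hF' : ∀ z', ag μ c T (ker 2 z' δ) = F z' := fun z' => congrFun hF z'
  simp only [hF'] at he ⊢
  have h5 : Integrable fun z' => φ z' * (F z' - A) := by
    refine Integrable.mono' (hφi.abs.mul_const e)
      (hφi.aestronglyMeasurable.mul (hmeas.sub measurable_const).aestronglyMeasurable) ?_
    refine Eventually.of_forall fun z => ?_
    rw [norm_mul, Real.norm_eq_abs, Real.norm_eq_abs]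
    by_cases hz : φ z = 0
    · rw [hz]; simp
    · exact mul_le_mul_of_nonneg_left (he z (hsupp z hz)) (abs_nonneg _)
  have h6 : (∫ z', φ z' * F z') - (∫ z, φ z) * A = ∫ z', φ z' * (F z' - A) := by
    have h7 : ∀ z', φ z' * F z' = φ z' * (F z' - A) + φ z' * A := fun z' => by ring
    rw [integral_congr_ae (Eventually.of_forall h7), integral_add h5 (hφi.mul_const _),
      integral_mul_const]
    ring
  rw [h6]
  calc |∫ z', φ z' * (F z' - A)|
      ≤ ∫ z', |φ z' * (F z' - A)| := abs_integral_le_integral_abs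
    _ ≤ ∫ z', |φ z'| * e := by
        refine integral_mono h5.abs (hφi.abs.mul_const e) ?_
        intro z
        change |φ z * (F z - A)| ≤ |φ z| * e
        rw [abs_mul]
        by_cases hz : φ z = 0
        · rw [hz]; simp
        · exact mul_le_mul_of_nonneg_left (he z (hsupp z hz)) (abs_nonneg _)
    _ = (∫ z', |φ z'|) * e := integral_mul_const _ _
    _ ≤ (ome m * 2 ^ m) * e := by
        gcongr
        exact phi_abs_int hφ hb hsupp
    _ = _ := by ring

/-- comparison of the functional with a multiple of the Lebesgue integral. -/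
theorem avg (hT : Measurable T) (hc : Measurable c) (hc0 : ∀ p, 0 ≤ c p) (hc1 : ∀ p, c p ≤ 1)
    {δ e : ℝ} (hδ : 0 < δ)
    (he : ∀ z' : Euc m, ‖z'‖ ≤ 2 → |ag μ c T (ker 2 z' δ) - ag μ c T (ker 2 0 δ)| ≤ e)
    (hφ : LipschitzWith 1 φ) (hsupp : ∀ z, φ z ≠ 0 → ‖z‖ ≤ 2) (hb : ∀ z, |φ z| ≤ 1) :
    |cb m δ * ag μ c T φ - (∫ z, φ z) * ag μ c T (ker 2 0 δ)| ≤
      δ * cb m δ * μ.real univ + e * (ome m * 2 ^ m) := by
  have h1 := avg1 (μ := μ) hT hc hc0 hc1 hδ hφ hsupp hb
  have h2 := avg2 hT hc he hφ hsupp hb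
  have h3 : cb m δ * ag μ c T φ - (∫ z, φ z) * ag μ c T (ker 2 0 δ) =
      (cb m δ * ag μ c T φ - ∫ z', φ z' * ag μ c T (ker 2 z' δ)) +
      ((∫ z', φ z' * ag μ c T (ker 2 z' δ)) - (∫ z, φ z) * ag μ c T (ker 2 0 δ)) := by ring
  rw [h3]
  exact (abs_add_le _ _).trans (add_le_add h1 h2)

end abs


end Crest.Agent.R234.QLeb_433
end
end

-- ▼ part R234/QLeb3_433
section

/-!
Row 234 (helper433), task VF-QLEB, part 3: radial comparison (layer cake) and the final theorem
`qLeb : Main_456.QLeb`.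
-/

set_option autoImplicit false
set_option linter.unusedVariables false

open MeasureTheory Topology Set Metric
open Filter hiding ker
open scoped ENNReal NNReal ContDiff InnerProductSpace
open Crest.GeometryTopology.Submanifold Crest.Agent.R234.Vf_884
open Crest.Agent.R234.Strat3_842 (tilt height)
open Crest.Agent.R234.AS_456 (hp vp)

noncomputable section

namespace Crest.Agent.R234.QLeb_433

open Crest.Agent.R234.Main_456 Crest.Agent.R234.Al4_182

variable {m k : ℕ} {π : Euc k →L[ℝ] Euc m} {U : Set (Euc k)} {V : Measure (Euc k × L k)}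

/-! ### layer cake -/

/-- superlevel sets of `ph 2 (a ^ 2)`. -/
theorem lt_ph_iff {t a : ℝ} (ht : 0 < t) (ht1 : t < 1) (ha : 0 ≤ a) :
    t < ph 2 (a ^ 2) ↔ a < √(1 - √t) := by
  have hs1 : √t < 1 := by rw [Real.sqrt_lt' one_pos]; simpa using ht1
  have hs0 : 0 < √t := Real.sqrt_pos.2 ht
  have hts : t = √t ^ 2 := (Real.sq_sqrt ht.le).symm
  unfold ph
  rw [Real.lt_sqrt ha]
  constructor
  · intro h
    have h1 : √t < max (1 - a ^ 2) 0 := by
      rw [hts] at h
      exact lt_of_pow_lt_pow_left₀ 2 (le_max_right _ _) (by simpa using h)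
    rcases lt_max_iff.1 h1 with h2 | h2
    · linarith
    · linarith
  · intro h
    have h1 : √t < max (1 - a ^ 2) 0 := lt_max_iff.2 (Or.inl (by linarith))
    have h2 : √t ^ 2 < (max (1 - a ^ 2) 0) ^ 2 := pow_lt_pow_left₀ h1 hs0.le two_ne_zero
    rwa [← hts] at h2


/-- superlevel sets of the kernels are balls. -/
theorem setOf_ker {E : Type*} [NormedAddCommGroup E] [InnerProductSpace ℝ E]
    [FiniteDimensional ℝ E] [MeasurableSpace E] [BorelSpace E]
    (x : E) {ρ : ℝ} (hρ : 0 < ρ) {t : ℝ} (ht : 0 < t) (ht1 : t < 1) :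
    {y : E | t < ker 2 x ρ y} = ball x (ρ * √(1 - √t)) := by
  ext y
  rw [mem_ofPred_eq, mem_ball, dist_eq_norm]
  unfold Al4_182.ker
  rw [← div_pow, lt_ph_iff ht ht1 (by positivity), div_lt_iff₀ hρ, mul_comm]

theorem setOf_ker' {E : Type*} [NormedAddCommGroup E] [InnerProductSpace ℝ E]
    [FiniteDimensional ℝ E] [MeasurableSpace E] [BorelSpace E]
    (x : E) (ρ : ℝ) {t : ℝ} (ht1 : 1 ≤ t) : {y : E | t < ker 2 x ρ y} = ∅ := by
  ext y
  simp only [mem_ofPred_eq, mem_empty_iff_false, iff_false, not_lt]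
  exact (ker_le_one _ _ _ _).trans ht1

theorem lint_ker (V : Measure (Euc k × L k)) (x : Euc k) (ρ : ℝ) :
    ∫⁻ p, ENNReal.ofReal (ker 2 x ρ p.1) ∂V =
      ∫⁻ t in Ioi (0:ℝ), V ({y : Euc k | t < ker 2 x ρ y} ×ˢ univ) := by
  rw [lintegral_eq_lintegral_meas_lt V (Eventually.of_forall fun p => ker_nonneg _ _ _ _)
    (((continuous_ker 2 x ρ).comp continuous_fst).aemeasurable)]
  refine lintegral_congr fun t => ?_
  congr 1
  ext p
  simp

theorem lint_cb {δ : ℝ} (hδ : 0 < δ) :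
    ENNReal.ofReal (cb m δ) =
      ∫⁻ t in Ioi (0:ℝ), volume {y : Euc m | t < ker 2 0 δ y} := by
  unfold cb
  rw [ofReal_integral_eq_lintegral_ofReal (ker_integrable hδ)
    (Eventually.of_forall fun z => ker_nonneg _ _ _ _),
    lintegral_eq_lintegral_meas_lt volume (Eventually.of_forall fun p => ker_nonneg _ _ _ _)
    ((continuous_ker 2 (0 : Euc m) δ).aemeasurable)]

/-- radial comparison. -/
theorem radial (hV : Stat m k U V) (hm : 1 ≤ m) {x : Euc k} {r δ ε : ℝ} {Q : ℕ} (hr : 0 < r)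
    (hU : closedBall x (4 * r) ⊆ U) (hδ : 0 < δ) (hδ2 : δ ≤ 1 / 2) (hε : 0 ≤ ε)
    (hQ : (Q : ℝ≥0∞) ≤ Th m V x) (hrat : rat m V x (4 * r) ≤ (Q : ℝ≥0∞) + ENNReal.ofReal ε) :
    |∫ p, ker 2 x (δ * r) p.1 ∂V - Q * (r ^ m * cb m δ)| ≤ ε * (r ^ m * cb m δ) := by
  have hc := cb_pos (m := m) hδ
  have hδr : 0 < δ * r := mul_pos hδ hr
  have hball : ∀ s : ℝ, 0 < s → s ≤ 1 / 2 →
      (Q : ℝ≥0∞) * ENNReal.ofReal (ome m * (s * r) ^ m) ≤ V (ball x (s * r) ×ˢ univ) ∧
      V (ball x (s * r) ×ˢ univ) ≤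
        ((Q : ℝ≥0∞) + ENNReal.ofReal ε) * ENNReal.ofReal (ome m * (s * r) ^ m) := by
    intro s hs hs2
    have hsr : 0 < s * r := mul_pos hs hr
    have h4 : s * r ≤ 4 * r := by nlinarith
    have hsub : ball x (s * r) ⊆ U :=
      (ball_subset_closedBall.trans (closedBall_subset_closedBall h4)).trans hU
    have hsub4 : ball x (4 * r) ⊆ U := ball_subset_closedBall.trans hU
    have hmass : mass V (ball x (s * r)) = V (ball x (s * r) ×ˢ univ) := by
      rw [mass_apply V measurableSet_ball]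
      congr 1
      ext p; simp
    constructor
    · rw [← hmass]
      exact mul_le_mass hV hm hsr hsub hQ
    · have h5 := (rat_mono hV hm hsr h4 hsub4).trans hrat
      unfold rat at h5
      rw [hmass, ENNReal.div_le_iff_le_mul (Or.inl (by
        rw [ne_eq, ENNReal.ofReal_eq_zero, not_le]; exact den_pos m hsr))
        (Or.inl ENNReal.ofReal_ne_top)] at h5
      exact h5
  have hvol : ∀ s : ℝ, 0 < s → volume (ball (0 : Euc m) s) = ENNReal.ofReal (ome m * s ^ m) :=
    fun s hs => volume_ball_eq m 0 hs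
  have hscale : ∀ s : ℝ, 0 < s → ENNReal.ofReal (ome m * (s * r) ^ m) =
      ENNReal.ofReal (r ^ m) * volume (ball (0 : Euc m) s) := by
    intro s hs
    rw [hvol s hs, ← ENNReal.ofReal_mul (by positivity), mul_pow]
    congr 1
    ring
  -- level by level
  have hlev : ∀ t : ℝ, 0 < t →
      (Q : ℝ≥0∞) * (ENNReal.ofReal (r ^ m) * volume {y : Euc m | t < ker 2 0 δ y}) ≤
        V ({y : Euc k | t < ker 2 x (δ * r) y} ×ˢ univ) ∧
      V ({y : Euc k | t < ker 2 x (δ * r) y} ×ˢ univ) ≤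
        ((Q : ℝ≥0∞) + ENNReal.ofReal ε) *
          (ENNReal.ofReal (r ^ m) * volume {y : Euc m | t < ker 2 0 δ y}) := by
    intro t ht
    rcases lt_or_ge t 1 with ht1 | ht1
    · rw [setOf_ker x hδr ht ht1, setOf_ker (0 : Euc m) hδ ht ht1]
      set s := δ * √(1 - √t) with hs
      have hst : √t < 1 := by rw [Real.sqrt_lt' one_pos]; simpa using ht1
      have hs0 : 0 < s := mul_pos hδ (Real.sqrt_pos.2 (by linarith))
      have hs1 : √(1 - √t) ≤ 1 := by
        refine Real.sqrt_le_one.2 ?_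
        have := Real.sqrt_nonneg t
        linarith
      have hs2 : s ≤ 1 / 2 := by
        have : s ≤ δ * 1 := by rw [hs]; gcongr
        linarith
      have e : δ * r * √(1 - √t) = s * r := by rw [hs]; ring
      rw [e, ← hscale s hs0]
      exact hball s hs0 hs2
    · rw [setOf_ker' x (δ * r) ht1, setOf_ker' (0 : Euc m) δ ht1]
      simp
  have hI := lint_ker V x (δ * r)
  have hlow : (Q : ℝ≥0∞) * (ENNReal.ofReal (r ^ m) * ENNReal.ofReal (cb m δ)) ≤
      ∫⁻ p, ENNReal.ofReal (ker 2 x (δ * r) p.1) ∂V := by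
    rw [hI, lint_cb hδ, ← lintegral_const_mul' _ _ ENNReal.ofReal_ne_top,
      ← lintegral_const_mul' _ _ (ENNReal.natCast_ne_top Q)]
    refine setLIntegral_mono' measurableSet_Ioi fun t ht => ?_
    exact (hlev t ht).1
  have hup : ∫⁻ p, ENNReal.ofReal (ker 2 x (δ * r) p.1) ∂V ≤
      ((Q : ℝ≥0∞) + ENNReal.ofReal ε) * (ENNReal.ofReal (r ^ m) * ENNReal.ofReal (cb m δ)) := by
    rw [hI, lint_cb hδ, ← lintegral_const_mul' _ _ ENNReal.ofReal_ne_top,
      ← lintegral_const_mul' _ _ (by simp)]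
    refine setLIntegral_mono' measurableSet_Ioi fun t ht => ?_
    exact (hlev t ht).2
  have hint : ∫ p, ker 2 x (δ * r) p.1 ∂V =
      (∫⁻ p, ENNReal.ofReal (ker 2 x (δ * r) p.1) ∂V).toReal := by
    rw [integral_eq_lintegral_of_nonneg_ae (Eventually.of_forall fun p => ker_nonneg _ _ _ _)
      ((continuous_ker 2 x (δ * r)).comp continuous_fst).aestronglyMeasurable]
  have hX : 0 < r ^ m * cb m δ := by positivity
  have e1 : (Q : ℝ≥0∞) * (ENNReal.ofReal (r ^ m) * ENNReal.ofReal (cb m δ)) =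
      ENNReal.ofReal (Q * (r ^ m * cb m δ)) := by
    rw [ENNReal.ofReal_mul (by positivity), ENNReal.ofReal_mul (by positivity),
      ENNReal.ofReal_natCast]
  have e2 : ((Q : ℝ≥0∞) + ENNReal.ofReal ε) * (ENNReal.ofReal (r ^ m) * ENNReal.ofReal (cb m δ)) =
      ENNReal.ofReal ((Q + ε) * (r ^ m * cb m δ)) := by
    rw [ENNReal.ofReal_mul (by positivity), ENNReal.ofReal_mul (by positivity),
      ENNReal.ofReal_add (by positivity) hε, ENNReal.ofReal_natCast]
  rw [e1] at hlow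
  rw [e2] at hup
  have hne : ∫⁻ p, ENNReal.ofReal (ker 2 x (δ * r) p.1) ∂V ≠ ⊤ :=
    (hup.trans_lt ENNReal.ofReal_lt_top).ne
  have h1 := (ENNReal.ofReal_le_iff_le_toReal hne).1 hlow
  have h2 := ENNReal.toReal_le_of_le_ofReal (by positivity) hup
  rw [← hint] at h1 h2
  rw [abs_le]
  constructor
  · have : 0 ≤ ε * (r ^ m * cb m δ) := by positivity
    linarith
  · linarith

/-! ### pointwise comparisons -/

theorem chi_ge (x : Euc k) {r : ℝ} (hr : 0 < r) (p : Euc k × L k) :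
    |chi π x r p.1 - 1| ≤ 2 / (9 * r ^ 2) * height (hp π) x p := by
  have h := ph2_lip (s := ‖(p.1 - x) - hp π (p.1 - x)‖ ^ 2 / (3 * r) ^ 2) (t := 0) (by positivity)
    le_rfl
  rw [ph2_zero, sub_zero, abs_of_nonneg (by positivity :
    0 ≤ ‖(p.1 - x) - hp π (p.1 - x)‖ ^ 2 / (3 * r) ^ 2)] at h
  refine h.trans (le_of_eq ?_)
  unfold height
  field_simp
  ring

theorem cmp_pt (hπ : Ar_870.IsCo π) (x : Euc k) {r δ : ℝ} (hr : 0 < r) (hδ : 0 < δ)
    (hδ2 : δ ≤ 1 / 2) (p : Euc k × L k) :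
    |chi π x r p.1 * ker 2 0 δ (tt π x r p.1) - ker 2 x (δ * r) p.1| ≤
      4 / (δ ^ 2 * r ^ 2) * height (hp π) x p := by
  have h1 := chi_ge (π := π) x hr p
  have h2 : |ker 2 0 δ (tt π x r p.1) - ker 2 x (δ * r) p.1| ≤
      2 / (δ ^ 2 * r ^ 2) * height (hp π) x p := by
    have h3 := ph2_lip (s := ‖tt π x r p.1 - 0‖ ^ 2 / δ ^ 2)
      (t := ‖p.1 - x‖ ^ 2 / (δ * r) ^ 2) (by positivity) (by positivity)
    refine h3.trans (le_of_eq ?_)
    have h4 := pyth hπ (p.1 - x)
    have h5 : ‖tt π x r p.1 - 0‖ ^ 2 = ‖π (p.1 - x)‖ ^ 2 / r ^ 2 := by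
      rw [sub_zero]
      unfold tt
      rw [norm_smul, mul_pow, norm_inv, Real.norm_eq_abs, abs_of_pos hr]
      field_simp
    have h6 : ‖tt π x r p.1 - 0‖ ^ 2 / δ ^ 2 - ‖p.1 - x‖ ^ 2 / (δ * r) ^ 2 =
        -(height (hp π) x p / (δ ^ 2 * r ^ 2)) := by
      rw [h5, h4]
      unfold height
      field_simp
      ring
    have h7 : 0 ≤ height (hp π) x p := sq_nonneg _
    rw [h6, abs_neg, abs_of_nonneg (by positivity)]
    ring
  have h0 : 0 ≤ height (hp π) x p := sq_nonneg _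
  have h3 : chi π x r p.1 * ker 2 0 δ (tt π x r p.1) - ker 2 x (δ * r) p.1 =
      (chi π x r p.1 - 1) * ker 2 0 δ (tt π x r p.1) +
        (ker 2 0 δ (tt π x r p.1) - ker 2 x (δ * r) p.1) := by ring
  rw [h3]
  refine (abs_add_le _ _).trans ?_
  have h4 : |(chi π x r p.1 - 1) * ker 2 0 δ (tt π x r p.1)| ≤
      2 / (9 * r ^ 2) * height (hp π) x p := by
    rw [abs_mul, abs_of_nonneg (ker_nonneg 2 (0 : Euc m) δ (tt π x r p.1))]
    calc |chi π x r p.1 - 1| * ker 2 0 δ (tt π x r p.1)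
        ≤ (2 / (9 * r ^ 2) * height (hp π) x p) * 1 :=
          mul_le_mul h1 (ker_le_one _ _ _ _) (ker_nonneg _ _ _ _) (by positivity)
      _ = _ := mul_one _
  have h5 : 2 / (9 * r ^ 2) + 2 / (δ ^ 2 * r ^ 2) ≤ 4 / (δ ^ 2 * r ^ 2) := by
    have h6 : 2 / (9 * r ^ 2) ≤ 2 / (δ ^ 2 * r ^ 2) := by
      apply div_le_div_of_nonneg_left (by norm_num) (by positivity)
      have : δ ^ 2 ≤ 9 := by nlinarith
      gcongr
    have h7 : 4 / (δ ^ 2 * r ^ 2) = 2 / (δ ^ 2 * r ^ 2) + 2 / (δ ^ 2 * r ^ 2) := by ring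
    rw [h7]
    linarith
  calc |(chi π x r p.1 - 1) * ker 2 0 δ (tt π x r p.1)| +
        |ker 2 0 δ (tt π x r p.1) - ker 2 x (δ * r) p.1|
      ≤ (2 / (9 * r ^ 2) + 2 / (δ ^ 2 * r ^ 2)) * height (hp π) x p := by
        rw [add_mul]; exact add_le_add h4 h2
    _ ≤ _ := by gcongr

theorem fin_pt (hπ : Ar_870.IsCo π) (x : Euc k) {r : ℝ} (hr : 0 < r) {φ : Euc m → ℝ}
    (hsupp : ∀ z, φ z ≠ 0 → ‖z‖ ≤ 2) (hb : ∀ z, |φ z| ≤ 1) (p : Euc k × L k) :
    |chi π x r p.1 * φ (tt π x r p.1) -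
      (ball x (3 * r) ×ˢ (univ : Set (L k))).indicator (fun p => φ (tt π x r p.1)) p| ≤
      1 / (4 * r ^ 2) * height (hp π) x p := by
  have h1 := chi_ge (π := π) x hr p
  have h0 : 0 ≤ height (hp π) x p := sq_nonneg _
  by_cases hp3 : p ∈ ball x (3 * r) ×ˢ (univ : Set (L k))
  · rw [indicator_of_mem hp3]
    have h3 : chi π x r p.1 * φ (tt π x r p.1) - φ (tt π x r p.1) =
        (chi π x r p.1 - 1) * φ (tt π x r p.1) := by ring
    rw [h3, abs_mul]
    calc |chi π x r p.1 - 1| * |φ (tt π x r p.1)| ≤ (2 / (9 * r ^ 2) * height (hp π) x p) * 1 :=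
          mul_le_mul h1 (hb _) (abs_nonneg _) (by positivity)
      _ = 2 / (9 * r ^ 2) * height (hp π) x p := mul_one _
      _ ≤ 1 / (4 * r ^ 2) * height (hp π) x p := by
          gcongr ?_ * _
          rw [div_le_div_iff₀ (by positivity) (by positivity)]
          nlinarith [sq_nonneg r]
  · rw [indicator_of_notMem hp3, sub_zero]
    have h4 : 3 * r ≤ ‖p.1 - x‖ := by
      by_contra hcon
      refine hp3 ⟨?_, mem_univ _⟩
      rw [mem_ball, dist_eq_norm]
      exact not_le.1 hcon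
    by_cases hz : φ (tt π x r p.1) = 0
    · rw [hz, mul_zero, abs_zero]; positivity
    · have h5 := hsupp _ hz
      unfold tt at h5
      rw [norm_smul, norm_inv, Real.norm_eq_abs, abs_of_pos hr, inv_mul_le_iff₀ hr] at h5
      have h6 := pyth hπ (p.1 - x)
      have h7 : 5 * r ^ 2 ≤ height (hp π) x p := by
        unfold height
        have := norm_nonneg (π (p.1 - x))
        nlinarith
      rw [abs_mul, abs_of_nonneg (chi_nonneg _ _ _)]
      calc chi π x r p.1 * |φ (tt π x r p.1)| ≤ 1 * 1 :=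
            mul_le_mul (chi_le_one _ _ _) (hb _) (abs_nonneg _) zero_le_one
        _ = 1 / (4 * r ^ 2) * (4 * r ^ 2) := by field_simp
        _ ≤ 1 / (4 * r ^ 2) * height (hp π) x p := by
            gcongr
            nlinarith [sq_nonneg r]

/-- the estimate with explicit constants. -/
theorem main_est (hV : Stat m k U V) (hm : 1 ≤ m) (hπ : Ar_870.IsCo π) {x : Euc k} {Q : ℕ}
    {r δ θ ε : ℝ} (hr : 0 < r) (hU : closedBall x (4 * r) ⊆ U) (hδ : 0 < δ) (hδ2 : δ ≤ 1 / 2)
    (hθ : 0 < θ) (hε : 0 ≤ ε) (hε1 : ε ≤ 1) (hQ : (Q : ℝ≥0∞) ≤ Th m V x)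
    (hn : NearQ m V Q x (4 * r) ε (hp π)) {φ : Euc m → ℝ} (hφ : LipschitzWith 1 φ)
    (hb : ∀ z, |φ z| ≤ 1) (hsupp : ∀ z, φ z ≠ 0 → ‖z‖ ≤ 2) :
    |∫ p in ball x (3 * r) ×ˢ univ, φ (tt π x r p.1) ∂V - r ^ m * (Q * ∫ z, φ z)| ≤
      (δ * ((Q + 1) * ome m * 4 ^ m) +
        2 * (1 + 4 / δ) * (ome m * 2 ^ m) / cb m δ * (θ * ((Q + 1) * ome m * 4 ^ m)) +
        (4 * 4 ^ m + 2 * (1 + 4 / δ) * (ome m * 2 ^ m) / cb m δ * (2 / θ * 4 ^ m) +
          ome m * 2 ^ m * (64 / (δ ^ 2 * cb m δ) * 4 ^ m + 1)) * ε) * r ^ m := by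
  obtain ⟨hP, hex, hrat⟩ := hn
  have hc := cb_pos (m := m) hδ
  have ho := ome_pos m
  have hK := isCompact_closedBall x (4 * r)
  have hB4 : MeasurableSet (ball x (4 * r) ×ˢ (univ : Set (L k))) := measurableSet_ball.prod .univ
  have hfin' : IsFiniteMeasure (V.restrict (ball x (4 * r) ×ˢ (univ : Set (L k)))) :=
    ⟨by rw [Measure.restrict_apply_univ]; exact hfin hV hU⟩
  have hct : Continuous (tilt (hp π)) :=
    Cacc_113.continuous_tr.comp (continuous_const.clm_comp continuous_snd)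
  have hch : Continuous (height (hp π) x) := by
    have e : height (hp π) x = fun p : Euc k × L k => ‖(p.1 - x) - hp π (p.1 - x)‖ ^ 2 := rfl
    rw [e]
    fun_prop
  have hint : ∀ g : Euc k × L k → ℝ, Continuous g →
      IntegrableOn g (ball x (4 * r) ×ˢ (univ : Set (L k))) V := fun g hg =>
    NearChg_660.intOn hV hg measurableSet_ball hK ball_subset_closedBall hU
  -- the excess
  set S : ℝ := ((4 * r) ^ 2)⁻¹ *
    ∫ p in ball x (4 * r) ×ˢ univ, ((4 * r) ^ 2 * tilt (hp π) p + height (hp π) x p) ∂V with hS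
  have hSle : S ≤ ε * 4 ^ m * r ^ m := by
    calc S ≤ ((4 * r) ^ 2)⁻¹ * (ε * (4 * r) ^ (m + 2)) := by
          rw [hS]; gcongr
      _ = ε * 4 ^ m * r ^ m := by
          rw [pow_add, mul_pow 4 r m]
          field_simp
  have hheight : ∫ p in ball x (4 * r) ×ˢ univ, height (hp π) x p ∂V ≤ 16 * r ^ 2 * S := by
    have h1 : ∫ p in ball x (4 * r) ×ˢ univ, height (hp π) x p ∂V ≤
        ∫ p in ball x (4 * r) ×ˢ univ, ((4 * r) ^ 2 * tilt (hp π) p + height (hp π) x p) ∂V := by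
      refine integral_mono_ae (hint _ hch) (hint _ (by fun_prop)) ?_
      filter_upwards [ae_restrict_of_ae hV.conc] with p hp2
      have h8 : 0 ≤ tilt (hp π) p := Strat3_842.tr_perp_nonneg hp2 hP
      change height (hp π) x p ≤ (4 * r) ^ 2 * tilt (hp π) p + height (hp π) x p
      have : 0 ≤ (4 * r) ^ 2 * tilt (hp π) p := by positivity
      linarith
    refine h1.trans (le_of_eq ?_)
    rw [hS]
    field_simp
    ring
  have hh0 : 0 ≤ ∫ p in ball x (4 * r) ×ˢ univ, height (hp π) x p ∂V :=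
    integral_nonneg fun p => sq_nonneg _
  have hS0 : 0 ≤ S := by
    by_contra hcon
    have : 16 * r ^ 2 * S < 0 := mul_neg_of_pos_of_neg (by positivity) (not_le.1 hcon)
    linarith
  -- the mass
  set M : ℝ := V.real (ball x (4 * r) ×ˢ univ) with hM
  have hM0 : 0 ≤ M := measureReal_nonneg
  have hMle : M ≤ (Q + 1) * ome m * 4 ^ m * r ^ m := by
    have h4r : 0 < 4 * r := by positivity
    have hmass : mass V (ball x (4 * r)) = V (ball x (4 * r) ×ˢ univ) := by
      rw [mass_apply V measurableSet_ball]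
      congr 1
      ext p; simp
    unfold rat at hrat
    rw [hmass, ENNReal.div_le_iff_le_mul (Or.inl (by
      rw [ne_eq, ENNReal.ofReal_eq_zero, not_le]; exact den_pos m h4r))
      (Or.inl ENNReal.ofReal_ne_top)] at hrat
    have e2 : ((Q : ℝ≥0∞) + ENNReal.ofReal ε) * ENNReal.ofReal (ome m * (4 * r) ^ m) =
        ENNReal.ofReal ((Q + ε) * (ome m * (4 * r) ^ m)) := by
      rw [ENNReal.ofReal_mul (p := (Q : ℝ) + ε) (by positivity),
        ENNReal.ofReal_add (by positivity) hε, ENNReal.ofReal_natCast]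
    rw [e2] at hrat
    have h5 := ENNReal.toReal_le_of_le_ofReal (by positivity) hrat
    change M ≤ _ at h5
    refine h5.trans ?_
    rw [mul_pow]
    calc (Q + ε) * (ome m * (4 ^ m * r ^ m)) ≤ (Q + 1) * (ome m * (4 ^ m * r ^ m)) := by gcongr
      _ = _ := by ring
  -- translation
  set e : ℝ := θ * M + 2 / θ * S with he
  have he0 : 0 ≤ e := by positivity
  have htr : ∀ z' : Euc m, ‖z'‖ ≤ 2 →
      |aa V π x r (ker 2 z' δ) - aa V π x r (ker 2 0 δ)| ≤ 2 * (1 + 4 / δ) * e :=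
    fun z' hz' => transl hV hπ hP hr hU hθ hδ hδ2 le_rfl he0 hz'
  -- averaging
  have havg : |cb m δ * aa V π x r φ - (∫ z, φ z) * aa V π x r (ker 2 0 δ)| ≤
      δ * cb m δ * M + 2 * (1 + 4 / δ) * e * (ome m * 2 ^ m) := by
    have h1 := avg (μ := V.restrict (ball x (4 * r) ×ˢ (univ : Set (L k))))
      (T := fun p => tt π x r p.1) (c := fun p => chi π x r p.1)
      ((continuous_tt x r).comp continuous_fst).measurable
      ((continuous_chi x r).comp continuous_fst).measurable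
      (fun p => chi_nonneg _ _ _) (fun p => chi_le_one _ _ _) hδ htr hφ hsupp hb
    rw [measureReal_restrict_apply_univ] at h1
    exact h1
  -- radial comparison
  have hrad := radial hV hm hr hU hδ hδ2 hε hQ hrat
  have hcmp : |aa V π x r (ker 2 0 δ) - ∫ p, ker 2 x (δ * r) p.1 ∂V| ≤ 64 / δ ^ 2 * S := by
    have h1 : ∫ p, ker 2 x (δ * r) p.1 ∂V =
        ∫ p in ball x (4 * r) ×ˢ univ, ker 2 x (δ * r) p.1 ∂V := by
      rw [setIntegral_eq_integral_of_forall_compl_eq_zero]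
      intro p hpo
      refine ker_zero two_ne_zero (mul_pos hδ hr) ?_
      by_contra hcon
      refine hpo ⟨?_, mem_univ _⟩
      rw [mem_ball, dist_eq_norm]
      have h2 := not_le.1 hcon
      have h3 : δ * r ≤ 4 * r := by nlinarith
      exact h2.trans_le h3
    have hc1 : Continuous fun p : Euc k × L k => chi π x r p.1 * ker 2 0 δ (tt π x r p.1) :=
      ((continuous_chi x r).comp continuous_fst).mul
        ((continuous_ker 2 _ _).comp ((continuous_tt x r).comp continuous_fst))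
    have hc2 : Continuous fun p : Euc k × L k => ker 2 x (δ * r) p.1 :=
      (continuous_ker 2 _ _).comp continuous_fst
    rw [h1]
    unfold aa
    rw [← integral_sub (hint _ hc1) (hint _ hc2)]
    refine abs_integral_le_integral_abs.trans ?_
    calc ∫ p in ball x (4 * r) ×ˢ univ,
          |chi π x r p.1 * ker 2 0 δ (tt π x r p.1) - ker 2 x (δ * r) p.1| ∂V
        ≤ ∫ p in ball x (4 * r) ×ˢ univ, 4 / (δ ^ 2 * r ^ 2) * height (hp π) x p ∂V := by
          refine integral_mono (hint _ (hc1.sub hc2)).abs ((hint _ hch).const_mul _) ?_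
          exact fun p => cmp_pt hπ x hr hδ hδ2 p
      _ = 4 / (δ ^ 2 * r ^ 2) * ∫ p in ball x (4 * r) ×ˢ univ, height (hp π) x p ∂V :=
          integral_const_mul _ _
      _ ≤ 4 / (δ ^ 2 * r ^ 2) * (16 * r ^ 2 * S) := by gcongr
      _ = 64 / δ ^ 2 * S := by field_simp; ring
  -- the final comparison
  have hfinal : |aa V π x r φ - ∫ p in ball x (3 * r) ×ˢ univ, φ (tt π x r p.1) ∂V| ≤ 4 * S := by
    have hB3 : MeasurableSet (ball x (3 * r) ×ˢ (univ : Set (L k))) := measurableSet_ball.prod .univ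
    have hcφ : Continuous fun p : Euc k × L k => φ (tt π x r p.1) :=
      hφ.continuous.comp ((continuous_tt x r).comp continuous_fst)
    have hc1 : Continuous fun p : Euc k × L k => chi π x r p.1 * φ (tt π x r p.1) :=
      ((continuous_chi x r).comp continuous_fst).mul hcφ
    have h1 : ∫ p in ball x (3 * r) ×ˢ univ, φ (tt π x r p.1) ∂V =
        ∫ p in ball x (4 * r) ×ˢ univ,
          (ball x (3 * r) ×ˢ (univ : Set (L k))).indicator (fun p => φ (tt π x r p.1)) p ∂V := by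
      rw [setIntegral_indicator hB3]
      congr 2
      rw [Set.inter_eq_right.2]
      exact Set.prod_mono (ball_subset_ball (by linarith)) le_rfl
    rw [h1]
    unfold aa
    have hi2 : IntegrableOn ((ball x (3 * r) ×ˢ (univ : Set (L k))).indicator
        (fun p => φ (tt π x r p.1))) (ball x (4 * r) ×ˢ (univ : Set (L k))) V :=
      (hint _ hcφ).indicator hB3
    rw [← integral_sub (hint _ hc1) hi2]
    refine abs_integral_le_integral_abs.trans ?_
    calc ∫ p in ball x (4 * r) ×ˢ univ, |chi π x r p.1 * φ (tt π x r p.1) -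
          (ball x (3 * r) ×ˢ (univ : Set (L k))).indicator (fun p => φ (tt π x r p.1)) p| ∂V
        ≤ ∫ p in ball x (4 * r) ×ˢ univ, 1 / (4 * r ^ 2) * height (hp π) x p ∂V := by
          refine integral_mono ((hint _ hc1).sub hi2).abs ((hint _ hch).const_mul _) ?_
          exact fun p => fin_pt hπ x hr hsupp hb p
      _ = 1 / (4 * r ^ 2) * ∫ p in ball x (4 * r) ×ˢ univ, height (hp π) x p ∂V :=
          integral_const_mul _ _
      _ ≤ 1 / (4 * r ^ 2) * (16 * r ^ 2 * S) := by gcongr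
      _ = 4 * S := by field_simp; ring
  -- collect
  set a := aa V π x r φ with ha
  set b := aa V π x r (ker 2 0 δ) with hbdef
  set I := ∫ z, φ z with hI
  set R := ∫ p, ker 2 x (δ * r) p.1 ∂V with hR
  set T := ∫ p in ball x (3 * r) ×ˢ univ, φ (tt π x r p.1) ∂V with hT
  set c := cb m δ with hcdef
  have hIabs : |I| ≤ ome m * 2 ^ m :=
    abs_integral_le_integral_abs.trans (phi_abs_int hφ hb hsupp)
  have hbb : |b - Q * (r ^ m * c)| ≤ 64 / δ ^ 2 * S + ε * (r ^ m * c) := by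
    have h1 : b - Q * (r ^ m * c) = (b - R) + (R - Q * (r ^ m * c)) := by ring
    rw [h1]
    exact (abs_add_le _ _).trans (add_le_add hcmp hrad)
  have hca : c * |a - r ^ m * (Q * I)| ≤ δ * c * M + 2 * (1 + 4 / δ) * e * (ome m * 2 ^ m) +
      ome m * 2 ^ m * (64 / δ ^ 2 * S + ε * (r ^ m * c)) := by
    have h1 : c * (a - r ^ m * (Q * I)) = (c * a - I * b) + I * (b - Q * (r ^ m * c)) := by ring
    rw [← abs_of_pos hc, ← abs_mul, abs_of_pos hc, h1]
    refine (abs_add_le _ _).trans (add_le_add havg ?_)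
    rw [abs_mul]
    exact mul_le_mul hIabs hbb (abs_nonneg _) (by positivity)
  have hca2 : |a - r ^ m * (Q * I)| ≤ δ * M + 2 * (1 + 4 / δ) * (ome m * 2 ^ m) / c * e +
      ome m * 2 ^ m * (64 / (δ ^ 2 * c) * S + ε * r ^ m) := by
    have h1 : δ * M + 2 * (1 + 4 / δ) * (ome m * 2 ^ m) / c * e +
      ome m * 2 ^ m * (64 / (δ ^ 2 * c) * S + ε * r ^ m) =
      (δ * c * M + 2 * (1 + 4 / δ) * e * (ome m * 2 ^ m) +
      ome m * 2 ^ m * (64 / δ ^ 2 * S + ε * (r ^ m * c))) / c := by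
      field_simp
    rw [h1, le_div_iff₀ hc, mul_comm]
    exact hca
  have hfin2 : |T - r ^ m * (Q * I)| ≤ 4 * S + (δ * M +
      2 * (1 + 4 / δ) * (ome m * 2 ^ m) / c * e +
      ome m * 2 ^ m * (64 / (δ ^ 2 * c) * S + ε * r ^ m)) := by
    have h1 : T - r ^ m * (Q * I) = -(a - T) + (a - r ^ m * (Q * I)) := by ring
    rw [h1]
    refine (abs_add_le _ _).trans (add_le_add ?_ hca2)
    rw [abs_neg]
    exact hfinal
  refine hfin2.trans ?_
  have hele : e ≤ θ * ((Q + 1) * ome m * 4 ^ m * r ^ m) + 2 / θ * (ε * 4 ^ m * r ^ m) := by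
    rw [he]; gcongr
  calc 4 * S + (δ * M + 2 * (1 + 4 / δ) * (ome m * 2 ^ m) / c * e +
      ome m * 2 ^ m * (64 / (δ ^ 2 * c) * S + ε * r ^ m))
      ≤ 4 * (ε * 4 ^ m * r ^ m) + (δ * ((Q + 1) * ome m * 4 ^ m * r ^ m) +
        2 * (1 + 4 / δ) * (ome m * 2 ^ m) / c *
          (θ * ((Q + 1) * ome m * 4 ^ m * r ^ m) + 2 / θ * (ε * 4 ^ m * r ^ m)) +
        ome m * 2 ^ m * (64 / (δ ^ 2 * c) * (ε * 4 ^ m * r ^ m) + ε * r ^ m)) := by
        gcongr
    _ = _ := by ring

/-- **LEAF QLEB**. -/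
theorem qLeb : QLeb := by
  intro m k Q hm hQ η hη
  have ho := ome_pos m
  set M0 : ℝ := (Q + 1) * ome m * 4 ^ m with hM0
  have hM0p : 0 < M0 := by positivity
  set δ : ℝ := min (1 / 2) (η / (4 * M0)) with hδd
  have hδ : 0 < δ := lt_min (by norm_num) (by positivity)
  have hδ2 : δ ≤ 1 / 2 := min_le_left _ _
  have hδM : δ * M0 ≤ η / 4 := by
    calc δ * M0 ≤ η / (4 * M0) * M0 := by gcongr; exact min_le_right _ _
      _ = η / 4 := by field_simp
  have hc := cb_pos (m := m) hδ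
  set D1 : ℝ := 2 * (1 + 4 / δ) * (ome m * 2 ^ m) / cb m δ with hD1
  have hD1p : 0 < D1 := by positivity
  set θ : ℝ := η / (4 * (D1 * M0)) with hθd
  have hθ : 0 < θ := by positivity
  have hθM : D1 * (θ * M0) ≤ η / 4 := by
    have : D1 * (θ * M0) = η / 4 := by rw [hθd]; field_simp
    exact this.le
  set D3 : ℝ := 4 * 4 ^ m + D1 * (2 / θ * 4 ^ m) +
    ome m * 2 ^ m * (64 / (δ ^ 2 * cb m δ) * 4 ^ m + 1) with hD3
  have hD3p : 0 < D3 := by positivity
  set ε : ℝ := min 1 (η / (2 * D3)) with hεd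
  have hε : 0 < ε := lt_min one_pos (by positivity)
  have hε1 : ε ≤ 1 := min_le_left _ _
  have hεD : D3 * ε ≤ η / 2 := by
    calc D3 * ε ≤ D3 * (η / (2 * D3)) := by gcongr; exact min_le_right _ _
      _ = η / 2 := by field_simp
  refine ⟨ε, hε, ?_⟩
  intro U hUo D hD hs x r hr hU hTh π hπ hn φ hφ hb hsupp
  have hV : Stat m k U (VD D) := stat_VD hD hs
  have h := main_est hV hm hπ hr hU hδ hδ2 hθ hε.le hε1 hTh hn hφ hb hsupp
  refine h.trans ?_
  gcongr
  linarith

end Crest.Agent.R234.QLeb_433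
end
end

-- ▼ part R234/QLeb4_433

/-! Row 234 (helper433): the leaves `QLeb` and `NearZ` of `Leaf1_456`, unconditional. -/

set_option autoImplicit false

namespace Crest.Agent.R234.QLeb_433

theorem nearZ : Crest.Agent.R234.Main_456.NearZ := Crest.Agent.R234.NearZ_148.nearZ qLeb

end Crest.Agent.R234.QLeb_433
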