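import Crest.Agent.R234.Qp5_534
import Crest.Agent.R234.LowF14_471
import Crest.Agent.R234.QLeb4_433
import Crest.Agent.R234.GLK9_128
import Crest.Agent.R234.Tv10_618
import Crest.Agent.R234.Pin11_3

-- ▼ part R234/Qp6_534
section

/-!
# Row 234, node QP-CH (helper534), part 6: the total variation input at a `Q`-point
-/

set_option autoImplicit false
set_option linter.unusedVariables false
set_option linter.unusedSectionVars false

open MeasureTheory Filter Topology Set Metric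
open scoped ENNReal NNReal ContDiff InnerProductSpace
open Crest.GeometryTopology.Submanifold Crest.Agent.R234.Vf_884
open Crest.Agent.R234.Main_456 Crest.Agent.R234.F11_435
open Crest.Agent.R234.Gi_456
open Crest.Agent.R234.AS_456 (hp vp)
open Crest.Agent.R234.GI_640 (g3 g31 g32)
open Crest.Agent.R234.GL_394 (Ch Ok On VK Pf pf_cubic KB TV)
open Crest.Agent.R234.LowF14_471 (Wt)

noncomputable section

namespace Crest.Agent.R234.Qp_534

variable {m n k : ℕ}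

/-! ### change of the constants in 394's `TV` -/

section tv
variable {c : Ch m k} {K : Set (Euc k)} {D : Set (Euc m)} {V : Measure (Euc k × L k)}

theorem f_nonneg (h : Ok c K D) {z : Euc k} (hz : z ∈ K) : 0 ≤ c.f z := by
  have := h.nusq z hz
  have := sq_nonneg ‖c.nu z‖
  linarith

theorem tv_mono (h : Ok c K D) (hV : On V m K)
    (htau : ∀ p ∈ K ×ˢ G m k, 0 ≤ c.tau p.1 p.2) {Q ρ C1 Ca kq sig : ℝ} {e2 : Measure (Euc m)}
    (hCa : 1 ≤ Ca) (hC1 : 0 ≤ C1) (hkq : 0 ≤ kq) (hT : TV c V Q ρ C1 (Ca * kq) sig e2) :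
    TV c V Q ρ (C1 * Ca) kq sig e2 where
  fin := hT.fin
  i := hT.i
  iii := by
    intro F Lf hF hL hF0
    refine (hT.iii F Lf hF hL hF0).trans ?_
    have cF : ContinuousOn (fun p : Euc k × L k => F (c.x p.1)) (K ×ˢ G m k) := by
      refine hL.continuous.comp_continuousOn ?_
      intro p hp
      exact ((h.hx p.1 hp.1).continuousAt.comp continuousAt_fst).continuousWithinAt
    have cf : ContinuousOn (fun p : Euc k × L k => c.f p.1) (K ×ˢ G m k) := by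
      intro p hp
      exact ((h.hf p.1 hp.1).continuousAt.comp continuousAt_fst).continuousWithinAt
    have hi : ∀ a : ℝ, Integrable (fun p : Euc k × L k =>
        F (c.x p.1) * (c.tau p.1 p.2 + a * (2 * c.f p.1))) V := fun a =>
      hV.integrable h.cpt (cF.mul (h.ctau.add (continuousOn_const.mul
        (continuousOn_const.mul cf))))
    have h1 : ∫ p, F (c.x p.1) * (c.tau p.1 p.2 + Ca * kq * (2 * c.f p.1)) ∂V ≤
        Ca * ∫ p, F (c.x p.1) * (c.tau p.1 p.2 + kq * (2 * c.f p.1)) ∂V := by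
      rw [← integral_const_mul]
      refine integral_mono_ae (hi _) ((hi _).const_mul _) ?_
      filter_upwards [hV.mem] with p hp
      have h2 := hF (c.x p.1)
      have h3 := htau p hp
      have h4 := f_nonneg h hp.1
      have h5 : c.tau p.1 p.2 ≤ Ca * c.tau p.1 p.2 := le_mul_of_one_le_left h3 hCa
      calc F (c.x p.1) * (c.tau p.1 p.2 + Ca * kq * (2 * c.f p.1)) ≤
            F (c.x p.1) * (Ca * c.tau p.1 p.2 + Ca * kq * (2 * c.f p.1)) := by gcongr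
        _ = _ := by ring
    have h6 := mul_le_mul_of_nonneg_left h1 hC1
    have h7 : C1 * (Ca * ∫ p, F (c.x p.1) * (c.tau p.1 p.2 + kq * (2 * c.f p.1)) ∂V) =
        C1 * Ca * ∫ p, F (c.x p.1) * (c.tau p.1 p.2 + kq * (2 * c.f p.1)) ∂V := by ring
    linarith

theorem TV.mono_C (h : Ok c K D) (hV : On V m K)
    (htau : ∀ p ∈ K ×ˢ G m k, 0 ≤ c.tau p.1 p.2) {Q ρ C1 C2 kq sig : ℝ} {e2 : Measure (Euc m)}
    (hC : C1 ≤ C2) (hkq : 0 ≤ kq) (hT : TV c V Q ρ C1 kq sig e2) :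
    TV c V Q ρ C2 kq sig e2 where
  fin := hT.fin
  i := hT.i
  iii := by
    intro F Lf hF hL hF0
    refine (hT.iii F Lf hF hL hF0).trans ?_
    have h1 : 0 ≤ ∫ p, F (c.x p.1) * (c.tau p.1 p.2 + kq * (2 * c.f p.1)) ∂V := by
      refine integral_nonneg_of_ae ?_
      filter_upwards [hV.mem] with p hp
      have h2 := hF (c.x p.1)
      have h3 := htau p hp
      have h4 := f_nonneg h hp.1
      show 0 ≤ F (c.x p.1) * (c.tau p.1 p.2 + kq * (2 * c.f p.1))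
      positivity
    have h2 := mul_le_mul_of_nonneg_right hC h1
    linarith

theorem tN_int (h : Ok c K D) (hV : On V m K) (a : ℝ) :
    Integrable (fun p : Euc k × L k => c.tau p.1 p.2 + a * (2 * c.f p.1)) V := by
  have cf : ContinuousOn (fun p : Euc k × L k => c.f p.1) (K ×ˢ G m k) := by
    intro p hp
    exact ((h.hf p.1 hp.1).continuousAt.comp continuousAt_fst).continuousWithinAt
  exact hV.integrable h.cpt (h.ctau.add (continuousOn_const.mul (continuousOn_const.mul cf)))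

theorem sN_pos {cT N : ℝ} (hN : 0 ≤ N) : 0 < Ng_290.sN cT N := by
  unfold Ng_290.sN Ng_290.eN
  positivity

theorem tN_eq (c : Ch m k) (V : Measure (Euc k × L k)) (cT N κ : ℝ) :
    Ng_290.tN c V cT N κ = ((Ng_290.sN cT N)⁻¹) ^ m *
      ∫ p in Ng_290.Sr c (Real.exp (cT - 3 / (4 * N))),
        (c.tau p.1 p.2 + κ * ((Ng_290.sN cT N) ^ 2)⁻¹ * (2 * c.f p.1)) ∂V := by
  unfold Ng_290.tN
  congr 2
  funext p
  ring

theorem tN_nonneg (h : Ok c K D) (hV : On V m K)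
    (htau : ∀ p ∈ K ×ˢ G m k, 0 ≤ c.tau p.1 p.2) {cT N κ : ℝ} (hN : 0 ≤ N) (hκ : 0 ≤ κ) :
    0 ≤ Ng_290.tN c V cT N κ := by
  have hs := sN_pos (cT := cT) hN
  rw [tN_eq]
  refine mul_nonneg (by positivity) ?_
  refine integral_nonneg_of_ae ?_
  filter_upwards [ae_restrict_of_ae hV.mem] with p hp
  have h3 := htau p hp
  have h4 := f_nonneg h hp.1
  show 0 ≤ c.tau p.1 p.2 + κ * ((Ng_290.sN cT N) ^ 2)⁻¹ * (2 * c.f p.1)
  positivity

theorem tN_mul_le (h : Ok c K D) (hV : On V m K)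
    (htau : ∀ p ∈ K ×ˢ G m k, 0 ≤ c.tau p.1 p.2) {cT N κ Ca : ℝ} (hN : 0 ≤ N) (hκ : 0 ≤ κ)
    (hCa : 1 ≤ Ca) : Ng_290.tN c V cT N (Ca * κ) ≤ Ca * Ng_290.tN c V cT N κ := by
  have hs := sN_pos (cT := cT) hN
  rw [tN_eq, tN_eq, mul_left_comm Ca]
  refine mul_le_mul_of_nonneg_left ?_ (pow_nonneg (inv_nonneg.2 hs.le) m)
  rw [← integral_const_mul]
  refine integral_mono_ae (tN_int h hV _).integrableOn ((tN_int h hV _).integrableOn.const_mul _) ?_
  filter_upwards [ae_restrict_of_ae hV.mem] with p hp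
  have h3 := htau p hp
  have h4 := f_nonneg h hp.1
  have h5 : c.tau p.1 p.2 ≤ Ca * c.tau p.1 p.2 := le_mul_of_one_le_left h3 hCa
  calc c.tau p.1 p.2 + Ca * κ * ((Ng_290.sN cT N) ^ 2)⁻¹ * (2 * c.f p.1) ≤
        Ca * c.tau p.1 p.2 + Ca * κ * ((Ng_290.sN cT N) ^ 2)⁻¹ * (2 * c.f p.1) := by gcongr
    _ = _ := by ring

/-- the `sig` bound -/
theorem sig_le {m : ℕ} (hm : 1 ≤ m) {Ca t t' : ℝ} (hCa : 1 ≤ Ca) (ht' : 0 ≤ t')
    (htt : t' ≤ Ca * t) : t' * t' ^ (1 / (m : ℝ)) ≤ Ca ^ 2 * (t * t ^ (1 / (m : ℝ))) := by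
  have hm0 : (1:ℝ) ≤ m := by exact_mod_cast hm
  have hCa0 : 0 < Ca := by linarith
  have ht : 0 ≤ t := by
    by_contra hcon
    push Not at hcon
    have := mul_neg_of_pos_of_neg hCa0 hcon
    linarith
  have h1 : t' ^ (1 / (m : ℝ)) ≤ Ca * t ^ (1 / (m : ℝ)) := by
    calc t' ^ (1 / (m : ℝ)) ≤ (Ca * t) ^ (1 / (m : ℝ)) := by
          apply Real.rpow_le_rpow ht' htt; positivity
      _ = Ca ^ (1 / (m : ℝ)) * t ^ (1 / (m : ℝ)) := Real.mul_rpow hCa0.le ht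
      _ ≤ Ca * t ^ (1 / (m : ℝ)) := by
          apply mul_le_mul_of_nonneg_right _ (Real.rpow_nonneg ht _)
          calc Ca ^ (1 / (m : ℝ)) ≤ Ca ^ (1:ℝ) := by
                apply Real.rpow_le_rpow_of_exponent_le hCa
                rw [div_le_one (by linarith)]; exact hm0
            _ = Ca := Real.rpow_one _
  calc t' * t' ^ (1 / (m : ℝ)) ≤ (Ca * t) * (Ca * t ^ (1 / (m : ℝ))) :=
        mul_le_mul htt h1 (Real.rpow_nonneg ht' _) (by positivity)
    _ = _ := by ring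

end tv


/-! ### the scale of the total variation -/

theorem eN4 : Ng_290.eN 4 = 1 / 16 := by unfold Ng_290.eN; norm_num

/-- `(1 + 1/16) s = e^{cTop - 3/16}` -/
theorem sN4_mul (r : ℝ) : (1 + 1 / 16) * Ng_290.sN (cTop r) 4 = Real.exp (cTop r - 3 / 16) := by
  unfold Ng_290.sN
  rw [eN4]
  have e : (3 : ℝ) / (4 * 4) = 3 / 16 := by norm_num
  rw [e]
  field_simp

theorem exp_sixteenth : Real.exp (1 / 16) ≤ 17 / 16 + 1 / 16 := by
  have h1 : Real.exp (1 / 16) ^ 16 = Real.exp 1 := by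
    rw [← Real.exp_nat_mul]; norm_num
  have h3 := Real.exp_one_lt_d9
  by_contra hcon
  push Not at hcon
  have h4 : (17 / 16 + 1 / 16 : ℝ) ^ 16 < Real.exp (1 / 16) ^ 16 :=
    pow_lt_pow_left₀ hcon (by norm_num) (by norm_num)
  rw [h1] at h4
  norm_num at h4
  linarith

theorem exp_cT3 {r : ℝ} (hr : 0 < r) :
    Real.exp (cTop r - 3 / 16) = 2 * r * Real.exp (1 / 16) := by
  unfold cTop
  have e : Real.log r + Real.log 2 + 1 / 4 - 3 / 16 = Real.log r + Real.log 2 + 1 / 16 := by ring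
  rw [e, Real.exp_add, Real.exp_add, Real.exp_log hr, Real.exp_log (by norm_num)]
  ring

theorem exp_cT3_le {r : ℝ} (hr : 0 < r) : Real.exp (cTop r - 3 / 16) ≤ 9 / 4 * r := by
  rw [exp_cT3 hr]
  have := exp_sixteenth
  nlinarith

theorem sN4_ge {r : ℝ} (hr : 0 < r) : 2 * r ≤ Ng_290.sN (cTop r) 4 := by
  have h1 := sN4_mul r
  rw [exp_cT3 hr] at h1
  have h2 : (1:ℝ) + 1 / 16 ≤ Real.exp (1 / 16) := by
    have := Real.add_one_le_exp (1 / 16 : ℝ)
    linarith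
  have h3 : 2 * r * (1 + 1 / 16) ≤ 2 * r * Real.exp (1 / 16) := by gcongr
  linarith

theorem sN4_le {r : ℝ} (hr : 0 < r) : Ng_290.sN (cTop r) 4 ≤ 9 / 4 * r := by
  have h1 := sN4_mul r
  have h2 := exp_cT3_le hr
  have h3 := sN4_ge hr
  linarith

/-! ### density ratio and mass at a `Q`-point -/

theorem NearQ.mono' {V : Measure (Euc k × L k)} {Q : ℕ} {x : Euc k} {r ε ε' : ℝ} {P : L k}
    (h : NearQ m V Q x r ε P) (hr : 0 ≤ r) (he : ε ≤ ε') : NearQ m V Q x r ε' P :=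
  ⟨h.1, h.2.1.trans (by gcongr), h.2.2.trans (by gcongr)⟩

theorem exists_rat (hm : 1 ≤ m) {Q : ℕ} (hQ : 1 ≤ Q) {δ : ℝ} (hδ : 0 < δ) : ∃ ε₁ : ℝ, 0 < ε₁ ∧
    ∀ (U : Set (Euc k)) (D : VarifoldData m k), IsIntegralVarifoldIn U D → IsStationaryIn U D →
      ∀ (n K : ℕ) (x : Euc k) (r : ℝ) (π : Euc k →L[ℝ] Euc m) (ρ : Euc k →L[ℝ] Euc n)
        (u : Euc m → Euc n) (ε C : ℝ) (W : Euc m → Euc n) (κ : ℝ) (zh : Euc k),
        Qx U (VD D) Q K x r π ρ u ε C W κ zh → ε ≤ ε₁ → (Q : ℝ≥0∞) ≤ Th m (VD D) x →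
        rat m (VD D) zh (16 * r) ≤ ENNReal.ofReal (Q + δ) := by
  obtain ⟨ε₁, hε₁, H⟩ := QLeb_433.nearZ m k Q hm hQ 1 δ one_pos hδ
  refine ⟨ε₁, hε₁, ?_⟩
  intro U D hD hst n K x r π ρ u ε C W κ zh h hε hTh
  have hr := h.hr
  have h1 := H U h.opU D hD hst x r hr ((closedBall_subset_closedBall (by linarith)).trans h.cx.hU)
    hTh (hp π) (NearQ.mono' h.cx.ref.near (by positivity) hε) zh
    (closedBall_subset_closedBall (by linarith) h.mem) h.th (16 * r) (by linarith) le_rfl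
  have h2 := h1.2.2
  rwa [← ENNReal.ofReal_natCast, ← ENNReal.ofReal_add (Nat.cast_nonneg Q) hδ.le] at h2

variable {U : Set (Euc k)} {V : Measure (Euc k × L k)} {Q K : ℕ} {x : Euc k} {r : ℝ}
  {π : Euc k →L[ℝ] Euc m} {ρ : Euc k →L[ℝ] Euc n} {u : Euc m → Euc n} {ε C : ℝ}
  {W : Euc m → Euc n} {κ : ℝ} {zh : Euc k}

namespace Qx

variable (h : Qx U V Q K x r π ρ u ε C W κ zh)

include h

theorem nu_le_t {t : ℝ} (ht : r / 2 ≤ t) {z : Euc k} (hz : z ∈ Kz π ρ x r W zh (h0 m Q ε)) :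
    ‖(cz π ρ x r W zh).nu z‖ ≤ (8 * h0 m Q ε) * t := by
  have h1 := h.nu_le_Kz hz
  have h2 := h0_nonneg m Q ε
  calc ‖(cz π ρ x r W zh).nu z‖ ≤ 4 * h0 m Q ε * r := h1
    _ = 8 * h0 m Q ε * (r / 2) := by ring
    _ ≤ _ := by gcongr

theorem mass_pin (hrat : rat m V zh (16 * r) ≤ ENNReal.ofReal (Q + 1 / 8))
    (hsm : 16 * (Q + 1) * m * (κ + 8 * h0 m Q ε) ≤ 1) :
    |V.real (Wt (cz π ρ x r W zh) (Kz π ρ x r W zh (h0 m Q ε)) (Ng_290.sN (cTop r) 4 / 4) ×ˢ univ) -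
      Q * (ome m * (Ng_290.sN (cTop r) 4 / 4) ^ m)| ≤
      ome m * (Ng_290.sN (cTop r) 4 / 4) ^ m / 4 := by
  have hr := h.hr
  have h2 := h0_nonneg m Q ε
  have h3 := sN4_ge hr
  have h4 := sN4_le hr
  refine LowF14_471.Qx.mass_W h (δ := 1 / 8) (η := 8 * h0 m Q ε) (by norm_num) le_rfl (by positivity)
    hsm hrat subset_rfl ?_ (by linarith) (by linarith) fun z hz _ => h.nu_le_t (by linarith) hz
  have hK : MeasurableSet (Kz π ρ x r W zh (h0 m Q ε) ×ˢ (univ : Set (L k))) :=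
    (isCompact_Kz h.gr _).isClosed.measurableSet.prod MeasurableSet.univ
  filter_upwards [ae_restrict_mem hK] with p hp
  exact hp.1

theorem mass_up (hrat : rat m V zh (16 * r) ≤ ENNReal.ofReal (Q + 1 / 8))
    (hsm : κ + 8 * h0 m Q ε ≤ 1 / 2) :
    V.real (Wt (cz π ρ x r W zh) (Kz π ρ x r W zh (h0 m Q ε))
      ((1 + Ng_290.eN 4) * Ng_290.sN (cTop r) 4) ×ˢ univ) ≤
      ((Q + 1) * (ome m * 2 ^ m)) * Ng_290.sN (cTop r) 4 ^ m := by
  have hr := h.hr
  have hk := h.k0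
  have h2 := h0_nonneg m Q ε
  have h3 := sN4_ge hr
  have h4 := sN4_le hr
  have h5 := exp_cT3_le hr
  have h6 : (1 + Ng_290.eN 4) * Ng_290.sN (cTop r) 4 ≤ 9 / 4 * r := by
    rw [eN4, sN4_mul]; exact h5
  have h6' : 2 * r ≤ (1 + Ng_290.eN 4) * Ng_290.sN (cTop r) 4 := by
    rw [eN4]; linarith
  have h7 := LowF14_471.Qx.mass_W_le h (δ := 1 / 8) (η := 8 * h0 m Q ε) (by norm_num)
    (by positivity) hrat subset_rfl (t := (1 + Ng_290.eN 4) * Ng_290.sN (cTop r) 4) (by linarith)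
    (by nlinarith) fun z hz _ => h.nu_le_t (by linarith) hz
  refine h7.trans ?_
  have hs0 : 0 < Ng_290.sN (cTop r) 4 := by linarith
  have h8 : (1 + κ + 8 * h0 m Q ε) * ((1 + Ng_290.eN 4) * Ng_290.sN (cTop r) 4) ≤
      2 * Ng_290.sN (cTop r) 4 := by
    rw [eN4]
    nlinarith
  have h9 : 0 ≤ (1 + κ + 8 * h0 m Q ε) * ((1 + Ng_290.eN 4) * Ng_290.sN (cTop r) 4) := by
    have := Ng_290.eN_pos (N := 4) (by norm_num)
    positivity
  have h10 := pow_le_pow_left₀ h9 h8 m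
  have ho := ome_pos m
  calc (Q + 1 / 8) * (ome m * ((1 + κ + 8 * h0 m Q ε) *
        ((1 + Ng_290.eN 4) * Ng_290.sN (cTop r) 4)) ^ m) ≤
        (Q + 1) * (ome m * (2 * Ng_290.sN (cTop r) 4) ^ m) := by
        gcongr
        norm_num
    _ = _ := by rw [mul_pow]; ring

end Qx

end Crest.Agent.R234.Qp_534
end
end

-- ▼ part R234/Qp7_534

/-!
# Row 234, node QP-CH (helper534), part 7: `HtvP`, the total variation input of the `Q`-points
-/

set_option autoImplicit false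
set_option linter.unusedVariables false
set_option linter.unusedSectionVars false
set_option maxSynthPendingDepth 3

open MeasureTheory Filter Topology Set Metric
open scoped ENNReal NNReal ContDiff InnerProductSpace
open Crest.GeometryTopology.Submanifold Crest.Agent.R234.Vf_884
open Crest.Agent.R234.Main_456 Crest.Agent.R234.F11_435
open Crest.Agent.R234.Gi_456
open Crest.Agent.R234.AS_456 (hp vp)
open Crest.Agent.R234.GL_394 (Ch Ok On VK Pf pf_cubic KB TV)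
open Crest.Agent.R234.LowF14_471 (Wt)
open Crest.Agent.R234.GLK_128 (Hy kp Cn)

noncomputable section

namespace Crest.Agent.R234.Qp_534

variable {m n k : ℕ}

section kt
variable {π : Euc k →L[ℝ] Euc m} {ρ : Euc k →L[ℝ] Euc n} {x : Euc k} {r : ℝ} {w : Euc m → Euc n}
  {X0 : Euc m} {K : Set (Euc k)} {l K1 K2 K3 hb : ℝ}

theorem f_ch_nonneg (z : Euc k) : 0 ≤ (ch π ρ x r w X0).f z := by
  have := GLK_128.two_f (π := π) (ρ := ρ) (x := x) (r := r) (w := w) (X0 := X0) z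
  have := sq_nonneg ‖(ch π ρ x r w X0).nu z‖
  linarith

/-- 618's `KT` from 128's hypotheses -/
theorem kt_of (h : Hy π ρ x r w X0 K l K1 K2 K3 hb) {s R κ' : ℝ} (hs : 0 < s)
    (h1 : s ≤ Real.exp l) (h2 : Real.exp l ≤ 2 * s) (hb2 : 2 * hb ≤ 1) (hR : R ≤ Real.exp l)
    (hk : kp m n K1 K2 K3 hb l ≤ κ') : Tv_618.KT (ch π ρ x r w X0) K s R (Cn m) κ' where
  jb := fun v hv => (h.jb (hv.le.trans hR)).trans hk
  lb := fun v hv => by
    have h3 := h.lb (hv.le.trans hR)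
    have h4 : s * ‖lamB w X0 v‖ ≤ Real.exp l * ‖lamB w X0 v‖ := by gcongr
    exact (h4.trans h3).trans hk
  t0 := fun p hp _ => ⟨h.tau_nonneg hp, h.tau_le hp⟩
  q1 := fun z hz hz2 => h.q1 hs h2 hb2 hz (hz2.le.trans hR)
  an := fun p hp hp2 => by
    refine (h.an hs h1 hp (hp2.le.trans hR)).trans ?_
    have hC : 0 ≤ Cn m := by
      unfold Cn
      have := GLK_128.Cj_nonneg m
      positivity
    have hf := f_ch_nonneg (π := π) (ρ := ρ) (x := x) (r := r) (w := w) (X0 := X0) p.1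
    gcongr
  hT := fun p hp hp2 => by
    refine (h.hT hs h1 hp (hp2.le.trans hR)).trans ?_
    have hC : 0 ≤ Cn m := by
      unfold Cn
      have := GLK_128.Cj_nonneg m
      positivity
    have hf := f_ch_nonneg (π := π) (ρ := ρ) (x := x) (r := r) (w := w) (X0 := X0) p.1
    gcongr
  k3 := fun p hp hp2 v => by
    refine (h.kk3 hs h1 hp (hp2.le.trans hR) v).trans ?_
    have hf := f_ch_nonneg (π := π) (ρ := ρ) (x := x) (r := r) (w := w) (X0 := X0) p.1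
    have ht := h.tau_nonneg hp
    gcongr

end kt

/-- ratio of the `κ`s -/
def Ca (m n : ℕ) : ℝ := 24 * GLK_128.Ct m n + 1

theorem Ca_ge (m n : ℕ) : 1 ≤ Ca m n := by
  have := GLK_128.Ct_pos m n
  unfold Ca
  linarith

variable {U : Set (Euc k)} {V : Measure (Euc k × L k)} {Q K : ℕ} {x : Euc k} {r : ℝ}
  {π : Euc k →L[ℝ] Euc m} {ρ : Euc k →L[ℝ] Euc n} {u : Euc m → Euc n} {ε C : ℝ}
  {W : Euc m → Euc n} {κ : ℝ} {zh : Euc k}

namespace Qx

variable (h : Qx U V Q K x r π ρ u ε C W κ zh)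

include h

/-- **`KT` at a `Q`-point**, scale `s = sN (cTop r) 4`, collar `1/16` -/
theorem kt (hsm : 8 * h0 m Q ε ≤ 1 / 2) :
    Tv_618.KT (cz π ρ x r W zh) (Kz π ρ x r W zh (h0 m Q ε)) (Ng_290.sN (cTop r) 4)
      ((1 + Ng_290.eN 4) * Ng_290.sN (cTop r) 4) (Cn m) (Ca m n * κ) := by
  have hr := h.hr
  have hk := h.k0
  have h2 := h0_nonneg m Q ε
  have h3 := sN4_ge hr
  have h5 := exp_cT3_le hr
  have h6 := sN4_mul r
  set l : ℝ := cTop r - 3 / 16 with hl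
  have h7 : 2 * r ≤ Real.exp l := by rw [← h6]; linarith
  have hy : Hy π ρ zh r (wz π x zh r W) 0 (Kz π ρ x r W zh (h0 m Q ε)) l κ (κ / r) (κ / r ^ 2)
      (8 * h0 m Q ε) :=
    h.hy (by linarith) (fun p hp => (h.Kz_spec h.hs hp).1) (by positivity) (by linarith)
      fun z hz _ => h.nu_le_t (by linarith) hz
  refine kt_of hy (by linarith) (by rw [← h6]; linarith) (by rw [← h6]; linarith) (by linarith)
    (by rw [eN4, h6]) ?_
  refine hy.kp_le.trans ?_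
  have h8 : κ / r * Real.exp l ≤ 9 / 4 * κ := by
    calc κ / r * Real.exp l ≤ κ / r * (9 / 4 * r) := by gcongr
      _ = _ := by field_simp
  have h9 : κ / r ^ 2 * Real.exp (2 * l) ≤ 81 / 16 * κ := by
    have e : Real.exp (2 * l) = Real.exp l ^ 2 := by
      rw [← Real.exp_nat_mul]; norm_num
    rw [e]
    calc κ / r ^ 2 * Real.exp l ^ 2 ≤ κ / r ^ 2 * (9 / 4 * r) ^ 2 := by gcongr
      _ = _ := by field_simp; ring
  have h10 := GLK_128.Ct_pos m n
  have h11 : κ / r * Real.exp l + κ / r ^ 2 * Real.exp (2 * l) ≤ 8 * κ := by linarith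
  calc 3 * GLK_128.Ct m n * (κ / r * Real.exp l + κ / r ^ 2 * Real.exp (2 * l)) ≤
        3 * GLK_128.Ct m n * (8 * κ) := by gcongr
    _ ≤ Ca m n * κ := by unfold Ca; nlinarith

end Qx

section ttot
variable {c : Ch m k} {S : Set (Euc k)} {D' : Set (Euc m)} {V' : Measure (Euc k × L k)}

theorem ttot_nonneg (h : Ok c S D') (hV : On (VK V' S) m S)
    (htau : ∀ p ∈ S ×ˢ G m k, 0 ≤ c.tau p.1 p.2) {κ s R : ℝ} (hκ : 0 ≤ κ) (hs : 0 < s) :
    0 ≤ Tv_618.ttot c V' S κ s R := by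
  unfold Tv_618.ttot
  refine mul_nonneg (by positivity) ?_
  refine integral_nonneg_of_ae ?_
  have h1 : ∀ᵐ p ∂(V'.restrict (Tv_618.Wr c S (R * s) ×ˢ univ)), p ∈ S ×ˢ G m k :=
    ae_mono (Measure.restrict_mono (prod_mono_left fun z hz => hz.1) le_rfl) hV.mem
  filter_upwards [h1] with p hp
  have h3 := htau p hp
  have h4 := f_nonneg h hp.1
  show 0 ≤ c.tau p.1 p.2 + κ * (2 * c.f p.1 / s ^ 2)
  positivity

theorem ttot_le_tN (h : Ok c S D') (hV : On (VK V' S) m S)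
    (htau : ∀ p ∈ S ×ˢ G m k, 0 ≤ c.tau p.1 p.2) {κ cT N R : ℝ} (hκ : 0 ≤ κ) (hN : 0 ≤ N)
    (hR : R * Ng_290.sN cT N ≤ Real.exp (cT - 3 / (4 * N))) :
    Tv_618.ttot c V' S κ (Ng_290.sN cT N) R ≤ Ng_290.tN c (VK V' S) cT N κ := by
  have hs := sN_pos (cT := cT) hN
  have hS : MeasurableSet (S ×ˢ (univ : Set (L k))) :=
    h.cpt.isClosed.measurableSet.prod MeasurableSet.univ
  have hint : Integrable (fun p : Euc k × L k => c.tau p.1 p.2 +
      κ * (2 * c.f p.1 / (Ng_290.sN cT N) ^ 2)) (VK V' S) := by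
    refine (tN_int h hV (κ * ((Ng_290.sN cT N) ^ 2)⁻¹)).congr (Eventually.of_forall fun p => ?_)
    show c.tau p.1 p.2 + κ * ((Ng_290.sN cT N) ^ 2)⁻¹ * (2 * c.f p.1) =
      c.tau p.1 p.2 + κ * (2 * c.f p.1 / (Ng_290.sN cT N) ^ 2)
    ring
  unfold Tv_618.ttot Ng_290.tN
  rw [inv_pow]
  refine mul_le_mul_of_nonneg_left ?_ (by positivity)
  unfold VK at hint ⊢
  rw [Measure.restrict_restrict' hS]
  refine setIntegral_mono_set ?_ ?_ (HasSubset.Subset.eventuallyLE ?_)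
  · exact IntegrableOn.mono_set hint inter_subset_right
  · have h1 : ∀ᵐ p ∂(V'.restrict (Ng_290.Sr c (Real.exp (cT - 3 / (4 * N))) ∩ S ×ˢ univ)),
        p ∈ S ×ˢ G m k := ae_mono (Measure.restrict_mono inter_subset_right le_rfl) hV.mem
    filter_upwards [h1] with p hp
    have h3 := htau p hp
    have h4 := f_nonneg h hp.1
    show 0 ≤ c.tau p.1 p.2 + κ * (2 * c.f p.1 / (Ng_290.sN cT N) ^ 2)
    positivity
  · rintro p ⟨⟨hp1, hp2⟩, -⟩
    exact ⟨hp2.le.trans hR, hp1, mem_univ _⟩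

end ttot

/-- **618's total variation at all `Q`-points**: 3's literal `HtvP`. -/
theorem htvP (hm : 1 ≤ m) (hK : 3 ≤ K) : Pin11_3.HtvP m n K := by
  intro Q C hQ
  have hCn : 0 ≤ Cn m := by
    unfold Cn
    have := GLK_128.Cj_nonneg m
    positivity
  have ho := ome_pos m
  obtain ⟨κ₀, hκ₀, C1, hC1, Ct, hCt, H⟩ := Tv_618.tv_gl (m := m) (by omega) Q hCn
    (Λ := (Q + 1) * (ome m * 2 ^ m)) (by positivity)
  obtain ⟨ε₂, hε₂, hrat⟩ := exists_rat (k := m + n) hm (Q := Q) (by omega)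
    (δ := 1 / 8) (by norm_num)
  have hCa1 := Ca_ge m n
  have hCa0 : 0 < Ca m n := by linarith
  refine ⟨max (C1 * Ca m n) (Ct * Ca m n ^ 2), le_max_of_le_left (by positivity), ?_⟩
  intro B hB
  have hB0 : 0 < B := by linarith
  have hhc := Pd_435.Cx.hc_pos m Q
  have hm0 : (1:ℝ) ≤ m := by exact_mod_cast hm
  -- smallness
  set a0 : ℝ := 1 / (32 * (Q + 1) * m) with ha0
  have ha0p : 0 < a0 := by rw [ha0]; positivity
  refine ⟨min ε₂ (min (κ₀ / (Ca m n * B)) (min (a0 / B) ((a0 / 8) ^ 2 / Pd_435.Cx.hc m Q))), ?_, ?_⟩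
  · refine lt_min hε₂ (lt_min (by positivity) (lt_min (by positivity) (by positivity)))
  intro ε hε hεε U D x r π ρ u W κ zh hS
  have g1 : ε ≤ ε₂ := hεε.trans (by simp)
  have g2 : ε ≤ κ₀ / (Ca m n * B) := hεε.trans (by simp)
  have g3 : ε ≤ a0 / B := hεε.trans (by simp)
  have g4 : ε ≤ (a0 / 8) ^ 2 / Pd_435.Cx.hc m Q := hεε.trans (by simp)
  have h := hS.qx
  have hr := h.hr
  have hk := h.k0
  have hκB : κ ≤ B * ε := hS.κB
  have k1 : Ca m n * κ ≤ κ₀ := by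
    rw [le_div_iff₀ (by positivity)] at g2
    calc Ca m n * κ ≤ Ca m n * (B * ε) := by gcongr
      _ = ε * (Ca m n * B) := by ring
      _ ≤ _ := g2
  have k2 : κ ≤ a0 := by
    rw [le_div_iff₀ hB0] at g3
    linarith
  have k3 : 8 * h0 m Q ε ≤ a0 := by
    rw [le_div_iff₀ hhc] at g4
    have : h0 m Q ε ≤ a0 / 8 := by
      unfold h0
      rw [Real.sqrt_le_left (by positivity)]
      linarith
    linarith
  have hQ0 : (0:ℝ) ≤ Q := Nat.cast_nonneg Q
  have k4 : 16 * (Q + 1) * m * (κ + 8 * h0 m Q ε) ≤ 1 := by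
    have e1 : 16 * (Q + 1) * m * (κ + 8 * h0 m Q ε) ≤ 16 * (Q + 1) * m * (a0 + a0) := by
      gcongr
    have e2 : 16 * (Q + 1) * m * (a0 + a0) = 1 := by
      rw [ha0]; field_simp; norm_num
    linarith
  have k5 : a0 ≤ 1 / 32 := by
    rw [ha0]
    apply one_div_le_one_div_of_le (by norm_num)
    nlinarith [mul_nonneg hQ0 (by linarith : (0:ℝ) ≤ m)]
  have hra := hrat U D hS.int hS.st n K x r π ρ u ε C W κ zh h g1 (le_of_eq hS.th.symm)
  have hs2 := sN4_ge hr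
  have hs0 : 0 < Ng_290.sN (cTop r) 4 := by linarith
  have hexp : (1 + Ng_290.eN 4) * Ng_290.sN (cTop r) 4 = Real.exp (cTop r - 3 / 16) := by
    rw [eN4]; exact sN4_mul r
  have hvol : ∀ a : ℝ, 0 < a → volume.real (ball (0 : Euc m) a) = ome m * a ^ m :=
    fun a ha => Th_164.vol_ball _ ha
  obtain ⟨e, he, -⟩ := H (Ng_290.eN 4) (Ng_290.eN_pos (by norm_num)) (by rw [eN4]; norm_num)
    (Ca m n * κ) (by positivity) k1 (Lv := Real.log (4 * r)) hs0 hS.int h.reg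
    (h.loc (by rw [Real.exp_log (by positivity)]; linarith))
    (by
      rw [hexp, Real.exp_log (by positivity)]
      have := exp_cT3_le hr
      linarith) (subset_univ _) (h.kt (by linarith)) (h.mass_up hra (by linarith))
    (by
      have := h.mass_pin hra k4
      have e1 : 1 / 4 * Ng_290.sN (cTop r) 4 = Ng_290.sN (cTop r) 4 / 4 := by ring
      rw [e1, hvol _ (by positivity)]
      refine this.trans (le_of_eq (by ring)))
  have hok := h.ok
  have hon : On (Vz (VD D) π ρ x r W zh (h0 m Q ε)) m (Kz π ρ x r W zh (h0 m Q ε)) := h.on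
  have htau : ∀ p ∈ Kz π ρ x r W zh (h0 m Q ε) ×ˢ G m (m + n),
    0 ≤ (cz π ρ x r W zh).tau p.1 p.2 := fun p hp => h.tau_nonneg hp
  have he0 : 0 < Ng_290.eN 4 := Ng_290.eN_pos (by norm_num)
  set t' := Tv_618.ttot (cz π ρ x r W zh) (VD D) (Kz π ρ x r W zh (h0 m Q ε)) (Ca m n * κ)
    (Ng_290.sN (cTop r) 4) (1 + Ng_290.eN 4) with ht'
  have hκ' : 0 ≤ Ca m n * κ := by positivity
  have ht0 : 0 ≤ t' := ttot_nonneg hok hon htau hκ' hs0
  have ht1 : t' ≤ Ca m n * Ng_290.tN (cz π ρ x r W zh) (Vz (VD D) π ρ x r W zh (h0 m Q ε))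
      (cTop r) 4 κ := by
    refine le_trans ?_ (tN_mul_le hok hon htau (by norm_num) hk hCa1)
    exact ttot_le_tN hok hon htau hκ' (by norm_num) (by
      rw [hexp]
      apply Real.exp_le_exp.2
      linarith)
  have hsig := sig_le hm hCa1 ht0 ht1
  refine ⟨e, Ct * (Ng_290.sN (cTop r) 4 ^ (m + 1) * (t' * t' ^ (1 / (m : ℝ)))) /
      Ng_290.eN 4 ^ (2 * m + 2), ?_, ?_, ?_⟩
  rotate_left
  · have := Real.rpow_nonneg ht0 (1 / (m : ℝ))
    positivity
  · have h1 : Ct * (Ng_290.sN (cTop r) 4 ^ (m + 1) * (t' * t' ^ (1 / (m : ℝ)))) /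
        Ng_290.eN 4 ^ (2 * m + 2) ≤ Ct * (Ng_290.sN (cTop r) 4 ^ (m + 1) * (Ca m n ^ 2 *
        (Ng_290.tN (cz π ρ x r W zh) (Vz (VD D) π ρ x r W zh (h0 m Q ε)) (cTop r) 4 κ *
          Ng_290.tN (cz π ρ x r W zh) (Vz (VD D) π ρ x r W zh (h0 m Q ε)) (cTop r) 4 κ ^
            (1 / (m : ℝ))))) / Ng_290.eN 4 ^ (2 * m + 2) := by
      gcongr
    refine h1.trans ?_
    have hN0 : 0 ≤ Ng_290.tN (cz π ρ x r W zh) (Vz (VD D) π ρ x r W zh (h0 m Q ε)) (cTop r) 4 κ :=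
      tN_nonneg hok hon htau (by norm_num) hk
    have hN1 := Real.rpow_nonneg hN0 (1 / (m : ℝ))
    have h2 : Ct * Ca m n ^ 2 ≤ max (C1 * Ca m n) (Ct * Ca m n ^ 2) := le_max_right _ _
    calc _ = (Ct * Ca m n ^ 2) * ((Ng_290.eN 4)⁻¹) ^ (2 * m + 2) *
          (Ng_290.sN (cTop r) 4) ^ (m + 1) *
          (Ng_290.tN (cz π ρ x r W zh) (Vz (VD D) π ρ x r W zh (h0 m Q ε)) (cTop r) 4 κ *
            Ng_290.tN (cz π ρ x r W zh) (Vz (VD D) π ρ x r W zh (h0 m Q ε)) (cTop r) 4 κ ^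
              (1 / (m : ℝ))) := by
          rw [inv_pow]; field_simp
      _ ≤ _ := by gcongr
  · have he' : TV (cz π ρ x r W zh) (Vz (VD D) π ρ x r W zh (h0 m Q ε)) Q
        ((1 + Ng_290.eN 4 / 2) * Ng_290.sN (cTop r) 4) C1
        (Ca m n * (κ / (Ng_290.sN (cTop r) 4) ^ 2))
        (Ct * (Ng_290.sN (cTop r) 4 ^ (m + 1) * (t' * t' ^ (1 / (m : ℝ)))) /
          Ng_290.eN 4 ^ (2 * m + 2)) e := by
      have e1 : Ca m n * (κ / (Ng_290.sN (cTop r) 4) ^ 2) =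
        Ca m n * κ / (Ng_290.sN (cTop r) 4) ^ 2 := by ring
      rw [e1]
      exact he
    have hkq : 0 ≤ κ / (Ng_290.sN (cTop r) 4) ^ 2 := by positivity
    exact TV.mono_C hok hon htau (le_max_left _ _) hkq (tv_mono hok hon htau hCa1 hC1 hkq he')

end Crest.Agent.R234.Qp_534
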