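import Crest.Agent.R234.Skel_884
import Crest.Agent.R234.Pin8_3
import Crest.Agent.R234.Pin11_3
import Crest.Agent.R234.Pd9_435
import Crest.Agent.R234.Pd11_435
import Crest.Agent.R234.LowF14_471
import Crest.Agent.R234.Qp4_534
import Crest.Agent.R234.QLeb4_433
import Crest.Agent.R234.Tv10_618
import Crest.Agent.R234.GLK9_128
import Crest.Agent.R234.Qp7_534

-- ▼ part R234/Main6_456
section

/-!
# Row 234, VF-MAIN (helper456), version 6

S0362 and S0363 from: `DblE` (the doubling node for all large `K`), `QLeb`, `CtrE` (per-centre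
input of the pinching node, all large `K`).
-/

set_option autoImplicit false

open MeasureTheory Crest.GeometryTopology.Submanifold
open scoped ENNReal

noncomputable section

namespace Crest.Agent.R234.Main_456

open Crest.Agent.R234

/-- the doubling node for all large `K` (188, 518) -/
def DblE : Prop := ∀ m n : ℕ, 3 ≤ m → 1 ≤ n → ∃ K₀ : ℕ, ∀ K : ℕ, K₀ ≤ K → Pin7_3.DblK m n K

/-- the per-centre input of the pinching node (435, 534) -/
def CtrE : Prop := ∀ m n : ℕ, 3 ≤ m → 1 ≤ n → ∃ K₁ : ℕ, ∀ K : ℕ, K₁ ≤ K → Pin8_3.CtrK m n K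

theorem noSel6 (hD : DblE) (hQL : QLeb) (hC : CtrE) : NoSel :=
  Pin7_3.noSel_of_pinData hD (Pin8_3.pinData_of hQL hC)

/-- **S0362, version 6** -/
theorem s0362_6 (hD : DblE) (hQL : QLeb) (hC : CtrE)
    (m n : ℕ) (hm : 1 ≤ m) (hn : 1 ≤ n) (U : Set (EuclideanSpace ℝ (Fin (m + n))))
    (hU : IsOpen U) (D : VarifoldData m (m + n)) (hDi : IsIntegralVarifoldIn U D)
    (hstat : IsStationaryIn U D) :
    dimH (singularSet m (m + n) U D) ≤ (m : ENNReal) - 1 :=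
  main Pr_937.prodStep (Fa_694.fa Skel_884.hInt Skel_884.hOne) (noSel6 hD hQL hC)
    m n hm hn U hU D hDi hstat

/-- **S0363, version 6** -/
theorem s0363_6 (hD : DblE) (hQL : QLeb) (hC : CtrE)
    (m n : ℕ) (hm : 1 ≤ m) (hn : 1 ≤ n) (R : ℝ) (hR : 0 < R)
    (D : VarifoldData m (m + n + 1)) (hDi : IsIntegralVarifoldIn Set.univ D)
    (hsph : ∀ i, D.chart i '' D.dom i ⊆ Metric.sphere (0 : EuclideanSpace ℝ (Fin (m + n + 1))) R)
    (hstat : ∀ X : EuclideanSpace ℝ (Fin (m + n + 1)) → EuclideanSpace ℝ (Fin (m + n + 1)),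
      ContDiff ℝ 1 X → HasCompactSupport X →
      (∀ x ∈ Metric.sphere (0 : EuclideanSpace ℝ (Fin (m + n + 1))) R, inner ℝ (X x) x = 0) →
      firstVariation D X = 0) :
    μH[(m : ℝ)] (singularSet m (m + n + 1) Set.univ D) = 0 :=
  Co7_696.s0363_of (fun m n hm hn U hU D hD' hs => s0362_6 hD hQL hC m n hm hn U hU D hD' hs)
    m n hm hn R hR D hDi hsph hstat

end Crest.Agent.R234.Main_456
end
end

-- ▼ part R234/Pin12_3
section

/-!
R234 (helper3), VF-PIN part 12: `CtrE` (the per-centre input of the pinching node, all large `K`)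
from the five one-level Props `HtvP`, `SgP`, `F4P`, `TopP`, `UljP`; final form of S0362 / S0363.
-/

open MeasureTheory Set Metric Crest.GeometryTopology.Submanifold
open scoped RealInnerProductSpace ENNReal

namespace Crest.Agent.R234.Pin12_3

open Crest.Agent.R234.Pin8_3 Crest.Agent.R234.Pin10_3 Crest.Agent.R234.Pin11_3
open Crest.Agent.R234.Main_456

/-- for all large `K`. -/
def EvK (P : ℕ → Prop) : Prop := ∃ K₁ : ℕ, ∀ K : ℕ, K₁ ≤ K → P K

theorem EvK.and {P R : ℕ → Prop} (h : EvK P) (h' : EvK R) : EvK fun K => P K ∧ R K := by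
  obtain ⟨K₁, h⟩ := h
  obtain ⟨K₂, h'⟩ := h'
  exact ⟨max K₁ K₂, fun K hK => ⟨h K ((le_max_left _ _).trans hK), h' K ((le_max_right _ _).trans hK)⟩⟩

theorem EvK.mono {P R : ℕ → Prop} (h : EvK P) (hPR : ∀ K, P K → R K) : EvK R := by
  obtain ⟨K₁, h⟩ := h
  exact ⟨K₁, fun K hK => hPR K (h K hK)⟩

theorem EvK.of_forall {P : ℕ → Prop} (h : ∀ K, P K) : EvK P := ⟨0, fun K _ => h K⟩

theorem EvK.ge (K₀ : ℕ) : EvK fun K => K₀ ≤ K := ⟨K₀, fun _ hK => hK⟩

/-- **`CtrE` from the five one-level inputs.** -/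
theorem ctrE_of
    (hHtv : ∀ m n : ℕ, 3 ≤ m → 1 ≤ n → EvK (HtvP m n))
    (hSg : ∀ m n : ℕ, 3 ≤ m → 1 ≤ n → EvK (SgP m n))
    (hF4 : ∀ m n : ℕ, 3 ≤ m → 1 ≤ n → EvK (F4P m n))
    (hTop : ∀ m n : ℕ, 3 ≤ m → 1 ≤ n → EvK (TopP m n))
    (hUlj : ∀ m n : ℕ, 3 ≤ m → 1 ≤ n → EvK (UljP m n)) : CtrE := by
  intro m n hm hn
  refine EvK.mono ((((((EvK.ge 3).and (hHtv m n hm hn)).and (hSg m n hm hn)).and
    (hF4 m n hm hn)).and (hTop m n hm hn)).and (hUlj m n hm hn)) ?_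
  rintro K ⟨⟨⟨⟨⟨hK, h1⟩, h2⟩, h3⟩, h4⟩, h5⟩
  exact ctrK_of (by omega) hK (inpP_of h1 h2 h3 h4) h5

end Crest.Agent.R234.Pin12_3
end

-- ▼ part R234/Pd10_435
section

/-!
# Row 234, VF-F11 (helper435): V-level instance of `Pin3_3.Data`, part 10: the fields `up, lo, J, sep`
of `Pin8_3.CtrData` from the frequency data of 534's chart at a `Q`-point.
-/

set_option autoImplicit false
set_option linter.unusedVariables false
set_option linter.unusedSectionVars false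

open MeasureTheory Filter Topology Set Metric
open scoped ENNReal NNReal ContDiff InnerProductSpace
open Crest.GeometryTopology.Submanifold Crest.Agent.R234.Vf_884
open Crest.Agent.R234.Main_456 Crest.Agent.R234.F11_435
open Crest.Agent.R234.Gi_456
open Crest.Agent.R234.Cy_870 (Prof)
open Crest.Agent.R234.Pin3_3 (BB HH)
open Crest.Agent.R234.Pin1_3 (FD NN)
open Crest.Agent.R234.GL_394 (VK On II ee EE bb RR RF RT Ph OO qq Pf KB)
open Crest.Agent.R234.Qp_534 (Qx wz cz Tz h0)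

noncomputable section

namespace Crest.Agent.R234.Pd_435

local notation "adj" => ContinuousLinearMap.adjoint

/-- comparison of the two quadratic forms -/
theorem form_le {RR Ph I RF e α c0 τ : ℝ} (hI : 0 ≤ I) (hRF : 0 ≤ RF) (hRR : 0 ≤ RR)
    (h1 : (√RR - c0 * √I) ^ 2 ≤ RF) (h2 : |Ph - e| ≤ τ * I) (h4 : |Ph| ≤ √(I * RF) + c0 * I)
    (hc0 : 0 ≤ c0) (hc1 : c0 ≤ 1) (hα : 0 ≤ α) :
    RR - 2 * α * Ph + α ^ 2 * I ≤ (1 + 2 * c0) * (RF - 2 * α * e + α ^ 2 * I) +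
      (c0 * (4 * α ^ 2 + 4 * α * (c0 + τ)) + 2 * c0 + 2 * α * τ) * I ∧
    -(2 * α * (c0 + τ) * I) ≤ RF - 2 * α * e + α ^ 2 * I := by
  have hs : √(I * RF) = √I * √RF := Real.sqrt_mul hI _
  have hI2 := Real.sq_sqrt hI
  have hRF2 := Real.sq_sqrt hRF
  have hRR2 := Real.sq_sqrt hRR
  have hIs := Real.sqrt_nonneg I
  have hRFs := Real.sqrt_nonneg RF
  have hRRs := Real.sqrt_nonneg RR
  set a := √I with ha
  set b := √RF with hb
  set c := √RR with hc
  have e1 : c ≤ b + c0 * a := by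
    have : c - c0 * a ≤ b := Real.le_sqrt_of_sq_le h1
    linarith
  have e2 : RR ≤ RF + 2 * c0 * (a * b) + c0 ^ 2 * I := by
    rw [← hRR2, ← hRF2, ← hI2]
    have := pow_le_pow_left₀ hRRs e1 2
    calc c ^ 2 ≤ (b + c0 * a) ^ 2 := this
      _ = _ := by ring
  have e3 : 2 * (a * b) ≤ I + RF := by
    rw [← hI2, ← hRF2]
    linarith [sq_nonneg (a - b)]
  have e4 : RR ≤ (1 + c0) * RF + (c0 + c0 ^ 2) * I := by
    have := mul_le_mul_of_nonneg_left e3 hc0
    linarith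
  -- e ≤ a b + (c0 + τ) I
  have e5 : e ≤ a * b + (c0 + τ) * I := by
    have h5 := (abs_le.1 h2).1
    have h6 := (abs_le.1 h4).2
    rw [hs] at h6
    linarith
  have e6 : 2 * α * (a * b) ≤ RF / 2 + 2 * α ^ 2 * I := by
    rw [← hI2, ← hRF2]
    linarith [sq_nonneg (2 * α * a - b)]
  have e7 : 2 * α * e ≤ 2 * α * (a * b) + 2 * α * (c0 + τ) * I := by
    have := mul_le_mul_of_nonneg_left e5 (by positivity : 0 ≤ 2 * α)
    linarith
  have e8 : RF ≤ 2 * (RF - 2 * α * e + α ^ 2 * I) + (4 * α ^ 2 + 4 * α * (c0 + τ)) * I := by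
    have : 0 ≤ α ^ 2 * I := by positivity
    linarith
  have e9 : 2 * α * (e - Ph) ≤ 2 * α * (τ * I) := by
    have h5 := (abs_le.1 h2).1
    have h6 : e - Ph ≤ τ * I := by linarith
    exact mul_le_mul_of_nonneg_left h6 (by positivity)
  constructor
  · have h10 := mul_le_mul_of_nonneg_left e8 hc0
    have h11 : c0 ^ 2 * I ≤ c0 * I := by
      have : c0 ^ 2 ≤ c0 := by nlinarith
      gcongr
    linarith
  · have h10 : 2 * α * (a * b) ≤ RF + α ^ 2 * I := by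
      rw [← hI2, ← hRF2]
      linarith [sq_nonneg (α * a - b)]
    linarith

/-- smallness constant -/
def Msm (A C' Λe B : ℝ) : ℝ :=
  A * (30 * (16 * C' ^ 2 + 8 * C' * (1 + (B + Λe)) + 2 + 4 * C' * (B + Λe)) + 2880 * Λe +
    1440 * (5 + 20 * C' ^ 2)) + 4 * C' ^ 2 * (1 + (B + Λe))

theorem J_alg {A C' Λe B σ c0 d0 α I RR Ph RF e R' : ℝ} (hA : 0 ≤ A) (hAC : 90 * A ≤ C')
    (hC' : 1 ≤ C') (hΛe : 0 ≤ Λe) (hB : 0 ≤ B) (hσ0 : 0 ≤ σ) (hσ1 : σ ≤ 1) (hc0 : 0 ≤ c0)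
    (hc0σ : c0 ≤ σ) (hd0 : 0 ≤ d0) (hd0σ : d0 ≤ σ) (hα : 0 ≤ α) (hα2 : α ≤ 2 * C') (hI : 0 ≤ I)
    (hRF : 0 ≤ RF) (hRR : 0 ≤ RR) (h1 : (√RR - c0 * √I) ^ 2 ≤ RF) (he : e ≤ Λe * I)
    (h2 : |Ph - e| ≤ c0 * (B * I) + d0 * e) (h4 : |Ph| ≤ √(I * RF) + c0 * I) (hR : RF ≤ R') :
    A * (30 * (RR - 2 * α * Ph + α ^ 2 * I) + 2880 * σ ^ 2 * e +
      1440 * σ ^ 2 * (5 + 5 * α ^ 2) * I) ≤
      C' * (R' - 2 * α * e + α ^ 2 * I) + σ * Msm A C' Λe B * I := by
  obtain ⟨T, hT⟩ : ∃ T, T = B + Λe := ⟨_, rfl⟩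
  have hT0 : 0 ≤ T := by rw [hT]; positivity
  obtain ⟨τ, hτ⟩ : ∃ τ, τ = c0 * B + d0 * Λe := ⟨_, rfl⟩
  have hτ0 : 0 ≤ τ := by rw [hτ]; positivity
  have hτσ : τ ≤ σ * T := by
    rw [hτ, hT]
    have e1 := mul_le_mul_of_nonneg_right hc0σ hB
    have e2 := mul_le_mul_of_nonneg_right hd0σ hΛe
    linarith
  have h2' : |Ph - e| ≤ τ * I := by
    refine h2.trans ?_
    have e1 := mul_le_mul_of_nonneg_left he hd0
    rw [hτ]
    linarith
  obtain ⟨f1, f2⟩ := form_le (e := e) (α := α) hI hRF hRR h1 h2' h4 hc0 (hc0σ.trans hσ1) hα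
  obtain ⟨q, hq⟩ : ∃ q, q = RF - 2 * α * e + α ^ 2 * I := ⟨_, rfl⟩
  rw [← hq] at f1 f2
  have hcτ : c0 + τ ≤ σ * (1 + T) := by linarith
  have hcτ1 : c0 + τ ≤ 1 + T := by
    have : σ * (1 + T) ≤ 1 * (1 + T) := by gcongr
    linarith
  have hcτ0 : 0 ≤ c0 + τ := by positivity
  have hE : c0 * (4 * α ^ 2 + 4 * α * (c0 + τ)) + 2 * c0 + 2 * α * τ ≤
      σ * (16 * C' ^ 2 + 8 * C' * (1 + T) + 2 + 4 * C' * T) := by
    have e1 : 4 * α ^ 2 + 4 * α * (c0 + τ) ≤ 16 * C' ^ 2 + 8 * C' * (1 + T) := by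
      have e2 : α ^ 2 ≤ (2 * C') ^ 2 := pow_le_pow_left₀ hα hα2 2
      have e3 : α * (c0 + τ) ≤ 2 * C' * (1 + T) := by gcongr
      linarith
    have e4 : c0 * (4 * α ^ 2 + 4 * α * (c0 + τ)) ≤ σ * (16 * C' ^ 2 + 8 * C' * (1 + T)) := by
      gcongr
    have e5 : α * τ ≤ 2 * C' * (σ * T) := by gcongr
    linarith
  have hβ : A * (30 * ((1 + 2 * c0) * q)) ≤ C' * q + C' * (2 * (2 * C') * (σ * (1 + T)) * I) := by
    have e1 : 2 * α * (c0 + τ) * I ≤ 2 * (2 * C') * (σ * (1 + T)) * I := by gcongr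
    have e2 : A * 30 * (1 + 2 * c0) ≤ C' := by
      have : A * 30 * (1 + 2 * c0) ≤ A * 30 * (1 + 2 * 1) := by
        gcongr
        exact hc0σ.trans hσ1
      linarith
    have e3 : 0 ≤ A * 30 * (1 + 2 * c0) := by positivity
    obtain ⟨β, hβ⟩ : ∃ β, β = A * 30 * (1 + 2 * c0) := ⟨_, rfl⟩
    obtain ⟨s, hs⟩ : ∃ s, s = 2 * (2 * C') * (σ * (1 + T)) * I := ⟨_, rfl⟩
    have hs0 : 0 ≤ s := by rw [hs]; positivity
    rw [← hβ] at e2 e3
    rw [← hs] at e1 ⊢
    have e4 : A * (30 * ((1 + 2 * c0) * q)) = β * q := by rw [hβ]; ring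
    rw [e4]
    have e5 : -s ≤ q := by linarith
    have e6 : 0 ≤ (C' - β) * (q + s) := mul_nonneg (by linarith) (by linarith)
    have e7 : 0 ≤ β * s := mul_nonneg e3 hs0
    linarith
  have hq' : C' * q ≤ C' * (R' - 2 * α * e + α ^ 2 * I) := by
    rw [hq]
    gcongr
  have hσ2 : σ ^ 2 ≤ σ := by nlinarith
  have g1 : σ ^ 2 * e ≤ σ * (Λe * I) := by
    calc σ ^ 2 * e ≤ σ ^ 2 * (Λe * I) := by gcongr
      _ ≤ σ * (Λe * I) := by gcongr
  have g2 : σ ^ 2 * (5 + 5 * α ^ 2) * I ≤ σ * (5 + 20 * C' ^ 2) * I := by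
    have e2 : α ^ 2 ≤ (2 * C') ^ 2 := pow_le_pow_left₀ hα hα2 2
    have e3 : 5 + 5 * α ^ 2 ≤ 5 + 20 * C' ^ 2 := by linarith
    gcongr
  have g3 : 30 * (RR - 2 * α * Ph + α ^ 2 * I) + 2880 * σ ^ 2 * e +
      1440 * σ ^ 2 * (5 + 5 * α ^ 2) * I ≤ 30 * ((1 + 2 * c0) * q) +
      30 * (σ * (16 * C' ^ 2 + 8 * C' * (1 + T) + 2 + 4 * C' * T) * I) +
      2880 * (σ * (Λe * I)) + 1440 * (σ * (5 + 20 * C' ^ 2) * I) := by
    have e1 := mul_le_mul_of_nonneg_right hE hI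
    linarith
  have g4 := mul_le_mul_of_nonneg_left g3 hA
  unfold Msm
  rw [← hT]
  calc _ ≤ _ := g4
    _ = A * (30 * ((1 + 2 * c0) * q)) + A * (30 * (σ * (16 * C' ^ 2 + 8 * C' * (1 + T) + 2 +
        4 * C' * T) * I) + 2880 * (σ * (Λe * I)) + 1440 * (σ * (5 + 20 * C' ^ 2) * I)) := by ring
    _ ≤ (C' * (R' - 2 * α * e + α ^ 2 * I) + C' * (2 * (2 * C') * (σ * (1 + T)) * I)) +
        A * (30 * (σ * (16 * C' ^ 2 + 8 * C' * (1 + T) + 2 +
        4 * C' * T) * I) + 2880 * (σ * (Λe * I)) + 1440 * (σ * (5 + 20 * C' ^ 2) * I)) := by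
        linarith
    _ = _ := by ring

/-- rescaled function: `f̃ l = r⁻² f (l + log r - log (4/3))` -/
def sc (r : ℝ) (f : ℝ → ℝ) (l : ℝ) : ℝ := (r ^ 2)⁻¹ * f (l + (Real.log r - Real.log (4 / 3)))

theorem exp_sc {r : ℝ} (hr : 0 < r) (l : ℝ) :
    Real.exp (l + (Real.log r - Real.log (4 / 3))) = 3 / 4 * r * Real.exp l := by
  rw [Real.exp_add, Real.exp_sub, Real.exp_log hr, Real.exp_log (by norm_num)]
  field_simp



variable {m n k : ℕ} {U : Set (Euc k)} {V : Measure (Euc k × L k)} {Q K : ℕ} {x : Euc k} {r : ℝ}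
  {π : Euc k →L[ℝ] Euc m} {ρ : Euc k →L[ℝ] Euc n} {u : Euc m → Euc n} {ε C : ℝ}
  {W : Euc m → Euc n} {κ : ℝ} {zh : Euc k}

theorem Qz.Ph_sub (h : Qx U V Q K x r π ρ u ε C W κ zh) {g g1 g2 : ℝ → ℝ} {B : ℝ}
    (hp : Pf g g1 g2 B) {c0 d0 hh C0 l : ℝ} {zN : Euc k → Euc k}
    (hk : KB (cz π ρ x r W zh) (Qp_534.Kz π ρ x r W zh (h0 m Q ε)) l c0 d0 hh C0 zN)
    (hl : Real.exp l ≤ 5 * r) :
    |Ph (cz π ρ x r W zh) (Vz m V Q π ρ x r ε W zh) g1 l -
      ee (cz π ρ x r W zh) (Vz m V Q π ρ x r ε W zh) g l| ≤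
      c0 * (B * II (cz π ρ x r W zh) (Vz m V Q π ρ x r ε W zh) g1 l) +
        d0 * ee (cz π ρ x r W zh) (Vz m V Q π ρ x r ε W zh) g l := by
  have h1 := GL_394.ee_eq h.ok (on h) hp.pr.k0 l
  have h2 := GL_394.er2_le (l := l) h.ok (on h) hp hk
  have h3 : Cy_870.FV (Vz m V Q π ρ x r ε W zh) (GL_394.X2 (cz π ρ x r W zh) g l) = 0 :=
    (h.loc (L := l) hl).fv2 h.reg hp.pr.k0 le_rfl
  rw [h3, zero_sub] at h1
  rw [h1]
  have e : Ph (cz π ρ x r W zh) (Vz m V Q π ρ x r ε W zh) g1 l -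
      (Ph (cz π ρ x r W zh) (Vz m V Q π ρ x r ε W zh) g1 l + Real.exp ((2 - m) * l) *
        -GL_394.er2 (cz π ρ x r W zh) (Vz m V Q π ρ x r ε W zh) g l) =
      Real.exp ((2 - m) * l) * GL_394.er2 (cz π ρ x r W zh) (Vz m V Q π ρ x r ε W zh) g l := by
    ring
  rw [e, abs_mul, abs_of_pos (Real.exp_pos _)]
  rw [h1] at h2
  exact h2

set_option maxHeartbeats 1000000 in
/-- **the fields `up`, `lo`, `J`** from 394's functions at a `Q`-point. -/
theorem ulj_core (m : ℕ) {g g1 g2 : ℝ → ℝ} {B cg C₂ Λ C' lm η : ℝ} (hp : Pf g g1 g2 B)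
    (hcg : 0 < cg) (hg0 : ∀ y, 0 ≤ y → y ≤ 1 / 2 → cg ≤ g y ∧ cg ≤ -2 * g1 y) (hC₂ : 0 ≤ C₂)
    (hΛ : 0 ≤ Λ) (h1C : 1 ≤ C') (hCJ : 90 * cg⁻¹ ≤ C') (hCu : (4 / 3) ^ m * (12 * B) ≤ C')
    (hη : 0 < η) :
    ∃ σ : ℝ, 0 < σ ∧ ∀ {n k : ℕ} {U : Set (Euc k)} {V : Measure (Euc k × L k)} {Q K : ℕ}
      {x : Euc k} {r : ℝ} {π : Euc k →L[ℝ] Euc m} {ρ : Euc k →L[ℝ] Euc n} {u : Euc m → Euc n}
      {ε C : ℝ} {W : Euc m → Euc n} {κ : ℝ} {zh : Euc k},
      Qx U V Q K x r π ρ u ε C W κ zh → κ ≤ σ → h0 m Q ε ≤ σ →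
      sepz V π ρ x r u zh 7 ≤ C₂ * sep V π ρ x r u 8 →
      ∀ Rp c0 d0 : ℝ → ℝ,
      (∀ l ∈ Icc (lm + (Real.log r - Real.log (4 / 3))) (-3 + (Real.log r - Real.log (4 / 3))),
        (∃ (hh C0 : ℝ) (zN : Euc k → Euc k), KB (cz π ρ x r W zh)
          (Qp_534.Kz π ρ x r W zh (h0 m Q ε)) l (c0 l) (d0 l) hh C0 zN) ∧
        c0 l ≤ σ ∧ d0 l ≤ σ ∧
        RT (cz π ρ x r W zh) (Vz m V Q π ρ x r ε W zh) g1 l ≤ Rp l ∧
        sep V π ρ x r u 8 ≤
          Λ * (r ^ m * II (cz π ρ x r W zh) (Vz m V Q π ρ x r ε W zh) g1 l)) →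
      (∀ l ∈ Icc lm (-3), Real.exp l ^ m * sc r (II (cz π ρ x r W zh)
          (Vz m V Q π ρ x r ε W zh) g1) l ≤ C' *
        ∫ q in BB (Xr π x r) (r⁻¹ • π (zh - x)) (Real.exp l),
          ‖Yr π ρ x r u q - r⁻¹ • hgt π ρ x r u zh‖ ^ 2 ∂(nu V π ρ x r)) ∧
      (∀ l ∈ Icc lm (-3), ∫ q in BB (Xr π x r) (r⁻¹ • π (zh - x)) (Real.exp l / 2),
          ‖Yr π ρ x r u q - r⁻¹ • hgt π ρ x r u zh‖ ^ 2 ∂(nu V π ρ x r) ≤
        C' * (Real.exp l ^ m * sc r (II (cz π ρ x r W zh) (Vz m V Q π ρ x r ε W zh) g1) l)) ∧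
      (∀ l ∈ Icc lm (-3), ∀ α, 0 ≤ α → α ≤ 2 * C' →
        ∫ q in BB (Xr π x r) (r⁻¹ • π (zh - x)) (Real.exp l / 2),
          ‖Pin2_3.er (Tr π ρ x r u q) (Xr π x r q) (r⁻¹ • π (zh - x)) (Yr π ρ x r u q)
            (r⁻¹ • hgt π ρ x r u zh) α‖ ^ 2 ∂(nu V π ρ x r) ≤
          Real.exp l ^ m * (C' * (sc r Rp l -
            2 * α * sc r (ee (cz π ρ x r W zh) (Vz m V Q π ρ x r ε W zh) g) l +
            α ^ 2 * sc r (II (cz π ρ x r W zh) (Vz m V Q π ρ x r ε W zh) g1) l) +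
            η * sc r (II (cz π ρ x r W zh) (Vz m V Q π ρ x r ε W zh) g1) l)) := by
  have hB : 0 ≤ B := (hp.nn 0 le_rfl).trans (hp.b0 0 le_rfl)
  have hCe := Qz.Ce_pos m
  obtain ⟨ΛO, hΛO⟩ : ∃ ΛO, ΛO = Qz.Ce m * (C₂ * (Λ * (4 / 3 * Real.exp (-lm)) ^ m)) :=
    ⟨_, rfl⟩
  have hΛO0 : 0 ≤ ΛO := by rw [hΛO]; positivity
  obtain ⟨Λe, hΛe⟩ : ∃ Λe, Λe = B * ΛO := ⟨_, rfl⟩
  have hΛe0 : 0 ≤ Λe := by rw [hΛe]; positivity
  obtain ⟨M, hMd⟩ : ∃ M, M = Msm cg⁻¹ C' Λe B + C' * (4 * B * ΛO + 1) := ⟨_, rfl⟩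
  have hM : 0 < M := by
    have h1 : 0 < C' := by linarith
    have : 0 < cg⁻¹ := by positivity
    rw [hMd]
    unfold Msm
    positivity
  refine ⟨min (1 / 12) (min (Real.exp lm / 32) (η / M)), by positivity, ?_⟩
  intro n k U V Q K x r π ρ u ε C W κ zh h hκ hh0 hs7 Rp c0 d0 hlev
  obtain ⟨σ, hσ⟩ : ∃ σ, σ = min (1 / 12) (min (Real.exp lm / 32) (η / M)) :=
    ⟨_, rfl⟩
  rw [← hσ] at hκ hh0 hlev
  have hσ0 : 0 < σ := by rw [hσ]; positivity
  have hσ12 : σ ≤ 1 / 12 := by rw [hσ]; exact min_le_left _ _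
  have hσlm : σ ≤ Real.exp lm / 32 := by
    rw [hσ]; exact (min_le_right _ _).trans (min_le_left _ _)
  have hση : σ * M ≤ η := by
    have : σ ≤ η / M := by
      rw [hσ]; exact (min_le_right _ _).trans (min_le_right _ _)
    rwa [le_div_iff₀ hM] at this
  have hr := h.hr
  have hκ0 := h.k0
  have hh0' := Qp_534.h0_nonneg m Q ε
  have hrm : 0 < r ^ m := by positivity
  set a := Real.log r - Real.log (4 / 3) with ha
  set c := cz π ρ x r W zh with hc
  set ν := Vz m V Q π ρ x r ε W zh with hν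
  have hmem : ∀ {l}, l ∈ Icc lm (-3) → l + a ∈ Icc (lm + a) (-3 + a) := fun hl =>
    ⟨by linarith [hl.1], by linarith [hl.2]⟩
  have hexp : ∀ l, Real.exp (l + a) = 3 / 4 * r * Real.exp l := fun l => exp_sc hr l
  have hle1 : ∀ {l}, l ∈ Icc lm (-3) → Real.exp l ≤ 1 := fun hl =>
    Real.exp_le_one_iff.2 (by linarith [hl.2])
  have hσl : ∀ {l}, l ∈ Icc lm (-3) → σ ≤ Real.exp l / 32 := fun hl =>
    hσlm.trans (by have := Real.exp_le_exp.2 hl.1; linarith)
  have hKz := Qz.kz h h.cx.hK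
  have hon : On ν m (Qp_534.Kz π ρ x r W zh (h0 m Q ε)) := Qz.on h
  have hcz : ch π ρ zh r (wz π x zh r W) 0 = c := rfl
  -- `3 h0 r` against the scale
  have hhl : ∀ {l}, l ∈ Icc lm (-3) → 3 * h0 m Q ε * r ≤ 3 / 32 * (r * Real.exp l) := by
    intro l hl
    calc 3 * h0 m Q ε * r ≤ 3 * (Real.exp l / 32) * r := by
          gcongr
          exact hh0.trans (hσl hl)
      _ = _ := by ring
  refine ⟨?_, ?_, ?_⟩
  · -- up
    intro l hl
    have hE := Real.exp_pos l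
    have h1 := hKz.up hon hp.pr 0 (l := l + a) (B := B) (t := Real.exp l * r) hp.b1 (by
      rw [hexp]
      have := hhl hl
      have := mul_pos hr hE
      linarith)
    rw [hcz] at h1
    have h2 := Qz.int_Y h (t := Real.exp l) hE (by linarith [hle1 hl])
    rw [h2]
    have h3 : Real.exp l ^ m = (4 / 3) ^ m * (r ^ m)⁻¹ * Real.exp (l + a) ^ m := by
      rw [hexp, mul_pow, mul_pow, div_pow, div_pow]
      field_simp
    have h4 : 0 ≤ ∫ p in cyc π zh 0 (Real.exp l * r), ‖hw π ρ zh (wz π x zh r W) p.1‖ ^ 2 ∂ν :=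
      integral_nonneg fun p => by positivity
    have h5 : Real.exp (l + a) ^ m * II c ν g1 (l + a) ≤
      12 * B * ∫ p in cyc π zh 0 (Real.exp l * r), ‖hw π ρ zh (wz π x zh r W) p.1‖ ^ 2 ∂ν := h1
    calc Real.exp l ^ m * sc r (II c ν g1) l =
        (4 / 3) ^ m * (r ^ (m + 2))⁻¹ * (Real.exp (l + a) ^ m * II c ν g1 (l + a)) := by
          rw [h3, pow_add, mul_inv]
          unfold sc
          ring
      _ ≤ (4 / 3) ^ m * (r ^ (m + 2))⁻¹ * (12 * B * ∫ p in cyc π zh 0 (Real.exp l * r),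
          ‖hw π ρ zh (wz π x zh r W) p.1‖ ^ 2 ∂ν) := by gcongr
      _ = ((4 / 3) ^ m * (12 * B)) * ((r ^ (m + 2))⁻¹ * ∫ p in cyc π zh 0 (Real.exp l * r),
          ‖hw π ρ zh (wz π x zh r W) p.1‖ ^ 2 ∂ν) := by ring
      _ ≤ _ := by gcongr
  · -- lo
    intro l hl
    have hE := Real.exp_pos l
    have h1 := hKz.lo hon hp.pr 0 (l := l + a) (cg := cg) (t := Real.exp l / 2 * r) hcg hg0 (by
      rw [hexp]; linarith) (by
      rw [hexp]
      have := hhl hl
      linarith)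
    rw [hcz] at h1
    have h2 := Qz.int_Y h (t := Real.exp l / 2) (by positivity) (by linarith [hle1 hl])
    rw [h2]
    have h5 : ∫ p in cyc π zh 0 (Real.exp l / 2 * r), ‖hw π ρ zh (wz π x zh r W) p.1‖ ^ 2 ∂ν ≤
        8 * cg⁻¹ * (Real.exp (l + a) ^ m * II c ν g1 (l + a)) := h1
    have hI0 : 0 ≤ II c ν g1 (l + a) := GL_394.II_nonneg h.ok hon hp.pr.anti _
    have h6 : ((3:ℝ) / 4) ^ m ≤ 1 := pow_le_one₀ (by norm_num) (by norm_num)
    calc (r ^ (m + 2))⁻¹ * ∫ p in cyc π zh 0 (Real.exp l / 2 * r),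
          ‖hw π ρ zh (wz π x zh r W) p.1‖ ^ 2 ∂ν
        ≤ (r ^ (m + 2))⁻¹ * (8 * cg⁻¹ * (Real.exp (l + a) ^ m * II c ν g1 (l + a))) := by gcongr
      _ = (8 * cg⁻¹ * (3 / 4) ^ m) * (Real.exp l ^ m * sc r (II c ν g1) l) := by
          rw [hexp, mul_pow, mul_pow, pow_add, mul_inv]
          unfold sc
          rw [← ha]
          field_simp
      _ ≤ C' * (Real.exp l ^ m * sc r (II c ν g1) l) := by
          have e0 : 0 ≤ sc r (II c ν g1) l := mul_nonneg (by positivity) hI0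
          gcongr
          have : 0 < cg⁻¹ := by positivity
          nlinarith
  · -- J
    intro l hl α hα hα2
    have hE := Real.exp_pos l
    obtain ⟨⟨hh, C0, zN, hk⟩, hc0, hd0, hR, hsepl⟩ := hlev (l + a) (hmem hl)
    have h1 := hKz.J hon hp.pr 0 (l := l + a) (δ := σ) (α := α) (cg := cg)
      (t := Real.exp l / 2 * r) hκ (by
        rw [hexp]
        calc κ / r * (3 / 4 * r * Real.exp l) = κ * (3 / 4 * Real.exp l) := by field_simp
          _ ≤ κ * 1 := by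
            gcongr
            linarith [hle1 hl]
          _ ≤ σ := by rw [mul_one]; exact hκ) hσ12 hcg (by positivity) hg0 (by
        rw [hexp]; linarith) (by
        rw [hexp]
        have := hhl hl
        linarith)
    rw [hcz] at h1
    have h2 := Qz.int_er h (t := Real.exp l / 2) (by positivity) (by linarith [hle1 hl]) α
    rw [h2]
    have hI0 : 0 ≤ II c ν g1 (l + a) := GL_394.II_nonneg h.ok hon hp.pr.anti _
    have hRR0 : 0 ≤ RR c ν g1 (l + a) := GL_394.RR_nonneg h.ok hon hp.pr.anti _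
    have hRF0 := GL_394.RF_nonneg (l := l + a) h.ok hon hp hk
    have hRFge := GL_394.RF_ge (l := l + a) h.ok hon hp hk
    have hPh := GL_394.Ph_le (l := l + a) h.ok hon hp hk
    have hr1 : Real.exp (l + a) ≤ r := by
      rw [hexp]
      calc 3 / 4 * r * Real.exp l ≤ 3 / 4 * r * 1 := by
            gcongr
            exact hle1 hl
        _ ≤ r := by linarith
    have hl5 : Real.exp (l + a) ≤ 5 * r := by linarith
    have hl3 : Real.exp (l + a) ≤ 3 * r := by linarith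
    have hPs := Qz.Ph_sub h hp hk hl5
    -- energy bound
    have hscale : ∀ E : ℝ, Real.exp (l + a) ^ m * E ≤
        Qz.Ce m * Hc V Q π ρ x r ε W zh (19 / 4) → E ≤ ΛO * II c ν g1 (l + a) := by
      intro E e1
      have e2 : Hc V Q π ρ x r ε W zh (19 / 4) ≤ C₂ * sep V π ρ x r u 8 := by
        rw [← Qz.sepz_eq h (by norm_num) le_rfl]
        exact (Qz.sepz_mono h (by norm_num) le_rfl).trans hs7
      have e3 : Real.exp (l + a) ^ m * E ≤
          Qz.Ce m * (C₂ * (Λ * (r ^ m * II c ν g1 (l + a)))) := by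
        refine e1.trans ?_
        gcongr
        exact e2.trans (by gcongr)
      have e4 : 0 < Real.exp (l + a) ^ m := by positivity
      have e5 : r ^ m ≤ Real.exp (l + a) ^ m * (4 / 3 * Real.exp (-lm)) ^ m := by
        rw [← mul_pow, hexp]
        refine pow_le_pow_left₀ hr.le ?_ m
        have e6 : 1 ≤ Real.exp l * Real.exp (-lm) := by
          rw [← Real.exp_add]
          exact Real.one_le_exp (by linarith [hl.1])
        calc r = r * 1 := (mul_one r).symm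
          _ ≤ r * (Real.exp l * Real.exp (-lm)) := by gcongr
          _ = _ := by ring
      refine le_of_mul_le_mul_left ?_ e4
      refine e3.trans ?_
      rw [hΛO]
      calc Qz.Ce m * (C₂ * (Λ * (r ^ m * II c ν g1 (l + a)))) ≤
          Qz.Ce m * (C₂ * (Λ * ((Real.exp (l + a) ^ m * (4 / 3 * Real.exp (-lm)) ^ m) *
            II c ν g1 (l + a)))) := by gcongr
        _ = _ := by ring
    have hOO : OO c ν (l + a) ≤ ΛO * II c ν g1 (l + a) := hscale _ (Qz.B2O h hl3)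
    have hOO0 : 0 ≤ OO c ν (l + a) := GL_394.OO_nonneg (l := l + a) h.ok hon hk
    have hee : ee c ν g (l + a) ≤ Λe * II c ν g1 (l + a) := by
      have e1 := GL_394.ee_le_OO (l := l + a) h.ok hon hp hk
      rw [hΛe, mul_assoc]
      exact e1.trans (mul_le_mul_of_nonneg_left hOO hB)
    have hRF : RF c ν g1 B (c0 (l + a)) (d0 (l + a)) (l + a) ≤
        Rp (l + a) + σ * (4 * B * ΛO + 1) * II c ν g1 (l + a) := by
      unfold GL_394.RF
      have e1 : 4 * B * d0 (l + a) * OO c ν (l + a) ≤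
          4 * B * σ * (ΛO * II c ν g1 (l + a)) := by
        have := hk.d0n
        gcongr
      have e2 : c0 (l + a) ^ 2 * II c ν g1 (l + a) ≤ σ * II c ν g1 (l + a) := by
        have h1 := hk.c0n
        have : c0 (l + a) ^ 2 ≤ σ := by nlinarith
        gcongr
      calc RT c ν g1 (l + a) + 4 * B * d0 (l + a) * OO c ν (l + a) +
          c0 (l + a) ^ 2 * II c ν g1 (l + a) ≤ Rp (l + a) + 4 * B * σ *
            (ΛO * II c ν g1 (l + a)) + σ * II c ν g1 (l + a) := by gcongr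
        _ = _ := by ring
    have hJ := J_alg (A := cg⁻¹) (C' := C') (Λe := Λe) (B := B) (σ := σ) (c0 := c0 (l + a))
      (d0 := d0 (l + a)) (α := α) (I := II c ν g1 (l + a)) (RR := RR c ν g1 (l + a))
      (Ph := Ph c ν g1 (l + a)) (RF := RF c ν g1 B (c0 (l + a)) (d0 (l + a)) (l + a))
      (e := ee c ν g (l + a))
      (R' := Rp (l + a) + σ * (4 * B * ΛO + 1) * II c ν g1 (l + a)) (by positivity) hCJ h1C hΛe0
      hB hσ0.le (by linarith) hk.c0n hc0 hk.d0n hd0 hα hα2 hI0 hRF0 hRR0 hRFge hee hPs hPh hRF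
    have h3 : 0 ≤ ∫ p in cyc π zh 0 (Real.exp l / 2 * r),
        ‖dhw π ρ zh (wz π x zh r W) p.1 (p.2 (adj π (π (p.1 - zh) - 0))) -
          α • hw π ρ zh (wz π x zh r W) p.1‖ ^ 2 ∂ν := integral_nonneg fun p => by positivity
    obtain ⟨J0, hJ0⟩ : ∃ J0, J0 = ∫ p in cyc π zh 0 (Real.exp l / 2 * r),
        ‖dhw π ρ zh (wz π x zh r W) p.1 (p.2 (adj π (π (p.1 - zh) - 0))) -
          α • hw π ρ zh (wz π x zh r W) p.1‖ ^ 2 ∂ν := ⟨_, rfl⟩
    have h4 : Real.exp (-m * (l + a)) * J0 ≤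
        C' * (Rp (l + a) - 2 * α * ee c ν g (l + a) + α ^ 2 * II c ν g1 (l + a)) +
          η * II c ν g1 (l + a) := by
      rw [hJ0]
      refine le_trans h1 (hJ.trans ?_)
      have e1 := mul_le_mul_of_nonneg_right hση hI0
      rw [hMd] at e1
      linarith
    rw [← hJ0]
    rw [← hJ0] at h3
    have h5 : Real.exp (l + a) ^ m * Real.exp (-m * (l + a)) = 1 := by
      rw [← Real.exp_nat_mul, ← Real.exp_add]
      simp
    obtain ⟨X, hX⟩ : ∃ X, X = C' * (Rp (l + a) - 2 * α * ee c ν g (l + a) +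
      α ^ 2 * II c ν g1 (l + a)) + η * II c ν g1 (l + a) := ⟨_, rfl⟩
    rw [← hX] at h4
    have hX0 : 0 ≤ X := le_trans (by positivity) h4
    have h6 : ((3:ℝ) / 4) ^ m ≤ 1 := pow_le_one₀ (by norm_num) (by norm_num)
    have h7 : J0 ≤ Real.exp (l + a) ^ m * X := by
      calc J0 = Real.exp (l + a) ^ m * (Real.exp (-m * (l + a)) * J0) := by
            rw [← mul_assoc, h5, one_mul]
        _ ≤ _ := by gcongr
    calc (r ^ (m + 2))⁻¹ * J0 ≤ (r ^ (m + 2))⁻¹ * (Real.exp (l + a) ^ m * X) := by gcongr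
      _ = (3 / 4) ^ m * (Real.exp l ^ m * ((r ^ 2)⁻¹ * X)) := by
          rw [hexp, mul_pow, mul_pow, pow_add, mul_inv]
          field_simp
      _ ≤ 1 * (Real.exp l ^ m * ((r ^ 2)⁻¹ * X)) := by gcongr
      _ = _ := by
          rw [hX]
          unfold sc
          rw [← ha]
          ring

end Crest.Agent.R234.Pd_435
end
end

-- ▼ part R234/Pd12_435
section

/-!
# Row 234, VF-F11 (helper435): `Pin10_3.UljP`: the comparison integrals at a `Q`-point
-/

set_option autoImplicit false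
set_option linter.unusedVariables false
set_option linter.unusedSectionVars false

open MeasureTheory Filter Topology Set Metric
open scoped ENNReal NNReal ContDiff InnerProductSpace
open Crest.GeometryTopology.Submanifold Crest.Agent.R234.Vf_884
open Crest.Agent.R234.Main_456 Crest.Agent.R234.F11_435
open Crest.Agent.R234.Qp_534 (Qx wz cz Tz h0 Iz ez Ez bz Rz dz bTop cTop)
open Crest.Agent.R234.Pin10_3 (UljP Ulj)
open Crest.Agent.R234.GI_640 (g3 g31 g32)
open Crest.Agent.R234.GL_394 (pf_cubic KB RT OO II)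
open Crest.Agent.R234.GLK_128 (Ck Ck_nonneg dd)
open Crest.Agent.R234.Fd_534 (rs sh)

noncomputable section

namespace Crest.Agent.R234.Pd_435

theorem g3_half {y : ℝ} (hy : y ≤ 1 / 2) : 1 / 8 ≤ g3 y ∧ 1 / 8 ≤ -2 * g31 y := by
  unfold g3 g31
  have h1 : (1:ℝ) / 2 ≤ max 0 (1 - y) := le_max_of_le_right (by linarith)
  have h2 : ((1:ℝ) / 2) ^ 2 ≤ max 0 (1 - y) ^ 2 := pow_le_pow_left₀ (by norm_num) h1 2
  have h3 : ((1:ℝ) / 2) ^ 3 ≤ max 0 (1 - y) ^ 3 := pow_le_pow_left₀ (by norm_num) h1 3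
  constructor <;> linarith

theorem cc_le {κ a2 a3 : ℝ} (hκ : 0 ≤ κ) (hκ8 : κ ≤ 1 / 8) (h2 : 0 ≤ a2) (h2' : a2 ≤ κ)
    (h3 : 0 ≤ a3) (h3' : a3 ≤ κ) : GLK_128.cc κ a2 a3 ≤ κ := by
  unfold GLK_128.cc
  have e1 : κ * a2 ≤ κ * κ := by gcongr
  have e2 : a2 ^ 2 ≤ κ ^ 2 := pow_le_pow_left₀ h2 h2' 2
  have e3 : a2 * a3 ≤ κ * κ := by gcongr
  have e4 : κ * a3 ≤ κ * κ := by gcongr
  nlinarith

theorem dd_le {κ a2 a3 hh : ℝ} (hκ : 0 ≤ κ) (h2 : 0 ≤ a2) (h2' : a2 ≤ κ)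
    (h3 : 0 ≤ a3) (h3' : a3 ≤ κ) (hh0 : 0 ≤ hh) (hh1 : hh ≤ 1) : dd a2 a3 hh ≤ 2 * κ := by
  unfold dd
  calc (a2 + a3) * hh ≤ (κ + κ) * 1 := by gcongr
    _ = _ := by ring

set_option maxSynthPendingDepth 3 in
/-- **`UljP`**. -/
theorem uljP (m n K : ℕ) : UljP m n K := by
  intro Q C A Cs hQ hA hCs
  obtain ⟨ε₁, hε₁, C₂, hC₂, hdbl⟩ := exists_dbl' m Q K C
  have hC₂0 : 0 < C₂ := by linarith
  have hhc := Cx.hc_pos m Q
  have hCk := Ck_nonneg m n
  refine ⟨max 720 ((4 / 3) ^ m * (12 * 6)), (le_max_left _ _).trans' (by norm_num), ?_⟩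
  intro C₁ hC₁ lm η B M hlm hη hB hM
  have hC₁a : 720 ≤ C₁ := (le_max_left _ _).trans hC₁
  have hC₁b : (4 / 3) ^ m * (12 * 6) ≤ C₁ := (le_max_right _ _).trans hC₁
  obtain ⟨σ, hσ, hcore⟩ := ulj_core m (g := g3) (g1 := g31) (g2 := g32) (B := 6) (cg := 1 / 8)
    (C₂ := C₂) (Λ := M) (C' := C₁) (lm := lm) (η := η) pf_cubic (by norm_num)
    (fun y _ hy => g3_half hy) hC₂0.le (by linarith) (by linarith)
    (by norm_num; linarith) hC₁b hη
  obtain ⟨s1, hs1⟩ : ∃ s1, s1 = min σ (Real.exp lm / 8) := ⟨_, rfl⟩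
  have hs10 : 0 < s1 := by rw [hs1]; positivity
  have hs1σ : s1 ≤ σ := by rw [hs1]; exact min_le_left _ _
  have hs1l : s1 ≤ Real.exp lm / 8 := by rw [hs1]; exact min_le_right _ _
  refine ⟨min ε₁ (min (σ / ((2 * Ck m n + 1) * B)) (s1 ^ 2 / Cx.hc m Q)),
    lt_min hε₁ (lt_min (by positivity) (by positivity)), ?_⟩
  intro ε hε hεε U hU D hD hst x r π ρ u W κ zh h hκB hI hc1
  have g1 : ε ≤ ε₁ := hεε.trans (min_le_left _ _)
  have g2 : (2 * Ck m n + 1) * κ ≤ σ := by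
    have := hεε.trans ((min_le_right _ _).trans (min_le_left _ _))
    rw [le_div_iff₀ (by positivity)] at this
    calc (2 * Ck m n + 1) * κ ≤ (2 * Ck m n + 1) * (B * ε) := by gcongr
      _ = ε * ((2 * Ck m n + 1) * B) := by ring
      _ ≤ σ := this
  have g3' : h0 m Q ε ≤ s1 := by
    have := hεε.trans ((min_le_right _ _).trans (min_le_right _ _))
    rw [le_div_iff₀ hhc] at this
    unfold h0
    rw [Real.sqrt_le_left hs10.le]
    linarith
  have hr := h.hr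
  have hκ0 := h.k0
  have hκ8 := h.κ8
  have hκσ : κ ≤ σ := by
    have : 0 ≤ 2 * Ck m n * κ := by positivity
    linarith
  have hCκσ : 2 * Ck m n * κ ≤ σ := by linarith
  have hh0 := Qp_534.h0_nonneg m Q ε
  obtain ⟨hpos, hsa, hs7⟩ := hdbl h g1
  -- the relative height
  set a := Real.log r - Real.log (4 / 3) with ha
  have hexp : ∀ l, Real.exp (l + a) = 3 / 4 * r * Real.exp l := fun l => exp_sc hr l
  set hb := 4 * h0 m Q ε * r * Real.exp (-(lm + a)) with hhb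
  have hb0 : 0 ≤ hb := by positivity
  have hb1 : hb ≤ 1 := by
    rw [hhb, Real.exp_neg, hexp]
    have hE := Real.exp_pos lm
    rw [← div_eq_mul_inv, div_le_one (by positivity)]
    have h1 : h0 m Q ε ≤ Real.exp lm / 8 := g3'.trans hs1l
    calc 4 * h0 m Q ε * r ≤ 4 * (Real.exp lm / 8) * r := by gcongr
      _ ≤ 3 / 4 * r * Real.exp lm := by nlinarith [mul_pos hr hE]
  have hlev : ∀ l ∈ Icc (lm + a) (-3 + a), Real.exp l ≤ r := by
    intro l hl
    have h1 : l = (l - a) + a := by ring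
    rw [h1, hexp]
    have h2 : Real.exp (l - a) ≤ 1 := Real.exp_le_one_iff.2 (by linarith [hl.2])
    calc 3 / 4 * r * Real.exp (l - a) ≤ 3 / 4 * r * 1 := by gcongr
      _ ≤ r := by linarith
  obtain ⟨u1, u2, u3⟩ := hcore h hκσ (g3'.trans hs1σ) hs7
    (Rz (VD D) π ρ x r W zh (h0 m Q ε) (A * κ) (dz (VD D) x r π ρ W zh (h0 m Q ε) κ A Cs (3 - lm)))
    (fun l => Ck m n * GLK_128.cc κ (κ / r * Real.exp l) (κ / r ^ 2 * Real.exp (2 * l)))
    (fun l => Ck m n * dd (κ / r * Real.exp l) (κ / r ^ 2 * Real.exp (2 * l)) hb) (by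
      intro l hl
      have hlr := hlev l hl
      have hE := Real.exp_pos l
      have hk : KB (cz π ρ x r W zh) (Qp_534.Kz π ρ x r W zh (h0 m Q ε)) l
          (Ck m n * GLK_128.cc κ (κ / r * Real.exp l) (κ / r ^ 2 * Real.exp (2 * l)))
          (Ck m n * dd (κ / r * Real.exp l) (κ / r ^ 2 * Real.exp (2 * l)) hb) hb (m + 8)
          (GLK_128.zN π ρ zh r (wz π x zh r W) 0) :=
        (h.hyK (lo := lm + a) hl.1 (hlr.trans (by linarith)) hb1).kb
      have a2 : κ / r * Real.exp l ≤ κ := by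
        calc κ / r * Real.exp l ≤ κ / r * r := by gcongr
          _ = κ := by field_simp
      have a20 : 0 ≤ κ / r * Real.exp l := by positivity
      have a3 : κ / r ^ 2 * Real.exp (2 * l) ≤ κ := by
        have e1 : Real.exp (2 * l) = Real.exp l ^ 2 := by
          rw [← Real.exp_nat_mul]; norm_num
        rw [e1]
        calc κ / r ^ 2 * Real.exp l ^ 2 ≤ κ / r ^ 2 * r ^ 2 := by gcongr
          _ = κ := by field_simp
      have a30 : 0 ≤ κ / r ^ 2 * Real.exp (2 * l) := by positivity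
      refine ⟨⟨hb, m + 8, _, hk⟩, ?_, ?_, ?_, ?_⟩
      · calc Ck m n * GLK_128.cc κ (κ / r * Real.exp l) (κ / r ^ 2 * Real.exp (2 * l)) ≤ Ck m n * κ := by
              gcongr
              exact cc_le hκ0 hκ8 a20 a2 a30 a3
          _ ≤ σ := by
              have : 0 ≤ Ck m n * κ := by positivity
              linarith
      · calc Ck m n * dd (κ / r * Real.exp l) (κ / r ^ 2 * Real.exp (2 * l)) hb ≤
            Ck m n * (2 * κ) := by
              gcongr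
              exact dd_le hκ0 a20 a2 a30 a3 hb0 hb1
          _ ≤ σ := by linarith
      · -- RT ≤ Rz
        have hOO : 0 ≤ OO (cz π ρ x r W zh) (Vz m (VD D) Q π ρ x r ε W zh) l :=
          GL_394.OO_nonneg (l := l) h.ok (Qz.on h) hk
        have hII : 0 ≤ II (cz π ρ x r W zh) (Vz m (VD D) Q π ρ x r ε W zh) g31 l :=
          GL_394.II_nonneg h.ok (Qz.on h) pf_cubic.pr.anti _
        have hdz : 0 ≤ dz (VD D) x r π ρ W zh (h0 m Q ε) κ A Cs (3 - lm) := by
          unfold dz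
          positivity
        show RT (cz π ρ x r W zh) (Vz m (VD D) Q π ρ x r ε W zh) g31 l ≤
          RT (cz π ρ x r W zh) (Vz m (VD D) Q π ρ x r ε W zh) g31 l +
            4 * 6 * dz (VD D) x r π ρ W zh (h0 m Q ε) κ A Cs (3 - lm) *
              OO (cz π ρ x r W zh) (Vz m (VD D) Q π ρ x r ε W zh) l +
            (A * κ) ^ 2 * II (cz π ρ x r W zh) (Vz m (VD D) Q π ρ x r ε W zh) g31 l
        have e1 : 0 ≤ 4 * 6 * dz (VD D) x r π ρ W zh (h0 m Q ε) κ A Cs (3 - lm) *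
              OO (cz π ρ x r W zh) (Vz m (VD D) Q π ρ x r ε W zh) l := by positivity
        have e2 : 0 ≤ (A * κ) ^ 2 * II (cz π ρ x r W zh) (Vz m (VD D) Q π ρ x r ε W zh) g31 l := by
          positivity
        linarith
      · have h1 := (hI (l - a) ⟨by linarith [hl.1], by linarith [hl.2]⟩).2.2
        have h2 : rs r (Iz (VD D) π ρ x r W zh (h0 m Q ε)) (l - a) =
            (r ^ 2)⁻¹ * II (cz π ρ x r W zh) (Vz m (VD D) Q π ρ x r ε W zh) g31 l := by
          have e : l - a + sh r = l := by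
            rw [ha]
            unfold sh
            ring
          unfold rs
          rw [e]
          rfl
        rw [h2] at h1
        refine h1.trans (le_of_eq ?_)
        rw [pow_add]
        field_simp)
  exact ⟨u1, u2, u3⟩

end Crest.Agent.R234.Pd_435
end
end

-- ▼ part R234/LowF15_471
section

/-!
# Row 234, (F4) LOW FREQUENCY, instance part 4 (helper471): the field `f4` of 534's `Inp`

`f4_inp` : from the anomaly bound `ErH` (618) and the soft sign `SoftH` (354) at all levels below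
`log r - 3`.
-/

set_option autoImplicit false
set_option maxSynthPendingDepth 3

open MeasureTheory Filter Topology Set Metric
open scoped ENNReal NNReal ContDiff InnerProductSpace
open Crest.GeometryTopology.Submanifold Crest.Agent.R234.Vf_884
open Crest.Agent.R234.Main_456 Crest.Agent.R234.F11_435
open Crest.Agent.R234.Gi_456 Crest.Agent.R234.Qp_534
open Crest.Agent.R234.GL_394
open Crest.Agent.R234.GI_640 (g3 g31 g32)
open Crest.Agent.R234.LowF8_471 Crest.Agent.R234.LowF9_471 Crest.Agent.R234.LowF10_471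
open Crest.Agent.R234.LowF12_471
open Crest.Agent.R234.LowF13_471
open Crest.Agent.R234.LowF13_471.Qx (A0 A0_le)

noncomputable section

namespace Crest.Agent.R234.LowF15_471

variable {m n k : ℕ}

/-- the anomaly bound at all levels below `L` (618) -/
def ErH (V : Measure (Euc k × L k)) (π : Euc k →L[ℝ] Euc m) (ρ : Euc k →L[ℝ] Euc n) (x : Euc k)
    (r : ℝ) (W : Euc m → Euc n) (zh : Euc k) (t : ℝ) (Q : ℕ) (κ A hs Lv : ℝ) : Prop :=
  ∀ l ≤ Lv, ∀ K' ⊆ Kz π ρ x r W zh t, IsCompact K' →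
    (∀ z ∈ K', ‖(cz π ρ x r W zh).x z‖ ≤ 2 * Real.exp l →
      ‖(cz π ρ x r W zh).nu z‖ ≤ hs * Real.exp l) →
    (∀ᵐ p ∂(V.restrict (Kz π ρ x r W zh t ×ˢ univ)), p.1 ∈ K') →
    Real.exp ((2 - m) * l) *
      |er1a (cz π ρ x r W zh) (V.restrict (Kz π ρ x r W zh t ×ˢ univ)) g3 Q l| ≤
    A * (κ * (Real.exp l / r)) * (Real.exp ((2 - m) * l) *
      ∫ p in Sh (cz π ρ x r W zh) (2 * Real.exp l), ((cz π ρ x r W zh).tau p.1 p.2 +
        qq (cz π ρ x r W zh) l p.1) ∂(V.restrict (Kz π ρ x r W zh t ×ˢ univ)))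

/-- the soft sign of the anomaly at all levels below `L`, collar `[l, l + 3]` (354) -/
def SoftH (V : Measure (Euc k × L k)) (π : Euc k →L[ℝ] Euc m) (ρ : Euc k →L[ℝ] Euc n) (x : Euc k)
    (r : ℝ) (W : Euc m → Euc n) (zh : Euc k) (t : ℝ) (Q : ℕ) (ε0 Lv : ℝ) : Prop :=
  ∀ l ≤ Lv, ∀ S, 0 < S → S ≤ ε0 →
    (∀ l' ∈ Icc l (l + 3), Real.exp (-(2 * l')) * Iz V π ρ x r W zh t l' ≤ S) →
    bz V π ρ x r W zh t Q l ≤ 1 / 256 * S * Real.exp (2 * l)

theorem b0_cubic (t : ℝ) (_h0 : 0 ≤ t) (h1 : t ≤ 1 / 4) : 27 / 16 ≤ -g31 t := by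
  unfold g31
  have h2 : 3 / 4 ≤ max 0 (1 - t) := le_max_of_le_right (by linarith)
  have h3 := pow_le_pow_left₀ (by norm_num) h2 2
  linarith

/-- **the field `f4` of `Inp`** -/
theorem f4_inp (hm : 1 ≤ m) (n Q : ℕ) {A hs ε0 lm θ : ℝ} (hA : A0 m n Q ≤ A) (hhs : 0 < hs)
    (hε0 : 0 < ε0) (hlm : lm < -3) (hθ : 0 < θ) : ∃ θ' : ℝ, 0 < θ' ∧
    ∀ (k K : ℕ) (U : Set (Euc k)) (V : Measure (Euc k × L k)) (x : Euc k) (r : ℝ)
      (π : Euc k →L[ℝ] Euc m) (ρ : Euc k →L[ℝ] Euc n) (u : Euc m → Euc n) (ε C : ℝ)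
      (W : Euc m → Euc n) (κ : ℝ) (zh : Euc k), Qx U V Q K x r π ρ u ε C W κ zh → κ ≤ θ' →
      rat m V zh (16 * r) ≤ ENNReal.ofReal (Q + 1) →
      ErH V π ρ x r W zh (h0 m Q ε) Q κ A hs (Real.log r - 3) →
      SoftH V π ρ x r W zh (h0 m Q ε) Q ε0 (Real.log r - 3) →
      Real.exp (-2 * cTop r) * Iz V π ρ x r W zh (h0 m Q ε) (cTop r) ≤ θ' →
      ∀ l ∈ Icc (Real.log r + lm - 2) (Real.log r - 3),
        -(θ * Iz V π ρ x r W zh (h0 m Q ε) (bTop r)) ≤
          Ez V π ρ x r W zh (h0 m Q ε) Q l - Iz V π ρ x r W zh (h0 m Q ε) l / 2 := by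
  obtain ⟨A1, -, -, -, -⟩ := A0_le hA
  have hA1 : 1 ≤ A := by
    have : (0:ℝ) ≤ m := Nat.cast_nonneg m
    linarith
  set T : ℝ := 4 - lm with hT
  have hT0 : 0 ≤ T := by rw [hT]; linarith
  set X : ℝ := Real.exp (m * T) with hX
  have hX0 : 0 < X := Real.exp_pos _
  set θ1 : ℝ := min 1 (θ / X) with hθ1
  have hθ10 : 0 < θ1 := lt_min one_pos (by positivity)
  have hθ1X : θ1 * X ≤ θ := by
    have : θ1 ≤ θ / X := min_le_right _ _
    rwa [le_div_iff₀ hX0] at this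
  obtain ⟨κ1, hκ1, hκ11, H⟩ := f4 (m := m) hm (B := 6) (b0 := 27 / 16) (A := A) (C0 := m + 8)
    (Q := Q) (cc := 3) (ε0 := ε0) (θ := θ1) (hs := hs) pf_cubic (by norm_num) b0_cubic hA1
    (by have : (0:ℝ) ≤ m := Nat.cast_nonneg m
        linarith) (Nat.cast_nonneg Q) le_rfl hε0 hθ10 (min_le_left _ _) hhs
  set Y : ℝ := Real.exp (m * T + m + 2 * T) with hY
  have hY0 : 0 < Y := Real.exp_pos _
  refine ⟨min κ1 (min (1 / (24 * A)) (κ1 / Y)), lt_min hκ1 (lt_min (by positivity)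
    (by positivity)), ?_⟩
  intro k K U V x r π ρ u ε C W κ zh h hκ hrat her hsoft hsm l hl
  have hr := h.hr
  have hk0 := h.k0
  have hlog2 : Real.log 2 ≤ 7 / 10 := Real.log_two_lt_d9.le.trans (by norm_num)
  have hlog20 : 0 ≤ Real.log 2 := Real.log_nonneg (by norm_num)
  have hel : Real.exp (l + 3) ≤ r := by
    rw [← Real.le_log_iff_exp_le hr]; linarith [hl.2]
  have hel0 : Real.exp l ≤ r := (Real.exp_le_exp.2 (by linarith)).trans hel
  have hAκ : 24 * (A * κ) ≤ 1 := by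
    have h1 : κ ≤ 1 / (24 * A) := hκ.trans ((min_le_right _ _).trans (min_le_left _ _))
    rw [le_div_iff₀ (by positivity)] at h1
    linarith
  have hκκ1 : κ ≤ κ1 := hκ.trans (min_le_left _ _)
  have hF := LowF13_471.Qx.fref h (g := g3) (g1 := g31) (g2 := g32) pf_cubic hA hAκ hrat
    (l0 := l) (by linarith) (hs := hs) (fun l' hl' => her l' (hl'.trans hl.2))
  have hIb := h.Iz_nonneg (bTop r)
  have hb : bTop r = cTop r - 1 / 4 := (cTop_sub r).symm
  -- the bound over the collar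
  set D0 : ℝ := Real.exp (-(2 * l)) * (X * Iz V π ρ x r W zh (h0 m Q ε) (bTop r)) with hD0
  have hD00 : 0 ≤ D0 := by positivity
  have hcol : ∀ l' ∈ Icc l (l + 3), Real.exp (-(2 * l')) * Iz V π ρ x r W zh (h0 m Q ε) l' ≤ D0 := by
    intro l' hl'
    have h1 : l' ≤ bTop r := by unfold bTop; linarith [hl'.2, hl.2]
    have h2 := h.Iz_mono h1
    have h3 : Real.exp (m * (bTop r - l')) ≤ X := by
      rw [hX]
      apply Real.exp_le_exp.2
      have : bTop r - l' ≤ T := by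
        unfold bTop
        rw [hT]
        linarith [hl'.1, hl.1]
      gcongr
    have h4 : Real.exp (-(2 * l')) ≤ Real.exp (-(2 * l)) := Real.exp_le_exp.2 (by linarith [hl'.1])
    calc Real.exp (-(2 * l')) * Iz V π ρ x r W zh (h0 m Q ε) l' ≤
        Real.exp (-(2 * l)) * (Real.exp (m * (bTop r - l')) *
          Iz V π ρ x r W zh (h0 m Q ε) (bTop r)) := by
          have := h.Iz_nonneg l'
          gcongr
      _ ≤ _ := by rw [hD0]; gcongr
  have hD0κ : D0 ≤ κ1 := by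
    have h1 : Iz V π ρ x r W zh (h0 m Q ε) (bTop r) ≤
        Real.exp (m * (1 / 4)) * Iz V π ρ x r W zh (h0 m Q ε) (cTop r) := by
      have := h.Iz_mono (l := bTop r) (l' := cTop r) (by rw [hb]; linarith)
      have e : cTop r - bTop r = 1 / 4 := by rw [hb]; ring
      rwa [e] at this
    have h2 : Iz V π ρ x r W zh (h0 m Q ε) (cTop r) ≤ Real.exp (2 * cTop r) * (κ1 / Y) := by
      have h3 := hsm.trans ((min_le_right _ _).trans (min_le_right _ _))
      have h4 := mul_le_mul_of_nonneg_left h3 (Real.exp_pos (2 * cTop r)).le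
      rw [← mul_assoc, ← Real.exp_add] at h4
      have e : 2 * cTop r + -2 * cTop r = 0 := by ring
      rwa [e, Real.exp_zero, one_mul] at h4
    have h5 : cTop r - l ≤ T := by
      unfold cTop
      rw [hT]
      linarith [hl.1]
    have h6 : Real.exp (-(2 * l)) * (X * (Real.exp (m * (1 / 4)) * Real.exp (2 * cTop r))) ≤ Y := by
      rw [hX, hY, ← Real.exp_add, ← Real.exp_add, ← Real.exp_add]
      apply Real.exp_le_exp.2
      have : (0:ℝ) ≤ m := Nat.cast_nonneg m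
      linarith
    calc D0 ≤ Real.exp (-(2 * l)) * (X *
          (Real.exp (m * (1 / 4)) * (Real.exp (2 * cTop r) * (κ1 / Y)))) := by
          rw [hD0]
          gcongr
          exact h1.trans (by gcongr)
      _ = (Real.exp (-(2 * l)) * (X * (Real.exp (m * (1 / 4)) * Real.exp (2 * cTop r)))) *
          (κ1 / Y) := by ring
      _ ≤ Y * (κ1 / Y) := by gcongr
      _ = κ1 := by field_simp
  have h1 := H k (cz π ρ x r W zh) (Kz π ρ x r W zh (h0 m Q ε)) univ U V zh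
    (GLK_128.zN π ρ zh r (wz π x zh r W) 0) (κ * (Real.exp l / r)) D0 l (by positivity)
    (by
      have : Real.exp l / r ≤ 1 := (div_le_one hr).2 hel0
      calc κ * (Real.exp l / r) ≤ κ * 1 := by gcongr
        _ ≤ κ1 := by rw [mul_one]; exact hκκ1) hD00 hD0κ hF
    (fun l' hl' S hS hSε hSb => hsoft l' (hl'.trans hl.2) S hS hSε
      (fun l'' hl'' => hSb l'' ⟨hl''.1, by linarith [hl''.2]⟩)) hcol
  change -θ1 * D0 ≤ Real.exp (-(2 * l)) * (Ez V π ρ x r W zh (h0 m Q ε) Q l -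
    Iz V π ρ x r W zh (h0 m Q ε) l / 2) at h1
  have h2 : -(θ1 * X * Iz V π ρ x r W zh (h0 m Q ε) (bTop r)) ≤
      Ez V π ρ x r W zh (h0 m Q ε) Q l - Iz V π ρ x r W zh (h0 m Q ε) l / 2 := by
    have e : -θ1 * D0 = Real.exp (-(2 * l)) *
        (-(θ1 * X * Iz V π ρ x r W zh (h0 m Q ε) (bTop r))) := by rw [hD0]; ring
    rw [e] at h1
    exact le_of_mul_le_mul_left h1 (Real.exp_pos _)
  refine le_trans (neg_le_neg ?_) h2
  gcongr

end Crest.Agent.R234.LowF15_471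
end
end

-- ▼ part R234/LowF16_471
section

/-!
# Row 234, (F4) LOW FREQUENCY, instance part 5 (helper471): `Pin11_3.F4P`

`f4P_of` : `F4P m n K` from the two one-level inputs `ErP` (618/128) and `SoftP` (354).
-/

set_option autoImplicit false
set_option maxSynthPendingDepth 3

open MeasureTheory Filter Topology Set Metric
open scoped ENNReal NNReal ContDiff InnerProductSpace
open Crest.GeometryTopology.Submanifold Crest.Agent.R234.Vf_884
open Crest.Agent.R234.Main_456 Crest.Agent.R234.F11_435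
open Crest.Agent.R234.Gi_456 Crest.Agent.R234.Qp_534
open Crest.Agent.R234.GL_394
open Crest.Agent.R234.GI_640 (g3 g31 g32)
open Crest.Agent.R234.LowF13_471
open Crest.Agent.R234.LowF13_471.Qx (A0 A0_le)
open Crest.Agent.R234.LowF15_471
open Crest.Agent.R234.Pin11_3 (F4P Sit)

noncomputable section

namespace Crest.Agent.R234.LowF16_471

/-- anomaly bounds at all `Q`-points of a reference, all scales below `log r - 3` (618, 128) -/
def ErP (m n : ℕ) : Prop :=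
  ∀ Q : ℕ, 2 ≤ Q → ∃ A hs κ₁ : ℝ, A0 m n Q ≤ A ∧ 0 < hs ∧ 0 < κ₁ ∧
    ∀ (K : ℕ) (U : Set (Euc (m + n))) (D : VarifoldData m (m + n)) (x : Euc (m + n)) (r : ℝ)
      (π : Euc (m + n) →L[ℝ] Euc m) (ρ : Euc (m + n) →L[ℝ] Euc n) (u : Euc m → Euc n) (ε C : ℝ)
      (W : Euc m → Euc n) (κ : ℝ) (zh : Euc (m + n)), IsIntegralVarifoldIn U D →
      Qx U (VD D) Q K x r π ρ u ε C W κ zh → κ ≤ κ₁ →
      rat m (VD D) zh (16 * r) ≤ ENNReal.ofReal (Q + 1 / 8) →
      ErH (VD D) π ρ x r W zh (h0 m Q ε) Q κ A hs (Real.log r - 3)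

/-- soft sign at all `Q`-points of a reference, all scales below `log r - 3` (354) -/
def SoftP (m n : ℕ) : Prop :=
  ∀ Q : ℕ, 2 ≤ Q → ∃ ε₀ κ₁ : ℝ, 0 < ε₀ ∧ 0 < κ₁ ∧
    ∀ (K : ℕ) (U : Set (Euc (m + n))) (D : VarifoldData m (m + n)) (x : Euc (m + n)) (r : ℝ)
      (π : Euc (m + n) →L[ℝ] Euc m) (ρ : Euc (m + n) →L[ℝ] Euc n) (u : Euc m → Euc n) (ε C : ℝ)
      (W : Euc m → Euc n) (κ : ℝ) (zh : Euc (m + n)), IsIntegralVarifoldIn U D →
      Qx U (VD D) Q K x r π ρ u ε C W κ zh → κ ≤ κ₁ →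
      rat m (VD D) zh (16 * r) ≤ ENNReal.ofReal (Q + 1 / 8) →
      SoftH (VD D) π ρ x r W zh (h0 m Q ε) Q ε₀ (Real.log r - 3)

variable {m n k : ℕ} {U : Set (Euc k)} {V : Measure (Euc k × L k)} {Q K : ℕ} {x : Euc k} {r : ℝ}
  {π : Euc k →L[ℝ] Euc m} {ρ : Euc k →L[ℝ] Euc n} {u : Euc m → Euc n} {ε C : ℝ}
  {W : Euc m → Euc n} {κ : ℝ} {zh : Euc k}

/-- the height at the top is small -/
theorem Iz_small (h : Qx U V Q K x r π ρ u ε C W κ zh) :
    Real.exp (-2 * cTop r) * Iz V π ρ x r W zh (h0 m Q ε) (cTop r) ≤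
      (192 * ((Q + 1) * (ome m * 64 ^ m))) * h0 m Q ε ^ 2 := by
  have hr := h.hr
  have hk := h.k0
  have hk8 := h.κ8
  have home := ome_pos m
  have hok := h.ok
  have hOn := h.on
  have hc3 := exp_cTop hr
  have hcr : r ≤ Real.exp (cTop r) := by
    rw [← Real.log_le_iff_le_exp hr]
    unfold cTop
    have : 0 ≤ Real.log 2 := Real.log_nonneg (by norm_num)
    linarith
  have hmu : ∀ v : Euc m, ‖v‖ ≤ 5 * r → (cz π ρ x r W zh).mu v ≤ 2 := by
    intro v hv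
    have hb := LowF13_471.Qx.bw h
    have hs : 3 * (κ * (κ / r)) * ‖v‖ ≤ 1 / 4 := by
      calc 3 * (κ * (κ / r)) * ‖v‖ ≤ 3 * (κ * (κ / r)) * (5 * r) := by gcongr
        _ = 15 * κ ^ 2 := by field_simp; ring
        _ ≤ 1 / 4 := by nlinarith
    have h1 := (LowF12_471.Bw.pt h.gr hb 0 hs).abs_mu_sub
    have h2 : |(cz π ρ x r W zh).mu v - 1| ≤ 3 * (κ * (κ / r)) * ‖v‖ := h1
    have h3 := (abs_le.1 h2).2
    linarith
  set c0 : ℝ := 8 * h0 m Q ε ^ 2 * r ^ 2 * 2 * 12 with hc0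
  have hc00 : 0 ≤ c0 := by positivity
  have hfin : V (Kz π ρ x r W zh (h0 m Q ε) ×ˢ univ) < ⊤ :=
    h.cx.st.fin _ (Qp_534.Qx.isCompact_Kz h.gr _) (h.Kz_U h.hs)
  have hint : ∫ p, ((cz π ρ x r W zh).f p.1 * (cz π ρ x r W zh).mu ((cz π ρ x r W zh).x p.1)) *
      (-4 * g31 (Real.exp (-2 * cTop r) * ‖(cz π ρ x r W zh).x p.1‖ ^ 2))
        ∂(Vz V π ρ x r W zh (h0 m Q ε)) ≤ c0 * (Vz V π ρ x r W zh (h0 m Q ε)).real univ := by
    have := hOn.fin
    have e : c0 * (Vz V π ρ x r W zh (h0 m Q ε)).real univ =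
        ∫ _p, c0 ∂(Vz V π ρ x r W zh (h0 m Q ε)) := by
      rw [integral_const, smul_eq_mul, mul_comm]
    rw [e]
    refine integral_mono_of_nonneg ?_ (integrable_const _) ?_
    · filter_upwards [hOn.mem] with p hpm
      have h1 := hok.f_nonneg hpm.1
      have h2 := (hok.mupos _ (hok.mem _ hpm.1)).le
      have h3 := pf_cubic.pr.anti (Real.exp (-2 * cTop r) * ‖(cz π ρ x r W zh).x p.1‖ ^ 2)
        (by positivity)
      exact mul_nonneg (mul_nonneg h1 h2) (by linarith)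
    · filter_upwards [hOn.mem] with p hpm
      have h1 := hok.f_nonneg hpm.1
      have h2 := (hok.mupos _ (hok.mem _ hpm.1)).le
      by_cases hx : ‖(cz π ρ x r W zh).x p.1‖ ≤ Real.exp (cTop r)
      · have h3 := hmu _ (hx.trans (hc3.trans (by linarith)))
        have h4 : (cz π ρ x r W zh).f p.1 ≤ 8 * h0 m Q ε ^ 2 * r ^ 2 := by
          have h5 := hok.nusq _ hpm.1
          have h6 := h.nu_le_Kz hpm.1
          have h7 := pow_le_pow_left₀ (norm_nonneg _) h6 2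
          rw [h5] at h7
          nlinarith
        have h5 : -4 * g31 (Real.exp (-2 * cTop r) * ‖(cz π ρ x r W zh).x p.1‖ ^ 2) ≤ 12 := by
          have h6 := GI_640.abs_g31_le (t := Real.exp (-2 * cTop r) *
            ‖(cz π ρ x r W zh).x p.1‖ ^ 2) (by positivity)
          have := (abs_le.1 h6).1
          linarith
        have h6 : 0 ≤ -4 * g31 (Real.exp (-2 * cTop r) * ‖(cz π ρ x r W zh).x p.1‖ ^ 2) := by
          have := pf_cubic.pr.anti (Real.exp (-2 * cTop r) * ‖(cz π ρ x r W zh).x p.1‖ ^ 2)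
            (by positivity)
          linarith
        rw [hc0]
        gcongr
      · have h3 : g31 (Real.exp (-2 * cTop r) * ‖(cz π ρ x r W zh).x p.1‖ ^ 2) = 0 :=
          pf_cubic.pr.k1.zero _ (t_ge hx)
        rw [h3]
        simpa using hc00
  have hmass : (Vz V π ρ x r W zh (h0 m Q ε)).real univ ≤ (Q + 1) * (ome m * (64 * r) ^ m) := by
    refine le_trans ?_ h.cx.mass64
    have e : (Vz V π ρ x r W zh (h0 m Q ε)).real univ =
        V.real (Kz π ρ x r W zh (h0 m Q ε) ×ˢ univ) := by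
      unfold Vz VK
      rw [measureReal_def, Measure.restrict_apply_univ, ← measureReal_def]
    rw [e]
    have hfin64 : V (ball x (64 * r) ×ˢ univ) < ⊤ :=
      (measure_mono (prod_mono ball_subset_closedBall subset_rfl)).trans_lt h.cx.fin64
    refine ENNReal.toReal_mono hfin64.ne (measure_mono (prod_mono_left ?_))
    intro z hz
    have h2 := h.Kz_box h.hs hz
    have h3 := F11_435.frame_norm_sq h.hf (z - x)
    have h4 := pow_le_pow_left₀ (norm_nonneg _) h2.1.le 2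
    have h5 := pow_le_pow_left₀ (norm_nonneg _) h2.2.le 2
    have h6 : ‖z - x‖ ≤ 10 * r := by
      refine abs_le_of_sq_le_sq' ?_ (by positivity) |>.2
      nlinarith [sq_nonneg r]
    rw [mem_ball, dist_eq_norm]
    linarith
  have he1 : Real.exp (-m * cTop r) * (64 * r) ^ m ≤ 64 ^ m := by
    have e : Real.exp (-m * cTop r) = (Real.exp (cTop r) ^ m)⁻¹ := by
      rw [← Real.exp_nat_mul, ← Real.exp_neg]; congr 1; ring
    rw [e, mul_pow, ← div_eq_inv_mul, div_le_iff₀ (by positivity)]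
    gcongr
  have he2 : Real.exp (-2 * cTop r) * r ^ 2 ≤ 1 := by
    have e : Real.exp (-2 * cTop r) = (Real.exp (cTop r) ^ 2)⁻¹ := by
      rw [← Real.exp_nat_mul, ← Real.exp_neg]; congr 1; push_cast; ring
    rw [e, ← div_eq_inv_mul, div_le_one (by positivity)]
    gcongr
  have hI : Iz V π ρ x r W zh (h0 m Q ε) (cTop r) ≤
      Real.exp (-m * cTop r) * (c0 * ((Q + 1) * (ome m * (64 * r) ^ m))) := by
    refine (show Iz V π ρ x r W zh (h0 m Q ε) (cTop r) = Real.exp (-m * cTop r) * _ from rfl).trans_le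
      ?_
    gcongr
    exact hint.trans (by gcongr)
  calc Real.exp (-2 * cTop r) * Iz V π ρ x r W zh (h0 m Q ε) (cTop r) ≤
      Real.exp (-2 * cTop r) * (Real.exp (-m * cTop r) *
        (c0 * ((Q + 1) * (ome m * (64 * r) ^ m)))) := by gcongr
    _ = (192 * h0 m Q ε ^ 2) * (Real.exp (-2 * cTop r) * r ^ 2) * ((Q + 1) * ome m) *
        (Real.exp (-m * cTop r) * (64 * r) ^ m) := by rw [hc0]; ring
    _ ≤ (192 * h0 m Q ε ^ 2) * 1 * ((Q + 1) * ome m) * 64 ^ m := by gcongr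
    _ = _ := by ring

/-- **`F4P` from the two one-level inputs.** -/
theorem f4P_of {m n : ℕ} (hm : 1 ≤ m) (hE : ErP m n) (hS : SoftP m n) (K : ℕ) : F4P m n K := by
  intro Q C hQ lm θ B hlm hθ hB
  obtain ⟨A, hs, κ₁, hA, hhs, hκ₁, HE⟩ := hE Q hQ
  obtain ⟨ε₀, κ₂, hε₀, hκ₂, HS⟩ := hS Q hQ
  obtain ⟨θ', hθ', H⟩ := f4_inp hm n Q hA hhs hε₀ hlm hθ
  obtain ⟨εZ, hεZ, HZ⟩ := QLeb_433.nearZ m (m + n) Q hm (by omega) 1 (1 / 8) one_pos (by norm_num)
  have hhc := Pd_435.Cx.hc_pos m Q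
  have home := ome_pos m
  have hB0 : 0 < B := by linarith
  set M : ℝ := 192 * ((Q + 1) * (ome m * 64 ^ m)) with hM
  have hM0 : 0 < M := by positivity
  refine ⟨min εZ (min (κ₁ / B) (min (κ₂ / B) (min (θ' / B) (θ' / (M * Pd_435.Cx.hc m Q))))),
    ?_, ?_⟩
  · exact lt_min hεZ (lt_min (by positivity) (lt_min (by positivity)
      (lt_min (by positivity) (by positivity))))
  intro ε hε hεε U D x r π ρ u W κ zh hsit
  have g1 : ε ≤ εZ := hεε.trans (by simp)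
  have g2 : ε ≤ κ₁ / B := hεε.trans (by simp)
  have g3 : ε ≤ κ₂ / B := hεε.trans (by simp)
  have g4 : ε ≤ θ' / B := hεε.trans (by simp)
  have g5 : ε ≤ θ' / (M * Pd_435.Cx.hc m Q) := hεε.trans (by simp)
  have h := hsit.qx
  have hr := h.hr
  have hκ := hsit.κB
  have hκ1 : κ ≤ κ₁ := hκ.trans (by rw [le_div_iff₀ hB0] at g2; linarith)
  have hκ2 : κ ≤ κ₂ := hκ.trans (by rw [le_div_iff₀ hB0] at g3; linarith)
  have hκ3 : κ ≤ θ' := hκ.trans (by rw [le_div_iff₀ hB0] at g4; linarith)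
  have hnear := Pin8_3.nearQ_mono (by positivity) h.cx.ref.near g1
  have hN := HZ U h.opU D hsit.int hsit.st x r hr
    ((closedBall_subset_closedBall (by linarith)).trans h.cx.hU) hsit.th.ge (AS_456.hp π) hnear zh
    (closedBall_subset_closedBall (by linarith) h.mem) h.th (16 * r) (by linarith) le_rfl
  have hrat : rat m (VD D) zh (16 * r) ≤ ENNReal.ofReal (Q + 1 / 8) := by
    rw [ENNReal.ofReal_add (by positivity) (by norm_num), ENNReal.ofReal_natCast]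
    exact hN.2.2
  have hsmall : Real.exp (-2 * cTop r) * Iz (VD D) π ρ x r W zh (h0 m Q ε) (cTop r) ≤ θ' := by
    refine (Iz_small h).trans ?_
    have e : h0 m Q ε ^ 2 = Pd_435.Cx.hc m Q * ε := by
      unfold h0
      exact Real.sq_sqrt (by positivity)
    rw [e]
    rw [le_div_iff₀ (by positivity)] at g5
    calc _ = ε * (M * Pd_435.Cx.hc m Q) := by rw [hM]; ring
      _ ≤ θ' := g5
  exact H (m + n) K U (VD D) x r π ρ u ε C W κ zh h hκ3
    (hrat.trans (ENNReal.ofReal_le_ofReal (by linarith)))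
    (HE K U D x r π ρ u ε C W κ zh hsit.int h hκ1 hrat)
    (HS K U D x r π ρ u ε C W κ zh hsit.int h hκ2 hrat) hsmall

end Crest.Agent.R234.LowF16_471
end
end

-- ▼ part R234/LowF17_471
section

/-!
# Row 234, (F4) LOW FREQUENCY, instance part 6 (helper471): the anomaly bound `ErP`

From 618's total variation measure at the scale `s = e^l` (collar `ε = 1`), 128's pointwise bounds
`KT` and the mass pinching at every scale.
-/

set_option autoImplicit false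
set_option maxSynthPendingDepth 3

open MeasureTheory Filter Topology Set Metric
open scoped ENNReal NNReal ContDiff InnerProductSpace
open Crest.GeometryTopology.Submanifold Crest.Agent.R234.Vf_884
open Crest.Agent.R234.Main_456 Crest.Agent.R234.F11_435
open Crest.Agent.R234.Gi_456 Crest.Agent.R234.Qp_534
open Crest.Agent.R234.GL_394
open Crest.Agent.R234.GI_640 (g3 g31 g32)
open Crest.Agent.R234.LowF8_471 Crest.Agent.R234.LowF9_471
open Crest.Agent.R234.LowF13_471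
open Crest.Agent.R234.LowF13_471.Qx (A0 A0_le)
open Crest.Agent.R234.LowF15_471 Crest.Agent.R234.LowF16_471
open Crest.Agent.R234.Tv_618 (Wr KT tv_gl)

noncomputable section

namespace Crest.Agent.R234.LowF17_471

variable {m n k : ℕ} {U : Set (Euc k)} {V : Measure (Euc k × L k)} {Q K : ℕ} {x : Euc k} {r : ℝ}
  {π : Euc k →L[ℝ] Euc m} {ρ : Euc k →L[ℝ] Euc n} {u : Euc m → Euc n} {ε C : ℝ}
  {W : Euc m → Euc n} {κ : ℝ} {zh : Euc k}

/-- `KT` on a compact part of `Kz`, `e^l' = 2 s`, `|nu| ≤ s / 2` -/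
theorem kt (h : Qx U V Q K x r π ρ u ε C W κ zh) {l hs : ℝ} (hl : Real.exp (l + Real.log 2) ≤ r / 4)
    (hhs0 : 0 ≤ hs) (hhs1 : hs ≤ 1) {K' : Set (Euc k)}
    (hK' : K' ⊆ Kz π ρ x r W zh (h0 m Q ε))
    (hnu : ∀ z ∈ K', ‖(cz π ρ x r W zh).x z‖ ≤ 2 * Real.exp l →
      ‖(cz π ρ x r W zh).nu z‖ ≤ hs * Real.exp l) :
    ∃ κT : ℝ, 0 ≤ κT ∧ κT ≤ GLK_128.Ct m n * κ ∧
      KT (cz π ρ x r W zh) K' (Real.exp l) ((1 + 1) * Real.exp l) (GLK_128.Cn m) κT := by
  have hr := h.hr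
  have hk := h.k0
  have hel := Real.exp_pos l
  have e2 : Real.exp (l + Real.log 2) = 2 * Real.exp l := by
    rw [Real.exp_add, Real.exp_log (by norm_num)]; ring
  have H : GLK_128.Hy π ρ zh r (wz π x zh r W) 0 K' (l + Real.log 2) κ (κ / r) (κ / r ^ 2)
      (hs / 2) := h.hy (by linarith) (fun z hz => (h.Kz_spec h.hs (hK' hz)).1) (by positivity)
    (by linarith) (fun z hz hx => by
      rw [e2] at hx ⊢
      refine (hnu z hz hx).trans (le_of_eq (by ring)))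
  have hs' : Real.exp l ≤ Real.exp (l + Real.log 2) := by rw [e2]; linarith
  have hr2 : ∀ {a : ℝ}, a < (1 + 1) * Real.exp l → a ≤ Real.exp (l + Real.log 2) := by
    intro a ha
    rw [e2]; linarith
  refine ⟨GLK_128.kp m n κ (κ / r) (κ / r ^ 2) (hs / 2) (l + Real.log 2), H.kpn, ?_, ?_⟩
  · refine H.kp_le.trans ?_
    have h1 : Real.exp (2 * (l + Real.log 2)) = Real.exp (l + Real.log 2) ^ 2 := by
      rw [← Real.exp_nat_mul]; norm_num
    set E := Real.exp (l + Real.log 2) with hE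
    have hE0 : 0 < E := Real.exp_pos _
    rw [h1]
    have hq : E / r ≤ 1 / 4 := by rw [div_le_iff₀ hr]; linarith
    have hq0 : 0 ≤ E / r := by positivity
    have hC := (GLK_128.Ct_pos m n).le
    have e3 : κ / r * E + κ / r ^ 2 * E ^ 2 = κ * (E / r + (E / r) ^ 2) := by field_simp
    rw [e3]
    have h2 : E / r + (E / r) ^ 2 ≤ 1 / 3 := by nlinarith
    calc 3 * GLK_128.Ct m n * (κ * (E / r + (E / r) ^ 2)) ≤
        3 * GLK_128.Ct m n * (κ * (1 / 3)) := by gcongr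
      _ = _ := by ring
  · exact
    { jb := fun v hv => H.jb (hr2 hv)
      lb := fun v hv => (mul_le_mul_of_nonneg_right hs' (norm_nonneg _)).trans (H.lb (hr2 hv))
      t0 := fun p hp hx => ⟨H.tau_nonneg hp, H.tau_le hp⟩
      q1 := fun z hz hx => H.q1 hel (by rw [e2]) (by linarith) hz (hr2 hx)
      an := fun p hp hx => H.an hel hs' hp (hr2 hx)
      hT := fun p hp hx => H.hT hel hs' hp (hr2 hx)
      k3 := fun p hp hx v => H.kk3 hel hs' hp (hr2 hx) v }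

/-- restriction to the compact part -/
theorem restrict_eq {K0 K' : Set (Euc k)} (hK' : K' ⊆ K0) (hK0 : IsCompact K0)
    (hae : ∀ᵐ p ∂(V.restrict (K0 ×ˢ univ)), p.1 ∈ K') :
    V.restrict (K' ×ˢ univ) = V.restrict (K0 ×ˢ univ) := by
  refine Measure.restrict_congr_set ?_
  have h1 := (ae_restrict_iff' (hK0.isClosed.measurableSet.prod
    (MeasurableSet.univ (α := L k)))).1 hae
  filter_upwards [h1] with p h2
  exact propext ⟨fun h3 => ⟨hK' h3.1, mem_univ _⟩, fun h3 => ⟨h2 h3, mem_univ _⟩⟩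

/-- the anomaly bound at one level from 618's measure -/
theorem er_one {c : Ch m k} {K' : Set (Euc k)} {W : Measure (Euc k × L k)} {l c0 d0 hh C0 : ℝ}
    {zN : Euc k → Euc k} (h : Ok c K' univ) (hV : On W m K')
    (hk : KB c K' l c0 d0 hh C0 zN) (ht : ∀ p ∈ K' ×ˢ G m k, 0 ≤ c.tau p.1 p.2) {Q : ℝ}
    {ρ C1 kq sig : ℝ} {e : Measure (Euc m)} (hρ : Real.exp l ≤ ρ)
    (hT : TV c W Q ρ C1 kq sig e) {M : ℝ} (hM : e.real (closedBall 0 ρ) ≤ M) :
    Real.exp ((2 - m) * l) * |er1a c W g3 Q l| ≤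
      c0 * (Real.exp ((2 - m) * l) * (1 / 2 * ∫ p in Sh c (2 * Real.exp l),
        (c.tau p.1 p.2 + qq c l p.1) ∂W + M)) := by
  have hfin := hT.fin
  have hc0 := hk.c0n
  have hel := Real.exp_pos l
  have hz : ∀ v : Euc m, ¬ ‖v‖ ≤ Real.exp l → g3 (Real.exp (-2 * l) * ‖v‖ ^ 2) = 0 := fun v hv =>
    pf_cubic.pr.k0.zero _ (t_ge hv)
  have hg0 : ∀ v : Euc m, 0 ≤ g3 (Real.exp (-2 * l) * ‖v‖ ^ 2) := fun v =>
    pf_cubic.nn _ (by positivity)
  have hg1 : ∀ v : Euc m, g3 (Real.exp (-2 * l) * ‖v‖ ^ 2) ≤ 1 := fun v =>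
    GI_640.g3_le_one (by positivity)
  have hgc : Continuous fun v : Euc m => g3 (Real.exp (-2 * l) * ‖v‖ ^ 2) :=
    pf_cubic.pr.k0.continuous.comp (by fun_prop)
  have hthc : Continuous (th c) := by
    rw [← continuousOn_univ]; exact h.cth
  have hρn : ∀ v : Euc m, v ∉ closedBall (0 : Euc m) ρ → ¬ ‖v‖ ≤ Real.exp l := by
    intro v hv hcon
    exact hv (mem_closedBall_zero_iff.2 (hcon.trans hρ))
  have hi := hT.i (fun v => th c v * g3 (Real.exp (-2 * l) * ‖v‖ ^ 2))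
    ((hthc.mul hgc).measurable) ⟨c0, fun v => by
      by_cases hv : ‖v‖ ≤ Real.exp l
      · rw [abs_mul, abs_of_nonneg (hg0 v)]
        calc |th c v| * g3 (Real.exp (-2 * l) * ‖v‖ ^ 2) ≤ c0 * 1 :=
              mul_le_mul (hk.hth v hv) (hg1 v) (hg0 v) hc0
          _ = c0 := mul_one _
      · rw [hz v hv, mul_zero, abs_zero]; exact hc0⟩
    (fun v hv => by rw [hz v (hρn v hv), mul_zero])
  have hgi : Integrable (fun v : Euc m => g3 (Real.exp (-2 * l) * ‖v‖ ^ 2)) e :=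
    Integrable.mono' (integrable_const 1) hgc.aestronglyMeasurable
      (Eventually.of_forall fun v => by rw [Real.norm_of_nonneg (hg0 v)]; exact hg1 v)
  refine (er1a_le h hV pf_cubic hk Q hi hgi).trans ?_
  refine mul_le_mul_of_nonneg_left ?_ hc0
  have hE := (Real.exp_pos ((2 - m) * l)).le
  have b1 : ∫ v, g3 (Real.exp (-2 * l) * ‖v‖ ^ 2) ∂e ≤ M := by
    refine le_trans ?_ hM
    have e1 : ∫ v, g3 (Real.exp (-2 * l) * ‖v‖ ^ 2) ∂e ≤
        ∫ v, (closedBall (0 : Euc m) ρ).indicator (fun _ => (1:ℝ)) v ∂e := by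
      refine integral_mono hgi ((integrable_const 1).indicator measurableSet_closedBall) ?_
      intro v
      by_cases hv : v ∈ closedBall (0 : Euc m) ρ
      · rw [indicator_of_mem hv]; exact hg1 v
      · rw [indicator_of_notMem hv]
        simp only
        rw [hz v (hρn v hv)]
    rw [integral_indicator measurableSet_closedBall, setIntegral_const, smul_eq_mul, mul_one] at e1
    exact e1
  have b2 : ee c W g3 l ≤ Real.exp ((2 - m) * l) * ∫ p in Sh c (2 * Real.exp l),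
      (c.tau p.1 p.2 + qq c l p.1) ∂W := by
    unfold ee
    refine mul_le_mul_of_nonneg_left ?_ hE
    have i2 := h.int hV h.ctau pf_cubic.pr.k0.continuous l
    have i3 : Integrable (fun p : Euc k × L k => c.tau p.1 p.2 + qq c l p.1) W :=
      hV.integrable h.cpt (h.ctau.add (h.cqq l))
    have hS : MeasurableSet ((K' ×ˢ G m k) ∩ Sh c (2 * Real.exp l)) := measurableSet_KSh h _
    have e1 : ∫ p in Sh c (2 * Real.exp l), (c.tau p.1 p.2 + qq c l p.1) ∂W =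
        ∫ p, ((K' ×ˢ G m k) ∩ Sh c (2 * Real.exp l)).indicator
          (fun p : Euc k × L k => c.tau p.1 p.2 + qq c l p.1) p ∂W := by
      rw [integral_indicator hS, restrict_Sh hV]
    rw [e1]
    refine integral_mono_ae i2 (i3.indicator hS) ?_
    filter_upwards [hV.mem] with p hp
    have t0 := ht p hp
    have q0 := qq_nonneg (l := l) h hp.1
    by_cases hx : ‖c.x p.1‖ ≤ Real.exp l
    · have hmem : p ∈ (K' ×ˢ G m k) ∩ Sh c (2 * Real.exp l) :=
        ⟨hp, show ‖c.x p.1‖ ≤ 2 * Real.exp l by linarith⟩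
      rw [indicator_of_mem hmem]
      have := mul_le_mul_of_nonneg_left (hg1 (c.x p.1)) t0
      linarith
    · rw [hz _ hx, mul_zero]
      exact indicator_nonneg (fun q hq => add_nonneg (ht q hq.1) (qq_nonneg h hq.1.1)) p
  have b3 : Real.exp ((2 - m) * l) * ∫ v, g3 (Real.exp (-2 * l) * ‖v‖ ^ 2) ∂e ≤
      Real.exp ((2 - m) * l) * M := mul_le_mul_of_nonneg_left b1 hE
  linarith

theorem vol_eq (m : ℕ) {t : ℝ} (ht : 0 < t) :
    volume.real (ball (0 : Euc m) t) = ome m * t ^ m := by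
  rw [measureReal_def, volume_ball_eq m 0 ht, ENNReal.toReal_ofReal (den_pos m ht).le]

/-- **the anomaly bound** -/
theorem erP (hm : 1 ≤ m) (n : ℕ) : ErP m n := by
  intro Q hQ
  have hm0 : (1:ℝ) ≤ m := by exact_mod_cast hm
  have hQ0 : (0:ℝ) ≤ Q := Nat.cast_nonneg Q
  have home := ome_pos m
  have hCn : 0 ≤ GLK_128.Cn m := by
    have := GLK_128.Cj_nonneg m
    unfold GLK_128.Cn
    positivity
  obtain ⟨κ₀, hκ₀, C1, hC1, Ct, hCt, H⟩ := tv_gl (m := m) (by omega) Q hCn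
    (Λ := (Q + 1) * (ome m * 4 ^ m)) (by positivity)
  set hs : ℝ := 1 / (128 * (Q + 1) * m) with hhs
  have hhs0 : 0 < hs := by positivity
  have hhs1 : hs ≤ 1 / 128 := by
    rw [hhs]
    apply one_div_le_one_div_of_le (by norm_num)
    nlinarith [mul_nonneg hQ0 (by linarith : (0:ℝ) ≤ m)]
  have hGt := GLK_128.Ct_pos m n
  set A : ℝ := max (A0 m n Q) (2 * GLK_128.Ck m n * (1 / 2 + Ct)) with hA
  have hCk := GLK_128.Ck_nonneg m n
  refine ⟨A, hs, min (1 / (32 * (Q + 1) * m)) (min (κ₀ / GLK_128.Ct m n) (1 / GLK_128.Ct m n)),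
    le_max_left _ _, hhs0, lt_min (by positivity) (lt_min (by positivity) (by positivity)), ?_⟩
  intro K U D x r π ρ u ε C W κ zh hD h hκ hrat l hl K' hK' hKc hnu hae
  have hr := h.hr
  have hk := h.k0
  have hel := Real.exp_pos l
  have hκa : κ ≤ 1 / (32 * (Q + 1) * m) := hκ.trans (min_le_left _ _)
  have hκb : κ ≤ κ₀ / GLK_128.Ct m n := hκ.trans ((min_le_right _ _).trans (min_le_left _ _))
  have hκc : κ ≤ 1 / GLK_128.Ct m n := hκ.trans ((min_le_right _ _).trans (min_le_right _ _))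
  rw [le_div_iff₀ hGt] at hκb hκc
  have he8 : 8 * Real.exp l ≤ r := by
    have h1 : Real.exp (l + 3) ≤ r := by
      rw [← Real.le_log_iff_exp_le hr]; linarith
    rw [Real.exp_add] at h1
    nlinarith [exp_three]
  have e2 : Real.exp (l + Real.log 2) = 2 * Real.exp l := by
    rw [Real.exp_add, Real.exp_log (by norm_num)]; ring
  obtain ⟨κT, hκT0, hκT, hKT⟩ := kt h (l := l) (hs := hs) (by rw [e2]; linarith) hhs0.le
    (by linarith) hK' hnu
  have hsub : K' ⊆ Tz π ρ x r W zh := fun z hz => (h.Kz_spec h.hs (hK' hz)).1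
  have hloc5 := h.loc (L := l + Real.log 2) (by rw [e2]; linarith)
  have hKz := Qp_534.Qx.isCompact_Kz h.gr (π := π) (ρ := ρ) (h0 m Q ε)
  have haeV := (ae_restrict_iff' (hKz.isClosed.measurableSet.prod
    (MeasurableSet.univ (α := L (m + n))))).1 hae
  have hloc : Loc (cz π ρ x r W zh) U (Tz π ρ x r W zh) K' (VD D) (l + Real.log 2) :=
    { st := hloc5.st
      opU := hloc5.opU
      cpt := hKc
      sub := fun z hz => hloc5.sub (hK' hz)
      gap := by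
        filter_upwards [hloc5.gap, haeV] with p h1 h2 h3 h4
        exact h2 ⟨h1 h3 h4, mem_univ _⟩ }
  have hmes := restrict_eq hK' hKz hae
  -- masses
  have hsm : 16 * (Q + 1) * m * (κ + 4 * hs) ≤ 1 := by
    have h1 : 16 * (Q + 1) * m * κ ≤ 1 / 2 := by
      calc 16 * (Q + 1) * m * κ ≤ 16 * (Q + 1) * m * (1 / (32 * (Q + 1) * m)) := by gcongr
        _ = 1 / 2 := by field_simp; norm_num
    have h2 : 16 * (Q + 1) * m * (4 * hs) = 1 / 2 := by rw [hhs]; field_simp; norm_num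
    linarith
  have hM1 : (VD D).real (Wr (cz π ρ x r W zh) K' ((1 + 1) * Real.exp l) ×ˢ univ) ≤
      (Q + 1) * (ome m * 4 ^ m) * Real.exp l ^ m := by
    have h1 := LowF14_471.Qx.mass_W_le h (δ := 1 / 8) (η := hs) (t := (1 + 1) * Real.exp l)
      (by norm_num) hhs0.le hrat hK' (by positivity) (by
        have := h.κ8
        nlinarith) (fun z hz hx => by
        refine (hnu z hz (by linarith)).trans ?_
        nlinarith)
    refine (show (VD D).real (Wr (cz π ρ x r W zh) K' ((1 + 1) * Real.exp l) ×ˢ univ) ≤ _ from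
      h1).trans ?_
    have h2 : (1 + κ + hs) * ((1 + 1) * Real.exp l) ≤ 4 * Real.exp l := by
      have := h.κ8
      nlinarith
    calc (Q + 1 / 8) * (ome m * ((1 + κ + hs) * ((1 + 1) * Real.exp l)) ^ m) ≤
        (Q + 1) * (ome m * (4 * Real.exp l) ^ m) := by
          gcongr
          norm_num
      _ = _ := by rw [mul_pow]; ring
  have hM2 : |(VD D).real (Wr (cz π ρ x r W zh) K' (1 / 4 * Real.exp l) ×ˢ univ) -
      Q * volume.real (ball (0 : Euc m) (1 / 4 * Real.exp l))| ≤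
      1 / 4 * volume.real (ball (0 : Euc m) (1 / 4 * Real.exp l)) := by
    have h1 := LowF14_471.Qx.mass_W h (δ := 1 / 8) (η := 4 * hs) (t := 1 / 4 * Real.exp l)
      (by norm_num) le_rfl (by positivity) hsm hrat hK' hae (by positivity) (by linarith)
      (fun z hz hx => by
        refine (hnu z hz (by linarith)).trans (le_of_eq (by ring)))
    rw [vol_eq m (by positivity : 0 < 1 / 4 * Real.exp l)]
    refine (show |(VD D).real (Wr (cz π ρ x r W zh) K' (1 / 4 * Real.exp l) ×ˢ univ) -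
      Q * (ome m * (1 / 4 * Real.exp l) ^ m)| ≤ _ from h1).trans (le_of_eq (by ring))
  obtain ⟨e, hTV, heM⟩ := H 1 one_pos le_rfl κT hκT0 (by
      calc κT ≤ GLK_128.Ct m n * κ := hκT
        _ ≤ κ₀ := by linarith) hel hD h.reg hloc (by rw [e2]; linarith) (subset_univ _) hKT hM1 hM2
  have hok : Ok (cz π ρ x r W zh) K' univ := Ok_mono h.ok hK' hKc
  have hOn : On (VK (VD D) K') m K' := hloc.toOn
  have hVK : VK (VD D) K' = (VD D).restrict (Kz π ρ x r W zh (h0 m Q ε) ×ˢ univ) := hmes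
  have hkb := LowF13_471.Qx.kb h (A := 2 * GLK_128.Ck m n) le_rfl (l := l) (hh := hs)
    (by linarith) hhs0.le (by linarith) hK' hKc (fun z hz hx => hnu z hz (by linarith))
  have ht0 : ∀ p ∈ K' ×ˢ G m (m + n), 0 ≤ (cz π ρ x r W zh).tau p.1 p.2 := fun p hp =>
    h.tau_nonneg ⟨hK' hp.1, hp.2⟩
  have hκT1 : κT ≤ 1 := by linarith
  -- the integral in (ii)
  have hI : ∫ p in Wr (cz π ρ x r W zh) K' ((1 + 1) * Real.exp l) ×ˢ univ,
      ((cz π ρ x r W zh).tau p.1 p.2 + κT * (2 * (cz π ρ x r W zh).f p.1 / Real.exp l ^ 2))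
        ∂(VD D) ≤
      ∫ p in Sh (cz π ρ x r W zh) (2 * Real.exp l), ((cz π ρ x r W zh).tau p.1 p.2 +
        qq (cz π ρ x r W zh) l p.1) ∂(VK (VD D) K') := by
    have hsubW : Wr (cz π ρ x r W zh) K' ((1 + 1) * Real.exp l) ×ˢ (univ : Set (L (m + n))) ⊆
        K' ×ˢ univ := prod_mono_left fun z hz => hz.1
    have e1 : (VD D).restrict (Wr (cz π ρ x r W zh) K' ((1 + 1) * Real.exp l) ×ˢ univ) =
        (VK (VD D) K').restrict (Wr (cz π ρ x r W zh) K' ((1 + 1) * Real.exp l) ×ˢ univ) := by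
      unfold VK
      rw [Measure.restrict_restrict_of_subset hsubW]
    rw [e1]
    have i1 : Integrable (fun p : Euc (m + n) × L (m + n) => (cz π ρ x r W zh).tau p.1 p.2 +
        κT * (2 * (cz π ρ x r W zh).f p.1 / Real.exp l ^ 2)) (VK (VD D) K') :=
      hOn.integrable hKc (hok.ctau.add (continuousOn_const.mul
        ((continuousOn_const.mul (lift hok.cf)).div_const _)))
    have i2 : Integrable (fun p : Euc (m + n) × L (m + n) => (cz π ρ x r W zh).tau p.1 p.2 +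
        qq (cz π ρ x r W zh) l p.1) (VK (VD D) K') :=
      hOn.integrable hKc (hok.ctau.add (hok.cqq l))
    have hpt : ∀ᵐ p ∂(VK (VD D) K'), (cz π ρ x r W zh).tau p.1 p.2 +
        κT * (2 * (cz π ρ x r W zh).f p.1 / Real.exp l ^ 2) ≤ (cz π ρ x r W zh).tau p.1 p.2 +
        qq (cz π ρ x r W zh) l p.1 := by
      filter_upwards [hOn.mem] with p hp
      have h2 : qq (cz π ρ x r W zh) l p.1 = 2 * (cz π ρ x r W zh).f p.1 / Real.exp l ^ 2 := by
        have e3 : Real.exp (-2 * l) = (Real.exp l ^ 2)⁻¹ := by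
          rw [← Real.exp_nat_mul, ← Real.exp_neg]; congr 1; push_cast; ring
        unfold qq
        rw [e3]; ring
      have h3 := qq_nonneg (l := l) hok hp.1
      rw [← h2]
      nlinarith
    refine (setIntegral_mono_ae_restrict i1.integrableOn i2.integrableOn
      (ae_restrict_of_ae hpt)).trans ?_
    rw [restrict_Sh hOn]
    refine setIntegral_mono_set i2.integrableOn ?_ ?_
    · filter_upwards [ae_restrict_of_ae hOn.mem] with p hp
      exact add_nonneg (ht0 p hp) (qq_nonneg hok hp.1)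
    · filter_upwards [hOn.mem] with p hp h2
      have h3 : p.1 ∈ Wr (cz π ρ x r W zh) K' ((1 + 1) * Real.exp l) := h2.1
      exact ⟨hp, show ‖(cz π ρ x r W zh).x p.1‖ ≤ 2 * Real.exp l by linarith [h3.2]⟩
  have h1 := er_one hok hOn hkb ht0 (Q := Q) (ρ := (1 + 1 / 2) * Real.exp l) (by linarith) hTV
    (M := Ct * ∫ p in Sh (cz π ρ x r W zh) (2 * Real.exp l), ((cz π ρ x r W zh).tau p.1 p.2 +
        qq (cz π ρ x r W zh) l p.1) ∂(VK (VD D) K')) (by
      refine heM.trans ?_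
      rw [one_pow, div_one]
      gcongr)
  rw [hVK] at h1
  refine h1.trans ?_
  set J : ℝ := ∫ p in Sh (cz π ρ x r W zh) (2 * Real.exp l), ((cz π ρ x r W zh).tau p.1 p.2 +
        qq (cz π ρ x r W zh) l p.1) ∂((VD D).restrict (Kz π ρ x r W zh (h0 m Q ε) ×ˢ univ)) with hJ
  have hJ0 : 0 ≤ J := by
    rw [hJ, ← hVK]
    exact int_Sh_nonneg hok hOn (fun p hp => add_nonneg (ht0 p hp) (qq_nonneg hok hp.1)) _
  have hE := (Real.exp_pos ((2 - m) * l)).le
  calc 2 * GLK_128.Ck m n * (κ * (Real.exp l / r)) *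
        (Real.exp ((2 - m) * l) * (1 / 2 * J + Ct * J)) =
      (2 * GLK_128.Ck m n * (1 / 2 + Ct)) * (κ * (Real.exp l / r)) *
        (Real.exp ((2 - m) * l) * J) := by ring
    _ ≤ A * (κ * (Real.exp l / r)) * (Real.exp ((2 - m) * l) * J) := by
      have : 2 * GLK_128.Ck m n * (1 / 2 + Ct) ≤ A := le_max_right _ _
      gcongr

end Crest.Agent.R234.LowF17_471
end
end

-- ▼ part R234/LowF18_471
section

/-!
# Row 234, (F4) LOW FREQUENCY, instance part 7 (helper471): the soft sign `SoftP`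

`softP_of` : `SoftP m n` from the one-scale statement `F3S` (354's F3 at the scale `s = e^l`, collar
`ε = 1`): `bb ≤ δ H s²`, `H = s^{-m-2} ∫_{|c.x| ≤ 2 s} 2 f dV ≤ h₁`, `|nu| ≤ hs s` there, `κ ≤ κ₁`.
-/

set_option autoImplicit false
set_option maxSynthPendingDepth 3

open MeasureTheory Filter Topology Set Metric
open scoped ENNReal NNReal ContDiff InnerProductSpace
open Crest.GeometryTopology.Submanifold Crest.Agent.R234.Vf_884
open Crest.Agent.R234.Main_456 Crest.Agent.R234.F11_435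
open Crest.Agent.R234.Gi_456 Crest.Agent.R234.Qp_534
open Crest.Agent.R234.GL_394
open Crest.Agent.R234.GI_640 (g3 g31 g32)
open Crest.Agent.R234.LowF8_471 Crest.Agent.R234.LowF9_471
open Crest.Agent.R234.LowF13_471
open Crest.Agent.R234.LowF13_471.Qx (A0 A0_le)
open Crest.Agent.R234.LowF15_471 Crest.Agent.R234.LowF16_471

noncomputable section

namespace Crest.Agent.R234.LowF18_471

/-- **one-scale soft sign** at a `Q`-point of a reference -/
def F3S (m n : ℕ) : Prop :=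
  ∀ (Q : ℕ) (δ : ℝ), 2 ≤ Q → 0 < δ → ∃ κ₁ h₁ hs : ℝ, 0 < κ₁ ∧ 0 < h₁ ∧ 0 < hs ∧
    ∀ (K : ℕ) (U : Set (Euc (m + n))) (D : VarifoldData m (m + n)) (x : Euc (m + n)) (r : ℝ)
      (π : Euc (m + n) →L[ℝ] Euc m) (ρ : Euc (m + n) →L[ℝ] Euc n) (u : Euc m → Euc n) (ε C : ℝ)
      (W : Euc m → Euc n) (κ : ℝ) (zh : Euc (m + n)), IsIntegralVarifoldIn U D →
      Qx U (VD D) Q K x r π ρ u ε C W κ zh → κ ≤ κ₁ →
      rat m (VD D) zh (16 * r) ≤ ENNReal.ofReal (Q + 1 / 8) →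
      ∀ l ≤ Real.log r - 3, ∀ K' ⊆ Kz π ρ x r W zh (h0 m Q ε), IsCompact K' →
        (∀ z ∈ K', ‖(cz π ρ x r W zh).x z‖ ≤ 2 * Real.exp l →
          ‖(cz π ρ x r W zh).nu z‖ ≤ hs * Real.exp l) →
        (∀ᵐ p ∂((VD D).restrict (Kz π ρ x r W zh (h0 m Q ε) ×ˢ univ)), p.1 ∈ K') →
        ∀ H : ℝ, ∫ p in Sh (cz π ρ x r W zh) (2 * Real.exp l), 2 * (cz π ρ x r W zh).f p.1
          ∂((VD D).restrict (Kz π ρ x r W zh (h0 m Q ε) ×ˢ univ)) ≤
            H * (Real.exp (m * l) * Real.exp (2 * l)) → 0 < H → H ≤ h₁ →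
        bz (VD D) π ρ x r W zh (h0 m Q ε) Q l ≤ δ * H * Real.exp (2 * l)

/-- **`SoftP` from the one-scale statement** -/
theorem softP_of {m n : ℕ} (hm : 1 ≤ m) (hF : F3S m n) : SoftP m n := by
  intro Q hQ
  have hm0 : (1:ℝ) ≤ m := by exact_mod_cast hm
  set A : ℝ := A0 m n Q with hA
  obtain ⟨A1, A2, A3, A4, A5⟩ := A0_le (le_refl (A0 m n Q))
  have hA1 : 1 ≤ A := by rw [hA]; linarith
  set Cc : ℝ := C1 m A (27 / 16) with hCc
  have hCc0 : 0 ≤ Cc := C1_nonneg (by linarith) (by norm_num)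
  have hCp : 0 < Cc + 1 := by linarith
  obtain ⟨κ₁, h₁, hs, hκ₁, hh₁, hhs, H⟩ := hF Q (1 / (256 * (Cc + 1))) hQ (by positivity)
  refine ⟨min (h₁ / (Cc + 1)) (hs ^ 2 / (Cc + 1)), min κ₁ (1 / (12 * m)),
    lt_min (by positivity) (by positivity), lt_min hκ₁ (by positivity), ?_⟩
  intro K U D x r π ρ u ε C W κ zh hD h hκ hrat l hl S hS hSε hSb
  have hr := h.hr
  have hk := h.k0
  have hk8 := h.κ8
  have hel := Real.exp_pos l
  have hκ12 : 12 * m * κ ≤ 1 := by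
    have h1 : κ ≤ 1 / (12 * m) := hκ.trans (min_le_right _ _)
    rw [le_div_iff₀ (by positivity)] at h1
    linarith
  have hSa : S * (Cc + 1) ≤ h₁ := by
    have := hSε.trans (min_le_left _ _)
    rwa [le_div_iff₀ hCp] at this
  have hSb' : S * (Cc + 1) ≤ hs ^ 2 := by
    have := hSε.trans (min_le_right _ _)
    rwa [le_div_iff₀ hCp] at this
  have he8 : 8 * Real.exp l ≤ r := by
    have h1 : Real.exp (l + 3) ≤ r := by
      rw [← Real.le_log_iff_exp_le hr]; linarith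
    rw [Real.exp_add] at h1
    nlinarith [exp_three]
  have hok := h.ok
  have hOn := On_of_Stat hok.cpt h.cx.st (h.Kz_U h.hs)
  have hb := LowF13_471.Qx.bw h
  have hsup : Sup (cz π ρ x r W zh) ((VD D).restrict (Kz π ρ x r W zh (h0 m Q ε) ×ˢ univ)) A
      (5 * r) := ⟨fun s t hs hst ht => LowF13_471.Qx.s1 h A3 hs hst ht,
        fun s t hs hst ht _ => LowF13_471.Qx.s2 h A4 hκ12 hs hst ht⟩
  have hmu : ∀ v : Euc m, ‖v‖ ≤ 5 * r → 1 / 2 ≤ (cz π ρ x r W zh).mu v := by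
    intro v hv
    have hs : 3 * (κ * (κ / r)) * ‖v‖ ≤ 1 / 4 := by
      calc 3 * (κ * (κ / r)) * ‖v‖ ≤ 3 * (κ * (κ / r)) * (5 * r) := by gcongr
        _ = 15 * κ ^ 2 := by field_simp; ring
        _ ≤ 1 / 4 := by nlinarith
    have h1 := (LowF12_471.Bw.pt h.gr hb 0 hs).mu_ge
    exact le_trans (by norm_num) (show 3 / 4 ≤ (cz π ρ x r W zh).mu v from h1)
  have hl8 : l + Real.log 8 ∈ Icc l (l + 3) :=
    ⟨by linarith [Real.log_nonneg (by norm_num : (1:ℝ) ≤ 8)], by linarith [log_eight]⟩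
  obtain ⟨hf4, hnu, -⟩ := level hok hOn pf_cubic.pr (b0 := 27 / 16) (A := A) (T := 5 * r)
    (by norm_num) b0_cubic hA1 hS.le (l := l) (by linarith) hmu hsup (hSb _ hl8)
  have hη : Real.sqrt (Cc * S) ≤ hs := by
    rw [Real.sqrt_le_left hhs.le]
    nlinarith
  -- the compact part
  set K' : Set (Euc (m + n)) :=
    {z | z ∈ Kz π ρ x r W zh (h0 m Q ε) ∧ ‖(cz π ρ x r W zh).nu z‖ ≤ hs * Real.exp l} ∪
    {z | z ∈ Kz π ρ x r W zh (h0 m Q ε) ∧ 5 / 2 * Real.exp l ≤ ‖(cz π ρ x r W zh).x z‖} with hK'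
  have hsub : K' ⊆ Kz π ρ x r W zh (h0 m Q ε) := union_subset (fun z hz => hz.1) (fun z hz => hz.1)
  have hKc : IsCompact K' := by
    have a1 : IsClosed {z | z ∈ Kz π ρ x r W zh (h0 m Q ε) ∧
        ‖(cz π ρ x r W zh).nu z‖ ≤ hs * Real.exp l} :=
      hok.cnu.norm.preimage_isClosed_of_isClosed hok.cpt.isClosed isClosed_Iic
    have a2 : IsClosed {z | z ∈ Kz π ρ x r W zh (h0 m Q ε) ∧
        5 / 2 * Real.exp l ≤ ‖(cz π ρ x r W zh).x z‖} :=
      hok.cx.norm.preimage_isClosed_of_isClosed hok.cpt.isClosed isClosed_Ici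
    exact hok.cpt.of_isClosed_subset (a1.union a2) hsub
  have hae : ∀ᵐ p ∂((VD D).restrict (Kz π ρ x r W zh (h0 m Q ε) ×ˢ univ)), p.1 ∈ K' := by
    filter_upwards [hOn.mem, hnu] with p h1 h2
    rcases le_total (5 / 2 * Real.exp l) ‖(cz π ρ x r W zh).x p.1‖ with h3 | h3
    · exact Or.inr ⟨h1.1, h3⟩
    · exact Or.inl ⟨h1.1, (h2 (by linarith)).trans (mul_le_mul_of_nonneg_right hη hel.le)⟩
  have hf0 : ∀ p ∈ Kz π ρ x r W zh (h0 m Q ε) ×ˢ G m (m + n), 0 ≤ 2 * (cz π ρ x r W zh).f p.1 :=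
    fun p hpm => by have := hok.f_nonneg hpm.1; linarith
  have hf2 : ∫ p in Sh (cz π ρ x r W zh) (2 * Real.exp l), 2 * (cz π ρ x r W zh).f p.1
      ∂((VD D).restrict (Kz π ρ x r W zh (h0 m Q ε) ×ˢ univ)) ≤
      ((Cc + 1) * S) * (Real.exp (m * l) * Real.exp (2 * l)) := by
    refine (int_Sh_mono hok hOn (F := fun p => 2 * (cz π ρ x r W zh).f p.1)
      (continuousOn_const.mul (lift hok.cf)) hf0 (by linarith)).trans (hf4.trans ?_)
    have : 0 ≤ S * (Real.exp (m * l) * Real.exp (2 * l)) := by positivity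
    calc _ = Cc * (S * (Real.exp (m * l) * Real.exp (2 * l))) := by rw [hCc]; ring
      _ ≤ (Cc + 1) * (S * (Real.exp (m * l) * Real.exp (2 * l))) := by gcongr; linarith
      _ = _ := by ring
  have h1 := H K U D x r π ρ u ε C W κ zh hD h (hκ.trans (min_le_left _ _)) hrat l hl K' hsub hKc
    (by
      rintro z (hz | hz) hx
      · exact hz.2
      · exact absurd hz.2 (by linarith)) hae ((Cc + 1) * S) hf2 (by positivity)
    (by linarith)
  refine h1.trans (le_of_eq ?_)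
  field_simp

/-- **`F4P` from the one-scale soft sign.** -/
theorem f4P_of_F3S {m n : ℕ} (hm : 1 ≤ m) (hF : F3S m n) (K : ℕ) : Pin11_3.F4P m n K :=
  f4P_of hm (LowF17_471.erP hm n) (softP_of hm hF) K

end Crest.Agent.R234.LowF18_471
end
end

-- ▼ part R234/Main7_456

/-!
# Row 234, VF-MAIN (helper456), version 7

S0362 and S0363 from: `DblE` (the doubling node for all large `K`), `SgE` (field sg of 534's `Inp`),
`F3E` (354's F3 at one scale, 471's form).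
-/

set_option autoImplicit false

open MeasureTheory Crest.GeometryTopology.Submanifold
open scoped ENNReal

noncomputable section

namespace Crest.Agent.R234.Main_456

open Crest.Agent.R234

/-- field `sg` for all large `K` (354 / 534) -/
def SgE : Prop := ∀ m n : ℕ, 3 ≤ m → 1 ≤ n → Pin12_3.EvK (Pin11_3.SgP m n)

/-- F3 at one scale (354 / 471) -/
def F3E : Prop := ∀ m n : ℕ, 3 ≤ m → 1 ≤ n → LowF18_471.F3S m n

theorem ctrE7 (hSg : SgE) (hF3 : F3E) : CtrE :=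
  Pin12_3.ctrE_of
    (fun m n hm _ => ⟨3, fun K hK => Qp_534.htvP (by omega) hK⟩) hSg
    (fun m n hm hn => Pin12_3.EvK.of_forall (LowF18_471.f4P_of_F3S (by omega) (hF3 m n hm hn)))
    (fun m n _ _ => Pin12_3.EvK.of_forall (Pd_435.topP m n))
    (fun m n _ _ => Pin12_3.EvK.of_forall (Pd_435.uljP m n))


/-- **S0362, version 7** -/
theorem s0362_7 (hD : DblE) (hSg : SgE) (hF3 : F3E)
    (m n : ℕ) (hm : 1 ≤ m) (hn : 1 ≤ n) (U : Set (EuclideanSpace ℝ (Fin (m + n))))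
    (hU : IsOpen U) (D : VarifoldData m (m + n)) (hDi : IsIntegralVarifoldIn U D)
    (hstat : IsStationaryIn U D) :
    dimH (singularSet m (m + n) U D) ≤ (m : ENNReal) - 1 :=
  s0362_6 hD QLeb_433.qLeb (ctrE7 hSg hF3) m n hm hn U hU D hDi hstat

/-- **S0363, version 7** -/
theorem s0363_7 (hD : DblE) (hSg : SgE) (hF3 : F3E)
    (m n : ℕ) (hm : 1 ≤ m) (hn : 1 ≤ n) (R : ℝ) (hR : 0 < R)
    (D : VarifoldData m (m + n + 1)) (hDi : IsIntegralVarifoldIn Set.univ D)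
    (hsph : ∀ i, D.chart i '' D.dom i ⊆ Metric.sphere (0 : EuclideanSpace ℝ (Fin (m + n + 1))) R)
    (hstat : ∀ X : EuclideanSpace ℝ (Fin (m + n + 1)) → EuclideanSpace ℝ (Fin (m + n + 1)),
      ContDiff ℝ 1 X → HasCompactSupport X →
      (∀ x ∈ Metric.sphere (0 : EuclideanSpace ℝ (Fin (m + n + 1))) R, inner ℝ (X x) x = 0) →
      firstVariation D X = 0) :
    μH[(m : ℝ)] (singularSet m (m + n + 1) Set.univ D) = 0 :=
  s0363_6 hD QLeb_433.qLeb (ctrE7 hSg hF3) m n hm hn R hR D hDi hsph hstat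

end Crest.Agent.R234.Main_456
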