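import Crest.Agent.R234.Qp7_534
import Crest.Agent.R234.Pd11_435
import Crest.Agent.R234.F36_354
import Crest.Agent.R234.F3t_433
import Crest.Agent.R234.Main7_456

-- ▼ part R234/Qp8_534
section

/-!
# Row 234, node QP-CH (helper534), part 8: the soft sign at a `Q`-point, numerical part
-/

set_option autoImplicit false
set_option linter.unusedVariables false
set_option linter.unusedSectionVars false

open MeasureTheory Filter Topology Set Metric
open scoped ENNReal NNReal ContDiff InnerProductSpace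
open Crest.GeometryTopology.Submanifold Crest.Agent.R234.Vf_884
open Crest.Agent.R234.Main_456 Crest.Agent.R234.F11_435
open Crest.Agent.R234.Gi_456
open Crest.Agent.R234.AS_456 (hp vp)
open Crest.Agent.R234.GI_640 (g3 g31 g32)
open Crest.Agent.R234.GL_394 (Ch Ok On VK Pf pf_cubic KB TV)

noncomputable section

namespace Crest.Agent.R234.Qp_534

variable {m n k : ℕ}

theorem exp_cTop_ge {r : ℝ} (hr : 0 < r) : 5 / 2 * r ≤ Real.exp (cTop r) := by
  unfold cTop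
  rw [Real.exp_add, Real.exp_add, Real.exp_log hr, Real.exp_log (by norm_num)]
  have := Real.add_one_le_exp (1 / 4 : ℝ)
  nlinarith

variable {U : Set (Euc k)} {V : Measure (Euc k × L k)} {Q K : ℕ} {x : Euc k} {r : ℝ}
  {π : Euc k →L[ℝ] Euc m} {ρ : Euc k →L[ℝ] Euc n} {u : Euc m → Euc n} {ε C : ℝ}
  {W : Euc m → Euc n} {κ : ℝ} {zh : Euc k}

namespace Qx

variable (h : Qx U V Q K x r π ρ u ε C W κ zh)

include h

theorem cx_cont : ContinuousOn (fun p : Euc k × L k => (cz π ρ x r W zh).x p.1)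
    (Kz π ρ x r W zh (h0 m Q ε) ×ˢ G m k) := by
  intro p hp
  exact ((h.ok.hx p.1 hp.1).continuousAt.comp continuousAt_fst).continuousWithinAt

theorem cf_cont : ContinuousOn (fun p : Euc k × L k => (cz π ρ x r W zh).f p.1)
    (Kz π ρ x r W zh (h0 m Q ε) ×ˢ G m k) := by
  intro p hp
  exact ((h.ok.hf p.1 hp.1).continuousAt.comp continuousAt_fst).continuousWithinAt

theorem int_2f : Integrable (fun p : Euc k × L k => 2 * (cz π ρ x r W zh).f p.1)
    (Vz V π ρ x r W zh (h0 m Q ε)) :=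
  h.on.integrable h.ok.cpt (continuousOn_const.mul h.cf_cont)

/-- the height excess of the ball of radius `9/4 r` -/
theorem int_2f_le (hκ : (0:ℝ) ≤ κ) {t : ℝ} (ht : t ≤ 9 / 4 * r) :
    ∫ p in {p : Euc k × L k | ‖(cz π ρ x r W zh).x p.1‖ ≤ t}, 2 * (cz π ρ x r W zh).f p.1
      ∂(Vz V π ρ x r W zh (h0 m Q ε)) ≤
      6 * (3 * r) ^ m * Iz V π ρ x r W zh (h0 m Q ε) (cTop r) := by
  have hr := h.hr
  have hon := h.on
  have hfin := hon.fin
  set c := cz π ρ x r W zh with hc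
  set S := Kz π ρ x r W zh (h0 m Q ε) with hS
  set F : Euc k × L k → ℝ := fun p => (c.f p.1 * c.mu (c.x p.1)) *
      (-4 * g31 (Real.exp (-2 * cTop r) * ‖c.x p.1‖ ^ 2)) with hF
  have cg : Continuous g31 := by unfold g31; fun_prop
  have hFi : Integrable F (Vz V π ρ x r W zh (h0 m Q ε)) := by
    refine hon.integrable h.ok.cpt ?_
    refine (h.cf_cont.mul (h.ok.cmu.comp h.cx_cont fun p hp => mem_univ _)).mul
      (continuousOn_const.mul (cg.comp_continuousOn (continuousOn_const.mul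
        ((continuous_norm.comp_continuousOn h.cx_cont).pow 2))))
  have hpos : ∀ p ∈ S ×ˢ G m k, 0 ≤ F p := by
    intro p hp
    have h1 := f_nonneg h.ok hp.1
    have h2 := h.mu_ge (c.x p.1)
    have h3 := GI_640.g31_nonpos (Real.exp (-2 * cTop r) * ‖c.x p.1‖ ^ 2)
    have h4 : 0 ≤ c.mu (c.x p.1) := by linarith
    have h5 : 0 ≤ -4 * g31 (Real.exp (-2 * cTop r) * ‖c.x p.1‖ ^ 2) := by linarith
    exact mul_nonneg (mul_nonneg h1 h4) h5
  have hpt : ∀ p ∈ S ×ˢ G m k, ‖c.x p.1‖ ≤ t → 2 * c.f p.1 ≤ 6 * F p := by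
    intro p hp hx
    have h1 := f_nonneg h.ok hp.1
    have h2 := h.mu_ge (c.x p.1)
    have e1 : Real.exp (-2 * cTop r) * ‖c.x p.1‖ ^ 2 ≤ 81 / 100 := by
      have e2 := exp_cTop_ge hr
      have e3 : Real.exp (-2 * cTop r) = (Real.exp (cTop r) ^ 2)⁻¹ := by
        rw [← Real.exp_nat_mul, ← Real.exp_neg]; congr 1; push_cast; ring
      rw [e3, inv_mul_le_iff₀ (by positivity)]
      have e4 : ‖c.x p.1‖ ^ 2 ≤ (9 / 4 * r) ^ 2 := by
        have := norm_nonneg (c.x p.1)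
        have := hx.trans ht
        gcongr
      have e5 : (5 / 2 * r) ^ 2 ≤ Real.exp (cTop r) ^ 2 := by gcongr
      nlinarith
    have h3 := GI_640.g31_lower' (a := 81 / 100) (by norm_num) e1
    set G1 := g31 (Real.exp (-2 * cTop r) * ‖c.x p.1‖ ^ 2) with hG1
    set μ := c.mu (c.x p.1) with hμ
    have h4 : (1083 / 10000 : ℝ) ≤ -G1 := by norm_num at h3; linarith
    have h5 : (1 / 3 : ℝ) ≤ μ * (-4 * G1) := by nlinarith
    show 2 * c.f p.1 ≤ 6 * ((c.f p.1 * μ) * (-4 * G1))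
    nlinarith
  have hmeas : ∫ p in {p : Euc k × L k | ‖c.x p.1‖ ≤ t}, 2 * c.f p.1
      ∂(Vz V π ρ x r W zh (h0 m Q ε)) ≤ 6 * ∫ p, F p ∂(Vz V π ρ x r W zh (h0 m Q ε)) := by
    have h1 : ∫ p in {p : Euc k × L k | ‖c.x p.1‖ ≤ t}, 2 * c.f p.1
      ∂(Vz V π ρ x r W zh (h0 m Q ε)) ≤ ∫ p in {p : Euc k × L k | ‖c.x p.1‖ ≤ t}, 6 * F p
      ∂(Vz V π ρ x r W zh (h0 m Q ε)) := by
      have hn : NullMeasurableSet {p : Euc k × L k | ‖c.x p.1‖ ≤ t}
          (Vz V π ρ x r W zh (h0 m Q ε)) := by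
        have h0 : AEStronglyMeasurable (fun p : Euc k × L k => c.x p.1)
          (Vz V π ρ x r W zh (h0 m Q ε)) := by
          rw [← Measure.restrict_eq_self_of_ae_mem hon.mem]
          exact h.cx_cont.aestronglyMeasurable
            (h.ok.cpt.isClosed.measurableSet.prod (measurableSet_G m k))
        exact nullMeasurableSet_le h0.norm.aemeasurable aemeasurable_const
      refine integral_mono_ae h.int_2f.integrableOn (hFi.const_mul 6).integrableOn ?_
      filter_upwards [ae_restrict_of_ae hon.mem, ae_restrict_mem₀ hn] with p hp hp2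
      exact hpt p hp hp2
    refine h1.trans ?_
    rw [← integral_const_mul]
    refine setIntegral_le_integral (hFi.const_mul 6) ?_
    filter_upwards [hon.mem] with p hp
    have := hpos p hp
    show 0 ≤ 6 * F p
    linarith
  refine hmeas.trans ?_
  have h7 : ∫ p, F p ∂(Vz V π ρ x r W zh (h0 m Q ε)) =
      Real.exp (m * cTop r) * Iz V π ρ x r W zh (h0 m Q ε) (cTop r) := by
    unfold Iz GL_394.II
    rw [← mul_assoc, ← Real.exp_add]
    have : (m : ℝ) * cTop r + -m * cTop r = 0 := by ring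
    rw [this, Real.exp_zero, one_mul]
  rw [h7]
  have h8 : Real.exp (m * cTop r) ≤ (3 * r) ^ m := by
    rw [Real.exp_nat_mul]
    exact pow_le_pow_left₀ (Real.exp_pos _).le (exp_cTop hr) m
  have h9 := h.Iz_nonneg (cTop r)
  calc 6 * (Real.exp (m * cTop r) * Iz V π ρ x r W zh (h0 m Q ε) (cTop r)) ≤
        6 * ((3 * r) ^ m * Iz V π ρ x r W zh (h0 m Q ε) (cTop r)) := by gcongr
    _ = _ := by ring

end Qx


/-! ### numerics -/

theorem log_small {η : ℝ} (hη : 0 < η) : ∃ H1 : ℝ, 0 < H1 ∧ ∀ H : ℝ, 0 < H → H ≤ H1 →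
    (Real.log (1 / H))⁻¹ ≤ η ∧ 0 < Real.log (1 / H) := by
  refine ⟨Real.exp (-(1 / η)), Real.exp_pos _, fun H hH hH1 => ?_⟩
  have h1 : 1 / η ≤ Real.log (1 / H) := by
    have e1 : Real.log (1 / H) = -Real.log H := by rw [one_div, Real.log_inv]
    rw [e1]
    have := Real.log_le_log hH hH1
    rw [Real.log_exp] at this
    linarith
  have h2 : 0 < 1 / η := by positivity
  have h3 : 0 < Real.log (1 / H) := by linarith
  refine ⟨?_, h3⟩
  rw [inv_le_comm₀ h3 hη]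
  rwa [one_div] at h1

/-- the numbers of the soft sign -/
theorem sg_num {m : ℕ} {H0 Cf C1 lm θ ec : ℝ} (hH0 : 0 < H0) (hCf : 0 ≤ Cf) (hC1 : 1 ≤ C1)
    (hθ : 0 < θ) (hec : 0 < ec) : ∃ θ' : ℝ, 0 < θ' ∧ ∀ (κ r J Jb s : ℝ), 0 ≤ κ → κ ≤ θ' → 0 < r →
    0 < J → Real.exp (-2 * cTop r) * J ≤ θ' → J ≤ C1 * Jb → Real.exp (lm - 2) * r ≤ s →
    0 < 6 * (3 * r) ^ m * J / s ^ (m + 2) ∧ 6 * (3 * r) ^ m * J / s ^ (m + 2) ≤ H0 ∧
      (Real.log (1 / (6 * (3 * r) ^ m * J / s ^ (m + 2))))⁻¹ ≤ ec ∧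
      0 < Real.log (1 / (6 * (3 * r) ^ m * J / s ^ (m + 2))) ∧
      s ^ 2 * (Cf * κ ^ 2 * (6 * (3 * r) ^ m * J / s ^ (m + 2)) +
        (Real.log (1 / (6 * (3 * r) ^ m * J / s ^ (m + 2))))⁻¹ *
          (6 * (3 * r) ^ m * J / s ^ (m + 2))) ≤ θ * Jb := by
  set q : ℝ := Real.exp (lm - 2) with hq
  have hq0 : 0 < q := Real.exp_pos _
  set C7 : ℝ := 6 * 3 ^ m / q ^ m with hC7
  have hC70 : 0 < C7 := by rw [hC7]; positivity
  set C6 : ℝ := 6 * 3 ^ m * 9 / q ^ (m + 2) with hC6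
  have hC60 : 0 < C6 := by rw [hC6]; positivity
  set η : ℝ := θ / (2 * C1 * C7) with hη
  have hη0 : 0 < η := by rw [hη]; positivity
  obtain ⟨H1, hH1, hlog⟩ := log_small (η := min η ec) (lt_min hη0 hec)
  refine ⟨min (min 1 (η / (Cf + 1))) (min (H0 / C6) (H1 / C6)), ?_, ?_⟩
  · refine lt_min (lt_min one_pos (by positivity)) (lt_min (by positivity) (by positivity))
  intro κ r J Jb s hκ hκ' hr hJ hJ' hJb hs
  have k1 : κ ≤ 1 := hκ'.trans ((min_le_left _ _).trans (min_le_left _ _))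
  have k2 : κ ≤ η / (Cf + 1) := hκ'.trans ((min_le_left _ _).trans (min_le_right _ _))
  have j1 : Real.exp (-2 * cTop r) * J ≤ H0 / C6 :=
    hJ'.trans ((min_le_right _ _).trans (min_le_left _ _))
  have j2 : Real.exp (-2 * cTop r) * J ≤ H1 / C6 :=
    hJ'.trans ((min_le_right _ _).trans (min_le_right _ _))
  have hs0 : 0 < s := lt_of_lt_of_le (by positivity) hs
  set H : ℝ := 6 * (3 * r) ^ m * J / s ^ (m + 2) with hH
  have hHp : 0 < H := by rw [hH]; positivity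
  -- `s² H ≤ C7 J`
  have a1 : s ^ 2 * H ≤ C7 * J := by
    rw [hH, hC7]
    have e1 : s ^ 2 * (6 * (3 * r) ^ m * J / s ^ (m + 2)) = 6 * (3 * r) ^ m * J / s ^ m := by
      rw [pow_add]; field_simp
    rw [e1, mul_pow]
    have e2 : (q * r) ^ m ≤ s ^ m := by gcongr
    calc 6 * (3 ^ m * r ^ m) * J / s ^ m ≤ 6 * (3 ^ m * r ^ m) * J / (q * r) ^ m := by gcongr
      _ = _ := by rw [mul_pow]; field_simp
  -- `H ≤ C6 e^{-2c} J`
  have a2 : H ≤ C6 * (Real.exp (-2 * cTop r) * J) := by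
    have e3 : Real.exp (-2 * cTop r) = (Real.exp (cTop r) ^ 2)⁻¹ := by
      rw [← Real.exp_nat_mul, ← Real.exp_neg]; congr 1; push_cast; ring
    have e4 : (1:ℝ) / (9 * r ^ 2) ≤ Real.exp (-2 * cTop r) := by
      rw [e3, ← one_div]
      apply one_div_le_one_div_of_le (by positivity)
      calc Real.exp (cTop r) ^ 2 ≤ (3 * r) ^ 2 := by
            have := exp_cTop hr
            gcongr
        _ = _ := by ring
    have e5 : (q * r) ^ (m + 2) ≤ s ^ (m + 2) := by gcongr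
    calc H ≤ 6 * (3 * r) ^ m * J / (q * r) ^ (m + 2) := by rw [hH]; gcongr
      _ = C6 * (1 / (9 * r ^ 2) * J) := by
          rw [hC6, mul_pow, mul_pow, pow_add, pow_add]; field_simp
      _ ≤ _ := by gcongr
  have b1 : H ≤ H0 := by
    calc H ≤ C6 * (Real.exp (-2 * cTop r) * J) := a2
      _ ≤ C6 * (H0 / C6) := by gcongr
      _ = H0 := by field_simp
  have b2 : H ≤ H1 := by
    calc H ≤ C6 * (Real.exp (-2 * cTop r) * J) := a2
      _ ≤ C6 * (H1 / C6) := by gcongr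
      _ = H1 := by field_simp
  obtain ⟨c1, c2⟩ := hlog H hHp b2
  refine ⟨hHp, b1, c1.trans (min_le_right _ _), c2, ?_⟩
  have c3 : (Real.log (1 / H))⁻¹ ≤ η := c1.trans (min_le_left _ _)
  have c4 : Cf * κ ^ 2 ≤ η := by
    have e1 : κ ^ 2 ≤ κ := by nlinarith
    have e2 : Cf * κ ^ 2 ≤ Cf * (η / (Cf + 1)) := by gcongr; linarith
    refine e2.trans ?_
    rw [← mul_div_assoc, div_le_iff₀ (by positivity)]
    nlinarith
  have hJb0 : 0 < Jb := by
    by_contra hcon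
    push Not at hcon
    have : C1 * Jb ≤ 0 := mul_nonpos_of_nonneg_of_nonpos (by linarith) hcon
    linarith
  calc s ^ 2 * (Cf * κ ^ 2 * H + (Real.log (1 / H))⁻¹ * H) =
        (Cf * κ ^ 2 + (Real.log (1 / H))⁻¹) * (s ^ 2 * H) := by ring
    _ ≤ (η + η) * (C7 * J) := by
        have : 0 ≤ s ^ 2 * H := by positivity
        gcongr
    _ ≤ (η + η) * (C7 * (C1 * Jb)) := by gcongr
    _ = θ * Jb := by rw [hη]; field_simp; ring

end Crest.Agent.R234.Qp_534
end
end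

-- ▼ part R234/Qp9_534
section

/-!
# Row 234, node QP-CH (helper534), part 9: the chart of a `Q`-point with the tube radius `s`
-/

set_option autoImplicit false
set_option linter.unusedVariables false
set_option linter.unusedSectionVars false

open MeasureTheory Filter Topology Set Metric
open scoped ENNReal NNReal ContDiff InnerProductSpace
open Crest.GeometryTopology.Submanifold Crest.Agent.R234.Vf_884
open Crest.Agent.R234.Main_456 Crest.Agent.R234.F11_435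
open Crest.Agent.R234.Gi_456
open Crest.Agent.R234.AS_456 (hp vp)
open Crest.Agent.R234.GI_640 (g3 g31 g32)
open Crest.Agent.R234.GL_394 (Ch Ok On VK Pf pf_cubic KB TV)

noncomputable section

namespace Crest.Agent.R234.Qp_534

variable {m n k : ℕ}

local notation "adj" => ContinuousLinearMap.adjoint

/-! ### change of the radius of the tube -/

section radius
variable {π : Euc k →L[ℝ] Euc m} {ρ : Euc k →L[ℝ] Euc n} {x : Euc k} {r s : ℝ} {w : Euc m → Euc n}

theorem foot_radius (h : Gr r w) (h' : Gr s w) {z : Euc k} (hz : z ∈ tube π ρ x r w)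
    (hz' : z ∈ tube π ρ x s w) : foot π ρ x r w z = foot π ρ x s w z := by
  rcases le_total s r with hsr | hsr
  · exact h.foot_eq ⟨(h'.foot_spec hz').1, (h'.foot_spec hz').2.trans (by linarith)⟩
  · exact (h'.foot_eq ⟨(h.foot_spec hz).1, (h.foot_spec hz).2.trans (by linarith)⟩).symm

theorem yy_radius (h : Gr r w) (h' : Gr s w) {z : Euc k} (hz : z ∈ tube π ρ x r w)
    (hz' : z ∈ tube π ρ x s w) : yy π ρ x r w z = yy π ρ x s w z := by
  unfold yy
  rw [foot_radius h h' hz hz']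

variable {X0 : Euc m}

theorem ch_x_radius (h : Gr r w) (h' : Gr s w) {z : Euc k} (hz : z ∈ tube π ρ x r w)
    (hz' : z ∈ tube π ρ x s w) : (ch π ρ x r w X0).x z = (ch π ρ x s w X0).x z := by
  show Lo (fderiv ℝ w X0) (foot π ρ x r w z - X0) = Lo (fderiv ℝ w X0) (foot π ρ x s w z - X0)
  rw [foot_radius h h' hz hz']

theorem ch_nu_radius (h : Gr r w) (h' : Gr s w) {z : Euc k} (hz : z ∈ tube π ρ x r w)
    (hz' : z ∈ tube π ρ x s w) : (ch π ρ x r w X0).nu z = (ch π ρ x s w X0).nu z := by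
  show Bt π ρ w (foot π ρ x r w z) (yy π ρ x r w z) = Bt π ρ w (foot π ρ x s w z) (yy π ρ x s w z)
  rw [foot_radius h h' hz hz', yy_radius h h' hz hz']

theorem ch_f_radius (h : Gr r w) (h' : Gr s w) {z : Euc k} (hz : z ∈ tube π ρ x r w)
    (hz' : z ∈ tube π ρ x s w) : (ch π ρ x r w X0).f z = (ch π ρ x s w X0).f z := by
  show ‖Bt π ρ w (foot π ρ x r w z) (yy π ρ x r w z)‖ ^ 2 / 2 =
    ‖Bt π ρ w (foot π ρ x s w z) (yy π ρ x s w z)‖ ^ 2 / 2
  rw [foot_radius h h' hz hz', yy_radius h h' hz hz']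

theorem ch_tau_radius (h : Gr r w) (h' : Gr s w) {z : Euc k} (hz : z ∈ tube π ρ x r w)
    (hz' : z ∈ tube π ρ x s w) (P : L k) :
    (ch π ρ x r w X0).tau z P = (ch π ρ x s w X0).tau z P := by
  show tr (GLK_128.NN (adj π) (adj ρ) (fderiv ℝ w (foot π ρ x r w z))
    (hinv (fderiv ℝ w (foot π ρ x r w z))) ∘L P) = tr (GLK_128.NN (adj π) (adj ρ)
      (fderiv ℝ w (foot π ρ x s w z)) (hinv (fderiv ℝ w (foot π ρ x s w z))) ∘L P)
  rw [foot_radius h h' hz hz']

theorem bb_radius (h : Gr r w) (h' : Gr s w) {S : Set (Euc k)} (hS : IsCompact S)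
    (hr : S ⊆ tube π ρ x r w) (hs : S ⊆ tube π ρ x s w) (V : Measure (Euc k × L k))
    (g : ℝ → ℝ) (Q l : ℝ) : GL_394.bb (ch π ρ x r w X0) (VK V S) g Q l =
      GL_394.bb (ch π ρ x s w X0) (VK V S) g Q l := by
  have hSm : MeasurableSet (S ×ˢ (univ : Set (L k))) :=
    hS.isClosed.measurableSet.prod MeasurableSet.univ
  have hae : ∀ᵐ p ∂(VK V S), p.1 ∈ S := by
    filter_upwards [ae_restrict_mem hSm] with p hp
    exact hp.1
  have e1 : ∫ p, 1 * g (Real.exp (-2 * l) * ‖(ch π ρ x r w X0).x p.1‖ ^ 2) ∂(VK V S) =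
      ∫ p, 1 * g (Real.exp (-2 * l) * ‖(ch π ρ x s w X0).x p.1‖ ^ 2) ∂(VK V S) := by
    refine integral_congr_ae ?_
    filter_upwards [hae] with p hp
    rw [ch_x_radius h h' (hr hp) (hs hp)]
  have e2 : ∫ p, (ch π ρ x r w X0).tau p.1 p.2 *
        g (Real.exp (-2 * l) * ‖(ch π ρ x r w X0).x p.1‖ ^ 2) ∂(VK V S) =
      ∫ p, (ch π ρ x s w X0).tau p.1 p.2 *
        g (Real.exp (-2 * l) * ‖(ch π ρ x s w X0).x p.1‖ ^ 2) ∂(VK V S) := by
    refine integral_congr_ae ?_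
    filter_upwards [hae] with p hp
    rw [ch_x_radius h h' (hr hp) (hs hp), ch_tau_radius h h' (hr hp) (hs hp)]
  unfold GL_394.bb GL_394.EE GL_394.ee
  rw [e1, e2]
  rfl

end radius

variable {U : Set (Euc k)} {V : Measure (Euc k × L k)} {Q K : ℕ} {x : Euc k} {r : ℝ}
  {π : Euc k →L[ℝ] Euc m} {ρ : Euc k →L[ℝ] Euc n} {u : Euc m → Euc n} {ε C : ℝ}
  {W : Euc m → Euc n} {κ : ℝ} {zh : Euc k}

/-- the chart at the `Q`-point with the tube of radius `s` -/
def cs (π : Euc k →L[ℝ] Euc m) (ρ : Euc k →L[ℝ] Euc n) (x : Euc k) (r : ℝ) (W : Euc m → Euc n)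
    (zh : Euc k) (s : ℝ) : GL_394.Ch m k := ch π ρ zh s (wz π x zh r W) 0

namespace Qx

variable (h : Qx U V Q K x r π ρ u ε C W κ zh)

include h

theorem gr_s {s : ℝ} (hs : 0 < s) (hs2 : s ≤ 2 * r) (hκ : κ ≤ 1 / 16) :
    Gr s (wz π x zh r W) where
  pos := hs
  cd := h.gr.cd
  d1 := h.gr.d1
  d2 := fun X => (h.ext.d2 h.hr (by have := h.hK; omega) X).trans (by
    have hr := h.hr
    have hk := h.k0
    rw [div_le_div_iff₀ hr (by positivity)]
    nlinarith)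

/-- `Kz` lies in the tube of radius `s` -/
theorem Kz_sub_s {s : ℝ} (hs : 4 * h0 m Q ε * r < s) :
    Kz π ρ x r W zh (h0 m Q ε) ⊆ tube π ρ zh s (wz π x zh r W) := by
  intro p hp
  obtain ⟨h1, h2, h3⟩ := h.Kz_spec h.hs hp
  have h4 := h.gr.le_norm_yy h1
  have h5 := h0_nonneg m Q ε
  have hr := h.hr
  show ‖ρ (p - zh) - wz π x zh r W (π (p - zh))‖ < s
  have h6 : 9 / 8 * ‖yy π ρ zh r (wz π x zh r W) p‖ ≤ 9 / 8 * (3 * h0 m Q ε * r) := by gcongr
  have h7 : 0 ≤ h0 m Q ε * r := by positivity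
  linarith

/-- points of the tube of radius `s ≤ 2 r` over `|foot| ≤ 3 r` lie in the box -/
theorem tube_s_box {s : ℝ} (hs : 0 < s) (hs2 : s ≤ 2 * r) (hκ : κ ≤ 1 / 16) {p : Euc k}
    (hp : p ∈ tube π ρ zh s (wz π x zh r W))
    (hx : ‖foot π ρ zh s (wz π x zh r W) p‖ ≤ 3 * r) : p ∈ box π ρ x (7 * r) := by
  have hr := h.hr
  have hg := h.gr_s hs hs2 hκ
  have hp' : ‖ρ (p - zh) - wz π x zh r W (π (p - zh))‖ < s := hp
  have h1 := hg.norm_foot_sub hp
  have h2 : ‖π (p - zh)‖ ≤ 3 * r + s / 4 := by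
    have h3 := norm_le_norm_add_norm_sub (foot π ρ zh s (wz π x zh r W) p) (π (p - zh))
    linarith
  have h3 := h.norm_wz_le (π (p - zh))
  have h4 : ‖ρ (p - zh)‖ ≤ s + 1 / 8 * (3 * r + s / 4) := by
    have h5 := norm_le_norm_add_norm_sub' (ρ (p - zh)) (wz π x zh r W (π (p - zh)))
    linarith
  have e : p - x = (p - zh) + (zh - x) := by abel
  have h5 := h.norm_pi_z
  have h6 := h.norm_rho_z
  constructor
  · rw [e, map_add]
    have := norm_add_le (π (p - zh)) (π (zh - x))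
    linarith
  · rw [e, map_add]
    have := norm_add_le (ρ (p - zh)) (ρ (zh - x))
    linarith

/-- **`Loc` in the tube of radius `s`** -/
theorem loc_s {s L' : ℝ} (hs : 4 * h0 m Q ε * r < s) (hs2 : s ≤ 2 * r) (hκ : κ ≤ 1 / 16)
    (hL : Real.exp L' ≤ 3 * r) :
    GL_394.Loc (cs π ρ x r W zh s) U (tube π ρ zh s (wz π x zh r W))
      (Kz π ρ x r W zh (h0 m Q ε)) V L' where
  st := h.cx.st
  opU := h.opU
  cpt := isCompact_Kz h.gr _
  sub := fun p hp => ⟨h.Kz_sub_s hs hp, h.Kz_U h.hs hp⟩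
  gap := by
    have hr := h.hr
    have hh := h0_nonneg m Q ε
    have hs0 : 0 < s := lt_of_le_of_lt (by positivity) hs
    have hg := h.gr_s hs0 hs2 hκ
    filter_upwards [h.cx.th, h.gap] with p hp hgap hpt hpx
    have hfoot : ‖foot π ρ zh s (wz π x zh r W) p.1‖ ≤ 3 * r := by
      have h1 : ‖foot π ρ zh s (wz π x zh r W) p.1‖ ≤ ‖(cs π ρ x r W zh s).x p.1‖ := by
        have h2 := le_norm_Lo (fderiv ℝ (wz π x zh r W) 0)
          (foot π ρ zh s (wz π x zh r W) p.1 - 0)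
        rw [sub_zero] at h2
        show _ ≤ ‖Lo (fderiv ℝ (wz π x zh r W) 0) (foot π ρ zh s (wz π x zh r W) p.1 - 0)‖
        rw [sub_zero]
        exact h2
      exact (h1.trans hpx).trans hL
    have hbox := h.tube_s_box hs0 hs2 hκ hpt.1 hfoot
    have h1 := hp hpt.2
    have hT := h.mem_Tz_of_box hbox h1
    refine hgap ⟨hT, hpt.2⟩ ?_
    have hT' : p.1 ∈ tube π ρ zh r (wz π x zh r W) := hT
    rw [foot_radius h.gr hg hT' hpt.1]
    linarith

end Qx

end Crest.Agent.R234.Qp_534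
end
end

-- ▼ part R234/Qp10_534
section

/-!
# Row 234, node QP-CH (helper534), part 10: `SgP` from F3 at the scale `s` in the tube of radius `s`
-/

set_option autoImplicit false
set_option linter.unusedVariables false
set_option linter.unusedSectionVars false

open MeasureTheory Filter Topology Set Metric
open scoped ENNReal NNReal ContDiff InnerProductSpace
open Crest.GeometryTopology.Submanifold Crest.Agent.R234.Vf_884
open Crest.Agent.R234.Main_456 Crest.Agent.R234.F11_435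
open Crest.Agent.R234.Gi_456
open Crest.Agent.R234.AS_456 (hp vp)
open Crest.Agent.R234.GI_640 (g3 g31 g32)
open Crest.Agent.R234.GL_394 (Ch Ok On VK Pf pf_cubic KB TV bb Loc)

noncomputable section

namespace Crest.Agent.R234.Qp_534

variable {m n k : ℕ}

local notation "adj" => ContinuousLinearMap.adjoint

/-! ### the profile -/

/-- `g3` on `t ≥ 0` -/
def gp (t : ℝ) : ℝ := g3 (max t 0)

theorem gp_eq {t : ℝ} (ht : 0 ≤ t) : gp t = g3 t := by unfold gp; rw [max_eq_left ht]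

theorem gp_nonneg (t : ℝ) : 0 ≤ gp t := GI_640.g3_nonneg _

theorem gp_le (t : ℝ) : gp t ≤ 1 := GI_640.g3_le_one (le_max_right _ _)

theorem gp_zero (t : ℝ) (ht : 1 ≤ t) : gp t = 0 := by
  rw [gp_eq (by linarith)]
  unfold g3
  rw [max_eq_left (by linarith)]
  norm_num

theorem g3_lip {a b : ℝ} (ha : 0 ≤ a) (hb : 0 ≤ b) :
    |g3 (a ^ 2) - g3 (b ^ 2)| ≤ 6 * |a - b| := by
  wlog hab : a ≤ b generalizing a b with H
  · rw [abs_sub_comm, abs_sub_comm a b]
    exact H hb ha (by linarith)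
  have e0 : |a - b| = b - a := by rw [abs_sub_comm, abs_of_nonneg (by linarith)]
  rw [e0]
  unfold g3
  rcases le_total 1 a with h1 | h1
  · have h2 : max 0 (1 - a ^ 2) = 0 := max_eq_left (by nlinarith)
    have h3 : max 0 (1 - b ^ 2) = 0 := max_eq_left (by nlinarith)
    rw [h2, h3]
    simp
    linarith
  · have h2 : max 0 (1 - a ^ 2) = 1 - a ^ 2 := max_eq_right (by nlinarith)
    rw [h2]
    have hA0 : 0 ≤ 1 - a ^ 2 := by nlinarith
    have hA1 : 1 - a ^ 2 ≤ 1 := by nlinarith [sq_nonneg a]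
    rcases le_total 1 b with h4 | h4
    · have h3 : max 0 (1 - b ^ 2) = 0 := max_eq_left (by nlinarith)
      rw [h3]
      have e1 : (1 - a ^ 2) ^ 3 ≤ 1 - a ^ 2 := by
        have := mul_nonneg hA0 hA0
        have := mul_nonneg this hA0
        nlinarith [mul_nonneg hA0 (sub_nonneg.2 hA1)]
      have e2 : 1 - a ^ 2 ≤ 2 * (b - a) := by nlinarith
      rw [zero_pow (by norm_num), sub_zero, abs_of_nonneg (by positivity)]
      linarith
    · have h3 : max 0 (1 - b ^ 2) = 1 - b ^ 2 := max_eq_right (by nlinarith)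
      rw [h3]
      have hB0 : 0 ≤ 1 - b ^ 2 := by nlinarith
      have hB1 : 1 - b ^ 2 ≤ 1 := by nlinarith [sq_nonneg b]
      have hBA : 1 - b ^ 2 ≤ 1 - a ^ 2 := by nlinarith
      set A := 1 - a ^ 2 with hA
      set B := 1 - b ^ 2 with hB
      have e1 : A ^ 3 - B ^ 3 = (A - B) * (A ^ 2 + A * B + B ^ 2) := by ring
      have e2 : A - B ≤ 2 * (b - a) := by rw [hA, hB]; nlinarith
      have e3 : 0 ≤ A - B := by linarith
      have e4 : A ^ 2 + A * B + B ^ 2 ≤ 3 := by nlinarith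
      have e5 : 0 ≤ A ^ 2 + A * B + B ^ 2 := by positivity
      rw [e1, abs_of_nonneg (mul_nonneg e3 e5)]
      calc (A - B) * (A ^ 2 + A * B + B ^ 2) ≤ (2 * (b - a)) * 3 :=
            mul_le_mul e2 e4 e5 (by linarith)
        _ = _ := by ring

theorem gp_lip : LipschitzWith 6 (fun v : Euc m => gp (‖v‖ ^ 2)) := by
  refine LipschitzWith.of_dist_le_mul fun v v' => ?_
  rw [Real.dist_eq, dist_eq_norm, gp_eq (sq_nonneg _), gp_eq (sq_nonneg _)]
  have h1 := g3_lip (norm_nonneg v) (norm_nonneg v')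
  have h2 := abs_norm_sub_norm_le v v'
  calc |g3 (‖v‖ ^ 2) - g3 (‖v'‖ ^ 2)| ≤ 6 * |‖v‖ - ‖v'‖| := h1
    _ ≤ 6 * ‖v - v'‖ := by gcongr
    _ = _ := by norm_num

theorem bb_gp (c : Ch m k) (V : Measure (Euc k × L k)) (Q l : ℝ) :
    bb c V gp Q l = bb c V g3 Q l := by
  have e : ∀ y : ℝ, gp (Real.exp (-2 * l) * y ^ 2) = g3 (Real.exp (-2 * l) * y ^ 2) := fun y =>
    gp_eq (by positivity)
  unfold GL_394.bb GL_394.EE GL_394.ee
  simp only [e]

variable {U : Set (Euc k)} {V : Measure (Euc k × L k)} {Q K : ℕ} {x : Euc k} {r : ℝ}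
  {π : Euc k →L[ℝ] Euc m} {ρ : Euc k →L[ℝ] Euc n} {u : Euc m → Euc n} {ε C : ℝ}
  {W : Euc m → Euc n} {κ : ℝ} {zh : Euc k}

namespace Qx

variable (h : Qx U V Q K x r π ρ u ε C W κ zh)

include h

theorem ae_Kz : ∀ᵐ p ∂(VK V (Kz π ρ x r W zh (h0 m Q ε))), p.1 ∈ Kz π ρ x r W zh (h0 m Q ε) := by
  have hK : MeasurableSet (Kz π ρ x r W zh (h0 m Q ε) ×ˢ (univ : Set (L k))) :=
    (isCompact_Kz h.gr _).isClosed.measurableSet.prod MeasurableSet.univ
  filter_upwards [ae_restrict_mem hK] with p hp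
  exact hp.1

theorem Wt_s {s : ℝ} (hs : 4 * h0 m Q ε * r < s) (hs2 : s ≤ 2 * r) (hκ : κ ≤ 1 / 16) (t : ℝ) :
    {z | z ∈ Kz π ρ x r W zh (h0 m Q ε) ∧ ‖(ch π ρ zh s (wz π x zh r W) 0).x z‖ < t} =
      LowF14_471.Wt (cz π ρ x r W zh) (Kz π ρ x r W zh (h0 m Q ε)) t := by
  have hr := h.hr
  have hh := h0_nonneg m Q ε
  have hs0 : 0 < s := lt_of_le_of_lt (by positivity) hs
  have hg := h.gr_s hs0 hs2 hκ
  ext z
  constructor
  · rintro ⟨h1, h2⟩
    refine ⟨h1, ?_⟩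
    rw [← ch_x_radius h.gr hg (h.Kz_spec h.hs h1).1 (h.Kz_sub_s hs h1)] at h2
    exact h2
  · rintro ⟨h1, h2⟩
    refine ⟨h1, ?_⟩
    rw [← ch_x_radius h.gr hg (h.Kz_spec h.hs h1).1 (h.Kz_sub_s hs h1)]
    exact h2

theorem f_s {s : ℝ} (hs : 4 * h0 m Q ε * r < s) (hs2 : s ≤ 2 * r) (hκ : κ ≤ 1 / 16) {z : Euc k}
    (hz : z ∈ Kz π ρ x r W zh (h0 m Q ε)) :
    (ch π ρ zh s (wz π x zh r W) 0).f z = (cz π ρ x r W zh).f z := by
  have hr := h.hr
  have hh := h0_nonneg m Q ε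
  have hs0 : 0 < s := lt_of_le_of_lt (by positivity) hs
  have hg := h.gr_s hs0 hs2 hκ
  exact (ch_f_radius h.gr hg (h.Kz_spec h.hs hz).1 (h.Kz_sub_s hs hz)).symm

theorem x_s {s : ℝ} (hs : 4 * h0 m Q ε * r < s) (hs2 : s ≤ 2 * r) (hκ : κ ≤ 1 / 16) {z : Euc k}
    (hz : z ∈ Kz π ρ x r W zh (h0 m Q ε)) :
    (ch π ρ zh s (wz π x zh r W) 0).x z = (cz π ρ x r W zh).x z := by
  have hr := h.hr
  have hh := h0_nonneg m Q ε
  have hs0 : 0 < s := lt_of_le_of_lt (by positivity) hs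
  have hg := h.gr_s hs0 hs2 hκ
  exact (ch_x_radius h.gr hg (h.Kz_spec h.hs hz).1 (h.Kz_sub_s hs hz)).symm

theorem nu_s {s : ℝ} (hs : 4 * h0 m Q ε * r < s) (hs2 : s ≤ 2 * r) (hκ : κ ≤ 1 / 16) {z : Euc k}
    (hz : z ∈ Kz π ρ x r W zh (h0 m Q ε)) :
    (ch π ρ zh s (wz π x zh r W) 0).nu z = (cz π ρ x r W zh).nu z := by
  have hr := h.hr
  have hh := h0_nonneg m Q ε
  have hs0 : 0 < s := lt_of_le_of_lt (by positivity) hs
  have hg := h.gr_s hs0 hs2 hκ
  exact (ch_nu_radius h.gr hg (h.Kz_spec h.hs hz).1 (h.Kz_sub_s hs hz)).symm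

/-- the excess in the chart of radius `s` -/
theorem int_s {s t : ℝ} (hs : 4 * h0 m Q ε * r < s) (hs2 : s ≤ 2 * r) (hκ : κ ≤ 1 / 16)
    (ht : t ≤ 9 / 4 * r) :
    ∫ p in {z | ‖(ch π ρ zh s (wz π x zh r W) 0).x z‖ < t} ×ˢ univ,
      2 * (ch π ρ zh s (wz π x zh r W) 0).f p.1 ∂(VK V (Kz π ρ x r W zh (h0 m Q ε))) ≤
      6 * (3 * r) ^ m * Iz V π ρ x r W zh (h0 m Q ε) (cTop r) := by
  refine le_trans ?_ (h.int_2f_le h.k0 ht)
  have hae := h.ae_Kz
  have e1 : ∫ p in {z | ‖(ch π ρ zh s (wz π x zh r W) 0).x z‖ < t} ×ˢ univ,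
      2 * (ch π ρ zh s (wz π x zh r W) 0).f p.1 ∂(VK V (Kz π ρ x r W zh (h0 m Q ε))) =
      ∫ p in {z | ‖(ch π ρ zh s (wz π x zh r W) 0).x z‖ < t} ×ˢ univ,
      2 * (cz π ρ x r W zh).f p.1 ∂(VK V (Kz π ρ x r W zh (h0 m Q ε))) := by
    refine integral_congr_ae ?_
    filter_upwards [ae_restrict_of_ae hae] with p hp
    rw [h.f_s hs hs2 hκ hp]
  rw [e1]
  refine setIntegral_mono_set h.int_2f.integrableOn ?_ ?_
  · filter_upwards [ae_restrict_of_ae hae] with p hp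
    have := f_nonneg h.ok hp
    show 0 ≤ 2 * (cz π ρ x r W zh).f p.1
    linarith
  · filter_upwards [hae] with p hp
    intro h2
    have h3 : ‖(ch π ρ zh s (wz π x zh r W) 0).x p.1‖ < t := h2.1
    rw [h.x_s hs hs2 hκ hp] at h3
    exact h3.le

/-- the weighted excess -/
theorem int_gp {s : ℝ} (hs : 4 * h0 m Q ε * r < s) (hs2 : s ≤ 2 * r) (hκ : κ ≤ 1 / 16) :
    ∫ p, gp (‖(ch π ρ zh s (wz π x zh r W) 0).x p.1‖ ^ 2 / s ^ 2) *
      (2 * (ch π ρ zh s (wz π x zh r W) 0).f p.1) ∂(VK V (Kz π ρ x r W zh (h0 m Q ε))) ≤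
      6 * (3 * r) ^ m * Iz V π ρ x r W zh (h0 m Q ε) (cTop r) := by
  have hr := h.hr
  have hh := h0_nonneg m Q ε
  have hs0 : 0 < s := lt_of_le_of_lt (by positivity) hs
  refine le_trans ?_ (h.int_2f_le h.k0 (t := s) (by linarith))
  have hae := h.ae_Kz
  have hn : NullMeasurableSet {p : Euc k × L k | ‖(cz π ρ x r W zh).x p.1‖ ≤ s}
      (Vz V π ρ x r W zh (h0 m Q ε)) := by
    have h0 : AEStronglyMeasurable (fun p : Euc k × L k => (cz π ρ x r W zh).x p.1)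
      (Vz V π ρ x r W zh (h0 m Q ε)) := by
      rw [← Measure.restrict_eq_self_of_ae_mem h.on.mem]
      exact h.cx_cont.aestronglyMeasurable
        (h.ok.cpt.isClosed.measurableSet.prod (measurableSet_G m k))
    exact nullMeasurableSet_le h0.norm.aemeasurable aemeasurable_const
  rw [← integral_indicator₀ hn]
  refine integral_mono_of_nonneg ?_ (h.int_2f.indicator₀ hn) ?_
  · filter_upwards [hae] with p hp
    have h1 := f_nonneg h.ok hp
    rw [← h.f_s hs hs2 hκ hp] at h1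
    exact mul_nonneg (gp_nonneg _) (by linarith)
  · filter_upwards [hae] with p hp
    have h1 := f_nonneg h.ok hp
    show gp (‖(ch π ρ zh s (wz π x zh r W) 0).x p.1‖ ^ 2 / s ^ 2) *
      (2 * (ch π ρ zh s (wz π x zh r W) 0).f p.1) ≤ indicator {p : Euc k × L k |
        ‖(cz π ρ x r W zh).x p.1‖ ≤ s} (fun p => 2 * (cz π ρ x r W zh).f p.1) p
    rw [h.f_s hs hs2 hκ hp, h.x_s hs hs2 hκ hp]
    by_cases hx : ‖(cz π ρ x r W zh).x p.1‖ ≤ s
    · rw [indicator_of_mem (by exact hx)]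
      have h2 := gp_le (‖(cz π ρ x r W zh).x p.1‖ ^ 2 / s ^ 2)
      calc gp (‖(cz π ρ x r W zh).x p.1‖ ^ 2 / s ^ 2) * (2 * (cz π ρ x r W zh).f p.1) ≤
            1 * (2 * (cz π ρ x r W zh).f p.1) := by
            apply mul_le_mul_of_nonneg_right h2; linarith
        _ = _ := one_mul _
    · rw [indicator_of_notMem (by exact hx)]
      rw [gp_zero _ (by
        rw [le_div_iff₀ (by positivity), one_mul]
        push Not at hx
        gcongr), zero_mul]

end Qx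


/-- **the soft sign at all `Q`-points** (`SgP` of 3) from F3 at the scale `s` -/
theorem sgP_of (hm : 1 ≤ m) (hK : 3 ≤ K) (hF : ∀ Q, 1 ≤ Q → F3t_433.F3Ps m n (m + n) Q) :
    Pin11_3.SgP m n K := by
  intro Q C hQ lm θ B hlm hθ hB
  obtain ⟨C1, hC1, htop⟩ := Pd_435.topP m n K Q C hQ
  have ho := ome_pos m
  obtain ⟨Cf, hCf, hcore⟩ := hF Q (by omega) ((Q + 1) * (ome m * 2 ^ m)) (by positivity)
  obtain ⟨κ₀, H₀, hκ₀, hH₀, -, core⟩ := hcore 1 1 one_pos one_pos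
  obtain ⟨θ', hθ', hnum⟩ := sg_num (m := m) (H0 := H₀) (Cf := 64 * Cf) (C1 := C1) (lm := lm)
    (θ := θ) (ec := 1 / 8) hH₀ (by linarith) hC1 hθ (by norm_num)
  obtain ⟨εt, hεt, htop⟩ := htop θ' B hθ' hB
  obtain ⟨εr, hεr, hrat⟩ := exists_rat (k := m + n) hm (Q := Q) (by omega)
    (δ := 1 / 8) (by norm_num)
  have hB0 : 0 < B := by linarith
  have hhc := Pd_435.Cx.hc_pos m Q
  have hm0 : (1:ℝ) ≤ m := by exact_mod_cast hm
  have hQ0 : (0:ℝ) ≤ Q := Nat.cast_nonneg Q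
  set q : ℝ := Real.exp (lm - 2) with hq
  have hq0 : 0 < q := Real.exp_pos _
  have hq1 : q ≤ 1 := Real.exp_le_one_iff.2 (by linarith)
  set a0 : ℝ := 1 / (32 * (Q + 1) * m) with ha0
  have ha0p : 0 < a0 := by rw [ha0]; positivity
  have ha32 : a0 ≤ 1 / 32 := by
    rw [ha0]
    apply one_div_le_one_div_of_le (by norm_num)
    nlinarith [mul_nonneg hQ0 (by linarith : (0:ℝ) ≤ m)]
  refine ⟨min (min εt εr) (min (min (θ' / B) (κ₀ / (8 * B)))
    (min (a0 / B) ((a0 * q / 16) ^ 2 / Pd_435.Cx.hc m Q))), ?_, ?_⟩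
  · exact lt_min (lt_min hεt hεr) (lt_min (lt_min (by positivity) (by positivity))
      (lt_min (by positivity) (by positivity)))
  intro ε hε hεε U D x r π ρ u W κ zh hS l hl
  have g1 : ε ≤ εt := hεε.trans ((min_le_left _ _).trans (min_le_left _ _))
  have g2 : ε ≤ εr := hεε.trans ((min_le_left _ _).trans (min_le_right _ _))
  have g3' : ε ≤ θ' / B :=
    hεε.trans ((min_le_right _ _).trans ((min_le_left _ _).trans (min_le_left _ _)))
  have g4 : ε ≤ κ₀ / (8 * B) :=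
    hεε.trans ((min_le_right _ _).trans ((min_le_left _ _).trans (min_le_right _ _)))
  have g5 : ε ≤ a0 / B :=
    hεε.trans ((min_le_right _ _).trans ((min_le_right _ _).trans (min_le_left _ _)))
  have g6 : ε ≤ (a0 * q / 16) ^ 2 / Pd_435.Cx.hc m Q :=
    hεε.trans ((min_le_right _ _).trans ((min_le_right _ _).trans (min_le_right _ _)))
  have h := hS.qx
  have hr := h.hr
  have hk := h.k0
  have hκB : κ ≤ B * ε := hS.κB
  have k1 : κ ≤ θ' := by
    rw [le_div_iff₀ hB0] at g3'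
    linarith
  have k2 : 8 * κ ≤ κ₀ := by
    rw [le_div_iff₀ (by positivity)] at g4
    linarith
  have k3 : κ ≤ a0 := by
    rw [le_div_iff₀ hB0] at g5
    linarith
  have hh0 := h0_nonneg m Q ε
  have k4 : h0 m Q ε ≤ a0 * q / 16 := by
    rw [le_div_iff₀ hhc] at g6
    unfold h0
    rw [Real.sqrt_le_left (by positivity)]
    linarith
  -- the scale
  set s : ℝ := Real.exp l with hs
  have hs0 : 0 < s := Real.exp_pos _
  have hlo : q * r ≤ s := by
    have e1 : Real.exp (Real.log r + lm - 2) ≤ s := Real.exp_le_exp.2 hl.1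
    have e2 : Real.exp (Real.log r + lm - 2) = r * q := by
      rw [hq, show Real.log r + lm - 2 = Real.log r + (lm - 2) by ring, Real.exp_add,
        Real.exp_log hr]
    rw [e2] at e1
    linarith
  have hhi : s ≤ 2 * r := by
    have e1 : s ≤ Real.exp (bTop r) := Real.exp_le_exp.2 hl.2
    rw [h.exp_bTop] at e1
    exact e1
  have hlog : Real.log s = l := Real.log_exp l
  have hκ16 : κ ≤ 1 / 16 := by linarith
  -- heights
  have n1 : h0 m Q ε * r ≤ s / 512 := by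
    calc h0 m Q ε * r ≤ (a0 * q / 16) * r := by gcongr
      _ = a0 / 16 * (q * r) := by ring
      _ ≤ (1 / 32) / 16 * s := by gcongr
      _ = _ := by ring
  have n2 : 4 * h0 m Q ε * r < s := by nlinarith
  have hg := h.gr_s hs0 hhi hκ16
  -- masses
  have hra := hrat U D hS.int hS.st n K x r π ρ u ε C W κ zh h g2 (le_of_eq hS.th.symm)
  have hnu : ∀ t : ℝ, s / 4 ≤ t → ∀ z ∈ Kz π ρ x r W zh (h0 m Q ε),
      ‖(cz π ρ x r W zh).nu z‖ ≤ (16 * h0 m Q ε / q) * t := by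
    intro t ht z hz
    have e1 := h.nu_le_Kz hz
    have e2 : q * r ≤ 4 * t := by linarith
    calc ‖(cz π ρ x r W zh).nu z‖ ≤ 4 * h0 m Q ε * r := e1
      _ = 4 * h0 m Q ε / q * (q * r) := by field_simp
      _ ≤ 4 * h0 m Q ε / q * (4 * t) := by gcongr
      _ = _ := by ring
  have hη0 : 0 ≤ 16 * h0 m Q ε / q := by positivity
  have hη1 : 16 * h0 m Q ε / q ≤ a0 := by
    rw [div_le_iff₀ hq0]
    linarith
  have k5 : 16 * (Q + 1) * m * (κ + 16 * h0 m Q ε / q) ≤ 1 := by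
    have e1 : 16 * (Q + 1) * m * (κ + 16 * h0 m Q ε / q) ≤ 16 * (Q + 1) * m * (a0 + a0) := by
      gcongr
    have e2 : 16 * (Q + 1) * m * (a0 + a0) = 1 := by
      rw [ha0]; field_simp; norm_num
    linarith
  have hKm : MeasurableSet (Kz π ρ x r W zh (h0 m Q ε) ×ˢ (univ : Set (L (m + n)))) :=
    (Qx.isCompact_Kz h.gr _).isClosed.measurableSet.prod MeasurableSet.univ
  have hae : ∀ᵐ p ∂((VD D).restrict (Kz π ρ x r W zh (h0 m Q ε) ×ˢ univ)),
      p.1 ∈ Kz π ρ x r W zh (h0 m Q ε) := h.ae_Kz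
  have mass1 := LowF14_471.Qx.mass_W h (δ := 1 / 8) (η := 16 * h0 m Q ε / q) (t := 1 / 4 * s)
    (by norm_num) le_rfl hη0 k5 hra subset_rfl hae (by positivity) (by linarith)
    fun z hz _ => hnu _ (by linarith) z hz
  have mass2 := LowF14_471.Qx.mass_W_le h (δ := 1 / 8) (η := 16 * h0 m Q ε / q)
    (t := (1 + 1 / 8) * s) (by norm_num) hη0 hra subset_rfl (by positivity) (by
      have e1 : (1 + κ + 16 * h0 m Q ε / q) * ((1 + 1 / 8) * s) ≤
        (1 + 1 / 32 + 1 / 32) * ((1 + 1 / 8) * (2 * r)) := by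
          apply mul_le_mul (by linarith) (by linarith) (by positivity) (by norm_num)
      linarith) fun z hz _ => hnu _ (by linarith) z hz
  have hvol : volume.real (ball (0 : Euc m) (1 / 4 * s)) = ome m * (1 / 4 * s) ^ m :=
    Th_164.vol_ball _ (by positivity)
  -- the energy
  obtain ⟨t1, t2, t3, t4, t5⟩ := htop ε hε g1 U D x r π ρ u W κ zh hS
  set J := Iz (VD D) π ρ x r W zh (h0 m Q ε) (cTop r) with hJ
  set Jb := Iz (VD D) π ρ x r W zh (h0 m Q ε) (bTop r) with hJb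
  have hJ0 : 0 < J := by
    have e1 := h.Iz_mono (l := bTop r) (l' := cTop r) (by rw [← cTop_sub]; linarith)
    have e2 : 0 < Real.exp (m * (cTop r - bTop r)) * J := lt_of_lt_of_le t1 e1
    exact pos_of_mul_pos_right e2 (Real.exp_pos _).le
  obtain ⟨a1, a2, a3, a4, a5⟩ := hnum κ r J Jb s hk k1 hr hJ0 t4 t3 hlo
  set H : ℝ := 6 * (3 * r) ^ m * J / s ^ (m + 2) with hH
  have hHs : H * s ^ (m + 2) = 6 * (3 * r) ^ m * J := by rw [hH]; field_simp
  -- the core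
  have main := core π ρ zh (wz π x zh r W) 0 s (8 * κ) (1 / 8) H U (Kz π ρ x r W zh (h0 m Q ε)) D gp
    h.hf h.opU hS.int hS.st hs0 hg (contDiff_wz h.ext.cd) (by positivity) k2 (by
      intro j hj1 hj4 Y _
      have e1 := h.ext.iter (π := π) (x := x) (z := zh) hr hj1 (hj4.trans hK) Y
      have e2 : s ^ (j - 1) ≤ (2 * r) ^ (j - 1) := by gcongr
      have e3 : (2:ℝ) ^ (j - 1) ≤ 8 := by
        calc (2:ℝ) ^ (j - 1) ≤ 2 ^ 3 := pow_le_pow_right₀ (by norm_num) (by omega)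
          _ = 8 := by norm_num
      obtain ⟨i, rfl⟩ : ∃ i, j = i + 1 := ⟨j - 1, by omega⟩
      simp only [Nat.add_sub_cancel] at e2 e3 ⊢
      calc s ^ i * ‖iteratedFDeriv ℝ (i + 1) (wz π x zh r W) Y‖ ≤
            (2 * r) ^ i * (κ * r * r⁻¹ ^ (i + 1)) := by gcongr
        _ = 2 ^ i * κ := by rw [mul_pow, inv_pow, pow_succ]; field_simp
        _ ≤ 8 * κ := by gcongr) (by norm_num) (by norm_num) (by
      intro Y hY
      rw [mem_ball_zero_iff] at hY
      exact h.msys (by linarith)) (by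
      intro y hy
      refine h.cx.hU ?_
      rw [mem_closedBall, dist_eq_norm] at hy ⊢
      have e0 : Foot_842.pt π ρ zh (wz π x zh r W) 0 = zh := by
        unfold Foot_842.pt
        rw [wz_zero, map_zero, map_zero, add_zero, add_zero]
      rw [e0] at hy
      have e2 : ‖zh - x‖ ≤ r := by
        have := h.mem
        rwa [mem_closedBall, dist_eq_norm] at this
      have e1 : y - x = (y - zh) + (zh - x) := by abel
      rw [e1]
      have e7 := norm_add_le (y - zh) (zh - x)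
      linarith)
    (h.loc_s n2 hhi hκ16 (by
      rw [Real.exp_log (by positivity)]
      linarith))
    (by
      intro z hz
      rw [h.nu_s n2 hhi hκ16 hz]
      refine (h.nu_le_Kz hz).trans ?_
      linarith)
    (by
      rw [h.Wt_s n2 hhi hκ16]
      refine mass2.trans ?_
      have e1 : (1 + κ + 16 * h0 m Q ε / q) * ((1 + 1 / 8) * s) ≤ 2 * s := by
        have : (1 + κ + 16 * h0 m Q ε / q) * ((1 + 1 / 8) * s) ≤
          (1 + 1 / 32 + 1 / 32) * ((1 + 1 / 8) * s) :=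
            mul_le_mul_of_nonneg_right (by linarith) (by positivity)
        linarith
      calc (Q + 1 / 8) * (ome m * ((1 + κ + 16 * h0 m Q ε / q) * ((1 + 1 / 8) * s)) ^ m) ≤
            (Q + 1) * (ome m * (2 * s) ^ m) := by
            gcongr
            norm_num
        _ = _ := by rw [mul_pow]; ring)
    (by
      rw [h.Wt_s n2 hhi hκ16, hvol]
      refine mass1.trans (le_of_eq ?_)
      ring)
    a1 a2 (by rw [Real.rpow_neg_one]; exact a3)
    (by
      rw [hHs]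
      exact h.int_s n2 hhi hκ16 (by linarith))
    gp_nonneg (fun t _ => gp_le t) gp_zero gp_lip
  rw [bb_gp, hlog, Real.rpow_neg_one] at main
  -- conclusion
  have e1 : bz (VD D) π ρ x r W zh (h0 m Q ε) Q l =
      bb (ch π ρ zh s (wz π x zh r W) 0) (VK (VD D) (Kz π ρ x r W zh (h0 m Q ε))) g3 Q l :=
    bb_radius h.gr hg (Qx.isCompact_Kz h.gr _) (fun z hz => (h.Kz_spec h.hs hz).1)
      (h.Kz_sub_s n2) (VD D) g3 Q l
  rw [e1]
  refine main.trans ?_
  have e2 : (s ^ (m + 2))⁻¹ * ∫ p, gp (‖(ch π ρ zh s (wz π x zh r W) 0).x p.1‖ ^ 2 / s ^ 2) *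
      (2 * (ch π ρ zh s (wz π x zh r W) 0).f p.1) ∂(VK (VD D) (Kz π ρ x r W zh (h0 m Q ε))) ≤ H := by
    rw [inv_mul_le_iff₀ (by positivity), mul_comm, hHs]
    exact h.int_gp n2 hhi hκ16
  have e3 : Cf * (8 * κ) ^ 2 * ((s ^ (m + 2))⁻¹ *
      ∫ p, gp (‖(ch π ρ zh s (wz π x zh r W) 0).x p.1‖ ^ 2 / s ^ 2) *
      (2 * (ch π ρ zh s (wz π x zh r W) 0).f p.1) ∂(VK (VD D) (Kz π ρ x r W zh (h0 m Q ε)))) ≤
      Cf * (8 * κ) ^ 2 * H := by
    have : 0 ≤ Cf := by linarith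
    gcongr
  have e4 : s ^ 2 * (Cf * (8 * κ) ^ 2 * H + (Real.log (1 / H))⁻¹ * H) ≤ θ * Jb := by
    refine le_trans (le_of_eq ?_) a5
    ring
  have e5 : 0 ≤ θ * Iz (VD D) π ρ x r W zh (h0 m Q ε) l := by
    have := h.Iz_nonneg l
    positivity
  have e6 : s ^ 2 * (Cf * (8 * κ) ^ 2 * ((s ^ (m + 2))⁻¹ *
      ∫ p, gp (‖(ch π ρ zh s (wz π x zh r W) 0).x p.1‖ ^ 2 / s ^ 2) *
      (2 * (ch π ρ zh s (wz π x zh r W) 0).f p.1) ∂(VK (VD D) (Kz π ρ x r W zh (h0 m Q ε)))) +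
      (Real.log (1 / H))⁻¹ * H) ≤ s ^ 2 * (Cf * (8 * κ) ^ 2 * H + (Real.log (1 / H))⁻¹ * H) := by
    apply mul_le_mul_of_nonneg_left _ (by positivity)
    linarith
  linarith

/-- `SgE` (the field of `Skel4_884.Leaves`) from F3 at the scale 1. -/
theorem sgE_of (hF : ∀ m n Q : ℕ, 3 ≤ m → 1 ≤ n → 1 ≤ Q → F36_354.F3P1 m n (m + n) Q) :
    Main_456.SgE := fun m n hm hn =>
  ⟨3, fun K hK => sgP_of (by omega) hK fun Q hQ =>
    F3t_433.f3Ps_of (by omega) (hF m n Q hm hn hQ)⟩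

end Crest.Agent.R234.Qp_534
end
end

-- ▼ part R234/LowF19_471

/-!
# Row 234, (F4) LOW FREQUENCY, instance part 8 (helper471): `F3S` from F3 at the scale `s`

`f3S_of : (∀ Q, F3t_433.F3Ps m n (m + n) Q) → LowF18_471.F3S m n`.
-/

set_option autoImplicit false
set_option maxSynthPendingDepth 3

open MeasureTheory Filter Topology Set Metric
open scoped ENNReal NNReal ContDiff InnerProductSpace
open Crest.GeometryTopology.Submanifold Crest.Agent.R234.Vf_884
open Crest.Agent.R234.Main_456 Crest.Agent.R234.F11_435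
open Crest.Agent.R234.Gi_456 Crest.Agent.R234.Qp_534
open Crest.Agent.R234.GL_394
open Crest.Agent.R234.GI_640 (g3 g31 g32)
open Crest.Agent.R234.LowF8_471 Crest.Agent.R234.LowF9_471
open Crest.Agent.R234.LowF18_471 (F3S)

noncomputable section

namespace Crest.Agent.R234.LowF19_471

variable {m n k : ℕ} {U : Set (Euc k)} {V : Measure (Euc k × L k)} {Q K : ℕ} {x : Euc k} {r : ℝ}
  {π : Euc k →L[ℝ] Euc m} {ρ : Euc k →L[ℝ] Euc n} {u : Euc m → Euc n} {ε C : ℝ}
  {W : Euc m → Euc n} {κ : ℝ} {zh : Euc k}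

/-- stationarity of the data from stationarity of the measure -/
theorem stationary_of_stat {D : VarifoldData m k} (hD : IsIntegralVarifoldIn U D)
    (hs : Stat m k U (VD D)) : IsStationaryIn U D := fun X hX hXc hXU => by
  rw [firstVariation_eq hD hX hXc hXU]
  exact hs.stat X hX hXc hXU

/-- `bb` only sees the points over `|c.x| < e^l` -/
theorem bb_cut {c : Ch m k} {K1 K2 : Set (Euc k)} (h1 : IsCompact K1) (h12 : K2 ⊆ K1) {l : ℝ}
    (hcut : ∀ᵐ p ∂V, p.1 ∈ K1 → p.1 ∉ K2 → Real.exp l ≤ ‖c.x p.1‖) {g : ℝ → ℝ}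
    (hg : ∀ t, 1 ≤ t → g t = 0) (Q : ℝ) : bb c (VK V K1) g Q l = bb c (VK V K2) g Q l := by
  have key : ∀ F : Euc k × L k → ℝ,
      ∫ p, F p * g (Real.exp (-2 * l) * ‖c.x p.1‖ ^ 2) ∂(VK V K1) =
      ∫ p, F p * g (Real.exp (-2 * l) * ‖c.x p.1‖ ^ 2) ∂(VK V K2) := by
    intro F
    unfold VK
    refine setIntegral_eq_of_subset_of_ae_sdiff_eq_zero
      ((h1.isClosed.measurableSet.prod MeasurableSet.univ).nullMeasurableSet)
      (prod_mono_left h12) ?_
    filter_upwards [hcut] with p hp hpd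
    have h2 := hp hpd.1.1 (fun h3 => hpd.2 ⟨h3, mem_univ _⟩)
    have h4 : 1 ≤ Real.exp (-2 * l) * ‖c.x p.1‖ ^ 2 := by
      have e1 : Real.exp (-2 * l) = (Real.exp l ^ 2)⁻¹ := by
        rw [← Real.exp_nat_mul, ← Real.exp_neg]; congr 1; push_cast; ring
      have := Real.exp_pos l
      rw [e1, le_inv_mul_iff₀ (by positivity), mul_one]
      gcongr
    rw [hg _ h4, mul_zero]
  have k1 := key (fun _ => 1)
  have k2 := key (fun p => c.tau p.1 p.2)
  unfold bb EE ee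
  rw [k1, k2]

/-- the compact part over `|c.x| ≤ 2 s` -/
def K2 (π : Euc k →L[ℝ] Euc m) (ρ : Euc k →L[ℝ] Euc n) (x : Euc k) (r : ℝ) (W : Euc m → Euc n)
    (zh : Euc k) (K' : Set (Euc k)) (s : ℝ) : Set (Euc k) :=
  {z | z ∈ K' ∧ ‖(cz π ρ x r W zh).x z‖ ≤ 2 * s}

namespace Qx

open Crest.Agent.R234.Qp_534.Qx

variable (h : Qx U V Q K x r π ρ u ε C W κ zh)

include h

theorem yy_le_nu (z : Euc k) :
    ‖yy π ρ zh r (wz π x zh r W) z‖ ≤ ‖(cz π ρ x r W zh).nu z‖ := by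
  refine abs_le_of_sq_le_sq' ?_ (norm_nonneg _) |>.2
  have e1 : ‖(cz π ρ x r W zh).nu z‖ ^ 2 = 2 * (cz π ρ x r W zh).f z := by
    change ‖Bt π ρ (wz π x zh r W) (foot π ρ zh r (wz π x zh r W) z)
      (yy π ρ zh r (wz π x zh r W) z)‖ ^ 2 = 2 * (‖Bt π ρ (wz π x zh r W)
        (foot π ρ zh r (wz π x zh r W) z) (yy π ρ zh r (wz π x zh r W) z)‖ ^ 2 / 2)
    ring
  have e2 := Gv_685.two_f (x := zh) (r := r) (w := wz π x zh r W) (X0 := 0) h.hf z
  rw [e1, show 2 * (cz π ρ x r W zh).f z = _ from e2, Gu_685.dsq_eq]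
  exact Gs_685.sq_le_nsq _ _

variable {K' : Set (Euc k)} {s hs : ℝ}

theorem K2_tube (hK' : K' ⊆ Kz π ρ x r W zh (h0 m Q ε)) (hhs : hs ≤ 1 / 4) (hs0 : 0 < s)
    (hnu : ∀ z ∈ K', ‖(cz π ρ x r W zh).x z‖ ≤ 2 * s → ‖(cz π ρ x r W zh).nu z‖ ≤ hs * s) :
    K2 π ρ x r W zh K' s ⊆ tube π ρ zh s (wz π x zh r W) := by
  rintro z ⟨hz, hx⟩
  have h1 := h.gr.le_norm_yy (h.Kz_spec h.hs (hK' hz)).1
  have h2 := yy_le_nu h z
  have h3 := hnu z hz hx
  show ‖ρ (z - zh) - wz π x zh r W (π (z - zh))‖ < s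
  have h4 : hs * s ≤ 1 / 4 * s := by gcongr
  linarith

theorem isCompact_K2 (hK' : K' ⊆ Kz π ρ x r W zh (h0 m Q ε)) (hKc : IsCompact K') :
    IsCompact (K2 π ρ x r W zh K' s) := by
  have hok := Ok_mono h.ok hK' hKc
  have h1 := hok.cx.norm.preimage_isClosed_of_isClosed hKc.isClosed (isClosed_Iic (a := 2 * s))
  exact hKc.of_isClosed_subset h1 (fun z hz => hz.1)

/-- `Loc` in the tube of radius `s` for the compact part over `|c.x| ≤ 2 s` -/
theorem loc_K2 (hK' : K' ⊆ Kz π ρ x r W zh (h0 m Q ε)) (hKc : IsCompact K') (hhs : hs ≤ 1 / 4)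
    (hs0 : 0 < s) (hsr : s ≤ r) (hκ : κ ≤ 1 / 16)
    (hnu : ∀ z ∈ K', ‖(cz π ρ x r W zh).x z‖ ≤ 2 * s → ‖(cz π ρ x r W zh).nu z‖ ≤ hs * s)
    (hae : ∀ᵐ p ∂(V.restrict (Kz π ρ x r W zh (h0 m Q ε) ×ˢ univ)), p.1 ∈ K') :
    Loc (ch π ρ zh s (wz π x zh r W) 0) U (tube π ρ zh s (wz π x zh r W))
      (K2 π ρ x r W zh K' s) V (Real.log ((1 + 1) * s)) where
  st := h.cx.st
  opU := h.opU
  cpt := isCompact_K2 h hK' hKc
  sub := fun z hz => ⟨K2_tube h hK' hhs hs0 hnu hz, h.Kz_U h.hs (hK' hz.1)⟩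
  gap := by
    have hr := h.hr
    have hg := h.gr_s hs0 (by linarith) hκ
    have hKz := isCompact_Kz h.gr (π := π) (ρ := ρ) (h0 m Q ε)
    have haeV := (ae_restrict_iff' (hKz.isClosed.measurableSet.prod
      (MeasurableSet.univ (α := L k)))).1 hae
    filter_upwards [h.cx.th, h.gap, haeV] with p hp hgap hv hpt hpx
    rw [Real.exp_log (by positivity)] at hpx
    have hfoot : ‖foot π ρ zh s (wz π x zh r W) p.1‖ ≤ 2 * s := by
      have h1 : ‖foot π ρ zh s (wz π x zh r W) p.1‖ ≤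
          ‖(ch π ρ zh s (wz π x zh r W) 0).x p.1‖ := by
        have h2 := le_norm_Lo (fderiv ℝ (wz π x zh r W) 0)
          (foot π ρ zh s (wz π x zh r W) p.1 - 0)
        rw [sub_zero] at h2
        show _ ≤ ‖Lo (fderiv ℝ (wz π x zh r W) 0) (foot π ρ zh s (wz π x zh r W) p.1 - 0)‖
        rw [sub_zero]
        exact h2
      linarith
    have hbox := h.tube_s_box hs0 (by linarith) hκ hpt.1 (by linarith)
    have h1 := hp hpt.2
    have hT := h.mem_Tz_of_box hbox h1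
    have hT' : p.1 ∈ tube π ρ zh r (wz π x zh r W) := hT
    have hKz' := hgap ⟨hT, hpt.2⟩ (by
      rw [foot_radius h.gr hg hT' hpt.1]
      linarith)
    refine ⟨hv ⟨hKz', mem_univ _⟩, ?_⟩
    have e1 := ch_x_radius (X0 := 0) h.gr hg hT' hpt.1
    show ‖(ch π ρ zh r (wz π x zh r W) 0).x p.1‖ ≤ 2 * s
    rw [e1]
    linarith

end Qx

set_option maxHeartbeats 1600000 in
/-- **the one-scale soft sign from F3 at the scale `s` in the tube of radius `s`** -/
theorem f3S_of {m n : ℕ} (hm : 1 ≤ m) (hF : ∀ Q, 1 ≤ Q → F3t_433.F3Ps m n (m + n) Q) :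
    F3S m n := by
  intro Q δ hQ hδ
  have hm0 : (1:ℝ) ≤ m := by exact_mod_cast hm
  have hQ0 : (0:ℝ) ≤ Q := Nat.cast_nonneg Q
  have home := ome_pos m
  obtain ⟨Cf, hCf, hcore⟩ := hF Q (by omega) ((Q + 1) * (ome m * 4 ^ m)) (by positivity)
  obtain ⟨κ₀, H₀, hκ₀, hH₀, hH₁, core⟩ := hcore 1 1 one_pos one_pos
  set hs : ℝ := 1 / (128 * (Q + 1) * m) with hhs
  have hhs0 : 0 < hs := by positivity
  have hhs1 : hs ≤ 1 / 128 := by
    rw [hhs]
    apply one_div_le_one_div_of_le (by norm_num)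
    nlinarith [mul_nonneg hQ0 (by linarith : (0:ℝ) ≤ m)]
  refine ⟨min (min κ₀ (1 / (32 * (Q + 1) * m))) (min 1 (δ / (2 * Cf))),
    min H₀ (min (Real.exp (-1)) (Real.exp (-(2 / δ)))), hs,
    lt_min (lt_min hκ₀ (by positivity)) (lt_min one_pos (by positivity)),
    lt_min hH₀ (lt_min (Real.exp_pos _) (Real.exp_pos _)), hhs0, ?_⟩
  intro K U D x r π ρ u ε C W κ zh hD h hκ hrat l hl K' hK' hKc hnu hae H hH hH0 hHh
  have hr := h.hr
  have hk := h.k0
  have hk8 := h.κ8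
  have hκa : κ ≤ κ₀ := hκ.trans ((min_le_left _ _).trans (min_le_left _ _))
  have hκb : κ ≤ 1 / (32 * (Q + 1) * m) := hκ.trans ((min_le_left _ _).trans (min_le_right _ _))
  have hκc : κ ≤ 1 := hκ.trans ((min_le_right _ _).trans (min_le_left _ _))
  have hκd : κ ≤ δ / (2 * Cf) := hκ.trans ((min_le_right _ _).trans (min_le_right _ _))
  have hκ16 : κ ≤ 1 / 16 := by
    refine hκb.trans ?_
    apply one_div_le_one_div_of_le (by norm_num)
    nlinarith [mul_nonneg hQ0 (by linarith : (0:ℝ) ≤ m)]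
  have hHa : H ≤ H₀ := hHh.trans (min_le_left _ _)
  have hHb : H ≤ Real.exp (-1) := hHh.trans ((min_le_right _ _).trans (min_le_left _ _))
  have hHc : H ≤ Real.exp (-(2 / δ)) := hHh.trans ((min_le_right _ _).trans (min_le_right _ _))
  -- the scale
  set s : ℝ := Real.exp l with hsdef
  have hs0 : 0 < s := Real.exp_pos _
  have he8 : 8 * s ≤ r := by
    have h1 : Real.exp (l + 3) ≤ r := by
      rw [← Real.le_log_iff_exp_le hr]; linarith
    rw [Real.exp_add] at h1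
    nlinarith [exp_three]
  have hlog : Real.log s = l := Real.log_exp l
  have hsm2 : Real.exp (m * l) * Real.exp (2 * l) = s ^ (m + 2) := by
    rw [hsdef, ← Real.exp_nat_mul, ← Real.exp_add]; congr 1; push_cast; ring
  have hs2 : Real.exp (2 * l) = s ^ 2 := by
    rw [hsdef, ← Real.exp_nat_mul]; congr 1
  rw [hsm2] at hH
  have hg := h.gr_s hs0 (by linarith) hκ16
  set c : Ch m (m + n) := cz π ρ x r W zh with hc
  set cs' : Ch m (m + n) := ch π ρ zh s (wz π x zh r W) 0 with hcs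
  set S : Set (Euc (m + n)) := K2 π ρ x r W zh K' s with hS
  have hSc : IsCompact S := Qx.isCompact_K2 h hK' hKc
  have hSt : S ⊆ tube π ρ zh s (wz π x zh r W) := Qx.K2_tube h hK' (by linarith) hs0 hnu
  have hSr : S ⊆ tube π ρ zh r (wz π x zh r W) := fun z hz => (h.Kz_spec h.hs (hK' hz.1)).1
  have hex : ∀ z ∈ S, cs'.x z = c.x z := fun z hz => (ch_x_radius h.gr hg (hSr hz) (hSt hz)).symm
  have hef : ∀ z ∈ S, cs'.f z = c.f z := fun z hz => (ch_f_radius h.gr hg (hSr hz) (hSt hz)).symm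
  have henu : ∀ z ∈ S, cs'.nu z = c.nu z := fun z hz =>
    (ch_nu_radius h.gr hg (hSr hz) (hSt hz)).symm
  have hloc := Qx.loc_K2 h hK' hKc (hs := hs) (s := s) (by linarith) hs0 (by linarith) hκ16 hnu hae
  have hKz := Qp_534.Qx.isCompact_Kz h.gr (π := π) (ρ := ρ) (h0 m Q ε)
  have haeV := (ae_restrict_iff' (hKz.isClosed.measurableSet.prod
    (MeasurableSet.univ (α := L (m + n))))).1 hae
  have hmS : MeasurableSet (S ×ˢ (univ : Set (L (m + n)))) :=
    hSc.isClosed.measurableSet.prod MeasurableSet.univ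
  have haeS : ∀ᵐ p ∂(VK (VD D) S), p.1 ∈ S := by
    filter_upwards [ae_restrict_mem hmS] with p hp
    exact hp.1
  -- masses
  have hW : ∀ t : ℝ, t ≤ 2 * s → {z | z ∈ S ∧ ‖cs'.x z‖ < t} = LowF14_471.Wt c K' t := by
    intro t ht
    ext z
    constructor
    · rintro ⟨h1, h2⟩
      rw [hex z h1] at h2
      exact ⟨h1.1, h2⟩
    · rintro ⟨h1, h2⟩
      have h3 : z ∈ S := ⟨h1, by
        have : ‖c.x z‖ < t := h2
        exact (this.le).trans ht⟩
      refine ⟨h3, ?_⟩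
      rw [hex z h3]
      exact h2
  have hsm : 16 * (Q + 1) * m * (κ + 4 * hs) ≤ 1 := by
    have h1 : 16 * (Q + 1) * m * κ ≤ 1 / 2 := by
      calc 16 * (Q + 1) * m * κ ≤ 16 * (Q + 1) * m * (1 / (32 * (Q + 1) * m)) := by gcongr
        _ = 1 / 2 := by field_simp; norm_num
    have h2 : 16 * (Q + 1) * m * (4 * hs) = 1 / 2 := by rw [hhs]; field_simp; norm_num
    linarith
  have hM1 : (VD D).real ({z | z ∈ S ∧ ‖cs'.x z‖ < (1 + 1) * s} ×ˢ univ) ≤
      (Q + 1) * (ome m * 4 ^ m) * s ^ m := by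
    rw [hW _ (by linarith)]
    have h1 := LowF14_471.Qx.mass_W_le h (δ := 1 / 8) (η := hs) (t := (1 + 1) * s)
      (by norm_num) hhs0.le hrat hK' (by positivity) (by nlinarith) (fun z hz hx => by
        refine (hnu z hz (by linarith)).trans ?_
        nlinarith)
    refine h1.trans ?_
    have h2 : (1 + κ + hs) * ((1 + 1) * s) ≤ 4 * s := by nlinarith
    calc (Q + 1 / 8) * (ome m * ((1 + κ + hs) * ((1 + 1) * s)) ^ m) ≤
        (Q + 1) * (ome m * (4 * s) ^ m) := by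
          gcongr
          norm_num
      _ = _ := by rw [mul_pow]; ring
  have hM2 : |(VD D).real ({z | z ∈ S ∧ ‖cs'.x z‖ < 1 / 4 * s} ×ˢ univ) -
      Q * volume.real (ball (0 : Euc m) (1 / 4 * s))| ≤
      1 / 4 * volume.real (ball (0 : Euc m) (1 / 4 * s)) := by
    rw [hW _ (by linarith)]
    have h1 := LowF14_471.Qx.mass_W h (δ := 1 / 8) (η := 4 * hs) (t := 1 / 4 * s)
      (by norm_num) le_rfl (by positivity) hsm hrat hK' hae (by positivity) (by linarith)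
      (fun z hz hx => by
        refine (hnu z hz (by linarith)).trans (le_of_eq (by ring)))
    rw [LowF17_471.vol_eq m (by positivity : 0 < 1 / 4 * s)]
    exact h1.trans (le_of_eq (by ring))
  -- the excess
  have hok := h.ok
  have hOn := On_of_Stat hok.cpt h.cx.st (h.Kz_U h.hs)
  have hf0 : ∀ p ∈ Kz π ρ x r W zh (h0 m Q ε) ×ˢ G m (m + n), 0 ≤ 2 * c.f p.1 :=
    fun p hpm => by have := hok.f_nonneg hpm.1; linarith
  have hSK : S ⊆ Kz π ρ x r W zh (h0 m Q ε) := fun z hz => hK' hz.1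
  have hVS : VK (VD D) S = ((VD D).restrict (Kz π ρ x r W zh (h0 m Q ε) ×ˢ univ)).restrict
      (S ×ˢ univ) := by
    unfold VK
    rw [Measure.restrict_restrict_of_subset (prod_mono_left hSK)]
  have hi : Integrable (fun p : Euc (m + n) × L (m + n) => 2 * c.f p.1)
      ((VD D).restrict (Kz π ρ x r W zh (h0 m Q ε) ×ˢ univ)) :=
    hOn.integrable hok.cpt (continuousOn_const.mul (lift hok.cf))
  have hiS : Integrable (fun p : Euc (m + n) × L (m + n) => 2 * c.f p.1) (VK (VD D) S) := by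
    rw [hVS]
    exact hi.integrableOn
  have hJ : ∫ p, 2 * c.f p.1 ∂(VK (VD D) S) ≤ H * s ^ (m + 2) := by
    refine le_trans ?_ hH
    rw [hVS]
    refine setIntegral_mono_set hi.integrableOn ?_
      (LE.le.eventuallyLE fun p (hp : p ∈ S ×ˢ univ) => hp.1.2)
    filter_upwards [ae_restrict_of_ae hOn.mem] with p hp
    exact hf0 p hp
  have hfS : ∀ᵐ p ∂(VK (VD D) S), 0 ≤ 2 * c.f p.1 := by
    filter_upwards [haeS] with p hp
    have := hok.f_nonneg (hSK hp)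
    linarith
  have hE1 : ∫ p in {z | ‖cs'.x z‖ < (1 + 1) * s} ×ˢ univ, 2 * cs'.f p.1 ∂(VK (VD D) S) ≤
      H * s ^ (m + 2) := by
    refine le_trans ?_ hJ
    have e1 : ∫ p in {z | ‖cs'.x z‖ < (1 + 1) * s} ×ˢ univ, 2 * cs'.f p.1 ∂(VK (VD D) S) =
        ∫ p in {z | ‖cs'.x z‖ < (1 + 1) * s} ×ˢ univ, 2 * c.f p.1 ∂(VK (VD D) S) := by
      refine integral_congr_ae ?_
      filter_upwards [ae_restrict_of_ae haeS] with p hp
      rw [hef p.1 hp]
    rw [e1]
    exact setIntegral_le_integral hiS hfS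
  have hE2 : ∫ p, gp (‖cs'.x p.1‖ ^ 2 / s ^ 2) * (2 * cs'.f p.1) ∂(VK (VD D) S) ≤
      H * s ^ (m + 2) := by
    refine le_trans ?_ hJ
    refine integral_mono_of_nonneg ?_ hiS ?_
    · filter_upwards [haeS, hfS] with p hp hf
      rw [hef p.1 hp]
      exact mul_nonneg (gp_nonneg _) hf
    · filter_upwards [haeS, hfS] with p hp hf
      rw [hef p.1 hp]
      calc gp (‖cs'.x p.1‖ ^ 2 / s ^ 2) * (2 * c.f p.1) ≤ 1 * (2 * c.f p.1) :=
            mul_le_mul_of_nonneg_right (gp_le _) hf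
        _ = _ := one_mul _
  -- the logarithm
  have hlogH : 1 ≤ Real.log (1 / H) := by
    rw [one_div, Real.log_inv]
    have := Real.log_le_log hH0 hHb
    rw [Real.log_exp] at this
    linarith
  have hlogH2 : 2 / δ ≤ Real.log (1 / H) := by
    rw [one_div, Real.log_inv]
    have := Real.log_le_log hH0 hHc
    rw [Real.log_exp] at this
    linarith
  have hpow : (Real.log (1 / H)) ^ (-(1:ℝ)) = (Real.log (1 / H))⁻¹ := Real.rpow_neg_one _
  -- the core
  have main := core π ρ zh (wz π x zh r W) 0 s κ 1 H U S D gp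
    h.hf h.opU hD (stationary_of_stat hD h.cx.st) hs0 hg (contDiff_wz h.ext.cd) hk hκa (by
      intro j hj1 hj3 Y _
      have e1 := h.ext.iter (π := π) (x := x) (z := zh) hr hj1 (hj3.trans h.hK) Y
      obtain ⟨i, rfl⟩ : ∃ i, j = i + 1 := ⟨j - 1, by omega⟩
      simp only [Nat.add_sub_cancel]
      have e2 : s ^ i ≤ r ^ i := by
        gcongr
        linarith
      calc s ^ i * ‖iteratedFDeriv ℝ (i + 1) (wz π x zh r W) Y‖ ≤
            r ^ i * (κ * r * r⁻¹ ^ (i + 1)) := by gcongr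
        _ = κ := by rw [inv_pow, pow_succ]; field_simp) one_pos le_rfl (by
      intro Y hY
      rw [mem_ball_zero_iff] at hY
      exact LowF13_471.Qx.msys h (by linarith)) (by
      have e0 : Foot_842.pt π ρ zh (wz π x zh r W) 0 = zh := by
        unfold Foot_842.pt
        rw [wz_zero, map_zero, map_zero, add_zero, add_zero]
      rw [e0]
      exact LowF13_471.Qx.closedBall_U h (by linarith)) hloc
    (by
      intro z hz
      rw [henu z hz]
      have := hnu z hz.1 hz.2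
      nlinarith) hM1 hM2 hH0 hHa (by
      rw [hpow]
      exact inv_le_one_of_one_le₀ hlogH) hE1 gp_nonneg (fun t _ => gp_le t) gp_zero gp_lip
  rw [hlog, bb_gp, hpow] at main
  -- comparison
  have hbz : bz (VD D) π ρ x r W zh (h0 m Q ε) Q l = bb cs' (VK (VD D) S) g3 Q l := by
    have e1 : bb c (VK (VD D) (Kz π ρ x r W zh (h0 m Q ε))) g3 Q l =
        bb c (VK (VD D) S) g3 Q l := by
      refine bb_cut hKz hSK ?_ (fun t ht => pf_cubic.pr.k0.zero t ht) Q
      filter_upwards [haeV] with p hp h1 h2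
      by_contra h3
      rw [not_le] at h3
      exact h2 ⟨hp ⟨h1, mem_univ _⟩, by
        show ‖c.x p.1‖ ≤ 2 * s
        linarith⟩
    have e2 := bb_radius (X0 := 0) h.gr hg hSc hSr hSt (VD D) g3 Q l
    exact e1.trans e2
  rw [hbz]
  refine main.trans ?_
  rw [hs2]
  have hs2p : 0 < s ^ (m + 2) := by positivity
  have a1 : (s ^ (m + 2))⁻¹ * ∫ p, gp (‖cs'.x p.1‖ ^ 2 / s ^ 2) * (2 * cs'.f p.1)
      ∂(VK (VD D) S) ≤ H := by
    rw [inv_mul_le_iff₀ hs2p]
    linarith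
  have a2 : Cf * κ ^ 2 ≤ δ / 2 := by
    have h1 : κ ^ 2 ≤ κ := by nlinarith
    have h2 : Cf * κ ≤ δ / 2 := by
      rw [le_div_iff₀ (by positivity)] at hκd
      linarith
    calc Cf * κ ^ 2 ≤ Cf * κ := by gcongr
      _ ≤ _ := h2
  have a3 : (Real.log (1 / H))⁻¹ ≤ δ / 2 := by
    have h1 : (Real.log (1 / H))⁻¹ ≤ (2 / δ)⁻¹ := by
      gcongr
    rwa [inv_div] at h1
  have a4 : Cf * κ ^ 2 * ((s ^ (m + 2))⁻¹ * ∫ p, gp (‖cs'.x p.1‖ ^ 2 / s ^ 2) * (2 * cs'.f p.1)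
      ∂(VK (VD D) S)) ≤ δ / 2 * H := by
    calc _ ≤ Cf * κ ^ 2 * H := by gcongr
      _ ≤ _ := by gcongr
  calc s ^ 2 * (Cf * κ ^ 2 * ((s ^ (m + 2))⁻¹ * ∫ p, gp (‖cs'.x p.1‖ ^ 2 / s ^ 2) * (2 * cs'.f p.1)
      ∂(VK (VD D) S)) + (Real.log (1 / H))⁻¹ * H) ≤ s ^ 2 * (δ / 2 * H + δ / 2 * H) := by gcongr
    _ = _ := by ring

end Crest.Agent.R234.LowF19_471
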