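import Crest.Agent.R234.Vf3_884
import Crest.Agent.R234.Strat3_842
import Crest.Agent.R234.Pt3_615
import Crest.Agent.R234.MgDefs2_570
import Crest.Agent.R234.Sel5_570

-- ▼ part R234/Sel1_570
section

/-!
Row 234, VF-SEL (helper570), file 1: pointwise algebra of a plane `S` against the tangent plane `T`
of the graph of a linear map `B` (all operators in the ring `L k`; `H` = horizontal projection,
`B = B H`, `H B = 0`).
-/

set_option autoImplicit false

open MeasureTheory Crest.GeometryTopology.Submanifold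
open Crest.Agent.R234.Vf_884
open scoped ENNReal InnerProductSpace

noncomputable section

namespace Crest.Agent.R234.Sel1_570

variable {m k : ℕ}

/-- expand products in the ring `L k`. -/
macro "nr570" : tactic => `(tactic| (simp only [sub_mul, mul_sub, add_mul, mul_add, one_mul, mul_one,
  mul_assoc, mul_zero, zero_mul, mul_neg, neg_mul, neg_neg, neg_sub, neg_add_rev]; abel))

theorem sadd (A B : L k) : star (A + B) = star A + star B := star_add A B
theorem ssub (A B : L k) : star (A - B) = star A - star B := star_sub A B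
theorem szero : star (0 : L k) = 0 := star_zero (L k)
theorem sone : star (1 : L k) = 1 := star_one (L k)

theorem inner_star (A : L k) (x y : Euc k) : ⟪star A x, y⟫_ℝ = ⟪x, A y⟫_ℝ := by
  rw [ContinuousLinearMap.star_eq_adjoint, ContinuousLinearMap.adjoint_inner_left]

theorem inner_star' (A : L k) (x y : Euc k) : ⟪x, star A y⟫_ℝ = ⟪A x, y⟫_ℝ := by
  rw [ContinuousLinearMap.star_eq_adjoint, ContinuousLinearMap.adjoint_inner_right]

/-- the data of a graph at one point. -/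
structure GB (H B : L k) : Prop where
  idem : H * H = H
  sa : star H = H
  BH : B * H = B
  HB : H * B = 0

variable {H B : L k}

theorem GB.HBs (h : GB H B) : H * star B = star B := by
  have := congrArg star h.BH
  rwa [star_mul, h.sa] at this

theorem GB.BsH (h : GB H B) : star B * H = 0 := by
  have := congrArg star h.HB
  rwa [star_mul, h.sa, szero] at this

theorem GB.BB (h : GB H B) : B * B = 0 := by
  calc B * B = (B * H) * B := by rw [h.BH]
    _ = B * (H * B) := mul_assoc _ _ _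
    _ = 0 := by rw [h.HB, mul_zero]


/-- `1 + B†B` is a unit. -/
theorem isUnit_one_add (B : L k) : IsUnit (1 + star B * B) := by
  have hinj : Function.Injective (1 + star B * B : L k) := by
    rw [injective_iff_map_eq_zero]
    intro x hx
    have h1 : ⟪x, (1 + star B * B : L k) x⟫_ℝ = ‖x‖ ^ 2 + ‖B x‖ ^ 2 := by
      rw [add_apply, one_apply_eq_self,
        mul_apply_eq_comp, inner_add_right, inner_star', real_inner_self_eq_norm_sq,
        real_inner_self_eq_norm_sq]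
    rw [hx, inner_zero_right] at h1
    have h2 : ‖x‖ ^ 2 ≤ 0 := by nlinarith [sq_nonneg ‖B x‖]
    exact norm_eq_zero.1 (pow_eq_zero_iff two_ne_zero |>.1 (le_antisymm h2 (sq_nonneg _)))
  let e := (LinearEquiv.ofInjectiveEndo (1 + star B * B : L k).toLinearMap
    hinj).toContinuousLinearEquiv
  have he : (e : L k) = 1 + star B * B := by
    ext1 x; rfl
  rw [← he]
  exact ⟨ContinuousLinearEquiv.toUnit e, rfl⟩

/-- the inverse metric (identity on the vertical part). -/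
def gI (B : L k) : L k := Ring.inverse (1 + star B * B)

theorem gI_mul (B : L k) : gI B * (1 + star B * B) = 1 :=
  Ring.inverse_mul_cancel _ (isUnit_one_add B)

theorem mul_gI (B : L k) : (1 + star B * B) * gI B = 1 :=
  Ring.mul_inverse_cancel _ (isUnit_one_add B)

theorem gI_BsB (B : L k) : gI B * (star B * B) = 1 - gI B := by
  have := gI_mul B
  rw [mul_add, mul_one] at this
  rw [← this]; abel

theorem BsB_gI (B : L k) : star B * B * gI B = 1 - gI B := by
  have := mul_gI B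
  rw [add_mul, one_mul] at this
  rw [← this]; abel

theorem star_gI (B : L k) : star (gI B) = gI B := by
  have h1 : star (gI B) * (1 + star B * B) = 1 := by
    have := congrArg star (mul_gI B)
    rwa [star_mul, sadd, sone, star_mul, star_star] at this
  calc star (gI B) = star (gI B) * ((1 + star B * B) * gI B) := by rw [mul_gI, mul_one]
    _ = (star (gI B) * (1 + star B * B)) * gI B := by rw [mul_assoc]
    _ = gI B := by rw [h1, one_mul]

/-- `H` commutes with the inverse metric. -/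
theorem GB.H_gI (h : GB H B) : H * gI B = gI B * H := by
  have hc : H * (1 + star B * B) = (1 + star B * B) * H := by
    rw [mul_add, add_mul, mul_one, one_mul, ← mul_assoc, h.HBs, mul_assoc, h.BH]
  calc H * gI B = (gI B * (1 + star B * B)) * (H * gI B) := by rw [gI_mul, one_mul]
    _ = gI B * ((1 + star B * B) * H) * gI B := by simp only [mul_assoc]
    _ = gI B * (H * (1 + star B * B)) * gI B := by rw [hc]
    _ = gI B * H * ((1 + star B * B) * gI B) := by simp only [mul_assoc]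
    _ = gI B * H := by rw [mul_gI, mul_one]

theorem GB.gI_ver (h : GB H B) : gI B * (1 - H) = 1 - H := by
  have h1 : (1 + star B * B) * (1 - H) = 1 - H := by
    rw [add_mul, one_mul, mul_assoc, mul_sub, mul_one, h.BH, sub_self, mul_zero, add_zero]
  calc gI B * (1 - H) = gI B * ((1 + star B * B) * (1 - H)) := by rw [h1]
    _ = 1 - H := by rw [← mul_assoc, gI_mul, one_mul]

/-- the tangent projection of the graph. -/
def TT (H B : L k) : L k := (H + B) * gI B * (H + star B)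

/-- the normal frame. -/
def nu (H B : L k) : L k := 1 - H - star B

/-- `(1 + B B†)⁻¹`. -/
def KK (B : L k) : L k := 1 - B * gI B * star B

theorem GB.star_nu (h : GB H B) : star (nu H B) = 1 - H - B := by
  rw [nu, ssub, ssub, sone, h.sa, star_star]

theorem GB.KK_H (h : GB H B) : KK B * H = H := by
  rw [KK, sub_mul, one_mul, mul_assoc, h.BsH, mul_zero, sub_zero]

theorem GB.H_KK (h : GB H B) : H * KK B = H := by
  rw [KK, mul_sub, mul_one, ← mul_assoc, ← mul_assoc, h.HB, zero_mul, zero_mul, sub_zero]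

theorem star_KK (B : L k) : star (KK B) = KK B := by
  rw [KK, ssub, sone, star_mul, star_mul, star_star, star_gI, mul_assoc]

theorem KK_B (B : L k) : KK B * B = B * gI B := by
  rw [KK, sub_mul, one_mul, mul_assoc, mul_assoc, gI_BsB, mul_sub, mul_one]
  abel

theorem Bs_KK (B : L k) : star B * KK B = gI B * star B := by
  have := congrArg star (KK_B B)
  rwa [star_mul, star_mul, star_KK, star_gI] at this

theorem GB.nu_H (h : GB H B) : nu H B * H = 0 := by
  rw [nu, sub_mul, sub_mul, one_mul, h.idem, sub_self, h.BsH, sub_zero]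


/-- the normal projection. -/
theorem GB.TT_add (h : GB H B) : TT H B + nu H B * KK B * star (nu H B) = 1 := by
  have e0 : gI B * H = H * gI B := h.H_gI.symm
  have e1 : TT H B = H * gI B + H * gI B * star B + B * gI B + B * gI B * star B := by
    have a1 : H * gI B * H = H * gI B := by rw [mul_assoc, e0, ← mul_assoc, h.idem]
    have a2 : B * gI B * H = B * gI B := by rw [mul_assoc, e0, ← mul_assoc, h.BH]
    rw [TT]
    calc (H + B) * gI B * (H + star B)
        = H * gI B * H + H * gI B * star B + (B * gI B * H + B * gI B * star B) := by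
          nr570
      _ = _ := by rw [a1, a2]; abel
  have e2 : nu H B * KK B * star (nu H B)
      = (1 - H) * KK B * (1 - H) - (1 - H) * (KK B * B) - (star B * KK B) * (1 - H)
        + star B * (KK B * B) := by
    rw [h.star_nu, nu]; nr570
  have b1 : (1 - H) * KK B * (1 - H) = 1 - H - B * gI B * star B := by
    have c1 : (1 - H) * KK B = KK B - H := by rw [sub_mul, one_mul, h.H_KK]
    rw [c1, sub_mul, mul_sub, mul_sub, mul_one, mul_one, h.KK_H, h.idem, sub_self, sub_zero, KK]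
    abel
  have b2 : (1 - H) * (KK B * B) = B * gI B := by
    rw [KK_B, sub_mul, one_mul, ← mul_assoc, h.HB, zero_mul, sub_zero]
  have b3 : (star B * KK B) * (1 - H) = gI B * star B := by
    rw [Bs_KK, mul_sub, mul_one, mul_assoc, h.BsH, mul_zero, sub_zero]
  have b4 : star B * (KK B * B) = 1 - gI B := by
    rw [KK_B, ← mul_assoc, BsB_gI]
  have b5 : H * gI B * star B = gI B * star B := by
    rw [h.H_gI, mul_assoc, h.HBs]
  have b6 : H * gI B = gI B - (1 - H) := by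
    have := h.gI_ver
    rw [mul_sub, mul_one, ← h.H_gI] at this
    have h2 : gI B = 1 - H + H * gI B := by rw [← this]; abel
    rw [eq_comm, sub_eq_iff_eq_add, add_comm]; exact h2
  rw [e1, e2, b1, b2, b3, b4, b5, b6]
  abel

theorem GB.snu_nu (h : GB H B) : star (nu H B) * nu H B = 1 - H + B * star B := by
  rw [h.star_nu, nu]
  have a1 : (1 - H - B) * (1 - H - star B)
      = 1 - H - H + H * H - (star B - H * star B) - (B - B * H) + B * star B := by nr570
  rw [a1, h.idem, h.HBs, h.BH]; abel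

theorem KK_mul (B : L k) : KK B * (1 + B * star B) = 1 := by
  have : KK B * (1 + B * star B) = KK B + (KK B * B) * star B := by
    rw [mul_add, mul_one, mul_assoc]
  rw [this, KK_B, KK]; abel

theorem GB.T'nu (h : GB H B) : nu H B * KK B * star (nu H B) * nu H B = nu H B := by
  rw [mul_assoc, h.snu_nu]
  have : nu H B * KK B * (1 - H + B * star B)
      = nu H B * (KK B * (1 + B * star B)) - nu H B * (KK B * H) := by nr570
  rw [this, KK_mul, h.KK_H, h.nu_H, mul_one, sub_zero]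

theorem GB.T_nu (h : GB H B) : TT H B * nu H B = 0 := by
  have h1 : TT H B = 1 - nu H B * KK B * star (nu H B) := by
    rw [← h.TT_add]; abel
  rw [h1, sub_mul, one_mul, h.T'nu, sub_self]

theorem star_TT (h : GB H B) : star (TT H B) = TT H B := by
  rw [TT, star_mul, star_mul, sadd, sadd, h.sa, star_star, star_gI, mul_assoc]

theorem GB.TT_idem (h : GB H B) : TT H B * TT H B = TT H B := by
  have h1 : TT H B = 1 - nu H B * KK B * star (nu H B) := by
    rw [← h.TT_add]; abel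
  calc TT H B * TT H B = TT H B * (1 - nu H B * KK B * star (nu H B)) := by rw [← h1]
    _ = TT H B - TT H B * nu H B * (KK B * star (nu H B)) := by
          rw [mul_sub, mul_one]; simp only [mul_assoc]
    _ = TT H B := by rw [h.T_nu, zero_mul, sub_zero]

theorem tr_mul_comm (A C : L k) : tr (A * C) = tr (C * A) := tr_comm A C

theorem tr_one' : tr (1 : L k) = k := tr_one

theorem GB.tr_TT (h : GB H B) : tr (TT H B) = tr H := by
  have h1 : TT H B = (H + B) * (gI B * (H + star B)) := by rw [TT, mul_assoc]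
  have h2 : gI B * (H + star B) * (H + B) = 1 - gI B * (1 - H) := by
    have : gI B * (H + star B) * (H + B)
        = gI B * (H * H) + gI B * (H * B) + gI B * (star B * H) + gI B * (star B * B) := by
      nr570
    rw [this, h.idem, h.HB, h.BsH, gI_BsB, mul_sub, mul_one]
    simp only [mul_zero, add_zero]
    abel
  rw [h1, tr_mul_comm, h2, h.gI_ver, map_sub, map_sub, tr_one']
  ring

theorem GB.TT_mem (h : GB H B) (hm : tr H = m) : TT H B ∈ G m k :=
  ⟨h.TT_idem, star_TT h, by rw [h.tr_TT, hm]⟩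

/-- **The exact decomposition** of a plane `S` with respect to `T`, tested against a symmetric
horizontal operator `A`. -/
theorem tr_decomp (h : GB H B) {A S : L k} (hA : star A = A) (hAH : A * H = A)
    (hS : star S = S) :
    tr (A * S) = tr (A * TT H B) - 2 * tr (A * gI B * star B * star (nu H B) * S)
      - tr (A * (TT H B * (1 - S) * TT H B))
      - tr (A * ((1 - TT H B) * S * (1 - TT H B))) := by
  set T := TT H B with hT
  have hTT : T * T = T := h.TT_idem
  have hTs : star T = T := star_TT h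
  have hHA : H * A = A := by
    have := congrArg star hAH
    rwa [star_mul, hA, h.sa] at this
  have e1 : 1 - T = nu H B * KK B * star (nu H B) := by
    rw [← h.TT_add]; abel
  have e2 : A * S = A * T + A * ((1 - T) * S) + A * (S * (1 - T))
      - A * (T * (1 - S) * T) - A * ((1 - T) * S * (1 - T)) := by
    have : A * T + A * ((1 - T) * S) + A * (S * (1 - T))
      - A * (T * (1 - S) * T) - A * ((1 - T) * S * (1 - T))
        = A * S + A * (T - T * T) := by nr570
    rw [this, hTT, sub_self, mul_zero, add_zero]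
  have e3 : tr (A * (S * (1 - T))) = tr (A * ((1 - T) * S)) := by
    -- the trace of the adjoint
    have hst : ∀ X : L k, tr (star X) = tr X := by
      intro X
      rw [tr_eq_sum, tr_eq_sum]
      refine Finset.sum_congr rfl fun i _ => ?_
      rw [inner_star', real_inner_comm]
    rw [← hst (A * (S * (1 - T)))]
    have : star (A * (S * (1 - T))) = (1 - T) * S * A := by
      rw [star_mul, star_mul, ssub, sone, hTs, hS, hA]
    rw [this, tr_mul_comm]
  have e4 : A * ((1 - T) * S) = -(A * gI B * star B * star (nu H B) * S) := by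
    have a1 : A * nu H B = -(A * star B) := by
      rw [nu, mul_sub, mul_sub, mul_one, hAH, sub_self, zero_sub]
    calc A * ((1 - T) * S) = (A * nu H B) * KK B * star (nu H B) * S := by
          rw [e1]; simp only [mul_assoc]
      _ = -(A * (star B * KK B) * star (nu H B) * S) := by
          have a2 : ∀ X : L k, (-(A * star B)) * X = -((A * star B) * X) := fun X => by
            ext1 x; simp only [mul_apply_eq_comp, neg_apply]
          rw [a1, mul_assoc, mul_assoc, a2]; simp only [mul_assoc]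
      _ = _ := by rw [Bs_KK]; simp only [mul_assoc]
  have e5 : tr (A * S) = tr (A * T) + tr (A * ((1 - T) * S)) + tr (A * (S * (1 - T)))
      - tr (A * (T * (1 - S) * T)) - tr (A * ((1 - T) * S * (1 - T))) := by
    rw [← map_add, ← map_add, ← map_sub, ← map_sub, ← e2]
  rw [e5, e3, e4, map_neg]
  ring

/-- the tilt of `S` against `T`. -/
def tau (T S : L k) : ℝ := tr ((1 - T) * S)

theorem tau_nonneg {S T : L k} (hS : S ∈ G m k) (hT : T ∈ G m k) : 0 ≤ tau T S :=
  Strat3_842.tr_perp_nonneg hS hT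

theorem abs_tr_le (A : L k) : |tr A| ≤ k * ‖A‖ := by
  rw [tr_eq_sum]
  refine (Finset.abs_sum_le_sum_abs _ _).trans ?_
  calc ∑ i : Fin k, |⟪stdVec k i, A (stdVec k i)⟫_ℝ| ≤ ∑ _i : Fin k, ‖A‖ := by
        refine Finset.sum_le_sum fun i _ => ?_
        have h1 : ‖stdVec k i‖ = 1 := by simp [stdVec]
        calc |⟪stdVec k i, A (stdVec k i)⟫_ℝ| ≤ ‖stdVec k i‖ * ‖A (stdVec k i)‖ :=
              abs_real_inner_le_norm _ _
          _ ≤ 1 * (‖A‖ * 1) := by
              rw [h1]; gcongr; simpa [h1] using A.le_opNorm (stdVec k i)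
          _ = ‖A‖ := by ring
    _ = k * ‖A‖ := by simp

/-- `‖S - T‖² ≤ 2 τ`. -/
theorem norm_sub_sq_le {S T : L k} (hS : S ∈ G m k) (hT : T ∈ G m k) :
    ‖S - T‖ ^ 2 ≤ 2 * tau T S := by
  have h0 : 0 ≤ 2 * tau T S := by have := tau_nonneg hS hT; linarith
  have h1 : ∀ w, ‖(S - T) w‖ ≤ Real.sqrt (2 * tau T S) * ‖w‖ := by
    intro w
    have h2 := Strat3_842.norm_sq_le_tr (A := S - T) (Strat3_842.sub_symm hS hT) w
    rw [Strat3_842.tr_sub_sq hS hT] at h2
    have h3 : ‖(S - T) w‖ ^ 2 ≤ (Real.sqrt (2 * tau T S) * ‖w‖) ^ 2 := by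
      rw [mul_pow, Real.sq_sqrt h0]
      exact h2
    exact abs_le_of_sq_le_sq' h3 (by positivity) |>.2
  have h4 : ‖S - T‖ ≤ Real.sqrt (2 * tau T S) :=
    ContinuousLinearMap.opNorm_le_bound _ (Real.sqrt_nonneg _) h1
  calc ‖S - T‖ ^ 2 ≤ Real.sqrt (2 * tau T S) ^ 2 := by gcongr
    _ = _ := Real.sq_sqrt h0

theorem norm_sub_le {S T : L k} (hS : S ∈ G m k) (hT : T ∈ G m k) :
    ‖S - T‖ ≤ Real.sqrt (2 * tau T S) :=
  Real.le_sqrt_of_sq_le (norm_sub_sq_le hS hT)

/-- linear error. -/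
theorem tr_lin_le {S T : L k} (hS : S ∈ G m k) (hT : T ∈ G m k) (A : L k) :
    |tr (A * S) - tr (A * T)| ≤ k * ‖A‖ * Real.sqrt (2 * tau T S) := by
  rw [← map_sub, ← mul_sub]
  refine (abs_tr_le _).trans ?_
  have := norm_sub_le hS hT
  calc (k : ℝ) * ‖A * (S - T)‖ ≤ k * (‖A‖ * Real.sqrt (2 * tau T S)) := by
        gcongr
        exact (norm_mul_le _ _).trans (by gcongr)
    _ = _ := by ring

theorem norm_one_sub_le {S : L k} (hS : S ∈ G m k) : ‖(1 : L k) - S‖ ≤ 1 := by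
  refine ContinuousLinearMap.opNorm_le_bound _ zero_le_one fun x => ?_
  have := G_norm_sq_add hS x
  have h2 : ‖x - S x‖ ^ 2 ≤ ‖x‖ ^ 2 := by nlinarith [sq_nonneg ‖S x‖]
  rw [one_mul]
  exact abs_le_of_sq_le_sq' h2 (norm_nonneg _) |>.2

/-- quadratic error. -/
theorem quad_le {S T : L k} (hS : S ∈ G m k) (hT : T ∈ G m k) (A : L k) :
    |tr (A * (T * (1 - S) * T)) + tr (A * ((1 - T) * S * (1 - T)))| ≤ 4 * k * ‖A‖ * tau T S := by
  have hSS : S * S = S := hS.1
  have hTT : T * T = T := hT.1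
  have hR := norm_sub_sq_le hS hT
  have a1 : ‖T * (1 - S) * T‖ ≤ ‖S - T‖ ^ 2 := by
    have e1 : T * (1 - S) * T = -((S - T) * (1 - S) * (T - S)) + (S - T) * (1 - S) * 0 := by
      have : (S - T) * (1 - S) * (T - S) = S * (T - S) - S * S * (T - S) - T * (1 - S) * T
          + T * (S - S * S) := by nr570
      rw [this, hSS]; nr570
    rw [mul_zero, add_zero] at e1
    rw [e1, norm_neg]
    calc ‖(S - T) * (1 - S) * (T - S)‖ ≤ ‖S - T‖ * ‖1 - S‖ * ‖T - S‖ :=
          (norm_mul_le _ _).trans (by gcongr; exact norm_mul_le _ _)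
      _ ≤ ‖S - T‖ * 1 * ‖S - T‖ := by
          rw [norm_sub_rev T S]; gcongr; exact norm_one_sub_le hS
      _ = _ := by ring
  have a2 : ‖(1 - T) * S * (1 - T)‖ ≤ ‖S - T‖ ^ 2 := by
    have e1 : (1 - T) * S * (1 - T) = (S - T) * S * (S - T) := by
      have : (1 - T) * S * (1 - T) = (S - T) * S * (S - T) + ((1 - S) * S * (1 - T)
          + (S - T) * (S * (1 - S))) := by nr570
      rw [this]
      have h1 : (1 - S) * S = 0 := by rw [sub_mul, one_mul, hSS, sub_self]
      have h2 : S * (1 - S) = 0 := by rw [mul_sub, mul_one, hSS, sub_self]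
      rw [h1, h2, zero_mul, mul_zero, add_zero, add_zero]
    rw [e1]
    calc ‖(S - T) * S * (S - T)‖ ≤ ‖S - T‖ * ‖S‖ * ‖S - T‖ :=
          (norm_mul_le _ _).trans (by gcongr; exact norm_mul_le _ _)
      _ ≤ ‖S - T‖ * 1 * ‖S - T‖ := by gcongr; exact G_norm_le hS
      _ = _ := by ring
  calc |tr (A * (T * (1 - S) * T)) + tr (A * ((1 - T) * S * (1 - T)))|
      ≤ |tr (A * (T * (1 - S) * T))| + |tr (A * ((1 - T) * S * (1 - T)))| := abs_add_le _ _
    _ ≤ k * (‖A‖ * ‖S - T‖ ^ 2) + k * (‖A‖ * ‖S - T‖ ^ 2) := by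
        gcongr
        · refine (abs_tr_le _).trans ?_
          gcongr
          exact (norm_mul_le _ _).trans (by gcongr)
        · refine (abs_tr_le _).trans ?_
          gcongr
          exact (norm_mul_le _ _).trans (by gcongr)
    _ = 2 * k * ‖A‖ * ‖S - T‖ ^ 2 := by ring
    _ ≤ 2 * k * ‖A‖ * (2 * tau T S) := by gcongr
    _ = _ := by ring

end Crest.Agent.R234.Sel1_570
end
end

-- ▼ part R234/Sel2_570
section

/-!
Row 234, VF-SEL (helper570), file 2: graph data, the exact Jacobi identity for the mean height of a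
stationary varifold over a graph, the Caccioppoli inequality relative to a minimal graph.

`H` = horizontal projection, `w : Euc k → Euc k` the graph map (`w z = w (H z)`, `H (w z) = 0`),
`f z = z - H z - w z` the height.
-/

set_option autoImplicit false

open MeasureTheory Crest.GeometryTopology.Submanifold Filter Topology
open Crest.Agent.R234.Vf_884 Crest.Agent.R234.Sel1_570 Crest.Agent.R234.Pt_615
open scoped ENNReal InnerProductSpace

noncomputable section

namespace Crest.Agent.R234.Sel2_570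

variable {m k : ℕ}

/-- graph data. -/
structure GD (H : L k) (w : Euc k → Euc k) : Prop where
  idem : H * H = H
  sa : star H = H
  smooth : ContDiff ℝ 3 w
  hor : ∀ z, w (H z) = w z
  ver : ∀ z, H (w z) = 0

variable {H : L k} {w : Euc k → Euc k}

/-- the differential of the graph map. -/
def Bz (w : Euc k → Euc k) (z : Euc k) : L k := fderiv ℝ w z

theorem GD.hasFDerivAt (h : GD H w) (z : Euc k) : HasFDerivAt w (Bz w z) z :=
  (h.smooth.differentiable (by norm_num) z).hasFDerivAt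

theorem GD.gb (h : GD H w) (z : Euc k) : GB H (Bz w z) := by
  have hHd : HasFDerivAt (fun z : Euc k => H z) H z := H.hasFDerivAt
  refine ⟨h.idem, h.sa, ?_, ?_⟩
  · have h1 : HasFDerivAt (fun z => w (H z)) ((Bz w (H z)) ∘L H) z :=
      (h.hasFDerivAt (H z)).comp z hHd
    have h2 : (fun z => w (H z)) = w := funext h.hor
    rw [h2] at h1
    have h3 : Bz w z = (Bz w (H z)) * H := (h.hasFDerivAt z).unique h1
    rw [h3, mul_assoc, h.idem]
  · have h1 : HasFDerivAt (fun z => H (w z)) (H ∘L (Bz w z)) z :=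
      H.hasFDerivAt.comp z (h.hasFDerivAt z)
    have h2 : (fun z => H (w z)) = fun _ => (0 : Euc k) := funext h.ver
    rw [h2] at h1
    exact h1.unique (hasFDerivAt_const (0 : Euc k) z)

/-- the adjoint differential. -/
def Bs (w : Euc k → Euc k) (z : Euc k) : L k := star (Bz w z)

/-- `star` as a continuous linear map. -/
def stL : L k →L[ℝ] L k := (starL' ℝ : L k ≃L[ℝ] L k).toContinuousLinearMap


theorem GD.contDiff_Bz (h : GD H w) : ContDiff ℝ 2 (Bz w) :=
  h.smooth.fderiv_right (m := 2) (by norm_num)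

theorem GD.contDiff_Bs (h : GD H w) : ContDiff ℝ 2 (Bs w) :=
  (stL (k := k)).contDiff.comp h.contDiff_Bz

/-- derivative of the adjoint differential. -/
def DBs (w : Euc k → Euc k) (z : Euc k) : Euc k →L[ℝ] L k := fderiv ℝ (Bs w) z

theorem GD.hasFDerivAt_Bs (h : GD H w) (z : Euc k) : HasFDerivAt (Bs w) (DBs w z) z :=
  (h.contDiff_Bs.differentiable (by norm_num) z).hasFDerivAt

/-- the Hessian of the component `⟨w, e⟩`. -/
def AA (w : Euc k → Euc k) (z e : Euc k) : L k := (DBs w z).flip e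

theorem AA_apply (z e v : Euc k) : AA w z e v = DBs w z v e := rfl

theorem GD.DBs_eq (h : GD H w) (z v : Euc k) : DBs w z v = star (fderiv ℝ (Bz w) z v) := by
  have h1 : HasFDerivAt (Bz w) (fderiv ℝ (Bz w) z) z :=
    (h.contDiff_Bz.differentiable (by norm_num) z).hasFDerivAt
  have h2 : HasFDerivAt (Bs w) ((stL (k := k)) ∘L (fderiv ℝ (Bz w) z)) z :=
    (stL (k := k)).hasFDerivAt.comp z h1
  rw [(h.hasFDerivAt_Bs z).unique h2]
  rfl

theorem GD.AA_inner (h : GD H w) (z e v v' : Euc k) :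
    ⟪AA w z e v, v'⟫_ℝ = ⟪e, fderiv ℝ (fderiv ℝ w) z v v'⟫_ℝ := by
  rw [AA_apply, h.DBs_eq, inner_star]
  rfl

theorem GD.AA_symm (h : GD H w) (z e : Euc k) : star (AA w z e) = AA w z e := by
  refine ContinuousLinearMap.ext fun v => ext_inner_right ℝ fun v' => ?_
  have hs : IsSymmSndFDerivAt ℝ w z :=
    (h.smooth.contDiffAt).isSymmSndFDerivAt (by simp; norm_num)
  rw [inner_star, h.AA_inner, real_inner_comm, h.AA_inner, hs v v']

theorem GD.AA_H (h : GD H w) (z e : Euc k) : AA w z e * H = AA w z e := by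
  -- `H * A = A` from `H B† = B†`
  have h1 : H * AA w z e = AA w z e := by
    have h2 : HasFDerivAt (fun z => Bs w z e) (AA w z e) z := by
      have := (h.hasFDerivAt_Bs z).clm_apply (hasFDerivAt_const e z)
      refine this.congr_fderiv ?_
      ext1 v
      simp [AA_apply]
    have h3 : HasFDerivAt (fun z => H (Bs w z e)) (H ∘L (AA w z e)) z :=
      H.hasFDerivAt.comp z h2
    have h4 : (fun z => H (Bs w z e)) = fun z => Bs w z e := by
      funext y
      exact congrArg (fun A : L k => A e) (h.gb y).HBs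
    rw [h4] at h3
    exact h3.unique h2
  have := congrArg star h1
  rwa [star_mul, h.AA_symm, h.sa] at this

theorem GD.contDiff_gI (h : GD H w) : ContDiff ℝ 2 fun z => gI (Bz w z) := by
  rw [contDiff_iff_contDiffAt]
  intro z
  have h1 : ContDiffAt ℝ 2 (Ring.inverse : L k → L k) (1 + star (Bz w z) * Bz w z) := by
    obtain ⟨u, hu⟩ := isUnit_one_add (Bz w z)
    rw [← hu]
    exact contDiffAt_ringInverse ℝ u
  have h2 : ContDiffAt ℝ 2 (fun z => (1 : L k) + star (Bz w z) * Bz w z) z :=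
    contDiffAt_const.add ((h.contDiff_Bs.contDiffAt).mul (h.contDiff_Bz.contDiffAt))
  exact h1.comp z h2

theorem GD.contDiff_KK (h : GD H w) : ContDiff ℝ 2 fun z => KK (Bz w z) :=
  contDiff_const.sub ((h.contDiff_Bz.mul h.contDiff_gI).mul h.contDiff_Bs)

theorem GD.contDiff_nu (h : GD H w) : ContDiff ℝ 2 fun z => nu H (Bz w z) :=
  contDiff_const.sub h.contDiff_Bs

theorem GD.contDiff_TT (h : GD H w) : ContDiff ℝ 2 fun z => TT H (Bz w z) :=
  ((contDiff_const.add h.contDiff_Bz).mul h.contDiff_gI).mul (contDiff_const.add h.contDiff_Bs)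

theorem GD.contDiff_AA (h : GD H w) (e : Euc k) : ContDiff ℝ 1 fun z => AA w z e := by
  have h1 : ContDiff ℝ 1 (DBs w) := h.contDiff_Bs.fderiv_right (m := 1) (by norm_num)
  have h2 : (fun z => AA w z e) = fun z =>
      (ContinuousLinearMap.apply ℝ (Euc k) e : L k →L[ℝ] Euc k) ∘L (DBs w z) := rfl
  rw [h2]
  exact contDiff_const.clm_comp h1

/-- the height. -/
def ht (H : L k) (w : Euc k → Euc k) (z : Euc k) : Euc k := z - H z - w z

theorem GD.hasFDerivAt_ht (h : GD H w) (z : Euc k) :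
    HasFDerivAt (ht H w) (star (nu H (Bz w z))) z := by
  rw [(h.gb z).star_nu]
  exact ((hasFDerivAt_id z).sub H.hasFDerivAt).sub (h.hasFDerivAt z)


theorem GD.contDiff_ht (h : GD H w) : ContDiff ℝ 1 (ht H w) :=
  (contDiff_id.sub H.contDiff).sub (h.smooth.of_le (by norm_num))

end Crest.Agent.R234.Sel2_570
end
end

-- ▼ part R234/Sel3_570
section

/-!
Row 234, VF-SEL (helper570), file 3: the exact Jacobi identity for the mean height of a stationary
varifold over a graph (no minimality used), and the resulting weak Jacobi inequality.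
-/

set_option autoImplicit false

open MeasureTheory Crest.GeometryTopology.Submanifold Filter Topology
open Crest.Agent.R234.Vf_884 Crest.Agent.R234.Sel1_570 Crest.Agent.R234.Pt_615
open scoped ENNReal InnerProductSpace

noncomputable section

namespace Crest.Agent.R234.Sel2_570

variable {m k : ℕ} {H : L k} {w : Euc k → Euc k}

/-! ### integrability -/

theorem integrable_of_cont' {V : Measure (Euc k × L k)} [IsFiniteMeasure V] (hV : HBase m V)
    {F : Euc k × L k → ℝ} (hF : Continuous F) : Integrable F V := by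
  obtain ⟨R, hR⟩ := hV.bdd
  obtain ⟨C, hC⟩ : ∃ C, ∀ p ∈ Metric.closedBall (0 : Euc k) R ×ˢ G m k, ‖F p‖ ≤ C :=
    ((isCompact_closedBall 0 R).prod (isCompact_G m k)).exists_bound_of_continuousOn hF.continuousOn
  refine Integrable.of_bound hF.aestronglyMeasurable C ?_
  filter_upwards [hR, hV.conc] with p h1 h2
  exact hC p ⟨by rw [mem_closedBall_zero_iff]; exact h1, h2⟩

/-! ### the three fields -/

theorem smul_mul' (c : ℝ) (A B : L k) : (c • A) * B = c • (A * B) :=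
  ContinuousLinearMap.smul_comp c A B

theorem tr_rank (G v : Euc k) (S : L k) :
    tr (((innerSL ℝ G).smulRight v) ∘L S) = ⟪G, S v⟫_ℝ := by
  rw [tr_smulRight_comp]
  rfl

/-- test function data. -/
structure TF (H : L k) (K : Set (Euc k)) (φ : Euc k → ℝ) (G : Euc k → Euc k) : Prop where
  der : ∀ z, HasFDerivAt φ (innerSL ℝ (G z)) z
  smooth : ContDiff ℝ 1 φ
  smoothG : ContDiff ℝ 1 G
  zero : ∀ z, H z ∉ K → φ z = 0
  zeroG : ∀ z, H z ∉ K → G z = 0

variable {K : Set (Euc k)} {φ : Euc k → ℝ} {G : Euc k → Euc k}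

/-- the field `φ ν e`. -/
theorem GD.X1 (h : GD H w) (hφ : TF H K φ G) (e : Euc k) (z : Euc k) (S : L k) :
    tr ((fderiv ℝ (fun z => φ z • (nu H (Bz w z)) e) z) ∘L S)
      = ⟪G z, S (nu H (Bz w z) e)⟫_ℝ - φ z * tr (AA w z e * S) := by
  have h1 : HasFDerivAt (fun z => (nu H (Bz w z)) e) (-(AA w z e)) z := by
    have h2 : HasFDerivAt (fun z => nu H (Bz w z)) (-(DBs w z)) z :=
      ((hasFDerivAt_const (1 - H : L k) z).sub (h.hasFDerivAt_Bs z)).congr_fderiv (by simp)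
    refine (h2.clm_apply (hasFDerivAt_const e z)).congr_fderiv ?_
    ext1 v
    simp [AA_apply]
  have h3 : HasFDerivAt (fun z => φ z • (nu H (Bz w z)) e) _ z := (hφ.der z).smul h1
  rw [h3.fderiv, ContinuousLinearMap.add_comp, map_add, ContinuousLinearMap.smul_comp, map_smul,
    tr_rank _ _ S, ContinuousLinearMap.neg_comp, map_neg, smul_eq_mul]
  show φ z * -tr (AA w z e * S) + _ = _
  ring

/-- the field `f_e ∇ φ`. -/
theorem GD.X2 (h : GD H w) (hφ : TF H K φ G) (e : Euc k) (z : Euc k) {S : L k}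
    (hS : star S = S) :
    tr ((fderiv ℝ (fun z => ⟪ht H w z, e⟫_ℝ • G z) z) ∘L S)
      = ⟪G z, S (nu H (Bz w z) e)⟫_ℝ + ⟪ht H w z, e⟫_ℝ * tr (fderiv ℝ G z * S) := by
  have h1 : HasFDerivAt (fun z => ⟪ht H w z, e⟫_ℝ) (innerSL ℝ (nu H (Bz w z) e)) z := by
    refine ((h.hasFDerivAt_ht z).inner ℝ (hasFDerivAt_const e z)).congr_fderiv ?_
    ext1 v
    simp only [ContinuousLinearMap.comp_apply, fderivInnerCLM_apply, innerSL_apply_apply]
    simp [inner_star]
    rw [real_inner_comm]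
  have h2 : HasFDerivAt G (fderiv ℝ G z) z :=
    (hφ.smoothG.differentiable (by norm_num) z).hasFDerivAt
  have h3 : HasFDerivAt (fun z => ⟪ht H w z, e⟫_ℝ • G z) _ z := h1.smul h2
  rw [h3.fderiv, ContinuousLinearMap.add_comp, map_add, ContinuousLinearMap.smul_comp,
    map_smul, tr_rank _ _ S, smul_eq_mul]
  have h4 : ⟪nu H (Bz w z) e, S (G z)⟫_ℝ = ⟪G z, S (nu H (Bz w z) e)⟫_ℝ := by
    conv_lhs => rw [← hS]
    rw [inner_star', real_inner_comm]
  rw [h4]
  show ⟪ht H w z, e⟫_ℝ * tr (fderiv ℝ G z * S) + _ = _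
  ring

/-- a field `Y z (f z)`. -/
theorem GD.X3 (h : GD H w) {Y : Euc k → L k} (hY : ContDiff ℝ 1 Y) (z : Euc k) (S : L k) :
    tr ((fderiv ℝ (fun z => Y z (ht H w z)) z) ∘L S)
      = tr ((fderiv ℝ Y z).flip (ht H w z) * S) + tr (Y z * star (nu H (Bz w z)) * S) := by
  have h1 : HasFDerivAt Y (fderiv ℝ Y z) z := (hY.differentiable (by norm_num) z).hasFDerivAt
  have h2 := h1.clm_apply (h.hasFDerivAt_ht z)
  rw [h2.fderiv, ContinuousLinearMap.add_comp, map_add]
  show tr (Y z * star (nu H (Bz w z)) * S) + _ = _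
  rw [add_comm]
  rfl

/-- the coefficient `Q_e = D²w_e g⁻¹ B†`. -/
def QQ (w : Euc k → Euc k) (z e : Euc k) : L k := AA w z e * gI (Bz w z) * star (Bz w z)

theorem GD.contDiff_QQ (h : GD H w) (e : Euc k) : ContDiff ℝ 1 fun z => QQ w z e :=
  ((h.contDiff_AA e).mul (h.contDiff_gI.of_le (by norm_num))).mul
    (h.contDiff_Bs.of_le (by norm_num))

/-- tangent projection along the graph. -/
abbrev TZ (H : L k) (w : Euc k → Euc k) (z : Euc k) : L k := TT H (Bz w z)

/-- the quadratic remainder. -/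
def qd (A T S : L k) : ℝ := tr (A * (T * (1 - S) * T)) + tr (A * ((1 - T) * S * (1 - T)))

/-- **exact identity, pointwise**. -/
theorem GD.pointwise (h : GD H w) (hφ : TF H K φ G) {e : Euc k} (z : Euc k) {S : L k}
    (hS : star S = S) :
    tr ((fderiv ℝ (fun z => ⟪ht H w z, e⟫_ℝ • G z) z) ∘L S)
      - tr ((fderiv ℝ (fun z => φ z • (nu H (Bz w z)) e) z) ∘L S)
      + 2 * tr ((fderiv ℝ (fun z => (φ z • QQ w z e) (ht H w z)) z) ∘L S)
    = ⟪ht H w z, e⟫_ℝ * tr (fderiv ℝ G z * S)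
      + 2 * tr ((fderiv ℝ (fun z => φ z • QQ w z e) z).flip (ht H w z) * S)
      + φ z * tr (AA w z e * TZ H w z) - φ z * qd (AA w z e) (TZ H w z) S := by
  have hY : ContDiff ℝ 1 fun z => φ z • QQ w z e := hφ.smooth.smul (h.contDiff_QQ e)
  rw [h.X2 hφ e z hS, h.X1 hφ e z S, h.X3 hY z S]
  have h1 := tr_decomp (h.gb z) (h.AA_symm z e) (h.AA_H z e) hS
  have h2 : tr ((φ z • QQ w z e) * star (nu H (Bz w z)) * S)
      = φ z * tr (AA w z e * gI (Bz w z) * star (Bz w z) * star (nu H (Bz w z)) * S) := by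
    rw [smul_mul', smul_mul', map_smul, smul_eq_mul]
    rfl
  rw [h2, h1, qd]
  ring

variable {V : Measure (Euc k × L k)} [IsFiniteMeasure V]

theorem continuous_tr_field {X : Euc k → Euc k} (hX : ContDiff ℝ 1 X) :
    Continuous fun p : Euc k × L k => tr ((fderiv ℝ X p.1) ∘L p.2) :=
  tr.continuous.comp (((hX.continuous_fderiv (by norm_num)).comp continuous_fst).clm_comp
    continuous_snd)

/-- **THE EXACT JACOBI IDENTITY.** -/
theorem GD.jacobi_exact (h : GD H w) (hV : HStat m H K V) (hφ : TF H K φ G) (e : Euc k) :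
    ∫ p, (⟪ht H w p.1, e⟫_ℝ * tr (fderiv ℝ G p.1 * p.2)
      + 2 * tr ((fderiv ℝ (fun z => φ z • QQ w z e) p.1).flip (ht H w p.1) * p.2)
      + φ p.1 * tr (AA w p.1 e * TZ H w p.1)
      - φ p.1 * qd (AA w p.1 e) (TZ H w p.1) p.2) ∂V = 0 := by
  have c1 : ContDiff ℝ 1 fun z => ⟪ht H w z, e⟫_ℝ • G z :=
    (h.contDiff_ht.inner ℝ contDiff_const).smul hφ.smoothG
  have c2 : ContDiff ℝ 1 fun z => φ z • (nu H (Bz w z)) e :=
    hφ.smooth.smul ((h.contDiff_nu.of_le (by norm_num)).clm_apply contDiff_const)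
  have c3 : ContDiff ℝ 1 fun z => (φ z • QQ w z e) (ht H w z) :=
    (hφ.smooth.smul (h.contDiff_QQ e)).clm_apply h.contDiff_ht
  have e1 : FV V (fun z => ⟪ht H w z, e⟫_ℝ • G z) = 0 :=
    hV.stat _ c1 fun z hz => by simp only [hφ.zeroG z hz, smul_zero]
  have e2 : FV V (fun z => φ z • (nu H (Bz w z)) e) = 0 :=
    hV.stat _ c2 fun z hz => by simp only [hφ.zero z hz, zero_smul]
  have e3 : FV V (fun z => (φ z • QQ w z e) (ht H w z)) = 0 :=
    hV.stat _ c3 fun z hz => by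
      show (φ z • QQ w z e) (ht H w z) = 0
      rw [hφ.zero z hz]
      exact zero_smul ℝ ((QQ w z e) (ht H w z))
  have i1 := integrable_of_cont' hV.toHBase (continuous_tr_field c1)
  have i2 := integrable_of_cont' hV.toHBase (continuous_tr_field c2)
  have i3 := integrable_of_cont' hV.toHBase (continuous_tr_field c3)
  have key : ∫ p, (tr ((fderiv ℝ (fun z => ⟪ht H w z, e⟫_ℝ • G z) p.1) ∘L p.2)
      - tr ((fderiv ℝ (fun z => φ z • (nu H (Bz w z)) e) p.1) ∘L p.2)
      + 2 * tr ((fderiv ℝ (fun z => (φ z • QQ w z e) (ht H w z)) p.1) ∘L p.2)) ∂V = 0 := by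
    have e0 := integral_add (i1.sub i2) (i3.const_mul 2)
    simp only [Pi.sub_apply] at e0
    rw [e0, integral_sub i1 i2, integral_const_mul]
    have e1' : ∫ p, tr ((fderiv ℝ (fun z => ⟪ht H w z, e⟫_ℝ • G z) p.1) ∘L p.2) ∂V = 0 := e1
    have e2' : ∫ p, tr ((fderiv ℝ (fun z => φ z • (nu H (Bz w z)) e) p.1) ∘L p.2) ∂V = 0 := e2
    have e3' : ∫ p, tr ((fderiv ℝ (fun z => (φ z • QQ w z e) (ht H w z)) p.1) ∘L p.2) ∂V = 0 := e3
    rw [e1', e2', e3']; ring
  rw [← key]
  refine integral_congr_ae ?_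
  filter_upwards [hV.conc] with p hp
  have hS : star p.2 = p.2 := hp.2.1
  rw [h.pointwise hφ p.1 hS]

end Crest.Agent.R234.Sel2_570
end
end

-- ▼ part R234/Sel4_570
section

/-!
Row 234, VF-SEL (helper570), file 4: the Caccioppoli inequality relative to a minimal graph and the
weak Jacobi inequality, in the language `HStat m H K V`, `GD H w`.
-/

set_option autoImplicit false

open MeasureTheory Crest.GeometryTopology.Submanifold Filter Topology
open Crest.Agent.R234.Vf_884 Crest.Agent.R234.Sel1_570 Crest.Agent.R234.Pt_615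
open scoped ENNReal InnerProductSpace

noncomputable section

namespace Crest.Agent.R234.Sel2_570

variable {m k : ℕ} {H : L k} {w : Euc k → Euc k}

/-- the weighted normal frame. -/
def NN (H : L k) (w : Euc k → Euc k) (z : Euc k) : L k := nu H (Bz w z) * KK (Bz w z)

theorem GD.contDiff_NN (h : GD H w) : ContDiff ℝ 2 (NN H w) := h.contDiff_nu.mul h.contDiff_KK

/-- minimality at `z`. -/
def Min (H : L k) (w : Euc k → Euc k) (z : Euc k) : Prop :=
  ∀ e : Euc k, tr (AA w z e * TZ H w z) = 0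

theorem GD.TZ_NN (h : GD H w) (z : Euc k) : TZ H w z * NN H w z = 0 := by
  rw [NN, ← mul_assoc, (h.gb z).T_nu, zero_mul]

/-- the derivative of `N` against the tangent plane vanishes on minimal graphs. -/
theorem GD.DNN_tan (h : GD H w) {z : Euc k} (hz : Min H w z) (f : Euc k) :
    tr ((fderiv ℝ (NN H w) z).flip f * TZ H w z) = 0 := by
  have h1 : HasFDerivAt (fun z => nu H (Bz w z)) (-(DBs w z)) z :=
    ((hasFDerivAt_const (1 - H : L k) z).sub (h.hasFDerivAt_Bs z)).congr_fderiv (by simp)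
  have h2 : HasFDerivAt (fun z => KK (Bz w z)) (fderiv ℝ (fun z => KK (Bz w z)) z) z :=
    (h.contDiff_KK.differentiable (by norm_num) z).hasFDerivAt
  have h3 : HasFDerivAt (NN H w) _ z := h1.mul' h2
  have h4 : (fderiv ℝ (NN H w) z).flip f
      = nu H (Bz w z) * (fderiv ℝ (fun z => KK (Bz w z)) z).flip f
        - AA w z (KK (Bz w z) f) := by
    rw [h3.fderiv]
    ext1 v
    simp only [ContinuousLinearMap.flip_apply, add_apply, sub_apply, mul_apply_eq_comp,
      smul_apply, smul_eq_mul, AA_apply, neg_apply]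
    simp only [MulOpposite.smul_eq_mul_unop,
      MulOpposite.unop_op, neg_apply, mul_apply_eq_comp]
    abel
  rw [h4, sub_mul, map_sub, hz, sub_zero, mul_assoc, tr_mul_comm, mul_assoc, (h.gb z).T_nu,
    mul_zero, map_zero]

variable {K : Set (Euc k)} {η : Euc k → ℝ} {G : Euc k → Euc k}

/-- cut-off data (`C¹` only). -/
structure CF (H : L k) (K : Set (Euc k)) (η : Euc k → ℝ) (G : Euc k → Euc k) : Prop where
  der : ∀ z, HasFDerivAt η (innerSL ℝ (G z)) z
  smooth : ContDiff ℝ 1 η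
  zero : ∀ z, H z ∉ K → η z = 0
  contG : Continuous G

/-- the Caccioppoli field, pointwise. -/
theorem GD.cacc_pt (h : GD H w) (hη : CF H K η G) (z : Euc k) (S : L k) :
    tr ((fderiv ℝ (fun z => ((η z) ^ 2 • NN H w z) (ht H w z)) z) ∘L S)
      = 2 * η z * ⟪G z, S (NN H w z (ht H w z))⟫_ℝ
        + η z ^ 2 * tr ((fderiv ℝ (NN H w) z).flip (ht H w z) * S)
        + η z ^ 2 * tau (TZ H w z) S := by
  have hc : ContDiff ℝ 1 fun z => (η z) ^ 2 • NN H w z :=
    (hη.smooth.pow 2).smul (h.contDiff_NN.of_le (by norm_num))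
  rw [h.X3 hc z S]
  have h2 : HasFDerivAt (fun z => (η z) ^ 2) ((2 * η z) • innerSL ℝ (G z)) z := by
    refine ((hη.der z).pow 2).congr_fderiv ?_
    simp
  have h3 : HasFDerivAt (NN H w) (fderiv ℝ (NN H w) z) z :=
    (h.contDiff_NN.differentiable (by norm_num) z).hasFDerivAt
  have h4 := h2.smul h3
  have e1 : (fderiv ℝ (fun z => (η z) ^ 2 • NN H w z) z).flip (ht H w z)
      = η z ^ 2 • (fderiv ℝ (NN H w) z).flip (ht H w z)
        + ((innerSL ℝ ((2 * η z) • G z)).smulRight (NN H w z (ht H w z))) := by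
    have : fderiv ℝ (fun z => (η z) ^ 2 • NN H w z) z = _ := h4.fderiv
    rw [this]
    ext1 v
    simp
  have e2 : ((η z) ^ 2 • NN H w z) * star (nu H (Bz w z)) = η z ^ 2 • (1 - TZ H w z) := by
    rw [smul_mul', NN]
    congr 1
    rw [← (h.gb z).TT_add]
    abel
  have e3 : tr (((innerSL ℝ ((2 * η z) • G z)).smulRight (NN H w z (ht H w z))) * S)
      = 2 * η z * ⟪G z, S (NN H w z (ht H w z))⟫_ℝ := by
    have := tr_rank ((2 * η z) • G z) (NN H w z (ht H w z)) S
    rw [inner_smul_left] at this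
    exact this
  generalize ((innerSL ℝ ((2 * η z) • G z)).smulRight (NN H w z (ht H w z))) = R at e1 e3
  rw [e1, e2, add_mul, map_add, smul_mul', map_smul, smul_mul', map_smul, tau, e3]
  simp only [smul_eq_mul]
  ring

theorem norm_one_sub_mul_le {S T : L k} (hS : S ∈ Vf_884.G m k) (hT : T ∈ Vf_884.G m k) :
    ‖S * (1 - T)‖ ≤ Real.sqrt (2 * tau T S) := by
  have e : S * (1 - T) = (S - T) * (1 - T) := by
    have h1 : T * (1 - T) = 0 := by rw [mul_sub, mul_one, show T * T = T from hT.1, sub_self]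
    rw [sub_mul, h1, sub_zero]
  rw [e]
  calc ‖(S - T) * (1 - T)‖ ≤ ‖S - T‖ * ‖1 - T‖ := norm_mul_le _ _
    _ ≤ Real.sqrt (2 * tau T S) * 1 := by
        gcongr
        · exact Sel1_570.norm_sub_le hS hT
        · exact norm_one_sub_le hT
    _ = _ := mul_one _

/-- absorbing form of the error terms in the Caccioppoli inequality. -/
theorem GD.cacc_bound (h : GD H w) (hm : tr H = m) {z : Euc k}
    (hz : η z ≠ 0 → Min H w z) {S : L k} (hS : S ∈ Vf_884.G m k) :
    |2 * η z * ⟪G z, S (NN H w z (ht H w z))⟫_ℝ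
        + η z ^ 2 * tr ((fderiv ℝ (NN H w) z).flip (ht H w z) * S)|
      ≤ 1 / 2 * (η z ^ 2 * tau (TZ H w z) S)
        + (8 * ‖G z‖ ^ 2 * ‖NN H w z‖ ^ 2 + 2 * η z ^ 2 * k ^ 2 * ‖fderiv ℝ (NN H w) z‖ ^ 2)
          * ‖ht H w z‖ ^ 2 := by
  have hT : TZ H w z ∈ Vf_884.G m k := (h.gb z).TT_mem hm
  have hτ : 0 ≤ tau (TZ H w z) S := tau_nonneg hS hT
  set τ := tau (TZ H w z) S with hτd
  set s := Real.sqrt (2 * τ) with hs
  have hs0 : 0 ≤ s := Real.sqrt_nonneg _
  have hss : s ^ 2 = 2 * τ := Real.sq_sqrt (by linarith)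
  set f := ht H w z with hf
  have a1 : |⟪G z, S (NN H w z f)⟫_ℝ| ≤ ‖G z‖ * (s * (‖NN H w z‖ * ‖f‖)) := by
    have e1 : S (NN H w z f) = (S * (1 - TZ H w z)) (NN H w z f) := by
      have e2 : (S * (1 - TZ H w z)) (NN H w z f)
          = S (NN H w z f) - S ((TZ H w z * NN H w z) f) := by
        simp only [mul_apply_eq_comp, sub_apply, map_sub, one_apply_eq_self]
      rw [e2, h.TZ_NN]
      simp
    rw [e1]
    refine (abs_real_inner_le_norm _ _).trans ?_
    gcongr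
    refine (ContinuousLinearMap.le_opNorm _ _).trans ?_
    gcongr
    · exact norm_one_sub_mul_le hS hT
    · exact ContinuousLinearMap.le_opNorm _ _
  have a2 : η z ^ 2 * |tr ((fderiv ℝ (NN H w) z).flip f * S)|
      ≤ η z ^ 2 * (k * (‖fderiv ℝ (NN H w) z‖ * ‖f‖) * s) := by
    by_cases h0 : η z = 0
    · rw [h0]; simp
    · have h1 := tr_lin_le hS hT ((fderiv ℝ (NN H w) z).flip f)
      rw [h.DNN_tan (hz h0), sub_zero] at h1
      refine mul_le_mul_of_nonneg_left (h1.trans ?_) (sq_nonneg _)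
      gcongr
      refine (ContinuousLinearMap.le_opNorm _ _).trans ?_
      rw [ContinuousLinearMap.opNorm_flip]
  have b1 : 2 * |η z| * (‖G z‖ * (s * (‖NN H w z‖ * ‖f‖)))
      ≤ 1 / 4 * (η z ^ 2 * τ) + 8 * ‖G z‖ ^ 2 * ‖NN H w z‖ ^ 2 * ‖f‖ ^ 2 := by
    have h1 : 0 ≤ (|η z| * s - 8 * (‖G z‖ * (‖NN H w z‖ * ‖f‖))) ^ 2 := sq_nonneg _
    have h2 : |η z| ^ 2 = η z ^ 2 := sq_abs _
    have h3 : (|η z| * s) ^ 2 = η z ^ 2 * (2 * τ) := by rw [mul_pow, h2, hss]
    nlinarith [h1, h3]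
  have b2 : η z ^ 2 * (k * (‖fderiv ℝ (NN H w) z‖ * ‖f‖) * s)
      ≤ 1 / 4 * (η z ^ 2 * τ) + 2 * η z ^ 2 * k ^ 2 * ‖fderiv ℝ (NN H w) z‖ ^ 2 * ‖f‖ ^ 2 := by
    have h1 : 0 ≤ (s - 4 * (k * (‖fderiv ℝ (NN H w) z‖ * ‖f‖))) ^ 2 := sq_nonneg _
    have h3 : k * (‖fderiv ℝ (NN H w) z‖ * ‖f‖) * s
        ≤ 1 / 4 * τ + 2 * (k * (‖fderiv ℝ (NN H w) z‖ * ‖f‖)) ^ 2 := by nlinarith [h1, hss]
    have h4 := mul_le_mul_of_nonneg_left h3 (sq_nonneg (η z))
    refine h4.trans (le_of_eq ?_)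
    ring
  calc |2 * η z * ⟪G z, S (NN H w z f)⟫_ℝ
        + η z ^ 2 * tr ((fderiv ℝ (NN H w) z).flip f * S)|
      ≤ |2 * η z * ⟪G z, S (NN H w z f)⟫_ℝ|
        + |η z ^ 2 * tr ((fderiv ℝ (NN H w) z).flip f * S)| := abs_add_le _ _
    _ = 2 * |η z| * |⟪G z, S (NN H w z f)⟫_ℝ|
        + η z ^ 2 * |tr ((fderiv ℝ (NN H w) z).flip f * S)| := by
        rw [abs_mul, abs_mul, abs_two, abs_mul, abs_of_nonneg (sq_nonneg (η z))]
    _ ≤ 2 * |η z| * (‖G z‖ * (s * (‖NN H w z‖ * ‖f‖)))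
        + η z ^ 2 * (k * (‖fderiv ℝ (NN H w) z‖ * ‖f‖) * s) := by
        gcongr
    _ ≤ _ := by
        refine (add_le_add b1 b2).trans (le_of_eq ?_)
        ring

variable {V : Measure (Euc k × L k)} [IsFiniteMeasure V]

theorem GD.continuous_ht (h : GD H w) : Continuous (ht H w) := h.contDiff_ht.continuous

theorem GD.continuous_tau (h : GD H w) :
    Continuous fun p : Euc k × L k => tau (TZ H w p.1) p.2 := by
  have h1 : Continuous fun p : Euc k × L k => (1 - TZ H w p.1) * p.2 :=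
    (continuous_const.sub (h.contDiff_TT.continuous.comp continuous_fst)).mul continuous_snd
  exact tr.continuous.comp h1

theorem GD.continuous_DNN (h : GD H w) : Continuous fun z => fderiv ℝ (NN H w) z :=
  h.contDiff_NN.continuous_fderiv (by norm_num)

/-- **CACCIOPPOLI relative to a minimal graph.** -/
theorem GD.cacc (h : GD H w) (hm : tr H = m) (hV : HStat m H K V) (hη : CF H K η G)
    (hz : ∀ z, η z ≠ 0 → Min H w z) :
    ∫ p, η p.1 ^ 2 * tau (TZ H w p.1) p.2 ∂V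
      ≤ ∫ p, (16 * ‖G p.1‖ ^ 2 * ‖NN H w p.1‖ ^ 2
        + 4 * η p.1 ^ 2 * k ^ 2 * ‖fderiv ℝ (NN H w) p.1‖ ^ 2) * ‖ht H w p.1‖ ^ 2 ∂V := by
  have hc : ContDiff ℝ 1 fun z => ((η z) ^ 2 • NN H w z) (ht H w z) :=
    ((hη.smooth.pow 2).smul (h.contDiff_NN.of_le (by norm_num))).clm_apply h.contDiff_ht
  have e1 : FV V (fun z => ((η z) ^ 2 • NN H w z) (ht H w z)) = 0 :=
    hV.stat _ hc fun z hz => by
      show ((η z) ^ 2 • NN H w z) (ht H w z) = 0
      rw [hη.zero z hz]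
      simp
  have i1 := integrable_of_cont' hV.toHBase (continuous_tr_field hc)
  have cη : Continuous fun p : Euc k × L k => η p.1 := hη.smooth.continuous.comp continuous_fst
  have cG : Continuous fun p : Euc k × L k => G p.1 := hη.contG.comp continuous_fst
  have cN : Continuous fun p : Euc k × L k => NN H w p.1 :=
    h.contDiff_NN.continuous.comp continuous_fst
  have cD : Continuous fun p : Euc k × L k => fderiv ℝ (NN H w) p.1 :=
    h.continuous_DNN.comp continuous_fst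
  have cf : Continuous fun p : Euc k × L k => ht H w p.1 := h.continuous_ht.comp continuous_fst
  have cDn : Continuous fun p : Euc k × L k => ‖fderiv ℝ (NN H w) p.1‖ :=
    (continuous_norm (E := Euc k →L[ℝ] L k)).comp cD
  have i2 : Integrable (fun p : Euc k × L k => η p.1 ^ 2 * tau (TZ H w p.1) p.2) V :=
    integrable_of_cont' hV.toHBase ((cη.pow 2).mul h.continuous_tau)
  have i3 : Integrable (fun p : Euc k × L k => (8 * ‖G p.1‖ ^ 2 * ‖NN H w p.1‖ ^ 2
        + 2 * η p.1 ^ 2 * k ^ 2 * ‖fderiv ℝ (NN H w) p.1‖ ^ 2) * ‖ht H w p.1‖ ^ 2) V := by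
    refine integrable_of_cont' hV.toHBase ?_
    exact (((continuous_const.mul (cG.norm.pow 2)).mul (cN.norm.pow 2)).add
      (((continuous_const.mul (cη.pow 2)).mul continuous_const).mul (cDn.pow 2))).mul
      (cf.norm.pow 2)
  have key : (0 : ℝ) = ∫ p, tr ((fderiv ℝ (fun z => ((η z) ^ 2 • NN H w z) (ht H w z)) p.1)
      ∘L p.2) ∂V := e1.symm
  have h1 : ∫ p, (1 / 2 * (η p.1 ^ 2 * tau (TZ H w p.1) p.2)
      - (8 * ‖G p.1‖ ^ 2 * ‖NN H w p.1‖ ^ 2
        + 2 * η p.1 ^ 2 * k ^ 2 * ‖fderiv ℝ (NN H w) p.1‖ ^ 2) * ‖ht H w p.1‖ ^ 2) ∂V ≤ 0 := by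
    rw [key]
    refine integral_mono_ae ((i2.const_mul _).sub i3) i1 ?_
    filter_upwards [hV.conc] with p hp
    show _ ≤ tr _
    rw [h.cacc_pt hη p.1 p.2]
    have := h.cacc_bound hm (G := G) (η := η) (hz p.1) hp
    have := neg_abs_le (2 * η p.1 * ⟪G p.1, p.2 (NN H w p.1 (ht H w p.1))⟫_ℝ
        + η p.1 ^ 2 * tr ((fderiv ℝ (NN H w) p.1).flip (ht H w p.1) * p.2))
    linarith
  rw [integral_sub (i2.const_mul _) i3, integral_const_mul] at h1
  have h2 : ∫ p, (16 * ‖G p.1‖ ^ 2 * ‖NN H w p.1‖ ^ 2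
        + 4 * η p.1 ^ 2 * k ^ 2 * ‖fderiv ℝ (NN H w) p.1‖ ^ 2) * ‖ht H w p.1‖ ^ 2 ∂V
      = 2 * ∫ p, (8 * ‖G p.1‖ ^ 2 * ‖NN H w p.1‖ ^ 2
        + 2 * η p.1 ^ 2 * k ^ 2 * ‖fderiv ℝ (NN H w) p.1‖ ^ 2) * ‖ht H w p.1‖ ^ 2 ∂V := by
    rw [← integral_const_mul]
    refine integral_congr_ae (Eventually.of_forall fun p => ?_)
    simp only
    ring
  rw [h2]
  linarith

/-- **WEAK JACOBI INEQUALITY.** -/
theorem GD.weak_jacobi (h : GD H w) (hm : tr H = m) (hV : HStat m H K V) {φ : Euc k → ℝ}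
    {Gφ : Euc k → Euc k} (hφ : TF H K φ Gφ) (e : Euc k) (hz : ∀ z, φ z ≠ 0 → Min H w z)
    {D1 D2 D3 : ℝ} (hη : Continuous η)
    (h1 : ∀ z, ‖e‖ * ‖fderiv ℝ Gφ z‖ ≤ D1 * η z ^ 2)
    (h2 : ∀ z, ‖fderiv ℝ (fun z => φ z • QQ w z e) z‖ ≤ D2 * η z ^ 2)
    (h3 : ∀ z, |φ z| * ‖AA w z e‖ ≤ D3 * η z ^ 2) :
    |∫ p, (⟪ht H w p.1, e⟫_ℝ * tr (fderiv ℝ Gφ p.1 * TZ H w p.1)
      + 2 * tr ((fderiv ℝ (fun z => φ z • QQ w z e) p.1).flip (ht H w p.1) * TZ H w p.1)) ∂V|
    ≤ ∫ p, η p.1 ^ 2 * (k * (D1 + 2 * D2) * ‖ht H w p.1‖ ^ 2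
        + (k * (D1 + 2 * D2) + 4 * k * D3) * tau (TZ H w p.1) p.2) ∂V := by
  have hex := h.jacobi_exact hV hφ e
  have cf : Continuous fun p : Euc k × L k => ht H w p.1 := h.continuous_ht.comp continuous_fst
  have cDG : Continuous fun p : Euc k × L k => fderiv ℝ Gφ p.1 :=
    (hφ.smoothG.continuous_fderiv (by norm_num)).comp continuous_fst
  have cY : Continuous fun p : Euc k × L k => fderiv ℝ (fun z => φ z • QQ w z e) p.1 :=
    ((hφ.smooth.smul (h.contDiff_QQ e)).continuous_fderiv (by norm_num)).comp continuous_fst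
  have cT : Continuous fun p : Euc k × L k => TZ H w p.1 :=
    h.contDiff_TT.continuous.comp continuous_fst
  have cφ : Continuous fun p : Euc k × L k => φ p.1 := hφ.smooth.continuous.comp continuous_fst
  have cA : Continuous fun p : Euc k × L k => AA w p.1 e :=
    (h.contDiff_AA e).continuous.comp continuous_fst
  have cη : Continuous fun p : Euc k × L k => η p.1 := hη.comp continuous_fst
  have cS : Continuous fun p : Euc k × L k => p.2 := continuous_snd
  have cflip : Continuous fun p : Euc k × L k =>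
      (fderiv ℝ (fun z => φ z • QQ w z e) p.1).flip (ht H w p.1) :=
    ((ContinuousLinearMap.flipₗᵢ ℝ (Euc k) (Euc k) (Euc k)).continuous.comp cY).clm_apply cf
  have ce : Continuous fun p : Euc k × L k => ⟪ht H w p.1, e⟫_ℝ := cf.inner continuous_const
  -- the two integrands
  have iT : Integrable (fun p : Euc k × L k =>
      ⟪ht H w p.1, e⟫_ℝ * tr (fderiv ℝ Gφ p.1 * TZ H w p.1)
      + 2 * tr ((fderiv ℝ (fun z => φ z • QQ w z e) p.1).flip (ht H w p.1) * TZ H w p.1)) V := by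
    refine integrable_of_cont' hV.toHBase ?_
    exact (ce.mul (tr.continuous.comp (cDG.mul cT))).add
      (continuous_const.mul (tr.continuous.comp (cflip.mul cT)))
  have cqd : Continuous fun p : Euc k × L k => qd (AA w p.1 e) (TZ H w p.1) p.2 := by
    unfold qd
    exact (tr.continuous.comp (cA.mul ((cT.mul (continuous_const.sub cS)).mul cT))).add
      (tr.continuous.comp (cA.mul (((continuous_const.sub cT).mul cS).mul
        (continuous_const.sub cT))))
  have iS : Integrable (fun p : Euc k × L k =>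
      ⟪ht H w p.1, e⟫_ℝ * tr (fderiv ℝ Gφ p.1 * p.2)
      + 2 * tr ((fderiv ℝ (fun z => φ z • QQ w z e) p.1).flip (ht H w p.1) * p.2)
      + φ p.1 * tr (AA w p.1 e * TZ H w p.1)
      - φ p.1 * qd (AA w p.1 e) (TZ H w p.1) p.2) V := by
    refine integrable_of_cont' hV.toHBase ?_
    exact (((ce.mul (tr.continuous.comp (cDG.mul cS))).add
      (continuous_const.mul (tr.continuous.comp (cflip.mul cS)))).add
      (cφ.mul (tr.continuous.comp (cA.mul cT)))).sub (cφ.mul cqd)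
  have e1 : ∫ p, (⟪ht H w p.1, e⟫_ℝ * tr (fderiv ℝ Gφ p.1 * TZ H w p.1)
      + 2 * tr ((fderiv ℝ (fun z => φ z • QQ w z e) p.1).flip (ht H w p.1) * TZ H w p.1)) ∂V
      = ∫ p, ((⟪ht H w p.1, e⟫_ℝ * tr (fderiv ℝ Gφ p.1 * TZ H w p.1)
      + 2 * tr ((fderiv ℝ (fun z => φ z • QQ w z e) p.1).flip (ht H w p.1) * TZ H w p.1))
      - (⟪ht H w p.1, e⟫_ℝ * tr (fderiv ℝ Gφ p.1 * p.2)
      + 2 * tr ((fderiv ℝ (fun z => φ z • QQ w z e) p.1).flip (ht H w p.1) * p.2)
      + φ p.1 * tr (AA w p.1 e * TZ H w p.1)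
      - φ p.1 * qd (AA w p.1 e) (TZ H w p.1) p.2)) ∂V := by
    rw [integral_sub iT iS, hex, sub_zero]
  rw [e1]
  have iR : Integrable (fun p : Euc k × L k => η p.1 ^ 2 * (k * (D1 + 2 * D2) * ‖ht H w p.1‖ ^ 2
        + (k * (D1 + 2 * D2) + 4 * k * D3) * tau (TZ H w p.1) p.2)) V := by
    refine integrable_of_cont' hV.toHBase ?_
    exact (cη.pow 2).mul ((continuous_const.mul (cf.norm.pow 2)).add
      (continuous_const.mul h.continuous_tau))
  rw [← Real.norm_eq_abs]
  refine norm_integral_le_of_norm_le iR ?_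
  filter_upwards [hV.conc] with p hp
  rw [Real.norm_eq_abs]
  have hT : TZ H w p.1 ∈ Vf_884.G m k := (h.gb p.1).TT_mem hm
  have hτ : 0 ≤ tau (TZ H w p.1) p.2 := tau_nonneg hp hT
  set τ := tau (TZ H w p.1) p.2 with hτd
  set s := Real.sqrt (2 * τ) with hs
  have hs0 : 0 ≤ s := Real.sqrt_nonneg _
  have hss : s ^ 2 = 2 * τ := Real.sq_sqrt (by linarith)
  set f := ht H w p.1 with hf
  have hmin : φ p.1 * tr (AA w p.1 e * TZ H w p.1) = 0 := by
    by_cases h0 : φ p.1 = 0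
    · rw [h0, zero_mul]
    · rw [hz p.1 h0 e, mul_zero]
  have t1 := tr_lin_le hp hT (fderiv ℝ Gφ p.1)
  have t2 := tr_lin_le hp hT ((fderiv ℝ (fun z => φ z • QQ w z e) p.1).flip f)
  have t3 := quad_le hp hT (AA w p.1 e)
  have t2' : ‖(fderiv ℝ (fun z => φ z • QQ w z e) p.1).flip f‖
      ≤ ‖fderiv ℝ (fun z => φ z • QQ w z e) p.1‖ * ‖f‖ := by
    refine (ContinuousLinearMap.le_opNorm
      (fderiv ℝ (fun z => φ z • QQ w z e) p.1).flip f).trans ?_
    rw [ContinuousLinearMap.opNorm_flip]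
  have k0 : (0 : ℝ) ≤ k := Nat.cast_nonneg k
  have u1 : |⟪f, e⟫_ℝ * (tr (fderiv ℝ Gφ p.1 * TZ H w p.1) - tr (fderiv ℝ Gφ p.1 * p.2))|
      ≤ ‖f‖ * ‖e‖ * (k * ‖fderiv ℝ Gφ p.1‖ * s) := by
    rw [abs_mul, abs_sub_comm (tr (fderiv ℝ Gφ p.1 * TZ H w p.1))]
    exact mul_le_mul (abs_real_inner_le_norm _ _) t1 (abs_nonneg _) (by positivity)
  have u2 : |2 * (tr ((fderiv ℝ (fun z => φ z • QQ w z e) p.1).flip f * TZ H w p.1)
      - tr ((fderiv ℝ (fun z => φ z • QQ w z e) p.1).flip f * p.2))|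
      ≤ 2 * (k * (‖fderiv ℝ (fun z => φ z • QQ w z e) p.1‖ * ‖f‖) * s) := by
    rw [abs_mul, abs_two,
      abs_sub_comm (tr ((fderiv ℝ (fun z => φ z • QQ w z e) p.1).flip f * TZ H w p.1))]
    have : k * ‖(fderiv ℝ (fun z => φ z • QQ w z e) p.1).flip f‖ * s
        ≤ k * (‖fderiv ℝ (fun z => φ z • QQ w z e) p.1‖ * ‖f‖) * s := by gcongr
    linarith
  have u3 : |φ p.1 * qd (AA w p.1 e) (TZ H w p.1) p.2| ≤ |φ p.1| * (4 * k * ‖AA w p.1 e‖ * τ) := by
    rw [abs_mul]
    exact mul_le_mul_of_nonneg_left t3 (abs_nonneg _)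
  have fs : ‖f‖ * s ≤ ‖f‖ ^ 2 + τ := by nlinarith [sq_nonneg (‖f‖ - s), sq_nonneg ‖f‖]
  have ff : 0 ≤ ‖f‖ * s := by positivity
  have v1 : ‖f‖ * ‖e‖ * (k * ‖fderiv ℝ Gφ p.1‖ * s) ≤ η p.1 ^ 2 * (k * D1 * (‖f‖ ^ 2 + τ)) := by
    have a := mul_le_mul (mul_le_mul_of_nonneg_left (h1 p.1) k0) fs ff
      (by have : 0 ≤ D1 * η p.1 ^ 2 := le_trans (by positivity) (h1 p.1)
          positivity)
    calc _ = k * (‖e‖ * ‖fderiv ℝ Gφ p.1‖) * (‖f‖ * s) := by ring
      _ ≤ _ := a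
      _ = _ := by ring
  have v2 : 2 * (k * (‖fderiv ℝ (fun z => φ z • QQ w z e) p.1‖ * ‖f‖) * s)
      ≤ η p.1 ^ 2 * (k * (2 * D2) * (‖f‖ ^ 2 + τ)) := by
    have a := mul_le_mul (mul_le_mul_of_nonneg_left (h2 p.1) k0) fs ff
      (by have : 0 ≤ D2 * η p.1 ^ 2 :=
            le_trans (ContinuousLinearMap.opNorm_nonneg _) (h2 p.1)
          positivity)
    calc _ = 2 * (k * ‖fderiv ℝ (fun z => φ z • QQ w z e) p.1‖ * (‖f‖ * s)) := by ring
      _ ≤ 2 * (k * (D2 * η p.1 ^ 2) * (‖f‖ ^ 2 + τ)) := by linarith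
      _ = _ := by ring
  have v3 : |φ p.1| * (4 * k * ‖AA w p.1 e‖ * τ) ≤ η p.1 ^ 2 * (4 * k * D3 * τ) := by
    have a := mul_le_mul_of_nonneg_right (h3 p.1) (show 0 ≤ 4 * k * τ by positivity)
    calc _ = |φ p.1| * ‖AA w p.1 e‖ * (4 * k * τ) := by ring
      _ ≤ _ := a
      _ = _ := by ring
  have split : (⟪f, e⟫_ℝ * tr (fderiv ℝ Gφ p.1 * TZ H w p.1)
      + 2 * tr ((fderiv ℝ (fun z => φ z • QQ w z e) p.1).flip f * TZ H w p.1))
      - (⟪f, e⟫_ℝ * tr (fderiv ℝ Gφ p.1 * p.2)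
      + 2 * tr ((fderiv ℝ (fun z => φ z • QQ w z e) p.1).flip f * p.2)
      + φ p.1 * tr (AA w p.1 e * TZ H w p.1)
      - φ p.1 * qd (AA w p.1 e) (TZ H w p.1) p.2)
      = ⟪f, e⟫_ℝ * (tr (fderiv ℝ Gφ p.1 * TZ H w p.1) - tr (fderiv ℝ Gφ p.1 * p.2))
      + 2 * (tr ((fderiv ℝ (fun z => φ z • QQ w z e) p.1).flip f * TZ H w p.1)
      - tr ((fderiv ℝ (fun z => φ z • QQ w z e) p.1).flip f * p.2))
      + φ p.1 * qd (AA w p.1 e) (TZ H w p.1) p.2 := by
    rw [hmin]; ring
  rw [split]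
  refine (abs_add_le _ _).trans ?_
  refine (add_le_add (abs_add_le _ _) le_rfl).trans ?_
  calc _ ≤ ‖f‖ * ‖e‖ * (k * ‖fderiv ℝ Gφ p.1‖ * s)
        + 2 * (k * (‖fderiv ℝ (fun z => φ z • QQ w z e) p.1‖ * ‖f‖) * s)
        + |φ p.1| * (4 * k * ‖AA w p.1 e‖ * τ) := by gcongr
    _ ≤ η p.1 ^ 2 * (k * D1 * (‖f‖ ^ 2 + τ)) + η p.1 ^ 2 * (k * (2 * D2) * (‖f‖ ^ 2 + τ))
        + η p.1 ^ 2 * (4 * k * D3 * τ) := by gcongr
    _ = _ := by ring

end Crest.Agent.R234.Sel2_570
end
end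

-- ▼ part R234/MgDefs3_570

/-!
# Row 234, node F2 (helper570): final SEL statement (all radii) and three more OPEN sub-nodes

* `SelP3` : the SELECTION, `r₀ ≤ r ≤ 1`, any `r₀ > 0`.
* `Cf`, `Lop` : second order operators with coefficients in the Wiener spaces.
* `LTP`  (F2-LT)  : `lopT u` is such an operator, coefficients `O(‖a‖)` in `X t`, `a ∈ X (t+3)`.
* `RepP` (F2-REP) : a functional on `X 0` with decay is integration against an element of `X s`.
* `ThP`  (F2-TH)  : `π_# W = θ dns(Du) dx + O(∫ |S - T| dW)` for a stationary varifold `W`.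
-/

set_option autoImplicit false
set_option linter.unusedVariables false

open MeasureTheory Filter Topology Set
open scoped ENNReal NNReal ContDiff InnerProductSpace SchwartzMap
open Crest.GeometryTopology.Submanifold Crest.Agent.R234.Vf_884
open Crest.Agent.R234.Main_456 (Frame Msys)
open Crest.Agent.R234.Ell1_3 (gop ginv dns)
open Crest.Agent.R234.Mx5_397 (msop)
open Crest.Agent.R234.Mx9_397 (lop)
open Crest.Agent.R086.Wie Crest.Agent.R234.Mx1_397 Crest.Agent.R234.Mx3_397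
open Crest.Agent.R234.Sel5_570

noncomputable section

namespace Crest.Agent.R234.MG_570

variable {m n k : ℕ}

/-- node (ii), **FINAL FORM**: all radii `r₀ ≤ r ≤ 1`; lower mass over `ball 0 (r/16)`. -/
def SelP3 : Prop := ∀ (m n : ℕ), 1 ≤ m → ∃ K N₀ : ℕ, ∀ N : ℕ, N₀ ≤ N → ∃ κ₀ : ℝ, 0 < κ₀ ∧ ∃ p : ℕ,
  ∀ Λ r₀ : ℝ, 0 < Λ → 0 < r₀ → ∃ C : ℝ, 0 < C ∧ ∀ (k : ℕ) (W : Measure (Euc k × L k))
    (π : Euc k →L[ℝ] Euc m) (ρ : Euc k →L[ℝ] Euc n) (κ h ε r : ℝ) (u : Euc m → Euc n),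
    κ ≤ κ₀ → 0 < ε → ε ≤ 1 / 2 → r₀ ≤ r → r ≤ 1 → 0 ≤ h →
    Cy_870.CylStat W π ρ 0 (r * (1 + ε)) 1 → W univ ≤ ENNReal.ofReal Λ →
    ENNReal.ofReal Λ⁻¹ ≤ W ((fun p => π p.1) ⁻¹' Metric.ball 0 (r / 16)) →
    MG N κ (r * (1 + ε)) u → (∀ᵐ q ∂W, ‖ρ q.1 - u (π q.1)‖ ≤ h) → C * h ≤ ε ^ p →
    ∃ u' : Euc m → Euc n, MG N (κ + C * h / ε ^ p) r u' ∧
      MG N (C * h / ε ^ p) 0 (fun x => u' x - u x) ∧
      ∀ ζ : Euc m → ℝ, ContDiff ℝ ∞ ζ → tsupport ζ ⊆ Metric.ball 0 r →
        (∀ j ≤ K, ∀ z, ‖iteratedFDeriv ℝ j ζ z‖ ≤ 1) →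
        ‖bar W π ρ u' ζ‖ ≤ C * h ^ 2 / ε ^ p

section ops

variable {F : Type*} [NormedAddCommGroup F] [InnerProductSpace ℝ F] [FiniteDimensional ℝ F]
  [MeasurableSpace F] [BorelSpace F] {ι κ : Type*} [Fintype ι] [Fintype κ]

/-- inclusion into `X 0`. -/
abbrev i0 {N : ℕ} (a : X F N) : X F 0 := inclV (Nat.zero_le N) a

/-- coefficients of a second order operator (perturbation of the Laplacian), in `X t`. -/
structure Cf (F ι κ : Type*) [NormedAddCommGroup F] [InnerProductSpace ℝ F]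
    [FiniteDimensional ℝ F] [MeasurableSpace F] [BorelSpace F] (t : ℕ) where
  A : ι → ι → X F t
  B : ι → κ → κ → X F t
  Z : κ → κ → X F t

/-- size of the coefficients. -/
def Cf.sz {t : ℕ} (c : Cf F ι κ t) : ℝ :=
  ∑ i, ∑ j, ‖c.A i j‖ + ∑ i, ∑ β, ∑ α, ‖c.B i β α‖ + ∑ β, ∑ α, ‖c.Z β α‖

/-- real coefficients. -/
structure Cf.Real {t : ℕ} (c : Cf F ι κ t) : Prop where
  A : ∀ i j, star (c.A i j) = c.A i j
  B : ∀ i β α, star (c.B i β α) = c.B i β α
  Z : ∀ β α, star (c.Z β α) = c.Z β α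

/-- `(L b)_β = Δ b_β + A_ij ∂_i∂_j b_β + B_iβα ∂_i b_α + Z_βα b_α`. -/
def Lop {t : ℕ} (e : OrthonormalBasis ι ℝ F) (c : Cf F ι κ t) (b : κ → X F 2) : κ → X F 0 :=
  fun β => ∑ i, D (e i) (D (e i) (b β)) + ∑ i, ∑ j, i0 (c.A i j) * D (e i) (D (e j) (b β))
    + ∑ i, ∑ α, i0 (c.B i β α) * i0 (D (e i) (b α)) + ∑ α, i0 (c.Z β α) * i0 (b α)

end ops

/-- **F2-LT**: the transposed Jacobi operator in the Wiener spaces. -/
def LTP : Prop := ∀ (m n t : ℕ), ∃ κ₀ C : ℝ, 0 < κ₀ ∧ 0 < C ∧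
  ∀ (a : XV m n (t + 3)) (u : Euc m → Euc n), IsReal a → ‖a‖ ≤ κ₀ → Rep a u →
    ∃ c : Cf (Euc m) (Fin (Module.finrank ℝ (Euc m))) (Fin n) t, c.Real ∧ c.sz ≤ C * ‖a‖ ∧
      ∀ (b : XV m n 2) (φ : Euc m → Euc n), IsReal b → Rep b φ → ∀ (x : Euc m) (β : Fin n),
        ev (Lop (stdOrthonormalBasis ℝ (Euc m)) c b β) x
          = ((lopT u φ x (EuclideanSpace.single β 1) : ℝ) : ℂ)

/-- **F2-REP**: representation of functionals with decay. -/
def RepP : Prop := ∀ (m s : ℕ), ∃ C : ℝ, 0 < C ∧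
  ∀ (T : X (Euc m) 0 →L[ℂ] ℂ) (g : 𝓢(Euc m, ℂ)) (K : ℝ), 0 ≤ K →
    (∀ a : X (Euc m) 0, T (toX 0 g * a) = T a) →
    (∀ a : X (Euc m) 0, ENNReal.ofReal ‖T a‖
      ≤ ENNReal.ofReal K * ns (-((s + m + 1 : ℕ) : ℤ)) a) →
    ∃ J : X (Euc m) s, ‖J‖ ≤ C * K * ‖toX (s + m + 1) g‖ ∧
      ∀ a : X (Euc m) 0, Integrable (ev a) → T a = ∫ x, ev J x * ev a x

/-- the tangent plane of the graph of `u` over `x`, as a projection of `Euc k`. -/
def TG (π : Euc k →L[ℝ] Euc m) (ρ : Euc k →L[ℝ] Euc n) (u : Euc m → Euc n) (x : Euc m) : L k :=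
  Sel1_570.TT (ContinuousLinearMap.adjoint π ∘L π)
    (ContinuousLinearMap.adjoint ρ ∘L fderiv ℝ u x ∘L π)

/-- **F2-TH**: the projected measure is a constant times the area of the graph, up to the tilt.
Fields: `X z = π† Y + ρ† (Du Y)`, `Y = ψ(π z)`; `tr(DX T) = (dns Du)⁻¹ div (dns(Du) ψ)`. -/
def ThP : Prop := ∀ (m n : ℕ), 1 ≤ m → ∀ r₀ : ℝ, 0 < r₀ → ∃ C : ℝ, 0 < C ∧
  ∀ (k : ℕ) (W : Measure (Euc k × L k)) (π : Euc k →L[ℝ] Euc m) (ρ : Euc k →L[ℝ] Euc n)
    (u : Euc m → Euc n) (r R E : ℝ), r₀ ≤ r → r ≤ R → r ≤ 2 → Cy_870.CylStat W π ρ 0 R 1 →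
    ContDiff ℝ 2 u → (∀ x, ‖fderiv ℝ u x‖ ≤ 1) → (∀ x, ‖fderiv ℝ (fderiv ℝ u) x‖ ≤ 1) →
    (∫ p in {p : Euc k × L k | ‖π p.1‖ < r}, ‖p.2 - TG π ρ u (π p.1)‖ ∂W ≤ E) →
    ∃ θ : ℝ, ∀ ζ : Euc m → ℝ, ContDiff ℝ 1 ζ → (∀ x, r ≤ ‖x‖ → ζ x = 0) → (∀ x, |ζ x| ≤ 1) →
      (∀ x, ‖fderiv ℝ ζ x‖ ≤ 1) →
      |∫ p, ζ (π p.1) ∂W - θ * ∫ x, ζ x * dns (fderiv ℝ u x)| ≤ C * E

end Crest.Agent.R234.MG_570
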