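import Crest.Agent.R234.In1_947
import Crest.Agent.R234.Pt3_615
import Crest.Agent.R234.Cy7_870

-- ▼ part R234/Pair2_762
section

/-!
Row 234 (helper762), VF-PAIR-Q, file 2: pointwise estimates for the pair identity.
Block algebra of planes, the vertical truncation `th p h x = q x / √(1 + |q x|² / h²)`
(`q = 1 - p`), and the bound of the flux term.
-/

set_option autoImplicit false

open MeasureTheory Crest.GeometryTopology.Submanifold Filter Topology
open scoped ENNReal InnerProductSpace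

noncomputable section

namespace Crest.Agent.R234.Pair2_762

open Crest.Agent.R234.Vf_884 Crest.Agent.R234.In_947

variable {m k : ℕ}

/-- squared Hilbert–Schmidt norm. -/
def hs (B : L k) : ℝ := ∑ i, ‖B (stdVec k i)‖ ^ 2

theorem hs_nonneg (B : L k) : 0 ≤ hs B := by
  unfold hs; positivity

theorem continuous_hs : Continuous (hs : L k → ℝ) := by
  unfold hs
  refine continuous_finsetSum _ fun i _ => ?_
  exact ((continuous_id.clm_apply continuous_const).norm).pow 2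


/-- `tr (A D r D) = ∑ ⟨D r eᵢ, A D r eᵢ⟩` for symmetric `D` and an orthogonal projection `r`. -/
theorem tr_quad {A D r : L k} (hD : ∀ x y, ⟪D x, y⟫_ℝ = ⟪x, D y⟫_ℝ)
    (hr : ∀ x y, ⟪r x, y⟫_ℝ = ⟪x, r y⟫_ℝ) (hrr : ∀ x, r (r x) = r x) :
    tr (A ∘L D ∘L r ∘L D)
      = ∑ i, ⟪D (r (stdVec k i)), A (D (r (stdVec k i)))⟫_ℝ := by
  have h1 : A ∘L D ∘L r ∘L D = (A ∘L D ∘L r) ∘L (r ∘L D) := by
    ext1 x
    simp only [ContinuousLinearMap.comp_apply]
    rw [hrr]
  rw [h1, tr_comm, tr_eq_sum]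
  refine Finset.sum_congr rfl fun i _ => ?_
  simp only [ContinuousLinearMap.comp_apply]
  rw [← hr, ← hD]

theorem tr_quad_ge {A D r p : L k} {c : ℝ} (hD : ∀ x y, ⟪D x, y⟫_ℝ = ⟪x, D y⟫_ℝ)
    (hr : ∀ x y, ⟪r x, y⟫_ℝ = ⟪x, r y⟫_ℝ) (hrr : ∀ x, r (r x) = r x)
    (hA : ∀ v, c * ‖v - p v‖ ^ 2 ≤ ⟪v, A v⟫_ℝ) :
    c * hs ((1 - p) ∘L D ∘L r) ≤ tr (A ∘L D ∘L r ∘L D) := by
  rw [tr_quad hD hr hrr, hs, Finset.mul_sum]
  refine Finset.sum_le_sum fun i _ => ?_
  have := hA (D (r (stdVec k i)))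
  simpa using this

theorem symm_one_sub {p : L k} {j : ℕ} (hp : p ∈ G j k) (x y : Euc k) :
    ⟪(1 - p) x, y⟫_ℝ = ⟪x, (1 - p) y⟫_ℝ := by
  simp only [sub_apply, one_apply_eq_self, inner_sub_left, inner_sub_right]
  rw [G_symm hp]

theorem idem_one_sub {p : L k} {j : ℕ} (hp : p ∈ G j k) (x : Euc k) :
    (1 - p) ((1 - p) x) = (1 - p) x := by
  simp only [sub_apply, one_apply_eq_self, map_sub, G_idem_apply hp]
  abel

/-- `|q (S - S') p|²`. -/
def mx (p S S' : L k) : ℝ := hs ((1 - p) ∘L (S - S') ∘L p)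

/-- `|q S q|²`. -/
def vv (p S : L k) : ℝ := hs ((1 - p) ∘L S ∘L (1 - p))

theorem mx_nonneg (p S S' : L k) : 0 ≤ mx p S S' := hs_nonneg _

theorem vv_nonneg (p S : L k) : 0 ≤ vv p S := hs_nonneg _

theorem continuous_vv (p : L k) : Continuous (vv p : L k → ℝ) :=
  continuous_hs.comp (continuous_const.clm_comp (continuous_id.clm_comp continuous_const))


/-- the left side of the pair identity is at least
`c (|q (S - S') p|² + |q S q|² + |q S' q|²)`. -/
theorem quad_ge {p A S S' : L k} {j : ℕ} {c : ℝ} (hp : p ∈ G j k) (hS : S ∈ G m k)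
    (hS' : S' ∈ G m k) (hA : ∀ v, c * ‖v - p v‖ ^ 2 ≤ ⟪v, A v⟫_ℝ) :
    c * (mx p S S' + vv p S + vv p S') ≤
      tr (A ∘L (S - S') ∘L p ∘L (S - S')) + tr (A ∘L S ∘L (1 - p) ∘L S)
        + tr (A ∘L S' ∘L (1 - p) ∘L S') := by
  have h1 := tr_quad_ge (p := p) (A := A) (c := c) (D := S - S') (r := p)
    (fun x y => by
      simp only [sub_apply, inner_sub_left, inner_sub_right]
      rw [G_symm hS, G_symm hS']) (G_symm hp) (G_idem_apply hp) hA
  have h2 := tr_quad_ge (p := p) (A := A) (c := c) (D := S) (r := 1 - p)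
    (G_symm hS) (symm_one_sub hp) (idem_one_sub hp) hA
  have h3 := tr_quad_ge (p := p) (A := A) (c := c) (D := S') (r := 1 - p)
    (G_symm hS') (symm_one_sub hp) (idem_one_sub hp) hA
  have e : c * (mx p S S' + vv p S + vv p S') = c * hs ((1 - p) ∘L (S - S') ∘L p)
      + c * hs ((1 - p) ∘L S ∘L (1 - p)) + c * hs ((1 - p) ∘L S' ∘L (1 - p)) := by
    unfold mx vv; ring
  rw [e]
  linarith

theorem hs_qSr {p S r : L k} {j : ℕ} (hp : p ∈ G j k) (hS : S ∈ G m k)
    (hr : ∀ x y, ⟪r x, y⟫_ℝ = ⟪x, r y⟫_ℝ) (hrr : ∀ x, r (r x) = r x) :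
    hs ((1 - p) ∘L S ∘L r) = tr (r ∘L S ∘L (1 - p) ∘L S) := by
  have h1 : tr (r ∘L S ∘L (1 - p) ∘L S) = tr ((1 - p) ∘L S ∘L r ∘L S) := by
    have e1 : r ∘L S ∘L (1 - p) ∘L S = (r ∘L S) ∘L ((1 - p) ∘L S) := rfl
    have e2 : (1 - p) ∘L S ∘L r ∘L S = ((1 - p) ∘L S) ∘L (r ∘L S) := rfl
    rw [e1, e2, tr_comm]
  rw [h1, tr_quad (G_symm hS) hr hrr, hs]
  refine Finset.sum_congr rfl fun i _ => ?_
  rw [← idem_one_sub hp, ← symm_one_sub hp, real_inner_self_eq_norm_sq]
  rfl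




/-- `|q S q|² ≥ tilt² / k`. -/
theorem tilt_sq_le {p S : L k} {j : ℕ} (hp : p ∈ G j k) :
    tilt p S ^ 2 ≤ k * vv p S := by
  have h1 : tilt p S = ∑ i, ⟪stdVec k i, ((1 - p) ∘L S ∘L (1 - p)) (stdVec k i)⟫_ℝ := by
    rw [← tr_eq_sum]
    have e1 : (1 - p) ∘L S ∘L (1 - p) = ((1 - p) ∘L S) ∘L (1 - p) := rfl
    rw [e1, tr_comm, ← ContinuousLinearMap.comp_assoc]
    have e2 : (1 - p : L k) ∘L (1 - p) = 1 - p := by
      ext1 x; exact idem_one_sub hp x
    rw [e2]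
    exact (tr_id_sub_comp p S).symm
  rw [h1]
  have hn : ∀ i : Fin k, ‖stdVec k i‖ = 1 := fun i => by simp [stdVec]
  calc (∑ i, ⟪stdVec k i, ((1 - p) ∘L S ∘L (1 - p)) (stdVec k i)⟫_ℝ) ^ 2
      ≤ (Finset.univ : Finset (Fin k)).card *
        ∑ i, ⟪stdVec k i, ((1 - p) ∘L S ∘L (1 - p)) (stdVec k i)⟫_ℝ ^ 2 :=
        sq_sum_le_card_mul_sum_sq
    _ ≤ k * vv p S := by
        rw [Finset.card_univ, Fintype.card_fin]
        refine mul_le_mul_of_nonneg_left ?_ (Nat.cast_nonneg _)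
        unfold vv hs
        refine Finset.sum_le_sum fun i _ => ?_
        rw [← sq_abs]
        refine pow_le_pow_left₀ (abs_nonneg _) ?_ 2
        refine (abs_real_inner_le_norm _ _).trans ?_
        rw [hn i, one_mul]

/-! ### the vertical truncation -/

/-- `u = 1 + |q x|² / h²`. -/
def uu (p : L k) (h : ℝ) (x : Euc k) : ℝ := 1 + ‖x - p x‖ ^ 2 / h ^ 2

/-- the vertical truncation field `q x / √(1 + |q x|² / h²)`. -/
def th (p : L k) (h : ℝ) (x : Euc k) : Euc k := (√(uu p h x))⁻¹ • (x - p x)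

section

variable {p : L k} {h : ℝ}

theorem uu_pos (p : L k) (h : ℝ) (x : Euc k) : 0 < uu p h x := by
  unfold uu; positivity

theorem one_le_uu (p : L k) (h : ℝ) (x : Euc k) : 1 ≤ uu p h x := by
  unfold uu
  have : 0 ≤ ‖x - p x‖ ^ 2 / h ^ 2 := by positivity
  linarith

theorem contDiff_uu (p : L k) (h : ℝ) : ContDiff ℝ 1 (uu p h) := by
  unfold uu
  exact contDiff_const.add (((contDiff_id.sub p.contDiff).norm_sq ℝ).div_const _)

theorem contDiff_th (p : L k) (h : ℝ) : ContDiff ℝ 1 (th p h) := by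
  unfold th
  exact (((contDiff_uu p h).sqrt fun x => (uu_pos p h x).ne').inv
    fun x => (Real.sqrt_pos.2 (uu_pos p h x)).ne').smul (contDiff_id.sub p.contDiff)

theorem uu_neg (p : L k) (h : ℝ) (x : Euc k) : uu p h (-x) = uu p h x := by
  unfold uu
  rw [map_neg, ← neg_sub', norm_neg]

theorem th_neg (p : L k) (h : ℝ) (x : Euc k) : th p h (-x) = -th p h x := by
  unfold th
  rw [uu_neg, map_neg, ← smul_neg]
  congr 1
  abel

theorem p_th {j : ℕ} (hp : p ∈ G j k) (x : Euc k) : p (th p h x) = 0 := by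
  unfold th
  rw [map_smul, map_sub, G_idem_apply hp, sub_self, smul_zero]


theorem norm_th_le_h (p : L k) (hh : 0 < h) (x : Euc k) : ‖th p h x‖ ≤ h := by
  unfold th
  rw [norm_smul, norm_inv, Real.norm_eq_abs, abs_of_pos (Real.sqrt_pos.2 (uu_pos p h x)),
    inv_mul_le_iff₀ (Real.sqrt_pos.2 (uu_pos p h x))]
  have h1 : ‖x - p x‖ / h ≤ √(uu p h x) := by
    refine Real.le_sqrt_of_sq_le ?_
    unfold uu
    rw [div_pow]
    linarith
  rw [div_le_iff₀ hh] at h1
  exact h1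

theorem hasFDerivAt_uu (p : L k) (h : ℝ) (x : Euc k) :
    HasFDerivAt (uu p h) ((2 / h ^ 2) • (innerSL ℝ (x - p x)) ∘L (1 - p)) x := by
  have h1 : HasFDerivAt (fun y : Euc k => y - p y) ((1 : L k) - p) x :=
    (hasFDerivAt_id x).sub p.hasFDerivAt
  have h2 := (h1.norm_sq.mul_const ((h ^ 2)⁻¹)).const_add 1
  have h3 : uu p h = fun y => 1 + ‖y - p y‖ ^ 2 * (h ^ 2)⁻¹ := by
    funext y; unfold uu; rw [div_eq_mul_inv]
  rw [h3]
  refine h2.congr_fderiv ?_
  ext1 v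
  simp only [smul_apply, ContinuousLinearMap.comp_apply, smul_eq_mul, nsmul_eq_mul]
  ring

/-- the derivative of the truncation. -/
def Dth (p : L k) (h : ℝ) (x : Euc k) : L k :=
  (√(uu p h x))⁻¹ • (1 - p)
    - ((h ^ 2 * (uu p h x * √(uu p h x)))⁻¹ • ((innerSL ℝ (x - p x)) ∘L (1 - p))).smulRight
      (x - p x)

theorem hasFDerivAt_th (p : L k) (h : ℝ) (x : Euc k) : HasFDerivAt (th p h) (Dth p h x) x := by
  have hu := uu_pos p h x
  have hs : 0 < √(uu p h x) := Real.sqrt_pos.2 hu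
  have h1 : HasFDerivAt (fun y : Euc k => y - p y) ((1 : L k) - p) x :=
    (hasFDerivAt_id x).sub p.hasFDerivAt
  have h2 := (hasFDerivAt_uu p h x).sqrt hu.ne'
  have h3 : HasFDerivAt (fun y => (√(uu p h y))⁻¹)
      (-(√(uu p h x) ^ 2)⁻¹ • ((1 / (2 * √(uu p h x))) • ((2 / h ^ 2) •
        (innerSL ℝ (x - p x)) ∘L (1 - p)))) x :=
    (hasDerivAt_inv hs.ne').comp_hasFDerivAt x h2
  have h4 := h3.smul h1
  refine h4.congr_fderiv ?_
  ext1 v
  have e : (2 * √(uu p h x))⁻¹ * (2 / h ^ 2) * (√(uu p h x) ^ 2)⁻¹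
      = (h ^ 2 * (uu p h x * √(uu p h x)))⁻¹ := by
    rw [Real.sq_sqrt hu.le]
    rw [mul_inv, mul_inv, mul_inv, div_eq_mul_inv]
    ring
  simp only [Dth, add_apply, sub_apply, smul_apply, ContinuousLinearMap.smulRight_apply,
    ContinuousLinearMap.comp_apply, one_apply_eq_self, smul_eq_mul]
  rw [← e, sub_eq_add_neg (_ • (v - p v)), ← neg_smul]
  congr 2
  ring

theorem fderiv_th (p : L k) (h : ℝ) (x : Euc k) : fderiv ℝ (th p h) x = Dth p h x :=
  (hasFDerivAt_th p h x).fderiv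

theorem inner_Dth {j : ℕ} (hp : p ∈ G j k) (h : ℝ) (x v w : Euc k) :
    ⟪v, Dth p h x w⟫_ℝ = (√(uu p h x))⁻¹ * ⟪v - p v, w - p w⟫_ℝ
      - (h ^ 2 * (uu p h x * √(uu p h x)))⁻¹ * (⟪x - p x, v - p v⟫_ℝ * ⟪x - p x, w - p w⟫_ℝ) := by
  have e : ∀ a b : Euc k, ⟪a, b - p b⟫_ℝ = ⟪a - p a, b - p b⟫_ℝ := by
    intro a b
    have h1 : ⟪p a, b - p b⟫_ℝ = 0 := by
      rw [G_symm hp, map_sub, G_idem_apply hp, sub_self, inner_zero_right]
    rw [inner_sub_left, h1, sub_zero]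
  have e2 : Dth p h x w = (√(uu p h x))⁻¹ • (w - p w)
      - ((h ^ 2 * (uu p h x * √(uu p h x)))⁻¹ * ⟪x - p x, w - p w⟫_ℝ) • (x - p x) := rfl
  rw [e2, inner_sub_right v, inner_smul_right, inner_smul_right, e v w,
    e v x, real_inner_comm (x - p x) (v - p v)]
  ring

theorem Dth_symm {j : ℕ} (hp : p ∈ G j k) (h : ℝ) (x v w : Euc k) :
    ⟪Dth p h x v, w⟫_ℝ = ⟪v, Dth p h x w⟫_ℝ := by
  rw [real_inner_comm, inner_Dth hp, inner_Dth hp, real_inner_comm (v - p v)]
  ring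

/-- coercivity of the derivative of the truncation. -/
theorem Dth_ge {j : ℕ} (hp : p ∈ G j k) (hh : 0 < h) (x v : Euc k) :
    (uu p h x * √(uu p h x))⁻¹ * ‖v - p v‖ ^ 2 ≤ ⟪v, Dth p h x v⟫_ℝ := by
  rw [inner_Dth hp, real_inner_self_eq_norm_sq]
  have hu := uu_pos p h x
  have hs : 0 < √(uu p h x) := Real.sqrt_pos.2 hu
  have h1 : ⟪x - p x, v - p v⟫_ℝ * ⟪x - p x, v - p v⟫_ℝ ≤ ‖x - p x‖ ^ 2 * ‖v - p v‖ ^ 2 := by
    have := abs_real_inner_le_norm (x - p x) (v - p v)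
    have h2 := pow_le_pow_left₀ (abs_nonneg _) this 2
    rw [sq_abs, mul_pow] at h2
    nlinarith
  have h3 : (√(uu p h x))⁻¹ * ‖v - p v‖ ^ 2
      = (uu p h x * √(uu p h x))⁻¹ * (‖v - p v‖ ^ 2 * uu p h x) := by
    field_simp
  have h4 : (h ^ 2 * (uu p h x * √(uu p h x)))⁻¹
      = (uu p h x * √(uu p h x))⁻¹ * (h ^ 2)⁻¹ := by
    rw [mul_inv, mul_comm]
  rw [h3, h4, mul_assoc, ← mul_sub]
  refine mul_le_mul_of_nonneg_left ?_ (by positivity)
  have h5 : (h ^ 2)⁻¹ * (⟪x - p x, v - p v⟫_ℝ * ⟪x - p x, v - p v⟫_ℝ)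
      ≤ (h ^ 2)⁻¹ * (‖x - p x‖ ^ 2 * ‖v - p v‖ ^ 2) :=
    mul_le_mul_of_nonneg_left h1 (by positivity)
  have h6 : ‖v - p v‖ ^ 2 * uu p h x
      = ‖v - p v‖ ^ 2 + (h ^ 2)⁻¹ * (‖x - p x‖ ^ 2 * ‖v - p v‖ ^ 2) := by
    unfold uu
    field_simp
  linarith

theorem Dth_nonneg {j : ℕ} (hp : p ∈ G j k) (hh : 0 < h) (x v : Euc k) :
    0 ≤ ⟪v, Dth p h x v⟫_ℝ := by
  refine le_trans ?_ (Dth_ge hp hh x v)
  have := uu_pos p h x
  positivity

theorem third_le {j : ℕ} (hp : p ∈ G j k) (hh : 0 < h) {x : Euc k} (hx : ‖x - p x‖ ≤ h)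
    (v : Euc k) : (1 / 3 : ℝ) * ‖v - p v‖ ^ 2 ≤ ⟪v, Dth p h x v⟫_ℝ := by
  refine le_trans ?_ (Dth_ge hp hh x v)
  refine mul_le_mul_of_nonneg_right ?_ (by positivity)
  have hu := uu_pos p h x
  have h1 : uu p h x ≤ 2 := by
    unfold uu
    have : ‖x - p x‖ ^ 2 / h ^ 2 ≤ 1 := by
      rw [div_le_one (by positivity)]
      exact pow_le_pow_left₀ (norm_nonneg _) hx 2
    linarith
  have h2 : √(uu p h x) ≤ 3 / 2 := by
    rw [Real.sqrt_le_left (by norm_num)]
    linarith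
  have h3 : uu p h x * √(uu p h x) ≤ 3 := by
    nlinarith [Real.sqrt_nonneg (uu p h x)]
  rw [one_div]
  exact inv_anti₀ (by positivity) h3

end

end Crest.Agent.R234.Pair2_762
end
end

-- ▼ part R234/Pair3_762
section

/-!
Row 234 (helper762), VF-PAIR-Q, file 3: the kernel `φ(x) φ(x') κ(x - x')`,
`κ(x) = (1 - |H x|² / τ²)₊²`, and the pointwise bounds of the two sides of 615's identity.
-/

set_option autoImplicit false

open MeasureTheory Crest.GeometryTopology.Submanifold Filter Topology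
open scoped ENNReal InnerProductSpace

noncomputable section

namespace Crest.Agent.R234.Pair3_762

open Crest.Agent.R234.Vf_884 Crest.Agent.R234.In_947 Crest.Agent.R234.Pt_615
  Crest.Agent.R234.Pair2_762

variable {m k : ℕ}

/-! ### the profile -/

/-- `s₊²`. -/
def pp (s : ℝ) : ℝ := (max s 0) ^ 2

theorem hasDerivAt_pp (s : ℝ) : HasDerivAt pp (2 * max s 0) s := by
  rcases lt_trichotomy s 0 with h | h | h
  · rw [max_eq_right h.le, mul_zero]
    refine (hasDerivAt_const s (0 : ℝ)).congr_of_eventuallyEq ?_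
    filter_upwards [Iio_mem_nhds h] with y hy
    have hy' : y < 0 := hy
    simp [pp, max_eq_right hy'.le]
  · subst h
    rw [max_self, mul_zero, ← hasDerivWithinAt_univ, ← Set.Iic_union_Ici (a := (0 : ℝ))]
    refine HasDerivWithinAt.union ?_ ?_
    · refine (hasDerivWithinAt_const (0 : ℝ) _ (0 : ℝ)).congr (fun y hy => ?_) ?_
      · simp [pp, max_eq_right (Set.mem_Iic.1 hy)]
      · simp [pp]
    · have h1 : HasDerivWithinAt (fun y : ℝ => y ^ 2) 0 (Set.Ici 0) 0 := by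
        simpa using (hasDerivAt_pow 2 (0 : ℝ)).hasDerivWithinAt
      refine h1.congr (fun y hy => ?_) ?_
      · simp [pp, max_eq_left (Set.mem_Ici.1 hy)]
      · simp [pp]
  · rw [max_eq_left h.le]
    have h1 : HasDerivAt (fun y : ℝ => y ^ 2) (2 * s) s := by
      simpa using hasDerivAt_pow 2 s
    refine h1.congr_of_eventuallyEq ?_
    filter_upwards [Ioi_mem_nhds h] with y hy
    have hy' : 0 < y := hy
    simp [pp, max_eq_left hy'.le]

theorem contDiff_pp : ContDiff ℝ 1 pp := by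
  rw [contDiff_one_iff_deriv]
  refine ⟨fun s => (hasDerivAt_pp s).differentiableAt, ?_⟩
  have : deriv pp = fun s => 2 * max s 0 := funext fun s => (hasDerivAt_pp s).deriv
  rw [this]
  fun_prop

theorem pp_nonneg (s : ℝ) : 0 ≤ pp s := by unfold pp; positivity

theorem pp_le_one {s : ℝ} (h : s ≤ 1) : pp s ≤ 1 := by
  unfold pp
  have h1 : max s 0 ≤ 1 := max_le h zero_le_one
  have h0 : 0 ≤ max s 0 := le_max_right _ _
  nlinarith

/-! ### the kernel -/

section

variable (H : L k) (τ : ℝ)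

/-- the horizontal kernel. -/
def kap (x : Euc k) : ℝ := pp (1 - ‖H x‖ ^ 2 * (τ ^ 2)⁻¹)

/-- its derivative. -/
def Dkap (x : Euc k) : Euc k →L[ℝ] ℝ :=
  (2 * max (1 - ‖H x‖ ^ 2 * (τ ^ 2)⁻¹) 0 * (-2 * (τ ^ 2)⁻¹)) • ((innerSL ℝ (H x)) ∘L H)

theorem hasFDerivAt_kap (x : Euc k) : HasFDerivAt (kap H τ) (Dkap H τ x) x := by
  have h1 : HasFDerivAt (fun y : Euc k => H y) H x := H.hasFDerivAt
  have h2 := (h1.norm_sq.mul_const ((τ ^ 2)⁻¹)).const_sub 1
  have h3 := (hasDerivAt_pp (1 - ‖H x‖ ^ 2 * (τ ^ 2)⁻¹)).comp_hasFDerivAt x h2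
  refine h3.congr_fderiv ?_
  ext1 v
  simp only [Dkap, smul_apply, ContinuousLinearMap.comp_apply, smul_eq_mul, nsmul_eq_mul,
    neg_apply]
  push_cast
  ring

theorem contDiff_kap : ContDiff ℝ 1 (kap H τ) := by
  unfold kap
  exact contDiff_pp.comp (contDiff_const.sub ((H.contDiff.norm_sq ℝ).mul contDiff_const))

theorem kap_neg (x : Euc k) : kap H τ (-x) = kap H τ x := by
  unfold kap; rw [map_neg, norm_neg]

theorem Dkap_neg (x : Euc k) : Dkap H τ (-x) = -Dkap H τ x := by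
  unfold Dkap
  rw [map_neg, norm_neg]
  ext1 v
  simp

theorem kap_nonneg (x : Euc k) : 0 ≤ kap H τ x := pp_nonneg _

theorem kap_le_one (x : Euc k) : kap H τ x ≤ 1 := by
  refine pp_le_one ?_
  have : 0 ≤ ‖H x‖ ^ 2 * (τ ^ 2)⁻¹ := by positivity
  linarith

variable {H τ}

theorem kap_eq_zero (hτ : 0 < τ) {x : Euc k} (hx : τ ≤ ‖H x‖) : kap H τ x = 0 := by
  have h1 : 1 ≤ ‖H x‖ ^ 2 * (τ ^ 2)⁻¹ := by
    rw [← div_eq_mul_inv, one_le_div (by positivity)]
    exact pow_le_pow_left₀ hτ.le hx 2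
  unfold kap pp
  rw [max_eq_right (by linarith)]
  norm_num

theorem Dkap_eq_zero (hτ : 0 < τ) {x : Euc k} (hx : τ ≤ ‖H x‖) : Dkap H τ x = 0 := by
  have h1 : 1 ≤ ‖H x‖ ^ 2 * (τ ^ 2)⁻¹ := by
    rw [← div_eq_mul_inv, one_le_div (by positivity)]
    exact pow_le_pow_left₀ hτ.le hx 2
  unfold Dkap
  rw [max_eq_right (by linarith)]
  simp

theorem le_kap (hτ : 0 < τ) {x : Euc k} (hx : ‖H x‖ ≤ τ / 2) : 9 / 16 ≤ kap H τ x := by
  have h1 : ‖H x‖ ^ 2 * (τ ^ 2)⁻¹ ≤ 1 / 4 := by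
    rw [← div_eq_mul_inv, div_le_iff₀ (by positivity)]
    have := pow_le_pow_left₀ (norm_nonneg _) hx 2
    linarith
  unfold kap pp
  have h2 : 3 / 4 ≤ max (1 - ‖H x‖ ^ 2 * (τ ^ 2)⁻¹) 0 := le_max_of_le_left (by linarith)
  nlinarith

theorem abs_Dkap_le (hτ : 0 < τ) (hH : ∀ x, ‖H x‖ ≤ ‖x‖) (x v : Euc k) :
    |Dkap H τ x v| ≤ 4 / τ * ‖v‖ := by
  rcases le_or_gt τ ‖H x‖ with h | h
  · rw [Dkap_eq_zero hτ h, zero_apply, abs_zero]
    positivity
  have e : Dkap H τ x v = (2 * max (1 - ‖H x‖ ^ 2 * (τ ^ 2)⁻¹) 0 * (-2 * (τ ^ 2)⁻¹))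
      * ⟪H x, H v⟫_ℝ := rfl
  rw [e, abs_mul, abs_mul, abs_mul]
  have h1 : |2 * max (1 - ‖H x‖ ^ 2 * (τ ^ 2)⁻¹) 0| ≤ 2 := by
    rw [abs_mul, abs_two, abs_of_nonneg (le_max_right _ _)]
    have : max (1 - ‖H x‖ ^ 2 * (τ ^ 2)⁻¹) 0 ≤ 1 := by
      refine max_le ?_ zero_le_one
      have : 0 ≤ ‖H x‖ ^ 2 * (τ ^ 2)⁻¹ := by positivity
      linarith
    linarith
  rw [abs_mul] at h1
  have h2 : |(-2 : ℝ)| * |(τ ^ 2)⁻¹| = 2 * (τ ^ 2)⁻¹ := by
    rw [abs_of_nonneg (by positivity : (0 : ℝ) ≤ (τ ^ 2)⁻¹)]; norm_num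
  have h3 : |⟪H x, H v⟫_ℝ| ≤ τ * ‖v‖ := by
    refine (abs_real_inner_le_norm _ _).trans ?_
    exact mul_le_mul h.le (hH v) (norm_nonneg _) hτ.le
  rw [abs_mul, h2]
  calc |2| * |max (1 - ‖H x‖ ^ 2 * (τ ^ 2)⁻¹) 0| * (2 * (τ ^ 2)⁻¹) * |⟪H x, H v⟫_ℝ|
      ≤ 2 * (2 * (τ ^ 2)⁻¹) * (τ * ‖v‖) := by
        refine mul_le_mul ?_ h3 (abs_nonneg _) (by positivity)
        exact mul_le_mul_of_nonneg_right h1 (by positivity)
    _ = 4 / τ * ‖v‖ := by field_simp; ring

end

/-! ### cut-offs -/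

/-- a horizontal cut-off. -/
structure Cut (H : L k) (K : Set (Euc k)) (Λ : ℝ) (φ : Euc k → ℝ) : Prop where
  smooth : ContDiff ℝ 1 φ
  hor : ∀ x, φ x = φ (H x)
  supp : ∀ x, H x ∉ K → φ x = 0
  nonneg : ∀ x, 0 ≤ φ x
  le_one : ∀ x, φ x ≤ 1
  lip : ∀ x, ‖fderiv ℝ φ x‖ ≤ Λ

/-- the pair weight. -/
def ww (H : L k) (τ : ℝ) (φ : Euc k → ℝ) (x y : Euc k) : ℝ := φ x * φ y * kap H τ (x - y)

variable {H : L k} {K : Set (Euc k)} {Λ τ h : ℝ} {φ : Euc k → ℝ}

theorem Cut.nonneg_lip (hφ : Cut H K Λ φ) : 0 ≤ Λ := (norm_nonneg _).trans (hφ.lip 0)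

theorem Cut.fderiv_eq_zero (hφ : Cut H K Λ φ) {x : Euc k} (hx : φ x = 0) :
    fderiv ℝ φ x = 0 := by
  have : IsLocalMin φ x := Filter.Eventually.of_forall fun y => by rw [hx]; exact hφ.nonneg y
  exact this.fderiv_eq_zero

theorem ker_ww (hφ : Cut H K Λ φ) (hH : ∀ x, H (H x) = H x) : Ker H K (ww H τ φ) := by
  refine ⟨?_, fun x y => ?_, fun x y => ?_, fun x y hx => ?_⟩
  · unfold ww
    exact ((hφ.smooth.comp contDiff_fst).mul (hφ.smooth.comp contDiff_snd)).mul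
      ((contDiff_kap H τ).comp (contDiff_fst.sub contDiff_snd))
  · unfold ww
    rw [← kap_neg H τ (x - y), neg_sub, mul_comm (φ x)]
  · unfold ww
    rw [hφ.hor x, hφ.hor y]
    congr 1
    unfold kap
    rw [map_sub, map_sub, hH, hH]
  · unfold ww
    rw [hφ.supp x hx, zero_mul, zero_mul]

theorem D1_ww (hφ : Cut H K Λ φ) (hH : ∀ x, H (H x) = H x) (x y : Euc k) :
    D1 (ww H τ φ) x y = (φ y * kap H τ (x - y)) • fderiv ℝ φ x
      + (φ x * φ y) • Dkap H τ (x - y) := by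
  refine (hasFDerivAt_D1 (ker_ww (τ := τ) hφ hH) x y).unique ?_
  have h1 : HasFDerivAt φ (fderiv ℝ φ x) x :=
    (hφ.smooth.differentiable one_ne_zero x).hasFDerivAt
  have h2 : HasFDerivAt (fun z : Euc k => kap H τ (z - y)) (Dkap H τ (x - y)) x := by
    have h3 : HasFDerivAt (fun z : Euc k => z - y) (ContinuousLinearMap.id ℝ (Euc k)) x :=
      (hasFDerivAt_id x).sub_const y
    have h4 := (hasFDerivAt_kap H τ (x - y)).comp x h3
    rwa [ContinuousLinearMap.comp_id] at h4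
  have h5 := (h1.mul_const (φ y)).mul h2
  refine h5.congr_fderiv ?_
  ext1 v
  simp only [add_apply, smul_apply, smul_eq_mul]
  ring

theorem D2_ww (hφ : Cut H K Λ φ) (hH : ∀ x, H (H x) = H x) (x y : Euc k) :
    D2 (ww H τ φ) x y = (φ x * kap H τ (x - y)) • fderiv ℝ φ y
      - (φ x * φ y) • Dkap H τ (x - y) := by
  rw [D2_eq (ker_ww (τ := τ) hφ hH), D1_ww hφ hH, ← neg_sub x y, kap_neg, Dkap_neg, smul_neg,
    ← sub_eq_add_neg, mul_comm (φ y) (φ x)]

/-! ### pointwise bounds -/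

/-- the pairs that interact. -/
def near (H : L k) (τ : ℝ) (φ : Euc k → ℝ) (x y : Euc k) : Prop :=
  φ x ≠ 0 ∧ φ y ≠ 0 ∧ ‖H (x - y)‖ < τ

theorem norm_S_th_le {S : L k} (hH : H ∈ G m k) (hS : S ∈ G m k) (hh : 0 < h) (u : Euc k) :
    ‖S (th H h u)‖ ≤ √(tilt H S) * h := by
  have h1 := norm_tan_perp_sq_le hH hS (th H h u)
  rw [p_th hH, sub_zero] at h1
  have h2 : ‖S (th H h u)‖ ≤ √(tilt H S * ‖th H h u‖ ^ 2) := Real.le_sqrt_of_sq_le h1
  rw [Real.sqrt_mul (tilt_nonneg hH hS), Real.sqrt_sq (norm_nonneg _)] at h2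
  exact h2.trans (mul_le_mul_of_nonneg_left (norm_th_le_h H hh u) (Real.sqrt_nonneg _))

theorem norm_cub_le {S' : L k} (hH : H ∈ G m k) (hS' : S' ∈ G m k) (v : Euc k) :
    ‖H (H v - S' (H v))‖ ≤ tilt H S' * ‖v‖ := by
  -- `⟨H (1 - S') H v, u⟩ = ⟨(1-S') H v, (1-S') H u⟩`
  set u := H (H v - S' (H v)) with hu
  have hHu : H u = u := G_idem_apply hH _
  have h1 : ‖u‖ ^ 2 = ⟪H v - S' (H v), H u - S' (H u)⟫_ℝ := by
    rw [← real_inner_self_eq_norm_sq]
    nth_rewrite 1 [hu]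
    rw [G_symm hH, hHu, inner_sub_right]
    have h2 : ⟪H v - S' (H v), S' u⟫_ℝ = 0 := by
      rw [← G_symm hS', map_sub, G_idem_apply hS', sub_self, inner_zero_left]
    rw [h2, sub_zero]
  have h3 := norm_perp_tan_sq_le hH hS' v
  have h4 := norm_perp_tan_sq_le hH hS' u
  have ht := tilt_nonneg hH hS'
  have h5 : ‖H v - S' (H v)‖ ≤ √(tilt H S') * ‖v‖ := by
    have := Real.le_sqrt_of_sq_le h3
    rw [Real.sqrt_mul ht, Real.sqrt_sq (norm_nonneg _)] at this
    exact this.trans (mul_le_mul_of_nonneg_left (G_norm_apply_le hH v) (Real.sqrt_nonneg _))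
  have h6 : ‖H u - S' (H u)‖ ≤ √(tilt H S') * ‖u‖ := by
    have := Real.le_sqrt_of_sq_le h4
    rw [Real.sqrt_mul ht, Real.sqrt_sq (norm_nonneg _)] at this
    exact this.trans (mul_le_mul_of_nonneg_left (G_norm_apply_le hH u) (Real.sqrt_nonneg _))
  have h7 : ‖u‖ ^ 2 ≤ (√(tilt H S') * ‖v‖) * (√(tilt H S') * ‖u‖) := by
    rw [h1]
    exact (real_inner_le_norm _ _).trans (mul_le_mul h5 h6 (norm_nonneg _) (by positivity))
  have h8 : (√(tilt H S') * ‖v‖) * (√(tilt H S') * ‖u‖) = (tilt H S' * ‖v‖) * ‖u‖ := by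
    have := Real.mul_self_sqrt ht
    calc (√(tilt H S') * ‖v‖) * (√(tilt H S') * ‖u‖)
        = (√(tilt H S') * √(tilt H S')) * ‖v‖ * ‖u‖ := by ring
      _ = _ := by rw [this]
  rw [h8] at h7
  rcases eq_or_lt_of_le (norm_nonneg u) with h0 | h0
  · rw [← h0]; positivity
  · rw [sq] at h7
    exact le_of_mul_le_mul_right h7 h0

theorem norm_cub_le' {S' : L k} (hH : H ∈ G m k) (hS' : S' ∈ G m k) (v : Euc k) :
    ‖H (H v - S' (H v))‖ ≤ ‖v‖ := by
  refine (G_norm_apply_le hH _).trans ?_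
  have h1 := G_norm_sq_add hS' (H v)
  have h2 : ‖H v - S' (H v)‖ ≤ ‖H v‖ := by
    refine le_of_sq_le_sq ?_ (norm_nonneg _)
    nlinarith [sq_nonneg ‖S' (H v)‖]
  exact h2.trans (G_norm_apply_le hH v)

/-- **pointwise bound of the flux.** -/
theorem flux_le (hφ : Cut H K Λ φ) (hH : H ∈ G m k) (hτ : 0 < τ) (hh : 0 < h)
    {q : (Euc k × L k) × (Euc k × L k)} (h1 : q.1.2 ∈ G m k) (h2 : q.2.2 ∈ G m k) :
    |Rcut H (ww H τ φ) (th H h) q| + |Rcub H (ww H τ φ) (th H h) q|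
      ≤ open Classical in if near H τ φ q.1.1 q.2.1 then
        h * (3 * Λ * √(tilt H q.1.2) + 4 / τ * (√(tilt H q.1.2) * tilt H q.2.2)) else 0 := by
  have hHH := G_idem_apply hH
  unfold Rcut Rcub
  rw [D1_ww hφ hHH, D2_ww hφ hHH]
  set x := q.1.1
  set y := q.2.1
  set S := q.1.2
  set S' := q.2.2
  set a := H (S (th H h (x - y))) with ha
  have hΛ := hφ.nonneg_lip
  have e1 : ((φ y * kap H τ (x - y)) • fderiv ℝ φ x + (φ x * φ y) • Dkap H τ (x - y)
      + ((φ x * kap H τ (x - y)) • fderiv ℝ φ y - (φ x * φ y) • Dkap H τ (x - y))) a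
      = φ y * kap H τ (x - y) * fderiv ℝ φ x a + φ x * kap H τ (x - y) * fderiv ℝ φ y a := by
    simp only [add_apply, sub_apply, smul_apply, smul_eq_mul]
    ring
  have hna : ‖a‖ ≤ √(tilt H S) * h := (G_norm_apply_le hH _).trans (norm_S_th_le hH h1 hh _)
  rw [e1]
  split_ifs with hn
  · obtain ⟨hx, hy, hxy⟩ := hn
    have hk0 := kap_nonneg H τ (x - y)
    have hk1 := kap_le_one H τ (x - y)
    have hx0 := hφ.nonneg x
    have hx1 := hφ.le_one x
    have hy0 := hφ.nonneg y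
    have hy1 := hφ.le_one y
    have hT : 0 ≤ √(tilt H S) * h := by positivity
    have ht' := tilt_nonneg hH h2
    have hd : ∀ z v : Euc k, |fderiv ℝ φ z v| ≤ Λ * ‖v‖ := fun z v =>
      ((fderiv ℝ φ z).le_opNorm v).trans (mul_le_mul_of_nonneg_right (hφ.lip z) (norm_nonneg _))
    have hb : ∀ c z : ℝ, 0 ≤ c → c ≤ 1 → |c * z| ≤ |z| := fun c z h0 h1 => by
      rw [abs_mul, abs_of_nonneg h0]
      exact mul_le_of_le_one_left (abs_nonneg _) h1
    have hyk0 : 0 ≤ φ y * kap H τ (x - y) := mul_nonneg hy0 hk0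
    have hyk1 : φ y * kap H τ (x - y) ≤ 1 := mul_le_one₀ hy1 hk0 hk1
    have hxk0 : 0 ≤ φ x * kap H τ (x - y) := mul_nonneg hx0 hk0
    have hxk1 : φ x * kap H τ (x - y) ≤ 1 := mul_le_one₀ hx1 hk0 hk1
    have hxy0 : 0 ≤ φ x * φ y := mul_nonneg hx0 hy0
    have hxy1 : φ x * φ y ≤ 1 := mul_le_one₀ hx1 hy0 hy1
    -- cut-off part
    have c1 : |φ y * kap H τ (x - y) * fderiv ℝ φ x a + φ x * kap H τ (x - y) * fderiv ℝ φ y a|
        ≤ 2 * Λ * (√(tilt H S) * h) := by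
      refine (abs_add_le _ _).trans ?_
      have i1 := (hb _ (fderiv ℝ φ x a) hyk0 hyk1).trans (hd x a)
      have i2 := (hb _ (fderiv ℝ φ y a) hxk0 hxk1).trans (hd y a)
      have i3 : Λ * ‖a‖ ≤ Λ * (√(tilt H S) * h) := mul_le_mul_of_nonneg_left hna hΛ
      linarith
    -- cubic part
    have hHa : H a = a := hHH _
    set b := H (a - S' a) with hb'
    have hb2 : b = H (H a - S' (H a)) := by rw [hHa]
    have nb1 : ‖b‖ ≤ tilt H S' * (√(tilt H S) * h) := by
      rw [hb2]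
      exact (norm_cub_le hH h2 a).trans (mul_le_mul_of_nonneg_left hna ht')
    have nb2 : ‖b‖ ≤ √(tilt H S) * h := by
      rw [hb2]
      exact (norm_cub_le' hH h2 a).trans hna
    have c2 : |((φ x * kap H τ (x - y)) • fderiv ℝ φ y - (φ x * φ y) • Dkap H τ (x - y)) b|
        ≤ Λ * (√(tilt H S) * h) + 4 / τ * (tilt H S' * (√(tilt H S) * h)) := by
      have e2 : ((φ x * kap H τ (x - y)) • fderiv ℝ φ y - (φ x * φ y) • Dkap H τ (x - y)) b
          = φ x * kap H τ (x - y) * fderiv ℝ φ y b - φ x * φ y * Dkap H τ (x - y) b := by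
        simp only [sub_apply, smul_apply, smul_eq_mul]
      rw [e2]
      refine (abs_sub _ _).trans ?_
      have i1 := (hb _ (fderiv ℝ φ y b) hxk0 hxk1).trans (hd y b)
      have i2 := (hb _ (Dkap H τ (x - y) b) hxy0 hxy1).trans
        (abs_Dkap_le hτ (G_norm_apply_le hH) (x - y) b)
      have i3 : Λ * ‖b‖ ≤ Λ * (√(tilt H S) * h) := mul_le_mul_of_nonneg_left nb2 hΛ
      have i4 : 4 / τ * ‖b‖ ≤ 4 / τ * (tilt H S' * (√(tilt H S) * h)) :=
        mul_le_mul_of_nonneg_left nb1 (by positivity)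
      linarith
    refine (add_le_add c1 c2).trans (le_of_eq ?_)
    ring
  · -- everything vanishes
    have hz : (φ x = 0 ∨ φ y = 0) ∨ τ ≤ ‖H (x - y)‖ := by
      unfold near at hn
      by_contra hcon
      push Not at hcon
      exact hn ⟨hcon.1.1, hcon.1.2, hcon.2⟩
    rcases hz with (hz | hz) | hz
    · rw [hz, hφ.fderiv_eq_zero hz]; simp
    · rw [hz, hφ.fderiv_eq_zero hz]; simp
    · rw [kap_eq_zero hτ hz, Dkap_eq_zero hτ hz]; simp

theorem vert_th (hH : H ∈ G m k) : Vert H (th H h) := by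
  refine ⟨contDiff_th H h, th_neg H h, fun u => ?_, fun u => p_th hH u, fun u => ?_⟩
  · have e : u - H u - H (u - H u) = u - H u := by
      rw [map_sub, G_idem_apply hH, sub_self, sub_zero]
    unfold th uu
    rw [e]
  · rw [fderiv_th, ContinuousLinearMap.isSelfAdjoint_iff_isSymmetric]
    intro v w
    exact Dth_symm hH h u v w

/-- **pointwise lower bound of the left side.** -/
theorem le_Lhs (hφ : Cut H K Λ φ) (hH : H ∈ G m k) (hτ : 0 < τ) (hh : 0 < h)
    {q : (Euc k × L k) × (Euc k × L k)} (h1 : q.1.2 ∈ G m k) (h2 : q.2.2 ∈ G m k) :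
    (open Classical in if φ q.1.1 = 1 ∧ φ q.2.1 = 1 ∧ ‖H (q.1.1 - q.2.1)‖ ≤ τ / 2 ∧
        ‖(q.1.1 - q.2.1) - H (q.1.1 - q.2.1)‖ ≤ h then
      3 / 16 * (mx H q.1.2 q.2.2 + vv H q.1.2 + vv H q.2.2) else 0)
      ≤ Lhs H (ww H τ φ) (th H h) q := by
  unfold Lhs Sq
  rw [fderiv_th]
  have hw0 : 0 ≤ ww H τ φ q.1.1 q.2.1 :=
    mul_nonneg (mul_nonneg (hφ.nonneg _) (hφ.nonneg _)) (kap_nonneg H τ _)
  split_ifs with hn
  · obtain ⟨hx, hy, hxy, hv⟩ := hn
    have h3 := quad_ge hH h1 h2 (A := Dth H h (q.1.1 - q.2.1)) (c := 1 / 3)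
      (fun v => third_le hH hh hv v)
    have h4 : 9 / 16 ≤ ww H τ φ q.1.1 q.2.1 := by
      unfold ww
      rw [hx, hy, one_mul, one_mul]
      exact le_kap hτ hxy
    have h5 : 0 ≤ mx H q.1.2 q.2.2 + vv H q.1.2 + vv H q.2.2 :=
      add_nonneg (add_nonneg (mx_nonneg _ _ _) (vv_nonneg _ _)) (vv_nonneg _ _)
    calc 3 / 16 * (mx H q.1.2 q.2.2 + vv H q.1.2 + vv H q.2.2)
        = 9 / 16 * (1 / 3 * (mx H q.1.2 q.2.2 + vv H q.1.2 + vv H q.2.2)) := by ring
      _ ≤ _ := mul_le_mul h4 h3 (by positivity) hw0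
  · refine mul_nonneg hw0 ?_
    have h3 := quad_ge hH h1 h2 (A := Dth H h (q.1.1 - q.2.1)) (c := 0)
      (fun v => by rw [zero_mul]; exact Dth_nonneg hH hh _ v)
    rw [zero_mul] at h3
    exact h3

end Crest.Agent.R234.Pair3_762
end
end

-- ▼ part R234/Pair4_762
section

/-!
Row 234 (helper762), VF-PAIR-Q, file 4: the energy inequality (quantitative form of the pair
identity; 504's (DV)): integrals.
-/

set_option autoImplicit false

open MeasureTheory Crest.GeometryTopology.Submanifold Filter Topology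
open scoped ENNReal InnerProductSpace

noncomputable section

namespace Crest.Agent.R234.Pair4_762

open Crest.Agent.R234.Vf_884 Crest.Agent.R234.In_947 Crest.Agent.R234.Pt_615
  Crest.Agent.R234.Pair2_762 Crest.Agent.R234.Pair3_762

variable {m k : ℕ}

/-! ### real analysis -/

theorem le_sqrt_of_forall {X e v : ℝ} (he : 0 ≤ e) (hv : 0 ≤ v)
    (h : ∀ l : ℝ, 0 < l → 2 * X ≤ l * e + v / l) : X ≤ √(e * v) := by
  by_contra hcon
  have hX : √(e * v) < X := not_le.1 hcon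
  have hX0 : 0 < X := lt_of_le_of_lt (Real.sqrt_nonneg _) hX
  have hX2 : e * v < X ^ 2 := by
    rw [← Real.sqrt_lt' hX0]; exact hX
  rcases eq_or_lt_of_le he with he0 | he0
  · have h1 := h ((v + 1) / X) (by positivity)
    rw [← he0, mul_zero, zero_add, div_div_eq_mul_div, le_div_iff₀ (by positivity)] at h1
    nlinarith
  · have h1 := h (X / e) (by positivity)
    rw [div_mul_cancel₀ _ he0.ne', div_div_eq_mul_div] at h1
    have h2 : X ≤ v * e / X := by linarith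
    rw [le_div_iff₀ hX0] at h2
    nlinarith

/-! ### the energy inequality -/

section

variable {H : L k} {K : Set (Euc k)} {Λ τ h M σ : ℝ} {φ : Euc k → ℝ}
  {V : Measure (Euc k × L k)}

/-- the region `{φ ≠ 0}` of phase space. -/
def S0 (φ : Euc k → ℝ) : Set (Euc k × L k) := {z | φ z.1 ≠ 0}

/-- the points interacting with `x`. -/
def nb (H : L k) (τ : ℝ) (φ : Euc k → ℝ) (x : Euc k) : Set (Euc k × L k) :=
  {z' | near H τ φ x z'.1}

theorem isOpen_S0 (hφ : Continuous φ) : IsOpen (S0 φ) :=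
  isOpen_ne_fun (hφ.comp continuous_fst) continuous_const

theorem isOpen_near (hφ : Continuous φ) :
    IsOpen {q : (Euc k × L k) × (Euc k × L k) | near H τ φ q.1.1 q.2.1} := by
  have h1 : IsOpen {q : (Euc k × L k) × (Euc k × L k) | φ q.1.1 ≠ 0} :=
    isOpen_ne_fun (hφ.comp (by fun_prop)) continuous_const
  have h2 : IsOpen {q : (Euc k × L k) × (Euc k × L k) | φ q.2.1 ≠ 0} :=
    isOpen_ne_fun (hφ.comp (by fun_prop)) continuous_const
  have h3 : IsOpen {q : (Euc k × L k) × (Euc k × L k) | ‖H (q.1.1 - q.2.1)‖ < τ} :=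
    isOpen_lt (by fun_prop) continuous_const
  exact h1.inter (h2.inter h3)

theorem isOpen_nb (hφ : Continuous φ) (x : Euc k) : IsOpen (nb H τ φ x) := by
  have h1 : IsOpen {q : Euc k × L k | φ x ≠ 0} := isOpen_const
  have h2 : IsOpen {q : Euc k × L k | φ q.1 ≠ 0} :=
    isOpen_ne_fun (hφ.comp continuous_fst) continuous_const
  have h3 : IsOpen {q : Euc k × L k | ‖H (x - q.1)‖ < τ} :=
    isOpen_lt (by fun_prop) continuous_const
  exact h1.inter (h2.inter h3)

theorem near_symm {x y : Euc k} : near H τ φ x y ↔ near H τ φ y x := by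
  unfold near
  rw [← neg_sub x y, map_neg, norm_neg]
  tauto

theorem nb_eq_empty {x : Euc k} (hx : φ x = 0) : nb H τ φ x = ∅ := by
  ext z
  simp [nb, near, hx]

theorem continuous_tilt_snd (H : L k) : Continuous fun z : Euc k × L k => tilt H z.2 :=
  (continuous_tilt H).comp continuous_snd

/-- continuous functions are integrable. -/
theorem integrable_one [IsFiniteMeasure V] (hV : HBase m V) {f : Euc k × L k → ℝ}
    (hf : Continuous f) : Integrable f V := by
  obtain ⟨R, hR⟩ := hV.bdd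
  have hCc : IsCompact (Metric.closedBall (0 : Euc k) R ×ˢ G m k) :=
    (isCompact_closedBall _ _).prod (isCompact_G m k)
  obtain ⟨B, hB⟩ := hCc.exists_bound_of_continuousOn hf.continuousOn
  refine Integrable.of_bound (C := B) (hf.aestronglyMeasurable) ?_
  filter_upwards [hR, hV.conc] with p h1 h2
  exact hB p ⟨by simpa using h1, h2⟩

/-- the pairs that interact. -/
def NN (H : L k) (τ : ℝ) (φ : Euc k → ℝ) : Set ((Euc k × L k) × (Euc k × L k)) :=
  {q | near H τ φ q.1.1 q.2.1}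

/-- the bound of the flux. -/
def gg (H : L k) (h Λ τ : ℝ) (q : (Euc k × L k) × (Euc k × L k)) : ℝ :=
  h * (3 * Λ * √(tilt H q.1.2) + 4 / τ * (√(tilt H q.1.2) * tilt H q.2.2))

/-- the flux integral: the bound of `∫∫ 1_near h (3 Λ √t + (4/τ) √t t')`. -/
theorem flux_int_le [IsFiniteMeasure V] (hV : HBase m V) (hH : H ∈ G m k) (hφ : Continuous φ)
    (hΛ : 0 ≤ Λ) (hτ : 0 < τ) (hh : 0 < h) (hM0 : 0 < M) (hσ0 : 0 < σ)
    (hM : ∀ᵐ z ∂V, V.real (nb H τ φ z.1) ≤ M * τ ^ m)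
    (hσ : ∀ᵐ z ∂V, ∫ z' in nb H τ φ z.1, tilt H z'.2 ∂V ≤ σ ^ 2 * τ ^ m) :
    ∫ q, (NN H τ φ).indicator (gg H h Λ τ) q ∂(V.prod V)
      ≤ h * τ ^ m * (3 * Λ * M * √((∫ z in S0 φ, tilt H z.2 ∂V) * V.real (S0 φ))
        + 4 / τ * (σ * √M * ∫ z in S0 φ, tilt H z.2 ∂V)) := by
  classical
  have hτm : 0 < τ ^ m := pow_pos hτ m
  set t : Euc k × L k → ℝ := fun z => tilt H z.2 with ht
  set e := ∫ z in S0 φ, t z ∂V with he
  have htc : Continuous t := continuous_tilt_snd H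
  have hti : Integrable t V := integrable_one hV htc
  have hsc : Continuous fun z => √(t z) := htc.sqrt
  have hsi : Integrable (fun z => √(t z)) V := integrable_one hV hsc
  have ht0 : ∀ᵐ z ∂V, 0 ≤ t z := by
    filter_upwards [hV.conc] with z hz
    exact tilt_nonneg hH hz
  have hS0 : MeasurableSet (S0 φ : Set (Euc k × L k)) := (isOpen_S0 hφ).measurableSet
  have he0 : 0 ≤ e := setIntegral_nonneg_of_ae (by
    filter_upwards [ht0] with z hz using hz)
  set N : Set ((Euc k × L k) × (Euc k × L k)) := {q | near H τ φ q.1.1 q.2.1} with hN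
  have hNm : MeasurableSet N := (isOpen_near hφ).measurableSet
  have hind : ∀ (g : (Euc k × L k) × (Euc k × L k) → ℝ) (z z' : Euc k × L k),
      N.indicator g (z, z') = (nb H τ φ z.1).indicator (fun z' => g (z, z')) z' :=
    fun g z z' => rfl
  have hindint : ∀ (g : (Euc k × L k) × (Euc k × L k) → ℝ) (z : Euc k × L k),
      ∫ z', N.indicator g (z, z') ∂V = ∫ z' in nb H τ φ z.1, g (z, z') ∂V := by
    intro g z
    simp only [hind]
    rw [integral_indicator (isOpen_nb hφ z.1).measurableSet]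
  -- the function A
  set A : Euc k × L k → ℝ := fun z => ∫ z' in nb H τ φ z.1, t z' ∂V with hA
  have hi2 : Integrable (N.indicator fun q : (Euc k × L k) × (Euc k × L k) => t q.2)
      (V.prod V) := (integrable_cont hV (htc.comp continuous_snd)).indicator hNm
  have hi1 : Integrable (N.indicator fun q : (Euc k × L k) × (Euc k × L k) => t q.1)
      (V.prod V) := (integrable_cont hV (htc.comp continuous_fst)).indicator hNm
  have hAi : Integrable A V := by
    refine hi2.integral_prod_left.congr (Filter.Eventually.of_forall fun z => ?_)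
    exact hindint _ z
  have hA0 : ∀ z, 0 ≤ A z := fun z => setIntegral_nonneg_of_ae (by
    filter_upwards [ht0] with z hz using hz)
  have hAz : ∀ z : Euc k × L k, φ z.1 = 0 → A z = 0 := fun z hz => by
    simp only [hA]
    rw [nb_eq_empty hz]; simp
  -- ∫ A ≤ M τ^m e
  have hAint : ∫ z, A z ∂V ≤ M * τ ^ m * e := by
    have h1 : ∫ z, A z ∂V = ∫ q, N.indicator (fun q => t q.2) q ∂(V.prod V) := by
      rw [integral_prod _ hi2]
      refine integral_congr_ae (Filter.Eventually.of_forall fun z => ?_)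
      show A z = ∫ z', N.indicator (fun q => t q.2) (z, z') ∂V
      rw [hindint]
    have h2 : ∫ q, N.indicator (fun q => t q.2) q ∂(V.prod V)
        = ∫ q, N.indicator (fun q => t q.1) q ∂(V.prod V) := by
      rw [← integral_prod_swap (N.indicator fun q => t q.1)]
      refine integral_congr_ae (Filter.Eventually.of_forall fun q => ?_)
      show N.indicator (fun q => t q.2) q = N.indicator (fun q => t q.1) q.swap
      by_cases hz : near H τ φ q.1.1 q.2.1
      · rw [Set.indicator_of_mem (show q ∈ N from hz),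
          Set.indicator_of_mem (show q.swap ∈ N from near_symm.1 hz)]
        rfl
      · rw [Set.indicator_of_notMem (show q ∉ N from hz),
          Set.indicator_of_notMem (show q.swap ∉ N from fun h => hz (near_symm.1 h))]
    have h3 : ∫ q, N.indicator (fun q => t q.1) q ∂(V.prod V)
        = ∫ z, t z * V.real (nb H τ φ z.1) ∂V := by
      rw [integral_prod _ hi1]
      refine integral_congr_ae (Filter.Eventually.of_forall fun z => ?_)
      show ∫ z', N.indicator (fun q => t q.1) (z, z') ∂V = t z * V.real (nb H τ φ z.1)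
      rw [hindint]
      simp only
      rw [setIntegral_const, smul_eq_mul, mul_comm]
    rw [h1, h2, h3]
    have h5 : ∀ᵐ z ∂V, t z * V.real (nb H τ φ z.1)
        ≤ M * τ ^ m * (S0 φ).indicator t z := by
      filter_upwards [hM, ht0] with z h1 h2
      by_cases hz : φ z.1 = 0
      · rw [nb_eq_empty hz, measureReal_empty, mul_zero,
          Set.indicator_of_notMem (show z ∉ S0 φ from fun h => h hz), mul_zero]
      · rw [Set.indicator_of_mem (show z ∈ S0 φ from hz), mul_comm]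
        exact mul_le_mul_of_nonneg_right h1 h2
    have h6 : Integrable (fun z => M * τ ^ m * (S0 φ).indicator t z) V :=
      (hti.indicator hS0).const_mul _
    have h7 : ∫ z, M * τ ^ m * (S0 φ).indicator t z ∂V = M * τ ^ m * e := by
      rw [integral_const_mul, integral_indicator hS0]
    rw [← h7]
    refine integral_mono_of_nonneg ?_ h6 h5
    filter_upwards [ht0] with z hz
    exact mul_nonneg hz measureReal_nonneg
  -- the square root term
  have hsq : ∫ z in S0 φ, √(t z) ∂V ≤ √(e * V.real (S0 φ)) := by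
    refine le_sqrt_of_forall he0 measureReal_nonneg fun l hl => ?_
    have h1 : ∫ z in S0 φ, 2 * √(t z) ∂V ≤ ∫ z in S0 φ, (l * t z + 1 / l) ∂V := by
      refine integral_mono_ae (hsi.restrict.const_mul 2)
        ((hti.restrict.const_mul l).add (integrable_const _)) ?_
      filter_upwards [ae_restrict_of_ae ht0] with z hz
      have h2 := Real.sq_sqrt hz
      have h3 : 0 ≤ (l * √(t z) - 1) ^ 2 := sq_nonneg _
      have h4 : 2 * √(t z) * l ≤ (l * t z + 1 / l) * l := by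
        have : (l * t z + 1 / l) * l = l ^ 2 * t z + 1 := by field_simp
        rw [this]
        nlinarith
      exact le_of_mul_le_mul_right h4 hl
    rw [integral_const_mul, integral_add (hti.restrict.const_mul l) (integrable_const _),
      integral_const_mul, integral_const] at h1
    simp only [measureReal_restrict_apply_univ, smul_eq_mul] at h1
    rw [mul_one_div] at h1
    exact h1
  -- the cubic term
  have hcub : ∫ z, √(t z) * A z ∂V ≤ σ * √M * τ ^ m * e := by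
    set l := σ * √M * τ ^ m with hl
    have hl0 : 0 < l := by positivity
    have h1 : ∫ z, √(t z) * A z ∂V
        ≤ ∫ z, (l / 2 * (S0 φ).indicator t z + σ ^ 2 * τ ^ m / (2 * l) * A z) ∂V := by
      refine integral_mono_of_nonneg ?_
        (((hti.indicator hS0).const_mul _).add (hAi.const_mul _)) ?_
      · exact Filter.Eventually.of_forall fun z => mul_nonneg (Real.sqrt_nonneg _) (hA0 z)
      filter_upwards [ht0, hσ] with z h2 h3
      by_cases hz : φ z.1 = 0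
      · rw [hAz z hz, Set.indicator_of_notMem (show z ∉ S0 φ from fun h => h hz)]
        simp
      · rw [Set.indicator_of_mem (show z ∈ S0 φ from hz)]
        have h4 := Real.sq_sqrt h2
        have h5 : A z * A z ≤ σ ^ 2 * τ ^ m * A z := mul_le_mul_of_nonneg_right h3 (hA0 z)
        have h6 : 0 ≤ (l * √(t z) - A z) ^ 2 := sq_nonneg _
        have h7 : (√(t z) * A z) * (2 * l)
            ≤ (l / 2 * t z + σ ^ 2 * τ ^ m / (2 * l) * A z) * (2 * l) := by
          have e1 : (l / 2 * t z + σ ^ 2 * τ ^ m / (2 * l) * A z) * (2 * l)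
              = l ^ 2 * t z + σ ^ 2 * τ ^ m * A z := by
            field_simp
          rw [e1]
          nlinarith
        exact le_of_mul_le_mul_right h7 (by positivity)
    refine h1.trans ?_
    rw [integral_add ((hti.indicator hS0).const_mul _) (hAi.const_mul _), integral_const_mul,
      integral_const_mul, integral_indicator hS0, ← he]
    have h8 : σ ^ 2 * τ ^ m / (2 * l) * ∫ z, A z ∂V ≤ σ ^ 2 * τ ^ m / (2 * l) * (M * τ ^ m * e) :=
      mul_le_mul_of_nonneg_left hAint (by positivity)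
    have h9 : σ ^ 2 * τ ^ m / (2 * l) * (M * τ ^ m * e) = l / 2 * e := by
      have hMs : √M ^ 2 = M := Real.sq_sqrt hM0.le
      have e2 : σ ^ 2 * τ ^ m * (M * τ ^ m) = l ^ 2 := by
        rw [hl]
        calc σ ^ 2 * τ ^ m * (M * τ ^ m) = σ ^ 2 * τ ^ m * (√M ^ 2 * τ ^ m) := by rw [hMs]
          _ = _ := by ring
      calc σ ^ 2 * τ ^ m / (2 * l) * (M * τ ^ m * e)
          = (σ ^ 2 * τ ^ m * (M * τ ^ m)) * e / (2 * l) := by ring
        _ = l / 2 * e := by rw [e2]; field_simp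
    linarith
  -- assembly
  set g : (Euc k × L k) × (Euc k × L k) → ℝ := fun q =>
    h * (3 * Λ * √(t q.1) + 4 / τ * (√(t q.1) * t q.2)) with hg
  have hgc : Continuous g := by
    have c1 : Continuous fun q : (Euc k × L k) × (Euc k × L k) => √(t q.1) :=
      hsc.comp continuous_fst
    have c2 : Continuous fun q : (Euc k × L k) × (Euc k × L k) => t q.2 :=
      htc.comp continuous_snd
    exact continuous_const.mul ((continuous_const.mul c1).add (continuous_const.mul (c1.mul c2)))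
  have hgi : Integrable (N.indicator g) (V.prod V) := (integrable_cont hV hgc).indicator hNm
  have h1 : ∫ q, (NN H τ φ).indicator (gg H h Λ τ) q
        ∂(V.prod V) = ∫ z, (h * (3 * Λ * (√(t z) * V.real (nb H τ φ z.1))
          + 4 / τ * (√(t z) * A z))) ∂V := by
    have h2 : ∫ q, (NN H τ φ).indicator (gg H h Λ τ) q ∂(V.prod V)
        = ∫ q, N.indicator g q ∂(V.prod V) := rfl
    rw [h2, integral_prod _ hgi]
    refine integral_congr_ae (Filter.Eventually.of_forall fun z => ?_)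
    show ∫ z', N.indicator g (z, z') ∂V = _
    rw [hindint]
    simp only [hg]
    rw [integral_const_mul, integral_add (integrable_const _)
      ((hti.restrict.const_mul _).const_mul _), setIntegral_const, integral_const_mul,
      integral_const_mul, smul_eq_mul]
    ring
  rw [h1]
  have hb : ∀ᵐ z ∂V, h * (3 * Λ * (√(t z) * V.real (nb H τ φ z.1)) + 4 / τ * (√(t z) * A z))
      ≤ h * (3 * Λ * (M * τ ^ m * (S0 φ).indicator (fun z => √(t z)) z)
        + 4 / τ * (√(t z) * A z)) := by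
    filter_upwards [hM] with z hz1
    refine mul_le_mul_of_nonneg_left ?_ hh.le
    refine add_le_add ?_ le_rfl
    refine mul_le_mul_of_nonneg_left ?_ (by positivity)
    by_cases hz : φ z.1 = 0
    · rw [nb_eq_empty hz, measureReal_empty, mul_zero,
        Set.indicator_of_notMem (show z ∉ S0 φ from fun h => h hz), mul_zero]
    · rw [Set.indicator_of_mem (show z ∈ S0 φ from hz), mul_comm]
      exact mul_le_mul_of_nonneg_right hz1 (Real.sqrt_nonneg _)
  have hsAi : Integrable (fun z => √(t z) * A z) V := by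
    have hi3 : Integrable (N.indicator fun q : (Euc k × L k) × (Euc k × L k) => √(t q.1) * t q.2)
        (V.prod V) := (integrable_cont hV
          ((hsc.comp continuous_fst).mul (htc.comp continuous_snd))).indicator hNm
    refine hi3.integral_prod_left.congr (Filter.Eventually.of_forall fun z => ?_)
    show ∫ z', N.indicator (fun q => √(t q.1) * t q.2) (z, z') ∂V = _
    rw [hindint]
    simp only
    rw [integral_const_mul]
  have hri : Integrable (fun z => h * (3 * Λ * (M * τ ^ m * (S0 φ).indicator (fun z => √(t z)) z)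
        + 4 / τ * (√(t z) * A z))) V :=
    ((((hsi.indicator hS0).const_mul _).const_mul _).add (hsAi.const_mul _)).const_mul _
  refine (integral_mono_of_nonneg (Filter.Eventually.of_forall fun z => ?_) hri hb).trans ?_
  · have := hA0 z
    have h2 : 0 ≤ V.real (nb H τ φ z.1) := measureReal_nonneg
    have h3 := Real.sqrt_nonneg (t z)
    show (0 : ℝ) ≤ _
    positivity
  rw [integral_const_mul, integral_add (((hsi.indicator hS0).const_mul _).const_mul _)
    (hsAi.const_mul _), integral_const_mul, integral_const_mul, integral_const_mul,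
    integral_indicator hS0]
  have hf1 : 3 * Λ * (M * τ ^ m * ∫ z in S0 φ, √(t z) ∂V)
      ≤ 3 * Λ * (M * τ ^ m * √(e * V.real (S0 φ))) := by
    gcongr
  have hf2 : 4 / τ * ∫ z, √(t z) * A z ∂V ≤ 4 / τ * (σ * √M * τ ^ m * e) := by
    gcongr
  calc h * (3 * Λ * (M * τ ^ m * ∫ z in S0 φ, √(t z) ∂V) + 4 / τ * ∫ z, √(t z) * A z ∂V)
      ≤ h * (3 * Λ * (M * τ ^ m * √(e * V.real (S0 φ))) + 4 / τ * (σ * √M * τ ^ m * e)) := by
        gcongr
    _ = _ := by ring

end

end Crest.Agent.R234.Pair4_762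
end
end

-- ▼ part R234/Pair5_762
section

/-!
Row 234 (helper762), VF-PAIR-Q, file 5: the energy of the `(h, τ)`-small points.
-/

set_option autoImplicit false

open MeasureTheory Crest.GeometryTopology.Submanifold Filter Topology
open scoped ENNReal InnerProductSpace

noncomputable section

namespace Crest.Agent.R234.Pair5_762

open Crest.Agent.R234.Vf_884 Crest.Agent.R234.In_947 Crest.Agent.R234.Pt_615
  Crest.Agent.R234.Pair2_762 Crest.Agent.R234.Pair3_762 Crest.Agent.R234.Pair4_762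

variable {m k : ℕ} {H : L k} {K : Set (Euc k)} {Λ τ h M σ c : ℝ} {φ : Euc k → ℝ}
  {V : Measure (Euc k × L k)}

/-- the right side of the estimates:
`h (3 Λ M √(e vol) + (4/τ) σ √M e)`, `e`, `vol` = tilt energy and mass of `{φ ≠ 0}`. -/
def rhs (H : L k) (V : Measure (Euc k × L k)) (φ : Euc k → ℝ) (h τ Λ M σ : ℝ) : ℝ :=
  h * (3 * Λ * M * √((∫ z in S0 φ, tilt H z.2 ∂V) * V.real (S0 φ))
        + 4 / τ * (σ * √M * ∫ z in S0 φ, tilt H z.2 ∂V))

/-- the defect of stationarity against the two families of pair fields. -/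
def err (H : L k) (V : Measure (Euc k × L k)) (φ : Euc k → ℝ) (h τ : ℝ) : ℝ :=
  ∫ z', FV V (Xf (ww H τ φ) (th H h) z') ∂V + ∫ z, FV V (Yf H (ww H τ φ) (th H h) z) ∂V

/-- **The energy inequality**, general `V`. -/
theorem energy_fv [IsFiniteMeasure V] (hV : HBase m V) (hH : H ∈ G m k) (hφ : Cut H K Λ φ)
    (hτ : 0 < τ) (hh : 0 < h) (hM0 : 0 < M) (hσ0 : 0 < σ)
    (hM : ∀ᵐ z ∂V, V.real (nb H τ φ z.1) ≤ M * τ ^ m)
    (hσ : ∀ᵐ z ∂V, ∫ z' in nb H τ φ z.1, tilt H z'.2 ∂V ≤ σ ^ 2 * τ ^ m) :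
    ∫ q, Lhs H (ww H τ φ) (th H h) q ∂(V.prod V)
      ≤ 2 * τ ^ m * rhs H V φ h τ Λ M σ + 2 * |err H V φ h τ| := by
  have hHH := G_idem_apply hH
  have hw := ker_ww (τ := τ) hφ hHH
  have hψ := vert_th (h := h) hH
  have h1 := ptov_fv hV (G_idem hH) hw hψ
  have h2 := flux_int_le (φ := φ) hV hH hφ.smooth.continuous hφ.nonneg_lip hτ hh hM0 hσ0 hM hσ
  have iC := integrable_cont hV (continuous_Rcut hw hψ)
  have iB := integrable_cont hV (continuous_Rcub hw hψ)
  have hgc : Continuous (gg H h Λ τ) := by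
    have hsc : Continuous fun z : Euc k × L k => √(tilt H z.2) := (continuous_tilt_snd H).sqrt
    exact continuous_const.mul ((continuous_const.mul (hsc.comp continuous_fst)).add
      (continuous_const.mul ((hsc.comp continuous_fst).mul
        ((continuous_tilt_snd H).comp continuous_snd))))
  have iG : Integrable ((NN H τ φ).indicator (gg H h Λ τ)) (V.prod V) :=
    (integrable_cont hV hgc).indicator (isOpen_near hφ.smooth.continuous).measurableSet
  have h3 : ∫ q, (|Rcut H (ww H τ φ) (th H h) q| + |Rcub H (ww H τ φ) (th H h) q|) ∂(V.prod V)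
      ≤ ∫ q, (NN H τ φ).indicator (gg H h Λ τ) q ∂(V.prod V) := by
    refine integral_mono_ae (iC.abs.add iB.abs) iG ?_
    have hc1 : ∀ᵐ q ∂(V.prod V), q.1.2 ∈ G m k :=
      Measure.quasiMeasurePreserving_fst.ae hV.conc
    have hc2 : ∀ᵐ q ∂(V.prod V), q.2.2 ∈ G m k :=
      Measure.quasiMeasurePreserving_snd.ae hV.conc
    filter_upwards [hc1, hc2] with q g1 g2
    refine (flux_le hφ hH hτ hh g1 g2).trans (le_of_eq ?_)
    by_cases hz : near H τ φ q.1.1 q.2.1
    · rw [Set.indicator_of_mem (show q ∈ NN H τ φ from hz), if_pos hz, gg]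
    · rw [Set.indicator_of_notMem (show q ∉ NN H τ φ from hz), if_neg hz]
  rw [integral_add iC.abs iB.abs] at h3
  have h4 : |∫ q, Rcut H (ww H τ φ) (th H h) q ∂(V.prod V)|
      ≤ ∫ q, |Rcut H (ww H τ φ) (th H h) q| ∂(V.prod V) := abs_integral_le_integral_abs
  have h5 : |∫ q, Rcub H (ww H τ φ) (th H h) q ∂(V.prod V)|
      ≤ ∫ q, |Rcub H (ww H τ φ) (th H h) q| ∂(V.prod V) := abs_integral_le_integral_abs
  have h6 : h * τ ^ m * (3 * Λ * M * √((∫ z in S0 φ, tilt H z.2 ∂V) * V.real (S0 φ))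
        + 4 / τ * (σ * √M * ∫ z in S0 φ, tilt H z.2 ∂V)) = τ ^ m * rhs H V φ h τ Λ M σ := by
    unfold rhs; ring
  rw [h6] at h2
  have h7 := neg_abs_le (∫ q, Rcut H (ww H τ φ) (th H h) q ∂(V.prod V))
  have h8 := le_abs_self (∫ q, Rcub H (ww H τ φ) (th H h) q ∂(V.prod V))
  have h9 := le_abs_self (err H V φ h τ)
  unfold err at h9 ⊢
  linarith

/-- **The energy inequality**, stationary `V`. -/
theorem energy [IsFiniteMeasure V] (hV : HStat m H K V) (hH : H ∈ G m k) (hφ : Cut H K Λ φ)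
    (hτ : 0 < τ) (hh : 0 < h) (hM0 : 0 < M) (hσ0 : 0 < σ)
    (hM : ∀ᵐ z ∂V, V.real (nb H τ φ z.1) ≤ M * τ ^ m)
    (hσ : ∀ᵐ z ∂V, ∫ z' in nb H τ φ z.1, tilt H z'.2 ∂V ≤ σ ^ 2 * τ ^ m) :
    ∫ q, Lhs H (ww H τ φ) (th H h) q ∂(V.prod V) ≤ 2 * τ ^ m * rhs H V φ h τ Λ M σ := by
  have h1 := energy_fv hV.toHBase hH hφ hτ hh hM0 hσ0 hM hσ
  have hHH := G_idem_apply hH
  have hw := ker_ww (τ := τ) hφ hHH
  have hψ := vert_th (h := h) hH
  have h2 : err H V φ h τ = 0 := by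
    unfold err
    have h3 : ∀ z', FV V (Xf (ww H τ φ) (th H h) z') = 0 := fun z' =>
      hV.stat _ (contDiff_Xf hw hψ z') (Xf_supp hw z')
    have h4 : ∀ z, FV V (Yf H (ww H τ φ) (th H h) z) = 0 := fun z =>
      hV.stat _ (contDiff_Yf hw hψ z) (Yf_supp hw z)
    simp only [h3, h4, integral_zero, add_zero]
  rw [h2, abs_zero, mul_zero, add_zero] at h1
  exact h1

/-- a pair of points seen by the truncation: both in `{φ = 1}`, horizontally `τ/2`-close,
vertically `h`-close. -/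
def close (H : L k) (h τ : ℝ) (φ : Euc k → ℝ) (x y : Euc k) : Prop :=
  φ x = 1 ∧ φ y = 1 ∧ ‖H (x - y)‖ ≤ τ / 2 ∧ ‖(x - y) - H (x - y)‖ ≤ h

/-- lower bound of the left side by any nonnegative function `f` of the first point which is
`≤ |q(S-S')p|² + |qSq|² + |qS'q|²` on a set `P` of close pairs. -/
theorem lower_gen [IsFiniteMeasure V] (hV : HBase m V) (hH : H ∈ G m k) (hφ : Cut H K Λ φ)
    (hτ : 0 < τ) (hh : 0 < h) {P : Set ((Euc k × L k) × (Euc k × L k))} (hP : MeasurableSet P)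
    {A : Set (Euc k × L k)} (hA : MeasurableSet A) {f : Euc k × L k → ℝ} (hf : Continuous f)
    (hf0 : ∀ᵐ z ∂V, 0 ≤ f z)
    (hPc : ∀ q ∈ P, q.1.2 ∈ G m k → q.2.2 ∈ G m k → close H h τ φ q.1.1 q.2.1 ∧
      f q.1 ≤ mx H q.1.2 q.2.2 + vv H q.1.2 + vv H q.2.2)
    (hc : ∀ᵐ z ∂V, z ∈ A → c * τ ^ m ≤ V.real {z' | (z, z') ∈ P}) :
    3 / 16 * (c * τ ^ m) * ∫ z in A, f z ∂V
      ≤ ∫ q, Lhs H (ww H τ φ) (th H h) q ∂(V.prod V) := by
  have hHH := G_idem_apply hH
  have hw := ker_ww (τ := τ) hφ hHH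
  have hψ := vert_th (h := h) hH
  have iL := integrable_cont hV (continuous_Lhs hw hψ)
  have iP : Integrable (P.indicator fun q : (Euc k × L k) × (Euc k × L k) => 3 / 16 * f q.1)
      (V.prod V) :=
    (integrable_cont hV (continuous_const.mul (hf.comp continuous_fst))).indicator hP
  have hc1 : ∀ᵐ q ∂(V.prod V), q.1.2 ∈ G m k :=
    Measure.quasiMeasurePreserving_fst.ae hV.conc
  have hc2 : ∀ᵐ q ∂(V.prod V), q.2.2 ∈ G m k :=
    Measure.quasiMeasurePreserving_snd.ae hV.conc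
  have h1 : ∫ q, P.indicator (fun q : (Euc k × L k) × (Euc k × L k) => 3 / 16 * f q.1) q
      ∂(V.prod V) ≤ ∫ q, Lhs H (ww H τ φ) (th H h) q ∂(V.prod V) := by
    refine integral_mono_ae iP iL ?_
    filter_upwards [hc1, hc2] with q g1 g2
    refine le_trans ?_ (le_Lhs hφ hH hτ hh g1 g2)
    by_cases hq : q ∈ P
    · obtain ⟨h3, h4⟩ := hPc q hq g1 g2
      rw [Set.indicator_of_mem hq, if_pos (show φ q.1.1 = 1 ∧ φ q.2.1 = 1 ∧
        ‖H (q.1.1 - q.2.1)‖ ≤ τ / 2 ∧ ‖(q.1.1 - q.2.1) - H (q.1.1 - q.2.1)‖ ≤ h from h3)]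
      linarith
    · rw [Set.indicator_of_notMem hq]
      split_ifs
      · have := mx_nonneg H q.1.2 q.2.2
        have := vv_nonneg H q.1.2
        have := vv_nonneg H q.2.2
        positivity
      · exact le_rfl
  refine le_trans ?_ h1
  rw [integral_prod _ iP]
  have h2 : ∀ z, ∫ z', P.indicator (fun q : (Euc k × L k) × (Euc k × L k) => 3 / 16 * f q.1)
      (z, z') ∂V = V.real {z' | (z, z') ∈ P} * (3 / 16 * f z) := by
    intro z
    have h3 : ∀ z', P.indicator (fun q : (Euc k × L k) × (Euc k × L k) => 3 / 16 * f q.1) (z, z')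
        = {z' | (z, z') ∈ P}.indicator (fun _ => 3 / 16 * f z) z' := fun z' => rfl
    simp_rw [h3]
    have h5 : MeasurableSet {z' | (z, z') ∈ P} := measurable_prodMk_left hP
    rw [integral_indicator h5, setIntegral_const, smul_eq_mul]
  have iR : Integrable (fun z => V.real {z' | (z, z') ∈ P} * (3 / 16 * f z)) V :=
    iP.integral_prod_left.congr (Filter.Eventually.of_forall fun z => h2 z)
  have fi : Integrable f V := integrable_one hV hf
  have h4 : 3 / 16 * (c * τ ^ m) * ∫ z in A, f z ∂V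
      = ∫ z, A.indicator (fun z => 3 / 16 * (c * τ ^ m) * f z) z ∂V := by
    rw [integral_indicator hA, integral_const_mul]
  rw [h4]
  have h5 : ∫ z, (∫ z', P.indicator (fun q : (Euc k × L k) × (Euc k × L k) => 3 / 16 * f q.1)
      (z, z') ∂V) ∂V = ∫ z, V.real {z' | (z, z') ∈ P} * (3 / 16 * f z) ∂V :=
    integral_congr_ae (Filter.Eventually.of_forall fun z => h2 z)
  rw [h5]
  refine integral_mono_ae ((fi.const_mul _).indicator hA) iR ?_
  filter_upwards [hc, hf0] with z g1 g2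
  by_cases hz : z ∈ A
  · rw [Set.indicator_of_mem hz]
    have := mul_le_mul_of_nonneg_right (g1 hz) (mul_nonneg (by norm_num : (0 : ℝ) ≤ 3 / 16) g2)
    linarith
  · rw [Set.indicator_of_notMem hz]
    exact mul_nonneg measureReal_nonneg (mul_nonneg (by norm_num) g2)

theorem measurableSet_close (hφ : Continuous φ) :
    MeasurableSet {q : (Euc k × L k) × (Euc k × L k) | close H h τ φ q.1.1 q.2.1} := by
  have h1 : IsClosed {q : (Euc k × L k) × (Euc k × L k) | φ q.1.1 = 1} :=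
    isClosed_eq (hφ.comp (by fun_prop)) continuous_const
  have h2 : IsClosed {q : (Euc k × L k) × (Euc k × L k) | φ q.2.1 = 1} :=
    isClosed_eq (hφ.comp (by fun_prop)) continuous_const
  have h3 : IsClosed {q : (Euc k × L k) × (Euc k × L k) | ‖H (q.1.1 - q.2.1)‖ ≤ τ / 2} :=
    isClosed_le (by fun_prop) continuous_const
  have h4 : IsClosed {q : (Euc k × L k) × (Euc k × L k) |
      ‖(q.1.1 - q.2.1) - H (q.1.1 - q.2.1)‖ ≤ h} := isClosed_le (by fun_prop) continuous_const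
  exact (h1.inter (h2.inter (h3.inter h4))).measurableSet

theorem div_aux {a b c t : ℝ} (hc : 0 < c) (ht : 0 < t) (h : 3 / 16 * (c * t) * a ≤ 2 * t * b) :
    a ≤ 32 / 3 / c * b := by
  have h1 : (3 / 16 * c * a) * t ≤ (2 * b) * t := by linarith
  have h2 := le_of_mul_le_mul_right h1 ht
  have h3 : 32 / 3 / c * b = (2 * b) * (16 / 3 / c) := by ring
  have h4 : a = (3 / 16 * c * a) * (16 / 3 / c) := by field_simp
  rw [h3, h4]
  exact mul_le_mul_of_nonneg_right h2 (by positivity)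



end Crest.Agent.R234.Pair5_762
end
end

-- ▼ part R234/Pair6_762

/-!
Row 234 (helper762), VF-PAIR-Q, file 6: the quantitative pair inequality in the language of
helper870 (cylinders `CylStat`, tilt `tl`), in the form used by the hole lemma (helper746).
-/

set_option autoImplicit false

open MeasureTheory Crest.GeometryTopology.Submanifold Filter Topology Set
open scoped ENNReal InnerProductSpace

noncomputable section

namespace Crest.Agent.R234.Pair6_762

open Crest.Agent.R234.Vf_884 Crest.Agent.R234.In_947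
  Crest.Agent.R234.Pair2_762 Crest.Agent.R234.Pair3_762 Crest.Agent.R234.Pair4_762
  Crest.Agent.R234.Pair5_762 Crest.Agent.R234.Ar_870
open Crest.Agent.R234.Cy_870 (Split CylStat Shh)

variable {m n k : ℕ} {π : Euc k →L[ℝ] Euc m} {κ : Euc k →L[ℝ] Euc n}

/-- the horizontal projection. -/
def hp (π : Euc k →L[ℝ] Euc m) : L k := ContinuousLinearMap.adjoint π ∘L π

theorem pi_hp (hs : Split π κ) (u : Euc k) : π (hp π u) = π u :=
  congrArg (fun T : L m => T (π u)) hs.hh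

theorem norm_hp (hs : Split π κ) (u : Euc k) : ‖hp π u‖ = ‖π u‖ := norm_adjoint_co hs.hh _

theorem norm_sub_hp (hs : Split π κ) (u : Euc k) : ‖u - hp π u‖ = ‖κ u‖ := by
  have h1 : u - hp π u = ContinuousLinearMap.adjoint κ (κ u) := by
    have : hp π u + ContinuousLinearMap.adjoint κ (κ u) = u :=
      congrArg (fun T : L k => T u) hs.sum
    rw [sub_eq_iff_eq_add, add_comm]
    exact this.symm
  rw [h1]
  exact norm_adjoint_co hs.vv _

theorem hp_mem_G (hs : Split π κ) : hp π ∈ G m k := by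
  refine ⟨?_, ?_, ?_⟩
  · ext1 u
    show ContinuousLinearMap.adjoint π (π (hp π u)) = _
    rw [pi_hp hs]; rfl
  · rw [ContinuousLinearMap.isSelfAdjoint_iff']
    unfold hp
    rw [ContinuousLinearMap.adjoint_comp, ContinuousLinearMap.adjoint_adjoint]
  · unfold hp
    rw [Cy_870.tr_cyc, hs.hh, tr_one]

theorem tilt_eq_tl (π : Euc k →L[ℝ] Euc m) {S : L k} (hS : S ∈ G m k) : tilt (hp π) S = tl π S := by
  have h1 : tr (hp π ∘L S) = tr (Shh π S) := by
    unfold hp Shh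
    rw [ContinuousLinearMap.comp_assoc, Cy_870.tr_cyc, ContinuousLinearMap.comp_assoc]
  rw [Cy_870.tl_eq, tilt, h1, hS.2.2]

/-- finite measures over a bounded cylinder (no stationarity). -/
structure CylBase (W : Measure (Euc k × L k)) (π : Euc k →L[ℝ] Euc m) (κ : Euc k →L[ℝ] Euc n) :
    Prop where
  sp : Split π κ
  base : Pt_615.HBase m W



/-! ### the cut-off -/

/-- the profile: `1` on `[0, 9/4]`, `0` on `[4, ∞)`. -/
def ct (s : ℝ) : ℝ := pp (1 - pp (s - 9 / 4) * (16 / 49))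

theorem ct_nonneg (s : ℝ) : 0 ≤ ct s := pp_nonneg _

theorem ct_le_one (s : ℝ) : ct s ≤ 1 := by
  refine pp_le_one ?_
  have := pp_nonneg (s - 9 / 4)
  linarith

theorem ct_eq_one {s : ℝ} (hs : s ≤ 9 / 4) : ct s = 1 := by
  unfold ct pp
  rw [max_eq_right (by linarith : s - 9 / 4 ≤ 0)]
  norm_num

theorem ct_eq_zero {s : ℝ} (hs : 4 ≤ s) : ct s = 0 := by
  have h1 : 49 / 16 ≤ pp (s - 9 / 4) := by
    unfold pp
    rw [max_eq_left (by linarith : 0 ≤ s - 9 / 4)]
    nlinarith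
  have h2 : max (1 - pp (s - 9 / 4) * (16 / 49)) 0 = 0 := max_eq_right (by linarith)
  show (max (1 - pp (s - 9 / 4) * (16 / 49)) 0) ^ 2 = 0
  rw [h2]; norm_num

/-- derivative of the profile. -/
def ct' (s : ℝ) : ℝ :=
  2 * max (1 - pp (s - 9 / 4) * (16 / 49)) 0 * (-(2 * max (s - 9 / 4) 0 * (16 / 49)))

theorem hasDerivAt_ct (s : ℝ) : HasDerivAt ct (ct' s) s := by
  have h0 : HasDerivAt (fun s : ℝ => s - 9 / 4) 1 s := (hasDerivAt_id s).sub_const _
  have h1 := ((hasDerivAt_pp (s - 9 / 4)).comp s h0).mul_const (16 / 49)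
  have h2 := h1.const_sub 1
  have h3 := (hasDerivAt_pp (1 - pp (s - 9 / 4) * (16 / 49))).comp s h2
  refine h3.congr_deriv ?_
  unfold ct'
  ring

theorem contDiff_ct : ContDiff ℝ 1 ct := by
  unfold ct
  exact contDiff_pp.comp (contDiff_const.sub
    ((contDiff_pp.comp (contDiff_id.sub contDiff_const)).mul contDiff_const))

theorem abs_ct'_le (s : ℝ) : |ct' s| ≤ 16 / 7 := by
  rcases le_or_gt s 4 with hs | hs
  · unfold ct'
    rw [abs_mul, abs_neg]
    have h1 : |2 * max (1 - pp (s - 9 / 4) * (16 / 49)) 0| ≤ 2 := by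
      rw [abs_of_nonneg (by positivity)]
      have := pp_nonneg (s - 9 / 4)
      have : max (1 - pp (s - 9 / 4) * (16 / 49)) 0 ≤ 1 := max_le (by linarith) zero_le_one
      linarith
    have h2 : |2 * max (s - 9 / 4) 0 * (16 / 49)| ≤ 8 / 7 := by
      rw [abs_of_nonneg (by positivity)]
      have : max (s - 9 / 4) 0 ≤ 7 / 4 := max_le (by linarith) (by norm_num)
      linarith
    calc _ ≤ (2 : ℝ) * (8 / 7) := mul_le_mul h1 h2 (abs_nonneg _) (by norm_num)
      _ = 16 / 7 := by norm_num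
  · have h1 : ct' s = 0 := by
      have h2 : max (1 - pp (s - 9 / 4) * (16 / 49)) 0 = 0 := by
        refine max_eq_right ?_
        unfold pp
        rw [max_eq_left (by linarith : 0 ≤ s - 9 / 4)]
        nlinarith
      unfold ct'
      rw [h2]; ring
    rw [h1, abs_zero]; norm_num

/-- the cut-off over the ball: `1` over `B_(3r/2)(x)`, `0` off `B_(2r)(x)`. -/
def cu (π : Euc k →L[ℝ] Euc m) (x : Euc m) (r : ℝ) (z : Euc k) : ℝ :=
  ct (‖π z - x‖ ^ 2 * (r ^ 2)⁻¹)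

variable {x x₀ : Euc m} {r : ℝ}

theorem continuous_cu (π : Euc k →L[ℝ] Euc m) (x : Euc m) (r : ℝ) : Continuous (cu π x r) := by
  unfold cu
  exact contDiff_ct.continuous.comp (by fun_prop)

theorem cu_eq_one (hr : 0 < r) {z : Euc k} (hz : ‖π z - x‖ ≤ 3 / 2 * r) : cu π x r z = 1 := by
  refine ct_eq_one ?_
  rw [← div_eq_mul_inv, div_le_iff₀ (by positivity)]
  have := pow_le_pow_left₀ (norm_nonneg _) hz 2
  nlinarith

theorem cu_eq_zero (hr : 0 < r) {z : Euc k} (hz : 2 * r ≤ ‖π z - x‖) : cu π x r z = 0 := by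
  refine ct_eq_zero ?_
  rw [← div_eq_mul_inv, le_div_iff₀ (by positivity)]
  have := pow_le_pow_left₀ (by positivity) hz 2
  nlinarith

theorem cut_cu (hs : Split π κ) (hr : 0 < r) {R : ℝ} (hR : ‖x - x₀‖ + 2 * r ≤ R) :
    Cut (hp π) {y | ‖π y - x₀‖ < R} (10 / r) (cu π x r) := by
  have hfd : ∀ z, HasFDerivAt (cu π x r) ((ct' (‖π z - x‖ ^ 2 * (r ^ 2)⁻¹) * (2 * (r ^ 2)⁻¹)) •
      ((innerSL ℝ (π z - x)) ∘L π)) z := by
    intro z
    have h1 : HasFDerivAt (fun y : Euc k => π y - x) π z := π.hasFDerivAt.sub_const x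
    have h2 := h1.norm_sq.mul_const ((r ^ 2)⁻¹)
    have h3 := (hasDerivAt_ct (‖π z - x‖ ^ 2 * (r ^ 2)⁻¹)).comp_hasFDerivAt z h2
    refine h3.congr_fderiv ?_
    ext1 v
    simp only [smul_apply, ContinuousLinearMap.comp_apply, smul_eq_mul, nsmul_eq_mul]
    push_cast
    ring
  refine ⟨?_, fun z => ?_, fun z hz => ?_, fun z => ct_nonneg _, fun z => ct_le_one _,
    fun z => ?_⟩
  · unfold cu
    exact contDiff_ct.comp (((π.contDiff.sub contDiff_const).norm_sq ℝ).mul contDiff_const)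
  · unfold cu
    rw [pi_hp hs]
  · refine cu_eq_zero hr ?_
    have h1 : ¬ ‖π (hp π z) - x₀‖ < R := hz
    rw [pi_hp hs, not_lt] at h1
    have h2 : ‖π z - x₀‖ ≤ ‖π z - x‖ + ‖x - x₀‖ := norm_sub_le_norm_sub_add_norm_sub _ _ _
    linarith
  · rw [(hfd z).fderiv]
    refine ContinuousLinearMap.opNorm_le_bound _ (by positivity) fun v => ?_
    rcases le_or_gt (2 * r) ‖π z - x‖ with h | h
    · have h1 : ct' (‖π z - x‖ ^ 2 * (r ^ 2)⁻¹) = 0 := by
        have h2 : HasDerivAt ct 0 (‖π z - x‖ ^ 2 * (r ^ 2)⁻¹) := by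
          have h3 : 4 ≤ ‖π z - x‖ ^ 2 * (r ^ 2)⁻¹ := by
            rw [← div_eq_mul_inv, le_div_iff₀ (by positivity)]
            have := pow_le_pow_left₀ (by positivity) h 2
            nlinarith
          have h4 : IsLocalMin ct (‖π z - x‖ ^ 2 * (r ^ 2)⁻¹) :=
            Filter.Eventually.of_forall fun y => by rw [ct_eq_zero h3]; exact ct_nonneg _
          have h5 := h4.hasDerivAt_eq_zero (hasDerivAt_ct _)
          have h6 := hasDerivAt_ct (‖π z - x‖ ^ 2 * (r ^ 2)⁻¹)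
          rwa [h5] at h6
        exact (hasDerivAt_ct _).unique h2
      rw [h1]
      simp only [zero_mul, zero_smul, zero_apply, norm_zero]
      positivity
    · have e : ((ct' (‖π z - x‖ ^ 2 * (r ^ 2)⁻¹) * (2 * (r ^ 2)⁻¹)) •
          ((innerSL ℝ (π z - x)) ∘L π)) v
          = ct' (‖π z - x‖ ^ 2 * (r ^ 2)⁻¹) * (2 * (r ^ 2)⁻¹) * ⟪π z - x, π v⟫_ℝ := rfl
      rw [e, Real.norm_eq_abs, abs_mul, abs_mul, abs_of_nonneg (by positivity : 0 ≤ 2 * (r ^ 2)⁻¹)]
      have h1 := abs_ct'_le (‖π z - x‖ ^ 2 * (r ^ 2)⁻¹)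
      have h2 : ‖π v‖ ≤ ‖v‖ := by
        rw [← norm_hp hs]; exact G_norm_apply_le (hp_mem_G hs) v
      have h3 : |⟪π z - x, π v⟫_ℝ| ≤ 2 * r * ‖v‖ :=
        (abs_real_inner_le_norm _ _).trans (mul_le_mul h.le h2 (norm_nonneg _) (by positivity))
      calc |ct' (‖π z - x‖ ^ 2 * (r ^ 2)⁻¹)| * (2 * (r ^ 2)⁻¹) * |⟪π z - x, π v⟫_ℝ|
          ≤ 16 / 7 * (2 * (r ^ 2)⁻¹) * (2 * r * ‖v‖) := by
            refine mul_le_mul ?_ h3 (abs_nonneg _) (by positivity)
            exact mul_le_mul_of_nonneg_right h1 (by positivity)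
        _ = 64 / 7 / r * ‖v‖ := by field_simp; ring
        _ ≤ 10 / r * ‖v‖ := by
            refine mul_le_mul_of_nonneg_right ?_ (norm_nonneg _)
            exact div_le_div_of_nonneg_right (by norm_num) hr.le

/-! ### the inequality -/

/-- the part over the ball `B_s(y)` of the base. -/
def ov (π : Euc k →L[ℝ] Euc m) (y : Euc m) (s : ℝ) : Set (Euc k × L k) := {p | ‖π p.1 - y‖ < s}

theorem isOpen_ov (π : Euc k →L[ℝ] Euc m) (y : Euc m) (s : ℝ) : IsOpen (ov π y s) :=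
  isOpen_lt (by fun_prop) continuous_const

/-- tilt energy over `B_s(y)`. -/
def eb (W : Measure (Euc k × L k)) (π : Euc k →L[ℝ] Euc m) (y : Euc m) (s : ℝ) : ℝ :=
  ∫ p in ov π y s, tl π p.2 ∂W

section

variable {W : Measure (Euc k × L k)} {M σ c τ h R h₀ : ℝ}

theorem tl_ae (hW : CylBase W π κ) : ∀ᵐ p ∂W, tilt (hp π) p.2 = tl π p.2 := by
  filter_upwards [hW.base.conc] with p h1
  exact tilt_eq_tl π h1

theorem tl_ae_nonneg (hW : CylBase W π κ) : ∀ᵐ p ∂W, 0 ≤ tl π p.2 := by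
  filter_upwards [hW.base.conc] with p h1
  rw [← tilt_eq_tl π h1]
  exact tilt_nonneg (hp_mem_G hW.sp) h1

theorem integrable_tl [IsFiniteMeasure W] (hW : CylBase W π κ) :
    Integrable (fun p => tl π p.2) W :=
  (integrable_one hW.base (continuous_tilt_snd (hp π))).congr (tl_ae hW)

theorem nb_subset (hs : Split π κ) (z : Euc k) :
    nb (hp π) τ (cu π x r) z ⊆ ov π (π z) τ := by
  intro p hp'
  obtain ⟨-, -, h3⟩ := hp'
  show ‖π p.1 - π z‖ < τ
  rw [← map_sub, ← norm_neg, ← map_neg, neg_sub, ← norm_hp hs]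
  exact h3

theorem S0_subset (hr : 0 < r) : S0 (cu π x r) ⊆ ov π x (2 * r) := by
  intro p hp'
  by_contra hcon
  exact hp' (cu_eq_zero hr (not_lt.1 hcon))

theorem mem_of_nb (hr : 0 < r) {z : Euc k} (h : cu π x r z ≠ 0) : ‖π z - x‖ < 2 * r := by
  by_contra hcon
  exact h (cu_eq_zero hr (not_lt.1 hcon))

/-- hypotheses `(M)`, `(σ)` for the cut-off `cu`. -/
theorem hyps [IsFiniteMeasure W] (hW : CylBase W π κ) (hr : 0 < r) (hτ : 0 < τ) (hM0 : 0 < M)
    (hM : ∀ y, ‖y - x‖ < 2 * r → W.real (ov π y τ) ≤ M * τ ^ m)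
    (hσ : ∀ y, ‖y - x‖ < 2 * r → eb W π y τ ≤ σ ^ 2 * τ ^ m) :
    (∀ᵐ z ∂W, W.real (nb (hp π) τ (cu π x r) z.1) ≤ M * τ ^ m) ∧
    (∀ᵐ z ∂W, ∫ z' in nb (hp π) τ (cu π x r) z.1, tilt (hp π) z'.2 ∂W ≤ σ ^ 2 * τ ^ m) := by
  constructor
  · refine Filter.Eventually.of_forall fun z => ?_
    by_cases hz : cu π x r z.1 = 0
    · rw [nb_eq_empty hz, measureReal_empty]; positivity
    · exact (measureReal_mono (nb_subset hW.sp z.1)).trans (hM _ (mem_of_nb hr hz))
  · refine Filter.Eventually.of_forall fun z => ?_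
    by_cases hz : cu π x r z.1 = 0
    · rw [nb_eq_empty hz]; simp only [setIntegral_empty]; positivity
    · refine le_trans ?_ (hσ _ (mem_of_nb hr hz))
      rw [setIntegral_congr_ae₀ (g := fun p => tl π p.2)
        (isOpen_nb (continuous_cu π x r) z.1).measurableSet.nullMeasurableSet (by
        filter_upwards [tl_ae hW] with p h1 _ using h1)]
      exact setIntegral_mono_set (integrable_tl hW).integrableOn
        (ae_restrict_of_ae (tl_ae_nonneg hW)) (nb_subset hW.sp z.1).eventuallyLE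

theorem rhs_le [IsFiniteMeasure W] (hW : CylBase W π κ) (hr : 0 < r) (hτ : 0 < τ) (hh : 0 < h)
    (hM0 : 0 < M) (hσ0 : 0 < σ) :
    rhs (hp π) W (cu π x r) h τ (10 / r) M σ
      ≤ h * (30 / r * M * √(eb W π x (2 * r) * W.real (ov π x (2 * r)))
        + 4 / τ * (σ * √M * eb W π x (2 * r))) := by
  have h1 : ∫ z in S0 (cu π x r), tilt (hp π) z.2 ∂W ≤ eb W π x (2 * r) := by
    rw [setIntegral_congr_ae₀ (g := fun p => tl π p.2)
        (isOpen_S0 (continuous_cu π x r)).measurableSet.nullMeasurableSet (by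
        filter_upwards [tl_ae hW] with p h1 _ using h1)]
    exact setIntegral_mono_set (integrable_tl hW).integrableOn
        (ae_restrict_of_ae (tl_ae_nonneg hW)) (S0_subset hr).eventuallyLE
  have h0 : 0 ≤ ∫ z in S0 (cu π x r), tilt (hp π) z.2 ∂W := by
    refine setIntegral_nonneg_of_ae ?_
    filter_upwards [hW.base.conc] with p h2
    exact tilt_nonneg (hp_mem_G hW.sp) h2
  have h2 : W.real (S0 (cu π x r)) ≤ W.real (ov π x (2 * r)) := measureReal_mono (S0_subset hr)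
  unfold rhs
  have e1 : 3 * (10 / r) * M = 30 / r * M := by ring
  rw [e1]
  have h3 : √((∫ z in S0 (cu π x r), tilt (hp π) z.2 ∂W) * W.real (S0 (cu π x r)))
      ≤ √(eb W π x (2 * r) * W.real (ov π x (2 * r))) :=
    Real.sqrt_le_sqrt (mul_le_mul h1 h2 measureReal_nonneg (h0.trans h1))
  gcongr

/-- **(DV), general `W`.** `W` = any bounded measure on `(x, S)`, with the defect of
stationarity `err`.  The points of `A` are `(h, τ)`-small. -/
theorem dv_small_fv [IsFiniteMeasure W] (hW : CylBase W π κ) (hτ : 0 < τ) (hτr : τ ≤ r)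
    (hh : 0 < h) (hM0 : 0 < M) (hσ0 : 0 < σ) (hc0 : 0 < c)
    (hM : ∀ y, ‖y - x‖ < 2 * r → W.real (ov π y τ) ≤ M * τ ^ m)
    (hσ : ∀ y, ‖y - x‖ < 2 * r → eb W π y τ ≤ σ ^ 2 * τ ^ m)
    {A : Set (Euc k × L k)} (hA : MeasurableSet A) (hAx : A ⊆ ov π x r)
    (hc : ∀ᵐ z ∂W, z ∈ A →
      c * τ ^ m ≤ W.real {p | ‖π (z.1 - p.1)‖ ≤ τ / 2 ∧ ‖κ (z.1 - p.1)‖ ≤ h}) :
    ∫ z in A, vv (hp π) z.2 ∂W ≤ 32 / 3 / c *
      (h * (30 / r * M * √(eb W π x (2 * r) * W.real (ov π x (2 * r)))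
        + 4 / τ * (σ * √M * eb W π x (2 * r))) + |err (hp π) W (cu π x r) h τ| / τ ^ m) := by
  have hr : 0 < r := hτ.trans_le hτr
  have hH : hp π ∈ G m k := hp_mem_G hW.sp
  have hφ := cut_cu (x := x) (x₀ := x) hW.sp hr (R := 2 * r) (by simp)
  obtain ⟨hM', hσ'⟩ := hyps hW hr hτ hM0 hM hσ
  have h1 := energy_fv hW.base hH hφ hτ hh hM0 hσ0 hM' hσ'
  have h2 := lower_gen (c := c) hW.base hH hφ hτ hh
    (measurableSet_close (H := hp π) (h := h) (τ := τ) hφ.smooth.continuous) hA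
    (f := fun z => vv (hp π) z.2) ((continuous_vv (hp π)).comp continuous_snd)
    (Filter.Eventually.of_forall fun z => vv_nonneg _ _)
    (fun q hq g1 g2 => ⟨hq, by
      have := mx_nonneg (hp π) q.1.2 q.2.2
      have := vv_nonneg (hp π) q.2.2
      linarith⟩) (by
      filter_upwards [hc] with z hz hzA
      refine (hz hzA).trans (measureReal_mono ?_)
      intro p hp'
      obtain ⟨p1, p2⟩ := hp'
      have g1 : ‖π z.1 - x‖ < r := hAx hzA
      have g2 : ‖π p.1 - x‖ ≤ ‖π z.1 - x‖ + ‖π (z.1 - p.1)‖ := by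
        have : π p.1 - x = (π z.1 - x) - π (z.1 - p.1) := by rw [map_sub]; abel
        rw [this]
        exact norm_sub_le _ _
      show close (hp π) h τ (cu π x r) z.1 p.1
      refine ⟨cu_eq_one hr (by linarith), cu_eq_one hr (by linarith), ?_, ?_⟩
      · rw [norm_hp hW.sp]; exact p1
      · rw [norm_sub_hp hW.sp]; exact p2)
  have h3 := rhs_le (x := x) hW hr hτ hh hM0 hσ0
  have hτm : 0 < τ ^ m := pow_pos hτ m
  refine div_aux hc0 hτm (h2.trans (h1.trans ?_))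
  rw [mul_add, mul_assoc 2 (τ ^ m) (|err (hp π) W (cu π x r) h τ| / τ ^ m),
    mul_div_cancel₀ _ hτm.ne']
  gcongr



theorem tl_sq_le {S : L k} (hs : Split π κ) (hS : S ∈ G m k) :
    tl π S ^ 2 ≤ k * vv (hp π) S := by
  rw [← tilt_eq_tl π hS]
  exact tilt_sq_le (hp_mem_G hs)

theorem ball_sub (hs : Split π κ) (z : Euc k × L k) :
    {p : Euc k × L k | ‖z.1 - p.1‖ ≤ h / 2} ⊆
      {p | ‖π (z.1 - p.1)‖ ≤ h / 2 ∧ ‖κ (z.1 - p.1)‖ ≤ h} := by
  intro p hp'
  have h1 := hs.norm_sq (z.1 - p.1)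
  have h2 : ‖z.1 - p.1‖ ≤ h / 2 := hp'
  have h3 : ‖π (z.1 - p.1)‖ ≤ ‖z.1 - p.1‖ := by
    refine (sq_le_sq₀ (norm_nonneg _) (norm_nonneg _)).1 ?_
    nlinarith [sq_nonneg ‖κ (z.1 - p.1)‖]
  have h4 : ‖κ (z.1 - p.1)‖ ≤ ‖z.1 - p.1‖ := by
    refine (sq_le_sq₀ (norm_nonneg _) (norm_nonneg _)).1 ?_
    nlinarith [sq_nonneg ‖π (z.1 - p.1)‖]
  have h5 := norm_nonneg (z.1 - p.1)
  exact ⟨h3.trans h2, by linarith⟩


end

end Crest.Agent.R234.Pair6_762
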