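import Crest.Agent.R234.Th12_164

-- ▼ part R234/Th13_164

/-!
# Row 234, VF-THETA part 13 (helper164)

`MASS` (746): small tilt energy at all scales `[t, ρ₀]` and a mass bound at the top scale only ==> mass bound at all
scales `[t, ρ₀]`; moreover `N` is close to one integer `Q` at all scales `[t, ρ₀/4]`.
-/

set_option autoImplicit false

open Set Filter Topology MeasureTheory Metric
open Crest.GeometryTopology.Submanifold
open Crest.Agent.R234.Vf_884 Crest.Agent.R234.Ar_870 Crest.Agent.R234.Cy_870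
open scoped ENNReal NNReal ContDiff InnerProductSpace

noncomputable section

namespace Crest.Agent.R234.Th_164


variable {d : ℕ}


section varifold

variable {m k : ℕ} {π : Euc k →L[ℝ] Euc m} {W : Measure (Euc k × L k)} {R : Set (Euc m)}
  {N : Euc m → ℝ≥0∞} {δ h : ℝ} {q : Euc k → ℝ}

theorem Setup.ae_tl_nonneg (hS : Setup π W R N δ h q) : ∀ᵐ p ∂W, 0 ≤ tl π p.2 := by
  filter_upwards [hS.conc] with p hp
  exact tl_nonneg hS.co (isPr_of_G hp)

theorem Setup.integrable_tl (hS : Setup π W R N δ h q) :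
    Integrable (fun p : Euc k × L k => tl π p.2) W := by
  have := hS.fin
  refine Integrable.of_bound (measurable_tl2 π).aestronglyMeasurable m ?_
  filter_upwards [hS.conc, hS.ae_tl_nonneg] with p hp hp0
  rw [Real.norm_eq_abs, abs_of_nonneg hp0]
  exact tl_le hS.co (isPr_of_G hp)

theorem Setup.ws_le_tl (hS : Setup π W R N δ h q) (σ : ℝ) : ∀ᵐ p ∂W, ws π σ p ≤ tl π p.2 := by
  filter_upwards [hS.ae_tl_nonneg] with p hp0
  unfold ws
  by_cases hs : p ∈ {p : Euc k × L k | σ < tl π p.2}
  · rw [Set.indicator_of_mem hs]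
  · rw [Set.indicator_of_notMem hs]; exact hp0

theorem Setup.ae_ws_nonneg (hS : Setup π W R N δ h q) (σ : ℝ) : ∀ᵐ p ∂W, 0 ≤ ws π σ p := by
  filter_upwards [hS.conc] with p hp
  exact ws_nonneg hS.co hp

theorem Setup.integrable_ws (hS : Setup π W R N δ h q) (σ : ℝ) : Integrable (ws π σ) W := by
  refine hS.integrable_tl.mono' (measurable_ws π _).aestronglyMeasurable ?_
  filter_upwards [hS.ws_le_tl σ, hS.ae_ws_nonneg σ] with p h1 h2
  rw [Real.norm_eq_abs, abs_of_nonneg h2]
  exact h1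

theorem Setup.hyp (hS : Setup π W R N δ h q) {σ : ℝ} (hσ : 0 ≤ σ) :
    Hyp (m + 2) (σ + δ * h) (δ * (m + h)) R (fun x => (N x).toReal) (muM W π)
      (wM W π (we π δ q)) (wM W π (ws π σ)) (wM W π (wg π δ q)) := by
  have := hS.fin
  exact hyp_of hS.co hS.conc hS.isOpen hS.area hS.δ_nonneg hS.δ_le hσ hS.h_nonneg hS.q_meas
    hS.q_nonneg hS.q_le hS.fv



end varifold

end Crest.Agent.R234.Th_164
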