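import Crest.Agent.R234.N0p_309
import Crest.Agent.R234.Ex3_46
import Crest.Agent.R234.Th11_164
import Crest.Agent.R234.Crs9_173
import Crest.Agent.R234.Sml4_870

-- ▼ part R234/N0i_309
section

/-!
Row 234, node N0 (helper309), file i: 173's input structure `In` in the class (`InProp`).
-/

set_option autoImplicit false

open MeasureTheory Filter Topology Set Metric
open scoped ENNReal NNReal

namespace Crest.Agent.R234.N0_309

open Crest.GeometryTopology.Submanifold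
open Crest.Agent.R234.Vf_884 Crest.Agent.R234.Ar_870 Crest.Agent.R234.Cy_870
open Crest.Agent.R234.Core_809 (Cls part en Yh Lam hOf tOf lamOf)
open Crest.Agent.R234.Crs_173 (In)
open Crest.Agent.R234.Ex_46

noncomputable section

variable {m n k : ℕ} {π : Euc k →L[ℝ] Euc m} {κ : Euc k →L[ℝ] Euc n} {U : Set (Euc k)}
  {D : VarifoldData m k}

/-- upper mass bound in all balls (46's `ubd` for version 3 of the class) -/
theorem ubd3 (hD : IsIntegralVarifoldIn U D) (sp : Split π κ)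
    (dom : cyl π κ 0 5 2 ⊆ U) (hE : ∃ T T' : Euc k → Euc k, Dif T T' ∧
      (∀ z, ‖fderiv ℝ T z - ContinuousLinearMap.id ℝ (Euc k)‖ ≤ 1 / 16) ∧
      IsStationaryIn (T' ⁻¹' U) (trans T D)) (hm : 1 ≤ m) {K : ℝ}
    (hfin : VD D (cyl π κ 0 5 2 ×ˢ univ) < ⊤)
    (big : (VD D).real (cyl π κ 0 5 2 ×ˢ univ) ≤ K) (z : Euc k) {r : ℝ} (hr : 0 < r) :
    ((VD D).restrict (cyl π κ 0 4 1 ×ˢ univ)).real (closedBall z r ×ˢ univ) ≤ 3 ^ m * K * r ^ m := by
  have hK : 0 ≤ K := measureReal_nonneg.trans big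
  have hm5 := Ex_46.measurableSet_cyl π κ 0 5 2
  have h45 : cyl π κ 0 4 1 ⊆ cyl π κ 0 5 2 := fun w hw =>
    ⟨hw.1.trans (by norm_num), hw.2.trans (by norm_num)⟩
  have hK' : weight D (cyl π κ 0 5 2) ≤ ENNReal.ofReal K := by
    rw [← VD_prod_univ hD hm5]
    exact (ENNReal.le_ofReal_iff_toReal_le hfin.ne hK).2 big
  have hset : (closedBall z r ×ˢ univ : Set (Euc k × L k)) ∩ cyl π κ 0 4 1 ×ˢ univ =
      (closedBall z r ∩ cyl π κ 0 4 1) ×ˢ univ := by
    rw [Set.prod_inter_prod, univ_inter]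
  rw [measureReal_def, Measure.restrict_apply (measurableSet_closedBall.prod MeasurableSet.univ),
    hset, VD_prod_univ hD (measurableSet_closedBall.inter (Ex_46.measurableSet_cyl π κ 0 4 1))]
  refine ENNReal.toReal_le_of_le_ofReal (by positivity) ?_
  rcases (closedBall z r ∩ cyl π κ 0 4 1).eq_empty_or_nonempty with h0 | ⟨z₁, hz₁, hz₁c⟩
  · rw [h0, measure_empty]; exact bot_le
  have hrr : closedBall z r ⊆ closedBall z₁ (2 * r) := by
    refine closedBall_subset_closedBall' ?_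
    rw [mem_closedBall, dist_comm] at hz₁
    linarith
  rcases le_or_gt 1 (2 * r) with h1 | h1
  · refine (measure_mono (inter_subset_right.trans h45)).trans (hK'.trans ?_)
    refine ENNReal.ofReal_le_ofReal ?_
    have h2 : 1 ≤ (3 * r) ^ m := one_le_pow₀ (by linarith)
    calc K = 1 * K := (one_mul K).symm
      _ ≤ (3 * r) ^ m * K := mul_le_mul_of_nonneg_right h2 hK
      _ = _ := by rw [mul_pow]; ring
  · obtain ⟨T, T', hT, hg, hs⟩ := hE
    have hb : ball z₁ 1 ⊆ U :=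
      (ball_subset_closedBall.trans (closedBall_subset_cyl sp hz₁c)).trans dom
    have h2 := up_mass hD hT hg hs hm (z := z₁) (by positivity : 0 < 2 * r) h1 hb
    refine (measure_mono (inter_subset_left.trans hrr)).trans (h2.trans ?_)
    have h3 : weight D (ball z₁ 1) ≤ ENNReal.ofReal K :=
      (measure_mono (ball_subset_closedBall.trans (closedBall_subset_cyl sp hz₁c))).trans hK'
    refine (mul_le_mul_right h3 _).trans ?_
    rw [← ENNReal.ofReal_mul (by positivity)]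
    refine ENNReal.ofReal_le_ofReal ?_
    have h4 : ((17 / 15 : ℝ) ^ 2 * (2 * r / 1)) ^ m ≤ (3 * r) ^ m := by
      refine pow_le_pow_left₀ (by positivity) ?_ m
      linarith
    calc ((17 / 15 : ℝ) ^ 2 * (2 * r / 1)) ^ m * K ≤ (3 * r) ^ m * K :=
          mul_le_mul_of_nonneg_right h4 hK
      _ = _ := by rw [mul_pow]; ring

theorem fin5 {Q : ℕ} {δ d : ℝ} (h : Cls Q δ d π κ U D) :
    VD D (cyl π κ 0 5 2 ×ˢ univ) < ⊤ :=
  VD_fin h.int (isCompact_cyl h.sp 0 5 2) h.dom'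

theorem fin4 {Q : ℕ} {δ d : ℝ} (h : Cls Q δ d π κ U D) :
    VD D (cyl π κ 0 4 1 ×ˢ univ) < ⊤ :=
  VD_fin h.int (isCompact_cyl h.sp 0 4 1) h.dom

theorem cylAS_of_cls {Q : ℕ} {δ d : ℝ} (hd1 : d < 1)
    (h : Cls Q δ d π κ U D) : Asl_214.CylAS (part π κ D) π κ 0 4 (√d) δ := by
  refine Asl_214.cylAS_of_AS h.as h.sp (h₀ := √d) (h₁ := 1) ?_ one_pos h.dom ?_
  · rw [Real.sqrt_lt' one_pos]; linarith
  · filter_upwards [h.hgt] with p hp hpc
    exact Real.le_sqrt_of_sq_le (hp hpc)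

/-- **N0-IN** -/
theorem inProp : InProp := by
  intro m n Q hm
  refine ⟨3 ^ m * ((Q + 1) * (ome m * 5 ^ m)), by have := ome_pos m; positivity, ?_⟩
  intro k π κ U Dd δ D hD hD1 hδ hδ1 h S
  exact
    { cyl := cylAS_of_cls hD1 h
      area := by
        have hfin : VD Dd ((cyl π κ 0 4 1 ∩ π ⁻¹' ball 0 4) ×ˢ univ) < ⊤ :=
          (measure_mono (prod_mono inter_subset_left subset_rfl)).trans_lt (fin4 h)
        exact Th_164.area_VD h.int h.sp.hh S (Ex_46.measurableSet_cyl π κ 0 4 1)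
          measurableSet_ball hfin
      mass := h.mass
      ub := fun z r hr _ => ubd3 h.int h.sp h.dom' h.ex hm (fin5 h) h.big z hr
      δ0 := hδ
      hh := Real.sqrt_nonneg _ }

end

end Crest.Agent.R234.N0_309
end

-- ▼ part R234/N0q_309
section

/-!
Row 234, node N0 (helper309), file q: `N0Prop` from its inputs.
-/

set_option autoImplicit false

open MeasureTheory Filter Topology Set Metric
open scoped ENNReal NNReal

namespace Crest.Agent.R234.N0_309

open Crest.GeometryTopology.Submanifold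
open Crest.Agent.R234.Vf_884 Crest.Agent.R234.Ar_870 Crest.Agent.R234.Cy_870
open Crest.Agent.R234.In_947
open Crest.Agent.R234.Rep_387 Crest.Agent.R234.Raw_387
open Crest.Agent.R234.Pair2_762 (vv)
open Crest.Agent.R234.Pair6_762 (hp)
open Crest.Agent.R234.Th_164 (ws ws_nonneg measurable_ws)
open Crest.Agent.R234.N5_372 (eM)
open Crest.Agent.R234.Core_809 (Cls part en Yh Lam hOf tOf lamOf tauOf blOf dsOf anom N0Prop)
open Crest.Agent.R234.Crs_173 (In)
open Crest.Agent.R234.Loc1_290 (bump)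

noncomputable section

variable {m n k : ℕ} {π : Euc k →L[ℝ] Euc m} {κ : Euc k →L[ℝ] Euc n} {U : Set (Euc k)}
  {Dd : VarifoldData m k}

theorem lam_ge {L D : ℝ} (hD : 0 < D) (h : D ≤ Real.exp (-L)) : L ≤ Lam D := by
  unfold Lam
  rw [one_div, Real.log_inv]
  have := Real.log_le_log hD h
  rw [Real.log_exp] at this
  linarith

/-- numbers of the final estimate -/
theorem real_final {L a Cs D E R v A1 C Kθ K2 δ h ds : ℝ} (hD : 0 < D) (hD1 : D < 1)
    (ha : a = Cs + 1) (hL : 1 ≤ L) (hA1 : 0 ≤ A1) (_hC : 0 ≤ C) (hKθ : 0 ≤ Kθ) (hK2 : 0 ≤ K2)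
    (hE0 : 0 ≤ E) (hE : E ≤ D) (hδ : 0 ≤ δ) (hR : δ * E ≤ R)
    (hL2 : 2 * (A1 * C + 7 * K2 + 3 * (1 / 2 + Kθ)) ≤ L)
    (hv : v ≤ C * R + C * (L ^ (-a) * D)) (hh : h = √D * L ^ (-a))
    (hds : ds ≤ 7 * (δ + L ^ (-a))) :
    1 / 2 * L ^ (-Cs) * D + A1 * v + K2 * ds * E +
      (2 * L ^ (-a) + 3 * (h / 4)) * (1 / 2 * E + Kθ * E) ≤
      (A1 * C + 7 * K2 + 1) * R + L ^ (-Cs) * D := by
  have hL0 : 0 < L := by linarith
  have hP : L ^ (-a) = L ^ (-Cs) * L⁻¹ := by
    rw [ha, neg_add, Real.rpow_add hL0, Real.rpow_neg_one]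
  have hp0 : 0 < L ^ (-a) := Real.rpow_pos_of_pos hL0 _
  have hq0 : 0 < L ^ (-Cs) := Real.rpow_pos_of_pos hL0 _
  have hsq : √D ≤ 1 := Real.sqrt_le_one.2 hD1.le
  have hh1 : h ≤ L ^ (-a) := by
    rw [hh]
    calc √D * L ^ (-a) ≤ 1 * L ^ (-a) := mul_le_mul_of_nonneg_right hsq hp0.le
      _ = _ := one_mul _
  have hR0 : 0 ≤ R := (mul_nonneg hδ hE0).trans hR
  have h1 : A1 * v ≤ A1 * C * R + A1 * C * (L ^ (-a) * D) := by
    have := mul_le_mul_of_nonneg_left hv hA1
    calc A1 * v ≤ A1 * (C * R + C * (L ^ (-a) * D)) := this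
      _ = _ := by ring
  have h2 : K2 * ds * E ≤ 7 * K2 * R + 7 * K2 * (L ^ (-a) * D) := by
    have e1 : ds * E ≤ 7 * (R + L ^ (-a) * D) := by
      calc ds * E ≤ (7 * (δ + L ^ (-a))) * E := mul_le_mul_of_nonneg_right hds hE0
        _ = 7 * (δ * E + L ^ (-a) * E) := by ring
        _ ≤ 7 * (R + L ^ (-a) * D) := by
          have := add_le_add hR (mul_le_mul_of_nonneg_left hE hp0.le)
          linarith
    calc K2 * ds * E = K2 * (ds * E) := by ring
      _ ≤ K2 * (7 * (R + L ^ (-a) * D)) := mul_le_mul_of_nonneg_left e1 hK2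
      _ = _ := by ring
  have h3 : (2 * L ^ (-a) + 3 * (h / 4)) * (1 / 2 * E + Kθ * E) ≤
      3 * (1 / 2 + Kθ) * (L ^ (-a) * D) := by
    have e1 : 2 * L ^ (-a) + 3 * (h / 4) ≤ 3 * L ^ (-a) := by linarith
    have e2 : 1 / 2 * E + Kθ * E ≤ (1 / 2 + Kθ) * D := by
      rw [← add_mul]
      exact mul_le_mul_of_nonneg_left hE (by linarith)
    have e3 : 0 ≤ 1 / 2 * E + Kθ * E := by positivity
    calc _ ≤ (3 * L ^ (-a)) * ((1 / 2 + Kθ) * D) :=
          mul_le_mul e1 e2 e3 (by positivity)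
      _ = _ := by ring
  have h4 : (A1 * C + 7 * K2 + 3 * (1 / 2 + Kθ)) * (L ^ (-a) * D) ≤
      1 / 2 * (L ^ (-Cs) * D) := by
    have e1 : (A1 * C + 7 * K2 + 3 * (1 / 2 + Kθ)) * L⁻¹ ≤ 1 / 2 := by
      rw [← div_eq_mul_inv, div_le_iff₀ hL0]
      linarith
    calc _ = ((A1 * C + 7 * K2 + 3 * (1 / 2 + Kθ)) * L⁻¹) * (L ^ (-Cs) * D) := by
          rw [hP]; ring
      _ ≤ _ := mul_le_mul_of_nonneg_right e1 (by positivity)
  have h5 : (A1 * C + 7 * K2 + 1) * R = A1 * C * R + 7 * K2 * R + R := by ring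
  have h6 : (A1 * C + 7 * K2 + 3 * (1 / 2 + Kθ)) * (L ^ (-a) * D) = A1 * C * (L ^ (-a) * D) +
      7 * K2 * (L ^ (-a) * D) + 3 * (1 / 2 + Kθ) * (L ^ (-a) * D) := by ring
  have h7 : 1 / 2 * L ^ (-Cs) * D = 1 / 2 * (L ^ (-Cs) * D) := by ring
  rw [h5, h7]
  rw [h6] at h4
  linarith

set_option maxHeartbeats 1000000 in
/-- **N0** from its inputs -/
theorem n0Prop_of (hIn : InProp) (hTh : ThetaProp) (hSm : SmallProp) (hVV : VVProp) :
    N0Prop := by
  intro m n Q hm hn hQ K hK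
  have hm1 : 1 ≤ m := by lia
  obtain ⟨C₀, hC₀, hIn⟩ := hIn m n Q hm1
  obtain ⟨σ, Kθ, cθ, hσ, hKθ, hcθ, hTh⟩ := hTh m Q C₀ hm1 hC₀
  obtain ⟨c, hc, hSm⟩ := hSm m n Q hm hn hQ
  obtain ⟨C, hC, hVV⟩ := hVV m Q C₀ c hm1 hC₀ hc
  set cS : ℝ := min cθ c with hcS
  have hcS0 : 0 < cS := lt_min hcθ hc
  set A1 : ℝ := m / 2 + Kθ * (m / σ) with hA1
  have hA10 : 0 ≤ A1 := by positivity
  set K2 : ℝ := K * m / 2 with hK2
  have hK20 : 0 ≤ K2 := by positivity
  refine ⟨cS, A1 * C + 7 * K2 + 1, hcS0, by positivity, fun Cs hCs => ?_⟩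
  set a : ℝ := Cs + 1 with ha
  have ha1 : 1 ≤ a := by linarith
  obtain ⟨D1, hD1, hD11, hTh⟩ := hTh cS a hcS0 (min_le_left _ _) ha1
  obtain ⟨D2, hD2, hD21, hSm⟩ := hSm cS a hcS0 (min_le_right _ _) ha1
  obtain ⟨D3, hD3, hD31, hVV⟩ := hVV a ha1
  set L2 : ℝ := 1 + 2 * (A1 * C + 7 * K2 + 3 * (1 / 2 + Kθ)) with hL2
  refine ⟨min (min D1 D2) (min D3 (Real.exp (-L2))), by positivity,
    (min_le_left _ _).trans_lt ((min_le_left _ _).trans_lt hD11), ?_⟩
  intro k π κ U Dd δ D hD hDD hδ hδ4 hcls S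
  have hDa : D ≤ D1 := hDD.trans ((min_le_left _ _).trans (min_le_left _ _))
  have hDb : D ≤ D2 := hDD.trans ((min_le_left _ _).trans (min_le_right _ _))
  have hDc : D ≤ D3 := hDD.trans ((min_le_right _ _).trans (min_le_left _ _))
  have hDd : D ≤ Real.exp (-L2) := hDD.trans ((min_le_right _ _).trans (min_le_right _ _))
  have hDlt : D < 1 := hDa.trans_lt hD11
  have hL := lam_ge hD hDd
  have hC'0 : 0 ≤ A1 * C + 7 * K2 + 3 * (1 / 2 + Kθ) := by positivity
  have hL1 : 1 ≤ Lam D := by linarith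
  have hL0 : 0 < Lam D := by linarith
  have hδ1 : δ ≤ Lam D ^ (-1 : ℝ) :=
    hδ4.trans (Real.rpow_le_rpow_of_exponent_le hL1 (by norm_num))
  have hδle : δ ≤ 1 := by
    refine hδ1.trans ?_
    rw [Real.rpow_neg_one]
    exact inv_le_one_of_one_le₀ hL1
  have hin := hIn k π κ U Dd δ D hD hDlt hδ hδle hcls S
  obtain ⟨ht1, ht2⟩ := hTh n k π κ (part π κ Dd) _ δ D hD hDa hδ hδ1 hin hcls.en
  have hs := hSm k π κ U Dd δ D hD hDb hδ hδ1 hcls
  set B : Set (Euc m) := lowSet (part π κ Dd) π cS a D with hB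
  have hB1 : B ⊆ closedBall (0 : Euc m) 1 := sdiff_subset
  have hv := hVV n k π κ (part π κ Dd) _ δ D hD hDc hδ hδ1 hin hcls.en B hB1 hs
  have hBm : MeasurableSet B := measurableSet_closedBall.diff measurableSet_tallT
  have hBv : volume B < ⊤ := (measure_mono hB1).trans_lt measure_closedBall_lt_top
  have hWm := Ex_46.measurableSet_cyl π κ 0 4 1
  have hfin4 := fin4 hcls
  have hp0 : 0 < Lam D ^ (-a) := Real.rpow_pos_of_pos hL0 _
  have hp1 : Lam D ^ (-a) ≤ 1 := Real.rpow_le_one_of_one_le_of_nonpos hL1 (by linarith)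
  have hsD : 0 < √D := Real.sqrt_pos.2 hD
  have hsD1 : √D ≤ 1 := Real.sqrt_le_one.2 hDlt.le
  have hh0 : 0 < hOf a D := mul_pos hsD hp0
  have hh1 : hOf a D ≤ Lam D ^ (-a) := by
    calc √D * Lam D ^ (-a) ≤ 1 * Lam D ^ (-a) := mul_le_mul_of_nonneg_right hsD1 hp0.le
      _ = _ := one_mul _
  have hτ0 : 0 < tauOf a D := by unfold tauOf; positivity
  have hconc : ∀ᵐ p ∂(part π κ Dd), p.2 ∈ G m k := ae_restrict_of_ae (VD_conc hcls.int)
  have hff : IsFiniteMeasure (part π κ Dd) := finite_W hfin4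
  have iws : Integrable (fun p : Euc k × L k => ws π σ p) (part π κ Dd) :=
    (Crs_173.integrable_ws hin.cyl σ).1
  have hws0 : ∀ᵐ p ∂(part π κ Dd), 0 ≤ ws π σ p := by
    filter_upwards [hconc] with p hp
    exact ws_nonneg hcls.sp.hh hp
  -- the theta input in the form of `gamma_le`
  have hth : ∫ x in B, |(S.N (Cy_870.cyl π κ 0 4 1) x).toReal - Q| ≤
      Kθ * ∫ p in (fun p : Euc k × L k => π p.1) ⁻¹' (⋃ x ∈ B, ball x (2 * (hOf a D / 8))),
        ws π σ p ∂(part π κ Dd) := by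
    refine ht2.trans (mul_le_mul_of_nonneg_left ?_ hKθ)
    refine setIntegral_mono_set iws.integrableOn (ae_restrict_of_ae hws0)
      (Eventually.of_forall fun p hp => ?_)
    have h1 : cthickening (hOf a D / 8) B ⊆ ⋃ x ∈ B, ball x (2 * (hOf a D / 8)) := by
      rw [← thickening_eq_biUnion_ball]
      exact cthickening_subset_thickening' (by positivity) (by linarith) B
    exact h1 hp
  have hg := gamma_le (κ := κ) (W₀ := Cy_870.cyl π κ 0 4 1) (Q := (Q : ℝ)) S hcls.int hcls.sp hWm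
    hfin4 (σ := σ) (Kθ := Kθ) (t' := hOf a D / 8) (h := hOf a D) hσ hKθ (by linarith)
    hBm hBv hh0 hth
  have hE0 : 0 ≤ en π κ Dd := by
    unfold en
    refine integral_nonneg_of_ae ?_
    filter_upwards [hconc] with p hp
    exact tl_nonneg hcls.sp.hh (isPr_of_G hp)
  have hG3 : ∫ x in closedBall (0 : Euc m) 1,
      max ((S.N (Cy_870.cyl π κ 0 4 1) x).toReal - Q) 0 ≤ Kθ * en π κ Dd := by
    have i1 := iN1 S hcls.int hcls.sp.hh hWm hfin4 (A := closedBall (0 : Euc m) 1)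
      measurableSet_closedBall measure_closedBall_lt_top Q
    refine le_trans ?_ ht1
    exact setIntegral_mono_on i1.pos_part i1.abs measurableSet_closedBall fun x _ =>
      max_le (le_abs_self _) (abs_nonneg _)
  have hds0 : 0 ≤ dsOf a δ D := by
    have h1 : 0 ≤ max δ (Lam D ^ (-a)) := hδ.trans (le_max_left _ _)
    unfold dsOf
    linarith
  have hds1 : dsOf a δ D ≤ 7 * (δ + Lam D ^ (-a)) := by
    have h1 : max δ (Lam D ^ (-a)) ≤ δ + Lam D ^ (-a) := max_le (by linarith) (by linarith)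
    unfold dsOf
    linarith
  have key := out_or (κ := κ) (W₀ := Cy_870.cyl π κ 0 4 1) (Q := (Q : ℝ)) (τ := tauOf a D)
    (bl := blOf a D) (c := K2 * dsOf a δ D) (M := 1 / 2 * Lam D ^ (-Cs) * D)
    (h := hOf a D) (t := tOf a D) (lam := lamOf cS a D)
    S hcls.int hcls.sp hWm hfin4 (by lia) hτ0
    (by unfold tauOf blOf; linarith) hp1 (mul_nonneg hK20 hds0) le_rfl le_rfl hG3
  rcases key with key | key
  · left
    have hR : δ * en π κ Dd ≤ δ * (en π κ Dd + √(en π κ Dd * Yh π κ Dd)) +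
        δ ^ 2 * Yh π κ Dd := by
      have h1 : 0 ≤ Yh π κ Dd := integral_nonneg fun p => sq_nonneg _
      have h2 : 0 ≤ √(en π κ Dd * Yh π κ Dd) := Real.sqrt_nonneg _
      have h3 : δ * en π κ Dd ≤ δ * (en π κ Dd + √(en π κ Dd * Yh π κ Dd)) :=
        mul_le_mul_of_nonneg_left (by linarith) hδ
      have h4 : 0 ≤ δ ^ 2 * Yh π κ Dd := by positivity
      linarith
    have hfinal := real_final (Cs := Cs) (K2 := K2) (h := hOf a D) (ds := dsOf a δ D)
      hD hDlt ha hL1 hA10 hC hKθ hK20 hE0 hcls.en hδ hR (by linarith) hv rfl hds1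
    refine key.trans (le_trans ?_ hfinal)
    exact add_le_add (add_le_add (add_le_add le_rfl hg) le_rfl) le_rfl
  · right
    obtain ⟨ε, hε⟩ := key
    exact ⟨ε, hε⟩

end

end Crest.Agent.R234.N0_309
end

-- ▼ part R234/VVp_762
section

/-!
Row 234, node N0 (helper762): `VVProp` of helper309 (the pair truncation in numbers).
-/

set_option autoImplicit false

open MeasureTheory Filter Topology Set Metric
open scoped ENNReal NNReal

namespace Crest.Agent.R234.VVp_762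

open Crest.GeometryTopology.Submanifold
open Crest.Agent.R234.Vf_884 Crest.Agent.R234.Ar_870 Crest.Agent.R234.Cy_870
open Crest.Agent.R234.Pair2_762 (vv vv_nonneg)
open Crest.Agent.R234.Pair6_762 (hp ov eb)
open Crest.Agent.R234.Core_809 (Lam hOf tOf lamOf)
open Crest.Agent.R234.Crs_173 (In)
open Crest.Agent.R234.Asl_214 (CylAS MB TB)
open Crest.Agent.R234.N0_309

noncomputable section

/-- `√D Λ^a → 0`. -/
theorem exists_small (a e L : ℝ) (he : 0 < e) : ∃ D0 : ℝ, 0 < D0 ∧ D0 < 1 ∧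
    ∀ D : ℝ, 0 < D → D ≤ D0 → L ≤ Lam D ∧ 1 ≤ Lam D ∧ √D * Lam D ^ a ≤ e := by
  have h1 := tendsto_rpow_mul_exp_neg_mul_atTop_nhds_zero a (1 / 2) (by norm_num)
  obtain ⟨X, hX⟩ := (Filter.eventually_atTop.1 (h1.eventually (gt_mem_nhds he)))
  set T := max (max X L) 1 with hT
  have hT1 : 1 ≤ T := le_max_right _ _
  refine ⟨Real.exp (-T), Real.exp_pos _, ?_, fun D hD hD0 => ?_⟩
  · rw [Real.exp_lt_one_iff]; linarith
  have hlog : Real.log D ≤ -T := by
    have := Real.log_le_log hD hD0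
    rwa [Real.log_exp] at this
  have hLam : Lam D = -Real.log D := by
    unfold Lam; rw [one_div, Real.log_inv]
  have hLT : T ≤ Lam D := by rw [hLam]; linarith
  refine ⟨((le_max_right X L).trans (le_max_left _ _)).trans hLT, hT1.trans hLT, ?_⟩
  have hx := hX (Lam D) (((le_max_left X L).trans (le_max_left _ _)).trans hLT)
  have hs : √D = Real.exp (-(1 / 2) * Lam D) := by
    rw [hLam, Real.sqrt_eq_rpow, Real.rpow_def_of_pos hD]
    congr 1; ring
  rw [hs, mul_comm]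
  exact hx.le


set_option maxHeartbeats 800000 in
theorem vvProp : VVProp := by
  intro m Q C₀ c hm hC₀ hc
  obtain ⟨M, hM1, hen⟩ := Crs_173.energy m hC₀
  obtain ⟨Z, hZ, hZc⟩ := exists_net m (r := 1 / 4) (by norm_num)
  have hM0 : 0 < M := zero_lt_one.trans_le hM1
  set V₀ : ℝ := (Q + 1 / 4) * (Th_164.om m * 4 ^ m) with hV₀
  have hom : 0 < Th_164.om m := Th_164.om_pos m
  have hV0 : 0 ≤ V₀ := by positivity
  have hKv : 0 ≤ Kv m M := Kv_nonneg hM0.le
  set c' : ℝ := c / 4 ^ m with hc'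
  have hc0' : 0 < c' := by positivity
  set C : ℝ := Z.card * (32 / 3 / c' * (Kv m M * (2 + V₀))) with hC
  have hCn : 0 ≤ C := by positivity
  refine ⟨C, hCn, fun a ha => ?_⟩
  obtain ⟨D0, hD0, hD01, hsm⟩ := exists_small a (1 / 16) (max 16 M) (by norm_num)
  refine ⟨D0, hD0, hD01, ?_⟩
  intro n k π κ W N δ D hD hDD hδ0 hδL hIn hE B hB hcl
  obtain ⟨hL, hL1, hsD⟩ := hsm D hD hDD
  have hL16 : 16 ≤ Lam D := (le_max_left _ _).trans hL
  have hLM : M ≤ Lam D := (le_max_right _ _).trans hL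
  have hL0 : 0 < Lam D := by linarith
  have hD1 : D ≤ 1 := by linarith
  have hs0 : 0 < √D := Real.sqrt_pos.2 hD
  have hs1 : √D ≤ 1 := Real.sqrt_le_one.2 hD1
  have hδ16 : δ ≤ 1 / 16 := by
    refine hδL.trans ?_
    rw [Real.rpow_neg_one, inv_eq_one_div]
    exact one_div_le_one_div_of_le (by norm_num) hL16
  have hcyl := hIn.cyl
  have : IsFiniteMeasure W := ⟨hcyl.fin⟩
  -- powers of `Lam`
  set P := Lam D ^ a with hP
  have hPL : Lam D ≤ P := by
    have := Real.rpow_le_rpow_of_exponent_le hL1 ha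
    rwa [Real.rpow_one] at this
  have hP0 : 0 < P := by positivity
  have hP1 : 1 ≤ P := hL1.trans hPL
  set I := Lam D ^ (-a) with hI
  have hIP : I = P⁻¹ := by rw [hI, hP, Real.rpow_neg hL0.le]
  have hI0 : 0 < I := by rw [hIP]; positivity
  have hI1 : I ≤ 1 := by rw [hIP]; exact inv_le_one_of_one_le₀ hP1
  have hPI : P * I = 1 := by rw [hIP]; exact mul_inv_cancel₀ hP0.ne'
  set h := hOf a D with hh
  set t := tOf a D with ht
  have hheq : h = √D * I := rfl
  have hteq : t = √D * P := rfl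
  have hh0 : 0 < h := by rw [hheq]; positivity
  have ht0 : 0 < t := by rw [hteq]; positivity
  have hst : √D ≤ t := by rw [hteq]; exact le_mul_of_one_le_right hs0.le hP1
  have hhs : h ≤ √D := by rw [hheq]; exact mul_le_of_le_one_right hs0.le hI1
  have ht16 : t ≤ 1 / 16 := by rw [hteq]; exact hsD
  set τ := 4 * t with hτ
  have hτ0 : 0 < τ := by positivity
  -- mass and energy at scale `τ`
  have hMτ : ∀ y : Euc m, ‖y‖ ≤ 3 → W.real (ov π y τ) ≤ M * τ ^ m := by
    intro y hy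
    exact (hen hcyl hIn.ub hδ0 hδ16 y (mem_closedBall_zero_iff.2 hy) τ hτ0 (by linarith)
      (by linarith)).1
  have hDP : M * (√D / τ) ^ 2 ≤ 1 := by
    have e1 : √D / τ = I / 4 := by
      rw [hτ, hteq, div_eq_div_iff (by positivity) (by norm_num)]
      calc √D * 4 = √D * 4 * (P * I) := by rw [hPI, mul_one]
        _ = I * (4 * (√D * P)) := by ring
    rw [e1]
    have e2 : M * I ≤ 1 := by
      rw [hIP, ← div_eq_mul_inv, div_le_one hP0]
      exact hLM.trans hPL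
    have e3 : M * (I / 4) ^ 2 = (M * I) * I / 16 := by ring
    rw [e3]
    have e4 : M * I * I ≤ 1 * 1 := mul_le_mul e2 hI1 hI0.le zero_le_one
    linarith
  have hστ : ∀ y : Euc m, ‖y‖ ≤ 3 → eb W π y τ ≤ 1 ^ 2 * τ ^ m := by
    intro y hy
    refine ((hen hcyl hIn.ub hδ0 hδ16 y (mem_closedBall_zero_iff.2 hy) τ hτ0 (by linarith)
      (by linarith)).2).trans ?_
    refine mul_le_mul_of_nonneg_right ?_ (by positivity)
    rw [one_pow]; exact hDP
  have hc4 : ∀ᵐ z ∂W, π z.1 ∈ thickening (h / 4) B →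
      c' * τ ^ m ≤ W.real {p | ‖π (z.1 - p.1)‖ ≤ τ / 2 ∧ ‖κ (z.1 - p.1)‖ ≤ h} := by
    filter_upwards [hcl] with z hz hzB
    have e1 : c' * τ ^ m = c * t ^ m := by
      rw [hc', hτ, mul_pow]
      field_simp
    have e2 : τ / 2 = 2 * t := by rw [hτ]; ring
    rw [e1, e2]
    exact hz hzB
  have hmain := vv_le (M := M) (σ := 1) (c := c') (B := B) hcyl hs1 hδ0 (by linarith) hh0
    (by linarith : h ≤ τ) (by linarith : τ ≤ 1) hM0 one_pos le_rfl hc0' hMτ hστ hB hc4 Z hZ hZc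
  refine hmain.trans ?_
  -- the numbers
  have hV : W.real univ ≤ V₀ := by
    have h1 := (abs_le.1 hIn.mass).2
    rw [hV₀]; linarith
  have hVn : 0 ≤ W.real univ := measureReal_nonneg
  set E := ∫ p, tl π p.2 ∂W with hEd
  set Y := ∫ p, ‖κ p.1‖ ^ 2 ∂W with hYd
  have hE0 : 0 ≤ E := by
    refine integral_nonneg_of_ae ?_
    filter_upwards [hcyl.conc] with p hp
    exact tl_nonneg hcyl.sp.hh (isPr_of_G hp)
  have hY0 : 0 ≤ Y := integral_nonneg fun _ => sq_nonneg _
  have hYD : Y ≤ D * V₀ := by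
    have h1 : Y ≤ ∫ _, D ∂W := by
      refine integral_mono_ae
        (hcyl.integrable_continuous ((κ.continuous.comp continuous_fst).norm.pow 2))
        (integrable_const _) ?_
      filter_upwards [hcyl.hgt] with p hp
      have h2 := pow_le_pow_left₀ (norm_nonneg (κ p.1)) hp 2
      rwa [Real.sq_sqrt hD.le] at h2
    refine h1.trans ?_
    rw [integral_const, smul_eq_mul, mul_comm]
    exact mul_le_mul_of_nonneg_left hV hD.le
  have hq : h * √((E + Y) * W.real univ) ≤ (1 + V₀) * (I * D) := by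
    have h1 : √((E + Y) * W.real univ) ≤ √D * (1 + V₀) := by
      refine Real.sqrt_le_iff.2 ⟨by positivity, ?_⟩
      rw [mul_pow, Real.sq_sqrt hD.le]
      calc (E + Y) * W.real univ ≤ (D + D * V₀) * V₀ :=
            mul_le_mul (add_le_add hE hYD) hV hVn (by positivity)
        _ = D * ((1 + V₀) * V₀) := by ring
        _ ≤ D * (1 + V₀) ^ 2 := by
            apply mul_le_mul_of_nonneg_left _ hD.le
            rw [sq]
            exact mul_le_mul_of_nonneg_left (by linarith) (by linarith)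
    calc h * √((E + Y) * W.real univ) ≤ h * (√D * (1 + V₀)) :=
          mul_le_mul_of_nonneg_left h1 hh0.le
      _ = (1 + V₀) * (I * (√D * √D)) := by rw [hheq]; ring
      _ = (1 + V₀) * (I * D) := by rw [Real.mul_self_sqrt hD.le]
  have hr : h / τ * E ≤ I * D := by
    have h1 : h / τ ≤ I := by
      rw [div_le_iff₀ hτ0]
      have : I * √D ≤ I * τ := mul_le_mul_of_nonneg_left (by linarith) hI0.le
      rw [hheq]; linarith
    exact mul_le_mul h1 hE hE0 hI0.le
  set F := δ * (E + √(E * Y)) + δ ^ 2 * Y with hF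
  have hF0 : 0 ≤ F := by positivity
  have hID : 0 ≤ I * D := by positivity
  have hb : F + h * √((E + Y) * W.real univ) + h / τ * E ≤ (2 + V₀) * (F + I * D) := by
    have e1 : (2 + V₀) * (F + I * D) = F + (1 + V₀) * (I * D) + I * D
      + (F + V₀ * F) := by ring
    rw [e1]
    have e2 : 0 ≤ V₀ * F := mul_nonneg hV0 hF0
    linarith
  calc (Z.card : ℝ) * (32 / 3 / c' * (Kv m M * (δ * (E + √(E * Y)) + δ ^ 2 * Y
        + h * √((E + Y) * W.real univ) + h / τ * E)))
      ≤ Z.card * (32 / 3 / c' * (Kv m M * ((2 + V₀) * (F + I * D)))) := by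
        refine mul_le_mul_of_nonneg_left ?_ (Nat.cast_nonneg _)
        refine mul_le_mul_of_nonneg_left ?_ (by positivity)
        exact mul_le_mul_of_nonneg_left hb hKv
    _ = C * F + C * (I * D) := by rw [hC]; ring

end

end Crest.Agent.R234.VVp_762
end

-- ▼ part R234/N0z_309

/-!
Row 234, node N0 (helper309), file z: `N0Prop`.
-/

set_option autoImplicit false

namespace Crest.Agent.R234.N0_309

/-- **N0** -/
theorem n0Prop : Core_809.N0Prop :=
  n0Prop_of inProp Crs_173.thetaProp Sml_870.smallProp VVp_762.vvProp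

end Crest.Agent.R234.N0_309
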