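import Crest.Agent.R234.Leaf1_456
import Crest.Agent.R234.Al7_182

/-!
Row 234 (helper660), task VF-NEARCHG: `Main_456.NearChg`, the change of the plane in `NearQ`
(Caccioppoli's inequality and the monotonicity of the mass ratios).
-/

set_option autoImplicit false

open MeasureTheory Filter Topology Set Metric
open scoped ENNReal NNReal ContDiff
open Crest.GeometryTopology.Submanifold Crest.Agent.R234.Vf_884
open Crest.Agent.R234.Strat3_842 (tilt height)

noncomputable section

namespace Crest.Agent.R234.NearChg_660

open Crest.Agent.R234.Main_456 Crest.Agent.R234.Al4_182 Crest.Agent.R234.Al7_182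

variable {m k : ℕ} {U : Set (Euc k)} {V : Measure (Euc k × L k)}

/-- continuous functions are integrable over `A × univ`, `A` contained in a compact subset of `U`. -/
theorem intOn (hV : Stat m k U V) {g : Euc k × L k → ℝ} (hg : Continuous g) {A K : Set (Euc k)}
    (hA : MeasurableSet A) (hK : IsCompact K) (hAK : A ⊆ K) (hKU : K ⊆ U) :
    IntegrableOn g (A ×ˢ univ) V := by
  have hSt := st_of_stat hV
  obtain ⟨C, hC⟩ := (hK.prod (isCompact_closedBall (0 : L k) 1)).exists_bound_of_continuousOn
    hg.continuousOn
  rw [← integrable_indicator_iff (hA.prod MeasurableSet.univ)]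
  refine Cacc_113.integrable_of (C := max C 0) hSt.pr hSt.fin
    (hg.aestronglyMeasurable.indicator (hA.prod MeasurableSet.univ)) hK hKU ?_ ?_
  · intro z hz
    by_cases hzA : z ∈ A ×ˢ (univ : Set (L k))
    · rw [indicator_of_mem hzA, ← Real.norm_eq_abs]
      refine (hC z ⟨hAK hzA.1, ?_⟩).trans (le_max_left _ _)
      simpa using hz.opNorm_le
    · rw [indicator_of_notMem hzA, abs_zero]
      exact le_max_right _ _
  · intro z hz
    exact indicator_of_notMem (fun h => hz (hAK h.1)) _











end Crest.Agent.R234.NearChg_660
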