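import Crest.Agent.R234.Ng9_290
import Crest.Agent.R234.F3d_433
import Crest.Agent.R234.Mx16_397

-- ▼ part R234/Ng10_290
section

/-!
# Row 234, node F7-GL, part 10 (helper290): `GLP` from the bound of the anomaly

* `BbP` : the bound of the anomaly `M.b` in a block chart (from F3);
* `glp_of : BbP → GLP`.
-/

set_option autoImplicit false
set_option linter.unusedVariables false
set_option linter.unusedSectionVars false
set_option maxSynthPendingDepth 3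

open MeasureTheory Set Function Filter Topology Metric
open Crest.GeometryTopology.Submanifold
open Crest.Agent.R234.Vf_884 Crest.Agent.R234.Ar_870
open Crest.Agent.R234.Main_456 (Frame Msys)
open Crest.Agent.R234.Gi_456
open Crest.Agent.R234.GL_394
open Crest.Agent.R234.GI_640 (g3 g31 g32)
open Crest.Agent.R234.MG_570 (MG)
open Crest.Agent.R234.Stp_518
open Crest.Agent.R234.Tv_618 (KT Wr ttot)
open scoped ENNReal NNReal InnerProductSpace ContDiff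

noncomputable section

namespace Crest.Agent.R234.Ng_290

/-- **bound of the anomaly in a block chart** (from F3) -/
def BbP : Prop := ∀ (m n Q : ℕ), 3 ≤ m → 1 ≤ n → 1 ≤ Q → ∃ N₀ : ℕ, ∀ N : ℕ, N₀ ≤ N →
  ∀ T Λ : ℝ, ∃ Cb : ℝ, 0 ≤ Cb ∧ ∀ q : ℕ, ∃ κ₀ ε L₁ : ℝ, 0 < κ₀ ∧ 0 < ε ∧
    ∀ (U : Set (Euc (m + n))) (D : VarifoldData m (m + n)) (x : Euc (m + n))
      (M : Mo m n (m + n)) (a cT K : ℝ),
      Sit U D Q x M ε Λ → 0 ≤ M.κ → M.κ ≤ κ₀ → MG N M.κ (Real.exp (cT - M.lb)) M.u →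
      4 ≤ K → a ≤ cT - 1 / K → M.lb - T ≤ a → cT ≤ M.lb → 0 < M.I x (VD D) cT →
      L₁ ≤ lam (M.I x (VD D)) cT → K ≤ lam (M.I x (VD D)) cT ^ 3 →
      ∀ l ∈ Icc a (cT - 1 / K), M.b x (VD D) Q l ≤
        Cb * (M.κ * Real.exp (cT - M.lb) + ‖fderiv ℝ M.u 0‖) * M.I x (VD D) l +
          (lam (M.I x (VD D)) cT ^ q)⁻¹ * M.I x (VD D) cT

theorem FlatPack.mono {m n k : ℕ} {D : VarifoldData m k} {x : Euc k} {Q : ℕ} {t ε ε' Λ : ℝ}
    {π : Euc k →L[ℝ] Euc m} {ρ : Euc k →L[ℝ] Euc n} (h : Top_395.FlatPack D x Q t ε Λ π ρ)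
    (ht : 0 ≤ t) (hε : ε ≤ ε') : Top_395.FlatPack D x Q t ε' Λ π ρ where
  frame := h.frame
  sup := fun z h1 h2 => (h.sup z h1 h2).trans (by gcongr)
  supae := by
    filter_upwards [h.supae] with p hp h1
    exact (hp h1).trans (by gcongr)
  near := ⟨h.near.1, h.near.2.1.trans (by gcongr), h.near.2.2.trans (by gcongr)⟩
  cyl := by
    intro A hA
    obtain ⟨h1, h2, h3, h4, h5, h6⟩ := h.cyl A hA
    refine ⟨h1, h2, h3, h4, ?_, h6⟩
    filter_upwards [h5] with p hp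
    exact hp.trans hε
  mass_le := h.mass_le
  le_mass := h.le_mass

theorem Sit.mono {m n k : ℕ} {U : Set (Euc k)} {D : VarifoldData m k} {Q : ℕ} {x : Euc k}
    {M : Mo m n k} {ε ε' Λ : ℝ} (h : Sit U D Q x M ε Λ) (hε : ε ≤ ε') : Sit U D Q x M ε' Λ :=
  ⟨h.opn, h.int, h.st, h.Q1, h.Th, h.sub, FlatPack.mono h.pack M.S_pos.le hε⟩

/-- `e^(-lam) = e^(-2l) I` -/
theorem exp_neg_lam {I : ℝ → ℝ} {l : ℝ} (h : 0 < I l) :
    Real.exp (-lam I l) = Real.exp (-2 * l) * I l := by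
  unfold lam
  rw [show -(2 * l - Real.log (I l)) = -2 * l + Real.log (I l) by ring, Real.exp_add,
    Real.exp_log h]

/-- powers of `K ≤ L^3` against `H = e^(-L)` -/
theorem beatK {P : ℝ} (hP : 0 ≤ P) (p : ℕ) : ∃ L0 : ℝ, 1 ≤ L0 ∧ ∀ L K : ℝ, L0 ≤ L → 0 ≤ K →
    K ≤ L ^ 3 → P * K ^ p * Real.exp (-L) ≤ 1 := by
  obtain ⟨L0, h0, h1⟩ := beat2 (P := P) (A := 1) (θ := 1) hP zero_le_one one_pos p 3 0
  refine ⟨L0, h0, fun L K hL hK hK3 => ?_⟩
  have h2 := h1 L K (Real.exp (-L)) hL hK (by rw [one_mul]; exact hK3) (Real.exp_pos _).le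
    (by rw [one_mul])
  rw [Real.rpow_one, pow_zero, inv_one] at h2
  exact h2

theorem exists_min7 {a1 a2 a3 a4 a5 a6 a7 : ℝ} (h1 : 0 < a1) (h2 : 0 < a2) (h3 : 0 < a3)
    (h4 : 0 < a4) (h5 : 0 < a5) (h6 : 0 < a6) (h7 : 0 < a7) : ∃ x : ℝ, 0 < x ∧ x ≤ a1 ∧ x ≤ a2 ∧
      x ≤ a3 ∧ x ≤ a4 ∧ x ≤ a5 ∧ x ≤ a6 ∧ x ≤ a7 := by
  refine ⟨min a1 (min a2 (min a3 (min a4 (min a5 (min a6 a7))))), by positivity, ?_, ?_, ?_, ?_,
    ?_, ?_, ?_⟩ <;> simp

theorem hlow3 : ∀ a t : ℝ, 0 ≤ t → t ≤ a → a ≤ 1 → 3 * (1 - a) ^ 2 ≤ -g31 t :=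
  fun a t _ ht ha => GI_640.g31_lower' ha ht

/-- numbers of the scale `sN` -/
theorem sN_num {cT K lb T : ℝ} (hK : 1 ≤ K) (hT : lb - T ≤ cT) (hc : cT ≤ lb) :
    Real.exp (-(T + 2)) * Real.exp lb ≤ sN cT K ∧ sN cT K ≤ Real.exp lb ∧
      (1 + eN K) * sN cT K ≤ 2 * sN cT K ∧ (1 + eN K) * sN cT K ≤ Real.exp lb ∧
      (1 + eN K) * sN cT K ≤ Real.exp (cT - 1 / (4 * K)) ∧
      sN cT K / 4 ≤ Real.exp (cT - 1 / (4 * K)) := by
  have hK0 : 0 < K := by linarith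
  have hse := sN_pos hK (cT := cT)
  have hsm2 := sN_mul hK (cT := cT)
  have he1 := eN_le hK
  have he0 := eN_pos hK
  have hr34 : Real.exp (cT - 3 / (4 * K)) ≤ Real.exp (cT - 1 / (4 * K)) := by
    refine Real.exp_le_exp.2 ?_
    have : 1 / (4 * K) ≤ 3 / (4 * K) := by gcongr; norm_num
    linarith
  have hr35 : Real.exp (cT - 1 / (4 * K)) ≤ Real.exp lb := by
    refine Real.exp_le_exp.2 ?_
    have : 0 < 1 / (4 * K) := by positivity
    linarith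
  have h7 : sN cT K ≤ (1 + eN K) * sN cT K := by nlinarith
  refine ⟨?_, (sN_le hK).trans (Real.exp_le_exp.2 hc), by nlinarith, ?_, ?_, ?_⟩
  · refine le_trans ?_ (sN_ge hK)
    rw [← Real.exp_add]
    have h2 : Real.exp (-(T + 2) + lb) ≤ Real.exp (cT - 2) := Real.exp_le_exp.2 (by linarith)
    refine h2.trans ?_
    rw [show cT - 2 = (cT - 1) - 1 by ring, Real.exp_sub (cT - 1) 1]
    have h5 := Real.exp_one_gt_d9
    have h6 := Real.exp_pos (cT - 1)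
    exact div_le_div_of_nonneg_left h6.le (by norm_num) (by linarith)
  · rw [hsm2]; exact hr34.trans hr35
  · rw [hsm2]; exact hr34
  · rw [hsm2] at h7
    have h8 := h7.trans hr34
    linarith

/-- **the total variation input of a block chart** -/
theorem tv_blk (m n Q : ℕ) (hm : 1 ≤ m) (T : ℝ) (hT : 0 ≤ T) : ∃ κ₁ : ℝ, 0 < κ₁ ∧
    ∃ Ct : ℝ, 0 ≤ Ct ∧ ∀ {C ε Λ cT K : ℝ} {U : Set (Euc (m + n))} {D : VarifoldData m (m + n)}
      {x : Euc (m + n)} {M : Mo m n (m + n)}, Sit U D Q x M ε Λ → 0 < ε → ε ≤ κ₁ → 0 ≤ M.κ →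
      1 ≤ C → C * M.κ ≤ κ₁ → MgF m n C M.κ (Real.exp (cT - M.lb)) M.S M.u M.w → 1 ≤ K →
      M.lb - T ≤ cT → cT ≤ M.lb →
      Cd1 U (VD D) (M.reg x) M.π M.ρ x M.S M.w 0 M.lb (C * (M.κ * Real.exp (cT - M.lb))) cT K ∧
      (Cd m 3 * K ^ 2 * (Real.exp (-2 * cT) * II (ch M.π M.ρ x M.S M.w 0)
        (VK (VD D) (M.reg x)) g31 cT) ≤ ((64 * K)⁻¹) ^ (m + 2) →
      ∃ (e2 : Measure (Euc m)) (sig : ℝ),
      TV (ch M.π M.ρ x M.S M.w 0) (VK (VD D) (K1 M.π M.ρ x M.S M.w 0 (M.reg x)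
        (hf1 m 3 cT K (Real.exp (-2 * cT) *
          II (ch M.π M.ρ x M.S M.w 0) (VK (VD D) (M.reg x)) g31 cT)) cT K)) Q
        ((1 + eN K / 2) * sN cT K) Ct
        ((C * (M.κ * Real.exp (cT - M.lb))) / (sN cT K) ^ 2) sig e2 ∧ 0 ≤ sig ∧
      sig ≤ Ct * ((eN K)⁻¹) ^ (2 * m + 2) * (sN cT K) ^ (m + 1) *
        (tN (ch M.π M.ρ x M.S M.w 0) (VK (VD D) (K1 M.π M.ρ x M.S M.w 0 (M.reg x)
        (hf1 m 3 cT K (Real.exp (-2 * cT) *
          II (ch M.π M.ρ x M.S M.w 0) (VK (VD D) (M.reg x)) g31 cT)) cT K)) cT K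
            (C * (M.κ * Real.exp (cT - M.lb))) *
          tN (ch M.π M.ρ x M.S M.w 0) (VK (VD D) (K1 M.π M.ρ x M.S M.w 0 (M.reg x)
        (hf1 m 3 cT K (Real.exp (-2 * cT) *
          II (ch M.π M.ρ x M.S M.w 0) (VK (VD D) (M.reg x)) g31 cT)) cT K)) cT K
            (C * (M.κ * Real.exp (cT - M.lb))) ^ (1 / (m : ℝ)))) := by
  have ho := ome_pos m
  have hΛ' : (0:ℝ) ≤ (Q + 1) * (ome m * 3 ^ m) := by positivity
  obtain ⟨κt, hκt, Ct, hCt, hTv⟩ := exists_tv m n Q hm hΛ'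
  obtain ⟨δ, hδ, hδ1, hMs⟩ := masses m Q hm (T + 2) (by linarith)
  obtain ⟨κ₁, hκ₁0, k1, k2, k3, k4, -, -, -⟩ := exists_min7 (a1 := 1 / 64) (a2 := 1 / ((m:ℝ) + 1))
    (a3 := κt) (a4 := δ) (a5 := 1) (a6 := 1) (a7 := 1) (by norm_num) (by positivity) hκt hδ
    one_pos one_pos one_pos
  refine ⟨κ₁, hκ₁0, Ct, hCt, ?_⟩
  intro C ε Λ cT K U D x M hS hε0 hε hκ0 hC1 hCκ hF hK hlT hcT
  have hC0 : 0 < C := by linarith
  have hE1 : Real.exp (cT - M.lb) ≤ 1 := Real.exp_le_one_iff.2 (by linarith)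
  have hE0 := Real.exp_pos (cT - M.lb)
  have hκ'1 : C * (M.κ * Real.exp (cT - M.lb)) ≤ κ₁ := by
    calc C * (M.κ * Real.exp (cT - M.lb)) = C * M.κ * Real.exp (cT - M.lb) := by ring
      _ ≤ C * M.κ * 1 := mul_le_mul_of_nonneg_left hE1 (by positivity)
      _ ≤ κ₁ := by rw [mul_one]; exact hCκ
  have hm0 : (0:ℝ) ≤ m := Nat.cast_nonneg m
  have hmκ : (m:ℝ) * (C * M.κ) ≤ 1 := by
    have h1 := hCκ.trans k2
    rw [le_div_iff₀ (by positivity)] at h1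
    nlinarith [mul_nonneg hC0.le hκ0]
  have h8 : 8 * (C * M.κ) ≤ 1 := by linarith
  have h16 : ε ≤ 1 / 8 := by linarith
  have hcd := cd1_of_sit hm hS h16 hC1 hκ0 h8 hmκ hF hK hcT
  refine ⟨hcd, fun hsm => ?_⟩
  have hH0 : 0 ≤ Real.exp (-2 * cT) *
      II (ch M.π M.ρ x M.S M.w 0) (VK (VD D) (M.reg x)) g31 cT :=
    mul_nonneg (Real.exp_pos _).le (II_nonneg hcd.ok hcd.isOn pf_cubic.pr.anti cT)
  have hae := hcd.fine hm pf_cubic (by norm_num : (0:ℝ) < 3) hlow3 hsm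
  have hh0 := hf1_nonneg (m := m) (cT := cT) (N := K) (by norm_num : (0:ℝ) < 3) hH0
  have hh1 := hf1_le (cT := cT) (m := m) (by norm_num : (0:ℝ) < 3) hH0 hK hsm
  obtain ⟨hl, hs⟩ := hcd.loc1 hae
  have hfb := fb_of_sit hS hε0.le (by linarith) (hCκ.trans k1) hF
  obtain ⟨n1, n2, n3, n4, n5, n6⟩ := sN_num hK hlT hcT
  obtain ⟨hm1', hm2'⟩ := hMs hfb hS.opn (hε.trans k4) (hCκ.trans k4) (hε.trans k4) hl (sN cT K)
    n1 n2 ((1 + eN K) * sN cT K) n3 n4 n5 n6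
  exact hTv hcd hS.int (hκ'1.trans k3) hh0 hh1 hae hm1' hm2'

set_option maxHeartbeats 1000000 in
theorem glp_of (hB : BbP) : GLP := by
  intro m n Q hm hn hQ
  have hm1 : 1 ≤ m := by omega
  obtain ⟨N₀, hN₀⟩ := hB m n Q hm hn hQ
  refine ⟨max N₀ 2, fun N hN T Λ => ?_⟩
  obtain ⟨Cb, hCb, hBb⟩ := hN₀ N (le_trans (le_max_left _ _) hN) T Λ
  obtain ⟨C, hC1, hMg⟩ := mg_facts m n N (le_trans (le_max_right _ _) hN)
  have hC0 : 0 < C := by linarith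
  obtain ⟨T', hT'0, hTT'⟩ : ∃ T' : ℝ, 0 ≤ T' ∧ T ≤ T' := ⟨max T 0, le_max_right _ _, le_max_left _ _⟩
  obtain ⟨κt, hκt, Ct, hCt, hTv⟩ := tv_blk m n Q hm1 T' hT'0
  have hA := Ac_nonneg m n
  have hC2 := C2_nonneg hCt (by norm_num : (0:ℝ) ≤ 6)
  have hCg : 0 ≤ Cg m 6 (m + 8) := Cg_nonneg (by norm_num) (by positivity)
  refine ⟨max 1 (C2 Ct 6), (Cg m 6 (m + 8) + C2 Ct 6) * (2 * Ac m n) * C + Cb, le_max_left _ _,
    by positivity, fun q => ?_⟩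
  obtain ⟨κB, εB, LB, hκB, hεB, hBq⟩ := hBb (q + 1)
  -- constants of the heights
  have hPF : 0 ≤ PF m (Ac m n) 6 (m + 8) (C1s m) 3 Ct T' := by
    have e1 : 0 ≤ Pt m (C1s m) 3 := by have := C1s_nonneg m; unfold Pt; positivity
    have e2 := Real.rpow_nonneg e1 (1 / (m : ℝ))
    have e3 := C1s_nonneg m
    have e4 : 0 ≤ Ph m (C1s m) 3 T' := by unfold Ph; positivity
    unfold PF Pw Ps
    positivity
  have hCd := Cd_pos (m := m) (by norm_num : (0:ℝ) < 3)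
  have hPh : 0 ≤ Ph m (C1s m) 3 T' := by have := C1s_nonneg m; unfold Ph; positivity
  obtain ⟨La, hLa1, hLa⟩ := beat2 (P := PF m (Ac m n) 6 (m + 8) (C1s m) 3 Ct T') (A := 1)
    hPF zero_le_one (th0_pos (m := m)) (2 * m + 10) 3 (q + 1)
  obtain ⟨Lc, hLc1, hLc⟩ := beatK (P := Cd m 3 * 64 ^ (m + 2)) (by positivity) (m + 4)
  obtain ⟨Ld, hLd1, hLd⟩ := beatK hPh (m + 2)
  obtain ⟨κ₁, hκ₁0, k1, k2, k3, k4, -, -, -⟩ := exists_min7 (a1 := 1 / 64)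
    (a2 := 1 / (Ac m n + 1)) (a3 := κt) (a4 := 1 / (4 * Real.exp 2)) (a5 := 1) (a6 := 1) (a7 := 1)
    (by norm_num) (by positivity) hκt (by positivity) one_pos one_pos one_pos
  obtain ⟨κ₀, hκ₀0, k5, k6, -, -, -, -, -⟩ := exists_min7 (a1 := κB)
    (a2 := κ₁ / C) (a3 := 1) (a4 := 1) (a5 := 1) (a6 := 1) (a7 := 1)
    hκB (by positivity) one_pos one_pos one_pos one_pos one_pos
  obtain ⟨ε, hε0, hε1, hε2, -, -, -, -, -⟩ := exists_min7 (a1 := εB)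
    (a2 := κt) (a3 := 1) (a4 := 1) (a5 := 1) (a6 := 1) (a7 := 1)
    hεB hκt one_pos one_pos one_pos one_pos one_pos
  refine ⟨κ₀, ε, max LB (max La (max Lc (max Ld 2))), hκ₀0, hε0, ?_⟩
  intro U D x M a cT K hS hκ0 hκle hMG hK ha haT hcT hIpos hL hKL
  have hLB : LB ≤ lam (M.I x (VD D)) cT := (le_max_left _ _).trans hL
  have hLa' : La ≤ lam (M.I x (VD D)) cT := (le_max_left _ _).trans ((le_max_right _ _).trans hL)
  have hLc' : Lc ≤ lam (M.I x (VD D)) cT := (le_max_left _ _).trans ((le_max_right _ _).trans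
    ((le_max_right _ _).trans hL))
  have hLd' : Ld ≤ lam (M.I x (VD D)) cT := (le_max_left _ _).trans ((le_max_right _ _).trans
    ((le_max_right _ _).trans ((le_max_right _ _).trans hL)))
  have hL2' : 2 ≤ lam (M.I x (VD D)) cT := (le_max_right _ _).trans ((le_max_right _ _).trans
    ((le_max_right _ _).trans ((le_max_right _ _).trans hL)))
  clear hL
  have hbb := hBq U D x M a cT K (Sit.mono hS hε1) hκ0 (hκle.trans k5) hMG hK ha haT
    hcT hIpos hLB hKL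
  have hHL := exp_neg_lam hIpos
  generalize lam (M.I x (VD D)) cT = L at *
  have hL0 : 0 < L := by linarith
  have hCκ : C * M.κ ≤ κ₁ := by
    have h1 : M.κ ≤ κ₁ / C := hκle.trans k6
    rw [le_div_iff₀ hC0] at h1
    linarith
  have hCκ0 : 0 ≤ C * M.κ := by positivity
  have hE1 : Real.exp (cT - M.lb) ≤ 1 := Real.exp_le_one_iff.2 (by linarith)
  have hE0 := Real.exp_pos (cT - M.lb)
  have hF : MgF m n C M.κ (Real.exp (cT - M.lb)) M.S M.u M.w :=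
    hMg M.κ _ M.u hMG hκ0 (by linarith) M.S M.S_pos
  have hK1 : 1 ≤ K := by linarith
  have hK0 : 0 < K := by linarith
  have hKi : 0 < 1 / K := by positivity
  obtain ⟨hcd, htv⟩ := hTv hS hε0 hε2 hκ0 hC1 (hCκ.trans k3) hF hK1 (by linarith) hcT
  have hκ'1 : C * (M.κ * Real.exp (cT - M.lb)) ≤ κ₁ := by
    calc C * (M.κ * Real.exp (cT - M.lb)) = C * M.κ * Real.exp (cT - M.lb) := by ring
      _ ≤ C * M.κ * 1 := mul_le_mul_of_nonneg_left hE1 hCκ0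
      _ ≤ κ₁ := by rw [mul_one]; exact hCκ
  -- the height
  have hH' : Real.exp (-2 * cT) * II (ch M.π M.ρ x M.S M.w 0) (VK (VD D) (M.reg x)) g31 cT =
    Real.exp (-L) := hHL.symm
  have hHe := Real.exp_pos (-L)
  have hsm : Cd m 3 * K ^ 2 * (Real.exp (-2 * cT) *
      II (ch M.π M.ρ x M.S M.w 0) (VK (VD D) (M.reg x)) g31 cT) ≤ ((64 * K)⁻¹) ^ (m + 2) := by
    have h1 := hLc L K hLc' hK0.le hKL
    rw [inv_pow, ← one_div, le_div_iff₀ (by positivity), hH']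
    calc Cd m 3 * K ^ 2 * Real.exp (-L) * (64 * K) ^ (m + 2) =
        Cd m 3 * 64 ^ (m + 2) * K ^ (m + 4) * Real.exp (-L) := by rw [mul_pow]; ring
      _ ≤ 1 := h1
  have hH1 : Ph m (C1s m) 3 T' * K ^ (m + 2) * (Real.exp (-2 * cT) *
      II (ch M.π M.ρ x M.S M.w 0) (VK (VD D) (M.reg x)) g31 cT) ≤ 1 := by
    rw [hH']; exact hLd L K hLd' hK0.le hKL
  have hH2 : Real.exp (-2 * cT) *
      II (ch M.π M.ρ x M.S M.w 0) (VK (VD D) (M.reg x)) g31 cT ≤ 1 := by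
    rw [hH']; exact Real.exp_le_one_iff.2 (by linarith)
  have hf0 : 0 ≤ ‖fderiv ℝ M.u 0‖ := norm_nonneg _
  have hδb : 0 ≤ Cb * (M.κ * Real.exp (cT - M.lb) + ‖fderiv ℝ M.u 0‖) := by positivity
  have hωb : 0 ≤ (L ^ (q + 1))⁻¹ * M.I x (VD D) cT := mul_nonneg (by positivity) hIpos.le
  have hAκ : Ac m n * (C * (M.κ * Real.exp (cT - M.lb))) ≤ 1 := by
    have h1 := hκ'1.trans k2
    rw [le_div_iff₀ (by positivity)] at h1
    nlinarith [mul_nonneg hC0.le (mul_nonneg hκ0 hE0.le)]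
  have hκe : C * (M.κ * Real.exp (cT - M.lb)) * (4 * Real.exp 2) ≤ 1 := by
    have h1 := hκ'1.trans k4
    rwa [le_div_iff₀ (by positivity)] at h1
  obtain ⟨d0, hd0, hd1, hst⟩ := hcd.stepW (T := T') (lo := a) hm1 pf_cubic
    (by norm_num : (0:ℝ) < 3) hlow3 (by linarith) (by linarith) hAκ hκe hCt hsm hH1 hH2
    (htv hsm) hδb hωb hbb
  have hfin : PF m (Ac m n) 6 (m + 8) (C1s m) 3 Ct T' * K ^ (2 * m + 10) *
      (Real.exp (-2 * cT) * II (ch M.π M.ρ x M.S M.w 0) (VK (VD D) (M.reg x)) g31 cT) ^ th0 m *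
      II (ch M.π M.ρ x M.S M.w 0) (VK (VD D) (M.reg x)) g31 cT ≤
      (L ^ (q + 1))⁻¹ * M.I x (VD D) cT := by
    rw [hH']
    have h1 := hLa L K (Real.exp (-L)) hLa' hK0.le (by rw [one_mul]; exact hKL) hHe.le
      (by rw [one_mul])
    exact mul_le_mul_of_nonneg_right h1 hIpos.le
  have h3 : (L ^ (q + 1))⁻¹ * M.I x (VD D) cT + (L ^ (q + 1))⁻¹ * M.I x (VD D) cT ≤
      (L ^ q)⁻¹ * M.I x (VD D) cT := by
    rw [← two_mul, ← mul_assoc]
    refine mul_le_mul_of_nonneg_right ?_ hIpos.le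
    rw [pow_succ, mul_inv, mul_left_comm]
    have h4 : 0 ≤ (L ^ q)⁻¹ := by positivity
    have h5 : 2 * L⁻¹ ≤ 1 := by
      rw [← div_eq_mul_inv, div_le_one hL0]; exact hL2'
    calc (L ^ q)⁻¹ * (2 * L⁻¹) ≤ (L ^ q)⁻¹ * 1 := mul_le_mul_of_nonneg_left h5 h4
      _ = _ := mul_one _
  refine ⟨_, _, ?_, ?_, hst.weaken (le_max_right _ _) ?_ le_rfl⟩
  · have h1 : 0 ≤ (Real.exp (-2 * cT) *
        II (ch M.π M.ρ x M.S M.w 0) (VK (VD D) (M.reg x)) g31 cT) ^ th0 m := by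
      rw [hH']; positivity
    have h2 : 0 ≤ II (ch M.π M.ρ x M.S M.w 0) (VK (VD D) (M.reg x)) g31 cT := hIpos.le
    exact add_nonneg (mul_nonneg (mul_nonneg (mul_nonneg hPF (by positivity)) h1) h2) hωb
  · exact (add_le_add hfin le_rfl).trans h3
  · have e2 : 0 ≤ (Cg m 6 (m + 8) + C2 Ct 6) * (2 * Ac m n) * C := by positivity
    have e3 := mul_nonneg e2 hf0
    have e4 : (Cg m 6 (m + 8) + C2 Ct 6) * (2 * Ac m n) *
        (C * (M.κ * Real.exp (cT - M.lb))) +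
        Cb * (M.κ * Real.exp (cT - M.lb) + ‖fderiv ℝ M.u 0‖) ≤
        ((Cg m 6 (m + 8) + C2 Ct 6) * (2 * Ac m n) * C + Cb) *
        (M.κ * Real.exp (cT - M.lb) + ‖fderiv ℝ M.u 0‖) := by
      have e5 : ((Cg m 6 (m + 8) + C2 Ct 6) * (2 * Ac m n) * C + Cb) *
        (M.κ * Real.exp (cT - M.lb) + ‖fderiv ℝ M.u 0‖) =
        (Cg m 6 (m + 8) + C2 Ct 6) * (2 * Ac m n) *
        (C * (M.κ * Real.exp (cT - M.lb))) +
        Cb * (M.κ * Real.exp (cT - M.lb) + ‖fderiv ℝ M.u 0‖) +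
        (Cg m 6 (m + 8) + C2 Ct 6) * (2 * Ac m n) * C * ‖fderiv ℝ M.u 0‖ := by ring
      rw [e5]
      linarith
    exact e4

end Crest.Agent.R234.Ng_290
end
end

-- ▼ part R234/Ng11_290
section

/-!
# Row 234, node F7-GL, part 11 (helper290): the anomaly in a block chart from F3

`bbP_of : (∀ m n Q, F3P m n (m + n) Q) → BbP`. (`g3_lip` is copied from helper534's Qp10.)
-/

set_option autoImplicit false
set_option linter.unusedVariables false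
set_option linter.unusedSectionVars false
set_option maxSynthPendingDepth 3

open MeasureTheory Set Function Filter Topology Metric
open Crest.GeometryTopology.Submanifold
open Crest.Agent.R234.Vf_884 Crest.Agent.R234.Ar_870
open Crest.Agent.R234.Main_456 (Frame Msys)
open Crest.Agent.R234.Gi_456
open Crest.Agent.R234.GL_394
open Crest.Agent.R234.GI_640 (g3 g31 g32)
open Crest.Agent.R234.MG_570 (MG)
open Crest.Agent.R234.Stp_518
open Crest.Agent.R234.Tv_618 (KT Wr ttot)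
open scoped ENNReal NNReal InnerProductSpace ContDiff

noncomputable section

namespace Crest.Agent.R234.Ng_290

section mgs

variable {m n : ℕ}

/-- derivatives of the scaled function -/
theorem iter_scale {N : ℕ} {u : Euc m → Euc n} (hu : ContDiff ℝ N u) {S : ℝ} (hS : 0 < S) {j : ℕ}
    (hj : j ≤ N) (Y : Euc m) : ‖iteratedFDeriv ℝ j (fun X => S • u (S⁻¹ • X)) Y‖ ≤
      S * (‖iteratedFDeriv ℝ j u (S⁻¹ • Y)‖ * (S⁻¹) ^ j) := by
  set g : Euc m →L[ℝ] Euc m := S⁻¹ • ContinuousLinearMap.id ℝ (Euc m) with hg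
  have hgn : ‖g‖ ≤ S⁻¹ := by
    refine g.opNorm_le_bound (inv_nonneg.2 hS.le) fun y => ?_
    rw [hg, ContinuousLinearMap.smul_apply, norm_smul, Real.norm_of_nonneg (inv_nonneg.2 hS.le)]
    rfl
  have h1 : (fun X => S • u (S⁻¹ • X)) = S • (u ∘ g) := by
    funext X; rfl
  have hc : ContDiff ℝ N (u ∘ g) := hu.comp g.contDiff
  rw [h1, iteratedFDeriv_const_smul_apply (hc.of_le (by exact_mod_cast hj)).contDiffAt, norm_smul,
    Real.norm_of_nonneg hS.le, g.iteratedFDeriv_comp_right hu Y (by exact_mod_cast hj)]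
  refine mul_le_mul_of_nonneg_left ?_ hS.le
  refine (ContinuousMultilinearMap.norm_compContinuousLinearMap_le _ _).trans ?_
  refine mul_le_mul_of_nonneg_left ?_ (norm_nonneg _)
  calc ∏ _i : Fin j, ‖g‖ = ‖g‖ ^ j := by simp
    _ ≤ _ := pow_le_pow_left₀ (norm_nonneg _) hgn j

/-- regularity of a reference -/
theorem mg_smooth (m n N : ℕ) (hN : 3 ≤ N) : ∃ κs : ℝ, 0 < κs ∧ ∀ (κ R : ℝ) (u : Euc m → Euc n),
    MG N κ R u → κ ≤ κs → ∀ S : ℝ, 0 < S →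
      ContDiff ℝ 5 (fun X => S • u (S⁻¹ • X)) ∧
      (∃ B : ℝ, ∀ j ≤ 5, ∀ Y, ‖iteratedFDeriv ℝ j (fun X => S • u (S⁻¹ • X)) Y‖ ≤ B) ∧
      ContDiffOn ℝ ∞ (fun X => S • u (S⁻¹ • X)) (ball 0 (R * S)) := by
  obtain ⟨C, hC, H⟩ := Mx17_397.bdP m n N
  obtain ⟨κs, hκs, Hs⟩ := Mx16_397.exists_smooth_syn (F := Euc m)
    (EuclideanSpace.basisFun (Fin n) ℝ) N
  refine ⟨κs, hκs, fun κ R u hu hκ S hS => ?_⟩
  obtain ⟨hcd, hb⟩ := H κ R u hu
  have hcd' : ContDiff ℝ ((N + 2 : ℕ) : ℕ∞ω) u := hcd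
  obtain ⟨a, ha1, ha2, ha3, ha4⟩ := hu
  have hκ0 : 0 ≤ C * κ := (norm_nonneg _).trans (hb 0 (by omega) 0)
  have hSi : 0 < S⁻¹ := inv_pos.2 hS
  have hN5 : (5 : ℕ∞ω) ≤ ((N + 2 : ℕ) : ℕ∞ω) := (Nat.cast_le (α := WithTop ℕ∞)).2
    (show 5 ≤ N + 2 by omega)
  refine ⟨((hcd'.of_le hN5).comp (contDiff_const_smul _)).const_smul S, ?_, ?_⟩
  · refine ⟨∑ j ∈ Finset.range 6, S * (C * κ * (S⁻¹) ^ j), fun j hj Y => ?_⟩
    refine (iter_scale hcd' hS (show j ≤ N + 2 by omega) Y).trans ?_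
    refine le_trans ?_ (Finset.single_le_sum (f := fun j => S * (C * κ * (S⁻¹) ^ j))
      (fun i _ => by positivity) (Finset.mem_range.2 (show j < 6 by omega)))
    have := hb j (by omega) (S⁻¹ • Y)
    gcongr
  · have h1 : ContDiffOn ℝ ∞ u (ball 0 R) := by
      rw [Mx16_397.rep_syn ha3]
      refine Hs a (ha2.trans hκ) (ball 0 R) isOpen_ball fun z hz => ?_
      have h2 := ha4 z hz
      rw [Mx16_397.Msys_eq, Mx16_397.rep_syn ha3] at h2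
      exact h2
    refine (h1.comp (contDiff_const_smul S⁻¹).contDiffOn fun X hX => ?_).const_smul S
    rw [mem_ball_zero_iff] at hX ⊢
    rw [norm_smul, Real.norm_of_nonneg hSi.le, inv_mul_lt_iff₀ hS, mul_comm]
    exact hX

/-- the derivatives in the units of the scale `s` -/
theorem MgF.der_le {C κ R S s : ℝ} {u w : Euc m → Euc n} (h : MgF m n C κ R S u w) (hS : 0 < S)
    (hs : 0 < s) (hsS : s ≤ S) (hCκ : 0 ≤ C * κ) :
    ∀ j, 1 ≤ j → j ≤ 3 → ∀ Y ∈ ball (0 : Euc m) (2 * s), s ^ (j - 1) * ‖iteratedFDeriv ℝ j w Y‖ ≤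
      ‖fderiv ℝ u 0‖ + 2 * (C * κ) * (s / S) := by
  intro j h1 h2 Y hY
  have hsS0 : 0 ≤ s / S := by positivity
  have hf0 : 0 ≤ ‖fderiv ℝ u 0‖ := norm_nonneg _
  have hprod : 0 ≤ C * κ * (s / S) := by positivity
  have hcd : ContDiff ℝ 4 w := h.gr.cd
  interval_cases j
  · rw [norm_iteratedFDeriv_one]
    have hdiff : Differentiable ℝ (fderiv ℝ w) :=
      (hcd.fderiv_right (m := 3) (by norm_num)).differentiable (by norm_num)
    have h3 := (convex_univ : Convex ℝ (univ : Set (Euc m))).norm_image_sub_le_of_norm_fderiv_le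
      (𝕜 := ℝ) (f := fderiv ℝ w) (C := C * κ / S) (fun y _ => hdiff y) (fun y _ => h.d2 y)
      (mem_univ 0) (mem_univ Y)
    have h4 : fderiv ℝ w 0 = fderiv ℝ u 0 := by
      have := h.der 0
      rwa [smul_zero] at this
    have h5 : ‖fderiv ℝ w Y‖ ≤ ‖fderiv ℝ w Y - fderiv ℝ w 0‖ + ‖fderiv ℝ w 0‖ := by
      have := norm_add_le (fderiv ℝ w Y - fderiv ℝ w 0) (fderiv ℝ w 0)
      rwa [sub_add_cancel] at this
    rw [mem_ball_zero_iff] at hY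
    have h6 : C * κ / S * ‖Y - 0‖ ≤ C * κ / S * (2 * s) := by
      rw [sub_zero]
      exact mul_le_mul_of_nonneg_left hY.le (by positivity)
    have h7 : C * κ / S * (2 * s) = 2 * (C * κ) * (s / S) := by ring
    rw [h4] at h5 h3
    simp only [Nat.sub_self, pow_zero, one_mul]
    linarith
  · have h3 := h.d2 Y
    rw [← norm_iteratedFDeriv_one, norm_iteratedFDeriv_fderiv] at h3
    have h4 : s ^ (2 - 1) * ‖iteratedFDeriv ℝ 2 w Y‖ ≤ s * (C * κ / S) := by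
      simp only [show (2 - 1 : ℕ) = 1 from rfl, pow_one]
      exact mul_le_mul_of_nonneg_left h3 hs.le
    have h5 : s * (C * κ / S) = C * κ * (s / S) := by ring
    linarith
  · have h3 := h.d3 Y
    rw [← norm_iteratedFDeriv_one, norm_iteratedFDeriv_fderiv, norm_iteratedFDeriv_fderiv] at h3
    have h4 : s ^ (3 - 1) * ‖iteratedFDeriv ℝ 3 w Y‖ ≤ s ^ 2 * (C * κ / S ^ 2) := by
      simp only [show (3 - 1 : ℕ) = 2 from rfl]
      exact mul_le_mul_of_nonneg_left h3 (by positivity)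
    have h5 : s ^ 2 * (C * κ / S ^ 2) = C * κ * (s / S) * (s / S) := by field_simp
    have h6 : s / S ≤ 1 := by rw [div_le_one hS]; exact hsS
    have h7 : C * κ * (s / S) * (s / S) ≤ C * κ * (s / S) * 1 := mul_le_mul_of_nonneg_left h6 hprod
    linarith

end mgs

section prof

variable {m : ℕ}

theorem g3_lip {a b : ℝ} (ha : 0 ≤ a) (hb : 0 ≤ b) :
    |g3 (a ^ 2) - g3 (b ^ 2)| ≤ 6 * |a - b| := by
  wlog hab : a ≤ b generalizing a b with H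
  · rw [abs_sub_comm, abs_sub_comm a b]
    exact H hb ha (by linarith)
  have e0 : |a - b| = b - a := by rw [abs_sub_comm, abs_of_nonneg (by linarith)]
  rw [e0]
  unfold g3
  rcases le_total 1 a with h1 | h1
  · have h2 : max 0 (1 - a ^ 2) = 0 := max_eq_left (by nlinarith)
    have h3 : max 0 (1 - b ^ 2) = 0 := max_eq_left (by nlinarith)
    rw [h2, h3]
    simp
    linarith
  · have h2 : max 0 (1 - a ^ 2) = 1 - a ^ 2 := max_eq_right (by nlinarith)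
    rw [h2]
    have hA0 : 0 ≤ 1 - a ^ 2 := by nlinarith
    have hA1 : 1 - a ^ 2 ≤ 1 := by nlinarith [sq_nonneg a]
    rcases le_total 1 b with h4 | h4
    · have h3 : max 0 (1 - b ^ 2) = 0 := max_eq_left (by nlinarith)
      rw [h3]
      have e1 : (1 - a ^ 2) ^ 3 ≤ 1 - a ^ 2 := by
        have := mul_nonneg hA0 hA0
        have := mul_nonneg this hA0
        nlinarith [mul_nonneg hA0 (sub_nonneg.2 hA1)]
      have e2 : 1 - a ^ 2 ≤ 2 * (b - a) := by nlinarith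
      rw [zero_pow (by norm_num), sub_zero, abs_of_nonneg (by positivity)]
      linarith
    · have h3 : max 0 (1 - b ^ 2) = 1 - b ^ 2 := max_eq_right (by nlinarith)
      rw [h3]
      have hB0 : 0 ≤ 1 - b ^ 2 := by nlinarith
      have hB1 : 1 - b ^ 2 ≤ 1 := by nlinarith [sq_nonneg b]
      have hBA : 1 - b ^ 2 ≤ 1 - a ^ 2 := by nlinarith
      set A := 1 - a ^ 2 with hA
      set B := 1 - b ^ 2 with hB
      have e1 : A ^ 3 - B ^ 3 = (A - B) * (A ^ 2 + A * B + B ^ 2) := by ring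
      have e2 : A - B ≤ 2 * (b - a) := by rw [hA, hB]; nlinarith
      have e3 : 0 ≤ A - B := by linarith
      have e4 : A ^ 2 + A * B + B ^ 2 ≤ 3 := by nlinarith
      have e5 : 0 ≤ A ^ 2 + A * B + B ^ 2 := by positivity
      rw [e1, abs_of_nonneg (mul_nonneg e3 e5)]
      calc (A - B) * (A ^ 2 + A * B + B ^ 2) ≤ (2 * (b - a)) * 3 :=
            mul_le_mul e2 e4 e5 (by linarith)
        _ = _ := by ring

theorem g3_lipw : LipschitzWith 6 (fun v : Euc m => g3 (‖v‖ ^ 2)) := by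
  refine LipschitzWith.of_dist_le_mul fun v v' => ?_
  rw [Real.dist_eq, dist_eq_norm]
  have h1 := g3_lip (norm_nonneg v) (norm_nonneg v')
  have h2 := abs_norm_sub_norm_le v v'
  calc |g3 (‖v‖ ^ 2) - g3 (‖v'‖ ^ 2)| ≤ 6 * |‖v‖ - ‖v'‖| := h1
    _ ≤ 6 * ‖v - v'‖ := by gcongr
    _ = _ := by norm_num

theorem g3_le_one {t : ℝ} (ht : 0 ≤ t) : g3 t ≤ 1 := by
  unfold g3
  refine pow_le_one₀ (le_max_left _ _) (max_le zero_le_one (by linarith))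

theorem g3_zero {t : ℝ} (ht : 1 ≤ t) : g3 t = 0 := by
  unfold g3
  rw [max_eq_left (by linarith)]; norm_num

theorem g3_le_g31 {t : ℝ} (ht : 0 ≤ t) : g3 t ≤ -g31 t := by
  unfold g3 g31
  have h1 : (0:ℝ) ≤ max 0 (1 - t) := le_max_left _ _
  have h2 : max 0 (1 - t) ≤ 1 := max_le zero_le_one (by linarith)
  nlinarith [mul_nonneg h1 h1]

end prof

end Crest.Agent.R234.Ng_290
end
end

-- ▼ part R234/Ng12_290
section

/-!
# Row 234, node F7-GL, part 12 (helper290): `bbP_of`, `glp_of_F3P`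
-/

set_option autoImplicit false
set_option linter.unusedVariables false
set_option linter.unusedSectionVars false
set_option maxSynthPendingDepth 3

open MeasureTheory Set Function Filter Topology Metric
open Crest.GeometryTopology.Submanifold
open Crest.Agent.R234.Vf_884 Crest.Agent.R234.Ar_870
open Crest.Agent.R234.Main_456 (Frame Msys)
open Crest.Agent.R234.Gi_456
open Crest.Agent.R234.GL_394
open Crest.Agent.R234.GI_640 (g3 g31 g32)
open Crest.Agent.R234.MG_570 (MG)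
open Crest.Agent.R234.Stp_518
open Crest.Agent.R234.Tv_618 (KT Wr ttot)
open scoped ENNReal NNReal InnerProductSpace ContDiff

noncomputable section

namespace Crest.Agent.R234.Ng_290

section ints

variable {m k : ℕ} {c : Ch m k} {K : Set (Euc k)} {D : Set (Euc m)} {V : Measure (Euc k × L k)}

/-- height over an open base ball -/
theorem hgt_int (h : Ok c K D) (hV : On V m K) {cT N : ℝ} (hN : 1 ≤ N)
    (hmu : ∀ v : Euc m, ‖v‖ ≤ Real.exp cT → 1 / 2 ≤ c.mu v) {r : ℝ}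
    (hr : r ≤ Real.exp (cT - 1 / (2 * N))) :
    ∫ p in {z | ‖c.x z‖ < r} ×ˢ univ, 2 * c.f p.1 ∂V ≤
      4 * N ^ 2 / 3 * (Real.exp (m * cT) * II c V g31 cT) := by
  refine le_trans ?_ (HH_le_II h hV pf_cubic (by norm_num : (0:ℝ) < 3) hlow3 hN hmu)
  unfold HH
  refine setIntegral_mono_set ?_ ?_ ?_
  · have cf : ContinuousOn (fun p : Euc k × L k => 2 * c.f p.1) (K ×ˢ G m k) := by
      intro p hp
      exact (((h.hf p.1 hp.1).continuousAt.comp continuousAt_fst).const_mul 2).continuousWithinAt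
    exact (hV.integrable h.cpt cf).integrableOn
  · filter_upwards [ae_restrict_of_ae hV.mem] with p hp
    have := f_nonneg h hp.1
    show 0 ≤ 2 * c.f p.1
    linarith
  · refine Eventually.of_forall fun p hp => ?_
    have h1 : ‖c.x p.1‖ < r := hp.1
    exact (h1.le.trans hr)

/-- the `g3`-height is bounded by `II` -/
theorem g3_int (h : Ok c K D) (hV : On V m K) {cT l : ℝ} (hl : l ≤ cT)
    (hmu : ∀ v : Euc m, ‖v‖ ≤ Real.exp cT → 1 / 2 ≤ c.mu v) :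
    Real.exp l ^ 2 * ((Real.exp l ^ (m + 2))⁻¹ *
      ∫ p, g3 (‖c.x p.1‖ ^ 2 / Real.exp l ^ 2) * (2 * c.f p.1) ∂V) ≤ II c V g31 l := by
  have e1 : ∀ y : ℝ, y ^ 2 / Real.exp l ^ 2 = Real.exp (-2 * l) * y ^ 2 := fun y => by
    rw [← Real.exp_nat_mul, div_eq_mul_inv, ← Real.exp_neg, mul_comm]
    congr 2
    push_cast; ring
  have e2 : Real.exp l ^ 2 * (Real.exp l ^ (m + 2))⁻¹ = Real.exp (-m * l) := by
    rw [← Real.exp_nat_mul, ← Real.exp_nat_mul, ← Real.exp_neg, ← Real.exp_add]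
    congr 1
    push_cast; ring
  rw [← mul_assoc, e2]
  unfold II
  refine mul_le_mul_of_nonneg_left ?_ (Real.exp_pos _).le
  simp only [e1]
  have i2 : Integrable (fun p : Euc k × Vf_884.L k => (c.f p.1 * c.mu (c.x p.1)) *
      (-4 * g31 (Real.exp (-2 * l) * ‖c.x p.1‖ ^ 2))) V :=
    h.int hV h.cfmu (q := fun t => -4 * g31 t) (continuous_const.mul pf_cubic.pr.k1.continuous) l
  have cf : ContinuousOn (fun p : Euc k × Vf_884.L k => 2 * c.f p.1) (K ×ˢ G m k) := by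
    intro p hp
    exact (((h.hf p.1 hp.1).continuousAt.comp continuousAt_fst).const_mul 2).continuousWithinAt
  have i1 : Integrable (fun p : Euc k × Vf_884.L k =>
      g3 (Real.exp (-2 * l) * ‖c.x p.1‖ ^ 2) * (2 * c.f p.1)) V := by
    refine (h.int hV cf (q := g3) pf_cubic.pr.k0.continuous l).congr
      (Eventually.of_forall fun p => ?_)
    exact mul_comm _ _
  refine integral_mono_ae i1 i2 ?_
  filter_upwards [hV.mem] with p hp
  have hf := f_nonneg h hp.1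
  have ht : 0 ≤ Real.exp (-2 * l) * ‖c.x p.1‖ ^ 2 := by positivity
  show g3 (Real.exp (-2 * l) * ‖c.x p.1‖ ^ 2) * (2 * c.f p.1) ≤
    (c.f p.1 * c.mu (c.x p.1)) * (-4 * g31 (Real.exp (-2 * l) * ‖c.x p.1‖ ^ 2))
  have h31 : 0 ≤ -g31 (Real.exp (-2 * l) * ‖c.x p.1‖ ^ 2) := by
    have := GI_640.g31_nonpos (Real.exp (-2 * l) * ‖c.x p.1‖ ^ 2)
    linarith
  rcases le_or_gt ‖c.x p.1‖ (Real.exp l) with h1 | h1
  · have h2 := hmu (c.x p.1) (h1.trans (Real.exp_le_exp.2 hl))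
    have h3 := g3_le_g31 ht
    have h4 : g3 (Real.exp (-2 * l) * ‖c.x p.1‖ ^ 2) * (2 * c.f p.1) ≤
        -g31 (Real.exp (-2 * l) * ‖c.x p.1‖ ^ 2) * (2 * c.f p.1) :=
      mul_le_mul_of_nonneg_right h3 (by linarith)
    have h5 : 0 ≤ c.f p.1 * -g31 (Real.exp (-2 * l) * ‖c.x p.1‖ ^ 2) := mul_nonneg hf h31
    nlinarith [mul_le_mul_of_nonneg_left h2 h5]
  · have h2 : 1 ≤ Real.exp (-2 * l) * ‖c.x p.1‖ ^ 2 := by
      rw [← e1, one_le_div (by positivity)]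
      exact pow_le_pow_left₀ (Real.exp_pos l).le h1.le 2
    rw [g3_zero h2, zero_mul]
    have h3 := h.mupos _ (h.mem _ hp.1)
    exact mul_nonneg (mul_nonneg hf h3.le) (by linarith)

end ints

/-- numbers of one level: `s = e^l`, collar `1/(8K)` -/
theorem lev_num {K cT l lb T : ℝ} (hK : 4 ≤ K) (hl : l ≤ cT - 1 / K) (hT : lb - T ≤ l)
    (hc : cT ≤ lb) :
    Real.exp l < Real.exp lb ∧ (1 + 1 / (8 * K)) * Real.exp l ≤ Real.exp (cT - 1 / (2 * K)) ∧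
      (1 + 1 / (8 * K)) * Real.exp l ≤ Real.exp (cT - 1 / (4 * K)) ∧
      (1 + 1 / (8 * K)) * Real.exp l ≤ Real.exp lb ∧
      (1 + 1 / (8 * K)) * Real.exp l ≤ Real.exp cT ∧
      (1 + 1 / (8 * K)) * Real.exp l ≤ 2 * Real.exp l ∧
      Real.exp l / 4 ≤ Real.exp (cT - 1 / (4 * K)) ∧
      Real.exp (-T) * Real.exp lb ≤ Real.exp l ∧ 0 < 1 / (8 * K) ∧ 1 / (8 * K) ≤ 1 := by
  have hK0 : 0 < K := by linarith
  have h0 : 0 < 1 / (8 * K) := by positivity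
  have hp := Real.exp_pos l
  have h1 : (1 + 1 / (8 * K)) * Real.exp l ≤ Real.exp (l + 1 / (8 * K)) := by
    rw [Real.exp_add, mul_comm (Real.exp l)]
    refine mul_le_mul_of_nonneg_right ?_ hp.le
    have := Real.add_one_le_exp (1 / (8 * K))
    linarith
  have e1 : 1 / K = 8 * (1 / (8 * K)) := by field_simp
  have e2 : 1 / (2 * K) = 4 * (1 / (8 * K)) := by field_simp; norm_num
  have e4 : 1 / (4 * K) = 2 * (1 / (8 * K)) := by field_simp; norm_num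
  rw [e1] at hl
  have h8 : 1 / (8 * K) ≤ 1 := by
    rw [div_le_one (by positivity)]; linarith
  refine ⟨Real.exp_lt_exp.2 (by linarith), h1.trans (Real.exp_le_exp.2 (by rw [e2]; linarith)),
    h1.trans (Real.exp_le_exp.2 (by rw [e4]; linarith)),
    h1.trans (Real.exp_le_exp.2 (by linarith)), h1.trans (Real.exp_le_exp.2 (by linarith)),
    by nlinarith, ?_, ?_, h0, h8⟩
  · have h3 : Real.exp l ≤ Real.exp (cT - 1 / (4 * K)) :=
      Real.exp_le_exp.2 (by rw [e4]; linarith)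
    linarith
  · rw [← Real.exp_add]
    exact Real.exp_le_exp.2 (by linarith)

/-- numbers of the height: `H = P K² e^(-L)` -/
theorem H_num {P H₀ : ℝ} (hP : 0 < P) (hH : 0 < H₀) (q : ℕ) : ∃ L0 : ℝ, 1 ≤ L0 ∧ ∀ L K : ℝ,
    L0 ≤ L → 4 ≤ K → K ≤ L ^ 3 → 0 < P * K ^ 2 * Real.exp (-L) ∧
      P * K ^ 2 * Real.exp (-L) ≤ H₀ ∧
      (Real.log (1 / (P * K ^ 2 * Real.exp (-L)))) ^ (-(4:ℝ)) ≤ 1 / (8 * K) ∧
      (Real.log (1 / (P * K ^ 2 * Real.exp (-L)))) ^ (-((q:ℝ) + 8)) *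
        (P * K ^ 2 * Real.exp (-L)) ≤ (L ^ q)⁻¹ * Real.exp (-L) := by
  obtain ⟨La, hLa1, hLa⟩ := beatK (P := P / H₀) (by positivity) 2
  obtain ⟨Lb, hLb1, hLb⟩ := beat (P := P) (θ := 1 / 2) (by norm_num) 6
  refine ⟨max La (max Lb (max 128 (2 ^ (q + 8) * P))), le_max_of_le_left hLa1, ?_⟩
  intro L K hL hK hKL
  have hL1 : La ≤ L := (le_max_left _ _).trans hL
  have hL2 : Lb ≤ L := (le_max_left _ _).trans ((le_max_right _ _).trans hL)
  have hL3 : 128 ≤ L := (le_max_left _ _).trans ((le_max_right _ _).trans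
    ((le_max_right _ _).trans hL))
  have hL4 : 2 ^ (q + 8) * P ≤ L := (le_max_right _ _).trans ((le_max_right _ _).trans
    ((le_max_right _ _).trans hL))
  have hK0 : 0 < K := by linarith
  have hL0 : 0 < L := by linarith
  have hE := Real.exp_pos (-L)
  set H := P * K ^ 2 * Real.exp (-L) with hHd
  have hH0 : 0 < H := by positivity
  have hK2 : K ^ 2 ≤ L ^ 6 := by
    calc K ^ 2 ≤ (L ^ 3) ^ 2 := pow_le_pow_left₀ hK0.le hKL 2
      _ = L ^ 6 := by ring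
  have hlog : L / 2 ≤ Real.log (1 / H) := by
    rw [Real.le_log_iff_exp_le (by positivity), le_div_iff₀ hH0]
    have h1 := hLb L hL2
    calc Real.exp (L / 2) * H = P * K ^ 2 * (Real.exp (L / 2) * Real.exp (-L)) := by
          rw [hHd]; ring
      _ = P * K ^ 2 * Real.exp (-(1 / 2 * L)) := by
          rw [← Real.exp_add]; congr 2; ring
      _ ≤ P * L ^ 6 * Real.exp (-(1 / 2 * L)) := by gcongr
      _ = P * (L ^ 6 * Real.exp (-(1 / 2 * L))) := by ring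
      _ ≤ 1 := h1
  have hL20 : 0 < L / 2 := by positivity
  refine ⟨hH0, ?_, ?_, ?_⟩
  · have h1 := hLa L K hL1 hK0.le hKL
    calc H = H₀ * (P / H₀ * K ^ 2 * Real.exp (-L)) := by rw [hHd]; field_simp
      _ ≤ H₀ * 1 := mul_le_mul_of_nonneg_left h1 hH.le
      _ = H₀ := mul_one _
  · calc (Real.log (1 / H)) ^ (-(4:ℝ)) ≤ (L / 2) ^ (-(4:ℝ)) :=
          Real.rpow_le_rpow_of_nonpos hL20 hlog (by norm_num)
      _ = ((L / 2) ^ 4)⁻¹ := by
          rw [Real.rpow_neg hL20.le]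
          congr 1
          exact_mod_cast Real.rpow_natCast (L / 2) 4
      _ ≤ 1 / (8 * K) := by
          rw [← one_div]
          refine one_div_le_one_div_of_le (by positivity) ?_
          calc 8 * K ≤ 8 * L ^ 3 := by gcongr
            _ ≤ L / 16 * L ^ 3 := by
              refine mul_le_mul_of_nonneg_right ?_ (by positivity)
              linarith
            _ = (L / 2) ^ 4 := by ring
  · have h1 : (Real.log (1 / H)) ^ (-((q:ℝ) + 8)) ≤ (L / 2) ^ (-((q:ℝ) + 8)) :=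
      Real.rpow_le_rpow_of_nonpos hL20 hlog (by
        have : (0:ℝ) ≤ q := Nat.cast_nonneg q
        linarith)
    have h2 : (L / 2) ^ (-((q:ℝ) + 8)) = ((L / 2) ^ (q + 8))⁻¹ := by
      rw [Real.rpow_neg hL20.le]
      congr 1
      exact_mod_cast Real.rpow_natCast (L / 2) (q + 8)
    rw [h2] at h1
    calc (Real.log (1 / H)) ^ (-((q:ℝ) + 8)) * H ≤ ((L / 2) ^ (q + 8))⁻¹ * H :=
          mul_le_mul_of_nonneg_right h1 hH0.le
      _ ≤ ((L / 2) ^ (q + 8))⁻¹ * (P * L ^ 6 * Real.exp (-L)) := by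
          refine mul_le_mul_of_nonneg_left ?_ (by positivity)
          rw [hHd]; gcongr
      _ = (2 ^ (q + 8) * P) * ((L ^ (q + 2))⁻¹ * Real.exp (-L)) := by
          rw [div_pow]
          field_simp
          ring
      _ ≤ L * ((L ^ (q + 2))⁻¹ * Real.exp (-L)) := mul_le_mul_of_nonneg_right hL4 (by positivity)
      _ ≤ (L ^ q)⁻¹ * Real.exp (-L) := by
          rw [← mul_assoc]
          refine mul_le_mul_of_nonneg_right ?_ hE.le
          rw [← div_eq_mul_inv, div_le_iff₀ (by positivity), pow_add, inv_mul_cancel_left₀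
            (by positivity)]
          nlinarith

/-- the body of `F3P` -/
def F3B (m n k Q : ℕ) (Λ C a C' κ₀ H₀ : ℝ) : Prop :=
  ∀ (π : Euc k →L[ℝ] Euc m) (ρ : Euc k →L[ℝ] Euc n) (x : Euc k) (w : Euc m → Euc n)
    (X0 : Euc m) (S s κ ε H : ℝ) (U K : Set (Euc k)) (Dd : VarifoldData m k) (g : ℝ → ℝ),
  Frame π ρ → IsOpen U → IsIntegralVarifoldIn U Dd → IsStationaryIn U Dd →
  0 < s → s < S → Gr S w → (∀ X, ‖fderiv ℝ w X‖ ≤ 1 / 16) →
  (∀ X, ‖fderiv ℝ (fderiv ℝ w) X‖ ≤ 1 / (16 * S)) → ContDiff ℝ 5 w →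
  (∃ B : ℝ, ∀ j ≤ 5, ∀ Y, ‖iteratedFDeriv ℝ j w Y‖ ≤ B) →
  ContDiffOn ℝ ∞ w (ball X0 ((1 + ε) * s)) → 0 ≤ κ → κ ≤ κ₀ →
  (∀ j, 1 ≤ j → j ≤ 3 → ∀ Y ∈ ball X0 (2 * s), s ^ (j - 1) * ‖iteratedFDeriv ℝ j w Y‖ ≤ κ) →
  0 < ε → ε ≤ 1 → (∀ Y ∈ ball X0 ((1 + ε) * s), Msys w Y = 0) →
  closedBall (Foot_842.pt π ρ x w X0) (4 * s) ⊆ U →
  Loc (ch π ρ x S w X0) U (tube π ρ x S w) K (VD Dd) (Real.log ((1 + ε) * s)) →
  (∀ z ∈ K, ‖(ch π ρ x S w X0).x z‖ < (1 + ε) * s → ‖(ch π ρ x S w X0).nu z‖ ≤ s / 8) →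
  (VD Dd).real ({z | z ∈ K ∧ ‖(ch π ρ x S w X0).x z‖ < (1 + ε) * s} ×ˢ univ) ≤ Λ * s ^ m →
  |(VD Dd).real ({z | z ∈ K ∧ ‖(ch π ρ x S w X0).x z‖ < 1 / 4 * s} ×ˢ univ) -
    Q * volume.real (ball (0 : Euc m) (1 / 4 * s))| ≤
      1 / 4 * volume.real (ball (0 : Euc m) (1 / 4 * s)) →
  0 < H → H ≤ H₀ → (Real.log (1 / H)) ^ (-a) ≤ ε →
  ∫ p in {z | ‖(ch π ρ x S w X0).x z‖ < (1 + ε) * s} ×ˢ univ, 2 * (ch π ρ x S w X0).f p.1
    ∂(VK (VD Dd) K) ≤ H * s ^ (m + 2) →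
  (∀ s, 0 ≤ g s) → (∀ s, 0 ≤ s → g s ≤ 1) → (∀ s, 1 ≤ s → g s = 0) →
  LipschitzWith 6 (fun v : Euc m => g (‖v‖ ^ 2)) →
  bb (ch π ρ x S w X0) (VK (VD Dd) K) g Q (Real.log s) ≤
    s ^ 2 * (C * κ ^ 2 * ((s ^ (m + 2))⁻¹ *
      ∫ p, g (‖(ch π ρ x S w X0).x p.1‖ ^ 2 / s ^ 2) * (2 * (ch π ρ x S w X0).f p.1)
        ∂(VK (VD Dd) K)) + (Real.log (1 / H)) ^ (-C') * H)

/-- final arithmetic -/
theorem fin_arith {b s2 CF A y G Lg I1 W : ℝ} (hb : b ≤ s2 * (CF * (A * y) ^ 2 * G + Lg))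
    (hG : s2 * G ≤ I1) (hI : 0 ≤ I1) (hCF : 0 ≤ CF) (hA : 0 ≤ A) (hy0 : 0 ≤ y) (hy1 : y ≤ 1)
    (hW : s2 * Lg ≤ W) : b ≤ CF * A ^ 2 * y * I1 + W := by
  have h1 : s2 * (CF * (A * y) ^ 2 * G + Lg) = CF * (A * y) ^ 2 * (s2 * G) + s2 * Lg := by ring
  have h2 : CF * (A * y) ^ 2 * (s2 * G) ≤ CF * (A * y) ^ 2 * I1 :=
    mul_le_mul_of_nonneg_left hG (by positivity)
  have h3 : CF * (A * y) ^ 2 * I1 = CF * A ^ 2 * I1 * (y * y) := by ring
  have h4 : CF * A ^ 2 * I1 * (y * y) ≤ CF * A ^ 2 * I1 * (y * 1) := by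
    have : 0 ≤ CF * A ^ 2 * I1 := by positivity
    exact mul_le_mul_of_nonneg_left (mul_le_mul_of_nonneg_left hy1 hy0) this
  have h5 : CF * A ^ 2 * I1 * (y * 1) = CF * A ^ 2 * y * I1 := by ring
  linarith

/-- the derivatives in a block -/
theorem der_blk {m n : ℕ} {C κ e S s cT lb : ℝ} {u w : Euc m → Euc n}
    (h : MgF m n C κ (Real.exp (cT - lb)) S u w) (hS : S = Real.exp lb) (hs : 0 < s)
    (hsc : s ≤ Real.exp cT) (hc : cT ≤ lb) (hκ : 0 ≤ κ) (hC : 0 ≤ C) :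
    ∀ j, 1 ≤ j → j ≤ 3 → ∀ Y ∈ ball (0 : Euc m) (2 * s), s ^ (j - 1) * ‖iteratedFDeriv ℝ j w Y‖ ≤
      (2 * C + 1) * (κ * Real.exp (cT - lb) + ‖fderiv ℝ u 0‖) := by
  intro j hj1 hj2 Y hY
  have hS0 : 0 < S := by rw [hS]; exact Real.exp_pos _
  have hsS : s ≤ S := by rw [hS]; exact hsc.trans (Real.exp_le_exp.2 hc)
  refine (h.der_le hS0 hs hsS (by positivity) j hj1 hj2 Y hY).trans ?_
  have h1 : s / S ≤ Real.exp (cT - lb) := by
    rw [hS, Real.exp_sub]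
    exact div_le_div_of_nonneg_right hsc (Real.exp_pos _).le
  have h2 : 2 * (C * κ) * (s / S) ≤ 2 * (C * κ) * Real.exp (cT - lb) :=
    mul_le_mul_of_nonneg_left h1 (by positivity)
  have h3 : (2 * C + 1) * (κ * Real.exp (cT - lb) + ‖fderiv ℝ u 0‖) =
      ‖fderiv ℝ u 0‖ + 2 * (C * κ) * Real.exp (cT - lb) + 2 * (C * ‖fderiv ℝ u 0‖) +
        κ * Real.exp (cT - lb) := by ring
  have h4 : 0 ≤ C * ‖fderiv ℝ u 0‖ := mul_nonneg hC (norm_nonneg _)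
  have h5 : 0 ≤ κ * Real.exp (cT - lb) := mul_nonneg hκ (Real.exp_pos _).le
  rw [h3]
  linarith

/-- the height integral, with the number `H` -/
theorem H_int {m : ℕ} {K cT l T' L I1 I : ℝ} (hl : cT ≤ T' + l)
    (hI : I1 ≤ I) (hHL : Real.exp (-L) = Real.exp (-2 * cT) * I) :
    4 * K ^ 2 / 3 * (Real.exp (m * cT) * I1) ≤
      (4 / 3 * Real.exp ((m + 2) * T') * K ^ 2 * Real.exp (-L)) * Real.exp l ^ (m + 2) := by
  have h0 : I = Real.exp (2 * cT) * Real.exp (-L) := by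
    rw [hHL, ← mul_assoc, ← Real.exp_add, show 2 * cT + -2 * cT = 0 by ring, Real.exp_zero,
      one_mul]
  have h2 : Real.exp (m * cT) * I1 ≤ Real.exp (m * cT) * (Real.exp (2 * cT) * Real.exp (-L)) :=
    mul_le_mul_of_nonneg_left (hI.trans h0.le) (Real.exp_pos _).le
  have h3 : Real.exp (m * cT) * Real.exp (2 * cT) ≤
      Real.exp ((m + 2) * T') * Real.exp l ^ (m + 2) := by
    rw [← Real.exp_nat_mul, ← Real.exp_add, ← Real.exp_add]
    refine Real.exp_le_exp.2 ?_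
    push_cast
    have hm0 : (0:ℝ) ≤ m := Nat.cast_nonneg m
    nlinarith
  calc 4 * K ^ 2 / 3 * (Real.exp (m * cT) * I1) ≤
        4 * K ^ 2 / 3 * (Real.exp (m * cT) * (Real.exp (2 * cT) * Real.exp (-L))) :=
        mul_le_mul_of_nonneg_left h2 (by positivity)
    _ = 4 / 3 * K ^ 2 * Real.exp (-L) * (Real.exp (m * cT) * Real.exp (2 * cT)) := by ring
    _ ≤ 4 / 3 * K ^ 2 * Real.exp (-L) * (Real.exp ((m + 2) * T') * Real.exp l ^ (m + 2)) :=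
        mul_le_mul_of_nonneg_left h3 (by positivity)
    _ = _ := by ring

/-- the error term -/
theorem err_le {l cT L I : ℝ} {q : ℕ} (hl : l ≤ cT) (hL : 0 < L)
    (hHL : Real.exp (-L) = Real.exp (-2 * cT) * I) {X : ℝ}
    (hX : X ≤ (L ^ q)⁻¹ * Real.exp (-L)) : Real.exp l ^ 2 * X ≤ (L ^ q)⁻¹ * I := by
  have h0 : I = Real.exp (2 * cT) * Real.exp (-L) := by
    rw [hHL, ← mul_assoc, ← Real.exp_add, show 2 * cT + -2 * cT = 0 by ring, Real.exp_zero,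
      one_mul]
  have h2 : Real.exp l ^ 2 ≤ Real.exp (2 * cT) := by
    rw [← Real.exp_nat_mul]
    refine Real.exp_le_exp.2 ?_
    push_cast
    linarith
  have h3 : 0 ≤ (L ^ q)⁻¹ * Real.exp (-L) := by positivity
  calc Real.exp l ^ 2 * X ≤ Real.exp l ^ 2 * ((L ^ q)⁻¹ * Real.exp (-L)) :=
        mul_le_mul_of_nonneg_left hX (by positivity)
    _ ≤ Real.exp (2 * cT) * ((L ^ q)⁻¹ * Real.exp (-L)) := mul_le_mul_of_nonneg_right h2 h3
    _ = (L ^ q)⁻¹ * I := by rw [h0]; ring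

/-- the fine heights are small against `e^(cT - T')` -/
theorem hf1_small {m : ℕ} {cT K L T' Lc : ℝ} (hK : 0 ≤ K)
    (h3 : Cd m 3 * (16 * Real.exp T') ^ (m + 2) * K ^ 2 * Real.exp (-L) ≤ 1) :
    hf1 m 3 cT K (Real.exp (-L)) ≤ Real.exp (cT - T') / 8 := by
  have hCd := Cd_pos (m := m) (by norm_num : (0:ℝ) < 3)
  unfold hf1
  have h1 : (Cd m 3 * K ^ 2 * Real.exp (-L)) ^ th0 m ≤ (16 * Real.exp T')⁻¹ := by
    have h2 : Cd m 3 * K ^ 2 * Real.exp (-L) ≤ ((16 * Real.exp T')⁻¹) ^ (m + 2) := by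
      rw [inv_pow, ← one_div, le_div_iff₀ (by positivity)]
      calc Cd m 3 * K ^ 2 * Real.exp (-L) * (16 * Real.exp T') ^ (m + 2) =
          Cd m 3 * (16 * Real.exp T') ^ (m + 2) * K ^ 2 * Real.exp (-L) := by ring
        _ ≤ 1 := h3
    calc _ ≤ (((16 * Real.exp T')⁻¹) ^ (m + 2)) ^ th0 m :=
          Real.rpow_le_rpow (by positivity) h2 (th0_pos (m := m)).le
      _ = (16 * Real.exp T')⁻¹ := by
        rw [← Real.rpow_natCast, ← Real.rpow_mul (by positivity)]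
        unfold th0
        have : ((m + 2 : ℕ) : ℝ) * (1 / ((m:ℝ) + 2)) = 1 := by push_cast; field_simp
        rw [this, Real.rpow_one]
  calc 2 * Real.exp cT * (Cd m 3 * K ^ 2 * Real.exp (-L)) ^ th0 m ≤
        2 * Real.exp cT * (16 * Real.exp T')⁻¹ := by gcongr
    _ = Real.exp (cT - T') / 8 := by rw [Real.exp_sub]; field_simp; norm_num

/-- the level `l` -/
theorem bb_core {m n Q q : ℕ} {C T' CF κF H₀ Λ' ε Λ cT K l L h1 δ' : ℝ} {U Kf : Set (Euc (m + n))}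
    {D : VarifoldData m (m + n)} {x : Euc (m + n)} {M : Mo m n (m + n)} (hC1 : 1 ≤ C)
    (hCF : 1 ≤ CF) (hF : F3B m n (m + n) Q Λ' CF 4 (q + 8) κF H₀) (hS : Sit U D Q x M ε Λ)
    (hκ0 : 0 ≤ M.κ) (h64 : C * M.κ ≤ 1 / 64)
    (hFm : MgF m n C M.κ (Real.exp (cT - M.lb)) M.S M.u M.w) (hw5 : ContDiff ℝ 5 M.w)
    (hwB : ∃ B : ℝ, ∀ j ≤ 5, ∀ Y, ‖iteratedFDeriv ℝ j M.w Y‖ ≤ B)
    (hwS : ContDiffOn ℝ ∞ M.w (ball 0 (Real.exp (cT - M.lb) * M.S)))
    (hcd : Cd1 U (VD D) (M.reg x) M.π M.ρ x M.S M.w 0 M.lb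
      (C * (M.κ * Real.exp (cT - M.lb))) cT K) (hK : 4 ≤ K) (hl : l ≤ cT - 1 / K)
    (hlT : M.lb - T' ≤ l) (hcT : cT ≤ M.lb) (hIpos : 0 < M.I x (VD D) cT) (hL0 : 0 < L)
    (hHL : Real.exp (-L) = Real.exp (-2 * cT) * M.I x (VD D) cT)
    (hloc : Loc (ch M.π M.ρ x M.S M.w 0) U (tube M.π M.ρ x M.S M.w) Kf (VD D) (cT - 1 / (4 * K)))
    (hsub : Sub (ch M.π M.ρ x M.S M.w 0) (VD D) (M.reg x) Kf (cT - 1 / (4 * K)))
    (hKr : Kf ⊆ M.reg x) (hKsub : ∀ z ∈ Kf, 2 * (ch M.π M.ρ x M.S M.w 0).f z ≤ h1 ^ 2)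
    (hh0 : 0 ≤ h1) (hh2 : h1 ≤ Real.exp (cT - T') / 8)
    (hm1 : (VD D).real ({z | z ∈ Kf ∧ ‖(ch M.π M.ρ x M.S M.w 0).x z‖ <
      (1 + 1 / (8 * K)) * Real.exp l} ×ˢ univ) ≤ Λ' * Real.exp l ^ m)
    (hm2 : |(VD D).real ({z | z ∈ Kf ∧ ‖(ch M.π M.ρ x M.S M.w 0).x z‖ < 1 / 4 * Real.exp l} ×ˢ
        univ) - Q * volume.real (ball (0 : Euc m) (1 / 4 * Real.exp l))| ≤
      1 / 4 * volume.real (ball (0 : Euc m) (1 / 4 * Real.exp l)))
    (hyF : (2 * C + 1) * (M.κ * Real.exp (cT - M.lb) + ‖fderiv ℝ M.u 0‖) ≤ κF)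
    (hy1 : M.κ * Real.exp (cT - M.lb) + ‖fderiv ℝ M.u 0‖ ≤ 1)
    (a1 : 0 < 4 / 3 * Real.exp ((m + 2) * T') * K ^ 2 * Real.exp (-L))
    (a2 : 4 / 3 * Real.exp ((m + 2) * T') * K ^ 2 * Real.exp (-L) ≤ H₀)
    (a3 : (Real.log (1 / (4 / 3 * Real.exp ((m + 2) * T') * K ^ 2 * Real.exp (-L)))) ^ (-(4:ℝ)) ≤
      1 / (8 * K))
    (a4 : (Real.log (1 / (4 / 3 * Real.exp ((m + 2) * T') * K ^ 2 * Real.exp (-L)))) ^
      (-((q:ℝ) + 8)) * (4 / 3 * Real.exp ((m + 2) * T') * K ^ 2 * Real.exp (-L)) ≤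
        (L ^ q)⁻¹ * Real.exp (-L)) :
    M.b x (VD D) Q l ≤ CF * (2 * C + 1) ^ 2 *
      (M.κ * Real.exp (cT - M.lb) + ‖fderiv ℝ M.u 0‖) * M.I x (VD D) l +
        (L ^ q)⁻¹ * M.I x (VD D) cT := by
  have hK1 : 1 ≤ K := by linarith
  have hK0 : 0 < K := by linarith
  have hKi : 0 < 1 / K := by positivity
  obtain ⟨n1, n2, n3, n4, n5, n6, n7, n8, n9, n10⟩ := lev_num (T := T') hK hl hlT hcT
  have hRg : Reg (ch M.π M.ρ x M.S M.w 0) (tube M.π M.ρ x M.S M.w) univ := hcd.hw.reg hcd.hf 0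
  have hok1 : Ok (ch M.π M.ρ x M.S M.w 0) Kf univ :=
    hRg.ok hloc.cpt (hloc.sub.trans inter_subset_left)
  have hI1 : II (ch M.π M.ρ x M.S M.w 0) (VK (VD D) Kf) g31 cT ≤ M.I x (VD D) cT :=
    II_sub_le hcd.ok hcd.isOn pf_cubic hloc.cpt hKr cT
  have hhi := hgt_int hok1 hloc.toOn hK1 hcd.mu n2
  have hgi := g3_int hok1 hloc.toOn (l := l) (by linarith) hcd.mu
  have hlL : l ≤ cT - 1 / (4 * K) := by
    have : 1 / (4 * K) ≤ 1 / K := by
      rw [div_le_div_iff₀ (by positivity) hK0]; linarith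
    linarith
  have hbeq := hsub.bb_eq pf_cubic hlL (Q := (Q : ℝ))
  have hIeq := hsub.II_eq' pf_cubic hlL
  have hs0 := Real.exp_pos l
  have hS0 : 0 < M.S := M.S_pos
  have hC0 : 0 ≤ C := by linarith
  have hder := der_blk (e := 0) hFm rfl hs0 (Real.exp_le_exp.2 (by linarith)) hcT hκ0 hC0
  have hballs : ball (0 : Euc m) ((1 + 1 / (8 * K)) * Real.exp l) ⊆
      ball 0 (Real.exp (cT - M.lb) * M.S) := by
    refine ball_subset_ball ?_
    have h2 : Real.exp (cT - M.lb) * M.S = Real.exp cT := by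
      show Real.exp (cT - M.lb) * Real.exp M.lb = _
      rw [← Real.exp_add]; congr 1; ring
    rw [h2]; exact n5
  have hlocF : Loc (ch M.π M.ρ x M.S M.w 0) U (tube M.π M.ρ x M.S M.w) Kf (VD D)
      (Real.log ((1 + 1 / (8 * K)) * Real.exp l)) :=
    ⟨hloc.st, hloc.opU, hloc.cpt, hloc.sub, by
      filter_upwards [hloc.gap] with p hp h2 h3
      rw [Real.exp_log (by positivity)] at h3
      exact hp h2 (h3.trans n3)⟩
  have hnu : ∀ z ∈ Kf, ‖(ch M.π M.ρ x M.S M.w 0).x z‖ < (1 + 1 / (8 * K)) * Real.exp l →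
      ‖(ch M.π M.ρ x M.S M.w 0).nu z‖ ≤ Real.exp l / 8 := by
    intro z hz _
    have h3 : ‖(ch M.π M.ρ x M.S M.w 0).nu z‖ ^ 2 ≤ h1 ^ 2 := by
      rw [hok1.nusq z hz]; exact hKsub z hz
    have h4 := (pow_le_pow_iff_left₀ (norm_nonneg _) hh0 two_ne_zero).1 h3
    refine h4.trans (hh2.trans ?_)
    have h5 : Real.exp (cT - T') ≤ Real.exp l := Real.exp_le_exp.2 (by linarith)
    linarith
  have hpt : closedBall (Foot_842.pt M.π M.ρ x M.w 0) (4 * Real.exp l) ⊆ U := by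
    refine (closedBall_subset_closedBall' ?_).trans hS.sub
    have h2 : dist (Foot_842.pt M.π M.ρ x M.w 0) x ≤ M.S := by
      rw [dist_eq_norm]
      have h3 : Foot_842.pt M.π M.ρ x M.w 0 - x = ContinuousLinearMap.adjoint M.ρ (M.w 0) := by
        unfold Foot_842.pt
        rw [map_zero, add_zero]; abel
      rw [h3, norm_adj_rho hcd.hf]
      refine (hFm.d0 0).trans ?_
      calc C * M.κ * M.S ≤ 1 * M.S := mul_le_mul_of_nonneg_right (by linarith) hS0.le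
        _ = M.S := one_mul _
    have h6 : Real.exp l ≤ M.S := n1.le
    linarith
  have hint := hhi.trans (H_int (m := m) (K := K) (l := l) (T' := T') (by linarith) hI1 hHL)
  have hd2 : ∀ X, ‖fderiv ℝ (fderiv ℝ M.w) X‖ ≤ 1 / (16 * M.S) := fun X =>
    (hFm.d2 X).trans (by
      rw [div_le_div_iff₀ hS0 (by positivity)]
      have := mul_le_mul_of_nonneg_right h64 hS0.le
      linarith)
  have hd1 : ∀ X, ‖fderiv ℝ M.w X‖ ≤ 1 / 16 := fun X => (hFm.d1 X).trans (by linarith)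
  have hy0 : 0 ≤ M.κ * Real.exp (cT - M.lb) + ‖fderiv ℝ M.u 0‖ :=
    add_nonneg (mul_nonneg hκ0 (Real.exp_pos _).le) (norm_nonneg _)
  have hA0 : 0 ≤ 2 * C + 1 := by linarith
  have hmain := hF M.π M.ρ x M.w 0 M.S (Real.exp l)
    ((2 * C + 1) * (M.κ * Real.exp (cT - M.lb) + ‖fderiv ℝ M.u 0‖)) (1 / (8 * K))
    (4 / 3 * Real.exp ((m + 2) * T') * K ^ 2 * Real.exp (-L)) U Kf D g3 hcd.hf hS.opn hS.int
    hS.st hs0 n1 hFm.gr hd1 hd2 hw5 hwB (hwS.mono hballs) (mul_nonneg hA0 hy0) hyF hder n9 n10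
    (fun Y hY => hFm.mn Y (mem_ball_zero_iff.1 (hballs hY))) hpt hlocF hnu hm1 hm2 a1 a2
    a3 hint GI_640.g3_nonneg (fun s hs => g3_le_one hs) (fun s hs => g3_zero hs) g3_lipw
  rw [Real.log_exp, hbeq] at hmain
  rw [hIeq] at hgi
  have hIl : 0 ≤ II (ch M.π M.ρ x M.S M.w 0) (VK (VD D) (M.reg x)) g31 l :=
    II_nonneg hcd.ok hcd.isOn pf_cubic.pr.anti l
  exact fin_arith hmain hgi hIl (by linarith) hA0 hy0 hy1 (err_le (by linarith) hL0 hHL a4)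

end Crest.Agent.R234.Ng_290
end
end

-- ▼ part R234/Ng13_290

/-!
# Row 234, node F7-GL, part 13 (helper290): `bbP_of`, `glp_of_F3P`
-/

set_option autoImplicit false
set_option linter.unusedVariables false
set_option linter.unusedSectionVars false
set_option maxSynthPendingDepth 3

open MeasureTheory Set Function Filter Topology Metric
open Crest.GeometryTopology.Submanifold
open Crest.Agent.R234.Vf_884 Crest.Agent.R234.Ar_870
open Crest.Agent.R234.Main_456 (Frame Msys)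
open Crest.Agent.R234.Gi_456
open Crest.Agent.R234.GL_394
open Crest.Agent.R234.GI_640 (g3 g31 g32)
open Crest.Agent.R234.MG_570 (MG)
open Crest.Agent.R234.Stp_518
open Crest.Agent.R234.Tv_618 (KT Wr ttot)
open scoped ENNReal NNReal InnerProductSpace ContDiff

noncomputable section

namespace Crest.Agent.R234.Ng_290

set_option maxHeartbeats 1000000 in
/-- **the bound of the anomaly in a block chart** -/
theorem bbP_of (hF3 : ∀ m n Q : ℕ, 3 ≤ m → 1 ≤ n → 1 ≤ Q →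
    F3d_433.F3P m n (m + n) Q) : BbP := by
  intro m n Q hm hn hQ
  have hm1 : 1 ≤ m := by omega
  refine ⟨3, fun N hN T Λ => ?_⟩
  obtain ⟨C, hC1, hMg⟩ := mg_facts m n N (by omega)
  obtain ⟨κs, hκs, hSm⟩ := mg_smooth m n N hN
  have hC0 : 0 < C := by linarith
  obtain ⟨T', hT'0, hTT'⟩ : ∃ T' : ℝ, 0 ≤ T' ∧ T ≤ T' := ⟨max T 0, le_max_right _ _, le_max_left _ _⟩
  have ho := ome_pos m
  have hΛ' : (0:ℝ) ≤ (Q + 1) * (ome m * 3 ^ m) := by positivity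
  obtain ⟨CF, hCF, hF⟩ := hF3 m n Q hm hn hQ _ hΛ'
  obtain ⟨δ, hδ, hδ1, hMs⟩ := masses m Q hm1 T' hT'0
  refine ⟨CF * (2 * C + 1) ^ 2, by positivity, fun q => ?_⟩
  obtain ⟨κF, H₀, hκF, hH₀, hH₀1, hF⟩ := hF 4 (q + 8) (by norm_num) (by positivity)
  have hFB : F3B m n (m + n) Q ((Q + 1) * (ome m * 3 ^ m)) CF 4 (q + 8) κF H₀ := hF
  clear hF
  have hCd := Cd_pos (m := m) (by norm_num : (0:ℝ) < 3)
  obtain ⟨La, hLa1, hLa⟩ := H_num (P := 4 / 3 * Real.exp ((m + 2) * T')) (by positivity) hH₀ q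
  obtain ⟨Lc, hLc1, hLc⟩ := beatK (P := Cd m 3 * 64 ^ (m + 2)) (by positivity) (m + 4)
  obtain ⟨Ld, hLd1, hLd⟩ := beatK (P := Cd m 3 * (16 * Real.exp T') ^ (m + 2)) (by positivity) 2
  obtain ⟨κ₁, hκ₁0, k1, k2, k3, -, -, -, -⟩ := exists_min7 (a1 := 1 / 64)
    (a2 := 1 / ((m:ℝ) + 1)) (a3 := δ) (a4 := 1) (a5 := 1) (a6 := 1) (a7 := 1)
    (by norm_num) (by positivity) hδ one_pos one_pos one_pos one_pos
  obtain ⟨κ₀, hκ₀0, k4, k5, k6, k7, -, -, -⟩ := exists_min7 (a1 := κs)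
    (a2 := κ₁ / C) (a3 := κF / ((2 * C + 1) * (1 + C))) (a4 := 1 / (1 + C)) (a5 := 1) (a6 := 1)
    (a7 := 1) hκs (by positivity) (by positivity) (by positivity) one_pos one_pos one_pos
  obtain ⟨ε, hε0, hε1, hε2, -, -, -, -, -⟩ := exists_min7 (a1 := 1 / 16)
    (a2 := δ) (a3 := 1) (a4 := 1) (a5 := 1) (a6 := 1) (a7 := 1)
    (by norm_num) hδ one_pos one_pos one_pos one_pos one_pos
  refine ⟨κ₀, ε, max La (max Lc Ld), hκ₀0, hε0, ?_⟩
  intro U D x M a cT K hS hκ0 hκle hMG hK ha haT hcT hIpos hL hKL l hl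
  have hLa' : La ≤ lam (M.I x (VD D)) cT := (le_max_left _ _).trans hL
  have hLc' : Lc ≤ lam (M.I x (VD D)) cT := (le_max_left _ _).trans ((le_max_right _ _).trans hL)
  have hLd' : Ld ≤ lam (M.I x (VD D)) cT := (le_max_right _ _).trans ((le_max_right _ _).trans hL)
  clear hL
  have hHL := exp_neg_lam hIpos
  generalize lam (M.I x (VD D)) cT = L at *
  have hCκ : C * M.κ ≤ κ₁ := by
    have h1 : M.κ ≤ κ₁ / C := hκle.trans k5
    rw [le_div_iff₀ hC0] at h1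
    linarith
  have hCκ0 : 0 ≤ C * M.κ := by positivity
  have hE1 : Real.exp (cT - M.lb) ≤ 1 := Real.exp_le_one_iff.2 (by linarith)
  have hE0 := Real.exp_pos (cT - M.lb)
  have h64 : C * M.κ ≤ 1 / 64 := hCκ.trans k1
  have hFm : MgF m n C M.κ (Real.exp (cT - M.lb)) M.S M.u M.w :=
    hMg M.κ _ M.u hMG hκ0 (by linarith) M.S M.S_pos
  obtain ⟨hw5, hwB, hwS⟩ := hSm M.κ _ M.u hMG (hκle.trans k4) M.S M.S_pos
  have hK1 : 1 ≤ K := by linarith
  have hK0 : 0 < K := by linarith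
  have hm0 : (0:ℝ) ≤ m := Nat.cast_nonneg m
  have hmκ : (m:ℝ) * (C * M.κ) ≤ 1 := by
    have h1 := hCκ.trans k2
    rw [le_div_iff₀ (by positivity)] at h1
    nlinarith
  have h8 : 8 * (C * M.κ) ≤ 1 := by linarith
  have h16 : ε ≤ 1 / 8 := by linarith
  have hcd := cd1_of_sit hm1 hS h16 hC1 hκ0 h8 hmκ hFm hK1 hcT
  -- the height
  have hH' : Real.exp (-2 * cT) * II (ch M.π M.ρ x M.S M.w 0) (VK (VD D) (M.reg x)) g31 cT =
    Real.exp (-L) := hHL.symm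
  have hHe := Real.exp_pos (-L)
  have hsm : Cd m 3 * K ^ 2 * (Real.exp (-2 * cT) *
      II (ch M.π M.ρ x M.S M.w 0) (VK (VD D) (M.reg x)) g31 cT) ≤ ((64 * K)⁻¹) ^ (m + 2) := by
    have h1 := hLc L K hLc' hK0.le hKL
    rw [inv_pow, ← one_div, le_div_iff₀ (by positivity), hH']
    calc Cd m 3 * K ^ 2 * Real.exp (-L) * (64 * K) ^ (m + 2) =
        Cd m 3 * 64 ^ (m + 2) * K ^ (m + 4) * Real.exp (-L) := by rw [mul_pow]; ring
      _ ≤ 1 := h1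
  have hae := hcd.fine hm1 pf_cubic (by norm_num : (0:ℝ) < 3) hlow3 hsm
  have hH0 : 0 ≤ Real.exp (-2 * cT) *
      II (ch M.π M.ρ x M.S M.w 0) (VK (VD D) (M.reg x)) g31 cT := by rw [hH']; exact hHe.le
  have hh0 := hf1_nonneg (m := m) (cT := cT) (N := K) (by norm_num : (0:ℝ) < 3) hH0
  have hh2 : hf1 m 3 cT K (Real.exp (-2 * cT) *
      II (ch M.π M.ρ x M.S M.w 0) (VK (VD D) (M.reg x)) g31 cT) ≤ Real.exp (cT - T') / 8 := by
    rw [hH']
    exact hf1_small (Lc := 0) hK0.le (hLd L K hLd' hK0.le hKL)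
  obtain ⟨hloc, hsub⟩ := hcd.loc1 hae
  have hfb := fb_of_sit hS hε0.le (by linarith) h64 hFm
  have hKi : 0 < 1 / K := by positivity
  have hlT : M.lb - T' ≤ l := by linarith [hl.1]
  obtain ⟨n1, n2, n3, n4, n5, n6, n7, n8, n9, n10⟩ := lev_num (T := T') hK hl.2 hlT hcT
  obtain ⟨hm1', hm2'⟩ := hMs hfb hS.opn hε2 (hCκ.trans k3) hε2 hloc (Real.exp l)
    n8 n1.le ((1 + 1 / (8 * K)) * Real.exp l) n6 n4 n3 n7
  have hD0 : ‖fderiv ℝ M.u 0‖ ≤ C * M.κ := by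
    have h2 := hFm.der 0
    rw [smul_zero] at h2
    rw [← h2]
    exact hFm.d1 0
  have hyκ : M.κ * Real.exp (cT - M.lb) + ‖fderiv ℝ M.u 0‖ ≤ (1 + C) * M.κ := by
    have : M.κ * Real.exp (cT - M.lb) ≤ M.κ * 1 := mul_le_mul_of_nonneg_left hE1 hκ0
    linarith
  have hy1 : M.κ * Real.exp (cT - M.lb) + ‖fderiv ℝ M.u 0‖ ≤ 1 := by
    have h2 : M.κ ≤ 1 / (1 + C) := hκle.trans k7
    rw [le_div_iff₀ (by positivity)] at h2
    linarith
  have hyF : (2 * C + 1) * (M.κ * Real.exp (cT - M.lb) + ‖fderiv ℝ M.u 0‖) ≤ κF := by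
    have h2 : M.κ ≤ κF / ((2 * C + 1) * (1 + C)) := hκle.trans k6
    rw [le_div_iff₀ (by positivity)] at h2
    calc (2 * C + 1) * (M.κ * Real.exp (cT - M.lb) + ‖fderiv ℝ M.u 0‖) ≤
          (2 * C + 1) * ((1 + C) * M.κ) := mul_le_mul_of_nonneg_left hyκ (by linarith)
      _ = M.κ * ((2 * C + 1) * (1 + C)) := by ring
      _ ≤ κF := h2
  obtain ⟨a1, a2, a3, a4⟩ := hLa L K hLa' hK hKL
  have hL0 : 0 < L := by linarith
  exact bb_core (δ' := 0) hC1 hCF hFB hS hκ0 h64 hFm hw5 hwB hwS hcd hK hl.2 hlT hcT hIpos hL0 hHL hloc hsub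
    (fun z hz => hz.1) (fun z hz => hz.2.1) hh0 hh2 hm1' hm2' hyF hy1 a1 a2 a3 a4

/-- **GLP from F3** -/
theorem glp_of_F3P (hF3 : ∀ m n Q : ℕ, 3 ≤ m → 1 ≤ n → 1 ≤ Q →
    F3d_433.F3P m n (m + n) Q) : GLP :=
  glp_of (bbP_of hF3)

end Crest.Agent.R234.Ng_290
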