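import Crest.Agent.R234.Ng5_290
import Crest.Agent.R234.Gs7_685
import Crest.Agent.R234.Gi7_456
import Crest.Agent.R234.Gs9_685
import Crest.Agent.R234.GLK7_128
import Crest.Agent.R234.LowF9_471
import Crest.Agent.R234.Lr1_456
import Crest.Agent.R234.Lk1_456
import Crest.Agent.R234.Mx17_397
import Crest.Agent.R234.Stp2_518
import Crest.Agent.R234.Gs5_685
import Crest.Agent.R234.Grot8_842
import Crest.Agent.R234.Tv10_618
import Crest.Agent.R234.GLK9_128

-- ▼ part R234/Ng6_290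
section

/-!
# Row 234, node F7-GL, part 6 (helper290)

**Fine heights by density** for 456's chart: a.e. point with `|c.x| ≤ e^(cT - 1/(4N))` has height
`≤ 2 e^cT (Cd N² H)^(1/(m+2))`, `H = e^(-2cT) II(cT)`.
-/

set_option autoImplicit false
set_option linter.unusedVariables false

open MeasureTheory Set Function Filter Topology Metric
open Crest.GeometryTopology.Submanifold
open Crest.Agent.R234.Vf_884 Crest.Agent.R234.Ar_870
open Crest.Agent.R234.Main_456 (Frame Msys)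
open Crest.Agent.R234.Gi_456
open Crest.Agent.R234.GL_394
open scoped ENNReal NNReal InnerProductSpace

noncomputable section

namespace Crest.Agent.R234.Ng_290

variable {m n k : ℕ} {U K : Set (Euc k)} {V : Measure (Euc k × L k)}
  {π : Euc k →L[ℝ] Euc m} {ρ : Euc k →L[ℝ] Euc n} {x z0 : Euc k} {r : ℝ} {w : Euc m → Euc n}
  {X0 : Euc m} {s t d Λ η : ℝ} {g g1 g2 : ℝ → ℝ} {B : ℝ}

/-- the height of the chart is `1`-Lipschitz in the tube -/
theorem nu_lip (hf : Frame π ρ) (hw : Gr r w) {z z' : Euc k} (hz : z ∈ tube π ρ x r w)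
    (hz' : z' ∈ tube π ρ x r w) :
    ‖(ch π ρ x r w X0).nu z‖ ≤ ‖(ch π ρ x r w X0).nu z'‖ + ‖z - z'‖ := by
  have h1 := hw.norm_nu_le (X0 := X0) hf hz (foot π ρ x r w z')
  have h2 := hw.sub_pm_foot (X0 := X0) hf hz'
  refine h1.trans ?_
  have h3 : z - pm π ρ x w (foot π ρ x r w z') = (ch π ρ x r w X0).nu z' + (z - z') := by
    rw [← h2]; abel
  rw [h3]
  exact norm_add_le _ _

theorem two_f_nu (z : Euc k) : 2 * (ch π ρ x r w X0).f z = ‖(ch π ρ x r w X0).nu z‖ ^ 2 := by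
  change 2 * (‖Bt π ρ w (foot π ρ x r w z) (yy π ρ x r w z)‖ ^ 2 / 2) =
    ‖Bt π ρ w (foot π ρ x r w z) (yy π ρ x r w z)‖ ^ 2
  ring

/-- `K` is over the `5/8`-tube -/
def Hlf (π : Euc k →L[ℝ] Euc m) (ρ : Euc k →L[ℝ] Euc n) (x : Euc k) (r : ℝ) (w : Euc m → Euc n)
    (K : Set (Euc k)) : Prop := ∀ z ∈ K, ‖ρ (z - x) - w (π (z - x))‖ ≤ 5 / 8 * r

/-- **density at one point of large height** -/
theorem density_pt (hf : Frame π ρ) (hw : Gr r w)
    (h : Loc (ch π ρ x r w X0) U (tube π ρ x r w) K V Λ) (hm : 1 ≤ m)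
    (hK : Hlf π ρ x r w K) (hz0 : z0 ∈ K) (hη : 0 < η) (hηr : 4 * η ≤ r)
    (hU : closedBall z0 η ⊆ U) (ht : ‖(ch π ρ x r w X0).x z0‖ + 65 / 32 * η ≤ Real.exp t)
    (htΛ : t ≤ Λ) (hη2 : 2 * η ≤ ‖(ch π ρ x r w X0).nu z0‖) (hTh : 1 ≤ Th m V z0) :
    ome m * η ^ (m + 2) ≤ HH (ch π ρ x r w X0) (VK V K) (Real.exp t) := by
  have hr := hw.pos
  have hWt : K ⊆ tube π ρ x r w := h.sub.trans inter_subset_left
  have ht0 : z0 ∈ tube π ρ x r w := hWt hz0
  have hball : ∀ z ∈ ball z0 η, z ∈ tube π ρ x r w ∩ U ∧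
      ‖(ch π ρ x r w X0).x z‖ ≤ Real.exp t ∧ η ≤ ‖(ch π ρ x r w X0).nu z‖ := by
    intro z hz
    have h0 : ‖z - z0‖ < η := by rwa [mem_ball, dist_eq_norm] at hz
    have h1 := Gv_685.hgt_sub_le (x := x) hf hw z z0
    have h2 := hK z0 hz0
    have h3 : z ∈ tube π ρ x r w := by
      change ‖ρ (z - x) - w (π (z - x))‖ < r
      linarith
    refine ⟨⟨h3, hU (ball_subset_closedBall hz)⟩, ?_, ?_⟩
    · have h4 := Gv_685.norm_chx_sub (X0 := X0) hf hw h3 ht0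
      have h5 : (ch π ρ x r w X0).x z = (ch π ρ x r w X0).x z0 +
        ((ch π ρ x r w X0).x z - (ch π ρ x r w X0).x z0) := by abel
      rw [h5]
      refine (norm_add_le _ _).trans ?_
      linarith
    · have h4 := nu_lip (X0 := X0) hf hw ht0 h3
      rw [norm_sub_rev] at h4
      linarith
  have hgap : ∀ᵐ p ∂V, p.1 ∈ ball z0 η → p.1 ∈ K := by
    filter_upwards [h.gap] with p hp hpb
    obtain ⟨h1, h2, -⟩ := hball _ hpb
    exact hp h1 (h2.trans (Real.exp_le_exp.2 htΛ))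
  have hmeasB : MeasurableSet (Prod.fst ⁻¹' ball z0 η : Set (Euc k × L k)) :=
    (isOpen_ball.preimage continuous_fst).measurableSet
  have hVfin : V (Prod.fst ⁻¹' ball z0 η) < ⊤ := by
    refine lt_of_le_of_lt (measure_mono ?_) (h.st.fin _ (isCompact_closedBall z0 η) hU)
    intro p hp
    exact ⟨ball_subset_closedBall hp, mem_univ _⟩
  have hmass : ome m * η ^ m ≤ V.real (Prod.fst ⁻¹' ball z0 η) := by
    have h1 := mul_le_mass h.st hm hη (ball_subset_closedBall.trans hU) hTh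
    rw [mass_apply V measurableSet_ball, one_mul] at h1
    have h3 := ENNReal.toReal_mono hVfin.ne h1
    rwa [ENNReal.toReal_ofReal (mul_nonneg (ome_pos m).le (by positivity))] at h3
  have e1 : V.restrict (Prod.fst ⁻¹' ball z0 η) =
      (VK V K).restrict (Prod.fst ⁻¹' ball z0 η) := by
    rw [GL_394.VK, Measure.restrict_restrict hmeasB]
    refine Measure.restrict_congr_set ?_
    filter_upwards [hgap] with p hp
    exact propext ⟨fun h1 => ⟨h1, hp h1, mem_univ _⟩, fun h1 => h1.1⟩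
  have hok : Ok (ch π ρ x r w X0) K univ := (hw.reg hf X0).ok h.cpt hWt
  have hOn := h.toOn
  have i0 : Integrable (fun p : Euc k × Vf_884.L k => 2 * (ch π ρ x r w X0).f p.1) (VK V K) :=
    hOn.integrable h.cpt (continuousOn_const.mul (lift hok.cf))
  have h6 : η ^ 2 * V.real (Prod.fst ⁻¹' ball z0 η) ≤
      ∫ p in Prod.fst ⁻¹' ball z0 η, 2 * (ch π ρ x r w X0).f p.1 ∂(VK V K) := by
    rw [← e1]
    have h7 : ∫ p in Prod.fst ⁻¹' ball z0 η, η ^ 2 ∂V =
        η ^ 2 * V.real (Prod.fst ⁻¹' ball z0 η) := by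
      rw [setIntegral_const, smul_eq_mul, mul_comm]
    rw [← h7]
    refine setIntegral_mono_on (integrableOn_const hVfin.ne) ?_ hmeasB fun p hp => ?_
    · have h8 := i0.integrableOn (s := Prod.fst ⁻¹' ball z0 η)
      unfold IntegrableOn at h8 ⊢
      rwa [← e1] at h8
    · rw [two_f_nu]
      exact pow_le_pow_left₀ hη.le (hball p.1 hp).2.2 2
  have h9 : ∫ p in Prod.fst ⁻¹' ball z0 η, 2 * (ch π ρ x r w X0).f p.1 ∂(VK V K) ≤
      HH (ch π ρ x r w X0) (VK V K) (Real.exp t) := by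
    unfold HH
    refine setIntegral_mono_set i0.integrableOn (Eventually.of_forall fun p => ?_)
      (LE.le.eventuallyLE fun p hp => (hball _ hp).2.1)
    simp only [two_f_nu, Pi.zero_apply]
    positivity
  calc ome m * η ^ (m + 2) = η ^ 2 * (ome m * η ^ m) := by ring
    _ ≤ η ^ 2 * V.real (Prod.fst ⁻¹' ball z0 η) := by gcongr
    _ ≤ _ := h6.trans h9

/-- the constant of the fine heights -/
def Cd (m : ℕ) (bl : ℝ) : ℝ := 64 / (bl * ome m)

/-- fine height -/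
def hf1 (m : ℕ) (bl cT N H : ℝ) : ℝ := 2 * Real.exp cT * (Cd m bl * N ^ 2 * H) ^ th0 m

theorem Cd_pos {bl : ℝ} (hbl : 0 < bl) : 0 < Cd m bl := by
  have := ome_pos m
  unfold Cd; positivity

theorem hf1_nonneg {bl cT N H : ℝ} (hbl : 0 < bl) (hH : 0 ≤ H) : 0 ≤ hf1 m bl cT N H := by
  have := Cd_pos (m := m) hbl
  unfold hf1
  have := Real.rpow_nonneg (by positivity : 0 ≤ Cd m bl * N ^ 2 * H) (th0 m)
  positivity

theorem hf1_le {bl cT N H : ℝ} (hbl : 0 < bl) (hH : 0 ≤ H) (hN : 1 ≤ N)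
    (hsm : Cd m bl * N ^ 2 * H ≤ ((64 * N)⁻¹) ^ (m + 2)) :
    hf1 m bl cT N H ≤ Real.exp cT / (32 * N) := by
  have h0 := Cd_pos (m := m) hbl
  have h1 : (Cd m bl * N ^ 2 * H) ^ th0 m ≤ (64 * N)⁻¹ := by
    calc _ ≤ (((64 * N)⁻¹) ^ (m + 2)) ^ th0 m :=
          Real.rpow_le_rpow (by positivity) hsm (th0_pos (m := m)).le
      _ = (64 * N)⁻¹ := by
        rw [← Real.rpow_natCast, ← Real.rpow_mul (by positivity)]
        unfold th0
        push_cast
        rw [mul_one_div_cancel (by positivity), Real.rpow_one]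
  unfold hf1
  calc 2 * Real.exp cT * (Cd m bl * N ^ 2 * H) ^ th0 m ≤ 2 * Real.exp cT * (64 * N)⁻¹ :=
        mul_le_mul_of_nonneg_left h1 (by positivity)
    _ = _ := by field_simp; norm_num

/-- **fine heights by density** -/
theorem fine_ae (hf : Frame π ρ) (hw : Gr r w) {cT N bl : ℝ}
    (h : Loc (ch π ρ x r w X0) U (tube π ρ x r w) K V Λ) (hm : 1 ≤ m)
    (hK : Hlf π ρ x r w K) (hcT : cT ≤ Λ) (hN : 1 ≤ N) (hr8 : Real.exp cT ≤ 8 * N * r)
    (hTh : ∀ᵐ p ∂V, p.1 ∈ U → 1 ≤ Th m V p.1)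
    (hU : ∀ z ∈ K, closedBall z (Real.exp cT / (16 * N)) ⊆ U) (hp : Pf g g1 g2 B)
    (hbl : 0 < bl) (hlow : ∀ a t, 0 ≤ t → t ≤ a → a ≤ 1 → bl * (1 - a) ^ 2 ≤ -g1 t)
    (hmu : ∀ v : Euc m, ‖v‖ ≤ Real.exp cT → 1 / 2 ≤ (ch π ρ x r w X0).mu v)
    (hsm : Cd m bl * N ^ 2 * (Real.exp (-2 * cT) * II (ch π ρ x r w X0) (VK V K) g1 cT) ≤
      ((64 * N)⁻¹) ^ (m + 2)) :
    ∀ᵐ p ∂(VK V K), ‖(ch π ρ x r w X0).x p.1‖ ≤ Real.exp (cT - 1 / (4 * N)) →
      2 * (ch π ρ x r w X0).f p.1 ≤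
        hf1 m bl cT N (Real.exp (-2 * cT) * II (ch π ρ x r w X0) (VK V K) g1 cT) ^ 2 := by
  have hN0 : 0 < N := by linarith
  have hWt : K ⊆ tube π ρ x r w := h.sub.trans inter_subset_left
  have hok : Ok (ch π ρ x r w X0) K univ := (hw.reg hf X0).ok h.cpt hWt
  have hOn := h.toOn
  have hmeasK : MeasurableSet (K ×ˢ (univ : Set (Vf_884.L k))) :=
    h.cpt.isClosed.measurableSet.prod MeasurableSet.univ
  set I := II (ch π ρ x r w X0) (VK V K) g1 cT with hI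
  have hI0 : 0 ≤ I := II_nonneg hok hOn hp.pr.anti cT
  set H := Real.exp (-2 * cT) * I with hH
  have hH0 : 0 ≤ H := by positivity
  have hC0 := Cd_pos (m := m) hbl
  have ho := ome_pos m
  -- the sharp integral
  have hHH : HH (ch π ρ x r w X0) (VK V K) (Real.exp (cT - 1 / (8 * N))) ≤
      64 * N ^ 2 / bl * (Real.exp (m * cT) * I) := by
    have h1 := HH_le_II (c := ch π ρ x r w X0) (N := 4 * N) hok hOn hp hbl hlow (by linarith) hmu
    have h2 : cT - 1 / (2 * (4 * N)) = cT - 1 / (8 * N) := by ring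
    rw [h2] at h1
    refine h1.trans (le_of_eq ?_)
    ring
  have hfin := hf1_le (cT := cT) hbl hH0 hN hsm
  have hh0 := hf1_nonneg (m := m) (cT := cT) (N := N) hbl hH0
  -- the radius
  have e0 : ∀ᵐ p ∂(VK V K), p ∈ K ×ˢ (univ : Set (Vf_884.L k)) := ae_restrict_mem hmeasK
  have e1 : ∀ᵐ p ∂(VK V K), p.1 ∈ U → 1 ≤ Th m V p.1 := ae_restrict_of_ae hTh
  filter_upwards [e0, e1] with p hp1 hT hps
  have hpU := h.sub.trans inter_subset_right hp1.1
  rw [two_f_nu]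
  by_contra hcon
  push Not at hcon
  set ν := ‖(ch π ρ x r w X0).nu p.1‖ with hν
  have hν0 : 0 ≤ ν := norm_nonneg _
  have hlt : hf1 m bl cT N H < ν := lt_of_pow_lt_pow_left₀ 2 hν0 hcon
  have hη₀ : 0 < Real.exp cT / (32 * N) := by positivity
  set η := min (ν / 2) (Real.exp cT / (32 * N)) with hηdef
  have hη1 : hf1 m bl cT N H / 2 < η := by
    refine lt_min (by linarith) ?_
    have h1 : Real.exp cT / (32 * N) / 2 < Real.exp cT / (32 * N) := by linarith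
    have h2 : hf1 m bl cT N H / 2 ≤ Real.exp cT / (32 * N) / 2 := by linarith
    linarith
  have hη0 : 0 < η := lt_of_le_of_lt (by linarith) hη1
  have hη2 : η ≤ Real.exp cT / (32 * N) := min_le_right _ _
  have hη3 : 2 * η ≤ ν := by
    have : η ≤ ν / 2 := min_le_left _ _
    linarith
  have hgap : Real.exp (cT - 1 / (4 * N)) + 65 / 32 * η ≤ Real.exp (cT - 1 / (8 * N)) := by
    have h1 : Real.exp (cT - 1 / (8 * N)) = Real.exp (cT - 1 / (4 * N)) *
        Real.exp (1 / (8 * N)) := by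
      rw [← Real.exp_add]; congr 1; field_simp; ring
    have h2 : 1 + 1 / (8 * N) ≤ Real.exp (1 / (8 * N)) := by
      linarith [Real.add_one_le_exp (1 / (8 * N))]
    have h3 : Real.exp cT * (3 / 4) ≤ Real.exp (cT - 1 / (4 * N)) := by
      have h4 : Real.exp (cT - 1 / (4 * N)) = Real.exp cT * Real.exp (-(1 / (4 * N))) := by
        rw [← Real.exp_add]; congr 1
      rw [h4]
      refine mul_le_mul_of_nonneg_left ?_ (Real.exp_pos _).le
      have h5 : 1 / (4 * N) ≤ 1 / 4 := by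
        rw [div_le_div_iff₀ (by positivity) (by norm_num)]; linarith
      linarith [Real.add_one_le_exp (-(1 / (4 * N)))]
    rw [h1]
    have h6 : Real.exp (cT - 1 / (4 * N)) * (1 + 1 / (8 * N)) ≤
        Real.exp (cT - 1 / (4 * N)) * Real.exp (1 / (8 * N)) :=
      mul_le_mul_of_nonneg_left h2 (Real.exp_pos _).le
    have h7 : 65 / 32 * η ≤ Real.exp (cT - 1 / (4 * N)) * (1 / (8 * N)) := by
      calc 65 / 32 * η ≤ 65 / 32 * (Real.exp cT / (32 * N)) := by linarith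
        _ = (Real.exp cT * (65 / 128)) * (1 / (8 * N)) := by field_simp; norm_num
        _ ≤ (Real.exp cT * (3 / 4)) * (1 / (8 * N)) := by
            refine mul_le_mul_of_nonneg_right (mul_le_mul_of_nonneg_left ?_ (Real.exp_pos _).le)
              (by positivity)
            norm_num
        _ ≤ _ := by gcongr
    linarith
  have h1 := density_pt (t := cT - 1 / (8 * N)) hf hw h hm hK hp1.1 hη0 (by
      have h2 : Real.exp cT / (32 * N) ≤ r / 4 := by
        rw [div_le_iff₀ (by positivity)]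
        linarith
      linarith)
    ((closedBall_subset_closedBall (hη2.trans (by
      rw [div_le_div_iff₀ (by positivity) (by positivity)]
      have := Real.exp_pos cT
      nlinarith))).trans (hU _ hp1.1)) (by linarith) (by
        have : 0 < 1 / (8 * N) := by positivity
        linarith) hη3 (hT hpU)
  have h2 : ome m * η ^ (m + 2) ≤ 64 * N ^ 2 / bl * (Real.exp (m * cT) * I) := h1.trans hHH
  have h3 : η ^ (m + 2) ≤ Real.exp cT ^ (m + 2) * (Cd m bl * N ^ 2 * H) := by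
    have e4 : Real.exp (m * cT) * I = Real.exp cT ^ (m + 2) * H := by
      rw [hH, ← Real.exp_nat_mul, ← mul_assoc, ← Real.exp_add]
      congr 2
      push_cast; ring
    rw [e4] at h2
    have e5 : ome m * (Real.exp cT ^ (m + 2) * (Cd m bl * N ^ 2 * H)) =
        64 * N ^ 2 / bl * (Real.exp cT ^ (m + 2) * H) := by
      unfold Cd; field_simp
    rw [← e5] at h2
    exact le_of_mul_le_mul_left h2 ho
  have h4 : η ≤ hf1 m bl cT N H / 2 := by
    have e6 : hf1 m bl cT N H / 2 = Real.exp cT * (Cd m bl * N ^ 2 * H) ^ th0 m := by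
      unfold hf1; ring
    have e7 : (Real.exp cT * (Cd m bl * N ^ 2 * H) ^ th0 m) ^ (m + 2) =
        Real.exp cT ^ (m + 2) * (Cd m bl * N ^ 2 * H) := by
      rw [mul_pow]
      congr 1
      rw [← Real.rpow_natCast ((Cd m bl * N ^ 2 * H) ^ th0 m), ← Real.rpow_mul (by positivity)]
      unfold th0
      push_cast
      rw [one_div_mul_cancel (by positivity), Real.rpow_one]
    rw [e6]
    refine le_of_pow_le_pow_left₀ (n := m + 2) (by omega) ?_ (by rw [e7]; exact h3)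
    have := Real.rpow_nonneg (by positivity : 0 ≤ Cd m bl * N ^ 2 * H) (th0 m)
    positivity
  linarith

end Crest.Agent.R234.Ng_290
end
end

-- ▼ part R234/Ng7_290
section

/-!
# Row 234, node F7-GL, part 7 (helper290)

`Gl` for 456's chart on the compact `K1` of the fine heights; transfer of `StepW` back to `K`.
Minimality of the reference only on the open ball `|X - X0| < e^cT`.
-/

set_option autoImplicit false
set_option linter.unusedVariables false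
set_option maxSynthPendingDepth 3

open MeasureTheory Set Function Filter Topology Metric
open Crest.GeometryTopology.Submanifold
open Crest.Agent.R234.Vf_884 Crest.Agent.R234.Ar_870
open Crest.Agent.R234.Main_456 (Frame Msys)
open Crest.Agent.R234.Gi_456
open Crest.Agent.R234.GL_394
open scoped ENNReal NNReal InnerProductSpace

noncomputable section

namespace Crest.Agent.R234.Ng_290

section abs

variable {m k : ℕ} {c : Ch m k} {K Kt Kh W U : Set (Euc k)} {D : Set (Euc m)}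
  {V : Measure (Euc k × L k)} {g g1 g2 : ℝ → ℝ} {Q c0 d0 hh C0 C1 B l : ℝ} {zN : Euc k → Euc k}

/-- transfer of `StepW` -/
theorem stepW_congr {C₀ a b₀ δ w : ℝ} {I E e b R I' E' e' b' R' : ℝ → ℝ}
    (h : Nb_290.StepW C₀ a b₀ δ w I E e b R) (hI : ∀ l ∈ Icc a b₀, I' =ᶠ[𝓝 l] I)
    (hE : ∀ l ∈ Icc a b₀, E' =ᶠ[𝓝 l] E) (he : ∀ l ∈ Icc a b₀, e' l = e l)
    (hb : ∀ l ∈ Icc a b₀, b' l = b l) (hR : ∀ l ∈ Icc a b₀, R' l = R l) :
    Nb_290.StepW C₀ a b₀ δ w I' E' e' b' R' where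
  hI l hl := by rw [(hI l hl).eq_of_nhds]; exact h.hI l hl
  he l hl := by rw [he l hl]; exact h.he l hl
  hR l hl := by rw [hR l hl]; exact h.hR l hl
  hE l hl := by rw [(hE l hl).eq_of_nhds, he l hl, hb l hl]; exact h.hE l hl
  dI l hl := by
    obtain ⟨d, h1, h2⟩ := h.dI l hl
    refine ⟨d, h1.congr_of_eventuallyEq (hI l hl), ?_⟩
    rw [(hI l hl).eq_of_nhds, he l hl]; exact h2
  dE l hl := by
    obtain ⟨d, h1, h2⟩ := h.dE l hl
    refine ⟨d, h1.congr_of_eventuallyEq (hE l hl), ?_⟩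
    rw [(hI l hl).eq_of_nhds, he l hl, hb l hl, hR l hl]; exact h2
  hCS l hl := by
    rw [(hI l hl).eq_of_nhds, he l hl, hR l hl]; exact h.hCS l hl
  hb l hl := by rw [(hI l hl).eq_of_nhds, hb l hl]; exact h.hb l hl
  hab l hl := by
    rw [(hI l hl).eq_of_nhds, (hE l hl).eq_of_nhds, he l hl]; exact h.hab l hl

theorem Sub.stepW {L C₀ a b₀ δ w : ℝ} (h : Sub c V Kt Kh L) (hp : Pf g g1 g2 B) (hb0 : b₀ < L)
    (hs : Nb_290.StepW C₀ a b₀ δ w (II c (VK V Kh) g1) (EE c (VK V Kh) g Q) (ee c (VK V Kh) g)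
      (bb c (VK V Kh) g Q) (RF c (VK V Kh) g1 B c0 d0)) :
    Nb_290.StepW C₀ a b₀ δ w (II c (VK V Kt) g1) (EE c (VK V Kt) g Q) (ee c (VK V Kt) g)
      (bb c (VK V Kt) g Q) (RF c (VK V Kt) g1 B c0 d0) := by
  refine stepW_congr hs ?_ ?_ ?_ ?_ ?_
  · intro l hl
    filter_upwards [Iio_mem_nhds (lt_of_le_of_lt hl.2 hb0)] with l' hl'
    exact (h.II_eq' hp (le_of_lt hl')).symm
  · intro l hl
    filter_upwards [Iio_mem_nhds (lt_of_le_of_lt hl.2 hb0)] with l' hl'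
    exact (h.EE_eq hp (le_of_lt hl')).symm
  · exact fun l hl => (h.ee_eq' hp (hl.2.trans hb0.le)).symm
  · exact fun l hl => (h.bb_eq hp (hl.2.trans hb0.le)).symm
  · exact fun l hl => (h.RF_eq hp (hl.2.trans hb0.le)).symm

/-- the height functional is monotone in the compact -/
theorem II_sub_le (h : Ok c Kt D) (hV : On (VK V Kt) m Kt) (hp : Pf g g1 g2 B) (hKh : IsCompact Kh)
    (hsub : Kh ⊆ Kt) (l : ℝ) : II c (VK V Kh) g1 l ≤ II c (VK V Kt) g1 l := by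
  unfold II
  refine mul_le_mul_of_nonneg_left ?_ (Real.exp_pos _).le
  have i2 : Integrable (fun p : Euc k × Vf_884.L k => (c.f p.1 * c.mu (c.x p.1)) *
      (-4 * g1 (Real.exp (-2 * l) * ‖c.x p.1‖ ^ 2))) (VK V Kt) :=
    h.int hV h.cfmu (q := fun t => -4 * g1 t) (continuous_const.mul hp.pr.k1.continuous) l
  have hr : VK V Kh = (VK V Kt).restrict (Kh ×ˢ univ) := by
    unfold VK
    rw [Measure.restrict_restrict (hKh.isClosed.measurableSet.prod MeasurableSet.univ)]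
    congr 1
    ext p
    constructor
    · exact fun hp => ⟨hp, hsub hp.1, hp.2⟩
    · exact fun hp => hp.1
  rw [hr]
  refine setIntegral_le_integral i2 ?_
  filter_upwards [hV.mem] with p hpm
  have h1 := h.f_nonneg hpm.1
  have h2 := h.mupos _ (h.mem _ hpm.1)
  have h3 := hp.pr.anti (Real.exp (-2 * l) * ‖c.x p.1‖ ^ 2) (by positivity)
  exact mul_nonneg (mul_nonneg h1 h2.le) (by linarith)

theorem Sup.mono {cT N C1' : ℝ} (hS : Sup c V cT N C1) (hC : C1 ≤ C1')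
    (hH : 0 ≤ HH c V (Real.exp (cT - 1 / (2 * N))))
    (hN : 1 ≤ N) : Sup c V cT N C1' where
  C1n := hS.C1n.trans hC
  s1 := by
    have hN0 : 0 < N := by linarith
    have e0 : cT - 3 / (4 * N) + 1 / (4 * N) ≤ cT - 1 / (2 * N) := by
      have : 3 / (4 * N) = 1 / (2 * N) + 1 / (4 * N) := by field_simp; ring
      linarith
    obtain ⟨h1, -⟩ := gap_ge (N := 4 * N) (by positivity) e0
    filter_upwards [hS.s1] with p hp hx
    refine (hp hx).trans ?_
    have := inv_nonneg.2 h1.le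
    gcongr
  s2 s hs hs1 := by
    refine (hS.s2 s hs hs1).trans ?_
    gcongr

end abs

section chart

variable {m n k : ℕ} {U K : Set (Euc k)} {V : Measure (Euc k × L k)}
  {π : Euc k →L[ℝ] Euc m} {ρ : Euc k →L[ℝ] Euc n} {x z0 : Euc k} {r : ℝ} {w : Euc m → Euc n}
  {X0 : Euc m} {s t d Λ η : ℝ} {g g1 g2 : ℝ → ℝ} {B Q : ℝ}

/-- the constant of (S1), (S2) -/
def C1s (m : ℕ) : ℝ := 2 * (4 * m) ^ m / ome m + 128 * Gs_685.Kst ^ 2 + 4 * m

theorem C1s_nonneg (m : ℕ) : 0 ≤ C1s m := by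
  have := ome_pos m
  unfold C1s; positivity

/-- the constant of the coefficients -/
def Ac (m n : ℕ) : ℝ := 4 * GLK_128.Ck m n

theorem Ac_nonneg (m n : ℕ) : 0 ≤ Ac m n := by
  have := GLK_128.Ck_nonneg m n
  unfold Ac; positivity

/-- **the concrete data of one window** -/
structure Cd1 (U : Set (Euc k)) (V : Measure (Euc k × L k)) (K : Set (Euc k))
    (π : Euc k →L[ℝ] Euc m) (ρ : Euc k →L[ℝ] Euc n) (x : Euc k) (r : ℝ) (w : Euc m → Euc n)
    (X0 : Euc m) (Λ κ cT N : ℝ) : Prop where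
  hf : Frame π ρ
  hw : Gr r w
  loc : Loc (ch π ρ x r w X0) U (tube π ρ x r w) K V Λ
  half : Hlf π ρ x r w K
  hcT : cT ≤ Λ
  hN : 1 ≤ N
  hr : Real.exp cT ≤ r
  hTh : ∀ᵐ p ∂V, p.1 ∈ U → 1 ≤ Th m V p.1
  hU : ∀ z ∈ K, closedBall z r ⊆ U
  κ0 : 0 ≤ κ
  κ1 : κ ≤ 1 / 2
  κm : m * κ ≤ 1
  d2 : ∀ X, ‖X - X0‖ ≤ Real.exp cT → ‖fderiv ℝ (fderiv ℝ w) X‖ ≤ κ * Real.exp (-cT)
  d3 : ∀ X, ‖X - X0‖ ≤ Real.exp cT → ‖fderiv ℝ (fderiv ℝ (fderiv ℝ w)) X‖ ≤ κ * Real.exp (-2 * cT)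
  mn : ∀ X, ‖X - X0‖ < Real.exp cT → Msys w X = 0

namespace Cd1

variable {κ cT N : ℝ} (h : Cd1 U V K π ρ x r w X0 Λ κ cT N)
include h

theorem ok : Ok (ch π ρ x r w X0) K univ :=
  (h.hw.reg h.hf X0).ok h.loc.cpt (h.loc.sub.trans inter_subset_left)

theorem hy {K' : Set (Euc k)} (hK' : K' ⊆ K) {l hb : ℝ} (hl : l < cT) (h0 : 0 ≤ hb) (h1 : hb ≤ 1)
    (hnu : ∀ z ∈ K', ‖(ch π ρ x r w X0).x z‖ ≤ Real.exp l →
      ‖(ch π ρ x r w X0).nu z‖ ≤ hb * Real.exp l) :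
    GLK_128.Hy π ρ x r w X0 K' l (1 / 8) (κ * Real.exp (-cT)) (κ * Real.exp (-2 * cT)) hb where
  gr := h.hw
  fr := h.hf
  sub := (hK'.trans h.loc.sub).trans inter_subset_left
  k1 X _ := h.hw.d1 X
  k2 X hX := h.d2 X (hX.trans (Real.exp_le_exp.2 hl.le))
  k3 X hX := h.d3 X (hX.trans (Real.exp_le_exp.2 hl.le))
  k1le := by norm_num
  k2s := by
    have h2 : Real.exp (-cT) * Real.exp l ≤ 1 := by
      rw [← Real.exp_add]; exact Real.exp_le_one_iff.2 (by linarith)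
    have h3 := h.κ0
    calc κ * Real.exp (-cT) * Real.exp l = κ * (Real.exp (-cT) * Real.exp l) := by ring
      _ ≤ κ * 1 := mul_le_mul_of_nonneg_left h2 h3
      _ ≤ 1 / 2 := by linarith [h.κ1]
  hb0 := h0
  hb1 := h1
  min X hX := by
    have h2 : ‖X - X0‖ < Real.exp cT := lt_of_le_of_lt hX (Real.exp_lt_exp.2 hl)
    have h3 : Continuous fun X : Euc m => ‖X - X0‖ := (continuous_id.sub continuous_const).norm
    filter_upwards [h3.continuousAt.eventually (gt_mem_nhds h2)] with X' hX'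
    exact h.mn X' hX'
  nu := hnu

theorem kb {K' : Set (Euc k)} (hK' : K' ⊆ K) (hKc : IsCompact K') {l hb : ℝ} (hl : l < cT)
    (h0 : 0 ≤ hb) (h1 : hb ≤ 1)
    (hnu : ∀ z ∈ K', ‖(ch π ρ x r w X0).x z‖ ≤ Real.exp l →
      ‖(ch π ρ x r w X0).nu z‖ ≤ hb * Real.exp l) :
    KB (ch π ρ x r w X0) K' l (Ac m n * κ) (Ac m n * κ * hb) hb (m + 8)
      (GLK_128.zN π ρ x r w X0) := by
  have hH := h.hy hK' hl h0 h1 hnu
  have hC := GLK_128.Ck_nonneg m n
  have hκ := h.κ0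
  have hκ1 := h.κ1
  have a0 : Real.exp (-cT) * Real.exp l ≤ 1 := by
    rw [← Real.exp_add]; exact Real.exp_le_one_iff.2 (by linarith)
  have a2 : κ * Real.exp (-cT) * Real.exp l ≤ κ := by
    calc κ * Real.exp (-cT) * Real.exp l = κ * (Real.exp (-cT) * Real.exp l) := by ring
      _ ≤ κ * 1 := mul_le_mul_of_nonneg_left a0 hκ
      _ = κ := mul_one _
  have a3 : κ * Real.exp (-2 * cT) * Real.exp (2 * l) ≤ κ := by
    have : Real.exp (-2 * cT) * Real.exp (2 * l) ≤ 1 := by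
      rw [← Real.exp_add]; exact Real.exp_le_one_iff.2 (by linarith)
    calc κ * Real.exp (-2 * cT) * Real.exp (2 * l) = κ * (Real.exp (-2 * cT) * Real.exp (2 * l)) := by
          ring
      _ ≤ κ * 1 := mul_le_mul_of_nonneg_left this hκ
      _ = κ := mul_one _
  have b2 : 0 ≤ κ * Real.exp (-cT) * Real.exp l := by positivity
  have b3 : 0 ≤ κ * Real.exp (-2 * cT) * Real.exp (2 * l) := by positivity
  set A2 := κ * Real.exp (-cT) * Real.exp l
  set A3 := κ * Real.exp (-2 * cT) * Real.exp (2 * l)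
  have hok' : Ok (ch π ρ x r w X0) K' univ :=
    (h.hw.reg h.hf X0).ok hKc ((hK'.trans h.loc.sub).trans inter_subset_left)
  refine LowF9_471.KB_mono hH.kb hok' ?_ ?_ le_rfl
  · unfold GLK_128.cc Ac
    have e1 : A2 ^ 2 ≤ κ := by
      calc A2 ^ 2 = A2 * A2 := by ring
        _ ≤ κ * 1 := mul_le_mul a2 (a2.trans (by linarith)) b2 hκ
        _ = κ := mul_one _
    have e2 : A2 * A3 ≤ κ := by
      calc A2 * A3 ≤ κ * 1 := mul_le_mul a2 (a3.trans (by linarith)) b3 hκ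
        _ = κ := mul_one _
    have e3 : 1 / 8 * A2 + A2 ^ 2 + A2 * A3 + 1 / 8 * A3 ≤ 4 * κ := by linarith
    calc GLK_128.Ck m n * (1 / 8 * A2 + A2 ^ 2 + A2 * A3 + 1 / 8 * A3) ≤
          GLK_128.Ck m n * (4 * κ) := mul_le_mul_of_nonneg_left e3 hC
      _ = _ := by ring
  · unfold GLK_128.dd Ac
    have e3 : (A2 + A3) * hb ≤ (4 * κ) * hb := mul_le_mul_of_nonneg_right (by linarith) h0
    calc GLK_128.Ck m n * ((A2 + A3) * hb) ≤ GLK_128.Ck m n * ((4 * κ) * hb) :=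
          mul_le_mul_of_nonneg_left e3 hC
      _ = _ := by ring

theorem tau0 : ∀ p ∈ K ×ˢ G m k, 0 ≤ (ch π ρ x r w X0).tau p.1 p.2 := by
  intro p hp
  exact GLK_128.tau0_nonneg (frame_fr h.hf)
    (h.hw.inv (foot π ρ x r w p.1) (Y := yy π ρ x r w p.1)
      (h.hw.norm_yy_lt (h.loc.sub.trans inter_subset_left hp.1)).le) (Gv_685.pj_of_G hp.2)

theorem mu : ∀ v : Euc m, ‖v‖ ≤ Real.exp cT → 1 / 2 ≤ (ch π ρ x r w X0).mu v := by
  intro v hv
  have hr := h.hw.pos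
  have b : Bs w X0 (3 * (1 / 8 * (1 / (8 * r)))) (Real.exp cT) := by
    refine ⟨?_, fun u _ => ?_⟩
    · have h1 := h.hr
      have h2 : 3 * (1 / 8 * (1 / (8 * r))) * Real.exp cT = 3 / 64 * (Real.exp cT / r) := by
        field_simp; norm_num
      rw [h2]
      have h3 : Real.exp cT / r ≤ 1 := by rw [div_le_one hr]; exact h1
      linarith
    · have h1 := h.hw.d1 (pt w X0 u)
      have h2 := h.hw.d2 (pt w X0 u)
      have h3 : (0:ℝ) ≤ 1 / (8 * r) := by positivity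
      gcongr
  have h1 := (b.all (π := π) (ρ := ρ) (x := x) h.hw hv).2.2.2.1
  linarith

theorem isOn : On (VK V K) m K := h.loc.toOn

/-- the fine heights -/
theorem fine (hm : 1 ≤ m) (hp : Pf g g1 g2 B) {bl : ℝ} (hbl : 0 < bl)
    (hlow : ∀ a t, 0 ≤ t → t ≤ a → a ≤ 1 → bl * (1 - a) ^ 2 ≤ -g1 t)
    (hsm : Cd m bl * N ^ 2 * (Real.exp (-2 * cT) * II (ch π ρ x r w X0) (VK V K) g1 cT) ≤
      ((64 * N)⁻¹) ^ (m + 2)) :
    ∀ᵐ p ∂(VK V K), ‖(ch π ρ x r w X0).x p.1‖ ≤ Real.exp (cT - 1 / (4 * N)) →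
      2 * (ch π ρ x r w X0).f p.1 ≤
        hf1 m bl cT N (Real.exp (-2 * cT) * II (ch π ρ x r w X0) (VK V K) g1 cT) ^ 2 := by
  have hN := h.hN
  have hr := h.hw.pos
  refine fine_ae h.hf h.hw h.loc hm h.half h.hcT hN ?_ h.hTh ?_ hp hbl hlow h.mu hsm
  · have h1 := h.hr
    nlinarith
  · intro z hz
    refine (closedBall_subset_closedBall ?_).trans (h.hU z hz)
    rw [div_le_iff₀ (by positivity)]
    have h1 := h.hr
    nlinarith

end Cd1

/-- the compact of the fine heights -/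
def K1 (π : Euc k →L[ℝ] Euc m) (ρ : Euc k →L[ℝ] Euc n) (x : Euc k) (r : ℝ) (w : Euc m → Euc n)
    (X0 : Euc m) (K : Set (Euc k)) (h1 cT N : ℝ) : Set (Euc k) :=
  Kc (ch π ρ x r w X0) K (h1 ^ 2) (cT - 1 / (4 * N))

namespace Cd1

variable {κ cT N : ℝ} (h : Cd1 U V K π ρ x r w X0 Λ κ cT N)
include h

theorem loc1 {h1 : ℝ} (hae : ∀ᵐ p ∂(VK V K), ‖(ch π ρ x r w X0).x p.1‖ ≤
      Real.exp (cT - 1 / (4 * N)) → 2 * (ch π ρ x r w X0).f p.1 ≤ h1 ^ 2) :
    Loc (ch π ρ x r w X0) U (tube π ρ x r w) (K1 π ρ x r w X0 K h1 cT N) V (cT - 1 / (4 * N)) ∧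
      Sub (ch π ρ x r w X0) V K (K1 π ρ x r w X0 K h1 cT N) (cT - 1 / (4 * N)) := by
  have hN := h.hN
  refine loc_Kc (h.hw.reg h.hf X0) h.loc ?_ hae
  have : 0 < 1 / (4 * N) := by positivity
  linarith [h.hcT]

/-- **(S1), (S2) on `K1`** -/
theorem sup1 (hm : 1 ≤ m) {h1 : ℝ} (h10 : 0 ≤ h1) (h11 : h1 ≤ Real.exp cT / (32 * N))
    (hae : ∀ᵐ p ∂(VK V K), ‖(ch π ρ x r w X0).x p.1‖ ≤
      Real.exp (cT - 1 / (4 * N)) → 2 * (ch π ρ x r w X0).f p.1 ≤ h1 ^ 2) :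
    Sup (ch π ρ x r w X0) (VK V (K1 π ρ x r w X0 K h1 cT N)) cT N (C1s m) := by
  have hN := h.hN
  have hN0 : 0 < N := by linarith
  have hr := h.hw.pos
  have hm0 : (1:ℝ) ≤ m := by exact_mod_cast hm
  have hE := Real.exp_pos cT
  have hrc := h.hr
  obtain ⟨hl, hs⟩ := h.loc1 hae
  have hEN : Real.exp cT / (32 * N) ≤ Real.exp cT / 32 := by
    refine div_le_div_of_nonneg_left hE.le (by norm_num) (by linarith)
  have hKt : ∀ z ∈ K1 π ρ x r w X0 K h1 cT N, z ∈ tube π ρ x r w := fun z hz =>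
    h.loc.sub.trans inter_subset_left hz.1
  have hnu : ∀ z ∈ K1 π ρ x r w X0 K h1 cT N, ‖(ch π ρ x r w X0).nu z‖ ≤ h1 := by
    intro z hz
    have h2 := hz.2.1
    rw [two_f_nu] at h2
    exact le_of_sq_le_sq h2 h10
  have hyy : ∀ z ∈ K1 π ρ x r w X0 K h1 cT N, ‖yy π ρ x r w z‖ ≤ h1 := fun z hz =>
    (le_norm_nu (w := w) h.hf (foot π ρ x r w z) (yy π ρ x r w z)).trans (hnu z hz)
  have hK : ∀ z ∈ K1 π ρ x r w X0 K h1 cT N, ‖ρ (z - x) - w (π (z - x))‖ ≤ 2 * h1 := by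
    intro z hz
    have h2 := h.hw.norm_yy_sub' (hKt z hz)
    have h3 := hyy z hz
    have h4 := h.hw.d1 (foot π ρ x r w z)
    have h5 : ρ (z - x) - w (π (z - x)) = yy π ρ x r w z -
      (yy π ρ x r w z - (ρ (z - x) - w (π (z - x)))) := by abel
    rw [h5]
    refine (norm_sub_le _ _).trans ?_
    have h6 : ‖fderiv ℝ w (foot π ρ x r w z)‖ * ‖yy π ρ x r w z‖ ≤ 1 / 8 * h1 :=
      mul_le_mul h4 h3 (norm_nonneg _) (by norm_num)
    linarith
  have hS := Gv_685.sup_inst' (κ := κ * Real.exp (-cT)) (M := m) (h0 := 2 * h1) h.hf h.hw hl hm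
    (by linarith) hK (by linarith) h.hTh hN (by
      have : 1 / (4 * N) ≤ 1 / (2 * N) := by
        rw [div_le_div_iff₀ (by positivity) (by positivity)]; linarith
      linarith) hm0 (by nlinarith)
    (fun z hz _ => (closedBall_subset_closedBall (by
      rw [div_le_iff₀ (by positivity)]; nlinarith)).trans (h.hU z hz.1))
    (fun X hX => h.mn X (lt_of_le_of_lt hX ?_))
    (fun X hX => h.d2 X (hX.trans (Real.exp_le_exp.2 (by
      have : 0 < 1 / (2 * N) := by positivity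
      linarith))))
    (fun z hz _ => ?_)
  · refine hS.mono ?_ (HH_nonneg ((h.hw.reg h.hf X0).ok hl.cpt (hl.sub.trans inter_subset_left))
      hl.toOn _) hN
    unfold Gv_685.CS C1s
    have e1 : κ * Real.exp (-cT) * Real.exp cT = κ := by
      rw [mul_assoc, ← Real.exp_add, neg_add_cancel, Real.exp_zero, mul_one]
    rw [e1]
    have e2 : κ ^ 2 ≤ 1 := by
      have := h.κ0
      have := h.κ1
      nlinarith
    have e3 : 4 * (m:ℝ) * κ ^ 2 ≤ 4 * m * 1 := mul_le_mul_of_nonneg_left e2 (by positivity)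
    linarith
  · have e1 := one_sub_exp_ge (u := 1 / (2 * N)) (by positivity) (by
      rw [div_le_one (by positivity)]; linarith)
    have e2 : Real.exp (cT - 1 / (2 * N)) = Real.exp cT * Real.exp (-(1 / (2 * N))) := by
      rw [← Real.exp_add]; congr 1
    rw [e2]
    have e3 : Real.exp cT * Real.exp (-(1 / (2 * N))) ≤ Real.exp cT * (1 - 1 / (2 * N) / 2) :=
      mul_le_mul_of_nonneg_left (by linarith) hE.le
    have e4 : Real.exp cT * (1 - 1 / (2 * N) / 2) = Real.exp cT - 8 * (Real.exp cT / (32 * N)) := by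
      field_simp; ring
    have e5 : 0 < Real.exp cT / (32 * N) := by positivity
    linarith
  · have e1 := hyy z hz
    have e2 : 12 * (m:ℝ) * (κ * Real.exp (-cT)) * ‖yy π ρ x r w z‖ ≤
        12 * m * (κ * Real.exp (-cT)) * (Real.exp cT / 32) := by
      have := h.κ0
      exact mul_le_mul_of_nonneg_left ((e1.trans h11).trans hEN) (by positivity)
    refine e2.trans ?_
    have e3 : 12 * (m:ℝ) * (κ * Real.exp (-cT)) * (Real.exp cT / 32) =
        3 / 8 * (m * κ) * (Real.exp (-cT) * Real.exp cT) := by ring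
    rw [e3, ← Real.exp_add, neg_add_cancel, Real.exp_zero]
    linarith [h.κm]

/-- **`Gl` for 456's chart on `K1`** -/
theorem gl (hm : 1 ≤ m) {h1 Ct lo : ℝ} (h10 : 0 ≤ h1) (h11 : h1 ≤ Real.exp cT / (32 * N))
    (hae : ∀ᵐ p ∂(VK V K), ‖(ch π ρ x r w X0).x p.1‖ ≤
      Real.exp (cT - 1 / (4 * N)) → 2 * (ch π ρ x r w X0).f p.1 ≤ h1 ^ 2)
    (htv : ∃ (e2 : Measure (Euc m)) (sig : ℝ),
      TV (ch π ρ x r w X0) (VK V (K1 π ρ x r w X0 K h1 cT N)) Q ((1 + eN N / 2) * sN cT N) Ct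
        (κ / (sN cT N) ^ 2) sig e2 ∧ 0 ≤ sig ∧
      sig ≤ Ct * ((eN N)⁻¹) ^ (2 * m + 2) * (sN cT N) ^ (m + 1) *
        (tN (ch π ρ x r w X0) (VK V (K1 π ρ x r w X0 K h1 cT N)) cT N κ *
          tN (ch π ρ x r w X0) (VK V (K1 π ρ x r w X0 K h1 cT N)) cT N κ ^ (1 / (m : ℝ)))) :
    Gl (ch π ρ x r w X0) (tube π ρ x r w) univ U (K1 π ρ x r w X0 K h1 cT N) V Q (Ac m n) (m + 8)
      (C1s m) Ct κ (cT - 1 / (4 * N)) cT lo N (GLK_128.zN π ρ x r w X0) where
  reg := h.hw.reg h.hf X0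
  loc := (h.loc1 hae).1
  hcT := by
    have hN := h.hN
    have hN0 : 0 < N := by linarith
    have h2 : 1 / (4 * N) ≤ 1 / (2 * N) := by
      rw [div_le_div_iff₀ (by positivity) (by positivity)]; linarith
    exact sub_le_sub_left h2 cT
  hD := subset_univ _
  hmu := h.mu
  tau0 := fun p hp => h.tau0 p ⟨hp.1.1, hp.2⟩
  sup := h.sup1 hm h10 h11 hae
  kb := by
    intro l hl hh h0 h1 K' hK' hKc hnu
    have hN := h.hN
    refine h.kb (hK'.trans fun z hz => hz.1) hKc ?_ h0 h1 hnu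
    have hN0 : 0 < N := by linarith
    have h2 : 0 < 1 / N := by positivity
    linarith [hl.2]
  tv := htv

set_option maxHeartbeats 1000000 in
/-- **F7-GL for 456's chart** (functionals over `K`) -/
theorem stepW (hm : 1 ≤ m) {Ct lo bl T δb ωb : ℝ} (hp : Pf g g1 g2 B) (hbl : 0 < bl)
    (hlow : ∀ a t, 0 ≤ t → t ≤ a → a ≤ 1 → bl * (1 - a) ^ 2 ≤ -g1 t)
    (hlo : lo ≤ cT) (hT : cT - lo ≤ T) (hAκ : Ac m n * κ ≤ 1) (hκ1 : κ * (4 * Real.exp 2) ≤ 1)
    (hCt : 0 ≤ Ct)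
    (hsm : Cd m bl * N ^ 2 * (Real.exp (-2 * cT) * II (ch π ρ x r w X0) (VK V K) g1 cT) ≤
      ((64 * N)⁻¹) ^ (m + 2))
    (hH1 : Ph m (C1s m) bl T * N ^ (m + 2) *
      (Real.exp (-2 * cT) * II (ch π ρ x r w X0) (VK V K) g1 cT) ≤ 1)
    (hH2 : Real.exp (-2 * cT) * II (ch π ρ x r w X0) (VK V K) g1 cT ≤ 1)
    (htv : ∃ (e2 : Measure (Euc m)) (sig : ℝ),
      TV (ch π ρ x r w X0) (VK V (K1 π ρ x r w X0 K (hf1 m bl cT N (Real.exp (-2 * cT) *
          II (ch π ρ x r w X0) (VK V K) g1 cT)) cT N)) Q ((1 + eN N / 2) * sN cT N) Ct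
        (κ / (sN cT N) ^ 2) sig e2 ∧ 0 ≤ sig ∧
      sig ≤ Ct * ((eN N)⁻¹) ^ (2 * m + 2) * (sN cT N) ^ (m + 1) *
        (tN (ch π ρ x r w X0) (VK V (K1 π ρ x r w X0 K (hf1 m bl cT N (Real.exp (-2 * cT) *
          II (ch π ρ x r w X0) (VK V K) g1 cT)) cT N)) cT N κ *
          tN (ch π ρ x r w X0) (VK V (K1 π ρ x r w X0 K (hf1 m bl cT N (Real.exp (-2 * cT) *
          II (ch π ρ x r w X0) (VK V K) g1 cT)) cT N)) cT N κ ^ (1 / (m : ℝ))))
    (hδb : 0 ≤ δb) (hωb : 0 ≤ ωb)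
    (hb : ∀ l ∈ Icc lo (cT - 1 / N), bb (ch π ρ x r w X0) (VK V K) g Q l ≤
      δb * II (ch π ρ x r w X0) (VK V K) g1 l + ωb) :
    ∃ d0 : ℝ, 0 ≤ d0 ∧ d0 ≤ Ac m n * κ ∧
    Nb_290.StepW (C2 Ct B) lo (cT - 1 / N) ((Cg m B (m + 8) + C2 Ct B) * (2 * Ac m n) * κ + δb)
      (PF m (Ac m n) B (m + 8) (C1s m) bl Ct T * N ^ (2 * m + 10) *
        (Real.exp (-2 * cT) * II (ch π ρ x r w X0) (VK V K) g1 cT) ^ th0 m *
        II (ch π ρ x r w X0) (VK V K) g1 cT + ωb)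
      (II (ch π ρ x r w X0) (VK V K) g1) (EE (ch π ρ x r w X0) (VK V K) g Q)
      (ee (ch π ρ x r w X0) (VK V K) g) (bb (ch π ρ x r w X0) (VK V K) g Q)
      (RF (ch π ρ x r w X0) (VK V K) g1 B (Ac m n * κ) d0) := by
  have hN := h.hN
  have hN0 : 0 < N := by linarith
  have hB : 0 ≤ B := (hp.nn 0 le_rfl).trans (hp.b0 0 le_rfl)
  have hC1 := C1s_nonneg m
  have hA := Ac_nonneg m n
  have hκ0 := h.κ0
  set c := ch π ρ x r w X0 with hc
  set H := Real.exp (-2 * cT) * II c (VK V K) g1 cT with hHdef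
  have hI0 : 0 ≤ II c (VK V K) g1 cT := II_nonneg h.ok h.isOn hp.pr.anti cT
  have hH0 : 0 ≤ H := by positivity
  have hh0 := hf1_nonneg (m := m) (cT := cT) (N := N) hbl hH0
  have hh1 := hf1_le (cT := cT) hbl hH0 hN hsm
  have hae := h.fine hm hp hbl hlow hsm
  set h1 := hf1 m bl cT N H with hh1def
  set Kf := K1 π ρ x r w X0 K h1 cT N with hKf
  obtain ⟨hl, hs⟩ := h.loc1 hae
  have hG := h.gl hm hh0 hh1 hae htv (lo := lo)
  have hIle : II c (VK V Kf) g1 cT ≤ II c (VK V K) g1 cT :=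
    II_sub_le h.ok h.isOn hp hl.cpt (fun z hz => hz.1) cT
  have hok1 : Ok c Kf univ := (h.hw.reg h.hf X0).ok hl.cpt (hl.sub.trans inter_subset_left)
  have hI1 : 0 ≤ II c (VK V Kf) g1 cT := II_nonneg hok1 hl.toOn hp.pr.anti cT
  have hHle : Real.exp (-2 * cT) * II c (VK V Kf) g1 cT ≤ H :=
    mul_le_mul_of_nonneg_left hIle (Real.exp_pos _).le
  have hH1' : 0 ≤ Real.exp (-2 * cT) * II c (VK V Kf) g1 cT := by positivity
  have hPh : 0 ≤ Ph m (C1s m) bl T := by unfold Ph; positivity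
  have hX : Ph m (C1s m) bl T * N ^ (m + 2) * (Real.exp (-2 * cT) * II c (VK V Kf) g1 cT) ≤ 1 :=
    (mul_le_mul_of_nonneg_left hHle (by positivity)).trans hH1
  have hlt : cT - 1 / N < cT - 1 / (4 * N) := by
    have : 1 / (4 * N) < 1 / N := by
      rw [div_lt_div_iff₀ (by positivity) (by positivity)]; linarith
    linarith
  have hmain := hG.stepW (T := T) (δb := δb) (ωb := ωb) hm hp hbl hlow hN hlo hT hA (by positivity)
    hκ0 hAκ hκ1 hCt hX (hHle.trans hH2) hδb hωb (by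
      intro l hl'
      have hlL : l ≤ cT - 1 / (4 * N) := hl'.2.trans hlt.le
      rw [hs.bb_eq hp hlL, hs.II_eq' hp hlL]
      exact hb l hl')
  have h2 := hs.stepW hp hlt hmain
  refine ⟨_, ?_, ?_, h2.weaken le_rfl le_rfl ?_⟩
  · positivity
  · calc Ac m n * κ * √(Ph m (C1s m) bl T * N ^ (m + 2) * (Real.exp (-2 * cT) *
          II c (VK V Kf) g1 cT)) ≤ Ac m n * κ * 1 := by
          refine mul_le_mul_of_nonneg_left ?_ (by positivity)
          calc _ ≤ √1 := Real.sqrt_le_sqrt hX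
            _ = 1 := Real.sqrt_one
      _ = _ := mul_one _
  · have hPF : 0 ≤ PF m (Ac m n) B (m + 8) (C1s m) bl Ct T := by
      have e0 : 0 ≤ Cg m B (m + 8) := Cg_nonneg hB (by positivity)
      have e1 : 0 ≤ Pt m (C1s m) bl := by unfold Pt; positivity
      have e2 := Real.rpow_nonneg e1 (1 / (m : ℝ))
      unfold PF Pw Ps
      positivity
    have hθ := th0_pos (m := m)
    have e3 : (Real.exp (-2 * cT) * II c (VK V Kf) g1 cT) ^ th0 m ≤ H ^ th0 m :=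
      Real.rpow_le_rpow hH1' hHle hθ.le
    have e4 := Real.rpow_nonneg hH1' (th0 m)
    gcongr

end Cd1

end chart

end Crest.Agent.R234.Ng_290
end
end

-- ▼ part R234/Lr2_456
section

/-!
# Row 234 (helper456): masses over the base balls of a block chart

* `Gr.mass_up`, `Gr.mass_low` : sandwich of `{z ∈ Kr, |ch.x z| < r}` between balls about `x`
* **`mass_reg`** : the two mass conditions of helper618's total variation theorem at all scales
  `e^(-T) S ≤ s ≤ S`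
-/

set_option autoImplicit false

open MeasureTheory Filter Topology Set Function
open scoped ENNReal NNReal ContDiff InnerProductSpace
open Crest.GeometryTopology.Submanifold Crest.Agent.R234.Vf_884
open Crest.Agent.R234.Main_456

noncomputable section

namespace Crest.Agent.R234.Gi_456

variable {m n k : ℕ}

local notation "adj" => ContinuousLinearMap.adjoint

variable {π : Euc k →L[ℝ] Euc m} {ρ : Euc k →L[ℝ] Euc n} {x : Euc k} {S : ℝ} {w : Euc m → Euc n}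
  {U : Set (Euc k)} {V : Measure (Euc k × L k)} {ε κ : ℝ}

/-- the situation of a flat block -/
structure Fb (m : ℕ) {k n : ℕ} (U : Set (Euc k)) (V : Measure (Euc k × L k)) (Q : ℕ) (x : Euc k)
    (S : ℝ) (π : Euc k →L[ℝ] Euc m) (ρ : Euc k →L[ℝ] Euc n) (w : Euc m → Euc n) (ε κ om : ℝ) :
    Prop where
  gr : Gr S w
  fr : Frame π ρ
  st : Stat m k U V
  sub : Metric.closedBall x (8 * S) ⊆ U
  th : Th m V x = (Q : ℝ≥0∞)
  drop : rat m V x (4 * S) ≤ (Q : ℝ≥0∞) + ENNReal.ofReal om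
  sup : ∀ᵐ p ∂V, p.1 ∈ Metric.ball x (4 * S) → ‖ρ (p.1 - x)‖ ≤ ε * S
  ε0 : 0 ≤ ε
  ε1 : ε ≤ 1 / 16
  κ1 : κ ≤ 1 / 64
  om0 : 0 ≤ om
  d1 : ∀ X : Euc m, ‖X‖ ≤ 3 * S → ‖fderiv ℝ w X‖ ≤ κ
  w0 : ‖w 0‖ ≤ κ * S

namespace Fb

variable {Q : ℕ} {om : ℝ} (h : Fb m U V Q x S π ρ w ε κ om)

include h

theorem S0 : 0 < S := h.gr.pos

theorem κ0 : 0 ≤ κ := (norm_nonneg _).trans (h.d1 0 (by have := h.S0; simp; positivity))

theorem w_le (X : Euc m) (hX : ‖X‖ ≤ 3 * S) : ‖w X‖ ≤ 4 * κ * S := by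
  have hS := h.S0
  have h1 := (convex_closedBall (0 : Euc m) (3 * S)).norm_image_sub_le_of_norm_fderiv_le
    (𝕜 := ℝ) (f := w) (C := κ) (fun y _ => h.gr.differentiable y)
    (fun y hy => h.d1 y (mem_closedBall_zero_iff.1 hy))
    (Metric.mem_closedBall_self (by positivity)) (mem_closedBall_zero_iff.2 hX)
  rw [sub_zero] at h1
  have h2 := norm_le_norm_add_norm_sub' (w X) (w 0)
  have h3 := h.w0
  have h4 : κ * ‖X‖ ≤ κ * (3 * S) := mul_le_mul_of_nonneg_left hX h.κ0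
  linarith

theorem w8 (X : Euc m) (hX : ‖X‖ ≤ 3 * S) : ‖w X‖ ≤ S / 8 := by
  have h1 := h.w_le X hX
  have h2 := h.κ1
  have hS := h.S0
  nlinarith

theorem loc (hU : IsOpen U) :
    GL_394.Loc (ch π ρ x S w 0) U (tube π ρ x S w) (Kr π ρ x S w) V (Real.log S) :=
  h.gr.loc_reg h.fr h.st hU h.sub h.sup (by have := h.ε1; linarith) h.w8

/-- a.e. point of the region over `{|ch.x| < r}` lies in the ball of radius `r + θ S` -/
theorem ae_up (r : ℝ) : ∀ᵐ p ∂V,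
    p.1 ∈ {z ∈ Kr π ρ x S w | ‖(ch π ρ x S w 0).x z‖ < r} →
      p.1 ∈ Metric.ball x (r + (2 * ε + 4 * κ) * S) := by
  have hS := h.S0
  filter_upwards [h.sup] with p hp h1
  have h2 := h.gr.Kr_subset_closedBall h.fr h.w8 h1.1
  rw [mem_closedBall_iff_norm] at h2
  have h3 := hp (mem_ball_iff_norm.2 (by linarith))
  have h4 := h.gr.two_sided h.fr (by have := h.κ1; linarith) h.ε0 h.d1 h.w0
    (h.gr.Kr_subset_tube h1.1) h3 h.ε1 h1.1.1
  rw [mem_ball_iff_norm]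
  have h5 := (abs_le.1 h4).2
  have h6 := h1.2
  linarith

/-- a.e. point of the ball of radius `s` lies in the region over `{|ch.x| < s + θ S}` -/
theorem ae_low {s : ℝ} (hs : s ≤ 2 * S) : ∀ᵐ p ∂V, p.1 ∈ Metric.ball x s →
    p.1 ∈ {z ∈ Kr π ρ x S w | ‖(ch π ρ x S w 0).x z‖ < s + (2 * ε + 4 * κ) * S} := by
  have hS := h.S0
  filter_upwards [h.sup] with p hp h1
  rw [mem_ball_iff_norm] at h1
  have h3 := hp (mem_ball_iff_norm.2 (by linarith))
  have h2 : ‖π (p.1 - x)‖ ≤ 2 * S := (norm_pi_le' h.fr _).trans (by linarith)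
  have h5 : ‖ρ (p.1 - x) - w (π (p.1 - x))‖ ≤ (ε + 4 * κ) * S :=
    Gr.hgt_le (fun X hX => h.w_le X hX) h3 (by linarith)
  have h6 : (ε + 4 * κ) * S ≤ S / 2 := by
    have := h.ε1; have := h.κ1
    nlinarith
  have hK : p.1 ∈ Kr π ρ x S w := ⟨h2, h5.trans h6⟩
  have h4 := h.gr.two_sided h.fr (by have := h.κ1; linarith) h.ε0 h.d1 h.w0
    (h.gr.Kr_subset_tube hK) h3 h.ε1 h2
  refine ⟨hK, ?_⟩
  have h7 := (abs_le.1 h4).1
  linarith

theorem fin_ball {s : ℝ} (hs : s ≤ 8 * S) : V (Metric.ball x s ×ˢ univ) ≠ ⊤ := by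
  have h1 := h.st.fin (Metric.closedBall x s) (isCompact_closedBall x s)
    ((Metric.closedBall_subset_closedBall hs).trans h.sub)
  exact (lt_of_le_of_lt (measure_mono (Set.prod_mono Metric.ball_subset_closedBall Subset.rfl))
    h1).ne

theorem mass_up {r : ℝ} (hr : r + (2 * ε + 4 * κ) * S ≤ 8 * S) :
    V.real ({z ∈ Kr π ρ x S w | ‖(ch π ρ x S w 0).x z‖ < r} ×ˢ univ) ≤
      V.real (Metric.ball x (r + (2 * ε + 4 * κ) * S) ×ˢ univ) := by
  refine ENNReal.toReal_mono (h.fin_ball hr) (measure_mono_ae ?_)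
  filter_upwards [h.ae_up r] with p hp h1
  exact ⟨hp h1.1, trivial⟩

theorem mass_low {s : ℝ} (hs : s ≤ 2 * S) :
    V.real (Metric.ball x s ×ˢ univ) ≤
      V.real ({z ∈ Kr π ρ x S w | ‖(ch π ρ x S w 0).x z‖ < s + (2 * ε + 4 * κ) * S} ×ˢ univ) := by
  have hS := h.S0
  refine ENNReal.toReal_mono ?_ (measure_mono_ae ?_)
  · have h1 : V ({z ∈ Kr π ρ x S w | ‖(ch π ρ x S w 0).x z‖ < s + (2 * ε + 4 * κ) * S} ×ˢ univ) ≤
        V (Kr π ρ x S w ×ˢ univ) := measure_mono (Set.prod_mono (fun z hz => hz.1) Subset.rfl)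
    refine (lt_of_le_of_lt h1 (h.st.fin _ (h.gr.isCompact_Kr h.fr h.w8) ?_)).ne
    exact (h.gr.Kr_subset_closedBall h.fr h.w8).trans
      ((Metric.closedBall_subset_closedBall (by linarith)).trans h.sub)
  · filter_upwards [h.ae_low hs] with p hp h1
    exact ⟨hp h1.1, trivial⟩

/-- masses of balls -/
theorem ball_low (hm : 1 ≤ m) {s : ℝ} (hs0 : 0 < s) (hs : s ≤ 4 * S) :
    Q * (ome m * s ^ m) ≤ V.real (Metric.ball x s ×ˢ univ) := by
  have hU : Metric.ball x s ⊆ U := Metric.ball_subset_closedBall.trans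
    ((Metric.closedBall_subset_closedBall (by have := h.S0; linarith)).trans h.sub)
  have h1 := mul_le_mass h.st hm hs0 hU (c := (Q : ℝ≥0∞)) h.th.ge
  rw [mass_apply V Metric.isOpen_ball.measurableSet, ← prod_univ_eq] at h1
  have h2 := ENNReal.toReal_mono (h.fin_ball (by have := h.S0; linarith)) h1
  rw [ENNReal.toReal_mul, ENNReal.toReal_natCast, ENNReal.toReal_ofReal
    (den_pos m hs0).le] at h2
  exact h2

theorem ball_up (hm : 1 ≤ m) {s : ℝ} (hs0 : 0 < s) (hs : s ≤ 4 * S) :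
    V.real (Metric.ball x s ×ˢ univ) ≤ (Q + om) * (ome m * s ^ m) := by
  have hS := h.S0
  have hU : Metric.ball x (4 * S) ⊆ U := Metric.ball_subset_closedBall.trans
    ((Metric.closedBall_subset_closedBall (by linarith)).trans h.sub)
  have h1 := (rat_mono h.st hm hs0 hs hU).trans h.drop
  unfold rat at h1
  rw [ENNReal.div_le_iff_le_mul (Or.inl (by
    rw [ne_eq, ENNReal.ofReal_eq_zero, not_le]; exact den_pos m hs0))
    (Or.inl ENNReal.ofReal_ne_top), mass_apply V Metric.isOpen_ball.measurableSet,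
    ← prod_univ_eq] at h1
  have h3 : ((Q : ℝ≥0∞) + ENNReal.ofReal om) * ENNReal.ofReal (ome m * s ^ m) =
      ENNReal.ofReal ((Q + om) * (ome m * s ^ m)) := by
    have ho : 0 ≤ om := h.om0
    have hQ : (0 : ℝ) ≤ (Q : ℝ) + om := by positivity
    rw [ENNReal.ofReal_mul (p := (Q : ℝ) + om) hQ, ENNReal.ofReal_add (by positivity) ho,
      ENNReal.ofReal_natCast]
  rw [h3] at h1
  have h2 := ENNReal.toReal_mono ENNReal.ofReal_ne_top h1
  rwa [ENNReal.toReal_ofReal (by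
    have := h.om0; have := den_pos m hs0; positivity)] at h2

end Fb

theorem exists_a (m Q : ℕ) : ∃ a : ℝ, 0 < a ∧ a ≤ 1 / 64 ∧
    ((Q : ℝ) + a) * (1 + a) ^ m ≤ Q + 1 / 4 ∧ (Q : ℝ) - 1 / 4 ≤ Q * (1 - a) ^ m := by
  have c1 : Tendsto (fun a : ℝ => ((Q : ℝ) + a) * (1 + a) ^ m) (𝓝[>] 0) (𝓝 Q) := by
    have h : Continuous fun a : ℝ => ((Q : ℝ) + a) * (1 + a) ^ m := by fun_prop
    have := h.tendsto 0
    simp only [add_zero, one_pow, mul_one] at this
    exact this.mono_left nhdsWithin_le_nhds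
  have c2 : Tendsto (fun a : ℝ => (Q : ℝ) * (1 - a) ^ m) (𝓝[>] 0) (𝓝 Q) := by
    have h : Continuous fun a : ℝ => (Q : ℝ) * (1 - a) ^ m := by fun_prop
    have := h.tendsto 0
    simp only [sub_zero, one_pow, mul_one] at this
    exact this.mono_left nhdsWithin_le_nhds
  have e1 := c1.eventually (ge_mem_nhds (show (Q : ℝ) < Q + 1 / 4 by linarith))
  have e2 := c2.eventually (le_mem_nhds (show (Q : ℝ) - 1 / 4 < Q by linarith))
  have e3 : ∀ᶠ a in 𝓝[>] (0:ℝ), a ∈ Ioo (0:ℝ) (1 / 64) := Ioo_mem_nhdsGT (by norm_num)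
  obtain ⟨a, h1, h2, h3⟩ := (e1.and (e2.and e3)).exists
  exact ⟨a, h3.1, h3.2.le, h1, h2⟩

/-- **(L2) masses over the base balls**, all scales `e^(-T) S ≤ s ≤ S` -/
theorem mass_reg (m Q : ℕ) (hm : 1 ≤ m) (T : ℝ) (hT : 0 ≤ T) : ∃ δ : ℝ, 0 < δ ∧ δ ≤ 1 / 64 ∧
    ∀ {k n : ℕ} {U : Set (Euc k)} {V : Measure (Euc k × L k)} {x : Euc k} {S : ℝ}
      {π : Euc k →L[ℝ] Euc m} {ρ : Euc k →L[ℝ] Euc n} {w : Euc m → Euc n} {ε κ om : ℝ},
      Fb m U V Q x S π ρ w ε κ om → ε ≤ δ → κ ≤ δ → om ≤ δ →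
        ∀ s : ℝ, Real.exp (-T) * S ≤ s → s ≤ S →
          |V.real ({z ∈ Kr π ρ x S w | ‖(ch π ρ x S w 0).x z‖ < s / 4} ×ˢ univ) -
            Q * volume.real (Metric.ball (0 : Euc m) (s / 4))| ≤
            volume.real (Metric.ball (0 : Euc m) (s / 4)) / 4 ∧
          V.real ({z ∈ Kr π ρ x S w | ‖(ch π ρ x S w 0).x z‖ < 2 * s} ×ˢ univ) ≤
            (Q + 1) * (ome m * 3 ^ m) * s ^ m := by
  obtain ⟨a, ha0, ha1, ha2, ha3⟩ := exists_a m Q
  have hE : 0 < Real.exp (-T) := Real.exp_pos _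
  have hE1 : Real.exp (-T) ≤ 1 := Real.exp_le_one_iff.2 (by linarith)
  refine ⟨a * Real.exp (-T) / 24, by positivity, by nlinarith, ?_⟩
  intro k n U V x S π ρ w ε κ om h hε hκ hom s hs1 hs2
  have hS := h.S0
  have hs0 : 0 < s := lt_of_lt_of_le (by positivity) hs1
  have hκ0 := h.κ0
  have hε0 := h.ε0
  have ho := ome_pos m
  -- `θ S ≤ a s / 4`
  have hθ : (2 * ε + 4 * κ) * S ≤ a * (s / 4) := by
    calc (2 * ε + 4 * κ) * S ≤ (a * Real.exp (-T) / 4) * S := by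
          refine mul_le_mul_of_nonneg_right ?_ hS.le
          linarith
      _ = a / 4 * (Real.exp (-T) * S) := by ring
      _ ≤ a / 4 * s := by gcongr
      _ = a * (s / 4) := by ring
  have hθ0 : 0 ≤ (2 * ε + 4 * κ) * S := by positivity
  have hom' : om ≤ a := hom.trans (by nlinarith)
  have hvol : volume.real (Metric.ball (0 : Euc m) (s / 4)) = ome m * (s / 4) ^ m := by
    rw [measureReal_def, volume_ball_eq m 0 (by positivity), ENNReal.toReal_ofReal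
      (den_pos m (by positivity)).le]
  have hr0 : 0 < s / 4 := by positivity
  have hden : 0 < ome m * (s / 4) ^ m := den_pos m hr0
  have hQ0 : (0 : ℝ) ≤ Q := Nat.cast_nonneg Q
  constructor
  · rw [hvol, abs_le]
    constructor
    · -- lower
      have h1 := h.mass_low (s := s / 4 - (2 * ε + 4 * κ) * S) (by linarith)
      rw [sub_add_cancel] at h1
      have hp : 0 < s / 4 - (2 * ε + 4 * κ) * S := by nlinarith
      have h2 := h.ball_low hm hp (by linarith)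
      have h3 : ((1 - a) * (s / 4)) ^ m ≤ (s / 4 - (2 * ε + 4 * κ) * S) ^ m := by
        refine pow_le_pow_left₀ ?_ (by linarith) m
        have : 0 ≤ 1 - a := by linarith
        positivity
      rw [mul_pow] at h3
      have h4 : (Q : ℝ) * (ome m * ((1 - a) ^ m * (s / 4) ^ m)) ≤
          Q * (ome m * (s / 4 - (2 * ε + 4 * κ) * S) ^ m) := by gcongr
      have h5 : (Q - 1 / 4) * (ome m * (s / 4) ^ m) ≤
          (Q * (1 - a) ^ m) * (ome m * (s / 4) ^ m) := mul_le_mul_of_nonneg_right ha3 hden.le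
      nlinarith
    · -- upper
      have h1 := h.mass_up (r := s / 4) (by nlinarith)
      have hp : 0 < s / 4 + (2 * ε + 4 * κ) * S := by positivity
      have h2 := h.ball_up hm hp (by nlinarith)
      have h3 : (s / 4 + (2 * ε + 4 * κ) * S) ^ m ≤ ((1 + a) * (s / 4)) ^ m :=
        pow_le_pow_left₀ hp.le (by linarith) m
      rw [mul_pow] at h3
      have hom0 := h.om0
      have h4 : ((Q : ℝ) + om) * (ome m * (s / 4 + (2 * ε + 4 * κ) * S) ^ m) ≤
          (Q + a) * (ome m * ((1 + a) ^ m * (s / 4) ^ m)) := by gcongr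
      have h5 : ((Q + a) * (1 + a) ^ m) * (ome m * (s / 4) ^ m) ≤
          (Q + 1 / 4) * (ome m * (s / 4) ^ m) := mul_le_mul_of_nonneg_right ha2 hden.le
      nlinarith
  · have h1 := h.mass_up (r := 2 * s) (by nlinarith)
    have hp : 0 < 2 * s + (2 * ε + 4 * κ) * S := by positivity
    have h2 := h.ball_up hm hp (by nlinarith)
    have h3 : (2 * s + (2 * ε + 4 * κ) * S) ^ m ≤ (3 * s) ^ m :=
      pow_le_pow_left₀ hp.le (by nlinarith) m
    rw [mul_pow] at h3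
    have hom0 := h.om0
    have h4 : ((Q : ℝ) + om) * (ome m * (2 * s + (2 * ε + 4 * κ) * S) ^ m) ≤
        (Q + 1) * (ome m * (3 ^ m * s ^ m)) := by
      gcongr
      linarith
    calc _ ≤ _ := h1
      _ ≤ _ := h2
      _ ≤ _ := h4
      _ = _ := by ring

end Crest.Agent.R234.Gi_456
end
end

-- ▼ part R234/Ng8_290
section

/-!
# Row 234, node F7-GL, part 8 (helper290)

From 518's situation `Sit` and the class `MG` to the concrete data `Cd1` of one window.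
-/

set_option autoImplicit false
set_option linter.unusedVariables false
set_option maxSynthPendingDepth 3

open MeasureTheory Set Function Filter Topology Metric
open Crest.GeometryTopology.Submanifold
open Crest.Agent.R234.Vf_884 Crest.Agent.R234.Ar_870
open Crest.Agent.R234.Main_456 (Frame Msys)
open Crest.Agent.R234.Gi_456
open Crest.Agent.R234.GL_394
open Crest.Agent.R234.MG_570 (MG)
open Crest.Agent.R234.Stp_518
open scoped ENNReal NNReal InnerProductSpace ContDiff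

noncomputable section

namespace Crest.Agent.R234.Ng_290

local notation "adj" => ContinuousLinearMap.adjoint

section mg

variable {m n : ℕ}

theorem fderiv_cs {E F : Type*} [NormedAddCommGroup E] [NormedSpace ℝ E] [NormedAddCommGroup F]
    [NormedSpace ℝ F] (f : E → F) (t : ℝ) (x : E) :
    fderiv ℝ (fun x => f (t • x)) x = t • fderiv ℝ f (t • x) :=
  fderiv_comp_smul (f := f) (x := x) t

/-- facts about the class in physical units -/
structure MgF (m n : ℕ) (C κ R S : ℝ) (u w : Euc m → Euc n) : Prop where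
  gr : Gr S w
  d1 : ∀ X, ‖fderiv ℝ w X‖ ≤ C * κ
  d2 : ∀ X, ‖fderiv ℝ (fderiv ℝ w) X‖ ≤ C * κ / S
  d3 : ∀ X, ‖fderiv ℝ (fderiv ℝ (fderiv ℝ w)) X‖ ≤ C * κ / S ^ 2
  d0 : ∀ X, ‖w X‖ ≤ C * κ * S
  mn : ∀ X, ‖X‖ < R * S → Msys w X = 0
  der : ∀ X, fderiv ℝ w X = fderiv ℝ u (S⁻¹ • X)

theorem mg_facts (m n N : ℕ) (hN : 2 ≤ N) : ∃ C : ℝ, 1 ≤ C ∧ ∀ (κ R : ℝ) (u : Euc m → Euc n),
    MG N κ R u → 0 ≤ κ → 8 * (C * κ) ≤ 1 → ∀ S : ℝ, 0 < S →
      MgF m n C κ R S u (fun X => S • u (S⁻¹ • X)) := by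
  obtain ⟨C₀, hC₀, H⟩ := Mx17_397.bdP m n N
  refine ⟨max C₀ 1, le_max_right _ _, ?_⟩
  intro κ R u hu hκ hκ1 S hS
  obtain ⟨hcd, hb⟩ := H κ R u hu
  set C := max C₀ 1 with hC
  have hCC : C₀ * κ ≤ C * κ := mul_le_mul_of_nonneg_right (le_max_left _ _) hκ
  have hSi : 0 < S⁻¹ := inv_pos.2 hS
  have hw : (fun X => S • u (S⁻¹ • X)) = Grot_842.sc S⁻¹ u := by
    funext X; simp [Grot_842.sc]
  have h1 : ∀ y, ‖fderiv ℝ u y‖ ≤ C * κ := fun y => by
    have := hb 1 (by omega) y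
    rw [norm_iteratedFDeriv_one] at this
    exact this.trans hCC
  have h2 : ∀ y, ‖fderiv ℝ (fderiv ℝ u) y‖ ≤ C * κ := fun y => by
    have := hb 2 (by omega) y
    rw [← norm_iteratedFDeriv_fderiv, norm_iteratedFDeriv_one] at this
    exact this.trans hCC
  have h3 : ∀ y, ‖fderiv ℝ (fderiv ℝ (fderiv ℝ u)) y‖ ≤ C * κ := fun y => by
    have := hb 3 (by omega) y
    rw [← norm_iteratedFDeriv_fderiv, ← norm_iteratedFDeriv_fderiv, norm_iteratedFDeriv_one] at this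
    exact this.trans hCC
  have e1 : fderiv ℝ (Grot_842.sc S⁻¹ u) = fun X => fderiv ℝ u (S⁻¹ • X) :=
    funext (Grot_842.fderiv_sc hSi.ne' u)
  have e2 : fderiv ℝ (fderiv ℝ (Grot_842.sc S⁻¹ u)) =
      fun X => S⁻¹ • fderiv ℝ (fderiv ℝ u) (S⁻¹ • X) := by
    rw [e1]; exact funext (fderiv_cs (fderiv ℝ u) S⁻¹)
  have e3 : fderiv ℝ (fderiv ℝ (fderiv ℝ (Grot_842.sc S⁻¹ u))) =
      fun X => S⁻¹ • S⁻¹ • fderiv ℝ (fderiv ℝ (fderiv ℝ u)) (S⁻¹ • X) := by
    rw [e2]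
    funext X
    have e4 : fderiv ℝ (fun X => S⁻¹ • fderiv ℝ (fderiv ℝ u) (S⁻¹ • X)) X =
        S⁻¹ • fderiv ℝ (fun X => fderiv ℝ (fderiv ℝ u) (S⁻¹ • X)) X :=
      congrFun (fderiv_const_smul_field (R := ℝ)
        (f := fun X => fderiv ℝ (fderiv ℝ u) (S⁻¹ • X)) S⁻¹) X
    rw [e4, fderiv_cs]
  have hcd4 : ContDiff ℝ 4 u := by
    refine hcd.of_le ?_
    exact (Nat.cast_le (α := WithTop ℕ∞)).2 (show 4 ≤ N + 2 by omega)
  rw [hw]
  refine ⟨⟨hS, ?_, ?_, ?_⟩, ?_, ?_, ?_, ?_, ?_, ?_⟩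
  · rw [← hw]
    exact (hcd4.comp (contDiff_const_smul _)).const_smul S
  · intro X
    rw [e1]
    exact (h1 _).trans (by linarith)
  · intro X
    rw [e2]
    simp only [norm_smul, Real.norm_of_nonneg hSi.le]
    calc S⁻¹ * ‖fderiv ℝ (fderiv ℝ u) (S⁻¹ • X)‖ ≤ S⁻¹ * (1 / 8) := by
          refine mul_le_mul_of_nonneg_left ((h2 _).trans ?_) hSi.le
          linarith
      _ = 1 / (8 * S) := by field_simp
  · intro X
    rw [e1]
    exact h1 _
  · intro X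
    rw [e2]
    simp only [norm_smul, Real.norm_of_nonneg hSi.le]
    calc S⁻¹ * ‖fderiv ℝ (fderiv ℝ u) (S⁻¹ • X)‖ ≤ S⁻¹ * (C * κ) :=
          mul_le_mul_of_nonneg_left (h2 _) hSi.le
      _ = C * κ / S := by field_simp
  · intro X
    rw [e3]
    simp only [norm_smul, Real.norm_of_nonneg hSi.le]
    calc S⁻¹ * (S⁻¹ * ‖fderiv ℝ (fderiv ℝ (fderiv ℝ u)) (S⁻¹ • X)‖) ≤ S⁻¹ * (S⁻¹ * (C * κ)) := by
          gcongr
          exact h3 _
      _ = C * κ / S ^ 2 := by field_simp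
  · intro X
    have h0 : ‖u (S⁻¹ • X)‖ ≤ C * κ := by
      have := hb 0 (by omega) (S⁻¹ • X)
      rw [norm_iteratedFDeriv_zero] at this
      exact this.trans hCC
    rw [← hw]
    simp only [norm_smul, Real.norm_of_nonneg hS.le]
    calc S * ‖u (S⁻¹ • X)‖ ≤ S * (C * κ) := by gcongr
      _ = _ := by ring
  · intro X hX
    rw [Grot_842.Msys_sc hSi.ne']
    obtain ⟨a, -, -, -, h4⟩ := hu
    have h5 : S⁻¹ • X ∈ Metric.ball (0 : Euc m) R := by
      rw [mem_ball_zero_iff, norm_smul, Real.norm_of_nonneg hSi.le, inv_mul_lt_iff₀ hS, mul_comm]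
      exact hX
    rw [h4 _ h5, smul_zero]
  · intro X
    rw [e1]

end mg

section blk

variable {m n : ℕ}

/-- **`Cd1` of a block chart** -/
theorem cd1_of_sit {Q : ℕ} {C ε Λ cT K : ℝ} {U : Set (Euc (m + n))}
    {D : VarifoldData m (m + n)} {x : Euc (m + n)} {M : Mo m n (m + n)} (hm : 1 ≤ m)
    (h : Sit U D Q x M ε Λ) (hε : ε ≤ 1 / 8) (hC : 1 ≤ C) (hκ0 : 0 ≤ M.κ)
    (hκ1 : 8 * (C * M.κ) ≤ 1) (hκm : m * (C * M.κ) ≤ 1)
    (hF : MgF m n C M.κ (Real.exp (cT - M.lb)) M.S M.u M.w) (hK : 1 ≤ K) (hcT : cT ≤ M.lb) :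
    Cd1 U (VD D) (M.reg x) M.π M.ρ x M.S M.w 0 M.lb (C * (M.κ * Real.exp (cT - M.lb))) cT K := by
  have hS : 0 < M.S := M.S_pos
  have hf := h.pack.frame
  have hw := hF.gr
  have hE : Real.exp cT ≤ M.S := Real.exp_le_exp.2 hcT
  have hSe : M.S = Real.exp M.lb := rfl
  have hX1 : Real.exp (cT - M.lb) ≤ 1 := Real.exp_le_one_iff.2 (by linarith)
  have hXe : Real.exp (cT - M.lb) * Real.exp (-cT) = M.S⁻¹ := by
    rw [hSe, ← Real.exp_neg, ← Real.exp_add]; congr 1; ring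
  have hX0 := Real.exp_pos (cT - M.lb)
  have hw8 : ∀ X, ‖M.w X‖ ≤ M.S / 8 := fun X => (hF.d0 X).trans (by nlinarith)
  have hCκ : 0 ≤ C * M.κ := by positivity
  have hκ' : C * (M.κ * Real.exp (cT - M.lb)) ≤ C * M.κ := by
    calc C * (M.κ * Real.exp (cT - M.lb)) = C * M.κ * Real.exp (cT - M.lb) := by ring
      _ ≤ C * M.κ * 1 := mul_le_mul_of_nonneg_left hX1 hCκ
      _ = C * M.κ := mul_one _
  have hpm : ‖pm M.π M.ρ x M.w 0 - x‖ ≤ M.S / 8 := by
    have h1 : pm M.π M.ρ x M.w 0 - x = adj M.ρ (M.w 0) := by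
      rw [pm, map_zero, add_zero]; abel
    rw [h1, norm_adj_rho hf]
    exact hw8 0
  have h65 : 65 / 64 * (M.S / 2) < M.S := by linarith
  have hsubB : M.reg x ⊆ closedBall x (3 * M.S) := by
    intro z hz
    have h1 := hw.Kc_subset_closedBall hf 0 h65 (R := 2 * M.S) hz
    rw [mem_closedBall, dist_eq_norm] at h1 ⊢
    have h2 : z - x = (z - pm M.π M.ρ x M.w 0) + (pm M.π M.ρ x M.w 0 - x) := by abel
    rw [h2]
    refine (norm_add_le _ _).trans ?_
    linarith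
  have hV : Stat m (m + n) U (VD D) := stat_VD h.int h.st
  have hloc : Loc (ch M.π M.ρ x M.S M.w 0) U (tube M.π M.ρ x M.S M.w) (M.reg x) (VD D) M.lb := by
    refine hw.loc' hf hV h.opn h65 ?_ (by rw [← hSe]; linarith) ?_
    · refine (closedBall_subset_closedBall' ?_).trans h.sub
      rw [dist_eq_norm]
      linarith
    · filter_upwards [h.pack.supae] with p hp hpU hpt hpi
      rw [sub_zero] at hpi
      have h2 : ‖M.ρ (p.1 - x) - M.w (M.π (p.1 - x))‖ < M.S := hpt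
      have h3 := hw8 (M.π (p.1 - x))
      have h4 := norm_le_norm_add_norm_sub' (M.ρ (p.1 - x)) (M.w (M.π (p.1 - x)))
      have h5 := norm_le_add hf (p.1 - x)
      have h6 : p.1 ∈ ball x (4 * M.S) := by
        rw [mem_ball, dist_eq_norm]; linarith
      have h7 := hp h6
      refine (norm_sub_le _ _).trans ?_
      nlinarith
  refine
    { hf := hf, hw := hw, loc := hloc, half := ?_, hcT := hcT, hN := hK, hr := hE
      hTh := ?_, hU := ?_, κ0 := by positivity, κ1 := by linarith, κm := ?_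
      d2 := ?_, d3 := ?_, mn := ?_ }
  · intro z hz
    obtain ⟨h1, -, h2⟩ := (hw.mem_Kc hf h65).1 hz
    have h3 := hw.norm_yy_sub' h1
    have h4 := hw.d1 (foot M.π M.ρ x M.S M.w z)
    have h5 : M.ρ (z - x) - M.w (M.π (z - x)) = yy M.π M.ρ x M.S M.w z -
      (yy M.π M.ρ x M.S M.w z - (M.ρ (z - x) - M.w (M.π (z - x)))) := by abel
    rw [h5]
    refine (norm_sub_le _ _).trans ?_
    have h6 : ‖fderiv ℝ M.w (foot M.π M.ρ x M.S M.w z)‖ * ‖yy M.π M.ρ x M.S M.w z‖ ≤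
        1 / 8 * (M.S / 2) := mul_le_mul h4 h2 (norm_nonneg _) (by norm_num)
    linarith
  · filter_upwards [Gu_685.ae_one_le h.opn h.int h.st hm] with p hp hpU
    exact (hp hpU).2
  · intro z hz
    have h1 := hsubB hz
    rw [mem_closedBall] at h1
    exact (closedBall_subset_closedBall' (by linarith)).trans h.sub
  · calc (m:ℝ) * (C * (M.κ * Real.exp (cT - M.lb))) ≤ m * (C * M.κ) :=
          mul_le_mul_of_nonneg_left hκ' (Nat.cast_nonneg m)
      _ ≤ 1 := hκm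
  · intro X _
    refine (hF.d2 X).trans (le_of_eq ?_)
    rw [div_eq_mul_inv, ← hXe]; ring
  · intro X _
    refine (hF.d3 X).trans ?_
    have h1 : Real.exp (-2 * cT) = Real.exp (-cT) * Real.exp (-cT) := by
      rw [← Real.exp_add]; congr 1; ring
    rw [h1, div_eq_mul_inv, pow_two, mul_inv]
    have h2 : M.S⁻¹ ≤ Real.exp (-cT) := by
      rw [hSe, ← Real.exp_neg]; exact Real.exp_le_exp.2 (by linarith)
    calc C * M.κ * (M.S⁻¹ * M.S⁻¹) ≤ C * M.κ * (M.S⁻¹ * Real.exp (-cT)) := by gcongr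
      _ = _ := by rw [← hXe]; ring
  · intro X hX
    rw [sub_zero] at hX
    refine hF.mn X ?_
    rwa [hSe, ← Real.exp_add, sub_add_cancel]

end blk

end Crest.Agent.R234.Ng_290
end
end

-- ▼ part R234/Ng9_290

/-!
# Row 234, node F7-GL, part 9 (helper290)

The total variation input on the compact of the fine heights: `KT` from 128's facts, masses from
456's `mass_reg`, 618's `tv_gl`. Section `tvm` is copied from helper534's Qp6 (change of constants
in `TV`).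
-/

set_option autoImplicit false
set_option linter.unusedVariables false
set_option linter.unusedSectionVars false
set_option maxSynthPendingDepth 3

open MeasureTheory Set Function Filter Topology Metric
open Crest.GeometryTopology.Submanifold
open Crest.Agent.R234.Vf_884 Crest.Agent.R234.Ar_870
open Crest.Agent.R234.Main_456 (Frame Msys)
open Crest.Agent.R234.Gi_456
open Crest.Agent.R234.GL_394
open Crest.Agent.R234.MG_570 (MG)
open Crest.Agent.R234.Stp_518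
open Crest.Agent.R234.Tv_618 (KT Wr ttot)
open scoped ENNReal NNReal InnerProductSpace ContDiff

noncomputable section

namespace Crest.Agent.R234.Ng_290

local notation "adj" => ContinuousLinearMap.adjoint

section kt

variable {m n k : ℕ} {π : Euc k →L[ℝ] Euc m} {ρ : Euc k →L[ℝ] Euc n} {x : Euc k} {r : ℝ}
  {w : Euc m → Euc n} {X0 : Euc m} {K : Set (Euc k)} {l K1 K2 K3 hb : ℝ}

theorem kt_of_hy (h : GLK_128.Hy π ρ x r w X0 K l K1 K2 K3 hb) {s R : ℝ} (hs : 0 < s)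
    (h1 : s ≤ Real.exp l) (h2 : Real.exp l ≤ 2 * s) (hR : R ≤ Real.exp l) (hb2 : 2 * hb ≤ 1) :
    KT (ch π ρ x r w X0) K s R (GLK_128.Cn m) (GLK_128.kp m n K1 K2 K3 hb l) where
  jb v hv := h.jb (hv.le.trans hR)
  lb v hv := by
    have h3 := h.lb (hv.le.trans hR)
    exact (mul_le_mul_of_nonneg_right h1 (norm_nonneg _)).trans h3
  t0 p hp hr := ⟨h.tau_nonneg hp, h.tau_le hp⟩
  q1 z hz hr := h.q1 hs h2 hb2 hz (hr.le.trans hR)
  an p hp hr := h.an hs h1 hp (hr.le.trans hR)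
  hT p hp hr := h.hT hs h1 hp (hr.le.trans hR)
  k3 p hp hr v := h.kk3 hs h1 hp (hr.le.trans hR) v

end kt

section ktm

variable {m k : ℕ} {c : Ch m k} {K : Set (Euc k)} {s R C₀ κ κ' : ℝ}

theorem kt_mono (h : KT c K s R C₀ κ) (hs : 0 < s) (hC : 0 ≤ C₀) (hκ : κ ≤ κ')
    (hf : ∀ z ∈ K, 0 ≤ c.f z) : KT c K s R C₀ κ' where
  jb v hv := (h.jb v hv).trans hκ
  lb v hv := (h.lb v hv).trans hκ
  t0 := h.t0
  q1 := h.q1
  an p hp hr := by
    have h1 := hf p.1 hp.1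
    refine (h.an p hp hr).trans ?_
    gcongr
  hT p hp hr := by
    have h1 := hf p.1 hp.1
    refine (h.hT p hp hr).trans ?_
    gcongr
  k3 p hp hr v := by
    have h1 := hf p.1 hp.1
    have h2 := (h.t0 p hp hr).1
    refine (h.k3 p hp hr v).trans ?_
    gcongr

end ktm

section tvm

variable {m k : ℕ} {c : Ch m k} {K : Set (Euc k)} {D : Set (Euc m)} {V : Measure (Euc k × L k)}

theorem f_nonneg (h : Ok c K D) {z : Euc k} (hz : z ∈ K) : 0 ≤ c.f z := by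
  have := h.nusq z hz
  have := sq_nonneg ‖c.nu z‖
  linarith

theorem tv_mono (h : Ok c K D) (hV : On V m K)
    (htau : ∀ p ∈ K ×ˢ G m k, 0 ≤ c.tau p.1 p.2) {Q ρ C1 Ca kq sig : ℝ} {e2 : Measure (Euc m)}
    (hCa : 1 ≤ Ca) (hC1 : 0 ≤ C1) (hkq : 0 ≤ kq) (hT : TV c V Q ρ C1 (Ca * kq) sig e2) :
    TV c V Q ρ (C1 * Ca) kq sig e2 where
  fin := hT.fin
  i := hT.i
  iii := by
    intro F Lf hF hL hF0
    refine (hT.iii F Lf hF hL hF0).trans ?_
    have cF : ContinuousOn (fun p : Euc k × L k => F (c.x p.1)) (K ×ˢ G m k) := by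
      refine hL.continuous.comp_continuousOn ?_
      intro p hp
      exact ((h.hx p.1 hp.1).continuousAt.comp continuousAt_fst).continuousWithinAt
    have cf : ContinuousOn (fun p : Euc k × L k => c.f p.1) (K ×ˢ G m k) := by
      intro p hp
      exact ((h.hf p.1 hp.1).continuousAt.comp continuousAt_fst).continuousWithinAt
    have hi : ∀ a : ℝ, Integrable (fun p : Euc k × L k =>
        F (c.x p.1) * (c.tau p.1 p.2 + a * (2 * c.f p.1))) V := fun a =>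
      hV.integrable h.cpt (cF.mul (h.ctau.add (continuousOn_const.mul
        (continuousOn_const.mul cf))))
    have h1 : ∫ p, F (c.x p.1) * (c.tau p.1 p.2 + Ca * kq * (2 * c.f p.1)) ∂V ≤
        Ca * ∫ p, F (c.x p.1) * (c.tau p.1 p.2 + kq * (2 * c.f p.1)) ∂V := by
      rw [← integral_const_mul]
      refine integral_mono_ae (hi _) ((hi _).const_mul _) ?_
      filter_upwards [hV.mem] with p hp
      have h2 := hF (c.x p.1)
      have h3 := htau p hp
      have h4 := f_nonneg h hp.1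
      have h5 : c.tau p.1 p.2 ≤ Ca * c.tau p.1 p.2 := le_mul_of_one_le_left h3 hCa
      calc F (c.x p.1) * (c.tau p.1 p.2 + Ca * kq * (2 * c.f p.1)) ≤
            F (c.x p.1) * (Ca * c.tau p.1 p.2 + Ca * kq * (2 * c.f p.1)) := by gcongr
        _ = _ := by ring
    have h6 := mul_le_mul_of_nonneg_left h1 hC1
    have h7 : C1 * (Ca * ∫ p, F (c.x p.1) * (c.tau p.1 p.2 + kq * (2 * c.f p.1)) ∂V) =
        C1 * Ca * ∫ p, F (c.x p.1) * (c.tau p.1 p.2 + kq * (2 * c.f p.1)) ∂V := by ring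
    linarith

theorem TV.mono_C (h : Ok c K D) (hV : On V m K)
    (htau : ∀ p ∈ K ×ˢ G m k, 0 ≤ c.tau p.1 p.2) {Q ρ C1 C2 kq sig : ℝ} {e2 : Measure (Euc m)}
    (hC : C1 ≤ C2) (hkq : 0 ≤ kq) (hT : TV c V Q ρ C1 kq sig e2) :
    TV c V Q ρ C2 kq sig e2 where
  fin := hT.fin
  i := hT.i
  iii := by
    intro F Lf hF hL hF0
    refine (hT.iii F Lf hF hL hF0).trans ?_
    have h1 : 0 ≤ ∫ p, F (c.x p.1) * (c.tau p.1 p.2 + kq * (2 * c.f p.1)) ∂V := by
      refine integral_nonneg_of_ae ?_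
      filter_upwards [hV.mem] with p hp
      have h2 := hF (c.x p.1)
      have h3 := htau p hp
      have h4 := f_nonneg h hp.1
      show 0 ≤ F (c.x p.1) * (c.tau p.1 p.2 + kq * (2 * c.f p.1))
      positivity
    have h2 := mul_le_mul_of_nonneg_right hC h1
    linarith

theorem tN_int (h : Ok c K D) (hV : On V m K) (a : ℝ) :
    Integrable (fun p : Euc k × L k => c.tau p.1 p.2 + a * (2 * c.f p.1)) V := by
  have cf : ContinuousOn (fun p : Euc k × L k => c.f p.1) (K ×ˢ G m k) := by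
    intro p hp
    exact ((h.hf p.1 hp.1).continuousAt.comp continuousAt_fst).continuousWithinAt
  exact hV.integrable h.cpt (h.ctau.add (continuousOn_const.mul (continuousOn_const.mul cf)))

theorem sN_pos' {cT N : ℝ} (hN : 0 ≤ N) : 0 < sN cT N := by
  unfold sN eN
  positivity

theorem tN_eq (c : Ch m k) (V : Measure (Euc k × L k)) (cT N κ : ℝ) :
    tN c V cT N κ = ((sN cT N)⁻¹) ^ m *
      ∫ p in Sr c (Real.exp (cT - 3 / (4 * N))),
        (c.tau p.1 p.2 + κ * ((sN cT N) ^ 2)⁻¹ * (2 * c.f p.1)) ∂V := by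
  unfold tN
  congr 2
  funext p
  ring

theorem tN_nonneg (h : Ok c K D) (hV : On V m K)
    (htau : ∀ p ∈ K ×ˢ G m k, 0 ≤ c.tau p.1 p.2) {cT N κ : ℝ} (hN : 0 ≤ N) (hκ : 0 ≤ κ) :
    0 ≤ tN c V cT N κ := by
  have hs := sN_pos' (cT := cT) hN
  rw [tN_eq]
  refine mul_nonneg (by positivity) ?_
  refine integral_nonneg_of_ae ?_
  filter_upwards [ae_restrict_of_ae hV.mem] with p hp
  have h3 := htau p hp
  have h4 := f_nonneg h hp.1
  show 0 ≤ c.tau p.1 p.2 + κ * ((sN cT N) ^ 2)⁻¹ * (2 * c.f p.1)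
  positivity

theorem tN_mul_le (h : Ok c K D) (hV : On V m K)
    (htau : ∀ p ∈ K ×ˢ G m k, 0 ≤ c.tau p.1 p.2) {cT N κ Ca : ℝ} (hN : 0 ≤ N) (hκ : 0 ≤ κ)
    (hCa : 1 ≤ Ca) : tN c V cT N (Ca * κ) ≤ Ca * tN c V cT N κ := by
  have hs := sN_pos' (cT := cT) hN
  rw [tN_eq, tN_eq, mul_left_comm Ca]
  refine mul_le_mul_of_nonneg_left ?_ (pow_nonneg (inv_nonneg.2 hs.le) m)
  rw [← integral_const_mul]
  refine integral_mono_ae (tN_int h hV _).integrableOn ((tN_int h hV _).integrableOn.const_mul _) ?_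
  filter_upwards [ae_restrict_of_ae hV.mem] with p hp
  have h3 := htau p hp
  have h4 := f_nonneg h hp.1
  have h5 : c.tau p.1 p.2 ≤ Ca * c.tau p.1 p.2 := le_mul_of_one_le_left h3 hCa
  calc c.tau p.1 p.2 + Ca * κ * ((sN cT N) ^ 2)⁻¹ * (2 * c.f p.1) ≤
        Ca * c.tau p.1 p.2 + Ca * κ * ((sN cT N) ^ 2)⁻¹ * (2 * c.f p.1) := by gcongr
    _ = _ := by ring

/-- the `sig` bound -/
theorem tt_le {m : ℕ} (hm : 1 ≤ m) {Ca t t' : ℝ} (hCa : 1 ≤ Ca) (ht' : 0 ≤ t')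
    (htt : t' ≤ Ca * t) : t' * t' ^ (1 / (m : ℝ)) ≤ Ca ^ 2 * (t * t ^ (1 / (m : ℝ))) := by
  have hm0 : (1:ℝ) ≤ m := by exact_mod_cast hm
  have hCa0 : 0 < Ca := by linarith
  have ht : 0 ≤ t := by
    by_contra hcon
    push Not at hcon
    have := mul_neg_of_pos_of_neg hCa0 hcon
    linarith
  have h1 : t' ^ (1 / (m : ℝ)) ≤ Ca * t ^ (1 / (m : ℝ)) := by
    calc t' ^ (1 / (m : ℝ)) ≤ (Ca * t) ^ (1 / (m : ℝ)) := by
          apply Real.rpow_le_rpow ht' htt; positivity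
      _ = Ca ^ (1 / (m : ℝ)) * t ^ (1 / (m : ℝ)) := Real.mul_rpow hCa0.le ht
      _ ≤ Ca * t ^ (1 / (m : ℝ)) := by
          apply mul_le_mul_of_nonneg_right _ (Real.rpow_nonneg ht _)
          calc Ca ^ (1 / (m : ℝ)) ≤ Ca ^ (1:ℝ) := by
                apply Real.rpow_le_rpow_of_exponent_le hCa
                rw [div_le_one (by linarith)]; exact hm0
            _ = Ca := Real.rpow_one _
  calc t' * t' ^ (1 / (m : ℝ)) ≤ (Ca * t) * (Ca * t ^ (1 / (m : ℝ))) :=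
        mul_le_mul htt h1 (Real.rpow_nonneg ht' _) (by positivity)
    _ = _ := by ring

end tvm

section loc

variable {m k : ℕ} {c : Ch m k} {U W K K' : Set (Euc k)} {V : Measure (Euc k × L k)} {L : ℝ}

theorem wr_ae {L' : ℝ} (h1 : Loc c U W K V L) (h2 : Loc c U W K' V L') {r : ℝ}
    (hr : r ≤ Real.exp L) (hr' : r ≤ Real.exp L') :
    (Wr c K r ×ˢ (univ : Set (Vf_884.L k)) : Set (Euc k × Vf_884.L k)) =ᵐ[V] (Wr c K' r ×ˢ univ) := by
  filter_upwards [h1.gap, h2.gap] with p hp hp'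
  refine propext ⟨fun h => ?_, fun h => ?_⟩
  · have h3 : p.1 ∈ K ∧ ‖c.x p.1‖ < r := h.1
    exact ⟨⟨hp' (h1.sub h3.1) (h3.2.le.trans hr'), h3.2⟩, trivial⟩
  · have h3 : p.1 ∈ K' ∧ ‖c.x p.1‖ < r := h.1
    exact ⟨⟨hp (h2.sub h3.1) (h3.2.le.trans hr), h3.2⟩, trivial⟩

end loc

section fb

variable {m n k : ℕ}

theorem fb_of_sit {Q : ℕ} {C ε Λ R : ℝ} {U : Set (Euc (m + n))}
    {D : VarifoldData m (m + n)} {x : Euc (m + n)} {M : Mo m n (m + n)}
    (h : Sit U D Q x M ε Λ) (hε0 : 0 ≤ ε) (hε : ε ≤ 1 / 16)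
    (hκ1 : C * M.κ ≤ 1 / 64) (hF : MgF m n C M.κ R M.S M.u M.w) :
    Fb m U (VD D) Q x M.S M.π M.ρ M.w ε (C * M.κ) ε where
  gr := hF.gr
  fr := h.pack.frame
  st := stat_VD h.int h.st
  sub := h.sub
  th := h.Th
  drop := h.pack.near.2.2
  sup := h.pack.supae
  ε0 := hε0
  ε1 := hε
  κ1 := hκ1
  om0 := hε0
  d1 X _ := hF.d1 X
  w0 := hF.d0 0

/-- **masses over the base balls**, any compact with `Loc` -/
theorem masses (m Q : ℕ) (hm : 1 ≤ m) (T : ℝ) (hT : 0 ≤ T) : ∃ δ : ℝ, 0 < δ ∧ δ ≤ 1 / 64 ∧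
    ∀ {k n : ℕ} {U : Set (Euc k)} {V : Measure (Euc k × L k)} {x : Euc k} {S : ℝ}
      {π : Euc k →L[ℝ] Euc m} {ρ : Euc k →L[ℝ] Euc n} {w : Euc m → Euc n} {ε κ om : ℝ},
      Fb m U V Q x S π ρ w ε κ om → IsOpen U → ε ≤ δ → κ ≤ δ → om ≤ δ →
        ∀ {K' : Set (Euc k)} {L : ℝ}, Loc (ch π ρ x S w 0) U (tube π ρ x S w) K' V L →
        ∀ s : ℝ, Real.exp (-T) * S ≤ s → s ≤ S → ∀ r : ℝ, r ≤ 2 * s → r ≤ S → r ≤ Real.exp L →
          s / 4 ≤ Real.exp L →
          V.real (Wr (ch π ρ x S w 0) K' r ×ˢ univ) ≤ (Q + 1) * (ome m * 3 ^ m) * s ^ m ∧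
          |V.real (Wr (ch π ρ x S w 0) K' (1 / 4 * s) ×ˢ univ) -
            Q * volume.real (Metric.ball (0 : Euc m) (1 / 4 * s))| ≤
            1 / 4 * volume.real (Metric.ball (0 : Euc m) (1 / 4 * s)) := by
  obtain ⟨δ, hδ, hδ1, H⟩ := mass_reg m Q hm T hT
  refine ⟨δ, hδ, hδ1, ?_⟩
  intro k n U V x S π ρ w ε κ om hFb hU h1 h2 h3 K' L hL s hs1 hs2 r hr hrS hrL hsL
  have hS := hFb.S0
  obtain ⟨a1, a2⟩ := H hFb h1 h2 h3 s hs1 hs2
  have hlocr := hFb.loc hU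
  have e4 : (1:ℝ) / 4 * s = s / 4 := by ring
  have hs0 : 0 < s := lt_of_lt_of_le (by positivity) hs1
  have hfin : V (Wr (ch π ρ x S w 0) (Kr π ρ x S w) (2 * s) ×ˢ (univ : Set (Vf_884.L k))) ≠ ⊤ := by
    have h5 := hlocr.st.fin _ hlocr.cpt (hlocr.sub.trans inter_subset_right)
    refine (lt_of_le_of_lt (measure_mono ?_) h5).ne
    exact Set.prod_mono (fun z hz => hz.1) Subset.rfl
  constructor
  · have h5 : V.real (Wr (ch π ρ x S w 0) K' r ×ˢ (univ : Set (Vf_884.L k))) =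
        V.real (Wr (ch π ρ x S w 0) (Kr π ρ x S w) r ×ˢ univ) := by
      rw [measureReal_def, measureReal_def,
        measure_congr (wr_ae hL hlocr hrL (by rw [Real.exp_log hS]; exact hrS))]
    rw [h5]
    refine le_trans ?_ a2
    refine ENNReal.toReal_mono hfin (measure_mono ?_)
    exact Set.prod_mono (fun z hz => ⟨hz.1, hz.2.trans_le hr⟩) Subset.rfl
  · have h5 : V.real (Wr (ch π ρ x S w 0) K' (s / 4) ×ˢ (univ : Set (Vf_884.L k))) =
        V.real (Wr (ch π ρ x S w 0) (Kr π ρ x S w) (s / 4) ×ˢ univ) := by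
      rw [measureReal_def, measureReal_def,
        measure_congr (wr_ae hL hlocr hsL (by rw [Real.exp_log hS]; linarith))]
    rw [e4, h5]
    refine a1.trans (le_of_eq (by ring))

end fb

section tvk

/-- constant of 128's small parameter -/
def Ca (m n : ℕ) : ℝ := 6 * GLK_128.Ct m n

theorem one_le_Ca (m n : ℕ) : 1 ≤ Ca m n := by
  unfold Ca GLK_128.Ct
  have h1 : 1 ≤ Real.exp m := Real.one_le_exp (Nat.cast_nonneg m)
  have h2 : (0 : ℝ) ≤ m := Nat.cast_nonneg m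
  have h3 : (0 : ℝ) ≤ n := Nat.cast_nonneg n
  nlinarith

theorem Cn_nonneg (m : ℕ) : 0 ≤ GLK_128.Cn m := by
  unfold GLK_128.Cn
  have := GLK_128.Cj_nonneg m
  have h2 : (0 : ℝ) ≤ m := Nat.cast_nonneg m
  linarith

variable {m n k : ℕ} {U : Set (Euc k)} {V : Measure (Euc k × L k)} {K : Set (Euc k)}
  {π : Euc k →L[ℝ] Euc m} {ρ : Euc k →L[ℝ] Euc n} {x : Euc k} {r : ℝ} {w : Euc m → Euc n}
  {X0 : Euc m} {Lv : ℝ}

/-- `KT` on a part of `K` with small heights -/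
theorem Cd1.kt {κ cT N : ℝ} (h : Cd1 U V K π ρ x r w X0 Lv κ cT N) {K' : Set (Euc k)}
    (hK' : K' ⊆ K) {l s R hb : ℝ} (hl : l < cT) (hs : 0 < s) (h1 : s ≤ Real.exp l)
    (h2 : Real.exp l ≤ 2 * s) (hR : R ≤ Real.exp l) (hb0 : 0 ≤ hb) (hb2 : 2 * hb ≤ 1)
    (hnu : ∀ z ∈ K', ‖(ch π ρ x r w X0).x z‖ ≤ Real.exp l →
      ‖(ch π ρ x r w X0).nu z‖ ≤ hb * Real.exp l) :
    KT (ch π ρ x r w X0) K' s R (GLK_128.Cn m) (Ca m n * κ) := by
  have hy := h.hy hK' hl hb0 (by linarith) hnu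
  refine kt_mono (kt_of_hy hy hs h1 h2 hR hb2) hs (Cn_nonneg m) ?_ ?_
  · refine hy.kp_le.trans ?_
    have e1 : Real.exp (-cT) * Real.exp l ≤ 1 := by
      rw [← Real.exp_add]; exact Real.exp_le_one_iff.2 (by linarith)
    have e2 : Real.exp (-2 * cT) * Real.exp (2 * l) ≤ 1 := by
      rw [← Real.exp_add]; exact Real.exp_le_one_iff.2 (by linarith)
    have e3 : κ * Real.exp (-cT) * Real.exp l + κ * Real.exp (-2 * cT) * Real.exp (2 * l) ≤ 2 * κ := by
      have := h.κ0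
      nlinarith
    have e4 := GLK_128.Ct_pos m n
    unfold Ca
    nlinarith
  · intro z hz
    exact f_nonneg h.ok (hK' hz)

/-- **the total variation input on the compact of the fine heights** -/
theorem exists_tv (m n Q : ℕ) (hm : 1 ≤ m) {Λ : ℝ} (hΛ : 0 ≤ Λ) : ∃ κ₀ : ℝ, 0 < κ₀ ∧
    ∃ Ct : ℝ, 0 ≤ Ct ∧ ∀ {k : ℕ} {U : Set (Euc k)} {D : VarifoldData m k} {K : Set (Euc k)}
      {π : Euc k →L[ℝ] Euc m} {ρ : Euc k →L[ℝ] Euc n} {x : Euc k} {r : ℝ} {w : Euc m → Euc n}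
      {X0 : Euc m} {Lv κ cT N h1 : ℝ}, Cd1 U (VD D) K π ρ x r w X0 Lv κ cT N →
      IsIntegralVarifoldIn U D → κ ≤ κ₀ → 0 ≤ h1 → h1 ≤ Real.exp cT / (32 * N) →
      (∀ᵐ p ∂(VK (VD D) K), ‖(ch π ρ x r w X0).x p.1‖ ≤
        Real.exp (cT - 1 / (4 * N)) → 2 * (ch π ρ x r w X0).f p.1 ≤ h1 ^ 2) →
      (VD D).real (Wr (ch π ρ x r w X0) (K1 π ρ x r w X0 K h1 cT N)
        ((1 + eN N) * sN cT N) ×ˢ univ) ≤ Λ * sN cT N ^ m →
      |(VD D).real (Wr (ch π ρ x r w X0) (K1 π ρ x r w X0 K h1 cT N) (1 / 4 * sN cT N) ×ˢ univ) -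
          Q * volume.real (ball (0 : Euc m) (1 / 4 * sN cT N))| ≤
        1 / 4 * volume.real (ball (0 : Euc m) (1 / 4 * sN cT N)) →
      ∃ (e2 : Measure (Euc m)) (sig : ℝ),
        TV (ch π ρ x r w X0) (VK (VD D) (K1 π ρ x r w X0 K h1 cT N)) Q
          ((1 + eN N / 2) * sN cT N) Ct (κ / (sN cT N) ^ 2) sig e2 ∧ 0 ≤ sig ∧
        sig ≤ Ct * ((eN N)⁻¹) ^ (2 * m + 2) * (sN cT N) ^ (m + 1) *
          (tN (ch π ρ x r w X0) (VK (VD D) (K1 π ρ x r w X0 K h1 cT N)) cT N κ *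
            tN (ch π ρ x r w X0) (VK (VD D) (K1 π ρ x r w X0 K h1 cT N)) cT N κ ^ (1 / (m : ℝ))) := by
  obtain ⟨κ₁, hκ₁, C1, hC1, Ct, hCt, H⟩ := Tv_618.tv_gl (by omega : 0 < m) Q (Cn_nonneg m) hΛ
  have hCa := one_le_Ca m n
  have hCa0 : 0 < Ca m n := by linarith
  refine ⟨κ₁ / Ca m n, by positivity, C1 * Ca m n + Ct * Ca m n ^ 2, by positivity, ?_⟩
  intro k U D K π ρ x r w X0 Lv κ cT N h1 h hint hκ h10 h11 hae hm1 hm2
  have hN := h.hN
  have hN0 : 0 < N := by linarith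
  have hE := Real.exp_pos cT
  obtain ⟨hl, hsub⟩ := h.loc1 hae
  set c := ch π ρ x r w X0 with hc
  set Kf := K1 π ρ x r w X0 K h1 cT N with hKf
  have hs := sN_pos hN (cT := cT)
  have he0 := eN_pos hN
  have he1 := eN_le hN
  have hsm := sN_mul hN (cT := cT)
  have hR : Reg c (tube π ρ x r w) univ := h.hw.reg h.hf X0
  have hKK : Kf ⊆ K := fun z hz => hz.1
  have hokf : Ok c Kf univ := hR.ok hl.cpt (hl.sub.trans inter_subset_left)
  have hkap : Ca m n * κ ≤ κ₁ := by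
    rw [mul_comm]; exact (le_div_iff₀ hCa0).1 hκ
  have h34 : cT - 3 / (4 * N) < cT := by
    have : 0 < 3 / (4 * N) := by positivity
    linarith
  have hse : Real.exp (cT - 3 / (4 * N)) ≤ 2 * sN cT N := by
    rw [← hsm]; nlinarith
  have hse' : sN cT N ≤ Real.exp (cT - 3 / (4 * N)) := by
    rw [← hsm]; nlinarith
  have hEs : Real.exp cT ≤ 8 * sN cT N := by
    have h3 := sN_ge hN (cT := cT)
    rw [Real.exp_sub] at h3
    have h4 := Real.exp_one_lt_d9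
    have h5 : Real.exp cT / Real.exp 1 / 2 * (2 * Real.exp 1) = Real.exp cT := by
      field_simp
    have h6 : Real.exp cT / Real.exp 1 / 2 * (2 * Real.exp 1) ≤ sN cT N * (2 * Real.exp 1) :=
      mul_le_mul_of_nonneg_right h3 (by positivity)
    nlinarith
  have hkt : KT c Kf (sN cT N) ((1 + eN N) * sN cT N) (GLK_128.Cn m) (Ca m n * κ) := by
    refine h.kt hKK (hb := 1 / 2) h34 hs hse' hse hsm.le (by norm_num) (by norm_num) ?_
    intro z hz hz2
    have h3 : ‖c.nu z‖ ^ 2 ≤ h1 ^ 2 := by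
      have h4 := hokf.nusq z hz
      rw [h4]; exact hz.2.1
    have h4 : ‖c.nu z‖ ≤ h1 := (pow_le_pow_iff_left₀ (norm_nonneg _) h10 two_ne_zero).1 h3
    refine h4.trans (h11.trans ?_)
    have h5 : Real.exp cT / (32 * N) ≤ Real.exp cT / 32 :=
      div_le_div_of_nonneg_left hE.le (by norm_num) (by linarith)
    linarith
  have hlv : (1 + eN N) * sN cT N ≤ Real.exp (cT - 1 / (4 * N)) := by
    rw [hsm]
    refine Real.exp_le_exp.2 ?_
    have : 1 / (4 * N) ≤ 3 / (4 * N) := by gcongr; norm_num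
    linarith
  obtain ⟨e2, hT, -⟩ := H (eN N) he0 (by linarith) (Ca m n * κ) (mul_nonneg hCa0.le h.κ0) hkap
    hs hint hR hl hlv (subset_univ _) hkt hm1 hm2
  have htau : ∀ p ∈ Kf ×ˢ G m k, 0 ≤ c.tau p.1 p.2 := fun p hp => h.tau0 p ⟨hKK hp.1, hp.2⟩
  have hV := hl.toOn
  have hN0' : (0:ℝ) ≤ N := hN0.le
  -- `ttot ≤ tN`
  have hKm : MeasurableSet (Kf ×ˢ (univ : Set (Vf_884.L k))) :=
    (hl.cpt.isClosed.prod isClosed_univ).measurableSet
  have hKap : 0 ≤ Ca m n * κ := mul_nonneg hCa0.le h.κ0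
  have hpos : ∀ p ∈ Kf ×ˢ G m k,
      0 ≤ c.tau p.1 p.2 + Ca m n * κ * (2 * c.f p.1 / sN cT N ^ 2) := fun p hp => by
    have h3 := htau p hp
    have h4 := f_nonneg hokf hp.1
    positivity
  have hint1 : Integrable (fun p : Euc k × Vf_884.L k =>
      c.tau p.1 p.2 + Ca m n * κ * (2 * c.f p.1 / sN cT N ^ 2)) (VK (VD D) Kf) := by
    refine (tN_int hokf hV (Ca m n * κ * (sN cT N ^ 2)⁻¹)).congr (Eventually.of_forall fun p => ?_)
    show c.tau p.1 p.2 + Ca m n * κ * (sN cT N ^ 2)⁻¹ * (2 * c.f p.1) = _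
    ring
  have ht1 : ttot c (VD D) Kf (Ca m n * κ) (sN cT N) (1 + eN N) ≤
      tN c (VK (VD D) Kf) cT N (Ca m n * κ) := by
    unfold ttot tN
    rw [inv_pow]
    refine mul_le_mul_of_nonneg_left ?_ (by positivity)
    have e1 : (VK (VD D) Kf).restrict (Sr c (Real.exp (cT - 3 / (4 * N)))) =
        (VD D).restrict (Sr c (Real.exp (cT - 3 / (4 * N))) ∩ Kf ×ˢ univ) := by
      unfold VK
      rw [Measure.restrict_restrict' hKm]
    rw [e1]
    refine setIntegral_mono_set ?_ ?_ ?_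
    · exact IntegrableOn.mono_set (t := Kf ×ˢ univ) hint1 inter_subset_right
    · have h5 := ae_restrict_of_ae_restrict_of_subset (μ := VD D)
        (inter_subset_right : Sr c (Real.exp (cT - 3 / (4 * N))) ∩ Kf ×ˢ univ ⊆ Kf ×ˢ univ) hV.mem
      filter_upwards [h5] with p hp
      exact hpos p hp
    · refine Eventually.of_forall fun p hp => ?_
      rw [hsm] at hp
      have h6 : p.1 ∈ Kf ∧ ‖c.x p.1‖ < Real.exp (cT - 3 / (4 * N)) := hp.1
      exact ⟨h6.2.le, h6.1, trivial⟩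
  have ht0 : 0 ≤ ttot c (VD D) Kf (Ca m n * κ) (sN cT N) (1 + eN N) := by
    unfold ttot
    refine mul_nonneg (by positivity) (integral_nonneg_of_ae ?_)
    have h5 := ae_restrict_of_ae_restrict_of_subset (μ := VD D)
      (Set.prod_mono (fun z hz => hz.1) Subset.rfl :
        Wr c Kf ((1 + eN N) * sN cT N) ×ˢ (univ : Set (Vf_884.L k)) ⊆ Kf ×ˢ univ) hV.mem
    filter_upwards [h5] with p hp
    exact hpos p hp
  have ht2 := ht1.trans (tN_mul_le hokf hV htau hN0' h.κ0 hCa)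
  have ht3 := tt_le hm hCa ht0 ht2
  have hmm : (0:ℝ) ≤ C1 * Ca m n := by positivity
  have hkq : 0 ≤ κ / sN cT N ^ 2 := div_nonneg h.κ0 (by positivity)
  refine ⟨e2, Ct * (sN cT N ^ (m + 1) * (ttot c (VD D) Kf (Ca m n * κ) (sN cT N) (1 + eN N) *
              ttot c (VD D) Kf (Ca m n * κ) (sN cT N) (1 + eN N) ^ (1 / (m : ℝ)))) /
            eN N ^ (2 * m + 2),
    TV.mono_C hokf hV htau (by nlinarith [mul_nonneg hCt (sq_nonneg (Ca m n))])
    hkq (tv_mono hokf hV htau hCa hC1 hkq ?_), ?_, ?_⟩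
  · rw [← mul_div_assoc]; exact hT
  · exact div_nonneg (mul_nonneg hCt (mul_nonneg (pow_nonneg hs.le _)
      (mul_nonneg ht0 (Real.rpow_nonneg ht0 _)))) (pow_nonneg he0.le _)
  · have hsp := hs.le
    have hb1 : 0 ≤ tN c (VK (VD D) Kf) cT N κ * tN c (VK (VD D) Kf) cT N κ ^ (1 / (m : ℝ)) := by
      have := tN_nonneg hokf hV htau hN0' h.κ0 (cT := cT)
      positivity
    calc Ct * (sN cT N ^ (m + 1) * (ttot c (VD D) Kf (Ca m n * κ) (sN cT N) (1 + eN N) *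
              ttot c (VD D) Kf (Ca m n * κ) (sN cT N) (1 + eN N) ^ (1 / (m : ℝ)))) /
            eN N ^ (2 * m + 2) ≤ Ct * (sN cT N ^ (m + 1) * (Ca m n ^ 2 *
              (tN c (VK (VD D) Kf) cT N κ * tN c (VK (VD D) Kf) cT N κ ^ (1 / (m : ℝ))))) /
            eN N ^ (2 * m + 2) := by gcongr
      _ = (Ct * Ca m n ^ 2) * ((eN N)⁻¹ ^ (2 * m + 2) * sN cT N ^ (m + 1) *
          (tN c (VK (VD D) Kf) cT N κ * tN c (VK (VD D) Kf) cT N κ ^ (1 / (m : ℝ)))) := by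
          rw [inv_pow, div_eq_mul_inv]; ring
      _ ≤ (C1 * Ca m n + Ct * Ca m n ^ 2) * ((eN N)⁻¹ ^ (2 * m + 2) * sN cT N ^ (m + 1) *
          (tN c (VK (VD D) Kf) cT N κ * tN c (VK (VD D) Kf) cT N κ ^ (1 / (m : ℝ)))) := by
          refine mul_le_mul_of_nonneg_right (by linarith) ?_
          have := eN_pos hN
          exact mul_nonneg (by positivity) hb1
      _ = _ := by ring

end tvk

end Crest.Agent.R234.Ng_290
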