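import Mathlib
import Crest.Agent.R246.H2b1_622
import Crest.Agent.R216.ParamInt

-- ▼ part R234/Sc1_173
section

/-!
Row 234, strong constancy lemma (helper173).  Part 1: the scale kernel.

`F = EuclideanSpace ℝ (Fin d)`, `eta` the radial mollifier of R246, `vk T` the compactly supported
smooth function with `Δ (vk T) = e^{dT} eta (e^T z) - eta z`.
-/

set_option autoImplicit false

open MeasureTheory Metric Set Filter Topology
open scoped ContDiff

namespace Crest.Agent.R234.Sc173

noncomputable section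

open Crest.Agent.R246.H2x622 (Psi eta deta Psi_contDiff eta_contDiff deta_contDiff Psi_zero eta_zero
  deta_zero hasFDerivAt_Psi hasFDerivAt_eta)

/-- the space -/
abbrev Eu (d : ℕ) := EuclideanSpace ℝ (Fin d)

/-- directional derivative -/
def Dd {d : ℕ} (a : Eu d) (v : Eu d → ℝ) : Eu d → ℝ := fun z => fderiv ℝ v z a

variable {d : ℕ}

lemma Dd_contDiff {a : Eu d} {v : Eu d → ℝ} (h : ContDiff ℝ ∞ v) : ContDiff ℝ ∞ (Dd a v) := by
  have h1 : ContDiff ℝ ∞ (fderiv ℝ v) := h.fderiv_right (by norm_cast)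
  exact h1.clm_apply contDiff_const

lemma Dd_hasCompactSupport {a : Eu d} {v : Eu d → ℝ} (h : HasCompactSupport v) :
    HasCompactSupport (Dd a v) := h.fderiv_apply ℝ a

lemma hasFDerivAt_param {W : Type*} [NormedAddCommGroup W] [NormedSpace ℝ W] [CompleteSpace W]
    {h : Eu d → ℝ → W} (hh : ContDiff ℝ ∞ (Function.uncurry h)) (a b : ℝ) (z : Eu d) :
    HasFDerivAt (fun z => ∫ t in a..b, h z t)
      (∫ t in a..b, fderiv ℝ (fun z => h z t) z) z := by
  have hc : Continuous (Function.uncurry h) := hh.continuous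
  have hslice : ∀ t, ContDiff ℝ ∞ (fun z => h z t) := fun t =>
    hh.comp (contDiff_id.prodMk contDiff_const)
  have hd' : ∀ (z : Eu d) (t : ℝ), fderiv ℝ (fun z => h z t) z =
      (fderiv ℝ (Function.uncurry h) (z, t)).comp (ContinuousLinearMap.inl ℝ (Eu d) ℝ) := by
    intro z t
    have h1 : HasFDerivAt (Function.uncurry h) (fderiv ℝ (Function.uncurry h) (z, t)) (z, t) :=
      (hh.differentiable (by simp) _).hasFDerivAt
    exact (HasFDerivAt.comp (f := fun e : Eu d => (e, t)) z h1 (hasFDerivAt_prodMk_left z t)).fderiv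
  have hdc : Continuous (fun p : Eu d × ℝ => fderiv ℝ (fun z => h z p.2) p.1) := by
    have h1 : Continuous (fderiv ℝ (Function.uncurry h)) := hh.continuous_fderiv (by simp)
    have h2 : Continuous (fun p : Eu d × ℝ =>
        (fderiv ℝ (Function.uncurry h) (p.1, p.2)).comp (ContinuousLinearMap.inl ℝ (Eu d) ℝ)) :=
      (h1.comp (continuous_fst.prodMk continuous_snd)).clm_comp continuous_const
    exact h2.congr fun p => (hd' p.1 p.2).symm
  obtain ⟨C, hC⟩ := ((isCompact_closedBall z 1).prod (isCompact_uIcc (a := a) (b := b))).exists_bound_of_continuousOn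
    hdc.continuousOn
  refine (intervalIntegral.hasFDerivAt_integral_of_dominated_of_fderiv_le (𝕜 := ℝ)
    (s := ball z 1) (bound := fun _ => C) (F := fun z t => h z t)
    (F' := fun z t => fderiv ℝ (fun z => h z t) z) (ball_mem_nhds z one_pos) ?_ ?_ ?_ ?_ ?_ ?_)
  · exact Eventually.of_forall fun x =>
      (hc.comp (continuous_const.prodMk continuous_id)).aestronglyMeasurable
  · exact (hc.comp (continuous_const.prodMk continuous_id)).intervalIntegrable _ _
  · exact (hdc.comp (continuous_const.prodMk continuous_id)).aestronglyMeasurable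
  · refine Eventually.of_forall fun t ht x hx => ?_
    exact hC (x, t) ⟨ball_subset_closedBall hx, uIoc_subset_uIcc ht⟩
  · exact intervalIntegrable_const
  · refine Eventually.of_forall fun t ht x hx => ?_
    exact ((hslice t).differentiable (by simp) x).hasFDerivAt

/-- directional derivatives of parameter integrals -/
lemma Dd_param {h : Eu d → ℝ → ℝ} (hh : ContDiff ℝ ∞ (Function.uncurry h)) (T : ℝ) (a z : Eu d) :
    Dd a (fun z => ∫ t in (0:ℝ)..T, h z t) z = ∫ t in (0:ℝ)..T, Dd a (fun z => h z t) z := by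
  have h1 := hasFDerivAt_param hh 0 T z
  unfold Dd
  rw [h1.fderiv]
  have hdc : Continuous (fun t : ℝ => fderiv ℝ (fun z => h z t) z) := by
    have h1 : Continuous (fderiv ℝ (Function.uncurry h)) := hh.continuous_fderiv (by simp)
    have h2 : Continuous (fun t : ℝ =>
        (fderiv ℝ (Function.uncurry h) (z, t)).comp (ContinuousLinearMap.inl ℝ (Eu d) ℝ)) :=
      (h1.comp (continuous_const.prodMk continuous_id)).clm_comp continuous_const
    refine h2.congr fun t => ?_
    have h1 : HasFDerivAt (Function.uncurry h) (fderiv ℝ (Function.uncurry h) (z, t)) (z, t) :=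
      (hh.differentiable (by simp) _).hasFDerivAt
    exact (HasFDerivAt.comp (f := fun e : Eu d => (e, t)) z h1
      (hasFDerivAt_prodMk_left z t)).fderiv.symm
  rw [ContinuousLinearMap.intervalIntegral_apply (hdc.intervalIntegrable _ _)]

/-- the scaled function -/
def sc (g : Eu d → ℝ) (m : ℝ) (t : ℝ) (z : Eu d) : ℝ := Real.exp (m * t) * g (Real.exp t • z)

/-- scale integrals -/
def SI (g : Eu d → ℝ) (m T : ℝ) (z : Eu d) : ℝ := ∫ t in (0:ℝ)..T, sc g m t z

lemma sc_contDiff {g : Eu d → ℝ} (hg : ContDiff ℝ ∞ g) (m : ℝ) :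
    ContDiff ℝ ∞ (Function.uncurry fun (z : Eu d) (t : ℝ) => sc g m t z) := by
  have h1 : ContDiff ℝ ∞ (fun p : Eu d × ℝ => Real.exp (m * p.2)) :=
    Real.contDiff_exp.comp (contDiff_const.mul contDiff_snd)
  have h2 : ContDiff ℝ ∞ (fun p : Eu d × ℝ => Real.exp p.2 • p.1) :=
    (Real.contDiff_exp.comp contDiff_snd).smul contDiff_fst
  exact h1.mul (hg.comp h2)

lemma SI_contDiff {g : Eu d → ℝ} (hg : ContDiff ℝ ∞ g) (m T : ℝ) : ContDiff ℝ ∞ (SI g m T) :=
  Crest.Agent.R216.contDiff_param_integral (n := ⊤) 0 T (sc_contDiff hg m)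

lemma Dd_sc {g : Eu d → ℝ} (hg : ContDiff ℝ ∞ g) (m t : ℝ) (a z : Eu d) :
    Dd a (fun z => sc g m t z) z = sc (Dd a g) (m + 1) t z := by
  have h1 : HasFDerivAt (fun z : Eu d => Real.exp t • z)
      (Real.exp t • ContinuousLinearMap.id ℝ (Eu d)) z :=
    (Real.exp t • ContinuousLinearMap.id ℝ (Eu d)).hasFDerivAt
  have h2 : HasFDerivAt g (fderiv ℝ g (Real.exp t • z)) (Real.exp t • z) :=
    (hg.differentiable (by simp) _).hasFDerivAt
  have h3 := (h2.comp z h1).const_mul (Real.exp (m * t))
  unfold Dd sc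
  have h4 := h3.fderiv
  simp only [Function.comp_def] at h4
  rw [h4]
  simp only [_root_.smul_apply, ContinuousLinearMap.comp_apply,
    ContinuousLinearMap.id_apply, map_smul, smul_eq_mul]
  rw [show (m + 1) * t = m * t + t by ring, Real.exp_add]
  ring

lemma Dd_SI {g : Eu d → ℝ} (hg : ContDiff ℝ ∞ g) (m T : ℝ) (a : Eu d) :
    Dd a (SI g m T) = SI (Dd a g) (m + 1) T := by
  funext z
  unfold SI
  rw [Dd_param (sc_contDiff hg m) T a z]
  refine intervalIntegral.integral_congr fun t _ => ?_
  exact Dd_sc hg m t a z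

lemma sc_zero {g : Eu d → ℝ} (hg : ∀ y : Eu d, 1 < ‖y‖ → g y = 0) {m t : ℝ} {z : Eu d}
    (hz : 1 < Real.exp t * ‖z‖) : sc g m t z = 0 := by
  unfold sc
  rw [hg _ (by rwa [norm_smul, Real.norm_eq_abs, abs_of_pos (Real.exp_pos t)]), mul_zero]

lemma SI_zero {g : Eu d → ℝ} (hg : ∀ y : Eu d, 1 < ‖y‖ → g y = 0) {m T : ℝ} (hT : 0 ≤ T) {z : Eu d}
    (hz : 1 < ‖z‖) : SI g m T z = 0 := by
  unfold SI
  rw [intervalIntegral.integral_congr (g := fun _ => (0:ℝ)), intervalIntegral.integral_zero]
  intro t ht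
  rw [uIcc_of_le hT] at ht
  have h1 : 1 ≤ Real.exp t := Real.one_le_exp ht.1
  exact sc_zero hg (by nlinarith [norm_nonneg z])

lemma SI_hasCompactSupport {g : Eu d → ℝ} (hg : ∀ y : Eu d, 1 < ‖y‖ → g y = 0) {m T : ℝ}
    (hT : 0 ≤ T) : HasCompactSupport (SI g m T) := by
  refine HasCompactSupport.intro (isCompact_closedBall (0 : Eu d) 1) fun z hz => ?_
  refine SI_zero hg hT ?_
  simpa using hz

/-- integral of a scaled function -/
lemma integral_abs_sc {g : Eu d → ℝ} (m t : ℝ) :
    ∫ z, |sc g m t z| = Real.exp ((m - d) * t) * ∫ z, |g z| := by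
  unfold sc
  have h1 : ∀ z : Eu d, |Real.exp (m * t) * g (Real.exp t • z)| =
      Real.exp (m * t) * |g (Real.exp t • z)| := by
    intro z; rw [abs_mul, abs_of_pos (Real.exp_pos _)]
  simp_rw [h1]
  rw [integral_const_mul, Measure.integral_comp_smul volume (fun z => |g z|) (Real.exp t)]
  simp only [finrank_euclideanSpace, Fintype.card_fin, smul_eq_mul]
  rw [abs_of_pos (by positivity), ← Real.exp_nat_mul, ← Real.exp_neg, ← mul_assoc, ← Real.exp_add]
  congr 2
  ring

/-! ### Fubini for scale integrals -/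

lemma integrable_prod {H : Eu d × ℝ → ℝ} (hH : Continuous H) {T R : ℝ}
    (h0 : ∀ z t, t ∈ Icc (0:ℝ) T → R < ‖z‖ → H (z, t) = 0) :
    Integrable H ((volume : Measure (Eu d)).prod ((volume : Measure ℝ).restrict (Ioc 0 T))) := by
  have hK : IsCompact (closedBall (0 : Eu d) R ×ˢ Icc (0:ℝ) T) :=
    (isCompact_closedBall _ _).prod isCompact_Icc
  have h1 : IntegrableOn H (closedBall (0 : Eu d) R ×ˢ Icc (0:ℝ) T)
      ((volume : Measure (Eu d)).prod (volume : Measure ℝ)) :=
    hH.continuousOn.integrableOn_compact hK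
  have h2 : IntegrableOn H (closedBall (0 : Eu d) R ×ˢ Ioc (0:ℝ) T)
      ((volume : Measure (Eu d)).prod (volume : Measure ℝ)) :=
    h1.mono_set (prod_mono le_rfl Ioc_subset_Icc_self)
  have h3 : IntegrableOn H (univ ×ˢ Ioc (0:ℝ) T)
      ((volume : Measure (Eu d)).prod (volume : Measure ℝ)) := by
    refine h2.of_forall_sdiff_eq_zero (MeasurableSet.univ.prod measurableSet_Ioc) ?_
    rintro ⟨z, t⟩ ⟨⟨_, ht⟩, hn⟩
    refine h0 z t (Ioc_subset_Icc_self ht) ?_
    by_contra hz
    exact hn ⟨by simpa using not_lt.1 hz, ht⟩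
  rw [IntegrableOn, ← Measure.prod_restrict, Measure.restrict_univ] at h3
  exact h3

lemma sc_continuous {g : Eu d → ℝ} (hg : Continuous g) (m : ℝ) :
    Continuous (fun p : Eu d × ℝ => sc g m p.2 p.1) := by
  unfold sc
  fun_prop

lemma integral_abs_SI_le {g : Eu d → ℝ} (hg : Continuous g) (h0 : ∀ y : Eu d, 1 < ‖y‖ → g y = 0)
    {m T : ℝ} (hT : 0 ≤ T) :
    ∫ z, |SI g m T z| ≤ (∫ t in (0:ℝ)..T, Real.exp ((m - d) * t)) * ∫ z, |g z| := by
  have hc := (sc_continuous hg m).abs
  have hint : Integrable (fun p : Eu d × ℝ => |sc g m p.2 p.1|)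
      ((volume : Measure (Eu d)).prod ((volume : Measure ℝ).restrict (Ioc 0 T))) := by
    refine integrable_prod (R := 1) hc fun z t ht hz => ?_
    have h1 : 1 ≤ Real.exp t := Real.one_le_exp ht.1
    simp [sc_zero h0 (m := m) (t := t) (z := z) (by nlinarith [norm_nonneg z])]
  calc ∫ z, |SI g m T z| ≤ ∫ z, ∫ t in Ioc (0:ℝ) T, |sc g m t z| := by
        refine integral_mono_of_nonneg (Eventually.of_forall fun z => abs_nonneg _)
          hint.integral_prod_left (Eventually.of_forall fun z => ?_)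
        have h2 := intervalIntegral.norm_integral_le_integral_norm (f := fun t => sc g m t z)
          (μ := volume) hT
        simpa [SI, intervalIntegral.integral_of_le hT, Real.norm_eq_abs] using h2
    _ = ∫ t in Ioc (0:ℝ) T, ∫ z, |sc g m t z| := integral_integral_swap hint
    _ = (∫ t in (0:ℝ)..T, Real.exp ((m - d) * t)) * ∫ z, |g z| := by
        simp_rw [integral_abs_sc]
        rw [integral_mul_const, intervalIntegral.integral_of_le hT]

/-- Fubini for convolutions with scale integrals -/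
lemma conv_SI {g : Eu d → ℝ} (hg : Continuous g) (h0 : ∀ y : Eu d, 1 < ‖y‖ → g y = 0)
    {m T : ℝ} (hT : 0 ≤ T) {w : Eu d → ℝ} (hw : Measurable w) (hw1 : ∀ x, |w x| ≤ 1) (y : Eu d) :
    ∫ x, w x * SI g m T (y - x) = ∫ t in (0:ℝ)..T, ∫ x, w x * sc g m t (y - x) := by
  have hc : Continuous (fun p : Eu d × ℝ => sc g m p.2 (y - p.1)) :=
    (sc_continuous hg m).comp ((continuous_const.sub continuous_fst).prodMk continuous_snd)
  have hint0 : Integrable (fun p : Eu d × ℝ => sc g m p.2 (y - p.1))
      ((volume : Measure (Eu d)).prod ((volume : Measure ℝ).restrict (Ioc 0 T))) := by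
    refine integrable_prod (R := 1 + ‖y‖) hc fun z t ht hz => ?_
    have h1 : 1 ≤ Real.exp t := Real.one_le_exp ht.1
    have h2 : 1 < ‖y - z‖ := by
      have := norm_sub_norm_le z y
      rw [norm_sub_rev] at this
      linarith
    exact sc_zero h0 (by nlinarith)
  have hint : Integrable (fun p : Eu d × ℝ => w p.1 * sc g m p.2 (y - p.1))
      ((volume : Measure (Eu d)).prod ((volume : Measure ℝ).restrict (Ioc 0 T))) := by
    refine hint0.bdd_mul (c := 1) (hw.comp measurable_fst).aestronglyMeasurable ?_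
    exact Eventually.of_forall fun p => by simpa using hw1 p.1
  have h1 : ∀ x, w x * SI g m T (y - x) = ∫ t in Ioc (0:ℝ) T, w x * sc g m t (y - x) := by
    intro x
    rw [integral_const_mul, SI, intervalIntegral.integral_of_le hT]
  simp_rw [h1]
  rw [intervalIntegral.integral_of_le hT]
  exact integral_integral_swap hint

end

end Crest.Agent.R234.Sc173
end

-- ▼ part R234/Sc2_173

/-!
Row 234, strong constancy lemma (helper173).  Part 2: oscillation of the second derivatives away from
the support, and the kernel `vk T`.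
-/

set_option autoImplicit false

open MeasureTheory Metric Set Filter Topology
open scoped ContDiff

namespace Crest.Agent.R234.Sc173

noncomputable section

open Crest.Agent.R246.H2x622 (Psi eta deta Psi_contDiff eta_contDiff deta_contDiff Psi_zero eta_zero
  deta_zero hasFDerivAt_Psi hasFDerivAt_eta G1_nonneg)

variable {d : ℕ}

/-- volume of the unit ball -/
def om (d : ℕ) : ℝ := (volume (ball (0 : Eu d) 1)).toReal

lemma om_nonneg : 0 ≤ om d := ENNReal.toReal_nonneg

lemma vol_closedBall (x : Eu d) {r : ℝ} (hr : 0 ≤ r) :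
    (volume (closedBall x r)).toReal = r ^ d * om d := by
  rw [Measure.addHaar_closedBall _ _ hr, ENNReal.toReal_mul, ENNReal.toReal_ofReal (by positivity)]
  simp [om, finrank_euclideanSpace]

/-- one scale -/
lemma osc_one {g : Eu d → ℝ} (hg : Continuous g) (h0 : ∀ y : Eu d, 1 < ‖y‖ → g y = 0)
    {L : ℝ} (hL : ∀ x y : Eu d, |g x - g y| ≤ L * ‖x - y‖)
    {w : Eu d → ℝ} (hw : Measurable w) (hw1 : ∀ x, |w x| ≤ 1) {y y' : Eu d} {t : ℝ} :
    |(∫ x, w x * sc g d t (y - x)) - ∫ x, w x * sc g d t (y' - x)| ≤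
      2 * L * om d * Real.exp t * ‖y - y'‖ := by
  have hcont : ∀ y : Eu d, Continuous fun x => sc g d t (y - x) := fun y =>
    (sc_continuous hg (d:ℝ)).comp ((continuous_const.sub continuous_id).prodMk continuous_const)
  have hL0 : 0 ≤ L * ‖y - y'‖ := (abs_nonneg _).trans (hL y y')
  have hsupp : ∀ y x : Eu d, x ∉ closedBall y (Real.exp (-t)) → sc g d t (y - x) = 0 := by
    intro y x hx
    rw [mem_closedBall, dist_eq_norm, norm_sub_rev, not_le] at hx
    refine sc_zero h0 ?_
    have : Real.exp t * Real.exp (-t) = 1 := by rw [← Real.exp_add]; simp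
    have h2 := mul_lt_mul_of_pos_left hx (Real.exp_pos t)
    rwa [this] at h2
  have hint : ∀ y : Eu d, Integrable fun x => w x * sc g d t (y - x) := by
    intro y
    refine Integrable.bdd_mul (c := 1) ?_ hw.aestronglyMeasurable
      (Eventually.of_forall fun p => by simpa using hw1 p)
    exact (hcont y).integrable_of_hasCompactSupport
      (HasCompactSupport.intro (isCompact_closedBall y (Real.exp (-t))) (hsupp y))
  rw [← integral_sub (hint y) (hint y')]
  set S : Set (Eu d) := closedBall y (Real.exp (-t)) ∪ closedBall y' (Real.exp (-t)) with hS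
  have hSm : MeasurableSet S := measurableSet_closedBall.union measurableSet_closedBall
  have hSf : volume S < ⊤ := (measure_union_le _ _).trans_lt
    (ENNReal.add_lt_top.2 ⟨measure_closedBall_lt_top, measure_closedBall_lt_top⟩)
  have h1 : ∫ x, (w x * sc g d t (y - x) - w x * sc g d t (y' - x)) =
      ∫ x in S, (w x * sc g d t (y - x) - w x * sc g d t (y' - x)) := by
    rw [setIntegral_eq_integral_of_forall_compl_eq_zero]
    intro x hx
    rw [hS, mem_union, not_or] at hx
    rw [hsupp y x hx.1, hsupp y' x hx.2]; ring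
  rw [h1]
  have h2 : ‖∫ x in S, (w x * sc g d t (y - x) - w x * sc g d t (y' - x))‖ ≤
      (Real.exp (d * t) * (L * (Real.exp t * ‖y - y'‖))) * (volume S).toReal := by
    refine norm_setIntegral_le_of_norm_le_const hSf fun x _ => ?_
    rw [← mul_sub, norm_mul, Real.norm_eq_abs, Real.norm_eq_abs]
    have h3 : |sc g d t (y - x) - sc g d t (y' - x)| ≤
        Real.exp (d * t) * (L * (Real.exp t * ‖y - y'‖)) := by
      unfold sc
      rw [← mul_sub, abs_mul, abs_of_pos (Real.exp_pos _)]
      refine mul_le_mul_of_nonneg_left ?_ (Real.exp_pos _).le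
      refine (hL _ _).trans_eq ?_
      rw [← smul_sub, norm_smul, Real.norm_eq_abs, abs_of_pos (Real.exp_pos t)]
      congr 3
      abel
    calc |w x| * |sc g d t (y - x) - sc g d t (y' - x)|
        ≤ 1 * (Real.exp (d * t) * (L * (Real.exp t * ‖y - y'‖))) :=
          mul_le_mul (hw1 x) h3 (abs_nonneg _) zero_le_one
      _ = _ := one_mul _
  have h4 : (volume S).toReal ≤ 2 * (Real.exp (-t) ^ d * om d) := by
    calc (volume S).toReal ≤ (volume (closedBall y (Real.exp (-t))) +
          volume (closedBall y' (Real.exp (-t)))).toReal :=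
          ENNReal.toReal_mono (by
            exact ENNReal.add_ne_top.2 ⟨measure_closedBall_lt_top.ne, measure_closedBall_lt_top.ne⟩)
            (measure_union_le _ _)
      _ = _ := by
          rw [ENNReal.toReal_add measure_closedBall_lt_top.ne measure_closedBall_lt_top.ne,
            vol_closedBall _ (Real.exp_pos _).le, vol_closedBall _ (Real.exp_pos _).le]
          ring
  rw [Real.norm_eq_abs] at h2
  refine h2.trans ?_
  have h5 : 0 ≤ Real.exp (d * t) * (L * (Real.exp t * ‖y - y'‖)) := by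
    have : L * (Real.exp t * ‖y - y'‖) = Real.exp t * (L * ‖y - y'‖) := by ring
    rw [this]; positivity
  refine (mul_le_mul_of_nonneg_left h4 h5).trans_eq ?_
  have h6 : Real.exp (d * t) * Real.exp (-t) ^ d = 1 := by
    rw [← Real.exp_nat_mul, ← Real.exp_add]
    have : (d:ℝ) * t + d * -t = 0 := by ring
    rw [this, Real.exp_zero]
  calc Real.exp (d * t) * (L * (Real.exp t * ‖y - y'‖)) * (2 * (Real.exp (-t) ^ d * om d))
      = (Real.exp (d * t) * Real.exp (-t) ^ d) * (2 * L * om d * Real.exp t * ‖y - y'‖) := by ring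
    _ = _ := by rw [h6, one_mul]

/-- **oscillation away from the support** -/
lemma osc_SI {g : Eu d → ℝ} (hg : Continuous g) (h0 : ∀ y : Eu d, 1 < ‖y‖ → g y = 0)
    {L : ℝ} (hL0 : 0 ≤ L) (hL : ∀ x y : Eu d, |g x - g y| ≤ L * ‖x - y‖)
    {w : Eu d → ℝ} (hw : Measurable w) (hw1 : ∀ x, |w x| ≤ 1) {y y' : Eu d} {r T : ℝ} (hr : 0 < r)
    (hT : 0 ≤ T) (hy : ∀ x, w x ≠ 0 → r ≤ ‖y - x‖) (hy' : ∀ x, w x ≠ 0 → r ≤ ‖y' - x‖) :
    |(∫ x, w x * SI g d T (y - x)) - ∫ x, w x * SI g d T (y' - x)| ≤
      2 * L * om d * ‖y - y'‖ / r := by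
  rw [conv_SI hg h0 hT hw hw1, conv_SI hg h0 hT hw hw1]
  set W : Eu d → ℝ → ℝ := fun y t => ∫ x, w x * sc g d t (y - x) with hW
  -- for large `t` the integrand vanishes
  have hz : ∀ y : Eu d, (∀ x, w x ≠ 0 → r ≤ ‖y - x‖) → ∀ t, 1 < Real.exp t * r → W y t = 0 := by
    intro y hy t ht
    rw [hW]
    simp only
    rw [integral_eq_zero_of_ae]
    refine Eventually.of_forall fun x => ?_
    simp only [Pi.zero_apply, mul_eq_zero]
    by_cases h : w x = 0
    · exact Or.inl h
    · refine Or.inr (sc_zero h0 ?_)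
      have := mul_le_mul_of_nonneg_left (hy x h) (Real.exp_pos t).le
      linarith
  have hbd : ∀ t, |W y t - W y' t| ≤ 2 * L * om d * Real.exp t * ‖y - y'‖ := fun t =>
    osc_one hg h0 hL hw hw1
  have hiv : ∀ y : Eu d, IntervalIntegrable (W y) volume 0 T := by
    intro y
    have hc : Continuous (fun p : Eu d × ℝ => sc g d p.2 (y - p.1)) :=
      (sc_continuous hg (d:ℝ)).comp ((continuous_const.sub continuous_fst).prodMk continuous_snd)
    have hint0 : Integrable (fun p : Eu d × ℝ => sc g d p.2 (y - p.1))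
        ((volume : Measure (Eu d)).prod ((volume : Measure ℝ).restrict (Ioc 0 T))) := by
      refine integrable_prod (R := 1 + ‖y‖) hc fun z t ht hz => ?_
      have h1 : 1 ≤ Real.exp t := Real.one_le_exp ht.1
      have h2 : 1 < ‖y - z‖ := by
        have := norm_sub_norm_le z y
        rw [norm_sub_rev] at this
        linarith
      exact sc_zero h0 (by nlinarith)
    have hint : Integrable (fun p : Eu d × ℝ => w p.1 * sc g d p.2 (y - p.1))
        ((volume : Measure (Eu d)).prod ((volume : Measure ℝ).restrict (Ioc 0 T))) := by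
      refine hint0.bdd_mul (c := 1) (hw.comp measurable_fst).aestronglyMeasurable ?_
      exact Eventually.of_forall fun p => by simpa using hw1 p.1
    rw [intervalIntegrable_iff_integrableOn_Ioc_of_le hT]
    exact hint.integral_prod_right
  rw [← intervalIntegral.integral_sub (hiv y) (hiv y')]
  have hK0 : 0 ≤ 2 * L * om d * ‖y - y'‖ := by
    have := @om_nonneg d
    positivity
  -- cut at `ln (1/r)`
  set τ : ℝ := max 0 (min T (-Real.log r)) with hτ
  have hτ0 : 0 ≤ τ := le_max_left _ _
  have hτT : τ ≤ T := max_le hT (min_le_left _ _)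
  have hsub : ∀ a b, 0 ≤ a → a ≤ b → b ≤ T → IntervalIntegrable (fun t => W y t - W y' t) volume a b := by
    intro a b ha hab hb
    refine ((hiv y).sub (hiv y')).mono_set ?_
    rw [uIcc_of_le hab, uIcc_of_le hT]
    exact Icc_subset_Icc ha hb
  have hsplit : ∫ t in (0:ℝ)..T, (W y t - W y' t) = (∫ t in (0:ℝ)..τ, (W y t - W y' t)) +
      ∫ t in τ..T, (W y t - W y' t) :=
    (intervalIntegral.integral_add_adjacent_intervals (hsub 0 τ le_rfl hτ0 hτT)
      (hsub τ T hτ0 hτT le_rfl)).symm
  have hsec : ∫ t in τ..T, (W y t - W y' t) = 0 := by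
    rw [intervalIntegral.integral_of_le hτT]
    refine setIntegral_eq_zero_of_forall_eq_zero fun t ht => ?_
    have h1 : τ < t := ht.1
    have h2 : -Real.log r < t := by
      by_contra hcon
      push Not at hcon
      have h3 : min T (-Real.log r) ≤ τ := le_max_right _ _
      rcases min_le_iff.1 h3 with h | h
      · linarith [ht.2]
      · linarith
    have h3 : 1 < Real.exp t * r := by
      have h4 : Real.exp (-Real.log r) < Real.exp t := Real.exp_lt_exp.2 h2
      rw [Real.exp_neg, Real.exp_log hr] at h4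
      have h5 := mul_lt_mul_of_pos_right h4 hr
      rwa [inv_mul_cancel₀ hr.ne'] at h5
    rw [hz y hy t h3, hz y' hy' t h3, sub_zero]
  rw [hsplit, hsec, add_zero]
  have h7 : |∫ t in (0:ℝ)..τ, (W y t - W y' t)| ≤
      ∫ t in (0:ℝ)..τ, 2 * L * om d * Real.exp t * ‖y - y'‖ := by
    have h8 := intervalIntegral.norm_integral_le_of_norm_le (f := fun t => W y t - W y' t)
      (g := fun t => 2 * L * om d * Real.exp t * ‖y - y'‖) (μ := volume) hτ0
      (Eventually.of_forall fun t _ => hbd t)
      (Continuous.intervalIntegrable (by fun_prop) _ _)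
    simpa using h8
  refine h7.trans ?_
  have h9 : ∫ t in (0:ℝ)..τ, 2 * L * om d * Real.exp t * ‖y - y'‖ =
      2 * L * om d * ‖y - y'‖ * (Real.exp τ - 1) := by
    have : ∀ t, 2 * L * om d * Real.exp t * ‖y - y'‖ = (2 * L * om d * ‖y - y'‖) * Real.exp t := by
      intro t; ring
    simp_rw [this]
    rw [intervalIntegral.integral_const_mul, integral_exp, Real.exp_zero]
  rw [h9, div_eq_mul_inv]
  refine mul_le_mul_of_nonneg_left ?_ hK0
  rcases le_total (min T (-Real.log r)) 0 with h | h
  · rw [hτ, max_eq_left h, Real.exp_zero, sub_self]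
    positivity
  · rw [hτ, max_eq_right h]
    have h10 : Real.exp (min T (-Real.log r)) ≤ r⁻¹ := by
      calc Real.exp (min T (-Real.log r)) ≤ Real.exp (-Real.log r) :=
            Real.exp_le_exp.2 (min_le_right _ _)
        _ = r⁻¹ := by rw [Real.exp_neg, Real.exp_log hr]
    linarith

end

end Crest.Agent.R234.Sc173
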