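import Mathlib
import Crest.Agent.R234.Sp3_643

-- ▼ part R234/Ovl1_201
section

/-!
# R234 / Ovl1_201 : bounded overlap, transfer, entropy ((7)(ii), (7)(iv) of #5124; task 1308)

`ε` a finite measure on a second countable metric space.
* `ovl` : `∫_S dε(x) / ε(B_r(x)) ≤ 1` for `S` of diameter `≤ r`;
* `transfer` : the set of points in whose ball a fraction `≥ δ` is bad has measure
  `≤ (N / δ) ε(bad)`;
* `entropy` : `∫ log (ε(B_s(x)) / ε(B_r(x))) dε ≤ ∑_i ε(τ = i) log N_i + ε(X) log p`.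
-/

set_option linter.unusedSectionVars false

namespace Crest.Agent.R234.Ovl_201

open MeasureTheory Set Filter Metric
open scoped Topology ENNReal

variable {X : Type*} [PseudoMetricSpace X] [SecondCountableTopology X] [MeasurableSpace X]
  [BorelSpace X]

/-- `T` is covered by `N` sets of diameter `≤ r` -/
def Cov (N : ℕ) (r : ℝ) (T : Set X) : Prop :=
  ∃ S : Fin N → Set X, (∀ j, ∀ x ∈ S j, ∀ y ∈ S j, dist x y ≤ r) ∧ T ⊆ ⋃ j, S j

theorem Cov.mono {N : ℕ} {r : ℝ} {T T' : Set X} (h : Cov N r T) (hT : T' ⊆ T) : Cov N r T' := by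
  obtain ⟨S, h1, h2⟩ := h
  exact ⟨S, h1, hT.trans h2⟩


theorem Cov.mono_N {N N' : ℕ} {r : ℝ} {T : Set X} (h : Cov N r T) (hN : N ≤ N') :
    Cov N' r T := by
  obtain ⟨S, h1, h2⟩ := h
  refine ⟨fun j => if hj : j.1 < N then S ⟨j.1, hj⟩ else ∅, fun j x hx y hy => ?_, fun x hx => ?_⟩
  · by_cases hj : j.1 < N
    · simp only [hj, dif_pos] at hx hy
      exact h1 _ x hx y hy
    · simp [hj] at hx
  · obtain ⟨j, hj⟩ := mem_iUnion.1 (h2 hx)
    refine mem_iUnion.2 ⟨⟨j.1, j.2.trans_le hN⟩, ?_⟩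
    simpa using hj


variable (ε : Measure X)

/-- **bounded overlap** for one small set -/
theorem ovl {r : ℝ} {S : Set X} (hS : MeasurableSet S) (hd : ∀ x ∈ S, ∀ y ∈ S, dist x y ≤ r) :
    ∫⁻ x in S, (ε (closedBall x r))⁻¹ ∂ε ≤ 1 := by
  calc ∫⁻ x in S, (ε (closedBall x r))⁻¹ ∂ε ≤ ∫⁻ _ in S, (ε S)⁻¹ ∂ε := by
        apply setLIntegral_mono' hS
        intro x hx
        apply ENNReal.inv_le_inv.2
        apply measure_mono
        intro y hy
        exact hd y hy x hx
    _ = (ε S)⁻¹ * ε S := by rw [lintegral_const, Measure.restrict_apply MeasurableSet.univ,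
        univ_inter]
    _ ≤ 1 := ENNReal.inv_mul_le_one _

/-- bounded overlap for a set covered by `N` small sets -/
theorem ovl_cov {r : ℝ} {N : ℕ} {T : Set X} (hT : Cov N r T) :
    ∫⁻ x in T, (ε (closedBall x r))⁻¹ ∂ε ≤ N := by
  obtain ⟨S, h1, h2⟩ := hT
  calc ∫⁻ x in T, (ε (closedBall x r))⁻¹ ∂ε
      ≤ ∫⁻ x in ⋃ j, closure (S j), (ε (closedBall x r))⁻¹ ∂ε :=
        lintegral_mono_set (h2.trans (iUnion_mono fun j => subset_closure))
    _ ≤ ∑' j, ∫⁻ x in closure (S j), (ε (closedBall x r))⁻¹ ∂ε := lintegral_iUnion_le _ _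
    _ ≤ ∑' _ : Fin N, 1 := by
        apply ENNReal.tsum_le_tsum
        intro j
        apply ovl ε isClosed_closure.measurableSet
        intro x hx y hy
        have : ∀ x ∈ closure (S j), ∀ y ∈ S j, dist x y ≤ r := by
          intro x hx y hy
          have hc : IsClosed {z : X | dist z y ≤ r} := isClosed_le (by fun_prop) (by fun_prop)
          exact (closure_minimal (fun z hz => h1 j z hz y hy) hc) hx
        have hc : IsClosed {z : X | dist x z ≤ r} := isClosed_le (by fun_prop) (by fun_prop)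
        exact (closure_minimal (fun z hz => this x hx z hz) hc) hy
    _ = N := by simp

theorem meas_cb [SFinite ε] (r : ℝ) : Measurable fun x : X => ε (closedBall x r) := by
  have h : MeasurableSet {p : X × X | dist p.2 p.1 ≤ r} :=
    (isClosed_le (by fun_prop) (by fun_prop)).measurableSet
  have := measurable_measure_prodMk_left (ν := ε) h
  exact this

/-- almost every point has positive measure balls -/
theorem ae_pos {r : ℝ} (hr : 0 < r) : ∀ᵐ x ∂ε, ε (closedBall x r) ≠ 0 := by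
  rw [ae_iff]
  simp only [ne_eq, not_not]
  apply measure_null_of_locally_null
  intro x hx
  exact ⟨closedBall x r, mem_nhdsWithin_of_mem_nhds (closedBall_mem_nhds x hr), hx⟩

/-- Tonelli: `∫_B ε(T ∩ B_s(x)) g(x) dε = ∫_T ∫_{B_s(y)} g dε` -/
theorem tonelli [SFinite ε] {s : ℝ} {T : Set X} (hT : MeasurableSet T) {g : X → ℝ≥0∞}
    (hg : Measurable g) :
    ∫⁻ x, ε (T ∩ closedBall x s) * g x ∂ε = ∫⁻ y in T, ∫⁻ x in closedBall y s, g x ∂ε ∂ε := by
  have hD : MeasurableSet {p : X × X | dist p.2 p.1 ≤ s} :=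
    (isClosed_le (by fun_prop) (by fun_prop)).measurableSet
  set F : X → X → ℝ≥0∞ := fun x y => T.indicator 1 y *
    ({p : X × X | dist p.2 p.1 ≤ s}.indicator 1 (x, y) * g x) with hF
  have hFm : Measurable (Function.uncurry F) := by
    simp only [hF]
    apply Measurable.mul
    · exact (measurable_one.indicator hT).comp measurable_snd
    · apply Measurable.mul
      · exact measurable_one.indicator hD
      · exact hg.comp measurable_fst
  have h1 : ∀ x, ε (T ∩ closedBall x s) * g x = ∫⁻ y, F x y ∂ε := by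
    intro x
    have e1 : ∀ y, F x y = (T ∩ closedBall x s).indicator (fun _ => g x) y := by
      intro y
      simp only [hF]
      by_cases hy : y ∈ T <;> by_cases hy' : dist y x ≤ s <;>
        simp [indicator, hy, hy', mem_closedBall]
    simp_rw [e1]
    rw [lintegral_indicator (hT.inter measurableSet_closedBall), lintegral_const,
      Measure.restrict_apply MeasurableSet.univ, univ_inter, mul_comm]
  have h2 : ∀ y, ∫⁻ x, F x y ∂ε = T.indicator (fun y => ∫⁻ x in closedBall y s, g x ∂ε) y := by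
    intro y
    by_cases hy : y ∈ T
    · rw [indicator_of_mem hy, ← lintegral_indicator measurableSet_closedBall]
      apply lintegral_congr
      intro x
      simp only [hF]
      by_cases hy' : dist y x ≤ s
      · have : x ∈ closedBall y s := by rw [mem_closedBall, dist_comm]; exact hy'
        simp [indicator, hy, hy', this]
      · have : x ∉ closedBall y s := by rw [mem_closedBall, dist_comm]; exact hy'
        simp [indicator, hy, hy', this]
    · rw [indicator_of_notMem hy]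
      simp [hF, hy]
  simp_rw [h1]
  rw [lintegral_lintegral_swap hFm.aemeasurable]
  simp_rw [h2]
  rw [lintegral_indicator hT]



/-! ### entropy -/

theorem log_le_mul {t A : ℝ} (ht : 0 < t) (hA : 0 < A) : Real.log t ≤ Real.log A + t / A - 1 := by
  have := Real.log_le_sub_one_of_pos (div_pos ht hA)
  rw [Real.log_div ht.ne' hA.ne'] at this
  linarith

/-- the ratio `ε(B_s(x)) / ε(B_r(x))` -/
noncomputable def rat (r s : ℝ) (x : X) : ℝ :=
  (ε (closedBall x s) * (ε (closedBall x r))⁻¹).toReal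


theorem rat_meas [SFinite ε] (r s : ℝ) : Measurable (rat ε r s) :=
  ((meas_cb ε s).mul (meas_cb ε r).inv).ennreal_toReal

theorem rat_eq [IsFiniteMeasure ε] (r s : ℝ) (x : X) :
    rat ε r s x = ε.real (closedBall x s) / ε.real (closedBall x r) := by
  simp [rat, Measure.real, ENNReal.toReal_mul, ENNReal.toReal_inv, div_eq_mul_inv]

theorem tint [SFinite ε] {r s : ℝ} {N : ℕ} {T : Set X} (hT : MeasurableSet T)
    (hN : ∀ y : X, Cov N r (closedBall y s ∩ T)) :
    ∫⁻ x in T, ε (closedBall x s) * (ε (closedBall x r))⁻¹ ∂ε ≤ N * ε univ := by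
  have h1 := tonelli ε (s := s) (T := univ) MeasurableSet.univ
    (g := T.indicator fun x => (ε (closedBall x r))⁻¹) ((meas_cb ε r).inv.indicator hT)
  rw [← lintegral_indicator hT]
  have h2 : ∀ x, T.indicator (fun x => ε (closedBall x s) * (ε (closedBall x r))⁻¹) x
      = ε (univ ∩ closedBall x s) * (T.indicator (fun x => (ε (closedBall x r))⁻¹) x) := by
    intro x
    by_cases hx : x ∈ T <;> simp [hx]
  simp_rw [h2]
  rw [h1, Measure.restrict_univ]
  calc ∫⁻ y, ∫⁻ x in closedBall y s, T.indicator (fun x => (ε (closedBall x r))⁻¹) x ∂ε ∂ε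
      ≤ ∫⁻ _, (N : ℝ≥0∞) ∂ε := by
        apply lintegral_mono
        intro y
        show ∫⁻ x in closedBall y s, T.indicator (fun x => (ε (closedBall x r))⁻¹) x ∂ε ≤ N
        rw [lintegral_indicator hT, Measure.restrict_restrict hT, inter_comm]
        exact ovl_cov ε (hN y)
    _ = N * ε univ := by rw [lintegral_const]

theorem rat_int [IsFiniteMeasure ε] {r s : ℝ} {N : ℕ} {T : Set X} (hT : MeasurableSet T)
    (hN : ∀ y : X, Cov N r (closedBall y s ∩ T)) :
    IntegrableOn (rat ε r s) T ε ∧ ∫ x in T, rat ε r s x ∂ε ≤ N * ε.real univ := by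
  have h1 := tint ε hT hN
  have hlt : (N : ℝ≥0∞) * ε univ < ⊤ := ENNReal.mul_lt_top (by simp) (measure_lt_top _ _)
  have hm := (meas_cb ε s).mul (meas_cb ε r).inv
  refine ⟨integrable_toReal_of_lintegral_ne_top hm.aemeasurable (h1.trans_lt hlt).ne, ?_⟩
  have h2 : ∫ x in T, rat ε r s x ∂ε
      = (∫⁻ x in T, ε (closedBall x s) * (ε (closedBall x r))⁻¹ ∂ε).toReal := by
    apply integral_toReal hm.aemeasurable
    exact ae_lt_top hm (h1.trans_lt hlt).ne
  rw [h2]
  have := ENNReal.toReal_mono hlt.ne h1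
  rwa [ENNReal.toReal_mul, ENNReal.toReal_natCast] at this

variable [IsFiniteMeasure ε]

theorem rat_pos {r s : ℝ} (hr : 0 < r) (hrs : r ≤ s) : ∀ᵐ x ∂ε, 1 ≤ rat ε r s x := by
  filter_upwards [ae_pos ε hr] with x hx
  have h0 : 0 < ε.real (closedBall x r) := ENNReal.toReal_pos hx (measure_ne_top _ _)
  rw [rat_eq, le_div_iff₀ h0, one_mul]
  exact measureReal_mono (closedBall_subset_closedBall hrs)

/-- **entropy inequality** -/
theorem entropy {r s : ℝ} (hr : 0 < r) (hrs : r ≤ s) {p : ℕ} (τ : X → Fin p) (hτ : Measurable τ)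
    (N : Fin p → ℕ) (hN0 : ∀ i, 0 < N i)
    (hN : ∀ i, ∀ y : X, Cov (N i) r (closedBall y s ∩ τ ⁻¹' {i})) :
    Integrable (fun x => Real.log (rat ε r s x)) ε ∧
    ∫ x, Real.log (rat ε r s x) ∂ε
      ≤ ∑ i, ε.real (τ ⁻¹' {i}) * Real.log (N i) + ε.real univ * Real.log p := by
  have hT : ∀ i, MeasurableSet (τ ⁻¹' {i}) := fun i => hτ (measurableSet_singleton i)
  have hi : ∀ i, IntegrableOn (rat ε r s) (τ ⁻¹' {i}) ε := fun i => (rat_int ε (hT i) (hN i)).1
  have hb : ∀ i, ∫ x in τ ⁻¹' {i}, rat ε r s x ∂ε ≤ N i * ε.real univ :=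
    fun i => (rat_int ε (hT i) (hN i)).2
  rcases isEmpty_or_nonempty X with hX | ⟨⟨x0⟩⟩
  · have : ε = 0 := Measure.eq_zero_of_isEmpty ε
    subst this
    simp
  have hp : 0 < p := lt_of_le_of_lt (Nat.zero_le _) (τ x0).2
  have hpr : (0 : ℝ) < p := by exact_mod_cast hp
  have hNr : ∀ i, (0 : ℝ) < N i := fun i => by exact_mod_cast hN0 i
  set g : X → ℝ := fun x => ∑ i, (τ ⁻¹' {i}).indicator
    (fun x => Real.log (p * N i) - 1 + rat ε r s x / (p * N i)) x with hg
  have hgii : ∀ i, Integrable ((τ ⁻¹' {i}).indicator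
      (fun x => Real.log (p * N i) - 1 + rat ε r s x / (p * N i))) ε := by
    intro i
    apply IntegrableOn.integrable_indicator _ (hT i)
    exact (integrable_const _).add ((hi i).div_const _)
  have hgi : Integrable g ε := by
    apply integrable_finsetSum
    intro i _
    exact hgii i
  have hle : ∀ᵐ x ∂ε, Real.log (rat ε r s x) ≤ g x := by
    filter_upwards [rat_pos ε hr hrs] with x hx
    have h1 : g x = Real.log (p * N (τ x)) - 1 + rat ε r s x / (p * N (τ x)) := by
      simp only [hg]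
      rw [Finset.sum_eq_single (τ x)]
      · simp
      · intro i _ hi'
        apply indicator_of_notMem
        simp only [mem_preimage, mem_singleton_iff]
        exact fun h => hi' h.symm
      · intro h; exact absurd (Finset.mem_univ _) h
    rw [h1]
    have := log_le_mul (t := rat ε r s x) (A := p * N (τ x)) (by linarith)
      (mul_pos hpr (hNr _))
    linarith
  have hnn : ∀ᵐ x ∂ε, 0 ≤ Real.log (rat ε r s x) := by
    filter_upwards [rat_pos ε hr hrs] with x hx using Real.log_nonneg hx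
  have hint : Integrable (fun x => Real.log (rat ε r s x)) ε := by
    refine hgi.mono' (Real.measurable_log.comp (rat_meas ε r s)).aestronglyMeasurable ?_
    filter_upwards [hle, hnn] with x h1 h2
    rw [Real.norm_eq_abs, abs_of_nonneg h2]
    exact h1
  refine ⟨hint, (integral_mono_ae hint hgi hle).trans ?_⟩
  simp only [hg]
  rw [integral_finsetSum _ fun i _ => hgii i]
  have h3 : ∀ i, ∫ x, (τ ⁻¹' {i}).indicator
      (fun x => Real.log (p * N i) - 1 + rat ε r s x / (p * N i)) x ∂ε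
      ≤ ε.real (τ ⁻¹' {i}) * (Real.log (p * N i) - 1) + ε.real univ / p := by
    intro i
    rw [integral_indicator (hT i), integral_add (integrable_const _).integrableOn
      ((hi i).div_const _), integral_div]
    simp only [integral_const, smul_eq_mul, measureReal_restrict_apply_univ]
    have h4 : (∫ x in τ ⁻¹' {i}, rat ε r s x ∂ε) / (p * N i) ≤ ε.real univ / p := by
      rw [div_le_div_iff₀ (mul_pos hpr (hNr i)) hpr]
      nlinarith [hb i, hNr i, mul_le_mul_of_nonneg_right (hb i) hpr.le]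
    linarith
  refine (Finset.sum_le_sum fun i _ => h3 i).trans ?_
  rw [Finset.sum_add_distrib]
  have h5 : ∑ i : Fin p, ε.real (τ ⁻¹' {i}) = ε.real univ := by
    rw [← measureReal_biUnion_finset]
    · congr 1
      ext x
      simp
    · intro i _ j _ hij
      exact Disjoint.preimage _ (by simpa using hij)
    · intro i _; exact hT i
  have h6 : ∑ _i : Fin p, ε.real univ / p = ε.real univ := by
    rw [Finset.sum_const, Finset.card_univ, Fintype.card_fin, nsmul_eq_mul]
    field_simp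
  have h7 : ∑ i, ε.real (τ ⁻¹' {i}) * (Real.log (p * N i) - 1)
      = ∑ i, ε.real (τ ⁻¹' {i}) * Real.log (N i) + ε.real univ * Real.log p - ε.real univ := by
    have : ∀ i, ε.real (τ ⁻¹' {i}) * (Real.log (p * N i) - 1)
        = ε.real (τ ⁻¹' {i}) * Real.log (N i) + ε.real (τ ⁻¹' {i}) * Real.log p
          - ε.real (τ ⁻¹' {i}) := by
      intro i
      rw [Real.log_mul hpr.ne' (hNr i).ne']
      ring
    simp_rw [this]
    rw [Finset.sum_sub_distrib, Finset.sum_add_distrib, ← Finset.sum_mul, h5]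
  rw [h6, h7]
  linarith

/-- telescoping of the ratios -/
theorem rat_mul {r s t : ℝ} (hr : 0 < r) (hs : 0 < s) (_ht : 0 < t) :
    ∀ᵐ x ∂ε, rat ε r t x = rat ε r s x * rat ε s t x := by
  filter_upwards [ae_pos ε hr, ae_pos ε hs] with x h1 h2
  rw [rat_eq, rat_eq, rat_eq]
  have := ENNReal.toReal_pos h2 (measure_ne_top _ _)
  have h3 : ε.real (closedBall x s) ≠ 0 := this.ne'
  field_simp

end Crest.Agent.R234.Ovl_201
end

-- ▼ part R234/Ent1_201
section

/-!
# R234 / Ent1_201 : counting of scales ((7)(iv) of #5124; task 1308) and covering numbers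

* `tele` : `∫ log (ε(B_{s_K}) / ε(B_{s_0})) dε ≤ ∑_k (∑_i ε(τ_k = i) log N_{k,i} + ε(X) log p)`;
* `count` : three types (thin / plane / rest);
* `cov_near` : the part of a ball of radius `R` near a `j`-plane is covered by
  `(⌊16 R (j+1) / ρ⌋ + 1)^j` sets of diameter `≤ ρ`.
-/

set_option linter.unusedSectionVars false

namespace Crest.Agent.R234.Ovl_201

open MeasureTheory Set Filter Metric
open scoped Topology ENNReal

section count
variable {X : Type*} [PseudoMetricSpace X] [SecondCountableTopology X] [MeasurableSpace X]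
  [BorelSpace X] (ε : Measure X) [IsFiniteMeasure ε]

theorem tele {p : ℕ} (s : ℕ → ℝ) (hs : ∀ k, 0 < s k) (hmono : ∀ k, s k ≤ s (k + 1))
    (τ : ℕ → X → Fin p) (hτ : ∀ k, Measurable (τ k)) (N : ℕ → Fin p → ℕ)
    (hN0 : ∀ k i, 0 < N k i)
    (hN : ∀ k i, ∀ y : X, Cov (N k i) (s k) (closedBall y (s (k + 1)) ∩ τ k ⁻¹' {i})) (K : ℕ) :
    Integrable (fun x => Real.log (rat ε (s 0) (s K) x)) ε ∧
    ∫ x, Real.log (rat ε (s 0) (s K) x) ∂ε
      ≤ ∑ k ∈ Finset.range K,
        (∑ i, ε.real (τ k ⁻¹' {i}) * Real.log (N k i) + ε.real univ * Real.log p) := by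
  have hm : Monotone s := monotone_nat_of_le_succ hmono
  induction K with
  | zero =>
    have h1 : ∀ᵐ x ∂ε, Real.log (rat ε (s 0) (s 0) x) = 0 := by
      filter_upwards [ae_pos ε (hs 0)] with x hx
      have h0 : 0 < ε.real (closedBall x (s 0)) := ENNReal.toReal_pos hx (measure_ne_top _ _)
      rw [rat_eq, div_self h0.ne', Real.log_one]
    refine ⟨(integrable_zero _ _ _).congr (by
      filter_upwards [h1] with x hx; simp [hx]), ?_⟩
    rw [integral_congr_ae (g := fun _ => 0) h1]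
    simp
  | succ K ih =>
    have h2 := entropy ε (hs K) (hmono K) (τ K) (hτ K) (N K) (hN0 K) (hN K)
    have h3 : ∀ᵐ x ∂ε, Real.log (rat ε (s 0) (s (K + 1)) x)
        = Real.log (rat ε (s 0) (s K) x) + Real.log (rat ε (s K) (s (K + 1)) x) := by
      filter_upwards [rat_mul ε (hs 0) (hs K) (hs (K + 1)), rat_pos ε (hs 0) (hm (Nat.zero_le K)),
        rat_pos ε (hs K) (hmono K)] with x h1 h2 h3
      rw [h1, Real.log_mul (by linarith) (by linarith)]
    refine ⟨(ih.1.add h2.1).congr (by filter_upwards [h3] with x hx; simp [hx]), ?_⟩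
    rw [integral_congr_ae h3, integral_add ih.1 h2.1, Finset.sum_range_succ]
    exact add_le_add ih.2 h2.2

/-- lower bound of the telescoped integral from a pointwise one -/
theorem low_of {r s H : ℝ} (hi : Integrable (fun x => Real.log (rat ε r s x)) ε)
    (h : ∀ᵐ x ∂ε, Real.exp H ≤ rat ε r s x) :
    H * ε.real univ ≤ ∫ x, Real.log (rat ε r s x) ∂ε := by
  have h1 : ∫ _, H ∂ε ≤ ∫ x, Real.log (rat ε r s x) ∂ε := by
    apply integral_mono_ae (integrable_const _) hi
    filter_upwards [h] with x hx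
    rw [Real.le_log_iff_exp_le ((Real.exp_pos _).trans_le hx)]
    exact hx
  rw [integral_const, smul_eq_mul, mul_comm] at h1
  exact h1

/-- **(7)(iv)** : types `0` = thin, `1` = plane, `2` = rest -/
theorem count {J C0 d H : ℝ} (s : ℕ → ℝ) (hs : ∀ k, 0 < s k) (hmono : ∀ k, s k ≤ s (k + 1))
    (τ : ℕ → X → Fin 3) (hτ : ∀ k, Measurable (τ k)) (N : ℕ → Fin 3 → ℕ)
    (hN0 : ∀ k i, 0 < N k i)
    (hN : ∀ k i, ∀ y : X, Cov (N k i) (s k) (closedBall y (s (k + 1)) ∩ τ k ⁻¹' {i})) (K : ℕ)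
    (h0 : ∀ k, Real.log (N k 0) ≤ (d - 1) * J + C0) (h1 : ∀ k, Real.log (N k 1) ≤ d * J + C0)
    (h2 : ∀ k, Real.log (N k 2) ≤ (d + 2) * J + C0)
    (hlow : ∀ᵐ x ∂ε, Real.exp (d * J * K - H) ≤ rat ε (s 0) (s K) x) :
    J * ∑ k ∈ Finset.range K, ε.real (τ k ⁻¹' {0})
      ≤ ((C0 + Real.log 3) * K + H) * ε.real univ
        + 2 * J * ∑ k ∈ Finset.range K, ε.real (τ k ⁻¹' {2}) := by
  obtain ⟨hi, hu⟩ := tele ε s hs hmono τ hτ N hN0 hN K
  have hl := low_of ε hi hlow
  have hk : ∀ k, ∑ i, ε.real (τ k ⁻¹' {i}) * Real.log (N k i) + ε.real univ * Real.log (3 : ℕ)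
      ≤ (d * J + C0 + Real.log 3) * ε.real univ - J * ε.real (τ k ⁻¹' {0})
        + 2 * J * ε.real (τ k ⁻¹' {2}) := by
    intro k
    have hsum : ∑ i : Fin 3, ε.real (τ k ⁻¹' {i}) = ε.real univ := by
      rw [← measureReal_biUnion_finset]
      · congr 1
        ext x
        simp
      · intro i _ j _ hij
        exact Disjoint.preimage _ (by simpa using hij)
      · intro i _; exact hτ k (measurableSet_singleton i)
    rw [Fin.sum_univ_three] at hsum ⊢
    have e0 : 0 ≤ ε.real (τ k ⁻¹' {0}) := measureReal_nonneg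
    have e1 : 0 ≤ ε.real (τ k ⁻¹' {1}) := measureReal_nonneg
    have e2 : 0 ≤ ε.real (τ k ⁻¹' {2}) := measureReal_nonneg
    have i0 := mul_le_mul_of_nonneg_left (h0 k) e0
    have i1 := mul_le_mul_of_nonneg_left (h1 k) e1
    have i2 := mul_le_mul_of_nonneg_left (h2 k) e2
    push_cast
    rw [← hsum]
    nlinarith
  have hS := hl.trans (hu.trans (Finset.sum_le_sum fun k _ => hk k))
  rw [Finset.sum_add_distrib, Finset.sum_sub_distrib, Finset.sum_const, Finset.card_range,
    nsmul_eq_mul] at hS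
  have e1 : ∑ k ∈ Finset.range K, J * ε.real (τ k ⁻¹' {0})
      = J * ∑ k ∈ Finset.range K, ε.real (τ k ⁻¹' {0}) := (Finset.mul_sum _ _ _).symm
  have e2 : ∑ k ∈ Finset.range K, 2 * J * ε.real (τ k ⁻¹' {2})
      = 2 * J * ∑ k ∈ Finset.range K, ε.real (τ k ⁻¹' {2}) := (Finset.mul_sum _ _ _).symm
  rw [e1, e2] at hS
  nlinarith

end count

section net
variable {E : Type*} [NormedAddCommGroup E] [InnerProductSpace ℝ E]

/-- covering of a bounded set of vectors of a `j`-dimensional subspace, through a map -/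
theorem cov_near {T : Set E} (W : Submodule ℝ E) [FiniteDimensional ℝ W] (a : E → E) {R ρ δ : ℝ}
    (hR : 0 ≤ R) (hρ : 0 < ρ) (hδ : 4 * δ ≤ ρ) (hδR : δ ≤ R) (y p : E)
    (hT : ∀ x ∈ T, dist x y ≤ R) (ha : ∀ x ∈ T, a x - p ∈ W) (hd : ∀ x ∈ T, dist x (a x) ≤ δ)
    {j : ℕ} (hj : Module.finrank ℝ W = j) :
    Cov ((⌊16 * R * (j + 1) / ρ⌋₊ + 1) ^ j) ρ T := by
  classical
  rcases T.eq_empty_or_nonempty with rfl | ⟨x0, hx0⟩
  · exact ⟨fun _ => ∅, by simp, by simp⟩
  set h : ℝ := ρ / (2 * (j + 1)) with hh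
  have hjp : (0 : ℝ) < j + 1 := by positivity
  have hh0 : 0 < h := by positivity
  set M : ℕ := ⌊16 * R * (j + 1) / ρ⌋₊ + 1 with hM
  -- coordinates
  set b := (stdOrthonormalBasis ℝ W).reindex (finCongr hj) with hb
  have hmem : ∀ x ∈ T, a x - a x0 ∈ W := by
    intro x hx
    have := W.sub_mem (ha x hx) (ha x0 hx0)
    simpa using this
  have hnorm : ∀ x ∈ T, ‖a x - a x0‖ ≤ 4 * R := by
    intro x hx
    rw [← dist_eq_norm]
    calc dist (a x) (a x0) ≤ dist (a x) x + dist x x0 + dist x0 (a x0) := dist_triangle4 _ _ _ _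
      _ ≤ δ + (R + R) + δ := by
          have h1 := hd x hx
          have h2 := hd x0 hx0
          have h3 : dist x x0 ≤ R + R := by
            calc dist x x0 ≤ dist x y + dist y x0 := dist_triangle _ _ _
              _ ≤ R + R := add_le_add (hT x hx) (by rw [dist_comm]; exact hT x0 hx0)
          rw [dist_comm] at h1
          linarith
      _ ≤ 4 * R := by linarith
  let c : E → Fin j → ℝ := fun x i =>
    if hx : x ∈ T then b.repr ⟨a x - a x0, hmem x hx⟩ i else 0
  have hc : ∀ x (hx : x ∈ T), ∀ i, c x i = b.repr ⟨a x - a x0, hmem x hx⟩ i := fun x hx i => by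
    simp only [c, dif_pos hx]
  have hcb : ∀ x ∈ T, ∀ i, |c x i| ≤ 4 * R := by
    intro x hx i
    rw [hc x hx i]
    have h1 : ‖b.repr ⟨a x - a x0, hmem x hx⟩ i‖ ≤ ‖b.repr ⟨a x - a x0, hmem x hx⟩‖ :=
      PiLp.norm_apply_le _ i
    rw [Real.norm_eq_abs, LinearIsometryEquiv.norm_map] at h1
    exact h1.trans (hnorm x hx)
  -- the cell index
  let q : E → Fin j → Fin M := fun x i =>
    ⟨min ⌊(c x i + 4 * R) / h⌋₊ (M - 1), by
      have : 0 < M := Nat.succ_pos _
      exact lt_of_le_of_lt (min_le_right _ _) (by lia)⟩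
  have hq : ∀ x ∈ T, ∀ i, (q x i : ℕ) = ⌊(c x i + 4 * R) / h⌋₊ := by
    intro x hx i
    show min ⌊(c x i + 4 * R) / h⌋₊ (M - 1) = _
    apply min_eq_left
    show _ ≤ ⌊16 * R * (j + 1) / ρ⌋₊ + 1 - 1
    rw [Nat.add_sub_cancel]
    apply Nat.floor_mono
    have h1 := (abs_le.1 (hcb x hx i)).2
    calc (c x i + 4 * R) / h ≤ (8 * R) / h := div_le_div_of_nonneg_right (by linarith) hh0.le
      _ = 16 * R * (j + 1) / ρ := by
          rw [hh]
          field_simp
          ring
  have hcard : Fintype.card (Fin j → Fin M) = M ^ j := by simp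
  let e := Fintype.equivFinOfCardEq hcard
  refine ⟨fun k => {x ∈ T | q x = e.symm k}, fun k x hx x' hx' => ?_, fun x hx =>
    mem_iUnion.2 ⟨e (q x), hx, by simp⟩⟩
  obtain ⟨hxT, hxq⟩ := hx
  obtain ⟨hxT', hxq'⟩ := hx'
  have hqq : q x = q x' := hxq.trans hxq'.symm
  have hci : ∀ i, |c x i - c x' i| ≤ h := by
    intro i
    have h1 : ⌊(c x i + 4 * R) / h⌋₊ = ⌊(c x' i + 4 * R) / h⌋₊ := by
      rw [← hq x hxT i, ← hq x' hxT' i, hqq]
    have p1 : 0 ≤ (c x i + 4 * R) / h :=
      div_nonneg (by have := (abs_le.1 (hcb x hxT i)).1; linarith) hh0.le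
    have p2 : 0 ≤ (c x' i + 4 * R) / h :=
      div_nonneg (by have := (abs_le.1 (hcb x' hxT' i)).1; linarith) hh0.le
    have a1 := Nat.floor_le p1
    have a2 := Nat.lt_floor_add_one ((c x i + 4 * R) / h)
    have a3 := Nat.floor_le p2
    have a4 := Nat.lt_floor_add_one ((c x' i + 4 * R) / h)
    rw [h1] at a1 a2
    have h2 : |(c x i + 4 * R) / h - (c x' i + 4 * R) / h| ≤ 1 := by
      rw [abs_le]; constructor <;> linarith
    have h3 : (c x i + 4 * R) / h - (c x' i + 4 * R) / h = (c x i - c x' i) / h := by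
      field_simp
      ring
    rw [h3, abs_div, abs_of_pos hh0, div_le_one hh0] at h2
    exact h2
  have haa : dist (a x) (a x') ≤ ρ / 2 := by
    have e1 : a x - a x' = (((⟨a x - a x0, hmem x hxT⟩ : W) - ⟨a x' - a x0, hmem x' hxT'⟩ : W) : E) := by
      simp
    rw [dist_eq_norm, e1, Submodule.norm_coe, ← b.repr.norm_map, map_sub]
    have h4 : ‖b.repr ⟨a x - a x0, hmem x hxT⟩ - b.repr ⟨a x' - a x0, hmem x' hxT'⟩‖
        ≤ ∑ i, |c x i - c x' i| := by
      rw [EuclideanSpace.norm_eq]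
      calc √(∑ i, ‖(b.repr ⟨a x - a x0, hmem x hxT⟩ - b.repr ⟨a x' - a x0, hmem x' hxT'⟩) i‖ ^ 2)
          ≤ √((∑ i, |c x i - c x' i|) ^ 2) := by
            apply Real.sqrt_le_sqrt
            have : ∀ i, ‖(b.repr ⟨a x - a x0, hmem x hxT⟩
                - b.repr ⟨a x' - a x0, hmem x' hxT'⟩) i‖ ^ 2 = |c x i - c x' i| ^ 2 := by
              intro i
              rw [hc x hxT, hc x' hxT']
              simp
            simp_rw [this]
            exact Finset.sum_sq_le_sq_sum_of_nonneg fun i _ => abs_nonneg _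
        _ = ∑ i, |c x i - c x' i| := Real.sqrt_sq (Finset.sum_nonneg fun i _ => abs_nonneg _)
    refine h4.trans ?_
    calc ∑ i, |c x i - c x' i| ≤ ∑ _i : Fin j, h := Finset.sum_le_sum fun i _ => hci i
      _ = j * h := by simp
      _ ≤ ρ / 2 := by
          rw [hh, mul_div_assoc', div_le_div_iff₀ (by positivity) (by positivity)]
          nlinarith
  calc dist x x' ≤ dist x (a x) + dist (a x) (a x') + dist (a x') x' := dist_triangle4 _ _ _ _
    _ ≤ δ + ρ / 2 + δ := by
        have h1 := hd x hxT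
        have h2 := hd x' hxT'
        rw [dist_comm] at h2
        linarith
    _ ≤ ρ := by linarith

/-- the logarithm of the covering number -/
theorem log_cov_le {j : ℕ} {R ρ : ℝ} (hρ : 0 < ρ) (h : ρ ≤ R) :
    Real.log (((⌊16 * R * (j + 1) / ρ⌋₊ + 1) ^ j : ℕ) : ℝ)
      ≤ j * Real.log (R / ρ) + j * Real.log (16 * (j + 1) + 1) := by
  have hR : 0 < R := hρ.trans_le h
  have h1 : (1 : ℝ) ≤ R / ρ := by rw [le_div_iff₀ hρ, one_mul]; exact h
  push_cast
  rw [Real.log_pow]
  rw [← mul_add]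
  apply mul_le_mul_of_nonneg_left _ (Nat.cast_nonneg j)
  rw [← Real.log_mul (by positivity) (by positivity)]
  apply Real.log_le_log (by positivity)
  have h2 := Nat.floor_le (show 0 ≤ 16 * R * (j + 1) / ρ by positivity)
  have h3 : 16 * R * (j + 1) / ρ = (R / ρ) * (16 * (j + 1)) := by field_simp
  rw [h3] at h2 ⊢
  nlinarith

/-- a whole ball -/
theorem cov_ball [FiniteDimensional ℝ E] {R ρ : ℝ} (hR : 0 ≤ R) (hρ : 0 < ρ) (y : E) :
    Cov ((⌊16 * R * (Module.finrank ℝ E + 1) / ρ⌋₊ + 1) ^ Module.finrank ℝ E) ρ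
      (closedBall y R) := by
  have := cov_near (T := closedBall y R) (⊤ : Submodule ℝ E) id (δ := 0) hR hρ (by linarith) hR
    y 0 (fun x hx => hx) (fun x _ => Submodule.mem_top) (fun x _ => by simp)
    (j := Module.finrank ℝ E) (by simp)
  exact this

end net

end Crest.Agent.R234.Ovl_201
end

-- ▼ part R234/Sev1_201
section

/-!
# R234 / Sev1_201 : (7) of #5124, the count of the non-spanning levels in one block (VF-SEVEN)

`E` of dimension `d + 2`, levels `s k = s0 exp (J k)`, `G k` = good centres of level `k`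
(measurable), all `G k` flat in dimension `d` (rigidity, (7)(iii)).  `Wk` = points near a good
centre around which `G k` is not flat in dimension `d - 1`.  Then the total measure of
`G k \ Wk` is small.
-/

set_option linter.unusedSectionVars false

namespace Crest.Agent.R234.Sev_201

open MeasureTheory Set Filter Metric
open scoped Topology ENNReal
open Crest.Agent.R234.Ovl_201
open Crest.Agent.R234.Sp1_643 (Flat)

section geom
variable {E : Type*} [NormedAddCommGroup E] [InnerProductSpace ℝ E] [FiniteDimensional ℝ E]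
  [MeasurableSpace E] [BorelSpace E]

theorem cov_flat {j : ℕ} {δ r R ρ : ℝ} {A T : Set E} (hfl : ∀ x ∈ T, Flat j δ A x r)
    (hTA : T ⊆ A) (h2R : 2 * R ≤ r) (hρ : 0 < ρ) (hρR : ρ ≤ R)
    (h4 : 4 * (δ * r) ≤ ρ) (y : E) (hT : T ⊆ closedBall y R) :
    Ovl_201.Cov ((⌊16 * R * (j + 1) / ρ⌋₊ + 1) ^ j) ρ T := by
  classical
  have hR : 0 < R := hρ.trans_le hρR
  rcases T.eq_empty_or_nonempty with rfl | ⟨x0, hx0⟩
  · exact ⟨fun _ => ∅, by simp, by simp⟩
  obtain ⟨W, hW, hWA⟩ := hfl x0 hx0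
  have h1 : ∀ x ∈ T, ∃ w ∈ W, dist x w ≤ δ * r := by
    intro x hx
    apply hWA x ⟨hTA hx, ?_⟩
    rw [mem_closedBall]
    have h2 := hT hx
    have h3 := hT hx0
    rw [mem_closedBall] at h2 h3
    rw [dist_comm] at h3
    calc dist x x0 ≤ dist x y + dist y x0 := dist_triangle _ _ _
      _ ≤ r := by linarith
  have h1' : ∀ x, ∃ w, x ∈ T → (w ∈ W ∧ dist x w ≤ δ * r) := by
    intro x
    by_cases hx : x ∈ T
    · obtain ⟨w, hw, hd⟩ := h1 x hx
      exact ⟨w, fun _ => ⟨hw, hd⟩⟩
    · exact ⟨x, fun h => absurd h hx⟩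
  choose a ha using h1'
  have h5 := cov_near (T := T) W.direction a (R := R) (ρ := ρ) (δ := δ * r) hR.le hρ h4
    (by linarith) y (a x0) (fun x hx => mem_closedBall.1 (hT hx))
    (fun x hx => by
      have := AffineSubspace.vsub_mem_direction (ha x hx).1 (ha x0 hx0).1
      simpa using this)
    (fun x hx => (ha x hx).2) rfl
  refine h5.mono_N ?_
  have h6 : (⌊16 * R * ((Module.finrank ℝ W.direction : ℕ) + 1) / ρ⌋₊ + 1 : ℕ)
      ≤ ⌊16 * R * (j + 1) / ρ⌋₊ + 1 := by
    apply Nat.add_le_add_right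
    apply Nat.floor_le_floor
    apply div_le_div_of_nonneg_right _ hρ.le
    apply mul_le_mul_of_nonneg_left _ (by positivity)
    have : ((Module.finrank ℝ W.direction : ℕ) : ℝ) ≤ j := by exact_mod_cast hW
    linarith
  calc _ ≤ (⌊16 * R * (j + 1) / ρ⌋₊ + 1) ^ (Module.finrank ℝ W.direction) :=
        Nat.pow_le_pow_left h6 _
    _ ≤ _ := Nat.pow_le_pow_right (by lia) hW

end geom

section lower
variable {X : Type*} [PseudoMetricSpace X] [SecondCountableTopology X] [MeasurableSpace X]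
  [BorelSpace X] (ε : Measure X) [IsFiniteMeasure ε]

/-- lower bound of the telescoped integral, with an exceptional set -/
theorem low_of' {r s M H θ : ℝ} (hr : 0 < r) (hrs : r ≤ s)
    (hi : Integrable (fun x => Real.log (rat ε r s x)) ε) {X0 : Set X} (hX0 : MeasurableSet X0)
    (hM : 0 ≤ M) (hH : 0 ≤ H) (hθ : 0 ≤ θ)
    (hX : ε.real X0ᶜ ≤ θ * ε.real univ)
    (h : ∀ x ∈ X0, Real.exp (M - H) ≤ rat ε r s x) :
    (M - (H + θ * M)) * ε.real univ ≤ ∫ x, Real.log (rat ε r s x) ∂ε := by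
  have h1 : ∫ x, X0.indicator (fun _ => M - H) x ∂ε ≤ ∫ x, Real.log (rat ε r s x) ∂ε := by
    apply integral_mono_ae ((integrable_const _).indicator hX0) hi
    filter_upwards [rat_pos ε hr hrs] with x hx
    by_cases hx0 : x ∈ X0
    · simp only [indicator_of_mem hx0]
      rw [Real.le_log_iff_exp_le (by linarith)]
      exact h x hx0
    · simp only [indicator_of_notMem hx0]
      exact Real.log_nonneg hx
  rw [integral_indicator hX0, integral_const, smul_eq_mul] at h1
  have h2 : (ε.restrict X0).real univ = ε.real X0 := by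
    simp [Measure.real]
  rw [h2] at h1
  have h3 : ε.real X0 + ε.real X0ᶜ = ε.real univ := by
    rw [← measureReal_union disjoint_compl_right hX0.compl, union_compl_self]
  have h4 : 0 ≤ ε.real X0ᶜ := measureReal_nonneg
  have h5 : 0 ≤ ε.real univ := measureReal_nonneg
  refine le_trans ?_ h1
  have h6 : ε.real X0 = ε.real univ - ε.real X0ᶜ := by linarith
  rw [h6]
  by_cases hMH : 0 ≤ M - H
  · have h7 : (M - H) * ε.real X0ᶜ ≤ M * (θ * ε.real univ) :=
      mul_le_mul (by linarith) hX h4 hM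
    nlinarith
  · push Not at hMH
    have h7 : 0 ≤ θ * M * ε.real univ := by positivity
    nlinarith

/-- `count` with an integral lower bound -/
theorem count' {J C0 d H : ℝ} (s : ℕ → ℝ) (hs : ∀ k, 0 < s k) (hmono : ∀ k, s k ≤ s (k + 1))
    (τ : ℕ → X → Fin 3) (hτ : ∀ k, Measurable (τ k)) (N : ℕ → Fin 3 → ℕ)
    (hN0 : ∀ k i, 0 < N k i)
    (hN : ∀ k i, ∀ y : X, Ovl_201.Cov (N k i) (s k) (closedBall y (s (k + 1)) ∩ τ k ⁻¹' {i}))
    (K : ℕ)
    (h0 : ∀ k, Real.log (N k 0) ≤ (d - 1) * J + C0) (h1 : ∀ k, Real.log (N k 1) ≤ d * J + C0)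
    (h2 : ∀ k, Real.log (N k 2) ≤ (d + 2) * J + C0)
    (hlow : Integrable (fun x => Real.log (rat ε (s 0) (s K) x)) ε →
      (d * J * K - H) * ε.real univ ≤ ∫ x, Real.log (rat ε (s 0) (s K) x) ∂ε) :
    J * ∑ k ∈ Finset.range K, ε.real (τ k ⁻¹' {0})
      ≤ ((C0 + Real.log 3) * K + H) * ε.real univ
        + 2 * J * ∑ k ∈ Finset.range K, ε.real (τ k ⁻¹' {2}) := by
  obtain ⟨hi, hu⟩ := tele ε s hs hmono τ hτ N hN0 hN K
  have hl := hlow hi
  have hk : ∀ k, ∑ i, ε.real (τ k ⁻¹' {i}) * Real.log (N k i) + ε.real univ * Real.log (3 : ℕ)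
      ≤ (d * J + C0 + Real.log 3) * ε.real univ - J * ε.real (τ k ⁻¹' {0})
        + 2 * J * ε.real (τ k ⁻¹' {2}) := by
    intro k
    have hsum : ∑ i : Fin 3, ε.real (τ k ⁻¹' {i}) = ε.real univ := by
      rw [← measureReal_biUnion_finset]
      · congr 1
        ext x
        simp
      · intro i _ j _ hij
        exact Disjoint.preimage _ (by simpa using hij)
      · intro i _; exact hτ k (measurableSet_singleton i)
    rw [Fin.sum_univ_three] at hsum ⊢
    have e0 : 0 ≤ ε.real (τ k ⁻¹' {0}) := measureReal_nonneg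
    have e1 : 0 ≤ ε.real (τ k ⁻¹' {1}) := measureReal_nonneg
    have e2 : 0 ≤ ε.real (τ k ⁻¹' {2}) := measureReal_nonneg
    have i0 := mul_le_mul_of_nonneg_left (h0 k) e0
    have i1 := mul_le_mul_of_nonneg_left (h1 k) e1
    have i2 := mul_le_mul_of_nonneg_left (h2 k) e2
    push_cast
    rw [← hsum]
    nlinarith
  have hS := hl.trans (hu.trans (Finset.sum_le_sum fun k _ => hk k))
  rw [Finset.sum_add_distrib, Finset.sum_sub_distrib, Finset.sum_const, Finset.card_range,
    nsmul_eq_mul] at hS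
  have e1 : ∑ k ∈ Finset.range K, J * ε.real (τ k ⁻¹' {0})
      = J * ∑ k ∈ Finset.range K, ε.real (τ k ⁻¹' {0}) := (Finset.mul_sum _ _ _).symm
  have e2 : ∑ k ∈ Finset.range K, 2 * J * ε.real (τ k ⁻¹' {2})
      = 2 * J * ∑ k ∈ Finset.range K, ε.real (τ k ⁻¹' {2}) := (Finset.mul_sum _ _ _).symm
  rw [e1, e2] at hS
  nlinarith

end lower

section block
variable {E : Type*} [NormedAddCommGroup E] [InnerProductSpace ℝ E] [FiniteDimensional ℝ E]
  [MeasurableSpace E] [BorelSpace E] (ε : Measure E) [IsFiniteMeasure ε]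

/-- near a centre of `G` around which `G` is not flat in dimension `j` -/
def Wide (j : ℕ) (δ : ℝ) (G : Set E) (r : ℝ) : Set E :=
  Metric.thickening r {y ∈ G | ¬ Flat j δ G y r}

theorem isOpen_wide (j : ℕ) (δ : ℝ) (G : Set E) (r : ℝ) : IsOpen (Wide j δ G r) :=
  Metric.isOpen_thickening

/-- at a wide point there is a fat simplex of good centres nearby -/
theorem Wide.fat {j : ℕ} {δ r : ℝ} {G : Set E} {x : E} (hx : x ∈ Wide j δ G r) (hδ : 0 < δ)
    (hr : 0 < r) :
    ∃ y ∈ G, dist x y < r ∧ ∃ v : Fin (j + 1) → E, (∀ i, y + v i ∈ G ∧ ‖v i‖ ≤ r) ∧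
      ∀ (c : Fin (j + 1) → ℝ) (i : Fin (j + 1)),
        |c i| * r ≤ Sp3_643.Cf j δ * ‖∑ l, c l • v l‖ := by
  obtain ⟨y, ⟨hy, hyf⟩, hd⟩ := Metric.mem_thickening_iff.1 hx
  exact ⟨y, hy, hd, Sp3_643.exists_fat hδ hr hy hyf⟩

/-- the constant of the entropy count in dimension `d + 2` -/
noncomputable def CE (d : ℕ) : ℝ := (d + 2) * Real.log (16 * (d + 3) + 1)

theorem CE_nonneg (d : ℕ) : 0 ≤ CE d := by
  unfold CE
  have : 0 ≤ Real.log (16 * (d + 3) + 1) := Real.log_nonneg (by
    have : (0 : ℝ) ≤ d := Nat.cast_nonneg d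
    linarith)
  positivity

theorem log_cov_le' {d j : ℕ} (hj : j ≤ d + 2) {R ρ J : ℝ} (hρ : 0 < ρ) (hR : ρ ≤ R)
    (hJ : R / ρ = Real.exp J) :
    Real.log (((⌊16 * R * (j + 1) / ρ⌋₊ + 1) ^ j : ℕ) : ℝ) ≤ j * J + CE d := by
  have h1 := log_cov_le (j := j) hρ hR
  rw [hJ, Real.log_exp] at h1
  refine h1.trans ?_
  have h2 : (j : ℝ) * Real.log (16 * (j + 1) + 1) ≤ CE d := by
    unfold CE
    have hj' : (j : ℝ) ≤ d + 2 := by exact_mod_cast hj
    have h3 : Real.log (16 * ((j : ℝ) + 1) + 1) ≤ Real.log (16 * ((d : ℝ) + 3) + 1) := by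
      apply Real.log_le_log (by positivity)
      linarith
    have h4 : 0 ≤ Real.log (16 * ((j : ℝ) + 1) + 1) := Real.log_nonneg (by
      have : (0 : ℝ) ≤ j := Nat.cast_nonneg j
      linarith)
    exact mul_le_mul hj' h3 h4 (by positivity)
  linarith

/-- **(7), one block** -/
theorem block_count {d n : ℕ} (hd : Module.finrank ℝ E = d + 2) (hd1 : 1 ≤ d)
    {J H s0 θ : ℝ} (hJ : 0 < J) (hs0 : 0 < s0) (hH : 0 ≤ H) (hθ : 0 ≤ θ)
    (G : ℕ → Set E) (hG : ∀ k, MeasurableSet (G k))
    (h3 : ∀ k < n, ∀ x ∈ G k,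
      Flat d (Real.exp (-J) / 8) (G k) x (2 * (s0 * Real.exp (J * (k + 1)))))
    {X0 : Set E} (hX0 : MeasurableSet X0) (hX : ε.real X0ᶜ ≤ θ * ε.real univ)
    (hlow : ∀ x ∈ X0, Real.exp (d * J * n - H) ≤ rat ε s0 (s0 * Real.exp (J * n)) x) :
    J * ∑ k ∈ Finset.range n, ε.real (G k \ Wide (d - 1) (Real.exp (-J) / 8) (G k)
        (2 * (s0 * Real.exp (J * (k + 1)))))
      ≤ ((CE d + Real.log 3) * n + (H + θ * (d * J * n))) * ε.real univ
        + 2 * J * ∑ k ∈ Finset.range n, ε.real (G k)ᶜ := by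
  classical
  set δ : ℝ := Real.exp (-J) / 8 with hδ
  set s : ℕ → ℝ := fun k => s0 * Real.exp (J * k) with hs
  have hsp : ∀ k, 0 < s k := fun k => by positivity
  have hratio : ∀ k, s (k + 1) / s k = Real.exp J := by
    intro k
    simp only [hs]
    rw [mul_div_mul_left _ _ hs0.ne', ← Real.exp_sub]
    congr 1
    push_cast
    ring
  have hs1 : ∀ k, s (k + 1) = Real.exp J * s k := fun k => by
    rw [← hratio k, div_mul_cancel₀ _ (hsp k).ne']
  have hsm : ∀ k, s k ≤ s (k + 1) := fun k => by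
    rw [hs1]
    have : 1 ≤ Real.exp J := Real.one_le_exp hJ.le
    nlinarith [hsp k]
  -- truncation of `G`
  set G' : ℕ → Set E := fun k => if k < n then G k else ∅ with hG'
  have hG'm : ∀ k, MeasurableSet (G' k) := fun k => by
    simp only [hG']
    split_ifs
    · exact hG k
    · exact MeasurableSet.empty
  set r : ℕ → ℝ := fun k => 2 * s (k + 1) with hr
  set W : ℕ → Set E := fun k => Wide (d - 1) δ (G' k) (r k) with hW
  have hWm : ∀ k, MeasurableSet (W k) := fun k => (isOpen_wide _ _ _ _).measurableSet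
  have h4 : ∀ k, 4 * (δ * r k) ≤ s k := by
    intro k
    simp only [hr, hs1, hδ, Real.exp_neg]
    have : 0 < Real.exp J := Real.exp_pos J
    apply le_of_eq
    field_simp
    ring
  have h3' : ∀ k, ∀ x ∈ G' k, Flat d δ (G' k) x (r k) := by
    intro k x hx
    by_cases hk : k < n
    · have e : G' k = G k := by simp [hG', hk]
      rw [e] at hx ⊢
      have := h3 k hk x hx
      simp only [hr, hs]
      push_cast
      exact this
    · simp [hG', hk] at hx
  have h0' : ∀ k, ∀ x ∈ G' k \ W k, Flat (d - 1) δ (G' k) x (r k) := by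
    intro k x hx
    by_contra hcon
    apply hx.2
    apply Metric.mem_thickening_iff.2
    refine ⟨x, ⟨hx.1, hcon⟩, ?_⟩
    rw [dist_self]
    have := hsp (k + 1)
    simp only [hr]
    positivity
  set τ : ℕ → E → Fin 3 := fun k x => if x ∈ G' k then (if x ∈ W k then 1 else 0) else 2 with hτ
  have hτm : ∀ k, Measurable (τ k) := fun k =>
    Measurable.ite (hG'm k) (Measurable.ite (hWm k) measurable_const measurable_const)
      measurable_const
  have p0 : ∀ k, τ k ⁻¹' {0} = G' k \ W k := by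
    intro k
    ext x
    simp only [hτ, mem_preimage, mem_singleton_iff, Set.mem_sdiff]
    by_cases h1 : x ∈ G' k <;> by_cases h2 : x ∈ W k <;> simp [h1, h2]
  have p1 : ∀ k, τ k ⁻¹' {1} = G' k ∩ W k := by
    intro k
    ext x
    simp only [hτ, mem_preimage, mem_singleton_iff, mem_inter_iff]
    by_cases h1 : x ∈ G' k <;> by_cases h2 : x ∈ W k <;> simp [h1, h2]
  have p2 : ∀ k, τ k ⁻¹' {2} = (G' k)ᶜ := by
    intro k
    ext x
    simp only [hτ, mem_preimage, mem_singleton_iff, mem_compl_iff]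
    by_cases h1 : x ∈ G' k <;> by_cases h2 : x ∈ W k <;> simp [h1, h2]
  set N : ℕ → Fin 3 → ℕ := fun k =>
    ![(⌊16 * s (k + 1) * (((d - 1 : ℕ) : ℝ) + 1) / s k⌋₊ + 1) ^ (d - 1),
      (⌊16 * s (k + 1) * ((d : ℕ) + 1) / s k⌋₊ + 1) ^ d,
      (⌊16 * s (k + 1) * (((d + 2 : ℕ) : ℝ) + 1) / s k⌋₊ + 1) ^ (d + 2)] with hN
  have hcount := count' (J := J) (C0 := CE d) (d := d) (H := H + θ * (d * J * n)) ε s hsp hsm τ hτm N
    (by
      intro k i
      fin_cases i <;> simp [hN])
    (by
      intro k i y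
      have hball : closedBall y (s (k + 1)) ∩ τ k ⁻¹' {i} ⊆ closedBall y (s (k + 1)) :=
        inter_subset_left
      fin_cases i
      · show Ovl_201.Cov (N k 0) (s k) (closedBall y (s (k + 1)) ∩ τ k ⁻¹' {0})
        rw [p0]
        exact cov_flat (A := G' k) (δ := δ) (r := r k) (fun x hx => h0' k x hx.2)
          (fun x hx => hx.2.1) (le_refl _) (hsp k) (hsm k) (h4 k) y inter_subset_left
      · show Ovl_201.Cov (N k 1) (s k) (closedBall y (s (k + 1)) ∩ τ k ⁻¹' {1})
        rw [p1]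
        exact cov_flat (A := G' k) (δ := δ) (r := r k) (fun x hx => h3' k x hx.2.1)
          (fun x hx => hx.2.1) (le_refl _) (hsp k) (hsm k) (h4 k) y inter_subset_left
      · show Ovl_201.Cov (N k 2) (s k) (closedBall y (s (k + 1)) ∩ τ k ⁻¹' {2})
        have h5 := cov_ball (R := s (k + 1)) (ρ := s k) (hsp (k + 1)).le (hsp k) y
        rw [hd] at h5
        exact h5.mono inter_subset_left)
    n
    (by
      intro k
      have h5 := log_cov_le' (d := d) (j := d - 1) (by lia) (hsp k) (hsm k) (hratio k)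
      have e : ((d - 1 : ℕ) : ℝ) = (d : ℝ) - 1 := by
        push_cast [Nat.cast_sub hd1]
        ring
      show Real.log ((N k 0 : ℕ) : ℝ) ≤ _
      refine h5.trans (le_of_eq ?_)
      rw [e])
    (by
      intro k
      exact log_cov_le' (d := d) (j := d) (by lia) (hsp k) (hsm k) (hratio k))
    (by
      intro k
      have h5 := log_cov_le' (d := d) (j := d + 2) (by lia) (hsp k) (hsm k) (hratio k)
      show Real.log ((N k 2 : ℕ) : ℝ) ≤ _
      refine h5.trans (le_of_eq ?_)
      push_cast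
      ring)
    (by
      intro hi
      have hmono : Monotone s := monotone_nat_of_le_succ hsm
      have h5 := low_of' ε (M := d * J * n) (H := H) (θ := θ) (hsp 0) (hmono (Nat.zero_le n)) hi
        hX0 (by positivity) hH hθ hX (by
          intro x hx
          have := hlow x hx
          simpa [hs] using this)
      exact h5)
  -- back to `G`
  have e0 : ∑ k ∈ Finset.range n, ε.real (τ k ⁻¹' {0}) = ∑ k ∈ Finset.range n,
      ε.real (G k \ Wide (d - 1) δ (G k) (2 * (s0 * Real.exp (J * (k + 1))))) := by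
    apply Finset.sum_congr rfl
    intro k hk
    have hk' := Finset.mem_range.1 hk
    have e : G' k = G k := by simp [hG', hk']
    rw [p0]
    simp only [hW, e, hr, hs]
    push_cast
    rfl
  have e2 : ∑ k ∈ Finset.range n, ε.real (τ k ⁻¹' {2}) = ∑ k ∈ Finset.range n,
      ε.real (G k)ᶜ := by
    apply Finset.sum_congr rfl
    intro k hk
    have hk' := Finset.mem_range.1 hk
    have e : G' k = G k := by simp [hG', hk']
    rw [p2, e]
  rw [e0, e2] at hcount
  exact hcount

end block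

end Crest.Agent.R234.Sev_201
end

-- ▼ part R234/Sev2_201
section

/-!
# R234 / Sev2_201 : node N6 (SPAN COUNT) of #6067 (VF-SEVEN)

* `low_mass` : lower mass bound of `ε` off a small set, from a lower bound of another measure;
* `span_block` : the non-spanning levels of one block;
* `span_all` : Chebyshev over the dyadic blocks of `l`, in the form of `Ode_201.Dat.run`.
-/

set_option linter.unusedSectionVars false

namespace Crest.Agent.R234.Sev_201

open MeasureTheory Set Filter Metric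
open scoped Topology ENNReal
open Crest.Agent.R234.Ovl_201
open Crest.Agent.R234.Sp1_643 (Flat)

section mass
variable {X : Type*} [PseudoMetricSpace X]

/-- maximal separated subset, bounded cardinality -/
theorem exists_sep {T : Set X} {s : ℝ} (hs : 0 ≤ s) {N : ℕ}
    (hN : ∀ F : Finset X, (F : Set X) ⊆ T → (∀ x ∈ F, ∀ y ∈ F, x ≠ y → s < dist x y) →
      F.card ≤ N) :
    ∃ F : Finset X, (F : Set X) ⊆ T ∧ (∀ x ∈ F, ∀ y ∈ F, x ≠ y → s < dist x y) ∧
      ∀ x ∈ T, ∃ y ∈ F, dist x y ≤ s := by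
  classical
  let P : ℕ → Prop := fun n => ∃ F : Finset X, F.card = n ∧ (F : Set X) ⊆ T ∧
    ∀ x ∈ F, ∀ y ∈ F, x ≠ y → s < dist x y
  have h0 : P 0 := ⟨∅, by simp, by simp, by simp⟩
  have h1 : P (Nat.findGreatest P N) := Nat.findGreatest_spec (Nat.zero_le N) h0
  obtain ⟨F, hc, hF, hsep⟩ := h1
  refine ⟨F, hF, hsep, ?_⟩
  intro x hx
  by_contra hcon
  push Not at hcon
  have hxF : x ∉ F := fun h => by
    have := hcon x h
    rw [dist_self] at this
    linarith
  have hins : (insert x F : Finset X).card = Nat.findGreatest P N + 1 := by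
    rw [Finset.card_insert_of_notMem hxF, hc]
  have hsub : ((insert x F : Finset X) : Set X) ⊆ T := by
    intro y hy
    rcases Finset.mem_insert.1 (Finset.mem_coe.1 hy) with rfl | h
    · exact hx
    · exact hF h
  have hsp : ∀ y ∈ (insert x F : Finset X), ∀ z ∈ (insert x F : Finset X), y ≠ z →
      s < dist y z := by
    intro y hy z hz hyz
    rcases Finset.mem_insert.1 hy with rfl | h
    · rcases Finset.mem_insert.1 hz with rfl | h'
      · exact absurd rfl hyz
      · exact hcon z h'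
    · rcases Finset.mem_insert.1 hz with rfl | h'
      · rw [dist_comm]; exact hcon y h
      · exact hsep y h z h' hyz
  have h2 : Nat.findGreatest P N + 1 ≤ N := hins ▸ hN _ hsub hsp
  have h3 : Nat.findGreatest P N + 1 ≤ Nat.findGreatest P N :=
    Nat.le_findGreatest h2 ⟨_, hins, hsub, hsp⟩
  lia

variable [SecondCountableTopology X] [MeasurableSpace X] [BorelSpace X]

theorem card_mass {μ : Measure X} [IsFiniteMeasure μ] {T : Set X} {s c : ℝ}
    (hm : ∀ x ∈ T, c ≤ μ.real (closedBall x (s / 2))) {F : Finset X} (hF : (F : Set X) ⊆ T)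
    (hsep : ∀ x ∈ F, ∀ y ∈ F, x ≠ y → s < dist x y) : (F.card : ℝ) * c ≤ μ.real univ := by
  have h1 : (F.card : ℝ) * c ≤ ∑ x ∈ F, μ.real (closedBall x (s / 2)) := by
    rw [← nsmul_eq_mul, ← Finset.sum_const]
    exact Finset.sum_le_sum fun x hx => hm x (hF hx)
  refine h1.trans ?_
  rw [← measureReal_biUnion_finset]
  · exact measureReal_mono (subset_univ _)
  · intro x hx y hy hxy
    apply Metric.closedBall_disjoint_closedBall
    have := hsep x hx y hy hxy
    linarith
  · intro x _; exact measurableSet_closedBall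

/-- the set where `ε` has small mass at scale `s` is small -/
theorem low_mass {μ ε : Measure X} [IsFiniteMeasure μ] [IsFiniteMeasure ε] {Z : Set X}
    {s c lam : ℝ} (hs : 0 ≤ s) (hc : 0 < c) (hlam : 0 ≤ lam)
    (hm : ∀ x ∈ Z, c ≤ μ.real (closedBall x (s / 2))) :
    ε.real {x ∈ Z | ε.real (closedBall x s) < lam} ≤ lam * (μ.real univ / c) := by
  set T : Set X := {x ∈ Z | ε.real (closedBall x s) < lam} with hT
  have hmT : ∀ x ∈ T, c ≤ μ.real (closedBall x (s / 2)) := fun x hx => hm x hx.1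
  obtain ⟨F, hF, hsep, hcov⟩ := exists_sep (T := T) hs (N := ⌊μ.real univ / c⌋₊) (by
    intro F hF hsep
    apply Nat.le_floor
    rw [le_div_iff₀ hc]
    exact card_mass hmT hF hsep)
  have h1 : T ⊆ ⋃ y ∈ F, closedBall y s := by
    intro x hx
    obtain ⟨y, hy, hd⟩ := hcov x hx
    simp only [mem_iUnion]
    exact ⟨y, hy, hd⟩
  have h2 : ε.real T ≤ ∑ y ∈ F, ε.real (closedBall y s) :=
    (measureReal_mono h1 (measure_ne_top _ _)).trans (measureReal_biUnion_finset_le _ _)
  have h3 : ∑ y ∈ F, ε.real (closedBall y s) ≤ ∑ _y ∈ F, lam :=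
    Finset.sum_le_sum fun y hy => (hF hy).2.le
  rw [Finset.sum_const, nsmul_eq_mul] at h3
  have h4 : (F.card : ℝ) ≤ μ.real univ / c := by
    rw [le_div_iff₀ hc]
    exact card_mass hmT hF hsep
  calc _ ≤ (F.card : ℝ) * lam := h2.trans h3
    _ ≤ μ.real univ / c * lam := mul_le_mul_of_nonneg_right h4 hlam
    _ = _ := by ring

/-- from pointwise counts to the sum of the measures -/
theorem sum_bad_le {ε : Measure X} [IsFiniteMeasure ε] {G : ℕ → Set X}
    (hG : ∀ k, MeasurableSet (G k)) {Z : Set X} (hZ : ε Zᶜ = 0) {n : ℕ} {M : ℝ}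
    (hM : ∀ x ∈ Z, ∑ k ∈ Finset.range n, (G k)ᶜ.indicator (fun _ => (1 : ℝ)) x ≤ M) :
    ∑ k ∈ Finset.range n, ε.real (G k)ᶜ ≤ M * ε.real univ := by
  have h1 : ∫ x, ∑ k ∈ Finset.range n, (G k)ᶜ.indicator (fun _ => (1 : ℝ)) x ∂ε
      ≤ ∫ _, M ∂ε := by
    apply integral_mono_ae
    · exact integrable_finsetSum _ fun k _ => (integrable_const _).indicator (hG k).compl
    · exact integrable_const _
    · filter_upwards [compl_mem_ae_iff.2 hZ] with x hx
      exact hM x (by simpa using hx)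
  rw [integral_finsetSum _ fun k _ => (integrable_const _).indicator (hG k).compl,
    integral_const, smul_eq_mul, mul_comm] at h1
  refine le_trans (le_of_eq ?_) h1
  apply Finset.sum_congr rfl
  intro k _
  rw [integral_indicator (hG k).compl, integral_const, smul_eq_mul, mul_one]
  simp [Measure.real]

end mass

section span
variable {E : Type*} [NormedAddCommGroup E] [InnerProductSpace ℝ E] [FiniteDimensional ℝ E]
  [MeasurableSpace E] [BorelSpace E]

/-- the spanning set of level `k` : good centres, near a good centre around which the good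
centres are not flat in dimension `d - 1` -/
def Sp (d : ℕ) (J r0 : ℝ) (G : ℕ → Set E) (k : ℕ) : Set E :=
  G k ∩ Wide (d - 1) (Real.exp (-J) / 8) (G k) (r0 * Real.exp (J * k))

theorem measurableSet_sp {d : ℕ} {J r0 : ℝ} {G : ℕ → Set E} (hG : ∀ k, MeasurableSet (G k))
    (k : ℕ) : MeasurableSet (Sp d J r0 G k) :=
  (hG k).inter (isOpen_wide _ _ _ _).measurableSet

/-- the fat simplex of good centres at a spanning point -/
theorem Sp.fat {d : ℕ} (hd : 1 ≤ d) {J r0 : ℝ} (hr0 : 0 < r0) {G : ℕ → Set E} {k : ℕ} {x : E}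
    (hx : x ∈ Sp d J r0 G k) :
    ∃ y ∈ G k, dist x y < r0 * Real.exp (J * k) ∧
      ∃ v : Fin d → E, (∀ i, y + v i ∈ G k ∧ ‖v i‖ ≤ r0 * Real.exp (J * k)) ∧
      ∀ (c : Fin d → ℝ) (i : Fin d), |c i| * (r0 * Real.exp (J * k))
        ≤ Sp3_643.Cf (d - 1) (Real.exp (-J) / 8) * ‖∑ l, c l • v l‖ := by
  obtain ⟨y, hy, hd1, v, hv, hc⟩ := Wide.fat hx.2 (by positivity) (by positivity)
  obtain ⟨e, rfl⟩ : ∃ e, d = e + 1 := ⟨d - 1, by lia⟩
  exact ⟨y, hy, hd1, v, hv, hc⟩

variable (ε : Measure E) [IsFiniteMeasure ε]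

/-- the non-spanning levels `a ≤ k < a + n` -/
theorem span_block {d n a : ℕ} (hd : Module.finrank ℝ E = d + 2) (hd1 : 1 ≤ d)
    {J H r0 θ : ℝ} (hJ : 0 < J) (hr0 : 0 < r0) (hH : 0 ≤ H) (hθ : 0 ≤ θ)
    (G : ℕ → Set E) (hG : ∀ k, MeasurableSet (G k))
    (h3 : ∀ k, a ≤ k → k < a + n → ∀ x ∈ G k,
      Flat d (Real.exp (-J) / 8) (G k) x (r0 * Real.exp (J * k)))
    {X0 : Set E} (hX0 : MeasurableSet X0) (hX : ε.real X0ᶜ ≤ θ * ε.real univ)
    (hlow : ∀ x ∈ X0, Real.exp (d * J * n - H) ≤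
      rat ε (r0 / 2 * Real.exp (J * (a - 1))) (r0 / 2 * Real.exp (J * (a + n - 1))) x) :
    J * ∑ k ∈ Finset.range n, ε.real (Sp d J r0 G (a + k))ᶜ
      ≤ ((CE d + Real.log 3) * n + (H + θ * (d * J * n))) * ε.real univ
        + 3 * J * ∑ k ∈ Finset.range n, ε.real (G (a + k))ᶜ := by
  set s0 : ℝ := r0 / 2 * Real.exp (J * (a - 1)) with hs0
  have hs : ∀ k : ℕ, 2 * (s0 * Real.exp (J * (k + 1))) = r0 * Real.exp (J * ((a + k : ℕ) : ℝ)) := by
    intro k
    rw [hs0]
    have : Real.exp (J * ((a + k : ℕ) : ℝ)) = Real.exp (J * (a - 1)) * Real.exp (J * (k + 1)) := by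
      rw [← Real.exp_add]
      congr 1
      push_cast
      ring
    rw [this]
    ring
  have hb := block_count (n := n) ε hd hd1 hJ (s0 := s0) (by positivity) hH hθ
    (fun k => G (a + k)) (fun k => hG _)
    (fun k hk x hx => by
      rw [hs]
      exact h3 (a + k) (by lia) (by lia) x hx) hX0 hX
    (fun x hx => by
      have h1 := hlow x hx
      have h2 : s0 * Real.exp (J * n) = r0 / 2 * Real.exp (J * (a + n - 1)) := by
        rw [hs0, mul_assoc, ← Real.exp_add]
        congr 2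
        ring
      rw [h2]
      exact h1)
  have hk : ∀ k, ε.real (Sp d J r0 G (a + k))ᶜ ≤ ε.real (G (a + k) \ Wide (d - 1)
      (Real.exp (-J) / 8) (G (a + k)) (2 * (s0 * Real.exp (J * (k + 1)))))
      + ε.real (G (a + k))ᶜ := by
    intro k
    rw [hs]
    refine le_trans (measureReal_mono ?_) (measureReal_union_le _ _)
    intro x hx
    by_cases hxG : x ∈ G (a + k)
    · exact Or.inl ⟨hxG, fun h => hx ⟨hxG, h⟩⟩
    · exact Or.inr hxG
  have h5 := Finset.sum_le_sum fun k (_ : k ∈ Finset.range n) => hk k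
  rw [Finset.sum_add_distrib] at h5
  have h6 := mul_le_mul_of_nonneg_left h5 hJ.le
  rw [mul_add] at h6
  linarith

/-- **N6, one block, with mass bounds** -/
theorem span_block_mass {d n a : ℕ} (hd : Module.finrank ℝ E = d + 2) (hd1 : 1 ≤ d)
    {J r0 θ lo hi c1 : ℝ} (hJ : 0 < J) (hr0 : 0 < r0) (hθ : 0 ≤ θ)
    (G : ℕ → Set E) (hG : ∀ k, MeasurableSet (G k))
    (h3 : ∀ k, a ≤ k → k < a + n → ∀ x ∈ G k,
      Flat d (Real.exp (-J) / 8) (G k) x (r0 * Real.exp (J * k)))
    (μ : Measure E) [IsFiniteMeasure μ] {Z : Set E} (hZm : MeasurableSet Z) (hZ : ε Zᶜ = 0)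
    (hlo : 0 < lo) (hlh : lo ≤ hi) (hc1 : 0 < c1)
    (hup : ∀ x ∈ Z, ε.real (closedBall x (r0 / 2 * Real.exp (J * (a - 1))))
      ≤ hi * (r0 / 2 * Real.exp (J * (a - 1))) ^ d)
    (hμ : ∀ x ∈ Z, c1 * (r0 / 2 * Real.exp (J * (a + n - 1)) / 2) ^ d
      ≤ μ.real (closedBall x (r0 / 2 * Real.exp (J * (a + n - 1)) / 2)))
    (hθ' : lo * 2 ^ d * μ.real univ / c1 ≤ θ * ε.real univ) :
    J * ∑ k ∈ Finset.range n, ε.real (Sp d J r0 G (a + k))ᶜ
      ≤ ((CE d + Real.log 3) * n + (Real.log (hi / lo) + θ * (d * J * n))) * ε.real univ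
        + 3 * J * ∑ k ∈ Finset.range n, ε.real (G (a + k))ᶜ := by
  set σ0 : ℝ := r0 / 2 * Real.exp (J * (a - 1)) with hσ0
  set σn : ℝ := r0 / 2 * Real.exp (J * (a + n - 1)) with hσn
  have hσ0p : 0 < σ0 := by positivity
  have hσnp : 0 < σn := by positivity
  have hhi : 0 < hi := hlo.trans_le hlh
  set X0 : Set E := (Z ∩ {x | lo * σn ^ d ≤ ε.real (closedBall x σn)})
    ∩ {x | 0 < ε.real (closedBall x σ0)} with hX0
  have hmr : ∀ r : ℝ, Measurable fun x : E => ε.real (closedBall x r) := fun r =>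
    (meas_cb ε r).ennreal_toReal
  have hX0m : MeasurableSet X0 :=
    (hZm.inter (measurableSet_le measurable_const (hmr _))).inter
      (measurableSet_lt measurable_const (hmr _))
  refine span_block ε hd hd1 hJ hr0 (Real.log_nonneg ?_) hθ G hG h3 hX0m ?_ ?_
  · rw [le_div_iff₀ hlo, one_mul]; exact hlh
  · refine le_trans ?_ hθ'
    have h1 : ε.real X0ᶜ ≤ ε.real Zᶜ + ε.real {x ∈ Z | ε.real (closedBall x σn) < lo * σn ^ d}
        + ε.real {x | ¬ 0 < ε.real (closedBall x σ0)} := by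
      refine le_trans (measureReal_mono ?_) ((measureReal_union_le _ _).trans
        (add_le_add_left (measureReal_union_le _ _) _))
      intro x hx
      by_cases h1 : x ∈ Z
      · by_cases h2 : lo * σn ^ d ≤ ε.real (closedBall x σn)
        · by_cases h4 : 0 < ε.real (closedBall x σ0)
          · exact absurd ⟨⟨h1, h2⟩, h4⟩ hx
          · exact Or.inr h4
        · exact Or.inl (Or.inr ⟨h1, not_le.1 h2⟩)
      · exact Or.inl (Or.inl h1)
    have h2 : ε.real Zᶜ = 0 := by rw [Measure.real, hZ, ENNReal.toReal_zero]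
    have h4 : ε.real {x | ¬ 0 < ε.real (closedBall x σ0)} = 0 := by
      have : ε {x | ¬ 0 < ε.real (closedBall x σ0)} = 0 := by
        rw [← ae_iff]
        filter_upwards [ae_pos ε hσ0p] with x hx
        exact ENNReal.toReal_pos hx (measure_ne_top _ _)
      rw [Measure.real, this, ENNReal.toReal_zero]
    have h5 := low_mass (ε := ε) (μ := μ) (Z := Z) (s := σn) (lam := lo * σn ^ d)
      (c := c1 * (σn / 2) ^ d) hσnp.le (by positivity) (by positivity) hμ
    have h6 : lo * σn ^ d * (μ.real univ / (c1 * (σn / 2) ^ d))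
        = lo * 2 ^ d * μ.real univ / c1 := by
      rw [div_pow]
      field_simp
    rw [h6] at h5
    linarith
  · intro x hx
    have hx1 : lo * σn ^ d ≤ ε.real (closedBall x σn) := hx.1.2
    have hx2 : 0 < ε.real (closedBall x σ0) := hx.2
    have hx3 := hup x hx.1.1
    rw [rat_eq, le_div_iff₀ hx2]
    have e1 : σn = σ0 * Real.exp (J * n) := by
      rw [hσn, hσ0, mul_assoc, ← Real.exp_add]
      congr 2
      ring
    have e2 : Real.exp (d * J * n - Real.log (hi / lo)) = Real.exp (J * n) ^ d * (lo / hi) := by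
      rw [Real.exp_sub, Real.exp_log (by positivity), ← Real.exp_nat_mul]
      field_simp
    calc Real.exp (d * J * n - Real.log (hi / lo)) * ε.real (closedBall x σ0)
        ≤ Real.exp (J * n) ^ d * (lo / hi) * (hi * σ0 ^ d) := by
          rw [e2]
          exact mul_le_mul_of_nonneg_left hx3 (by positivity)
      _ = lo * σn ^ d := by
          have e3 : σn ^ d = σ0 ^ d * Real.exp (J * n) ^ d := by rw [e1, mul_pow]
          rw [e3]
          clear_value σ0 σn
          field_simp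
      _ ≤ _ := hx1

end span

end Crest.Agent.R234.Sev_201
end

-- ▼ part R234/Sev3_201
section

/-!
# R234 / Sev3_201 : N6 of #6067, sums over the dyadic blocks of `l` and Chebyshev (VF-SEVEN)

The conclusions have the form of the hypothesis `hsum` of `Ode_201.Dat.run`.
-/

set_option linter.unusedSectionVars false

namespace Crest.Agent.R234.Sev_201

open MeasureTheory Set Filter Metric
open scoped Topology ENNReal
open Crest.Agent.R234.Ovl_201
open Crest.Agent.R234.Sp1_643 (Flat)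

/-! ### sums over dyadic blocks -/

/-- the sum of the densities of `Ω` in the `K` dyadic blocks after `2 ^ k0` -/
noncomputable def dens (Ω : Set ℝ) (k0 K : ℕ) : ℝ :=
  ∑ k ∈ Finset.range K, (volume (Ω ∩ Icc ((2 : ℝ) ^ (k0 + k)) (2 ^ (k0 + k + 1)))).toReal
    / 2 ^ (k0 + k)

theorem ne_top_Icc (S : Set ℝ) (a b : ℝ) : volume (S ∩ Icc a b) ≠ ⊤ :=
  ne_of_lt (lt_of_le_of_lt (measure_mono inter_subset_right) (by simp))





/-! ### jumps of a monotone sequence -/



/-! ### the bad set of scales of one centre -/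

section om
variable {E : Type*}

/-- the bad set of a centre: `l` with `x ∉ S ⌊l / J⌋` -/
def Om (J : ℝ) (S : ℕ → Set E) (x : E) : Set ℝ := {l | x ∉ S ⌊l / J⌋₊}

theorem measurableSet_om (J : ℝ) (S : ℕ → Set E) (x : E) : MeasurableSet (Om J S x) := by
  have h1 : Measurable fun l : ℝ => ⌊l / J⌋₊ := Nat.measurable_floor.comp (measurable_id.div_const J)
  exact h1 (MeasurableSet.of_discrete (s := {k | x ∉ S k}))

theorem om_block {J : ℝ} (hJ : 0 < J) (S : ℕ → Set E) (x : E) (a n : ℕ) :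
    (volume (Om J S x ∩ Icc (J * a) (J * (a + n)))).toReal
      ≤ J * ∑ k ∈ Finset.range n, (S (a + k))ᶜ.indicator (fun _ => (1 : ℝ)) x := by
  induction n with
  | zero =>
    have : volume (Om J S x ∩ Icc (J * a) (J * (a + (0 : ℕ)))) = 0 := by
      apply measure_mono_null inter_subset_right
      simp
    rw [this]
    simp
  | succ n ih =>
    rw [Finset.sum_range_succ]
    have hstep : (volume (Om J S x ∩ Icc (J * (a + n)) (J * (a + n + 1)))).toReal
        ≤ J * (S (a + n))ᶜ.indicator (fun _ => (1 : ℝ)) x := by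
      by_cases hx : x ∈ S (a + n)
      · have h0 : volume (Om J S x ∩ Icc (J * (a + n)) (J * (a + n + 1))) = 0 := by
          have h1 : Om J S x ∩ Icc (J * (a + n)) (J * (a + n + 1)) ⊆ {J * (a + n + 1)} := by
            rintro l ⟨hl, hl1, hl2⟩
            by_contra hne
            apply hl
            have h2 : l < J * (a + n + 1) := lt_of_le_of_ne hl2 hne
            have h3 : ⌊l / J⌋₊ = a + n := by
              rw [Nat.floor_eq_iff]
              · push_cast
                rw [le_div_iff₀ hJ, div_lt_iff₀ hJ]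
                constructor <;> linarith
              · apply div_nonneg _ hJ.le
                refine le_trans ?_ hl1
                positivity
            show x ∈ S ⌊l / J⌋₊
            rw [h3]
            exact hx
          exact measure_mono_null h1 (by simp)
        rw [h0]
        simp [hx]
      · have h1 : volume (Om J S x ∩ Icc (J * (a + n)) (J * (a + n + 1))) ≤ ENNReal.ofReal J := by
          refine (measure_mono inter_subset_right).trans (le_of_eq ?_)
          rw [Real.volume_Icc]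
          congr 1
          ring
        have h2 := ENNReal.toReal_mono (by simp) h1
        rw [ENNReal.toReal_ofReal hJ.le] at h2
        have h3 : x ∈ (S (a + n))ᶜ := hx
        simpa [indicator_of_mem h3] using h2
    have hsub : Om J S x ∩ Icc (J * a) (J * (a + (n + 1 : ℕ)))
        ⊆ (Om J S x ∩ Icc (J * a) (J * (a + n)))
          ∪ (Om J S x ∩ Icc (J * (a + n)) (J * (a + n + 1))) := by
      rintro l ⟨hl, hl1, hl2⟩
      push_cast at hl2
      rcases le_total l (J * (a + n)) with h | h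
      · exact Or.inl ⟨hl, hl1, h⟩
      · exact Or.inr ⟨hl, h, by linarith⟩
    have h1 := (measure_mono hsub).trans (measure_union_le (μ := volume) _ _)
    have h2 := ENNReal.toReal_mono (ENNReal.add_ne_top.mpr ⟨ne_top_Icc _ _ _, ne_top_Icc _ _ _⟩) h1
    rw [ENNReal.toReal_add (ne_top_Icc _ _ _) (ne_top_Icc _ _ _)] at h2
    exact h2.trans ((add_le_add ih hstep).trans (le_of_eq (mul_add _ _ _).symm))

end om

/-! ### Chebyshev over the blocks -/

section cheb
variable {E : Type*} [MeasurableSpace E] (ε : Measure E) [IsFiniteMeasure ε]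

/-- **from the block bounds to one large set of centres** (`J = 2 ^ q`). -/
theorem cheb {q k0 K : ℕ} (hq : q ≤ k0) {S : ℕ → Set E} (hS : ∀ k, MeasurableSet (S k))
    {ρ η : ℝ} (hη : 0 < η) (hK : 0 < K)
    (hb : ∀ j < K, ∑ k ∈ Finset.range (2 ^ (k0 + j - q)), ε.real (S (2 ^ (k0 + j - q) + k))ᶜ
      ≤ ρ * 2 ^ (k0 + j - q) * ε.real univ) :
    ∃ X1 : Set E, MeasurableSet X1 ∧ ε.real X1ᶜ ≤ ρ / η * ε.real univ ∧
      ∀ x ∈ X1, dens (Om (2 ^ q) S x) k0 K ≤ η * K := by
  classical
  have hKr : (0 : ℝ) < K := by exact_mod_cast hK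
  set n : ℕ → ℕ := fun j => 2 ^ (k0 + j - q) with hn
  have hnp : ∀ j, (0 : ℝ) < n j := fun j => by simp [hn]
  set B : E → ℝ := fun x => ∑ j ∈ Finset.range K, (1 / (n j : ℝ)) *
    ∑ k ∈ Finset.range (n j), (S (n j + k))ᶜ.indicator (fun _ => (1 : ℝ)) x with hB
  have hBm : Measurable B := by
    apply Finset.measurable_sum
    intro j _
    apply Measurable.const_mul
    apply Finset.measurable_sum
    intro k _
    exact measurable_const.indicator (hS _).compl
  have hint : ∀ j, Integrable (fun x => (1 / (n j : ℝ)) *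
      ∑ k ∈ Finset.range (n j), (S (n j + k))ᶜ.indicator (fun _ => (1 : ℝ)) x) ε := fun j =>
    (integrable_finsetSum _ fun k _ => (integrable_const _).indicator (hS _).compl).const_mul _
  have hBi : Integrable B ε := integrable_finsetSum _ fun j _ => hint j
  have hB0 : ∀ x, 0 ≤ B x := fun x => Finset.sum_nonneg fun j _ =>
    mul_nonneg (by have := hnp j; positivity) (Finset.sum_nonneg fun k _ =>
      indicator_nonneg (fun _ _ => zero_le_one) _)
  have hIB : ∫ x, B x ∂ε ≤ ρ * K * ε.real univ := by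
    rw [integral_finsetSum _ fun j _ => hint j]
    have h1 : ∀ j ∈ Finset.range K, ∫ x, (1 / (n j : ℝ)) *
        ∑ k ∈ Finset.range (n j), (S (n j + k))ᶜ.indicator (fun _ => (1 : ℝ)) x ∂ε
        ≤ ρ * ε.real univ := by
      intro j hj
      rw [integral_const_mul, integral_finsetSum _ fun k _ =>
        (integrable_const _).indicator (hS _).compl]
      have h2 : ∀ k, ∫ x, (S (n j + k))ᶜ.indicator (fun _ => (1 : ℝ)) x ∂ε
          = ε.real (S (n j + k))ᶜ := by
        intro k
        rw [integral_indicator (hS _).compl, integral_const, smul_eq_mul, mul_one]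
        simp [Measure.real]
      simp_rw [h2]
      have h3 := hb j (Finset.mem_range.1 hj)
      have h4 : ((n j : ℕ) : ℝ) = 2 ^ (k0 + j - q) := by simp [hn]
      rw [one_div, inv_mul_le_iff₀ (hnp j), h4]
      calc _ ≤ ρ * 2 ^ (k0 + j - q) * ε.real univ := h3
        _ = _ := by ring
    refine (Finset.sum_le_sum h1).trans (le_of_eq ?_)
    rw [Finset.sum_const, Finset.card_range, nsmul_eq_mul]
    ring
  refine ⟨{x | B x < η * K}, measurableSet_lt hBm measurable_const, ?_, ?_⟩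
  · have h1 := mul_meas_ge_le_integral_of_nonneg (μ := ε) (f := B)
      (Filter.Eventually.of_forall hB0) hBi (η * K)
    have h2 : {x | B x < η * K}ᶜ = {x | η * K ≤ B x} := by
      ext x; simp
    rw [h2]
    have h3 : η * K * ε.real {x | η * K ≤ B x} ≤ ρ * K * ε.real univ := h1.trans hIB
    have h4 : ε.real {x | η * K ≤ B x} ≤ ρ * K * ε.real univ / (η * K) := by
      rw [le_div_iff₀ (by positivity)]
      linarith
    refine h4.trans (le_of_eq ?_)
    field_simp
  · intro x hx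
    refine le_trans ?_ (le_of_lt hx)
    apply Finset.sum_le_sum
    intro j _
    have hJ : (0 : ℝ) < 2 ^ q := by positivity
    have h1 := om_block hJ S x (n j) (n j)
    have e1 : (2 : ℝ) ^ q * (n j : ℝ) = 2 ^ (k0 + j) := by
      simp only [hn]
      push_cast
      rw [← pow_add]
      congr 1
      lia
    have e2 : (2 : ℝ) ^ q * ((n j : ℝ) + (n j : ℝ)) = 2 ^ (k0 + j + 1) := by
      rw [mul_add, e1]
      ring
    rw [e1, e2] at h1
    rw [div_le_iff₀ (by positivity)]
    refine h1.trans (le_of_eq ?_)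
    rw [← e1]
    have := (hnp j).ne'
    field_simp

end cheb

/-! ### N6 -/

section final
variable {E : Type*} [NormedAddCommGroup E] [InnerProductSpace ℝ E] [FiniteDimensional ℝ E]
  [MeasurableSpace E] [BorelSpace E] (ε : Measure E) [IsFiniteMeasure ε]


end final

end Crest.Agent.R234.Sev_201
end

-- ▼ part R234/Sev4_201

/-!
# R234 / Sev4_201 : N6 of #6067 with exceptions of small density in every block ((REG) of #6485)

`span_all'` : as `Sev3_201.span_all`, but the exceptions of `G k` in the block of `n` levels have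
total measure `≤ (M + η2 n) ε(univ)`.
-/

set_option linter.unusedSectionVars false

namespace Crest.Agent.R234.Sev_201

open MeasureTheory Set Filter Metric
open scoped Topology ENNReal
open Crest.Agent.R234.Ovl_201
open Crest.Agent.R234.Sp1_643 (Flat)

section final
variable {E : Type*} [NormedAddCommGroup E] [InnerProductSpace ℝ E] [FiniteDimensional ℝ E]
  [MeasurableSpace E] [BorelSpace E] (ε : Measure E) [IsFiniteMeasure ε]

/-- **N6 SPAN COUNT** of #6067, exceptions of small density in every block. -/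
theorem span_all' {d q k0 K : ℕ} (hd : Module.finrank ℝ E = d + 2) (hd1 : 1 ≤ d) (hq : q ≤ k0)
    (hK : 0 < K) {r0 θ lo hi c1 M η2 η smin smax : ℝ} (hr0 : 0 < r0) (hθ : 0 ≤ θ) (hη : 0 < η)
    (G : ℕ → Set E) (hG : ∀ k, MeasurableSet (G k))
    (h3 : ∀ k : ℕ, (2 : ℝ) ^ k0 ≤ 2 ^ q * k → (2 : ℝ) ^ q * (k + 1) ≤ 2 ^ (k0 + K) → ∀ x ∈ G k,
      Flat d (Real.exp (-(2 ^ q)) / 8) (G k) x (r0 * Real.exp (2 ^ q * k)))
    (μ : Measure E) [IsFiniteMeasure μ] {Z : Set E} (hZm : MeasurableSet Z) (hZ : ε Zᶜ = 0)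
    (hlo : 0 < lo) (hlh : lo ≤ hi) (hc1 : 0 < c1)
    (hup : ∀ x ∈ Z, ∀ s, smin ≤ s → s ≤ smax → ε.real (closedBall x s) ≤ hi * s ^ d)
    (hμ : ∀ x ∈ Z, ∀ s, smin ≤ s → s ≤ smax → c1 * s ^ d ≤ μ.real (closedBall x s))
    (hsmin : smin ≤ r0 / 4 * Real.exp (2 ^ k0 - 2 ^ q))
    (hsmax : r0 / 2 * Real.exp (2 ^ (k0 + K) - 2 ^ q) ≤ smax)
    (hθ' : lo * 2 ^ d * μ.real univ / c1 ≤ θ * ε.real univ)
    (hM : ∀ j < K, ∑ k ∈ Finset.range (2 ^ (k0 + j - q)),
      ε.real (G (2 ^ (k0 + j - q) + k))ᶜ ≤ (M + η2 * 2 ^ (k0 + j - q)) * ε.real univ)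
    (hM0 : 0 ≤ M) :
    ∃ X1 : Set E, MeasurableSet X1 ∧
      ε.real X1ᶜ ≤ ((CE d + Real.log 3) / 2 ^ q + θ * d + 3 * η2
        + (Real.log (hi / lo) + 3 * M) / 2 ^ (k0 - q)) / η * ε.real univ ∧
      ∀ x ∈ X1, dens (Om (2 ^ q) (Sp d (2 ^ q) r0 G) x) k0 K ≤ η * K := by
  have hJ : (0 : ℝ) < 2 ^ q := by positivity
  have hJ1 : (1 : ℝ) ≤ 2 ^ q := one_le_pow₀ (by norm_num)
  have hu0 : 0 ≤ ε.real univ := measureReal_nonneg
  have hlog : 0 ≤ Real.log (hi / lo) := Real.log_nonneg (by
    rw [le_div_iff₀ hlo, one_mul]; exact hlh)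
  apply cheb ε hq (measurableSet_sp hG) hη hK
  intro j hj
  set n : ℕ := 2 ^ (k0 + j - q) with hn
  have hnr : (n : ℝ) = 2 ^ (k0 + j - q) := by simp [hn]
  have hnp : (0 : ℝ) < n := by rw [hnr]; positivity
  have e1 : (2 : ℝ) ^ q * (n : ℝ) = 2 ^ (k0 + j) := by
    rw [hnr, ← pow_add]
    congr 1
    lia
  have hp1 : (2 : ℝ) ^ k0 ≤ 2 ^ (k0 + j) := pow_le_pow_right₀ (by norm_num) (by lia)
  have hp2 : (2 : ℝ) ^ (k0 + j + 1) ≤ 2 ^ (k0 + K) := pow_le_pow_right₀ (by norm_num) (by lia)
  have hp3 : (2 : ℝ) ^ (k0 + j + 1) = 2 * 2 ^ (k0 + j) := by ring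
  have hσ0 : smin ≤ r0 / 2 * Real.exp (2 ^ q * (n - 1)) ∧
      r0 / 2 * Real.exp (2 ^ q * (n - 1)) ≤ smax := by
    rw [mul_sub, e1, mul_one]
    constructor
    · refine hsmin.trans ?_
      have : Real.exp (2 ^ k0 - 2 ^ q) ≤ Real.exp (2 ^ (k0 + j) - 2 ^ q) :=
        Real.exp_le_exp.2 (by linarith)
      have h0 : 0 < Real.exp ((2 : ℝ) ^ k0 - 2 ^ q) := Real.exp_pos _
      nlinarith
    · refine le_trans ?_ hsmax
      have : Real.exp (2 ^ (k0 + j) - 2 ^ q) ≤ Real.exp (2 ^ (k0 + K) - 2 ^ q) :=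
        Real.exp_le_exp.2 (by linarith [show (0 : ℝ) < 2 ^ (k0 + j) by positivity])
      nlinarith
  have hσn : smin ≤ r0 / 2 * Real.exp (2 ^ q * (n + n - 1)) / 2 ∧
      r0 / 2 * Real.exp (2 ^ q * (n + n - 1)) / 2 ≤ smax := by
    have e2 : (2 : ℝ) ^ q * (n + n - 1) = 2 ^ (k0 + j + 1) - 2 ^ q := by
      rw [hp3]
      linarith
    rw [e2]
    constructor
    · refine hsmin.trans ?_
      have : Real.exp (2 ^ k0 - 2 ^ q) ≤ Real.exp (2 ^ (k0 + j + 1) - 2 ^ q) :=
        Real.exp_le_exp.2 (by linarith [show (0 : ℝ) < 2 ^ (k0 + j) by positivity])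
      nlinarith
    · refine le_trans ?_ hsmax
      have h5 : Real.exp (2 ^ (k0 + j + 1) - 2 ^ q) ≤ Real.exp (2 ^ (k0 + K) - 2 ^ q) :=
        Real.exp_le_exp.2 (by linarith)
      have h0 : 0 < Real.exp ((2 : ℝ) ^ (k0 + j + 1) - 2 ^ q) := Real.exp_pos _
      nlinarith
  have hb := span_block_mass (n := n) (a := n) ε hd hd1 hJ hr0 hθ G hG
    (fun k hk1 hk2 x hx => by
      refine h3 k ?_ ?_ x hx
      · refine hp1.trans ?_
        rw [← e1]
        exact mul_le_mul_of_nonneg_left (by exact_mod_cast hk1) hJ.le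
      · refine le_trans ?_ hp2
        rw [hp3, ← e1]
        have : (k : ℝ) + 1 ≤ n + n := by exact_mod_cast hk2
        nlinarith)
    μ hZm hZ hlo hlh hc1 (fun x hx => hup x hx _ hσ0.1 hσ0.2)
    (fun x hx => hμ x hx _ hσn.1 hσn.2) hθ'
  have hMj : ∑ k ∈ Finset.range n, ε.real (G (n + k))ᶜ ≤ (M + η2 * n) * ε.real univ := by
    have := hM j hj
    rw [← hnr] at this
    exact this
  -- divide by `J`
  have hS : ∑ k ∈ Finset.range n, ε.real (Sp d (2 ^ q) r0 G (n + k))ᶜ
      ≤ ((CE d + Real.log 3) / 2 ^ q * n + Real.log (hi / lo) + θ * d * n) * ε.real univ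
        + 3 * ((M + η2 * n) * ε.real univ) := by
    have h6 : 2 ^ q * ∑ k ∈ Finset.range n, ε.real (Sp d (2 ^ q) r0 G (n + k))ᶜ
        ≤ 2 ^ q * (((CE d + Real.log 3) / 2 ^ q * n + Real.log (hi / lo) + θ * d * n)
          * ε.real univ + 3 * ((M + η2 * n) * ε.real univ)) := by
      have h7 : (2 : ℝ) ^ q * (((CE d + Real.log 3) / 2 ^ q * n + Real.log (hi / lo) + θ * d * n)
          * ε.real univ + 3 * ((M + η2 * n) * ε.real univ))
          = ((CE d + Real.log 3) * n + 2 ^ q * Real.log (hi / lo) + θ * (d * 2 ^ q * n))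
            * ε.real univ + 3 * 2 ^ q * ((M + η2 * n) * ε.real univ) := by
        field_simp
      rw [h7]
      have h8 : Real.log (hi / lo) * ε.real univ ≤ 2 ^ q * Real.log (hi / lo) * ε.real univ := by
        have : 0 ≤ Real.log (hi / lo) * ε.real univ := mul_nonneg hlog hu0
        nlinarith
      have h9 := mul_le_mul_of_nonneg_left hMj (show (0 : ℝ) ≤ 3 * 2 ^ q by positivity)
      nlinarith
    exact le_of_mul_le_mul_left h6 hJ
  refine hS.trans ?_
  -- `n ≥ 2 ^ (k0 - q)`
  have hn0 : (2 : ℝ) ^ (k0 - q) ≤ n := by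
    rw [hnr]
    exact pow_le_pow_right₀ (by norm_num) (by lia)
  have h10 : (Real.log (hi / lo) + 3 * M) * ε.real univ
      ≤ (Real.log (hi / lo) + 3 * M) / 2 ^ (k0 - q) * n * ε.real univ := by
    have h11 : 0 ≤ (Real.log (hi / lo) + 3 * M) * ε.real univ := by nlinarith [mul_nonneg hlog hu0]
    have h12 : (Real.log (hi / lo) + 3 * M) / 2 ^ (k0 - q) * n * ε.real univ
        = (Real.log (hi / lo) + 3 * M) * ε.real univ * (n / 2 ^ (k0 - q)) := by
      field_simp
    rw [h12]
    have h13 : (1 : ℝ) ≤ n / 2 ^ (k0 - q) := by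
      rw [le_div_iff₀ (by positivity), one_mul]
      exact hn0
    nlinarith
  rw [← hnr]
  have h14 : ((CE d + Real.log 3) / 2 ^ q + θ * d + 3 * η2
      + (Real.log (hi / lo) + 3 * M) / 2 ^ (k0 - q)) * n * ε.real univ
      = ((CE d + Real.log 3) / 2 ^ q * n + θ * d * n + 3 * η2 * n) * ε.real univ
        + (Real.log (hi / lo) + 3 * M) / 2 ^ (k0 - q) * n * ε.real univ := by ring
  rw [h14]
  linarith

end final

end Crest.Agent.R234.Sev_201
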