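import Mathlib

/-!
# Smooth modification of a function away from a ball (helper290)

`w` of class `C^(N+1)` with bounded derivatives, smooth on `ball X0 R`. For `R' < R` there is a
smooth `w'` with `w' = w` on `ball X0 R'` and derivatives up to the order `N` bounded by those of
`w` plus `η`.
-/

set_option autoImplicit false
set_option linter.unusedVariables false
set_option linter.unusedSectionVars false

open MeasureTheory Metric Set Function Filter Topology
open scoped ContDiff Convolution

noncomputable section

namespace Crest.Agent.R234.Sme_290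

variable {E F G : Type*} [NormedAddCommGroup E] [InnerProductSpace ℝ E] [FiniteDimensional ℝ E]
  [MeasurableSpace E] [BorelSpace E] [NormedAddCommGroup F] [NormedSpace ℝ F] [CompleteSpace F]
  [NormedAddCommGroup G] [NormedSpace ℝ G] [CompleteSpace G]

/-- mollification -/
def mo (φ : ContDiffBump (0 : E)) (f : E → F) (x : E) : F :=
  ∫ t, φ.normed volume t • f (x - t)

theorem mo_eq (φ : ContDiffBump (0 : E)) (f : E → F) :
    mo φ f = (φ.normed volume) ⋆[ContinuousLinearMap.lsmul ℝ ℝ, volume] f := by
  funext x; rfl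

theorem int_mo (φ : ContDiffBump (0 : E)) {f : E → F} (hf : Continuous f) (x : E) :
    Integrable (fun t => φ.normed volume t • f (x - t)) := by
  refine Continuous.integrable_of_hasCompactSupport ?_ ?_
  · exact φ.continuous_normed.smul (hf.comp (continuous_const.sub continuous_id))
  · exact φ.hasCompactSupport_normed.smul_right

theorem contDiff_mo (φ : ContDiffBump (0 : E)) {f : E → F} (hf : Continuous f) :
    ContDiff ℝ ∞ (mo φ f) := by
  rw [mo_eq]
  exact φ.hasCompactSupport_normed.contDiff_convolution_left _ φ.contDiff_normed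
    hf.locallyIntegrable


theorem norm_sub_mo_le (φ : ContDiffBump (0 : E)) {f : E → F} (hf : Differentiable ℝ f) {b : ℝ}
    (hb : ∀ y, ‖fderiv ℝ f y‖ ≤ b) (x : E) : ‖f x - mo φ f x‖ ≤ φ.rOut * b := by
  have hfc : Continuous f := hf.continuous
  have h0 : f x - mo φ f x = ∫ t, φ.normed volume t • (f x - f (x - t)) := by
    have h1 : ∀ t, φ.normed volume t • (f x - f (x - t)) =
        φ.normed volume t • f x - φ.normed volume t • f (x - t) := fun t => smul_sub _ _ _
    simp_rw [h1]
    rw [integral_sub (φ.integrable_normed.smul_const (f x)) (int_mo φ hfc x),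
      φ.integral_normed_smul]
    rfl
  rw [h0]
  have h1 : ‖∫ t, φ.normed volume t • (f x - f (x - t))‖ ≤
      ∫ t, φ.normed volume t * (φ.rOut * b) := by
    refine norm_integral_le_of_norm_le (φ.integrable_normed.mul_const _)
      (Eventually.of_forall fun t => ?_)
    rw [norm_smul, Real.norm_of_nonneg (φ.nonneg_normed t)]
    by_cases ht : t ∈ ball (0 : E) φ.rOut
    · refine mul_le_mul_of_nonneg_left ?_ (φ.nonneg_normed t)
      have h2 := (convex_univ : Convex ℝ (univ : Set E)).norm_image_sub_le_of_norm_fderiv_le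
        (𝕜 := ℝ) (f := f) (C := b) (fun y _ => hf y) (fun y _ => hb y) (mem_univ (x - t))
        (mem_univ x)
      refine h2.trans ?_
      have h3 : x - (x - t) = t := by abel
      rw [h3, mul_comm]
      refine mul_le_mul_of_nonneg_right (mem_ball_zero_iff.1 ht).le ?_
      exact (norm_nonneg _).trans (hb 0)
    · have h2 : φ.normed volume t = 0 := by
        rw [← Function.notMem_support, φ.support_normed_eq]
        exact ht
      rw [h2, zero_mul, zero_mul]
  rwa [integral_mul_const, φ.integral_normed, one_mul] at h1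

theorem hasFDerivAt_mo (φ : ContDiffBump (0 : E)) {f : E → F} (hf : ContDiff ℝ 1 f) {b : ℝ}
    (hb : ∀ y, ‖fderiv ℝ f y‖ ≤ b) (x : E) : HasFDerivAt (mo φ f) (mo φ (fderiv ℝ f) x) x := by
  have hfc : Continuous f := hf.continuous
  have hdc : Continuous (fderiv ℝ f) := hf.continuous_fderiv (by norm_num)
  have hd : Differentiable ℝ f := hf.differentiable (by norm_num)
  refine hasFDerivAt_integral_of_dominated_of_fderiv_le (s := univ)
    (F := fun x t => φ.normed volume t • f (x - t))
    (F' := fun x t => φ.normed volume t • fderiv ℝ f (x - t))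
    (bound := fun t => φ.normed volume t * b) univ_mem ?_ ?_ ?_ ?_ ?_ ?_
  · exact Eventually.of_forall fun y => (int_mo φ hfc y).aestronglyMeasurable
  · exact int_mo φ hfc x
  · exact (int_mo φ hdc x).aestronglyMeasurable
  · refine Eventually.of_forall fun t y _ => ?_
    rw [norm_smul, Real.norm_of_nonneg (φ.nonneg_normed t)]
    exact mul_le_mul_of_nonneg_left (hb _) (φ.nonneg_normed t)
  · exact φ.integrable_normed.mul_const b
  · refine Eventually.of_forall fun t y _ => ?_
    have h1 : HasFDerivAt (fun y : E => f (y - t)) (fderiv ℝ f (y - t)) y := by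
      have h2 := (hd (y - t)).hasFDerivAt.comp y ((hasFDerivAt_id y).sub_const t)
      simpa [Function.comp_def] using h2
    exact h1.const_smul _

theorem clm_mo (φ : ContDiffBump (0 : E)) (L : F ≃L[ℝ] G) (f : E → F) (x : E) :
    L (mo φ f x) = mo φ (fun y => L (f y)) x := by
  unfold mo
  rw [← ContinuousLinearEquiv.integral_comp_comm]
  congr 1
  funext t
  rw [map_smul]

theorem iter_mo (φ : ContDiffBump (0 : E)) {f : E → F} : ∀ (N : ℕ), ContDiff ℝ N f →
    (∀ j, 1 ≤ j → j ≤ N → ∃ b, ∀ y, ‖iteratedFDeriv ℝ j f y‖ ≤ b) →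
    iteratedFDeriv ℝ N (mo φ f) = mo φ (iteratedFDeriv ℝ N f) := by
  intro N
  induction N with
  | zero =>
    intro hf _
    funext x
    rw [iteratedFDeriv_zero_eq_comp, iteratedFDeriv_zero_eq_comp]
    exact clm_mo φ (continuousMultilinearCurryFin0 ℝ E F).symm.toContinuousLinearEquiv f x
  | succ N ih =>
    intro hf hb
    have hf' : ContDiff ℝ N f := hf.of_le (by exact_mod_cast Nat.le_succ N)
    have h1 := ih hf' fun j h1 h2 => hb j h1 (by omega)
    funext x
    rw [iteratedFDeriv_succ_eq_comp_left, iteratedFDeriv_succ_eq_comp_left, h1]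
    obtain ⟨b, hb1⟩ := hb (N + 1) (by omega) le_rfl
    have h2 : ContDiff ℝ 1 (iteratedFDeriv ℝ N f) :=
      hf.iteratedFDeriv_right (by norm_cast; omega)
    have h3 := (hasFDerivAt_mo φ h2 (b := b) (fun y => by
      rw [norm_fderiv_iteratedFDeriv]; exact hb1 y) x).fderiv
    simp only [comp_apply]
    rw [h3]
    exact clm_mo (F := E →L[ℝ] ContinuousMultilinearMap ℝ (fun _ : Fin N => E) F)
      (G := ContinuousMultilinearMap ℝ (fun _ : Fin (N + 1) => E) F) φ
      (continuousMultilinearCurryLeftEquiv ℝ (fun _ : Fin (N + 1) => E)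
      F).symm.toContinuousLinearEquiv (fderiv ℝ (iteratedFDeriv ℝ N f)) x


end Crest.Agent.R234.Sme_290
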