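import Crest.Agent.R234.Stp4_518
import Crest.Agent.R234.Mono1_757
import Crest.Agent.R234.Lvs1_214
import Crest.Agent.R234.End8_395

-- ▼ part R234/Stp5_518
section

/-!
# Row 234, F7-STEPV (helper518), part 5: positivity, situation of a flat level, `Out` of a state

* `on_of_sit`, `I_posm` : positivity of `I` upwards (757).
* `sit_of` : 395's flat package for a reference at a flat level.
* `Near.mono`, `Near.trans`, `lam_near`.
* `out_sta` : `Out` from GLP.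
-/

set_option autoImplicit false
set_option linter.unusedVariables false

open MeasureTheory Filter Topology Set
open scoped ENNReal NNReal ContDiff
open Crest.GeometryTopology.Submanifold Crest.Agent.R234.Vf_884
open Crest.Agent.R234.Main_456 (Frame Msys hgt)
open Crest.Agent.R234.MG_570 (MG SelP3 bar)
open Crest.Agent.R234.F10d_188 (flatL)

noncomputable section

namespace Crest.Agent.R234.Stp_518

variable {m n k : ℕ}

/-! ### positivity -/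

/-- constant of the class: `Gr` and positivity of `I` upwards. -/
theorem I_posm (m n : ℕ) {N : ℕ} (hN : 2 ≤ N) : ∃ κ₀ : ℝ, 0 < κ₀ ∧
    ∀ {k : ℕ} {U : Set (Euc k)} {D : VarifoldData m k} {Q : ℕ} {x : Euc k} {M : Mo m n k}
      {ε Λ R : ℝ}, Sit U D Q x M ε Λ → 0 ≤ M.κ → M.κ ≤ κ₀ → MG N M.κ R M.u →
      ∀ {l l' : ℝ}, l ≤ l' → 0 < M.I x (VD D) l →
        0 < M.I x (VD D) l' ∧
          M.I x (VD D) l ≤ Real.exp (m * (l' - l)) * M.I x (VD D) l' := by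
  obtain ⟨C, hC, H⟩ := Lvs_214.exists_wb m n hN
  refine ⟨1 / (8 * C), by positivity, ?_⟩
  intro k U D Q x M ε Λ R hs hκ0 hκ hMG l l' hl hI
  have hCκ : C * M.κ ≤ 1 / 8 := by
    have h1 : C * M.κ ≤ C * (1 / (8 * C)) := mul_le_mul_of_nonneg_left hκ (by linarith)
    have h2 : C * (1 / (8 * C)) = 1 / 8 := by
      have : C ≠ 0 := by linarith
      field_simp
    linarith
  have hw := H hκ0 hCκ hMG
  have hf := hs.pack.frame
  have hst : Stat m k U (VD D) := stat_VD hs.int hs.st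
  have hon := Mo.on_of_subset hw.gr hst ((hw.reg_sub_ball hf).trans hs.sub)
  exact ⟨Mo.I_pos_mono hw.gr hf hon hl hI, Mo.I_mono hw.gr hf hon hl⟩

/-! ### the situation at a flat level -/

theorem sit_of (m n N Q : ℕ) (hm : 1 ≤ m) (hQ : 1 ≤ Q) (T : ℝ) (hT : 0 ≤ T) :
    ∃ Λ : ℝ, 1 ≤ Λ ∧ ∀ ε c₀ : ℝ, 0 < ε → T + 3 ≤ c₀ →
    ∃ κ₀ η om : ℝ, 0 < κ₀ ∧ 0 < η ∧ 0 < om ∧
      ∀ (U : Set (Euc (m + n))) (D : VarifoldData m (m + n)) (x : Euc (m + n)) (om' r₁ : ℝ)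
        (M : Mo m n (m + n)) (l R : ℝ), om' ≤ om → Env m U D Q x om' r₁ →
        flatL m (VD D) x om' c₀ r₁ l → l ≤ M.lb → M.lb ≤ l + T → Frame M.π M.ρ →
        0 ≤ M.κ → M.κ ≤ κ₀ → MG N M.κ R M.u →
        SupLe M x (VD D) (Real.exp (l - M.lb)) η → Sit U D Q x M ε Λ := by
  obtain ⟨Λ, hΛ, H⟩ := End_395.pack_mo m n (m + n) N Q hm hQ T hT
  refine ⟨Λ, hΛ, ?_⟩
  intro ε c₀ hε hc₀
  obtain ⟨ww, κ₀, η, hww, hww1, hκ₀, hη, H1⟩ := H (min ε (1 / 2)) (by positivity)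
    (lt_of_le_of_lt (min_le_right _ _) (by norm_num))
  refine ⟨κ₀, η, ww * Real.exp (-((m + 2) * c₀)), hκ₀, hη, by positivity, ?_⟩
  intro U D x om' r₁ M l R hom henv hfl hl1 hl2 hf hκ0 hκ hMG hsup
  have hS := M.S_pos
  have hst : Stat m (m + n) U (VD D) := stat_VD henv.int henv.st
  obtain ⟨hr, P, hP, hPe⟩ := hfl
  have hcS : c₀ ≤ c₀ := le_rfl
  have hmc : Real.exp (-((m + 2) * c₀)) ≤ 1 := Real.exp_le_one_iff.2 (by
    have : 0 ≤ ((m:ℝ) + 2) * c₀ := by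
      have : 0 ≤ c₀ := by linarith
      positivity
    linarith)
  have hom1 : om' ≤ ww := hom.trans (by nlinarith)
  have h8 : 8 * M.S ≤ Real.exp (l + c₀) := by
    have h1 : (8:ℝ) ≤ Real.exp 3 := by
      have h2 := Real.add_one_le_exp (1:ℝ)
      have h3 : Real.exp 3 = Real.exp 1 ^ 3 := by
        rw [← Real.exp_nat_mul]; norm_num
      rw [h3]
      have h4 : (2:ℝ) ≤ Real.exp 1 := by linarith
      calc (8:ℝ) = 2 ^ 3 := by norm_num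
        _ ≤ _ := pow_le_pow_left₀ (by norm_num) h4 3
    calc 8 * M.S ≤ Real.exp 3 * M.S := mul_le_mul_of_nonneg_right h1 hS.le
      _ = Real.exp (3 + M.lb) := by unfold Mo.S; rw [Real.exp_add]
      _ ≤ Real.exp (l + c₀) := Real.exp_le_exp.2 (by linarith)
  have h8r : 8 * M.S ≤ r₁ := h8.trans hr
  have hsub : Metric.closedBall x (8 * M.S) ⊆ U :=
    (Metric.closedBall_subset_closedBall h8r).trans henv.sub
  have hlS : Real.exp l ≤ M.S := Real.exp_le_exp.2 hl1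
  have hflat : Top_395.FlatAt m (VD D) x ww (8 * M.S) := by
    refine ⟨P, hP, ?_⟩
    have h1 := Top_395.pex_mono (P := P) (m := m) hst (by positivity) h8
      ((Metric.closedBall_subset_closedBall hr).trans henv.sub)
    have h2 : Real.exp (l + c₀) ^ (m + 2) * Top_395.pex m (VD D) P x (Real.exp (l + c₀)) ≤
        Real.exp (l + c₀) ^ (m + 2) * om' := mul_le_mul_of_nonneg_left hPe (by positivity)
    have h3 : Real.exp (l + c₀) ^ (m + 2) = Real.exp l ^ (m + 2) * Real.exp ((m + 2) * c₀) := by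
      rw [Real.exp_add, mul_pow, ← Real.exp_nat_mul c₀]; push_cast; rfl
    have h4 : Real.exp l ^ (m + 2) ≤ (8 * M.S) ^ (m + 2) :=
      pow_le_pow_left₀ (Real.exp_pos _).le (by linarith) _
    have h5 : Real.exp ((m + 2) * c₀) * om' ≤ ww := by
      calc Real.exp ((m + 2) * c₀) * om' ≤
            Real.exp ((m + 2) * c₀) * (ww * Real.exp (-((m + 2) * c₀))) :=
            mul_le_mul_of_nonneg_left hom (Real.exp_pos _).le
        _ = ww * (Real.exp ((m + 2) * c₀) * Real.exp (-((m + 2) * c₀))) := by ring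
        _ = ww := by rw [← Real.exp_add]; simp
    have h6 : (8 * M.S) ^ (m + 2) * Top_395.pex m (VD D) P x (8 * M.S) ≤
        (8 * M.S) ^ (m + 2) * ww := by
      refine (h1.trans h2).trans ?_
      rw [h3, mul_assoc]
      calc Real.exp l ^ (m + 2) * (Real.exp ((m + 2) * c₀) * om') ≤ Real.exp l ^ (m + 2) * ww :=
            mul_le_mul_of_nonneg_left h5 (by positivity)
        _ ≤ _ := mul_le_mul_of_nonneg_right h4 hww.le
    exact le_of_mul_le_mul_left h6 (by positivity)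
  have hrat : rat m (VD D) x (8 * M.S) ≤ (Q : ℝ≥0∞) + ENNReal.ofReal ww := by
    refine (henv.drop _ (by positivity) h8r).trans ?_
    gcongr
  have hp := H1 U D x M l R henv.opn henv.int henv.st henv.Th hsub hrat hf hκ0 hκ hMG
    (by linarith) hsup hflat
  have hs : Sit U D Q x M (min ε (1 / 2)) Λ := ⟨henv.opn, henv.int, henv.st, hQ, henv.Th, hsub, hp⟩
  exact hs.mono (min_le_left _ _)

/-! ### closeness -/

theorem Near.mono {I E I' E' : ℝ → ℝ} {l K θ θ' : ℝ} (h : Near I E I' E' l K θ) (hθ : θ ≤ θ')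
    (hI : ∀ y ∈ Icc (l - 2 / K) l, 0 < I y) : Near I E I' E' l K θ' := fun y hy =>
  ⟨(h y hy).1.trans (mul_le_mul_of_nonneg_right hθ (hI y hy).le),
    (h y hy).2.trans (mul_le_mul_of_nonneg_right hθ (hI y hy).le)⟩

theorem Near.trans {I E I₁ E₁ I₂ E₂ : ℝ → ℝ} {l K θ θ₁ : ℝ} (h : Near I E I₁ E₁ l K θ)
    (h' : Near I₁ E₁ I₂ E₂ l K θ₁) (hI : ∀ y ∈ Icc (l - 2 / K) l, 0 < I y) (h1 : 0 ≤ θ₁)
    (hθ : θ ≤ 1) : Near I E I₂ E₂ l K (θ + 2 * θ₁) := by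
  intro y hy
  have h2 := hI y hy
  obtain ⟨a1, a2⟩ := h y hy
  obtain ⟨b1, b2⟩ := h' y hy
  have h3 : I₁ y ≤ 2 * I y := by
    have := (abs_le.1 a1).2
    nlinarith
  have h4 : θ₁ * I₁ y ≤ θ₁ * (2 * I y) := mul_le_mul_of_nonneg_left h3 h1
  constructor
  · calc |I₂ y - I y| ≤ |I₂ y - I₁ y| + |I₁ y - I y| := abs_sub_le _ _ _
      _ ≤ θ₁ * (2 * I y) + θ * I y := by linarith
      _ = (θ + 2 * θ₁) * I y := by ring
  · calc |E₂ y - E y| ≤ |E₂ y - E₁ y| + |E₁ y - E y| := abs_sub_le _ _ _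
      _ ≤ θ₁ * (2 * I y) + θ * I y := by linarith
      _ = (θ + 2 * θ₁) * I y := by ring

/-- `Λ` of a close reference. -/
theorem lam_near {I I' : ℝ → ℝ} {l θ : ℝ} (hI : 0 < I l) (h : |I' l - I l| ≤ θ * I l)
    (hθ0 : 0 ≤ θ) (hθ : θ ≤ 1 / 100) : 0 < I' l ∧ lam I l - θ ≤ lam I' l ∧
      lam I' l ≤ lam I l + 2 * θ := by
  obtain ⟨h3, h4⟩ := abs_le.1 h
  have h1 : 0 < I' l := by nlinarith
  obtain ⟨g1, g2⟩ := log_bounds hI hθ0 hθ (by linarith) (by linarith : I' l ≤ (1 + θ) * I l)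
  unfold lam
  exact ⟨h1, by linarith, by linarith⟩

/-! ### `Out` from `GLP` -/

set_option maxHeartbeats 800000 in
theorem out_of_GLP (hGL : GLP) (m n Q : ℕ) (hm : 3 ≤ m) (hn : 1 ≤ n) (hQ : 1 ≤ Q) :
    ∃ N₀ : ℕ, ∀ N : ℕ, N₀ ≤ N → ∀ T Λ : ℝ, ∃ G₀ Cδ : ℝ, 0 ≤ G₀ ∧ 0 ≤ Cδ ∧ ∀ G : ℝ,
    ∃ κ₀ ε L₁ : ℝ, 0 < κ₀ ∧ 0 < ε ∧
    ∀ (U : Set (Euc (m + n))) (D : VarifoldData m (m + n)) (x : Euc (m + n))
      (M : Mo m n (m + n)) (l K L δu : ℝ), L = lam (M.I x (VD D)) l →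
      Sit U D Q x M ε Λ → 0 ≤ M.κ → M.κ ≤ κ₀ → MG N M.κ (Real.exp (l + 1 / K - M.lb)) M.u →
      32 ≤ K → K ≤ 2 * L ^ 2 → M.lb - T ≤ l → l + 1 / 8 ≤ M.lb → 0 < M.I x (VD D) l → L₁ ≤ L →
      8 * fr (M.E x (VD D) Q) (M.I x (VD D)) l ≤ K →
      Real.log (M.I x (VD D) (l + 1 / K)) ≤ Real.log (M.I x (VD D) l) + G →
      ‖fderiv ℝ M.u 0‖ ≤ δu → Cδ * δu ≤ 1 / (2 * L ^ 2) →
      Out (M.I x (VD D)) (M.E x (VD D) Q) l K (Cδ * M.kap l + 1 / L ^ 2) G₀ ∧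
        Cδ * M.kap l + 1 / L ^ 2 ≤ 1 / 100 := by
  obtain ⟨N₀, H⟩ := hGL m n Q hm hn hQ
  refine ⟨max 2 N₀, fun N hN T Λ => ?_⟩
  obtain ⟨C₀, Cδ, hC₀, hCδ, H⟩ := H N ((le_max_right _ _).trans hN) (T + 1) Λ
  obtain ⟨κp, hκp, Hp⟩ := I_posm m n ((le_max_left 2 N₀).trans hN)
  obtain ⟨κg, εg, Lg, hκg, hεg, H⟩ := H 3
  have hGC : 0 ≤ Nb_290.GC C₀ := by unfold Nb_290.GC; linarith
  refine ⟨Nb_290.GC C₀, 2 * Cδ, hGC, by positivity, fun G => ?_⟩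
  set E := Real.exp (G + Nb_290.GC C₀ + 1) with hE
  have hE0 : 0 < E := Real.exp_pos _
  refine ⟨min κg (min κp (1 / (400 * (2 * Cδ + 1)))), εg,
    max 40 (max (2 * Lg) (max (2 * |G|) (16 * E))), by positivity, hεg, ?_⟩
  intro U D x M l K L δu hLdef hs hκ0 hκ hMG hK hKL hT hlb hI hL hN8 hgr hdu hδu
  have b1 : (40:ℝ) ≤ L := (le_max_left _ _).trans hL
  have b2 : 2 * Lg ≤ L := ((le_max_left _ _).trans (le_max_right _ _)).trans hL
  have b3 : 2 * |G| ≤ L :=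
    ((le_max_left _ _).trans ((le_max_right _ _).trans (le_max_right _ _))).trans hL
  have b4 : 16 * E ≤ L :=
    ((le_max_right _ _).trans ((le_max_right _ _).trans (le_max_right _ _))).trans hL
  have hκg' : M.κ ≤ κg := hκ.trans (min_le_left _ _)
  have hκp' : M.κ ≤ κp := hκ.trans ((min_le_right _ _).trans (min_le_left _ _))
  have hκd : M.κ ≤ 1 / (400 * (2 * Cδ + 1)) :=
    hκ.trans ((min_le_right _ _).trans (min_le_right _ _))
  have hK0 : 0 < K := by linarith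
  have hL0 : 0 < L := by linarith
  have q1 : 0 < 1 / K := by positivity
  have q32 : 1 / K ≤ 1 / 32 := one_div_le_one_div_of_le (by norm_num) hK
  have q3 : 3 / K = 3 * (1 / K) := by ring
  have hG1 := le_abs_self G
  -- the top level
  have hIc := (Hp hs hκ0 hκp' hMG (l := l) (l' := l + 1 / K) (by linarith) hI).1
  have hlc : L - G ≤ lam (M.I x (VD D)) (l + 1 / K) := by
    rw [hLdef]; unfold lam; linarith
  have hlc2 : L / 2 ≤ lam (M.I x (VD D)) (l + 1 / K) := by linarith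
  have hK3 : K ≤ lam (M.I x (VD D)) (l + 1 / K) ^ 3 := by
    have h1 : (L / 2) ^ 3 ≤ lam (M.I x (VD D)) (l + 1 / K) ^ 3 :=
      pow_le_pow_left₀ (by positivity) hlc2 3
    have h2 : 2 * L ^ 2 ≤ (L / 2) ^ 3 := by nlinarith [sq_nonneg L]
    linarith
  obtain ⟨R, w, hw0, hw, hst⟩ := H U D x M (l - 3 / K) (l + 1 / K) K hs hκ0 hκg' hMG (by linarith)
    (by linarith) (by rw [q3]; linarith) (by linarith) hIc (by linarith) hK3
  have etop : l + 1 / K - 1 / K = l := by ring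
  rw [etop] at hst
  have hIe := le_exp_of_log hI hgr
  set δ := Cδ * (M.κ * Real.exp (l + 1 / K - M.lb) + ‖fderiv ℝ M.u 0‖) with hδ
  have hδ0 : 0 ≤ δ := by positivity
  have hkap0 : 0 ≤ M.kap l := M.kap_nonneg hκ0 l
  have hkap1 : M.kap l ≤ M.κ := by
    unfold Mo.kap
    have : Real.exp (-(4 / 5 * (M.lb - l))) ≤ 1 := Real.exp_le_one_iff.2 (by linarith)
    nlinarith
  have hL2 : 0 < L ^ 2 := by positivity
  -- curvature part
  have hk2 : M.κ * Real.exp (l + 1 / K - M.lb) ≤ 2 * M.kap l := by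
    unfold Mo.kap
    have h1 : Real.exp (l + 1 / K - M.lb) ≤
        Real.exp (1 / 2) * Real.exp (-(4 / 5 * (M.lb - l))) := by
      rw [← Real.exp_add]
      exact Real.exp_le_exp.2 (by linarith)
    have h2 : Real.exp (1 / 2 : ℝ) ≤ 2 := by
      have h1 : Real.exp (1 / 2 : ℝ) * Real.exp (1 / 2) = Real.exp 1 := by
        rw [← Real.exp_add]; norm_num
      have h2 := Real.exp_one_lt_d9
      have h3 := Real.exp_pos (1 / 2 : ℝ)
      nlinarith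
    have h3 := Real.exp_pos (-(4 / 5 * (M.lb - l)))
    calc M.κ * Real.exp (l + 1 / K - M.lb) ≤
          M.κ * (2 * Real.exp (-(4 / 5 * (M.lb - l)))) :=
          mul_le_mul_of_nonneg_left (h1.trans (mul_le_mul_of_nonneg_right h2 h3.le)) hκ0
      _ = _ := by ring
  have hδ1 : δ ≤ 2 * Cδ * M.kap l + 1 / (4 * L ^ 2) := by
    have h1 : Cδ * (M.κ * Real.exp (l + 1 / K - M.lb)) ≤ Cδ * (2 * M.kap l) :=
      mul_le_mul_of_nonneg_left hk2 hCδ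
    have h2 : Cδ * ‖fderiv ℝ M.u 0‖ ≤ Cδ * δu := mul_le_mul_of_nonneg_left hdu hCδ
    have h3 : 1 / (4 * L ^ 2) = 1 / (2 * L ^ 2) / 2 := by field_simp; norm_num
    rw [hδ, mul_add]
    linarith
  -- window part
  have hw1 : w * Real.exp (Nb_290.GC C₀ + 1) / M.I x (VD D) l ≤ 1 / (2 * L ^ 2) := by
    have h1 : (lam (M.I x (VD D)) (l + 1 / K) ^ 3)⁻¹ ≤ ((L / 2) ^ 3)⁻¹ :=
      inv_anti₀ (by positivity) (pow_le_pow_left₀ (by positivity) hlc2 3)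
    have h2 : w ≤ ((L / 2) ^ 3)⁻¹ * (Real.exp G * M.I x (VD D) l) :=
      hw.trans (mul_le_mul h1 hIe hIc.le (by positivity))
    rw [div_le_iff₀ hI]
    have h3 : w * Real.exp (Nb_290.GC C₀ + 1) ≤
        ((L / 2) ^ 3)⁻¹ * (Real.exp G * M.I x (VD D) l) * Real.exp (Nb_290.GC C₀ + 1) :=
      mul_le_mul_of_nonneg_right h2 (Real.exp_pos _).le
    have h4 : ((L / 2) ^ 3)⁻¹ * (Real.exp G * M.I x (VD D) l) * Real.exp (Nb_290.GC C₀ + 1) =
        ((L / 2) ^ 3)⁻¹ * E * M.I x (VD D) l := by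
      rw [hE, add_assoc, Real.exp_add G]; ring
    rw [h4] at h3
    refine h3.trans (mul_le_mul_of_nonneg_right ?_ hI.le)
    have h5 : ((L / 2) ^ 3)⁻¹ * E = (8 * E) / L ^ 3 := by
      rw [div_pow, inv_div]; ring
    rw [h5, div_le_div_iff₀ (by positivity) (by positivity)]
    have h6 : 16 * E * L ^ 2 ≤ L * L ^ 2 := mul_le_mul_of_nonneg_right b4 hL2.le
    nlinarith
  have hy : δ + w * Real.exp (Nb_290.GC C₀ + 1) / M.I x (VD D) l ≤
      2 * Cδ * M.kap l + 1 / L ^ 2 := by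
    have h3 : 1 / (4 * L ^ 2) = 1 / L ^ 2 / 4 := by field_simp
    have h4 : 1 / (2 * L ^ 2) = 1 / L ^ 2 / 2 := by field_simp
    have h5 : 0 < 1 / L ^ 2 := by positivity
    linarith
  have hy1 : 2 * Cδ * M.kap l + 1 / L ^ 2 ≤ 1 / 100 := by
    have h1 : 1 / L ^ 2 ≤ 1 / 1600 := by
      refine one_div_le_one_div_of_le (by norm_num) ?_
      nlinarith
    have h2 : 2 * Cδ * M.kap l ≤ 1 / 400 := by
      have h3 : 2 * Cδ * M.kap l ≤ (2 * Cδ + 1) * (1 / (400 * (2 * Cδ + 1))) :=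
        mul_le_mul (by linarith) (hkap1.trans hκd) hkap0 (by positivity)
      have h4 : (2 * Cδ + 1) * (1 / (400 * (2 * Cδ + 1))) = 1 / 400 := by
        have : (2 * Cδ + 1) ≠ 0 := by positivity
        field_simp
      linarith
    linarith
  exact ⟨out_of_stepW hst hC₀ hδ0 hw0 hK hy1 hy hN8 hI, hy1⟩

end Crest.Agent.R234.Stp_518
end
end

-- ▼ part R234/Stp6_518

/-!
# Row 234, F7-STEPV (helper518), part 6: the two cases of the step at the level of references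

`CoreH`, `BlkH` : the inner statements of `core_sel`, `BlkP`.
`case_in` : inside the block; `case_blk` : change of the block.
-/

set_option autoImplicit false
set_option linter.unusedVariables false

open MeasureTheory Filter Topology Set
open scoped ENNReal NNReal ContDiff
open Crest.GeometryTopology.Submanifold Crest.Agent.R234.Vf_884
open Crest.Agent.R234.Main_456 (Frame Msys hgt)
open Crest.Agent.R234.MG_570 (MG SelP3 bar)
open Crest.Agent.R234.F10d_188 (flatL)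

noncomputable section

namespace Crest.Agent.R234.Stp_518

variable {m n k : ℕ}

/-- size of the change: `L₀^p e^{-L₀/2}` against `L^{p+1} e^{-L/2}`. -/
theorem size_le {L L₀ : ℝ} (p : ℕ) (hL : 1 ≤ L) (h1 : L₀ ≤ 2 * L) (h2 : L - 1 ≤ L₀)
    (h0 : 0 ≤ L₀) (hp : 2 ^ (p + 3) ≤ L) :
    2 * (L₀ ^ p * Real.exp (-(L₀ / 2))) ≤ L ^ (p + 1) * Real.exp (-(L / 2)) := by
  have e1 : L₀ ^ p ≤ 2 ^ p * L ^ p := by
    rw [← mul_pow]; exact pow_le_pow_left₀ h0 h1 p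
  have e2 : Real.exp (-(L₀ / 2)) ≤ 2 * Real.exp (-(L / 2)) := by
    have h3 : Real.exp (-(L₀ / 2)) ≤ Real.exp (1 / 2) * Real.exp (-(L / 2)) := by
      rw [← Real.exp_add]
      exact Real.exp_le_exp.2 (by linarith)
    have h4 : Real.exp (1 / 2 : ℝ) ≤ 2 := by
      have h1 : Real.exp (1 / 2 : ℝ) * Real.exp (1 / 2) = Real.exp 1 := by
        rw [← Real.exp_add]; norm_num
      have h2 := Real.exp_one_lt_d9
      have h3 := Real.exp_pos (1 / 2 : ℝ)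
      nlinarith
    exact h3.trans (mul_le_mul_of_nonneg_right h4 (Real.exp_pos _).le)
  have hE := Real.exp_pos (-(L / 2))
  have hLp : 0 ≤ L ^ p := by positivity
  calc 2 * (L₀ ^ p * Real.exp (-(L₀ / 2))) ≤
        2 * ((2 ^ p * L ^ p) * (2 * Real.exp (-(L / 2)))) :=
        mul_le_mul_of_nonneg_left (mul_le_mul e1 e2 (Real.exp_pos _).le (by positivity))
          (by norm_num)
    _ = (2 ^ (p + 2) * L ^ p) * Real.exp (-(L / 2)) := by ring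
    _ ≤ L ^ (p + 1) * Real.exp (-(L / 2)) := by
        refine mul_le_mul_of_nonneg_right ?_ hE.le
        have h3 : (2:ℝ) ^ (p + 2) ≤ 2 ^ (p + 3) := pow_le_pow_right₀ (by norm_num) (by omega)
        calc 2 ^ (p + 2) * L ^ p ≤ L * L ^ p := mul_le_mul_of_nonneg_right (h3.trans hp) hLp
          _ = L ^ (p + 1) := by ring

/-- inner statement of `core_sel`. -/
def CoreH (m n Q Ks N p₀ q q₁ : ℕ) (T Λ G κ₀ ε L₁ : ℝ) : Prop :=
    ∀ (U : Set (Euc (m + n))) (D : VarifoldData m (m + n)) (x : Euc (m + n))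
      (M : Mo m n (m + n)) (l K L : ℝ), L = lam (M.I x (VD D)) l →
      Sit U D Q x M ε Λ → 0 ≤ M.κ → M.κ ≤ κ₀ →
      MG N M.κ (Real.exp (l + 1 / K - M.lb)) M.u → ‖fderiv ℝ M.u 0‖ ≤ κ₀ / (4 * K) →
      32 ≤ K → K ≤ 4 * L ^ 2 → M.lb - T ≤ l → l + 1 / K ≤ M.lb →
      0 < M.I x (VD D) l → L₁ ≤ L →
      Real.log (M.I x (VD D) (l + 3 / (4 * K))) ≤ Real.log (M.I x (VD D) l) + G →
      (∀ y ∈ Icc (l - 2 / K) l, M.I x (VD D) l ≤ Real.exp G * M.I x (VD D) y) →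
      SupLe M x (VD D) (Real.exp (l + 1 / (2 * K) - M.lb)) (Real.exp (-(L / 8))) →
      MeanK Ks M x (VD D) (Real.exp (l - M.lb) * (1 + 1 / (8 * K)))
        ((L ^ q₁)⁻¹ * √(M.I x (VD D) l)) →
      ∃ (u' : Euc m → Euc n) (A : ℝ), 0 ≤ A ∧ A ≤ L ^ p₀ * Real.exp (-(L / 2)) ∧
        MG N (M.κ + A) (rsel M.lb l K) u' ∧
        ‖fderiv ℝ u' 0‖ ≤ ‖fderiv ℝ M.u 0‖ + L ^ p₀ * Real.exp (-(L / 2)) ∧
        ∀ M' : Mo m n (m + n), M'.π = M.π → M'.ρ = M.ρ → M'.lb = M.lb → M'.u = u' →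
          M'.κ = M.κ + A →
          SupLe M' x (VD D) (rsel M.lb l K) (L ^ p₀ * Real.exp (-(L / 2))) ∧
          MeanK Ks M' x (VD D) (rsel M.lb l K)
            (L ^ p₀ * Real.exp (-(L / 2)) * √(M.I x (VD D) l)) ∧
          Near (M.I x (VD D)) (M.E x (VD D) Q) (M'.I x (VD D)) (M'.E x (VD D) Q) l K
            (L ^ q)⁻¹

theorem coreH (hSup : SupP) (hSw : SwP) (hSel : SelP3) (m n : ℕ) (hm : 3 ≤ m) (hn : 1 ≤ n) :
    ∃ Ks₀ : ℕ, ∀ Ks : ℕ, Ks₀ ≤ Ks → ∀ Q : ℕ, 1 ≤ Q → ∃ N₀ : ℕ, ∀ N : ℕ, N₀ ≤ N →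
      ∃ p₀ : ℕ, ∀ (q : ℕ) (T Λ G : ℝ),
      ∃ q₁ : ℕ, ∃ κ₀ ε L₁ : ℝ, 0 < κ₀ ∧ 0 < ε ∧ CoreH m n Q Ks N p₀ q q₁ T Λ G κ₀ ε L₁ :=
  core_sel hSup hSw hSel m n hm hn

/-- inner statement of `BlkP` (with `L`). -/
def BlkH (m n Q Ks N q q₁ : ℕ) (C₁ T Λ G κ₀ ε L₁ : ℝ) : Prop :=
    ∀ (U : Set (Euc (m + n))) (D : VarifoldData m (m + n)) (x : Euc (m + n))
      (M : Mo m n (m + n)) (l K L : ℝ), L = lam (M.I x (VD D)) l →
      Sit U D Q x M ε Λ → 0 ≤ M.κ → M.κ ≤ κ₀ →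
      MG N M.κ (Real.exp (l + 1 / K - M.lb) * (1 + 1 / (8 * K))) M.u →
      ‖fderiv ℝ M.u 0‖ ≤ (L ^ q₁)⁻¹ →
      32 ≤ K → K ≤ 2 * L ^ 2 → M.lb - T ≤ l → l ≤ M.lb - T + 1 →
      0 < M.I x (VD D) l → L₁ ≤ L →
      Real.log (M.I x (VD D) (l + 1 / K)) ≤ Real.log (M.I x (VD D) l) + G →
      (∀ y ∈ Icc (l - 2 / K) l, M.I x (VD D) l ≤ Real.exp G * M.I x (VD D) y) →
      SupLe M x (VD D) (Real.exp (l + 1 / K - M.lb) * (1 + 1 / (8 * K)))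
        (Real.exp (-(L / 4))) →
      MeanK Ks M x (VD D) (Real.exp (l + 1 / K - M.lb) * (1 + 1 / (8 * K)))
        ((L ^ q₁)⁻¹ * √(M.I x (VD D) l)) →
      ∃ M' : Mo m n (m + n), M'.lb = l - 2 / K + 1 / 8 ∧ Frame M'.π M'.ρ ∧
        0 ≤ M'.κ ∧ M'.κ ≤ C₁ * Real.exp (M'.lb - M.lb) * M.κ + (L ^ q)⁻¹ ∧
        MG N M'.κ (Real.exp (l + 1 / K - M'.lb) * (1 + 1 / (16 * K))) M'.u ∧
        fderiv ℝ M'.u 0 = 0 ∧
        Near (M.I x (VD D)) (M.E x (VD D) Q) (M'.I x (VD D)) (M'.E x (VD D) Q) l K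
          (L ^ q)⁻¹ ∧
        M'.I x (VD D) (l + 3 / (4 * K)) ≤ 2 * Real.exp m * M.I x (VD D) (l + 1 / K) ∧
        SupLe M' x (VD D) (Real.exp (l + 3 / (4 * K) - M'.lb)) (Real.exp (-(L / 5))) ∧
        MeanK Ks M' x (VD D) (Real.exp (l + 3 / (4 * K) - M'.lb))
          ((L ^ q)⁻¹ * √(M.I x (VD D) l))

theorem blkH (hBlk : BlkP) (m n Q : ℕ) (hm : 3 ≤ m) (hn : 1 ≤ n) (hQ : 1 ≤ Q) :
    ∃ N₀ : ℕ, ∀ N : ℕ, N₀ ≤ N →
      ∃ C₁ T₀ : ℝ, 1 ≤ C₁ ∧ ∀ (Ks q : ℕ) (T Λ G : ℝ), 1 ≤ Ks → T₀ ≤ T → ∃ q₁ : ℕ,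
        ∃ κ₀ ε L₁ : ℝ, 0 < κ₀ ∧ 0 < ε ∧ BlkH m n Q Ks N q q₁ C₁ T Λ G κ₀ ε L₁ := by
  obtain ⟨N₀, H⟩ := hBlk m n Q hm hn hQ
  refine ⟨N₀, fun N hN => ?_⟩
  obtain ⟨C₁, T₀, hC₁, H⟩ := H N hN
  refine ⟨C₁, T₀, hC₁, fun Ks q T Λ G hKs hT => ?_⟩
  obtain ⟨q₁, κ₀, ε, L₁, hκ₀, hε, H⟩ := H Ks q T Λ G hKs hT
  refine ⟨q₁, κ₀, ε, L₁, hκ₀, hε, ?_⟩
  rintro U D x M l K L rfl
  exact H U D x M l K

/-- outcome of the step for the references. -/
structure Res (U : Set (Euc (m + n))) (D : VarifoldData m (m + n)) (Q : ℕ) (x : Euc (m + n))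
    (Ks N : ℕ) (M M₁ : Mo m n (m + n)) (l K L σ θ : ℝ) : Prop where
  fr : Frame M₁.π M₁.ρ
  κ0 : 0 ≤ M₁.κ
  mg : MG N M₁.κ (rsel M₁.lb l K) M₁.u
  sup : SupLe M₁ x (VD D) (rsel M₁.lb l K) σ
  mean : MeanK Ks M₁ x (VD D) (rsel M₁.lb l K) (σ * √(M.I x (VD D) l))
  near : Near (M.I x (VD D)) (M.E x (VD D) Q) (M₁.I x (VD D)) (M₁.E x (VD D) Q) l K θ

/-- **inside the block.** -/
theorem case_in {Q Ks N p₀ q₁ : ℕ} {T Λ G κ₀ ε L₁ : ℝ}
    (HC : CoreH m n Q Ks N p₀ 6 q₁ T Λ G κ₀ ε L₁)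
    {U : Set (Euc (m + n))} {D : VarifoldData m (m + n)} {x : Euc (m + n)}
    {M : Mo m n (m + n)} {l K L : ℝ} (hLdef : L = lam (M.I x (VD D)) l)
    (hs : Sit U D Q x M ε Λ) (hκ0 : 0 ≤ M.κ) (hκ : M.κ ≤ κ₀)
    (hMG : MG N M.κ (Real.exp (l + 1 / K - M.lb) * (1 + 1 / (8 * K))) M.u)
    (hdu : ‖fderiv ℝ M.u 0‖ ≤ κ₀ / (4 * K)) (hK : 32 ≤ K) (hKL : K ≤ 2 * L ^ 2)
    (hlo : M.lb - T ≤ l) (hhi : l + 1 / 8 ≤ M.lb) (hI : 0 < M.I x (VD D) l) (hL : L₁ ≤ L)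
    (hL1 : 1 ≤ L)
    (hgr : Real.log (M.I x (VD D) (l + 3 / (4 * K))) ≤ Real.log (M.I x (VD D) l) + G)
    (hpos : ∀ y ∈ Icc (l - 2 / K) l, 0 < M.I x (VD D) y)
    (hdn : ∀ y ∈ Icc (l - 2 / K) l, M.I x (VD D) l ≤ Real.exp G * M.I x (VD D) y)
    (hsup : SupLe M x (VD D) (Real.exp (l + 1 / K - M.lb) * (1 + 1 / (8 * K)))
      (Real.exp (-(L / 4))))
    (hmean : MeanK Ks M x (VD D) (Real.exp (l + 1 / K - M.lb) * (1 + 1 / (8 * K)))
      (Real.exp (-(L / 4)) * √(M.I x (VD D) l)))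
    (ht3 : L ^ q₁ * Real.exp (-(L / 4)) ≤ 1) (ht8 : 2 ^ (p₀ + 3) ≤ L) :
    ∃ M₁ : Mo m n (m + n), Res U D Q x Ks N M M₁ l K L (L ^ (p₀ + 1) * Real.exp (-(L / 2)))
        (L ^ 5)⁻¹ ∧ M₁.lb = M.lb ∧
      M₁.κ ≤ M.κ + L ^ (p₀ + 1) * Real.exp (-(L / 2)) ∧
      ‖fderiv ℝ M₁.u 0‖ ≤ ‖fderiv ℝ M.u 0‖ + L ^ (p₀ + 1) * Real.exp (-(L / 2)) := by
  have hK0 : 0 < K := by linarith
  have hL0 : 0 < L := by linarith
  have q1 : 0 < 1 / K := by positivity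
  have q2 : 1 / (2 * K) = 1 / K / 2 := by field_simp
  have q8 : 1 / (8 * K) = 1 / K / 8 := by field_simp
  have q32 : 1 / K ≤ 1 / 32 := one_div_le_one_div_of_le (by norm_num) hK
  have hE := Real.exp_pos (l + 1 / K - M.lb)
  have hrad1 : Real.exp (l + 1 / K - M.lb) ≤
      Real.exp (l + 1 / K - M.lb) * (1 + 1 / (8 * K)) := by
    rw [q8]; nlinarith
  have hsize := size_le p₀ hL1 (by linarith : L ≤ 2 * L) (by linarith : L - 1 ≤ L) hL0.le ht8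
  have hsz0 : 0 ≤ L ^ p₀ * Real.exp (-(L / 2)) := by positivity
  have hszle : L ^ p₀ * Real.exp (-(L / 2)) ≤ L ^ (p₀ + 1) * Real.exp (-(L / 2)) := by linarith
  have hKL4 : K ≤ 4 * L ^ 2 := by
    have : 0 ≤ L ^ 2 := by positivity
    linarith
  have hsup' : SupLe M x (VD D) (Real.exp (l + 1 / (2 * K) - M.lb)) (Real.exp (-(L / 8))) :=
    hsup.mono ((Real.exp_le_exp.2 (by rw [q2]; linarith)).trans hrad1)
      (Real.exp_le_exp.2 (by linarith))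
  have hmean' : MeanK Ks M x (VD D) (Real.exp (l - M.lb) * (1 + 1 / (8 * K)))
      ((L ^ q₁)⁻¹ * √(M.I x (VD D) l)) := by
    refine hmean.mono ?_ ?_
    · refine mul_le_mul_of_nonneg_right (Real.exp_le_exp.2 (by linarith)) ?_
      rw [q8]; linarith
    · refine mul_le_mul_of_nonneg_right ?_ (Real.sqrt_nonneg _)
      rw [← one_div, le_div_iff₀ (by positivity)]
      linarith
  obtain ⟨u', A, hA0, hA, g1, g2, g3⟩ := HC U D x M l K L hLdef hs hκ0 hκ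
    (hMG.mono le_rfl hrad1) hdu hK hKL4 hlo (by linarith) hI hL hgr hdn hsup' hmean'
  obtain ⟨g4, g5, g6⟩ := g3 { M with u := u', κ := M.κ + A } rfl rfl rfl rfl rfl
  refine ⟨{ M with u := u', κ := M.κ + A }, ⟨hs.pack.frame, add_nonneg hκ0 hA0, g1,
    g4.mono le_rfl hszle,
    g5.mono le_rfl (mul_le_mul_of_nonneg_right hszle (Real.sqrt_nonneg _)),
    g6.mono (inv_anti₀ (by positivity) (pow_le_pow_right₀ hL1 (by norm_num))) hpos⟩, rfl, ?_, ?_⟩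
  · show M.κ + A ≤ _
    linarith
  · show ‖fderiv ℝ u' 0‖ ≤ _
    linarith

/-- `(L^(q+7))⁻¹` against `(L₀^q)⁻¹`. -/
theorem inv_size {L L₀ : ℝ} (q : ℕ) (hL : 1 ≤ L) (h1 : L₀ ≤ 2 * L) (h0 : 0 < L₀)
    (hq : 2 ^ (q + 2) ≤ L) : 2 * (L ^ (q + 7))⁻¹ ≤ (L₀ ^ q)⁻¹ := by
  have hL0 : 0 < L := by linarith
  rw [← div_eq_mul_inv, div_le_iff₀ (by positivity), inv_mul_eq_div, le_div_iff₀ (by positivity)]
  have e1 : L₀ ^ q ≤ 2 ^ q * L ^ q := by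
    rw [← mul_pow]; exact pow_le_pow_left₀ h0.le h1 q
  have hLq : 0 ≤ L ^ q := by positivity
  calc 2 * L₀ ^ q ≤ 2 * (2 ^ q * L ^ q) := mul_le_mul_of_nonneg_left e1 (by norm_num)
    _ = 2 ^ (q + 1) * L ^ q := by ring
    _ ≤ L * L ^ q := by
        refine mul_le_mul_of_nonneg_right ?_ hLq
        exact (pow_le_pow_right₀ (by norm_num) (by omega)).trans hq
    _ = L ^ (q + 1) := by ring
    _ ≤ L ^ (q + 7) := pow_le_pow_right₀ hL (by omega)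

theorem inv_le_of {L a : ℝ} {j : ℕ} (hL : 1 ≤ L) (ha : 0 < a) (h : 4 / a ≤ L) (hj : 1 ≤ j) :
    (L ^ j)⁻¹ ≤ a / 4 := by
  have hL0 : 0 < L := by linarith
  have h1 : (L ^ j)⁻¹ ≤ L⁻¹ := by
    refine inv_anti₀ hL0 ?_
    calc L = L ^ 1 := (pow_one L).symm
      _ ≤ L ^ j := pow_le_pow_right₀ hL hj
  have h2 : L⁻¹ ≤ a / 4 := by
    rw [inv_le_comm₀ hL0 (by positivity), inv_div]
    exact h
  exact h1.trans h2

set_option maxHeartbeats 800000 in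
/-- **change of the block.** -/
theorem case_blk {Q Ks N p₀ qs qB : ℕ} {C₁ T Λ G Gs κs εs Ls κB εB LB κS κp η : ℝ}
    (HC : CoreH m n Q Ks N p₀ 6 qs T Λ Gs κs εs Ls)
    (HB : BlkH m n Q Ks N (qs + 7) qB C₁ T Λ G κB εB LB)
    {U : Set (Euc (m + n))} {D : VarifoldData m (m + n)} {x : Euc (m + n)}
    {M : Mo m n (m + n)} {l K L : ℝ} (hLdef : L = lam (M.I x (VD D)) l)
    (hs : Sit U D Q x M εB Λ) (hκ0 : 0 ≤ M.κ) (hκ : M.κ ≤ κB) (hκs : 0 < κs) (hκS : 0 < κS)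
    (hκp : 0 < κp) (hk2 : M.κ ≤ κs / 2) (hk4 : M.κ ≤ κS / 2) (hk5 : M.κ ≤ κp / 2)
    (hMG : MG N M.κ (Real.exp (l + 1 / K - M.lb) * (1 + 1 / (8 * K))) M.u)
    (hdu : ‖fderiv ℝ M.u 0‖ ≤ (L ^ qB)⁻¹) (hK : 32 ≤ K) (hKL : K ≤ 2 * L ^ 2)
    (hlo : M.lb - T ≤ l) (hcase : l - 2 / K < M.lb - T) (hI : 0 < M.I x (VD D) l)
    (hgr : Real.log (M.I x (VD D) (l + 1 / K)) ≤ Real.log (M.I x (VD D) l) + G)
    (hpos : ∀ y ∈ Icc (l - 2 / K) l, 0 < M.I x (VD D) y)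
    (hdn : ∀ y ∈ Icc (l - 2 / K) l, M.I x (VD D) l ≤ Real.exp G * M.I x (VD D) y)
    (hsup : SupLe M x (VD D) (Real.exp (l + 1 / K - M.lb) * (1 + 1 / (8 * K)))
      (Real.exp (-(L / 4))))
    (hmean : MeanK Ks M x (VD D) (Real.exp (l + 1 / K - M.lb) * (1 + 1 / (8 * K)))
      (Real.exp (-(L / 4)) * √(M.I x (VD D) l)))
    (hsit : ∀ (M' : Mo m n (m + n)) (R : ℝ), l ≤ M'.lb → M'.lb ≤ l + T → Frame M'.π M'.ρ →
      0 ≤ M'.κ → M'.κ ≤ κS → MG N M'.κ R M'.u →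
      SupLe M' x (VD D) (Real.exp (l - M'.lb)) η → Sit U D Q x M' εs Λ)
    (hpm : ∀ (M' : Mo m n (m + n)) (R : ℝ), Sit U D Q x M' εs Λ → 0 ≤ M'.κ → M'.κ ≤ κp →
      MG N M'.κ R M'.u → ∀ l', l ≤ l' → 0 < M'.I x (VD D) l → 0 < M'.I x (VD D) l')
    (hC₁ : 1 ≤ C₁) (hT1 : 1 ≤ T) (hCT : C₁ * Real.exp (-(T / 5)) ≤ 1 / 4) (hGs : G + m + 3 ≤ Gs)
    (t1 : Real.exp (-(L / 5)) ≤ η) (t2 : L ^ qB * Real.exp (-(L / 4)) ≤ 1)
    (t5 : Ls + 1 ≤ L) (t6 : LB ≤ L) (t7 : 200 ≤ L)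
    (t8 : (2:ℝ) ^ (p₀ + 3) ≤ L) (t9 : (2:ℝ) ^ (qs + 2) ≤ L) (t10 : 4 / κs ≤ L) (t11 : 4 / κS ≤ L)
    (t12 : 4 / κp ≤ L) :
    ∃ M₁ : Mo m n (m + n), Res U D Q x Ks N M M₁ l K L (L ^ (p₀ + 1) * Real.exp (-(L / 2)))
        (L ^ 5)⁻¹ ∧ M₁.lb = l - 2 / K + 1 / 8 ∧
      M₁.κ ≤ C₁ * Real.exp (M₁.lb - M.lb) * M.κ + (L ^ 5)⁻¹ +
        L ^ (p₀ + 1) * Real.exp (-(L / 2)) ∧
      ‖fderiv ℝ M₁.u 0‖ ≤ L ^ (p₀ + 1) * Real.exp (-(L / 2)) := by
  have hK0 : 0 < K := by linarith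
  have hL1 : 1 ≤ L := by linarith
  have hL0 : 0 < L := by linarith
  have q1 : 0 < 1 / K := by positivity
  have q2 : 1 / (2 * K) = 1 / K / 2 := by field_simp
  have q22 : 2 / K = 2 * (1 / K) := by ring
  have q3 : 3 / (4 * K) = 3 * (1 / K) / 4 := by field_simp
  have q8 : 1 / (8 * K) = 1 / K / 8 := by field_simp
  have q16 : 1 / (16 * K) = 1 / K / 16 := by field_simp
  have q32 : 1 / K ≤ 1 / 32 := one_div_le_one_div_of_le (by norm_num) hK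
  have hmeanB : MeanK Ks M x (VD D) (Real.exp (l + 1 / K - M.lb) * (1 + 1 / (8 * K)))
      ((L ^ qB)⁻¹ * √(M.I x (VD D) l)) := by
    refine hmean.mono le_rfl ?_
    refine mul_le_mul_of_nonneg_right ?_ (Real.sqrt_nonneg _)
    rw [← one_div, le_div_iff₀ (by positivity)]
    linarith
  obtain ⟨M₀, b1, b2, b3, b4, b5, b6, b7, b8, b9, b10⟩ := HB U D x M l K L hLdef hs hκ0 hκ hMG hdu
    hK hKL hlo (by linarith) hI t6 hgr hdn hsup hmeanB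
  clear HB hsup hmean hmeanB hMG hs
  -- closeness at `l`
  set θ := (L ^ (qs + 7))⁻¹ with hθ
  have hθ0 : 0 < θ := by positivity
  have hθ5 : θ ≤ (L ^ 5)⁻¹ * (1 / 200) := by
    rw [hθ]
    have h1 : (L ^ (qs + 7))⁻¹ ≤ (L ^ 6)⁻¹ :=
      inv_anti₀ (by positivity) (pow_le_pow_right₀ hL1 (by omega))
    refine h1.trans ?_
    rw [pow_succ L 5, mul_inv]
    refine mul_le_mul_of_nonneg_left ?_ (by positivity)
    rw [← one_div]
    exact one_div_le_one_div_of_le (by norm_num) t7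
  have hL5 : (L ^ 5)⁻¹ ≤ 1 := inv_le_one_of_one_le₀ (one_le_pow₀ hL1)
  have hθ1 : θ ≤ 1 / 200 := by linarith
  have hll : l ∈ Icc (l - 2 / K) l := ⟨by rw [q22]; linarith, le_rfl⟩
  have hnl := (b7 l hll).1
  obtain ⟨hI₀, hLo1, hLo2⟩ := lam_near (I := M.I x (VD D)) hI hnl hθ0.le (by linarith)
  rw [← hLdef] at hLo1 hLo2
  set L₀ := lam (M₀.I x (VD D)) l with hL₀
  have hLb1 : L - 1 ≤ L₀ := by linarith
  have hLb2 : L₀ ≤ 2 * L := by linarith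
  have hL₀0 : 0 < L₀ := by linarith
  have hθI : θ * M.I x (VD D) l ≤ 1 / 200 * M.I x (VD D) l :=
    mul_le_mul_of_nonneg_right hθ1 hI.le
  have hII1 : M₀.I x (VD D) l ≤ 2 * M.I x (VD D) l := by
    have := (abs_le.1 hnl).2; linarith
  have hII2 : M.I x (VD D) l ≤ 2 * M₀.I x (VD D) l := by
    have := (abs_le.1 hnl).1; linarith
  have hsq1 : √(M₀.I x (VD D) l) ≤ 2 * √(M.I x (VD D) l) := by
    rw [Real.sqrt_le_left (by positivity), mul_pow, Real.sq_sqrt hI.le]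
    linarith
  have hsq2 : √(M.I x (VD D) l) ≤ 2 * √(M₀.I x (VD D) l) := by
    rw [Real.sqrt_le_left (by positivity), mul_pow, Real.sq_sqrt hI₀.le]
    linarith
  -- curvature
  have hCe : C₁ * Real.exp (M₀.lb - M.lb) ≤ 1 / 4 := by
    refine le_trans (mul_le_mul_of_nonneg_left (Real.exp_le_exp.2 ?_) (by linarith)) hCT
    linarith
  have hκ₀ : M₀.κ ≤ M.κ / 4 + θ := by
    have h1 : C₁ * Real.exp (M₀.lb - M.lb) * M.κ ≤ 1 / 4 * M.κ :=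
      mul_le_mul_of_nonneg_right hCe hκ0
    linarith
  have hθs : θ ≤ κs / 4 := inv_le_of hL1 hκs t10 (by omega)
  have hθS : θ ≤ κS / 4 := inv_le_of hL1 hκS t11 (by omega)
  have hθp : θ ≤ κp / 4 := inv_le_of hL1 hκp t12 (by omega)
  have hκs' : M₀.κ ≤ κs := by linarith
  have hκS' : M₀.κ ≤ κS := by linarith
  have hκp' : M₀.κ ≤ κp := by linarith
  -- situation
  have hMG0 : MG N M₀.κ (Real.exp (l + 1 / K - M₀.lb)) M₀.u := by
    refine b5.mono le_rfl (le_mul_of_one_le_right (Real.exp_pos _).le ?_)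
    rw [q16]; linarith
  have hs₀ : Sit U D Q x M₀ εs Λ := hsit M₀ _ (by rw [b1, q22]; linarith)
    (by rw [b1, q22]; linarith) b2 b3 hκS' b5
    (b9.mono (Real.exp_le_exp.2 (by rw [q3]; linarith)) t1)
  -- growth
  have hgr₀ : Real.log (M₀.I x (VD D) (l + 3 / (4 * K))) ≤
      Real.log (M₀.I x (VD D) l) + Gs := by
    have hp := hpm M₀ _ hs₀ b3 hκp' b5 (l + 3 / (4 * K)) (by rw [q3]; linarith) hI₀
    have h1 := le_exp_of_log hI hgr
    have h2 : M₀.I x (VD D) (l + 3 / (4 * K)) ≤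
        4 * (Real.exp m * (Real.exp G * M₀.I x (VD D) l)) := by
      calc M₀.I x (VD D) (l + 3 / (4 * K)) ≤ 2 * Real.exp m * M.I x (VD D) (l + 1 / K) := b8
        _ ≤ 2 * Real.exp m * (Real.exp G * M.I x (VD D) l) :=
            mul_le_mul_of_nonneg_left h1 (by positivity)
        _ ≤ 2 * Real.exp m * (Real.exp G * (2 * M₀.I x (VD D) l)) :=
            mul_le_mul_of_nonneg_left (mul_le_mul_of_nonneg_left hII2 (Real.exp_pos _).le)
              (by positivity)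
        _ = _ := by ring
    have h3 : (4:ℝ) ≤ Real.exp 3 := by
      have := Real.add_one_le_exp (3:ℝ); linarith
    have h4 : M₀.I x (VD D) (l + 3 / (4 * K)) ≤ Real.exp (G + m + 3) * M₀.I x (VD D) l := by
      refine h2.trans ?_
      rw [Real.exp_add, Real.exp_add]
      have h5 : 0 ≤ Real.exp m * (Real.exp G * M₀.I x (VD D) l) := by positivity
      calc 4 * (Real.exp m * (Real.exp G * M₀.I x (VD D) l)) ≤
            Real.exp 3 * (Real.exp m * (Real.exp G * M₀.I x (VD D) l)) :=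
            mul_le_mul_of_nonneg_right h3 h5
        _ = _ := by ring
    have h6 := Real.log_le_log hp h4
    rw [Real.log_mul (Real.exp_pos _).ne' hI₀.ne', Real.log_exp] at h6
    linarith
  have hdn₀ : ∀ y ∈ Icc (l - 2 / K) l,
      M₀.I x (VD D) l ≤ Real.exp Gs * M₀.I x (VD D) y := by
    intro y hy
    have h1 := hdn y hy
    have h2 := hpos y hy
    have h3 := (abs_le.1 (b7 y hy).1).1
    have hθy : θ * M.I x (VD D) y ≤ 1 / 200 * M.I x (VD D) y :=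
      mul_le_mul_of_nonneg_right hθ1 h2.le
    have h4 : M.I x (VD D) y ≤ 2 * M₀.I x (VD D) y := by linarith
    have h40 : 0 ≤ M₀.I x (VD D) y := by linarith
    have h5 : (4:ℝ) ≤ Real.exp (m + 3) := by
      have h6 := Real.add_one_le_exp ((m:ℝ) + 3)
      have h7 : (0:ℝ) ≤ m := by positivity
      linarith
    have h8 : Real.exp G * Real.exp (m + 3) ≤ Real.exp Gs := by
      rw [← Real.exp_add]
      exact Real.exp_le_exp.2 (by linarith)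
    calc M₀.I x (VD D) l ≤ 2 * M.I x (VD D) l := hII1
      _ ≤ 2 * (Real.exp G * M.I x (VD D) y) := mul_le_mul_of_nonneg_left h1 (by norm_num)
      _ ≤ 2 * (Real.exp G * (2 * M₀.I x (VD D) y)) :=
          mul_le_mul_of_nonneg_left (mul_le_mul_of_nonneg_left h4 (Real.exp_pos _).le)
            (by norm_num)
      _ = 4 * (Real.exp G * M₀.I x (VD D) y) := by ring
      _ ≤ Real.exp (m + 3) * (Real.exp G * M₀.I x (VD D) y) :=
          mul_le_mul_of_nonneg_right h5 (by positivity)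
      _ = (Real.exp G * Real.exp (m + 3)) * M₀.I x (VD D) y := by ring
      _ ≤ Real.exp Gs * M₀.I x (VD D) y := mul_le_mul_of_nonneg_right h8 h40
  have hsup₀ : SupLe M₀ x (VD D) (Real.exp (l + 1 / (2 * K) - M₀.lb)) (Real.exp (-(L₀ / 8))) :=
    b9.mono (Real.exp_le_exp.2 (by rw [q2, q3]; linarith)) (Real.exp_le_exp.2 (by linarith))
  have hmean₀ : MeanK Ks M₀ x (VD D) (Real.exp (l - M₀.lb) * (1 + 1 / (8 * K)))
      ((L₀ ^ qs)⁻¹ * √(M₀.I x (VD D) l)) := by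
    refine b10.mono ?_ ?_
    · have h1 : l + 3 / (4 * K) - M₀.lb = (l - M₀.lb) + 3 / (4 * K) := by ring
      rw [h1, Real.exp_add]
      refine mul_le_mul_of_nonneg_left ?_ (Real.exp_pos _).le
      have h2 := Real.add_one_le_exp (3 / (4 * K))
      rw [q3] at h2 ⊢
      rw [q8]; linarith
    · have h1 := inv_size qs hL1 hLb2 hL₀0 t9
      calc θ * √(M.I x (VD D) l) ≤ θ * (2 * √(M₀.I x (VD D) l)) :=
            mul_le_mul_of_nonneg_left hsq2 hθ0.le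
        _ = 2 * θ * √(M₀.I x (VD D) l) := by ring
        _ ≤ _ := mul_le_mul_of_nonneg_right h1 (Real.sqrt_nonneg _)
  have hKL4 : K ≤ 4 * L₀ ^ 2 := by
    have h1 : (L - 1) ^ 2 ≤ L₀ ^ 2 := pow_le_pow_left₀ (by linarith) hLb1 2
    have h2 : 200 * L ≤ L * L := mul_le_mul_of_nonneg_right t7 hL0.le
    have h3 : (L - 1) ^ 2 = L * L - 2 * L + 1 := by ring
    have h4 : L ^ 2 = L * L := by ring
    rw [h3] at h1
    rw [h4] at hKL
    linarith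
  obtain ⟨u', A, hA0, hA, g1, g2, g3⟩ := HC U D x M₀ l K L₀ hL₀ hs₀ b3 hκs' hMG0
    (by rw [b6, norm_zero]; positivity) hK hKL4 (by rw [b1, q22]; linarith)
    (by rw [b1, q22]; linarith) hI₀ (by linarith) hgr₀ hdn₀ hsup₀ hmean₀
  obtain ⟨g4, g5, g6⟩ := g3 { M₀ with u := u', κ := M₀.κ + A } rfl rfl rfl rfl rfl
  have hsize := size_le p₀ hL1 hLb2 hLb1 hL₀0.le t8
  set σ₀ := L₀ ^ p₀ * Real.exp (-(L₀ / 2)) with hσ₀
  have hσ₀0 : 0 ≤ σ₀ := by positivity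
  rw [b6, norm_zero, zero_add] at g2
  have hnear := b7.trans g6 hpos (by positivity) (by linarith)
  have hth : θ + 2 * (L₀ ^ 6)⁻¹ ≤ (L ^ 5)⁻¹ := by
    have h1 : (L₀ ^ 6)⁻¹ ≤ ((L / (11/10)) ^ 6)⁻¹ :=
      inv_anti₀ (by positivity) (pow_le_pow_left₀ (by positivity) (by linarith) 6)
    have h2 : ((L / (11/10)) ^ 6)⁻¹ ≤ 2 * (L ^ 6)⁻¹ := by
      rw [div_pow, inv_div, div_eq_mul_inv]
      exact mul_le_mul_of_nonneg_right (by norm_num) (by positivity)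
    have h3 : (L ^ 6)⁻¹ ≤ (L ^ 5)⁻¹ * (1 / 200) := by
      rw [pow_succ L 5, mul_inv]
      refine mul_le_mul_of_nonneg_left ?_ (by positivity)
      rw [← one_div]
      exact one_div_le_one_div_of_le (by norm_num) t7
    have h4 : 0 < (L ^ 5)⁻¹ := by positivity
    linarith
  have hθ5' : θ ≤ (L ^ 5)⁻¹ := by
    have h4 : 0 < (L ^ 5)⁻¹ := by positivity
    linarith
  refine ⟨{ M₀ with u := u', κ := M₀.κ + A }, ⟨b2, add_nonneg b3 hA0, g1,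
    g4.mono le_rfl (by linarith), g5.mono le_rfl ?_, hnear.mono hth hpos⟩, b1, ?_, ?_⟩
  · calc σ₀ * √(M₀.I x (VD D) l) ≤ σ₀ * (2 * √(M.I x (VD D) l)) :=
          mul_le_mul_of_nonneg_left hsq1 hσ₀0
      _ = 2 * σ₀ * √(M.I x (VD D) l) := by ring
      _ ≤ _ := mul_le_mul_of_nonneg_right hsize (Real.sqrt_nonneg _)
  · show M₀.κ + A ≤ _
    have : A ≤ L ^ (p₀ + 1) * Real.exp (-(L / 2)) := by linarith
    linarith
  · show ‖fderiv ℝ u' 0‖ ≤ _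
    linarith

end Crest.Agent.R234.Stp_518
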