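import Crest.Agent.R234.Stp6_518
import Crest.Agent.R234.Thya4_685

-- ▼ part R234/Stp7_518
section

/-!
# Row 234, F7-STEPV (helper518), part 7: the step at the level of references (`pre_step`)

From a reference with the properties of a state at a flat level: `Out` on `[l - 2/K, l]` and the
new reference `M₁` (same block, or rotated and rescaled block).
-/

set_option autoImplicit false
set_option linter.unusedVariables false

open MeasureTheory Filter Topology Set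
open scoped ENNReal NNReal ContDiff
open Crest.GeometryTopology.Submanifold Crest.Agent.R234.Vf_884
open Crest.Agent.R234.Main_456 (Frame Msys hgt)
open Crest.Agent.R234.MG_570 (MG SelP3 bar)
open Crest.Agent.R234.F10d_188 (flatL)

noncomputable section

namespace Crest.Agent.R234.Stp_518

variable {m n k : ℕ}

/-- inner statement of `sit_of` at one point. -/
def SitH (m n Q N : ℕ) (T ε Λ κ₀ η : ℝ) (U : Set (Euc (m + n))) (D : VarifoldData m (m + n))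
    (x : Euc (m + n)) (l : ℝ) : Prop :=
  ∀ (M : Mo m n (m + n)) (R : ℝ), l ≤ M.lb → M.lb ≤ l + T → Frame M.π M.ρ → 0 ≤ M.κ →
    M.κ ≤ κ₀ → MG N M.κ R M.u → SupLe M x (VD D) (Real.exp (l - M.lb)) η → Sit U D Q x M ε Λ

/-- inner statement of `out_of_GLP`. -/
def OutH (m n Q N : ℕ) (T Λ Cδ G₀ G κ₀ ε L₁ : ℝ) : Prop :=
    ∀ (U : Set (Euc (m + n))) (D : VarifoldData m (m + n)) (x : Euc (m + n))
      (M : Mo m n (m + n)) (l K L δu : ℝ), L = lam (M.I x (VD D)) l →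
      Sit U D Q x M ε Λ → 0 ≤ M.κ → M.κ ≤ κ₀ → MG N M.κ (Real.exp (l + 1 / K - M.lb)) M.u →
      32 ≤ K → K ≤ 2 * L ^ 2 → M.lb - T ≤ l → l + 1 / 8 ≤ M.lb → 0 < M.I x (VD D) l → L₁ ≤ L →
      8 * fr (M.E x (VD D) Q) (M.I x (VD D)) l ≤ K →
      Real.log (M.I x (VD D) (l + 1 / K)) ≤ Real.log (M.I x (VD D) l) + G →
      ‖fderiv ℝ M.u 0‖ ≤ δu → Cδ * δu ≤ 1 / (2 * L ^ 2) →
      Out (M.I x (VD D)) (M.E x (VD D) Q) l K (Cδ * M.kap l + 1 / L ^ 2) G₀ ∧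
        Cδ * M.kap l + 1 / L ^ 2 ≤ 1 / 100

/-- the properties of a state used by the step. -/
structure StH (Q Ks N : ℕ) (D : VarifoldData m (m + n)) (x : Euc (m + n))
    (M : Mo m n (m + n)) (l L T G κ₀ : ℝ) : Prop where
  eL : L = lam (M.I x (VD D)) l
  fr : Frame M.π M.ρ
  κ0 : 0 ≤ M.κ
  κ1 : M.κ ≤ κ₀
  mg : MG N M.κ (M.rad l) M.u
  lo : M.lb - T ≤ l
  hi : l + 1 / 8 ≤ M.lb
  pos : 0 < M.I x (VD D) l
  mean : MeanK Ks M x (VD D) (M.rad l) (Real.exp (-(L / 4)) * √(M.I x (VD D) l))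
  sup : SupLe M x (VD D) (M.rad l) (Real.exp (-(L / 4)))
  grow : Real.log (M.I x (VD D) (l + 1 / M.K)) ≤ Real.log (M.I x (VD D) l) + G
  K32 : 32 ≤ M.K
  KL : M.K ≤ 2 * L ^ 2
  KN : 8 * Stp_518.fr (M.E x (VD D) Q) (M.I x (VD D)) l ≤ M.K

/-- thresholds. -/
structure ThH (p₀ qs qB : ℕ) (η LO Ls LB κs κS κp Cδ L : ℝ) : Prop where
  t1 : Real.exp (-(L / 5)) ≤ η
  t2 : L ^ qB * Real.exp (-(L / 4)) ≤ 1
  t3 : L ^ qs * Real.exp (-(L / 4)) ≤ 1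
  t4 : LO ≤ L
  t5 : Ls + 1 ≤ L
  t6 : LB ≤ L
  t7 : 200 ≤ L
  t8 : (2:ℝ) ^ (p₀ + 3) ≤ L
  t9 : (2:ℝ) ^ (qs + 2) ≤ L
  t10 : 4 / κs ≤ L
  t11 : 4 / κS ≤ L
  t12 : 4 / κp ≤ L
  t13 : 2 * Cδ ≤ L
  t14 : 8 / κs ≤ L

theorem exists_ThH (p₀ qs qB : ℕ) {η LO Ls LB κs κS κp Cδ : ℝ} (hη : 0 < η) :
    ∃ L₁ : ℝ, ∀ L : ℝ, L₁ ≤ L → ThH p₀ qs qB η LO Ls LB κs κS κp Cδ L := by
  have hev : ∀ᶠ L : ℝ in atTop, ThH p₀ qs qB η LO Ls LB κs κS κp Cδ L := by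
    filter_upwards [ev_exp 1 (1 / 5) 0 (by norm_num) hη, ev_exp 1 (1 / 4) qB (by norm_num) one_pos,
      ev_exp 1 (1 / 4) qs (by norm_num) one_pos, eventually_ge_atTop LO,
      eventually_ge_atTop (Ls + 1), eventually_ge_atTop LB, eventually_ge_atTop 200,
      eventually_ge_atTop ((2:ℝ) ^ (p₀ + 3)), eventually_ge_atTop ((2:ℝ) ^ (qs + 2)),
      eventually_ge_atTop (4 / κs), eventually_ge_atTop (4 / κS), eventually_ge_atTop (4 / κp),
      eventually_ge_atTop (2 * Cδ), eventually_ge_atTop (8 / κs)] with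
      L h1 h2 h3 h4 h5 h6 h7 h8 h9 h10 h11 h12 h13 h14
    have e5 : Real.exp (-(1 / 5 * L)) = Real.exp (-(L / 5)) := by congr 1; ring
    have e4 : Real.exp (-(1 / 4 * L)) = Real.exp (-(L / 4)) := by congr 1; ring
    rw [e5, pow_zero, one_mul, one_mul] at h1
    rw [e4, one_mul] at h2 h3
    exact ⟨h1, h2, h3, h4, h5, h6, h7, h8, h9, h10, h11, h12, h13, h14⟩
  exact eventually_atTop.1 hev

/-- slope bounds. -/
theorem slope {δu L κs Cδ K : ℝ} {qB : ℕ} (hδ0 : 0 ≤ δu) (hL1 : 1 ≤ L) (hκs : 0 < κs)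
    (hK0 : 0 < K) (hKL : K ≤ 2 * L ^ 2) (t13 : 2 * Cδ ≤ L) (t14 : 8 / κs ≤ L)
    (hδu : δu * L ^ max 3 qB ≤ 1) :
    δu ≤ (L ^ qB)⁻¹ ∧ Cδ * δu ≤ 1 / (2 * L ^ 2) ∧ δu ≤ κs / (4 * K) := by
  have hL0 : 0 < L := by linarith
  have hqq : L ^ 3 ≤ L ^ max 3 qB := pow_le_pow_right₀ hL1 (le_max_left _ _)
  have hδ3 : δu * L ^ 3 ≤ 1 := (mul_le_mul_of_nonneg_left hqq hδ0).trans hδu
  refine ⟨?_, ?_, ?_⟩
  · rw [← one_div, le_div_iff₀ (by positivity)]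
    exact (mul_le_mul_of_nonneg_left (pow_le_pow_right₀ hL1 (le_max_right _ _)) hδ0).trans hδu
  · rw [le_div_iff₀ (by positivity)]
    calc Cδ * δu * (2 * L ^ 2) = (2 * Cδ) * (δu * L ^ 2) := by ring
      _ ≤ L * (δu * L ^ 2) := mul_le_mul_of_nonneg_right t13 (by positivity)
      _ = δu * L ^ 3 := by ring
      _ ≤ 1 := hδ3
  · rw [le_div_iff₀ (by positivity)]
    have h1 : δu * (4 * K) ≤ δu * (8 * L ^ 2) := mul_le_mul_of_nonneg_left (by linarith) hδ0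
    have h2 : 8 ≤ L * κs := by rwa [div_le_iff₀ hκs] at t14
    have h3 : δu * (8 * L ^ 2) ≤ δu * ((L * κs) * L ^ 2) :=
      mul_le_mul_of_nonneg_left (mul_le_mul_of_nonneg_right h2 (by positivity)) hδ0
    have h4 : δu * ((L * κs) * L ^ 2) = κs * (δu * L ^ 3) := by ring
    have h5 : κs * (δu * L ^ 3) ≤ κs * 1 := mul_le_mul_of_nonneg_left hδ3 hκs.le
    linarith

/-- outcome of the step. -/
def ResH (Q Ks N p : ℕ) (C₁ T G₀ Cδ : ℝ) (U : Set (Euc (m + n))) (D : VarifoldData m (m + n))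
    (x : Euc (m + n)) (M : Mo m n (m + n)) (l L : ℝ) : Prop :=
  Out (M.I x (VD D)) (M.E x (VD D) Q) l M.K (Cδ * M.kap l + 1 / L ^ 2) G₀ ∧
    Cδ * M.kap l + 1 / L ^ 2 ≤ 1 / 100 ∧
  ∃ M₁ : Mo m n (m + n), Res U D Q x Ks N M M₁ l M.K L (L ^ p * Real.exp (-(L / 2)))
    (L ^ 5)⁻¹ ∧
    ((M₁.lb = M.lb ∧ M.lb - T ≤ l - 2 / M.K ∧
        M₁.κ ≤ M.κ + L ^ p * Real.exp (-(L / 2)) ∧
        ‖fderiv ℝ M₁.u 0‖ ≤ ‖fderiv ℝ M.u 0‖ + L ^ p * Real.exp (-(L / 2))) ∨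
     (M₁.lb = l - 2 / M.K + 1 / 8 ∧ l - 2 / M.K < M.lb - T ∧
        M₁.κ ≤ C₁ * Real.exp (M₁.lb - M.lb) * M.κ + (L ^ 5)⁻¹ +
          L ^ p * Real.exp (-(L / 2)) ∧
        ‖fderiv ℝ M₁.u 0‖ ≤ L ^ p * Real.exp (-(L / 2))))

set_option maxHeartbeats 800000 in
/-- the step at one reference, all inputs instantiated. -/
theorem step_one {Q Ks N p₀ qs qB : ℕ}
    {C₁ T Λ G G₀ Gs Cδ κO εO LO κs εs Ls κB εB LB κS κp η ε : ℝ}
    {U : Set (Euc (m + n))} {D : VarifoldData m (m + n)} {x : Euc (m + n)}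
    {M : Mo m n (m + n)} {l L δu κ₀ : ℝ}
    (HC : CoreH m n Q Ks N p₀ 6 qs T Λ Gs κs εs Ls)
    (HB : BlkH m n Q Ks N (qs + 7) qB C₁ T Λ (max G G₀) κB εB LB)
    (HO : OutH m n Q N T Λ Cδ G₀ G κO εO LO) (HS : SitH m n Q N T ε Λ κS η U D x l)
    (Hp : ∀ (M : Mo m n (m + n)) (ε Λ R : ℝ), Sit U D Q x M ε Λ → 0 ≤ M.κ → M.κ ≤ κp →
      MG N M.κ R M.u → ∀ (l l' : ℝ), l ≤ l' → 0 < M.I x (VD D) l →
        0 < M.I x (VD D) l' ∧ M.I x (VD D) l ≤ Real.exp (m * (l' - l)) * M.I x (VD D) l')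
    (hGs : max G G₀ + m + 3 ≤ Gs) (hE1 : ε ≤ εO) (hE2 : ε ≤ εs) (hE3 : ε ≤ εB)
    (hκs : 0 < κs) (hκS : 0 < κS) (hκp : 0 < κp) (hC₁ : 1 ≤ C₁) (hT1 : 1 ≤ T)
    (hCT : C₁ * Real.exp (-(T / 5)) ≤ 1 / 4)
    (k1 : κ₀ ≤ κO) (k2 : κ₀ ≤ κs / 2) (k3 : κ₀ ≤ κB) (k4 : κ₀ ≤ κS / 2) (k5 : κ₀ ≤ κp / 2)
    (st : StH Q Ks N D x M l L T G κ₀) (t : ThH p₀ qs qB η LO Ls LB κs κS κp Cδ L)
    (hdu : ‖fderiv ℝ M.u 0‖ ≤ δu) (hδu : δu * L ^ max 3 qB ≤ 1) :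
    ResH Q Ks N (p₀ + 1) C₁ T G₀ Cδ U D x M l L := by
  have t7 := t.t7
  have hK := st.K32
  have hlo := st.lo
  have hhi := st.hi
  have hK0 : 0 < M.K := by linarith
  have hL1 : 1 ≤ L := by linarith
  have hL0 : 0 < L := by linarith
  have q1 : 0 < 1 / M.K := by positivity
  have q3 : 3 / (4 * M.K) = 3 * (1 / M.K) / 4 := by field_simp
  have q8 : 1 / (8 * M.K) = 1 / M.K / 8 := by field_simp
  have q32 : 1 / M.K ≤ 1 / 32 := one_div_le_one_div_of_le (by norm_num) hK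
  obtain ⟨d1, d2, d3⟩ := slope (qB := qB) ((norm_nonneg _).trans hdu) hL1 hκs hK0 st.KL t.t13
    t.t14 hδu
  have c1 : M.κ ≤ κO := st.κ1.trans k1
  have c2 : M.κ ≤ κs / 2 := st.κ1.trans k2
  have c3 : M.κ ≤ κB := st.κ1.trans k3
  have c4 : M.κ ≤ κS / 2 := st.κ1.trans k4
  have c5 : M.κ ≤ κp / 2 := st.κ1.trans k5
  have hradE : M.rad l = Real.exp (l + 1 / M.K - M.lb) * (1 + 1 / (8 * M.K)) := rfl
  have hrad1 : Real.exp (l + 1 / M.K - M.lb) ≤ M.rad l := by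
    rw [hradE]
    refine le_mul_of_one_le_right (Real.exp_pos _).le ?_
    rw [q8]; linarith
  have hs : Sit U D Q x M ε Λ := HS M (M.rad l) (by linarith) (by linarith) st.fr st.κ0
    (by linarith) st.mg (st.sup.mono ((Real.exp_le_exp.2 (by linarith)).trans hrad1)
      (le_trans (Real.exp_le_exp.2 (by linarith)) t.t1))
  obtain ⟨ho, hy1⟩ := HO U D x M l M.K L δu st.eL (hs.mono hE1) st.κ0 c1
    (st.mg.mono le_rfl hrad1) hK st.KL hlo hhi st.pos t.t4 st.KN st.grow hdu d2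
  refine ⟨ho, hy1, ?_⟩
  have hGG : Real.exp G₀ ≤ Real.exp (max G G₀) := Real.exp_le_exp.2 (le_max_right _ _)
  have hm0 : (0:ℝ) ≤ m := by positivity
  have hdn : ∀ y ∈ Icc (l - 2 / M.K) l,
      M.I x (VD D) l ≤ Real.exp (max G G₀) * M.I x (VD D) y :=
    fun y hy => (ho.o2 y hy).trans (mul_le_mul_of_nonneg_right hGG (ho.pos y hy).le)
  rcases le_or_gt (M.lb - T) (l - 2 / M.K) with hcase | hcase
  · have hI34 := Hp M ε Λ _ hs st.κ0 (by linarith) st.mg l (l + 3 / (4 * M.K))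
      (by rw [q3]; linarith) st.pos
    have hI1 := Hp M ε Λ _ hs st.κ0 (by linarith) st.mg (l + 3 / (4 * M.K)) (l + 1 / M.K)
      (by rw [q3]; linarith) hI34.1
    have hgr34 : Real.log (M.I x (VD D) (l + 3 / (4 * M.K))) ≤
        Real.log (M.I x (VD D) l) + Gs := by
      have h1 := Real.log_le_log hI34.1 hI1.2
      rw [Real.log_mul (Real.exp_pos _).ne' hI1.1.ne', Real.log_exp] at h1
      have h2 := le_max_left G G₀
      have h3 : (m:ℝ) * (l + 1 / M.K - (l + 3 / (4 * M.K))) ≤ m * 1 :=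
        mul_le_mul_of_nonneg_left (by rw [q3]; linarith) hm0
      have h4 := st.grow
      linarith
    have hGGs : Real.exp (max G G₀) ≤ Real.exp Gs := Real.exp_le_exp.2 (by linarith)
    obtain ⟨M₁, r1, r2, r3, r4⟩ := case_in HC st.eL (hs.mono hE2) st.κ0 (by linarith) st.mg
      (hdu.trans d3) hK st.KL hlo hhi st.pos (by linarith [t.t5]) hL1 hgr34 ho.pos
      (fun y hy => (hdn y hy).trans (mul_le_mul_of_nonneg_right hGGs (ho.pos y hy).le))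
      st.sup st.mean t.t3 t.t8
    exact ⟨M₁, r1, Or.inl ⟨r2, hcase, r3, r4⟩⟩
  · obtain ⟨M₁, r1, r2, r3, r4⟩ := case_blk HC HB st.eL (hs.mono hE3) st.κ0 c3 hκs hκS hκp c2 c4
      c5 st.mg (hdu.trans d1) hK st.KL hlo hcase st.pos
      (st.grow.trans (by linarith [le_max_left G G₀])) ho.pos hdn st.sup st.mean
      (fun M' R h1 h2 h3 h4 h5 h6 h7 => (HS M' R h1 h2 h3 h4 h5 h6 h7).mono hE2)
      (fun M' R h1 h2 h3 h4 l' hl' hI' => (Hp M' _ _ R h1 h2 h3 h4 l l' hl' hI').1)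
      hC₁ hT1 hCT hGs t.t1 t.t2 t.t5 t.t6 t.t7 t.t8 t.t9 t.t10 t.t11 t.t12
    exact ⟨M₁, r1, Or.inr ⟨r2, hcase, r3, r4⟩⟩

/-- **the step at the level of references.** -/
theorem pre_step (hGL : GLP) (hSup : SupP) (hSw : SwP) (hBlk : BlkP) (hSel : SelP3) (m n : ℕ)
    (hm : 3 ≤ m) (hn : 1 ≤ n) :
    ∃ Ks₀ : ℕ, ∀ Ks : ℕ, Ks₀ ≤ Ks → ∀ Q : ℕ, 1 ≤ Q → ∃ N₀ : ℕ, ∀ N : ℕ, N₀ ≤ N →
    ∃ (p : ℕ) (C₁ T₀ : ℝ), 1 ≤ C₁ ∧
    ∀ T : ℝ, T₀ ≤ T → 1 ≤ T → C₁ * Real.exp (-(T / 5)) ≤ 1 / 4 →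
    ∃ G₀ Cδ : ℝ, 0 ≤ G₀ ∧ 0 ≤ Cδ ∧ ∀ G c₀ : ℝ, T + 3 ≤ c₀ →
    ∃ (q₁ : ℕ) (κ₀ L₁ om : ℝ), 0 < κ₀ ∧ 0 < om ∧
    ∀ (U : Set (Euc (m + n))) (D : VarifoldData m (m + n)) (x : Euc (m + n)) (om' r₁ : ℝ)
      (M : Mo m n (m + n)) (l L δu κ' : ℝ), om' ≤ om → Env m U D Q x om' r₁ →
      flatL m (VD D) x om' c₀ r₁ l → κ' ≤ κ₀ → StH Q Ks N D x M l L T G κ' → L₁ ≤ L →
      ‖fderiv ℝ M.u 0‖ ≤ δu → δu * L ^ q₁ ≤ 1 →
      ResH Q Ks N p C₁ T G₀ Cδ U D x M l L := by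
  obtain ⟨Ks₁, HC⟩ := coreH hSup hSw hSel m n hm hn
  refine ⟨max 1 Ks₁, ?_⟩
  intro Ks hKs Q hQ
  obtain ⟨N₁, HC⟩ := HC Ks ((le_max_right _ _).trans hKs) Q hQ
  obtain ⟨N₂, HO⟩ := out_of_GLP hGL m n Q hm hn hQ
  obtain ⟨N₃, HB⟩ := blkH hBlk m n Q hm hn hQ
  refine ⟨max (max 2 N₁) (max N₂ N₃), ?_⟩
  intro N hN
  have hN0 : 2 ≤ N := ((le_max_left _ _).trans (le_max_left _ _)).trans hN
  have hN1 : N₁ ≤ N := ((le_max_right _ _).trans (le_max_left _ _)).trans hN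
  have hN2 : N₂ ≤ N := ((le_max_left _ _).trans (le_max_right _ _)).trans hN
  have hN3 : N₃ ≤ N := ((le_max_right _ _).trans (le_max_right _ _)).trans hN
  obtain ⟨p₀, HC⟩ := HC N hN1
  obtain ⟨C₁, T₀, hC₁, HB⟩ := HB N hN3
  refine ⟨p₀ + 1, C₁, T₀, hC₁, ?_⟩
  intro T hT hT1 hCT
  obtain ⟨Λ, hΛ, HS⟩ := sit_of m n N Q (by omega) hQ T (by linarith)
  obtain ⟨G₀, Cδ, hG₀, hCδ, HO⟩ := HO N hN2 T Λ
  refine ⟨G₀, Cδ, hG₀, hCδ, ?_⟩
  intro G c₀ hc₀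
  obtain ⟨κO, εO, LO, hκO, hεO, HO⟩ := HO G
  obtain ⟨qs, κs, εs, Ls, hκs, hεs, HC⟩ := HC 6 T Λ (max G G₀ + m + 3)
  obtain ⟨qB, κB, εB, LB, hκB, hεB, HB⟩ := HB Ks (qs + 7) T Λ (max G G₀)
    ((le_max_left _ _).trans hKs) hT
  obtain ⟨κp, hκp, Hp⟩ := I_posm m n hN0
  obtain ⟨κS, η, om, hκS, hη, hom, HS⟩ := HS (min εO (min εs εB)) c₀ (by positivity) hc₀
  obtain ⟨L₁, hL₁⟩ := exists_ThH p₀ qs qB (LO := LO) (Ls := Ls) (LB := LB) (κs := κs) (κS := κS)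
    (κp := κp) (Cδ := Cδ) hη
  refine ⟨max 3 qB, min κO (min (κs / 2) (min κB (min (κS / 2) (κp / 2)))), L₁, om,
    by positivity, hom, ?_⟩
  intro U D x om' r₁ M l L δu κ' homle henv hfl hκ' st hL hdu hδu
  exact step_one HC HB HO
    (fun M R h1 h2 h3 h4 h5 h6 h7 => HS U D x om' r₁ M l R homle henv hfl h1 h2 h3 h4 h5 h6 h7)
    (fun M ε Λ R h1 h2 h3 h4 l l' h5 h6 => Hp h1 h2 h3 h4 h5 h6) le_rfl (min_le_left _ _)
    ((min_le_right _ _).trans (min_le_left _ _)) ((min_le_right _ _).trans (min_le_right _ _))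
    hκs hκS hκp hC₁ hT1 hCT (hκ'.trans (min_le_left _ _))
    (hκ'.trans ((min_le_right _ _).trans (min_le_left _ _)))
    (hκ'.trans ((min_le_right _ _).trans ((min_le_right _ _).trans (min_le_left _ _))))
    (hκ'.trans ((min_le_right _ _).trans ((min_le_right _ _).trans
      ((min_le_right _ _).trans (min_le_left _ _)))))
    (hκ'.trans ((min_le_right _ _).trans ((min_le_right _ _).trans
      ((min_le_right _ _).trans (min_le_right _ _)))))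
    st (hL₁ L hL) hdu hδu

end Crest.Agent.R234.Stp_518
end
end

-- ▼ part R234/Stp8_518
section

/-!
# Row 234, F7-STEPV (helper518), part 8: real-variable closing of the step

`rec_start` : record of a new block; `kap_in`, `kap_blk` : normalised curvature; thresholds.
-/

set_option autoImplicit false
set_option linter.unusedVariables false

open Filter Topology Set Real

noncomputable section

namespace Crest.Agent.R234.Stp_518

open Crest.Agent.R234.F10a_188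

/-- start of the record in a new block, with a weak bound of the frequency. -/
theorem rec_start {k : Cst} {L₁ κm G l L f κ K : ℝ} (hL₁ : 0 < L₁) (hL : L₁ ≤ L) (hκm : κ ≤ κm)
    (hf : -1 < f) (hK : K ≤ 2 * L ^ 2) (hP : 32 * (1 + f) ≤ 8 * L ^ 2)
    (hb : 32 * exp (k.base L₁ κm) ≤ L₁ ^ 2) (he : 2 * k.b * κm + 4 * k.A / L₁ ≤ 1) :
    Rec k L₁ κm G l L (max K (max (32 * exp (k.pot L f κ)) (L ^ 2)))
      (max (k.pot L f κ) (k.base L₁ κm)) l L f κ K ∧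
      max K (max (32 * exp (k.pot L f κ)) (L ^ 2)) ≤ 40 * L ^ 2 := by
  have hL0 : 0 < L := hL₁.trans_le hL
  have hb0 := k.hb
  have hA0 := k.A_nonneg
  constructor
  · refine ⟨le_refl _, hL, le_max_left _ _, le_max_left _ _, le_max_right _ _, ?_, by simp,
      by simp⟩
    rcases le_total (k.pot L f κ) (k.base L₁ κm) with h1 | h1
    · rw [max_eq_right h1]
      refine hb.trans ?_
      have : L₁ ^ 2 ≤ L ^ 2 := pow_le_pow_left₀ hL₁.le hL 2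
      exact this.trans ((le_max_right _ _).trans (le_max_right _ _))
    · rw [max_eq_left h1]
      exact (le_max_left _ _).trans (le_max_right _ _)
  · have hL2 : 0 < L ^ 2 := by positivity
    have h1 : k.pot L f κ ≤ log (1 + f) + 1 := by
      unfold Cst.pot
      have h2 : 2 * k.b * κ ≤ 2 * k.b * κm := mul_le_mul_of_nonneg_left hκm (by positivity)
      have h3 : 4 * k.A / L ≤ 4 * k.A / L₁ := div_le_div_of_nonneg_left (by positivity) hL₁ hL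
      linarith
    have h4 : exp (k.pot L f κ) ≤ (1 + f) * exp 1 := by
      refine (exp_le_exp.2 h1).trans ?_
      rw [exp_add, exp_log (by linarith)]
    have h5 : exp (1:ℝ) ≤ 3 := by have := exp_one_lt_d9; linarith
    have h6 : (1 + f) * exp 1 ≤ (1 + f) * 3 := mul_le_mul_of_nonneg_left h5 (by linarith)
    refine max_le (by linarith) (max_le (by linarith) (by linarith))

theorem base_le {k : Cst} {L₁ κm : ℝ} (hc : k.c = 1) (h14 : 14 ≤ L₁)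
    (he : 2 * k.b * κm + 4 * k.A / L₁ ≤ 1) : 32 * exp (k.base L₁ κm) ≤ L₁ ^ 2 := by
  have h1 : k.base L₁ κm ≤ log 2 + 1 := by
    unfold Cst.base
    rw [hc]
    norm_num
    linarith
  have h2 : exp (k.base L₁ κm) ≤ 2 * exp 1 := by
    refine (exp_le_exp.2 h1).trans ?_
    rw [exp_add, exp_log (by norm_num)]
  have h5 : exp (1:ℝ) ≤ 3 := by have := exp_one_lt_d9; linarith
  nlinarith

theorem exp_h {h : ℝ} (h0 : 0 ≤ h) (h1 : h ≤ 1 / 16) : exp (-(4 / 5 * h)) ≤ 1 - h / 2 := by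
  have h2 := add_one_le_exp (4 / 5 * h)
  have h3 : exp (-(4 / 5 * h)) * exp (4 / 5 * h) = 1 := by rw [← exp_add]; simp
  have h4 := exp_pos (-(4 / 5 * h))
  have h5 : exp (-(4 / 5 * h)) * (1 + 4 / 5 * h) ≤ 1 := by
    have := mul_le_mul_of_nonneg_left h2 h4.le
    linarith
  have h6 : 1 ≤ (1 - h / 2) * (1 + 4 / 5 * h) := by nlinarith
  exact le_of_mul_le_mul_right (h5.trans h6) (by linarith)

theorem kap_in {κ κ₁ σ lb l h s : ℝ} (h0 : 0 ≤ h) (h1 : h ≤ 1 / 16) (hκ : 0 ≤ κ) (hσ : 0 ≤ σ)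
    (hl : l ≤ lb) (hκ₁ : κ₁ ≤ κ + σ) (hσa : σ ≤ s) :
    κ₁ * exp (-(4 / 5 * (lb - (l - h)))) ≤ (1 - h / 2) * (κ * exp (-(4 / 5 * (lb - l)))) + s := by
  have e1 : exp (-(4 / 5 * (lb - (l - h)))) = exp (-(4 / 5 * (lb - l))) * exp (-(4 / 5 * h)) := by
    rw [← exp_add]; congr 1; ring
  have e2 := exp_h h0 h1
  have e3 : exp (-(4 / 5 * (lb - l))) ≤ 1 := exp_le_one_iff.2 (by linarith)
  have e4 := exp_pos (-(4 / 5 * (lb - l)))
  have e5 := exp_pos (-(4 / 5 * h))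
  rw [e1]
  set a := exp (-(4 / 5 * (lb - l)))
  set b := exp (-(4 / 5 * h))
  have f1 : κ₁ * (a * b) ≤ (κ + σ) * (a * b) := mul_le_mul_of_nonneg_right hκ₁ (by positivity)
  have f2 : κ * a * b ≤ κ * a * (1 - h / 2) := mul_le_mul_of_nonneg_left e2 (by positivity)
  have f3 : a * b ≤ 1 := by nlinarith
  have f4 : σ * (a * b) ≤ σ * 1 := mul_le_mul_of_nonneg_left f3 hσ
  linarith

theorem kap_blk {C₁ T κ κ₁ σ θ lb lb₁ l h s : ℝ} (hC₁ : 0 ≤ C₁) (h0 : 0 ≤ h) (h1 : h ≤ 1 / 16)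
    (hκ : 0 ≤ κ) (hσ : 0 ≤ σ + θ) (hlb₁ : lb₁ = l - h + 1 / 8) (hT : l - h < lb - T)
    (hCT : C₁ * exp (-(T / 5)) ≤ 1 / 4)
    (hκ₁ : κ₁ ≤ C₁ * exp (lb₁ - lb) * κ + θ + σ) (hσa : σ + θ ≤ s) :
    κ₁ * exp (-(4 / 5 * (lb₁ - (l - h)))) ≤
      (1 - h / 2) * (κ * exp (-(4 / 5 * (lb - l)))) + s := by
  have e0 : exp (-(4 / 5 * (lb₁ - (l - h)))) ≤ 1 := exp_le_one_iff.2 (by rw [hlb₁]; linarith)
  have e00 := exp_pos (-(4 / 5 * (lb₁ - (l - h))))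
  have e1 : exp (lb₁ - lb) ≤ exp (-(T / 5)) * exp (1 / 2) * exp (-(4 / 5 * (lb - l))) := by
    rw [← exp_add, ← exp_add]
    refine exp_le_exp.2 ?_
    rw [hlb₁]; linarith
  have e2 : exp (1 / 2 : ℝ) ≤ 15 / 8 := by
    have h1 : exp (1 / 2 : ℝ) * exp (1 / 2) = exp 1 := by rw [← exp_add]; norm_num
    have h2 := exp_one_lt_d9
    have h3 := exp_pos (1 / 2 : ℝ)
    nlinarith
  have ea := exp_pos (-(4 / 5 * (lb - l)))
  set a := exp (-(4 / 5 * (lb - l)))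
  have ec := exp_pos (-(T / 5))
  have f1 : C₁ * exp (lb₁ - lb) ≤ 15 / 32 * a := by
    calc C₁ * exp (lb₁ - lb) ≤ C₁ * (exp (-(T / 5)) * exp (1 / 2) * a) :=
          mul_le_mul_of_nonneg_left e1 hC₁
      _ = (C₁ * exp (-(T / 5))) * (exp (1 / 2) * a) := by ring
      _ ≤ 1 / 4 * (15 / 8 * a) := by
          refine mul_le_mul hCT (mul_le_mul_of_nonneg_right e2 ea.le) (by positivity) (by norm_num)
      _ = 15 / 32 * a := by ring
  have f2 : C₁ * exp (lb₁ - lb) * κ ≤ 15 / 32 * a * κ := mul_le_mul_of_nonneg_right f1 hκ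
  have f3 : κ₁ ≤ 15 / 32 * a * κ + s := by linarith
  have hs : 0 ≤ s := hσ.trans hσa
  have haκ : 0 ≤ a * κ := by positivity
  have f4 : κ₁ * exp (-(4 / 5 * (lb₁ - (l - h)))) ≤ 15 / 32 * a * κ + s := by
    rcases le_or_gt κ₁ 0 with g | g
    · have : κ₁ * exp (-(4 / 5 * (lb₁ - (l - h)))) ≤ 0 :=
        mul_nonpos_of_nonpos_of_nonneg g e00.le
      have h5 : 0 ≤ 15 / 32 * a * κ := by positivity
      linarith
    · calc κ₁ * exp (-(4 / 5 * (lb₁ - (l - h)))) ≤ κ₁ * 1 := mul_le_mul_of_nonneg_left e0 g.le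
        _ ≤ _ := by linarith
  nlinarith

/-- thresholds in `L`. -/
structure Th2 (p : ℕ) (a κ₀ κm T G₀ L : ℝ) : Prop where
  big : 200 ≤ L
  G1 : G₀ + 1 ≤ L
  s1 : 8 * (L ^ (p + 2) * exp (-(L / 4))) ≤ exp (-(G₀ + 2)) * exp (-T)
  s2 : L ^ (p + 4) * exp (-(L / 2)) ≤ 1
  s3 : L ^ p * exp (-(L / 2)) ≤ κ₀ / 4
  s4 : (L ^ 5)⁻¹ ≤ κ₀ / 4
  s5 : a / L ^ 2 ≤ κm / 2

theorem ev_exp' (C c : ℝ) (p : ℕ) (hc : 0 < c) {δ : ℝ} (hδ : 0 < δ) :
    ∀ᶠ L : ℝ in atTop, C * (L ^ p * exp (-(c * L))) ≤ δ := by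
  filter_upwards [ev_exp C c p hc hδ] with L hL
  rw [← mul_assoc]; exact hL

theorem exists_Th2 (p : ℕ) {a κ₀ κm T G₀ : ℝ} (hκ₀ : 0 < κ₀) (hκm : 0 < κm) :
    ∃ L₁ : ℝ, ∀ L : ℝ, L₁ ≤ L → Th2 p a κ₀ κm T G₀ L := by
  have h5 : Tendsto (fun L : ℝ => (L ^ 5)⁻¹) atTop (𝓝 0) :=
    tendsto_inv_atTop_zero.comp (tendsto_pow_atTop (by norm_num))
  have h6 : Tendsto (fun L : ℝ => a / L ^ 2) atTop (𝓝 0) :=
    tendsto_const_nhds.div_atTop (tendsto_pow_atTop (by norm_num))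
  have hev : ∀ᶠ L : ℝ in atTop, Th2 p a κ₀ κm T G₀ L := by
    filter_upwards [eventually_ge_atTop 200, eventually_ge_atTop (G₀ + 1),
      ev_exp' 8 (1 / 4) (p + 2) (by norm_num)
        (show 0 < exp (-(G₀ + 2)) * exp (-T) by positivity),
      ev_exp 1 (1 / 2) (p + 4) (by norm_num) one_pos,
      ev_exp 1 (1 / 2) p (by norm_num) (show 0 < κ₀ / 4 by positivity),
      h5.eventually (ge_mem_nhds (show 0 < κ₀ / 4 by positivity)),
      h6.eventually (ge_mem_nhds (show 0 < κm / 2 by positivity))] with L h1 h2 h3 h4 h5 h6 h7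
    have e4 : exp (-(1 / 4 * L)) = exp (-(L / 4)) := by congr 1; ring
    have e2 : exp (-(1 / 2 * L)) = exp (-(L / 2)) := by congr 1; ring
    rw [e4] at h3
    rw [e2, one_mul] at h4 h5
    exact ⟨h1, h2, h3, h4, h5, h6, h7⟩
  exact eventually_atTop.1 hev

/-- consequences of the thresholds for one step. -/
theorem Th2.sig {p : ℕ} {a κ₀ κm T G₀ L : ℝ} (t : Th2 p a κ₀ κm T G₀ L) {K : ℝ} (hK : 32 ≤ K)
    (hKL : K ≤ 2 * L ^ 2) (hT : 0 ≤ T) (hG : 0 ≤ G₀) (ha : 26 ≤ a) :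
    (L ^ 5)⁻¹ ≤ (2 / K) / L ^ 2 ∧
    L ^ p * exp (-(L / 2)) + (L ^ 5)⁻¹ ≤ a * (2 / K) / L ^ 2 ∧
    L ^ p * exp (-(L / 2)) ≤ (2 / K) * (exp (-(L / 4)) * exp (-T)) ∧
    8 * (L ^ p * exp (-(L / 2))) ≤ exp (-(L / 4)) * exp (-(G₀ + 2)) := by
  have h200 := t.big
  have hL0 : 0 < L := by linarith
  have hL1 : 1 ≤ L := by linarith
  have hK0 : 0 < K := by linarith
  have hh : 1 / L ^ 2 ≤ 2 / K := by
    rw [div_le_div_iff₀ (by positivity) hK0]; linarith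
  have e4 : 1 / L ^ 4 ≤ (2 / K) / L ^ 2 := by
    have : 1 / L ^ 4 = (1 / L ^ 2) / L ^ 2 := by
      rw [div_div, ← pow_add]
    rw [this]
    exact div_le_div_of_nonneg_right hh (by positivity)
  have e5 : (L ^ 5)⁻¹ ≤ 1 / L ^ 4 := by
    rw [one_div]
    exact inv_anti₀ (by positivity) (pow_le_pow_right₀ hL1 (by norm_num))
  have e6 : L ^ p * exp (-(L / 2)) ≤ 1 / L ^ 4 := by
    rw [le_div_iff₀ (by positivity)]
    have := t.s2
    rw [pow_add] at this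
    linarith
  have hE : exp (-(L / 2)) = exp (-(L / 4)) * exp (-(L / 4)) := by
    rw [← exp_add]; congr 1; ring
  have hE4 := exp_pos (-(L / 4))
  have hGT : exp (-(G₀ + 2)) ≤ 1 := exp_le_one_iff.2 (by linarith)
  have hTT : exp (-T) ≤ 1 := exp_le_one_iff.2 (by linarith)
  have hG0 := exp_pos (-(G₀ + 2))
  have hT0 := exp_pos (-T)
  have hp0 : 0 ≤ L ^ p * exp (-(L / 4)) := by positivity
  have s1' : L ^ 2 * (8 * (L ^ p * exp (-(L / 4)))) ≤ exp (-(G₀ + 2)) * exp (-T) := by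
    have := t.s1
    rw [pow_add] at this
    linarith
  refine ⟨e5.trans e4, ?_, ?_, ?_⟩
  · have h1 : a * (2 / K) / L ^ 2 = a * ((2 / K) / L ^ 2) := by ring
    rw [h1]
    have h2 : 0 < (2 / K) / L ^ 2 := by positivity
    nlinarith
  · -- `σ ≤ h e^{-L/4} e^{-T}`
    have h1 : L ^ p * exp (-(L / 4)) ≤ 1 / L ^ 2 * exp (-T) := by
      rw [div_mul_eq_mul_div, one_mul, le_div_iff₀ (by positivity)]
      have h2 : exp (-(G₀ + 2)) * exp (-T) ≤ 1 * exp (-T) :=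
        mul_le_mul_of_nonneg_right hGT hT0.le
      nlinarith
    calc L ^ p * exp (-(L / 2)) = (L ^ p * exp (-(L / 4))) * exp (-(L / 4)) := by
          rw [hE]; ring
      _ ≤ (1 / L ^ 2 * exp (-T)) * exp (-(L / 4)) := mul_le_mul_of_nonneg_right h1 hE4.le
      _ ≤ ((2 / K) * exp (-T)) * exp (-(L / 4)) :=
          mul_le_mul_of_nonneg_right (mul_le_mul_of_nonneg_right hh hT0.le) hE4.le
      _ = _ := by ring
  · have h1 : 8 * (L ^ p * exp (-(L / 4))) ≤ exp (-(G₀ + 2)) := by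
      have h2 : exp (-(G₀ + 2)) * exp (-T) ≤ exp (-(G₀ + 2)) * 1 :=
        mul_le_mul_of_nonneg_left hTT hG0.le
      have h3 : 1 ≤ L ^ 2 := one_le_pow₀ hL1
      have h4 : 8 * (L ^ p * exp (-(L / 4))) ≤ L ^ 2 * (8 * (L ^ p * exp (-(L / 4)))) := by
        nlinarith
      linarith
    calc 8 * (L ^ p * exp (-(L / 2))) = (8 * (L ^ p * exp (-(L / 4)))) * exp (-(L / 4)) := by
          rw [hE]; ring
      _ ≤ exp (-(G₀ + 2)) * exp (-(L / 4)) := mul_le_mul_of_nonneg_right h1 hE4.le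
      _ = _ := by ring

end Crest.Agent.R234.Stp_518
end
end

-- ▼ part R234/Stp9_518

/-!
# Row 234, F7-STEPV (helper518), part 9: the step (`stepT : Thya_685.StepT m n`)

`sta_mk` : the fields of `Sta` for the new reference; `nx_of_res` : the step of the world.
-/

set_option autoImplicit false
set_option linter.unusedVariables false

open MeasureTheory Filter Topology Set
open scoped ENNReal NNReal ContDiff
open Crest.GeometryTopology.Submanifold Crest.Agent.R234.Vf_884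
open Crest.Agent.R234.Main_456 (Frame Msys hgt)
open Crest.Agent.R234.MG_570 (MG SelP3 bar)
open Crest.Agent.R234.F10a_188 Crest.Agent.R234.F10b_188
open Crest.Agent.R234.F10d_188 (flatL)

noncomputable section

namespace Crest.Agent.R234.Stp_518

variable {m n k : ℕ}

/-- the new reference with its record. -/
def upd (M₁ : Mo m n k) (K Lb Kb Pb : ℝ) : Mo m n k :=
  { M₁ with K := K, Lb := Lb, Kb := Kb, Pb := Pb }

theorem sta_mk {c : Cn} {C : Cst} {κm : ℝ} {Q : ℕ} {U : Set (Euc (m + n))}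
    {D : VarifoldData m (m + n)} {x : Euc (m + n)} {M M₁ : Mo m n (m + n)}
    {l K L σ θ Lb Kb Pb : ℝ} (hK : 32 ≤ K)
    (r : Res U D Q x c.Ks c.N M M₁ l K L σ θ) (hκ : M₁.κ ≤ c.κ₀)
    (hdu : ‖fderiv ℝ M₁.u 0‖ ≤ Real.exp (-Lb / 4) * (M₁.lb - (l - 2 / K)))
    (hlo : M₁.lb - c.T ≤ l - 2 / K)
    (hpos : ∀ y ∈ Icc (l - 2 / K) l, 0 < M₁.I x (VD D) y)
    (hσ1 : σ * √(M.I x (VD D) l) ≤
      Real.exp (-(lam (M₁.I x (VD D)) (l - 2 / K) / 4)) * √(M₁.I x (VD D) (l - 2 / K)))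
    (hσ2 : σ ≤ Real.exp (-(lam (M₁.I x (VD D)) (l - 2 / K) / 4)))
    (hgrow : ∀ y ∈ Icc (l - 2 / K) l,
      Real.log (M₁.I x (VD D) y) ≤ Real.log (M₁.I x (VD D) (l - 2 / K)) + c.G)
    (hKL : newK (M₁.E x (VD D) Q) (M₁.I x (VD D)) l K ≤
      2 * lam (M₁.I x (VD D)) (l - 2 / K) ^ 2)
    (hL1 : c.L₁ ≤ lam (M₁.I x (VD D)) (l - 2 / K)) (hKb : Kb ≤ c.CK * Lb ^ 2)
    (hrec : Rec C c.L₁ κm c.G (M₁.lb - 1 / 8) Lb Kb Pb (l - 2 / K)
      (lam (M₁.I x (VD D)) (l - 2 / K)) (fx (M₁.E x (VD D) Q) (M₁.I x (VD D)) (l - 2 / K))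
      (M₁.kap (l - 2 / K)) (newK (M₁.E x (VD D) Q) (M₁.I x (VD D)) l K)) :
    Sta c C κm (VD D) Q x (upd M₁ (newK (M₁.E x (VD D) Q) (M₁.I x (VD D)) l K) Lb Kb Pb)
      (l - 2 / K) := by
  obtain ⟨n1, n2, n3, n4, n5⟩ := newK_props (M₁.E x (VD D) Q) (M₁.I x (VD D)) (l := l) hK
  set K' := newK (M₁.E x (VD D) Q) (M₁.I x (VD D)) l K with hK'
  have hK0 : 0 < K := by linarith
  have hK'0 : 0 < K' := by linarith
  have q1 : 0 < 1 / K' := by positivity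
  have q8 : 1 / (8 * K') = 1 / K' / 8 := by field_simp
  have q4 : 1 / (4 * K) = 2 / K / 8 := by field_simp; norm_num
  have hrad : (upd M₁ K' Lb Kb Pb).rad (l - 2 / K) ≤ rsel M₁.lb l K := by
    have e1 : (upd M₁ K' Lb Kb Pb).rad (l - 2 / K) =
        Real.exp (l - 2 / K + 1 / K' - M₁.lb) * (1 + 1 / (8 * K')) := rfl
    rw [e1]
    unfold rsel
    refine mul_le_mul (Real.exp_le_exp.2 (by linarith)) ?_ (by positivity) (Real.exp_pos _).le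
    rw [q8, q4]; linarith
  have hla : l - 2 / K ∈ Icc (l - 2 / K) l := ⟨le_rfl, by
    have : 0 < 2 / K := by positivity
    linarith⟩
  exact
    { cls := ⟨r.fr, r.κ0, hκ, r.mg.mono le_rfl hrad, hdu⟩
      lo := hlo
      pos := hpos _ hla
      mean := fun ζ h1 h2 h3 => (r.mean.mono hrad hσ1) ζ h1 h2 h3
      sup := r.sup.mono hrad hσ2
      grow := hgrow (l - 2 / K + 1 / K') ⟨by linarith, by linarith⟩
      K32 := n1
      KL := hKL
      KN := n2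
      L1 := hL1
      KbL := hKb
      rcd := hrec }

set_option maxHeartbeats 1000000 in
/-- **the step of the world from the step of the references.** -/
theorem nx_of_res {Q Ks N p : ℕ} {C₁ T G₀ Cδ G κ₀ κm L₁ CK L : ℝ} {C : Cst}
    {U : Set (Euc (m + n))} {D : VarifoldData m (m + n)} {x : Euc (m + n)}
    {M : Mo m n (m + n)} {l : ℝ}
    (hc : C.c = 1) (hd : C.d ≤ 1 / 4) (ha : 26 ≤ C.a) (hb : 22 * Cδ ≤ C.b)
    (st : Sta ⟨N, Ks, T, κ₀, L₁, G, CK⟩ C κm (VD D) Q x M l) (hkm : M.kap l ≤ κm)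
    (hLdef : L = lam (M.I x (VD D)) l)
    (hP : 32 * (1 + fx (M.E x (VD D) Q) (M.I x (VD D)) l) ≤ L ^ 2) (hΛ : L₁ + 1 ≤ L)
    (res : ResH Q Ks N p C₁ T G₀ Cδ U D x M l L) (t : Th2 p C.a κ₀ κm T G₀ L)
    (hC₁ : 1 ≤ C₁) (hT : 1 ≤ T) (hCT : C₁ * Real.exp (-(T / 5)) ≤ 1 / 4) (hG₀ : 0 ≤ G₀)
    (hG : G₀ + 1 ≤ G) (hCK : 40 ≤ CK) (h14 : 14 ≤ L₁)
    (he : 2 * C.b * κm + 4 * C.A / L₁ ≤ 1) (hκ2 : M.κ ≤ κ₀ / 2) (hκ₀ : 0 < κ₀) :
    ∃ (M' : Mo m n (m + n)) (h : ℝ),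
      Nx (world ⟨N, Ks, T, κ₀, L₁, G, CK⟩ C κm (VD D) Q x) C 32 M l M' h := by
  obtain ⟨ho, hy1, M₁, r, hcase⟩ := res
  have hK := st.K32
  have hKL := st.KL
  have hN8 := st.KN
  have hlo := st.lo
  have hhi := st.rcd.hl
  have hI := st.pos
  have hκ0 := st.cls.κ0
  have hdu := st.cls.du
  have hrcd := st.rcd
  have hKbL := st.KbL
  rw [← hLdef] at hKL hrcd
  set K := M.K with hKdef
  have hK0 : 0 < K := by linarith
  set h := 2 / K with hh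
  have hh0 : 0 < h := by positivity
  have hh1 : h ≤ 1 / 16 := by
    rw [hh, div_le_iff₀ hK0]; linarith
  have hL200 := t.big
  have hL0 : 0 < L := by linarith
  have hL1 : 1 ≤ L := by linarith
  obtain ⟨a1, a2, a3, a4⟩ := t.sig hK hKL (by linarith) hG₀ ha
  rw [← hh] at a1 a2 a3
  set σ := L ^ p * Real.exp (-(L / 2)) with hσ
  set θ := (L ^ 5)⁻¹ with hθ
  have hσ0 : 0 ≤ σ := by positivity
  have hθ0 : 0 < θ := by positivity
  have hll : l ≤ M.lb := by linarith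
  -- curvature
  have hκ' : M₁.kap (l - h) ≤ (1 - h / 2) * M.kap l + C.a * h / L ^ 2 := by
    rcases hcase with ⟨c1, c2, c3, c4⟩ | ⟨c1, c2, c3, c4⟩
    · unfold Mo.kap
      rw [c1]
      exact kap_in hh0.le hh1 hκ0 hσ0 hll c3 (by linarith)
    · unfold Mo.kap
      exact kap_blk (by linarith) hh0.le hh1 hκ0 (by positivity) c1 c2 hCT c3 a2
  have hκ₁ : M₁.κ ≤ κ₀ := by
    have s3 := t.s3
    have s4 := t.s4
    rcases hcase with ⟨c1, c2, c3, c4⟩ | ⟨c1, c2, c3, c4⟩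
    · linarith
    · have e1 : C₁ * Real.exp (M₁.lb - M.lb) ≤ 1 / 4 := by
        refine le_trans (mul_le_mul_of_nonneg_left (Real.exp_le_exp.2 ?_) (by linarith)) hCT
        linarith
      have e2 : C₁ * Real.exp (M₁.lb - M.lb) * M.κ ≤ 1 / 4 * M.κ :=
        mul_le_mul_of_nonneg_right e1 hκ0
      linarith
  -- the real-variable step
  have hG1 := t.G1
  have hrel := step_rel (k := C) (Cδ := Cδ) (κ := M.kap l) (κ' := M₁.kap (l - h)) (θ := θ)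
    (y := Cδ * M.kap l + 1 / L ^ 2) hc hd ha hb (M.kap_nonneg hκ0 l) ho r.near hK
    (by rw [← hLdef]; exact hKL) (by rw [← hLdef]; linarith) (by rw [← hLdef]; exact hG1)
    (by rw [← hLdef]; exact hP) (by rw [← hLdef]) hy1 hθ0.le (by rw [← hLdef]; exact a1)
    (by rw [← hLdef]; exact hκ')
  rw [← hLdef] at hrel
  obtain ⟨rel, hnK, hpos', hgr', hLlo, hLup⟩ := hrel
  rw [← hh] at rel hnK hpos' hgr' hLlo hLup
  set L' := lam (M₁.I x (VD D)) (l - h) with hL'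
  set f' := fx (M₁.E x (VD D) Q) (M₁.I x (VD D)) (l - h) with hf'
  set K' := newK (M₁.E x (VD D) Q) (M₁.I x (VD D)) l K with hK'
  obtain ⟨n1, n2, n3, n4, n5⟩ := newK_props (M₁.E x (VD D) Q) (M₁.I x (VD D)) (l := l) hK
  rw [← hh, ← hf', ← hK'] at n5
  have hla : l - h ∈ Icc (l - h) l := ⟨le_rfl, by linarith⟩
  have hI' := hpos' _ hla
  have hL'1 : L₁ ≤ L' := by linarith
  have hf'0 : 0 ≤ f' := fx_nonneg _ _ _
  have hkm' : M₁.kap (l - h) ≤ κm := by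
    have s5 := t.s5
    have h1 : (1 - h / 2) * M.kap l ≤ (1 - h / 2) * κm :=
      mul_le_mul_of_nonneg_left hkm (by linarith)
    have h2 : C.a * h / L ^ 2 = h * (C.a / L ^ 2) := by ring
    have h3 : h * (C.a / L ^ 2) ≤ h * (κm / 2) := mul_le_mul_of_nonneg_left s5 hh0.le
    rw [h2] at hκ'
    linarith
  have hkap0' : 0 ≤ M₁.kap (l - h) := M₁.kap_nonneg r.κ0 _
  -- sizes
  have hEG : Real.exp (-(L / 4)) * Real.exp (-(G₀ + 2)) ≤ Real.exp (-(L' / 4)) := by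
    rw [← Real.exp_add]
    exact Real.exp_le_exp.2 (by linarith)
  have hσ2 : σ ≤ Real.exp (-(L' / 4)) := by linarith
  have hsqI : √(M.I x (VD D) l) = Real.exp (l - L / 2) := by
    have h0 : √(M.I x (VD D) l) = Real.exp (l - lam (M.I x (VD D)) l / 2) :=
      sqrt_I (I := M.I x (VD D)) hI
    rw [h0, ← hLdef]
  have hsqI' : √(M₁.I x (VD D) (l - h)) = Real.exp (l - h - L' / 2) :=
    sqrt_I (I := M₁.I x (VD D)) hI'
  have hσ1 : σ * √(M.I x (VD D) l) ≤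
      Real.exp (-(L' / 4)) * √(M₁.I x (VD D) (l - h)) := by
    rw [hsqI, hsqI', ← Real.exp_add]
    have h1 : σ ≤ Real.exp (-(L / 4)) * Real.exp (-(G₀ + 2)) := by linarith
    calc σ * Real.exp (l - L / 2) ≤
          Real.exp (-(L / 4)) * Real.exp (-(G₀ + 2)) * Real.exp (l - L / 2) :=
          mul_le_mul_of_nonneg_right h1 (Real.exp_pos _).le
      _ = Real.exp (-(L / 4) + -(G₀ + 2) + (l - L / 2)) := by
          rw [Real.exp_add, Real.exp_add]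
      _ ≤ _ := Real.exp_le_exp.2 (by linarith)
  have hgr'' : ∀ y ∈ Icc (l - h) l,
      Real.log (M₁.I x (VD D) y) ≤ Real.log (M₁.I x (VD D) (l - h)) + G :=
    fun y hy => (hgr' y hy).trans (by linarith)
  rcases hcase with ⟨c1, c2, c3, c4⟩ | ⟨c1, c2, c3, c4⟩
  · -- same block
    have hrec : Rec C L₁ κm G (M₁.lb - 1 / 8) M.Lb M.Kb M.Pb (l - h) L' f' (M₁.kap (l - h)) K' := by
      rw [c1]
      exact hrcd.next (by linarith) hK0 (by linarith) hL0 hL'1 hkm' (by linarith) hkap0' rel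
        (by linarith) (by linarith) n5
    have hdu' : ‖fderiv ℝ M₁.u 0‖ ≤ Real.exp (-M.Lb / 4) * (M₁.lb - (l - h)) := by
      rw [c1]
      have hLb : Real.exp (-(L / 4)) * Real.exp (-T) ≤ Real.exp (-M.Lb / 4) := by
        rw [← Real.exp_add]
        refine Real.exp_le_exp.2 ?_
        have h1 := hrcd.lo
        have h2 : M.lb - 1 / 8 - l ≤ T := by
          have : M.lb - T ≤ l := hlo
          linarith
        linarith
      have h3 : σ ≤ h * Real.exp (-M.Lb / 4) := a3.trans (mul_le_mul_of_nonneg_left hLb hh0.le)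
      have h4 : Real.exp (-M.Lb / 4) * (M.lb - (l - h)) =
          Real.exp (-M.Lb / 4) * (M.lb - l) + h * Real.exp (-M.Lb / 4) := by ring
      rw [h4]
      linarith
    refine ⟨upd M₁ K' M.Lb M.Kb M.Pb, h, ?_, by linarith, ?_, by rw [hLdef] at rel; exact rel, n5⟩
    · show 1 / K ≤ h
      rw [hh]; exact div_le_div_of_nonneg_right (by norm_num) hK0.le
    · exact sta_mk (c := ⟨N, Ks, T, κ₀, L₁, G, CK⟩) hK r hκ₁ hdu' (by show M₁.lb - T ≤ _; rw [c1]; exact c2)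
        hpos' hσ1 hσ2 hgr'' hnK hL'1 hKbL hrec
  · -- new block
    have hfr : 8 * fr (M₁.E x (VD D) Q) (M₁.I x (VD D)) (l - h) ≤ 2 * L' ^ 2 := n2.trans hnK
    have hL'199 : 100 ≤ L' := by linarith
    have hf8 : 32 * (1 + f') ≤ 8 * L' ^ 2 := by
      have h1 : 1 + f' = max (fr (M₁.E x (VD D) Q) (M₁.I x (VD D)) (l - h)) 1 :=
        one_add_fx _ _ _
      rw [h1]
      have h2 : (1:ℝ) ≤ L' ^ 2 / 4 := by nlinarith
      have h3 : max (fr (M₁.E x (VD D) Q) (M₁.I x (VD D)) (l - h)) 1 ≤ L' ^ 2 / 4 :=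
        max_le (by linarith) h2
      linarith
    obtain ⟨hrec, hKb⟩ := rec_start (k := C) (κm := κm) (G := G) (l := l - h) (K := K')
      (by linarith : (0:ℝ) < L₁) hL'1 hkm' (by linarith : -1 < f') hnK hf8
      (base_le hc h14 he) he
    have elb : M₁.lb - 1 / 8 = l - h := by rw [c1]; ring
    rw [← elb] at hrec
    have hrec' : Rec C L₁ κm G (M₁.lb - 1 / 8) L'
        (max K' (max (32 * Real.exp (C.pot L' f' (M₁.kap (l - h)))) (L' ^ 2)))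
        (max (C.pot L' f' (M₁.kap (l - h))) (C.base L₁ κm)) (l - h) L' f' (M₁.kap (l - h)) K' := by
      rw [elb] at hrec ⊢
      exact hrec
    have hKb' : max K' (max (32 * Real.exp (C.pot L' f' (M₁.kap (l - h)))) (L' ^ 2)) ≤
        CK * L' ^ 2 := hKb.trans (mul_le_mul_of_nonneg_right hCK (by positivity))
    have hdu' : ‖fderiv ℝ M₁.u 0‖ ≤ Real.exp (-L' / 4) * (M₁.lb - (l - h)) := by
      have h1 : M₁.lb - (l - h) = 1 / 8 := by rw [c1]; ring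
      have h2 : -L' / 4 = -(L' / 4) := by ring
      rw [h1, h2]
      linarith
    refine ⟨upd M₁ K' L' (max K' (max (32 * Real.exp (C.pot L' f' (M₁.kap (l - h)))) (L' ^ 2)))
      (max (C.pot L' f' (M₁.kap (l - h))) (C.base L₁ κm)), h, ?_, by linarith, ?_, by rw [hLdef] at rel; exact rel, n5⟩
    · show 1 / K ≤ h
      rw [hh]; exact div_le_div_of_nonneg_right (by norm_num) hK0.le
    · exact sta_mk (c := ⟨N, Ks, T, κ₀, L₁, G, CK⟩) hK r hκ₁ hdu'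
        (by show M₁.lb - T ≤ _; rw [c1]; linarith) hpos' hσ1 hσ2 hgr'' hnK hL'1 hKb' hrec'

/-- slope of a state against powers of `L`. -/
theorem slope_state {T L Lb G CK Kb lb l : ℝ} (q : ℕ) (hT : 0 ≤ T) (hLb : 1 ≤ Lb) (hG : 0 ≤ G)
    (hCK : 0 ≤ CK) (hKb : Kb ≤ CK * Lb ^ 2) (hL : 0 ≤ L) (hlb : 0 ≤ lb - l) (hlT : lb - l ≤ T)
    (hup : L ≤ Lb + (G + 1) * Kb * (lb - l)) (hKb0 : 0 ≤ Kb)
    (hth : T * (1 + (G + 1) * CK * T) ^ q * Lb ^ (2 * q) * Real.exp (-(1 / 4 * Lb)) ≤ 1) :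
    T * Real.exp (-Lb / 4) * L ^ q ≤ 1 := by
  have h1 : (G + 1) * Kb * (lb - l) ≤ (G + 1) * (CK * Lb ^ 2) * T := by
    have h2 : (G + 1) * Kb ≤ (G + 1) * (CK * Lb ^ 2) := mul_le_mul_of_nonneg_left hKb (by linarith)
    exact mul_le_mul h2 hlT hlb (by positivity)
  have h3 : Lb ≤ Lb ^ 2 := by nlinarith
  have h4 : L ≤ (1 + (G + 1) * CK * T) * Lb ^ 2 := by
    calc L ≤ Lb ^ 2 + (G + 1) * (CK * Lb ^ 2) * T := by linarith
      _ = _ := by ring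
  have h5 : L ^ q ≤ (1 + (G + 1) * CK * T) ^ q * Lb ^ (2 * q) := by
    rw [pow_mul, ← mul_pow]
    exact pow_le_pow_left₀ hL h4 q
  have e1 : Real.exp (-Lb / 4) = Real.exp (-(1 / 4 * Lb)) := by congr 1; ring
  rw [e1]
  calc T * Real.exp (-(1 / 4 * Lb)) * L ^ q ≤
        T * Real.exp (-(1 / 4 * Lb)) * ((1 + (G + 1) * CK * T) ^ q * Lb ^ (2 * q)) :=
        mul_le_mul_of_nonneg_left h5 (by positivity)
    _ = T * (1 + (G + 1) * CK * T) ^ q * Lb ^ (2 * q) * Real.exp (-(1 / 4 * Lb)) := by ring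
    _ ≤ 1 := hth

set_option maxHeartbeats 1000000 in
/-- **F7: the step of the world**, literal target of helper685. -/
theorem stepT (hGL : GLP) (hSup : SupP) (hSw : SwP) (hBlk : BlkP) (hSel : SelP3) (m n : ℕ)
    (hm : 3 ≤ m) (hn : 1 ≤ n) : Thya_685.StepT m n := by
  obtain ⟨Ks₀, H⟩ := pre_step hGL hSup hSw hBlk hSel m n hm hn
  refine ⟨Ks₀, fun Ks hKs Q hQ => ?_⟩
  obtain ⟨N₀, H⟩ := H Ks hKs Q hQ
  refine ⟨N₀, fun N hN => ?_⟩
  obtain ⟨p, C₁, T₀, hC₁, H⟩ := H N hN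
  refine ⟨max T₀ (max 1 (5 * Real.log (4 * C₁))), fun T hT => ?_⟩
  have hT0 : T₀ ≤ T := (le_max_left _ _).trans hT
  have hT1 : 1 ≤ T := ((le_max_left _ _).trans (le_max_right _ _)).trans hT
  have hT2 : 5 * Real.log (4 * C₁) ≤ T := ((le_max_right _ _).trans (le_max_right _ _)).trans hT
  have hCT : C₁ * Real.exp (-(T / 5)) ≤ 1 / 4 := by
    have h1 : Real.exp (-(T / 5)) ≤ (4 * C₁)⁻¹ := by
      rw [← Real.exp_log (show 0 < (4 * C₁)⁻¹ by positivity), Real.log_inv]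
      exact Real.exp_le_exp.2 (by linarith)
    calc C₁ * Real.exp (-(T / 5)) ≤ C₁ * (4 * C₁)⁻¹ := mul_le_mul_of_nonneg_left h1 (by linarith)
      _ = 1 / 4 := by
          have : C₁ ≠ 0 := by linarith
          field_simp
  obtain ⟨G₀, Cδ, hG₀, hCδ, H⟩ := H T hT0 hT1 hCT
  refine ⟨G₀ + 1, 22 * Cδ, by positivity, ?_⟩
  intro G hG C hc hd ha hb CK hCK c₀ hc₀
  obtain ⟨q₁, κp, Lp, omp, hκp, homp, H⟩ := H G c₀ hc₀
  have hCb := C.hb
  refine ⟨min κp (1 / (4 * (C.b + 1))), by positivity, ?_⟩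
  intro κ₀ hκ₀ hκ₀le
  set κm := κ₀ * Real.exp (-(4 / 5 * (T + 1))) with hκm
  have hκm0 : 0 < κm := by positivity
  have hκmκ : κm ≤ κ₀ := by
    rw [hκm]
    exact mul_le_of_le_one_right hκ₀.le (Real.exp_le_one_iff.2 (by linarith))
  have hbκ : 2 * C.b * κm ≤ 1 / 2 := by
    have h1 : κm ≤ 1 / (4 * (C.b + 1)) := hκmκ.trans (hκ₀le.trans (min_le_right _ _))
    calc 2 * C.b * κm ≤ 2 * (C.b + 1) * (1 / (4 * (C.b + 1))) :=
          mul_le_mul (by linarith) h1 hκm0.le (by positivity)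
      _ = 1 / 2 := by
          have : C.b + 1 ≠ 0 := by positivity
          field_simp; norm_num
  have hA0 := C.A_nonneg
  -- thresholds
  obtain ⟨L2, hL2⟩ := exists_Th2 p (a := C.a) (T := T) (G₀ := G₀) hκ₀ hκm0
  have hev : ∀ᶠ Lb : ℝ in atTop,
      T * (1 + (G + 1) * CK * T) ^ q₁ * Lb ^ (2 * q₁) * Real.exp (-(1 / 4 * Lb)) ≤ 1 :=
    ev_exp _ (1 / 4) (2 * q₁) (by norm_num) one_pos
  obtain ⟨L3, hL3⟩ := eventually_atTop.1 hev
  refine ⟨max 14 (max (8 * C.A) L3), fun L₁ hL₁ => ?_⟩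
  have g14 : (14:ℝ) ≤ L₁ := (le_max_left _ _).trans hL₁
  have gA : 8 * C.A ≤ L₁ := ((le_max_left _ _).trans (le_max_right _ _)).trans hL₁
  have g3 : L3 ≤ L₁ := ((le_max_right _ _).trans (le_max_right _ _)).trans hL₁
  have he : 2 * C.b * κm + 4 * C.A / L₁ ≤ 1 := by
    have h1 : 4 * C.A / L₁ ≤ 1 / 2 := by
      rw [div_le_iff₀ (by linarith)]; linarith
    linarith
  refine ⟨max (L₁ + 1) (max L2 Lp), fun Λ₀ hΛ₀ => ?_⟩
  have s1 : L₁ + 1 ≤ Λ₀ := (le_max_left _ _).trans hΛ₀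
  have s2 : L2 ≤ Λ₀ := ((le_max_left _ _).trans (le_max_right _ _)).trans hΛ₀
  have s3 : Lp ≤ Λ₀ := ((le_max_right _ _).trans (le_max_right _ _)).trans hΛ₀
  refine ⟨omp, homp, ?_⟩
  intro om hom homle U D x r₁ henv M l st hfl hΛL hkm hP
  set L := lam (M.I x (VD D)) l with hL
  have hΛL' : Λ₀ ≤ L := hΛL
  have hkm' : M.kap l ≤ κm := hkm
  have hP' : 32 * (1 + fx (M.E x (VD D) Q) (M.I x (VD D)) l) ≤ L ^ 2 := hP
  have hcls := st.cls
  have hrcd := st.rcd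
  have hlo : M.lb - T ≤ l := st.lo
  have hhi : l ≤ M.lb - 1 / 8 := hrcd.hl
  have hK32 := st.K32
  have hLb1 : L₁ ≤ M.Lb := hrcd.hLb
  -- curvature
  have hκ2 : M.κ ≤ κ₀ / 2 := by
    have h1 : M.κ = M.kap l * Real.exp (4 / 5 * (M.lb - l)) := by
      unfold Mo.kap
      rw [mul_assoc, ← Real.exp_add]
      simp
    have h2 : Real.exp (4 / 5 * (M.lb - l)) ≤ Real.exp (4 / 5 * T) :=
      Real.exp_le_exp.2 (by linarith)
    have h3 : κm * Real.exp (4 / 5 * T) = κ₀ * Real.exp (-(4 / 5)) := by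
      rw [hκm, mul_assoc, ← Real.exp_add]
      congr 2; ring
    have h4 : Real.exp (-(4 / 5) : ℝ) ≤ 1 / 2 := by
      have h5 : Real.exp (-(4 / 5) : ℝ) * Real.exp (4 / 5) = 1 := by rw [← Real.exp_add]; simp
      have h6 : (2:ℝ) ≤ Real.exp (4 / 5) := by
        have h7 := Real.add_one_le_exp (2 / 5 : ℝ)
        have h8 : Real.exp (4 / 5 : ℝ) = Real.exp (2 / 5) * Real.exp (2 / 5) := by
          rw [← Real.exp_add]; norm_num
        rw [h8]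
        have h9 := Real.quadratic_le_exp_of_nonneg (show (0:ℝ) ≤ 2 / 5 by norm_num)
        nlinarith
      have h7 := Real.exp_pos (-(4 / 5) : ℝ)
      nlinarith
    rw [h1]
    calc M.kap l * Real.exp (4 / 5 * (M.lb - l)) ≤ κm * Real.exp (4 / 5 * T) :=
          mul_le_mul hkm' h2 (Real.exp_pos _).le hκm0.le
      _ = κ₀ * Real.exp (-(4 / 5)) := h3
      _ ≤ κ₀ * (1 / 2) := mul_le_mul_of_nonneg_left h4 hκ₀.le
      _ = κ₀ / 2 := by ring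
  -- slope
  have hslope : T * Real.exp (-M.Lb / 4) * L ^ q₁ ≤ 1 := by
    refine slope_state (lb := M.lb - 1 / 8) (l := l) (Kb := M.Kb) (G := G) (CK := CK) q₁
      (by linarith) (by linarith) (by linarith) (by linarith) st.KbL (by linarith) (by linarith)
      (by linarith) hrcd.up ?_ (hL3 _ (g3.trans hLb1))
    have h1 : M.K ≤ M.Kb := hrcd.hK
    linarith
  have hdu : ‖fderiv ℝ M.u 0‖ ≤ T * Real.exp (-M.Lb / 4) := by
    refine hcls.du.trans ?_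
    rw [mul_comm T]
    exact mul_le_mul_of_nonneg_left (by linarith) (Real.exp_pos _).le
  have sth : StH Q Ks N D x M l L T G (κ₀ / 2) :=
    ⟨rfl, hcls.frame, hcls.κ0, hκ2, hcls.mg, hlo, by linarith, st.pos, st.mean, st.sup, st.grow,
      hK32, st.KL, st.KN⟩
  have res := H U D x om r₁ M l L (T * Real.exp (-M.Lb / 4)) (κ₀ / 2) homle henv hfl
    (by have := hκ₀le.trans (min_le_left _ _); linarith) sth (s3.trans hΛL') hdu hslope
  exact nx_of_res hc hd ha hb st hkm' rfl hP' (s1.trans hΛL') res (hL2 L (s2.trans hΛL')) hC₁ hT1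
    hCT hG₀ hG hCK g14 he hκ2 hκ₀

end Crest.Agent.R234.Stp_518
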