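import Crest.Agent.R234.Sup2_113
import Crest.Agent.R234.Ell1_3

-- ▼ part R234/Supm1_685
section

/-!
R234 (helper685), VF-SUPM part 1: the algebra of a graph `{ρ = u(π)}` against a plane `P`.

`π : E → F`, `ρ : E → W` orthonormal frame, `q = Du`, `nf = ρ - q π` the derivative of the height,
`tau N P = ∑ ‖N (P b_j)‖²` the tilt of `P` relative to the graph,
`pg = J (gop q)⁻¹ Jᵀ`, `J = πᵀ + ρᵀ q` the tangent projection of the graph.
-/

set_option autoImplicit false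
set_option linter.unusedSectionVars false

open MeasureTheory Metric Set Filter Topology
open scoped InnerProductSpace ContDiff

namespace Crest.Agent.R234.Supm_685

open Crest.Agent.R234.Cacc_113 (tr IsPr)
open Crest.Agent.R234.Ell1_3 (gop ginv)

noncomputable section

variable {E F W : Type} [NormedAddCommGroup E] [InnerProductSpace ℝ E] [FiniteDimensional ℝ E]
  [NormedAddCommGroup F] [InnerProductSpace ℝ F] [FiniteDimensional ℝ F]
  [NormedAddCommGroup W] [InnerProductSpace ℝ W] [FiniteDimensional ℝ W]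

/-- orthonormal frame -/
structure Fr (π : E →L[ℝ] F) (ρ : E →L[ℝ] W) : Prop where
  pp : ∀ a, π (ContinuousLinearMap.adjoint π a) = a
  rr : ∀ b, ρ (ContinuousLinearMap.adjoint ρ b) = b
  pr : ∀ b, π (ContinuousLinearMap.adjoint ρ b) = 0
  full : ∀ x, ContinuousLinearMap.adjoint π (π x) + ContinuousLinearMap.adjoint ρ (ρ x) = x

namespace Fr

variable {π : E →L[ℝ] F} {ρ : E →L[ℝ] W}

theorem rp (h : Fr π ρ) (a : F) : ρ (ContinuousLinearMap.adjoint π a) = 0 := by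
  rw [← inner_self_eq_zero (𝕜 := ℝ), ← ContinuousLinearMap.adjoint_inner_right ρ,
    ContinuousLinearMap.adjoint_inner_left π, h.pr, inner_zero_right]

theorem norm_adjr (h : Fr π ρ) (b : W) : ‖ContinuousLinearMap.adjoint ρ b‖ = ‖b‖ := by
  have h1 : ‖ContinuousLinearMap.adjoint ρ b‖ ^ 2 = ‖b‖ ^ 2 := by
    rw [← real_inner_self_eq_norm_sq, ContinuousLinearMap.adjoint_inner_left, h.rr,
      real_inner_self_eq_norm_sq]
  exact (sq_eq_sq₀ (norm_nonneg _) (norm_nonneg _)).1 h1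

theorem norm_adjp (h : Fr π ρ) (b : F) : ‖ContinuousLinearMap.adjoint π b‖ = ‖b‖ := by
  have h1 : ‖ContinuousLinearMap.adjoint π b‖ ^ 2 = ‖b‖ ^ 2 := by
    rw [← real_inner_self_eq_norm_sq, ContinuousLinearMap.adjoint_inner_left, h.pp,
      real_inner_self_eq_norm_sq]
  exact (sq_eq_sq₀ (norm_nonneg _) (norm_nonneg _)).1 h1

theorem norm_sq (h : Fr π ρ) (x : E) : ‖π x‖ ^ 2 + ‖ρ x‖ ^ 2 = ‖x‖ ^ 2 := by
  have h1 : ⟪x, x⟫_ℝ = ⟪x, ContinuousLinearMap.adjoint π (π x)⟫_ℝ +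
      ⟪x, ContinuousLinearMap.adjoint ρ (ρ x)⟫_ℝ := by
    rw [← inner_add_right, h.full]
  rw [ContinuousLinearMap.adjoint_inner_right, ContinuousLinearMap.adjoint_inner_right,
    real_inner_self_eq_norm_sq, real_inner_self_eq_norm_sq, real_inner_self_eq_norm_sq] at h1
  exact h1.symm

theorem norm_p_le (h : Fr π ρ) (x : E) : ‖π x‖ ≤ ‖x‖ := by
  have := h.norm_sq x
  exact le_of_sq_le_sq (by nlinarith [sq_nonneg ‖ρ x‖]) (norm_nonneg _)

theorem norm_r_le (h : Fr π ρ) (x : E) : ‖ρ x‖ ≤ ‖x‖ := by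
  have := h.norm_sq x
  exact le_of_sq_le_sq (by nlinarith [sq_nonneg ‖π x‖]) (norm_nonneg _)

end Fr

/-- the derivative of the height -/
def nf (π : E →L[ℝ] F) (ρ : E →L[ℝ] W) (q : F →L[ℝ] W) : E →L[ℝ] W := ρ - q ∘L π

/-- the graph map -/
def jf (π : E →L[ℝ] F) (ρ : E →L[ℝ] W) (q : F →L[ℝ] W) : F →L[ℝ] E :=
  ContinuousLinearMap.adjoint π + (ContinuousLinearMap.adjoint ρ) ∘L q

/-- the tangent projection of the graph -/
def pg (π : E →L[ℝ] F) (ρ : E →L[ℝ] W) (q : F →L[ℝ] W) : E →L[ℝ] E :=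
  (jf π ρ q) ∘L (ginv q) ∘L (ContinuousLinearMap.adjoint (jf π ρ q))

/-- the tilt relative to the graph -/
def tau (N : E →L[ℝ] W) (P : E →L[ℝ] E) : ℝ := ∑ j, ‖N (P (stdOrthonormalBasis ℝ E j))‖ ^ 2

theorem ginv_inner (q : F →L[ℝ] W) (a b : F) : ⟪ginv q a, b⟫_ℝ = ⟪a, ginv q b⟫_ℝ := by
  have h1 : ∀ c, gop q (ginv q c) = c := fun c => by
    have := congrArg (fun A : F →L[ℝ] F => A c) (Ell1_3.gop_ginv q)
    simpa using this
  have h2 : ∀ x y, ⟪x, gop q y⟫_ℝ = ⟪gop q x, y⟫_ℝ := fun x y => by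
    rw [Ell1_3.gop_inner, real_inner_comm y (gop q x), Ell1_3.gop_inner, real_inner_comm x y,
      real_inner_comm (q x) (q y)]
  conv_lhs => rw [← h1 b]
  rw [h2, h1]

section alg

variable {π : E →L[ℝ] F} {ρ : E →L[ℝ] W} (h : Fr π ρ) (q : F →L[ℝ] W)
include h

theorem p_j (a : F) : π (jf π ρ q a) = a := by
  simp [jf, h.pp, h.pr]


theorem sub_j (v : E) : v - jf π ρ q (π v) = ContinuousLinearMap.adjoint ρ (nf π ρ q v) := by
  have h1 := h.full v
  simp only [nf, jf, sub_apply, add_apply, ContinuousLinearMap.comp_apply, map_sub]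
  nth_rewrite 1 [← h1]
  abel

theorem jj (a : F) : ContinuousLinearMap.adjoint (jf π ρ q) (jf π ρ q a) = gop q a := by
  refine ext_inner_left ℝ fun b => ?_
  rw [ContinuousLinearMap.adjoint_inner_right, Ell1_3.gop_inner]
  simp only [jf, add_apply, ContinuousLinearMap.comp_apply, inner_add_left, inner_add_right,
    ContinuousLinearMap.adjoint_inner_left, h.pp, h.rr, h.pr, h.rp]
  simp

theorem pg_j (a : F) : pg π ρ q (jf π ρ q a) = jf π ρ q a := by
  simp only [pg, ContinuousLinearMap.comp_apply, jj h]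
  have := congrArg (fun A : F →L[ℝ] F => A a) (Ell1_3.ginv_gop q)
  simp only [ContinuousLinearMap.comp_apply, ContinuousLinearMap.id_apply] at this
  rw [this]

theorem isPr_pg : IsPr (pg π ρ q) := by
  refine ⟨fun x => ?_, fun x y => ?_⟩
  · have : pg π ρ q x = jf π ρ q (ginv q (ContinuousLinearMap.adjoint (jf π ρ q) x)) := rfl
    rw [this, pg_j h]
  · simp only [pg, ContinuousLinearMap.comp_apply]
    rw [← ContinuousLinearMap.adjoint_inner_right, ginv_inner,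
      ContinuousLinearMap.adjoint_inner_left]

theorem tr_pg : tr (pg π ρ q) = Module.finrank ℝ F := by
  have h1 : (pg π ρ q).toLinearMap = (jf π ρ q).toLinearMap ∘ₗ
      ((ginv q).toLinearMap ∘ₗ (ContinuousLinearMap.adjoint (jf π ρ q)).toLinearMap) := rfl
  rw [tr, h1, LinearMap.trace_comp_comm']
  have h2 : ((ginv q).toLinearMap ∘ₗ (ContinuousLinearMap.adjoint (jf π ρ q)).toLinearMap) ∘ₗ
      (jf π ρ q).toLinearMap = LinearMap.id := by
    ext a
    simp only [LinearMap.comp_apply, ContinuousLinearMap.coe_coe, jj h, LinearMap.id_apply]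
    have := congrArg (fun A : F →L[ℝ] F => A a) (Ell1_3.ginv_gop q)
    simpa using this
  rw [h2, LinearMap.trace_id]

theorem p_pg_adj (a : F) : π (pg π ρ q (ContinuousLinearMap.adjoint π a)) = ginv q a := by
  have h1 : ContinuousLinearMap.adjoint (jf π ρ q) (ContinuousLinearMap.adjoint π a) = a := by
    refine ext_inner_left ℝ fun b => ?_
    rw [ContinuousLinearMap.adjoint_inner_right, ContinuousLinearMap.adjoint_inner_right, p_j h]
  simp only [pg, ContinuousLinearMap.comp_apply, h1, p_j h]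

theorem norm_sub_pg_le (v : E) : ‖v - pg π ρ q v‖ ≤ ‖nf π ρ q v‖ := by
  have h1 : v - pg π ρ q v = (1 - pg π ρ q) (v - jf π ρ q (π v)) := by
    simp only [map_sub, sub_apply, one_apply_eq_self, pg_j h]
    abel
  rw [h1, sub_j h]
  exact ((isPr_pg h q).compl.norm_le _).trans (h.norm_adjr _).le

theorem tr_compl_le (P : E →L[ℝ] E) (hP : IsPr P) :
    tr ((1 - pg π ρ q) ∘L P) ≤ tau (nf π ρ q) P := by
  have hQ : IsPr (1 - pg π ρ q) := (isPr_pg h q).compl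
  have h1 : tr ((1 - pg π ρ q) ∘L P) = tr (P ∘L (1 - pg π ρ q) ∘L P) := by
    have h2 : P ∘L (1 - pg π ρ q) ∘L P = P ∘L ((1 - pg π ρ q) ∘L P) := rfl
    rw [h2, Cacc_113.tr_comp_comm P ((1 - pg π ρ q) ∘L P)]
    congr 1
    ext x
    simp [hP.idem]
  rw [h1, tr, LinearMap.trace_eq_sum_inner _ (stdOrthonormalBasis ℝ E), tau]
  refine Finset.sum_le_sum fun i _ => ?_
  have h2 : ⟪(stdOrthonormalBasis ℝ E) i, (P ∘L (1 - pg π ρ q) ∘L P)
      ((stdOrthonormalBasis ℝ E) i)⟫_ℝ = ⟪P ((stdOrthonormalBasis ℝ E) i),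
        (1 - pg π ρ q) (P ((stdOrthonormalBasis ℝ E) i))⟫_ℝ := by
    simp only [ContinuousLinearMap.comp_apply]
    rw [hP.sa]
  simp only [ContinuousLinearMap.coe_coe]
  rw [h2, hQ.inner_self]
  have h3 := norm_sub_pg_le h q (P ((stdOrthonormalBasis ℝ E) i))
  simp only [sub_apply, one_apply_eq_self]
  gcongr

theorem norm_sub_pg_sq (P : E →L[ℝ] E) (hP : IsPr P) (hm : tr P = Module.finrank ℝ F) :
    ‖P - pg π ρ q‖ ^ 2 ≤ 2 * tau (nf π ρ q) P := by
  have h1 := hP.norm_sub_sq_le (isPr_pg h q) (hm.trans (tr_pg h q).symm)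
  have h2 := tr_compl_le h q P hP
  linarith

end alg

theorem tau_nonneg (N : E →L[ℝ] W) (P : E →L[ℝ] E) : 0 ≤ tau N P :=
  Finset.sum_nonneg fun _ _ => by positivity

theorem norm_np_sq (N : E →L[ℝ] W) (P : E →L[ℝ] E) (y : E) :
    ‖N (P y)‖ ^ 2 ≤ tau N P * ‖y‖ ^ 2 := by
  have h4 : N (P y) = ∑ i, ⟪(stdOrthonormalBasis ℝ E) i, y⟫_ℝ •
      N (P ((stdOrthonormalBasis ℝ E) i)) := by
    conv_lhs => rw [← (stdOrthonormalBasis ℝ E).sum_repr' y]
    simp only [map_sum, map_smul]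
  have h5 : ‖N (P y)‖ ≤ ∑ i, |⟪(stdOrthonormalBasis ℝ E) i, y⟫_ℝ| *
      ‖N (P ((stdOrthonormalBasis ℝ E) i))‖ := by
    rw [h4]
    refine (norm_sum_le _ _).trans (Finset.sum_le_sum fun i _ => ?_)
    rw [norm_smul, Real.norm_eq_abs]
  have h6 : (∑ i, |⟪(stdOrthonormalBasis ℝ E) i, y⟫_ℝ| *
      ‖N (P ((stdOrthonormalBasis ℝ E) i))‖) ^ 2 ≤
      (∑ i, |⟪(stdOrthonormalBasis ℝ E) i, y⟫_ℝ| ^ 2) *
        ∑ i, ‖N (P ((stdOrthonormalBasis ℝ E) i))‖ ^ 2 :=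
    Finset.sum_mul_sq_le_sq_mul_sq _ _ _
  have h7 : ∑ i, |⟪(stdOrthonormalBasis ℝ E) i, y⟫_ℝ| ^ 2 = ‖y‖ ^ 2 := by
    rw [← (stdOrthonormalBasis ℝ E).sum_sq_norm_inner_right y]
    refine Finset.sum_congr rfl fun i _ => ?_
    rw [Real.norm_eq_abs]
  rw [h7] at h6
  calc ‖N (P y)‖ ^ 2 ≤ (∑ i, |⟪(stdOrthonormalBasis ℝ E) i, y⟫_ℝ| *
      ‖N (P ((stdOrthonormalBasis ℝ E) i))‖) ^ 2 := by gcongr
    _ ≤ _ := by rw [mul_comm]; exact h6

theorem norm_np_le (N : E →L[ℝ] W) (P : E →L[ℝ] E) (y : E) :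
    ‖N (P y)‖ ≤ √(tau N P) * ‖y‖ := by
  refine le_of_sq_le_sq ?_ (by positivity)
  rw [mul_pow, Real.sq_sqrt (tau_nonneg N P)]
  exact norm_np_sq N P y

theorem norm_p_adj_le (N : E →L[ℝ] W) {P : E →L[ℝ] E} (hP : IsPr P) (w : W) :
    ‖P (ContinuousLinearMap.adjoint N w)‖ ≤ √(tau N P) * ‖w‖ := by
  set v := P (ContinuousLinearMap.adjoint N w) with hv
  have h1 : ‖v‖ ^ 2 ≤ √(tau N P) * ‖v‖ * ‖w‖ := by
    rw [← real_inner_self_eq_norm_sq]
    have h2 : ⟪v, v⟫_ℝ = ⟪N (P v), w⟫_ℝ := by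
      nth_rewrite 2 [hv]
      rw [← hP.sa, ContinuousLinearMap.adjoint_inner_right]
    rw [h2]
    calc ⟪N (P v), w⟫_ℝ ≤ ‖N (P v)‖ * ‖w‖ := real_inner_le_norm _ _
      _ ≤ _ := by gcongr; exact norm_np_le N P v
  rcases (norm_nonneg v).eq_or_lt with h0 | h0
  · rw [← h0]; positivity
  · by_contra hcon
    push Not at hcon
    nlinarith

theorem tau_eq (N : E →L[ℝ] W) {P : E →L[ℝ] E} (hP : IsPr P) :
    tr ((ContinuousLinearMap.adjoint N ∘L N) ∘L P) = tau N P := by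
  have h1 : tr ((ContinuousLinearMap.adjoint N ∘L N) ∘L P) =
      tr (P ∘L (ContinuousLinearMap.adjoint N ∘L N) ∘L P) := by
    have h2 : P ∘L (ContinuousLinearMap.adjoint N ∘L N) ∘L P =
      P ∘L ((ContinuousLinearMap.adjoint N ∘L N) ∘L P) := rfl
    rw [h2, Cacc_113.tr_comp_comm P]
    congr 1
    ext x
    simp [hP.idem]
  rw [h1, tr, LinearMap.trace_eq_sum_inner _ (stdOrthonormalBasis ℝ E), tau]
  refine Finset.sum_congr rfl fun i _ => ?_
  simp only [ContinuousLinearMap.coe_coe, ContinuousLinearMap.comp_apply]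
  rw [← hP.sa, ContinuousLinearMap.adjoint_inner_right, real_inner_self_eq_norm_sq]

/-- the second order form `∑_j ⟨f, B (π A b_j) (π b_j)⟩` -/
def sig (π : E →L[ℝ] F) (B : F →L[ℝ] F →L[ℝ] W) (f : W) (A : E →L[ℝ] E) : ℝ :=
  ∑ j, ⟪f, B (π (A (stdOrthonormalBasis ℝ E j))) (π (stdOrthonormalBasis ℝ E j))⟫_ℝ

theorem sig_eq (π : E →L[ℝ] F) (B : F →L[ℝ] F →L[ℝ] W) (f : W) (A : E →L[ℝ] E)
    {ι : Type} [Fintype ι] (e : OrthonormalBasis ι ℝ F) :
    sig π B f A = ∑ i, ⟪f, B (π (A (ContinuousLinearMap.adjoint π (e i)))) (e i)⟫_ℝ := by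
  have h1 : ∀ j, ⟪f, B (π (A (stdOrthonormalBasis ℝ E j))) (π (stdOrthonormalBasis ℝ E j))⟫_ℝ =
      ∑ i, ⟪e i, π (stdOrthonormalBasis ℝ E j)⟫_ℝ *
        ⟪f, B (π (A (stdOrthonormalBasis ℝ E j))) (e i)⟫_ℝ := by
    intro j
    have h2 : ∀ C : F →L[ℝ] W, ⟪f, C (π (stdOrthonormalBasis ℝ E j))⟫_ℝ =
        ∑ i, ⟪e i, π (stdOrthonormalBasis ℝ E j)⟫_ℝ * ⟪f, C (e i)⟫_ℝ := by
      intro C
      conv_lhs => rw [← e.sum_repr' (π (stdOrthonormalBasis ℝ E j))]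
      simp only [map_sum, map_smul, inner_sum, inner_smul_right]
    exact h2 _
  have h3 : ∀ i, ⟪f, B (π (A (ContinuousLinearMap.adjoint π (e i)))) (e i)⟫_ℝ =
      ∑ j, ⟪e i, π (stdOrthonormalBasis ℝ E j)⟫_ℝ *
        ⟪f, B (π (A (stdOrthonormalBasis ℝ E j))) (e i)⟫_ℝ := by
    intro i
    conv_lhs => rw [← (stdOrthonormalBasis ℝ E).sum_repr' (ContinuousLinearMap.adjoint π (e i))]
    simp only [map_sum, map_smul, sum_apply, smul_apply,
      inner_sum, inner_smul_right]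
    refine Finset.sum_congr rfl fun j _ => ?_
    rw [ContinuousLinearMap.adjoint_inner_right, real_inner_comm]
  rw [sig]
  simp_rw [h1, h3]
  exact Finset.sum_comm

theorem sig_sub (π : E →L[ℝ] F) (B : F →L[ℝ] F →L[ℝ] W) (f : W) (A A' : E →L[ℝ] E) :
    sig π B f (A - A') = sig π B f A - sig π B f A' := by
  simp [sig, Finset.sum_sub_distrib, inner_sub_right]

theorem sig_pg {π : E →L[ℝ] F} {ρ : E →L[ℝ] W} (h : Fr π ρ) (q : F →L[ℝ] W)
    (B : F →L[ℝ] F →L[ℝ] W) (f : W) {ι : Type} [Fintype ι] (e : OrthonormalBasis ι ℝ F) :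
    sig π B f (pg π ρ q) = ⟪f, ∑ i, B (ginv q (e i)) (e i)⟫_ℝ := by
  rw [sig_eq π B f _ e, inner_sum]
  refine Finset.sum_congr rfl fun i _ => ?_
  rw [p_pg_adj h]

theorem sig_le {π : E →L[ℝ] F} {ρ : E →L[ℝ] W} (h : Fr π ρ)
    (B : F →L[ℝ] F →L[ℝ] W) (f : W) (A : E →L[ℝ] E) :
    |sig π B f A| ≤ Module.finrank ℝ F * (‖B‖ * ‖f‖ * ‖A‖) := by
  rw [sig_eq π B f _ (stdOrthonormalBasis ℝ F)]
  refine (Finset.abs_sum_le_sum_abs _ _).trans ?_
  have h1 : ∀ i ∈ (Finset.univ : Finset (Fin (Module.finrank ℝ F))),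
      |⟪f, B (π (A (ContinuousLinearMap.adjoint π (stdOrthonormalBasis ℝ F i))))
        (stdOrthonormalBasis ℝ F i)⟫_ℝ| ≤ ‖B‖ * ‖f‖ * ‖A‖ := by
    intro i _
    have e1 : ‖stdOrthonormalBasis ℝ F i‖ = 1 := (stdOrthonormalBasis ℝ F).norm_eq_one i
    have e2 : ‖π (A (ContinuousLinearMap.adjoint π (stdOrthonormalBasis ℝ F i)))‖ ≤ ‖A‖ := by
      refine (h.norm_p_le _).trans ((A.le_opNorm _).trans ?_)
      rw [h.norm_adjp, e1, mul_one]
    refine (abs_real_inner_le_norm _ _).trans ?_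
    have e3 : ‖B (π (A (ContinuousLinearMap.adjoint π (stdOrthonormalBasis ℝ F i))))‖ ≤
        ‖B‖ * ‖A‖ := (B.le_opNorm _).trans (by gcongr)
    have e4 := ContinuousLinearMap.le_opNorm
      (B (π (A (ContinuousLinearMap.adjoint π (stdOrthonormalBasis ℝ F i)))))
      (stdOrthonormalBasis ℝ F i)
    rw [e1, mul_one] at e4
    have e5 := mul_le_mul_of_nonneg_left (e4.trans e3) (norm_nonneg f)
    refine e5.trans (le_of_eq (by ring))
  refine (Finset.sum_le_card_nsmul _ _ _ h1).trans (le_of_eq ?_)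
  rw [Finset.card_univ, Fintype.card_fin, nsmul_eq_mul]

/-- the second order term is controlled by the relative tilt, if the graph is minimal. -/
theorem sig_min {π : E →L[ℝ] F} {ρ : E →L[ℝ] W} (h : Fr π ρ) (q : F →L[ℝ] W)
    (B : F →L[ℝ] F →L[ℝ] W) (f : W) {ι : Type} [Fintype ι] (e : OrthonormalBasis ι ℝ F)
    (hB : ∑ i, B (ginv q (e i)) (e i) = 0) {P : E →L[ℝ] E} (hP : IsPr P)
    (hm : tr P = Module.finrank ℝ F) :
    |sig π B f P| ≤ Module.finrank ℝ F * (‖B‖ * ‖f‖ * √(2 * tau (nf π ρ q) P)) := by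
  have h1 : sig π B f P = sig π B f (P - pg π ρ q) := by
    rw [sig_sub, sig_pg h q B f e, hB, inner_zero_right, sub_zero]
  rw [h1]
  refine (sig_le h B f _).trans ?_
  gcongr
  refine le_of_sq_le_sq ?_ (by positivity)
  rw [Real.sq_sqrt (by have := tau_nonneg (nf π ρ q) P; positivity)]
  exact norm_sub_pg_sq h q P hP hm

end

end Crest.Agent.R234.Supm_685
end

-- ▼ part R234/Supm2_685
section

/-!
R234 (helper685), VF-SUPM part 2: calculus of the height over a minimal graph and its squared norm.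
-/

set_option autoImplicit false
set_option linter.unusedSectionVars false

open MeasureTheory Metric Set Filter Topology
open scoped InnerProductSpace ContDiff

namespace Crest.Agent.R234.Supm_685

open Crest.Agent.R234.Cacc_113 (tr IsPr St)
open Crest.Agent.R234.Ell1_3 (gop ginv adjL)

noncomputable section

variable {E F W : Type} [NormedAddCommGroup E] [InnerProductSpace ℝ E] [FiniteDimensional ℝ E]
  [NormedAddCommGroup F] [InnerProductSpace ℝ F] [FiniteDimensional ℝ F]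
  [NormedAddCommGroup W] [InnerProductSpace ℝ W] [FiniteDimensional ℝ W]

/-- the height over the graph of `u` (at scale `r` about `x`) -/
def ht (π : E →L[ℝ] F) (ρ : E →L[ℝ] W) (x : E) (r : ℝ) (u : F → W) (z : E) : W :=
  ρ (z - x) - r • u (r⁻¹ • π (z - x))

/-- its derivative -/
def nz (π : E →L[ℝ] F) (ρ : E →L[ℝ] W) (x : E) (r : ℝ) (u : F → W) (z : E) : E →L[ℝ] W :=
  nf π ρ (fderiv ℝ u (r⁻¹ • π (z - x)))

/-- the second derivative of `u` at the base point of `z` -/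
def bz (π : E →L[ℝ] F) (x : E) (r : ℝ) (u : F → W) (z : E) : F →L[ℝ] F →L[ℝ] W :=
  fderiv ℝ (fderiv ℝ u) (r⁻¹ • π (z - x))

/-- gradient of the squared height -/
def g0 (π : E →L[ℝ] F) (ρ : E →L[ℝ] W) (x : E) (r : ℝ) (u : F → W) (z : E) : E :=
  (2 : ℝ) • ContinuousLinearMap.adjoint (nz π ρ x r u z) (ht π ρ x r u z)

/-- the weight -/
def ps (a : ℝ) (z0 z : E) : ℝ := 1 + a * ‖z - z0‖ ^ 2

/-- gradient of the weighted squared height -/
def g1 (π : E →L[ℝ] F) (ρ : E →L[ℝ] W) (x : E) (r : ℝ) (u : F → W) (a : ℝ) (z0 z : E) : E :=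
  ps a z0 z • g0 π ρ x r u z + (2 * a * ‖ht π ρ x r u z‖ ^ 2) • (z - z0)

section calcu

variable {π : E →L[ℝ] F} {ρ : E →L[ℝ] W} {x : E} {r : ℝ} {u : F → W}

theorem hasFDerivAt_pt (z : E) :
    HasFDerivAt (fun z : E => r⁻¹ • π (z - x)) (r⁻¹ • π) z := by
  have h4 : HasFDerivAt (fun z => π z - π x) π z := π.hasFDerivAt.sub_const _
  have h5 : HasFDerivAt (fun z => π (z - x)) π z := by simpa only [map_sub] using h4
  exact h5.const_smul r⁻¹

theorem hasFDerivAt_ht (hr : r ≠ 0) (hu : ContDiff ℝ 2 u) (z : E) :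
    HasFDerivAt (ht π ρ x r u) (nz π ρ x r u z) z := by
  have h1 : HasFDerivAt u (fderiv ℝ u (r⁻¹ • π (z - x))) (r⁻¹ • π (z - x)) :=
    (hu.differentiable (by norm_num) _).hasFDerivAt
  have h2 : HasFDerivAt (fun z => r • u (r⁻¹ • π (z - x)))
      (r • (fderiv ℝ u (r⁻¹ • π (z - x)) ∘L (r⁻¹ • π))) z :=
    (h1.comp z (hasFDerivAt_pt z)).const_smul r
  have h3 : HasFDerivAt (fun z => ρ (z - x)) ρ z := by
    have h4 : HasFDerivAt (fun z => ρ z - ρ x) ρ z := ρ.hasFDerivAt.sub_const _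
    simpa only [map_sub] using h4
  have h5 := h3.sub h2
  have h6 : ρ - r • (fderiv ℝ u (r⁻¹ • π (z - x)) ∘L (r⁻¹ • π)) = nz π ρ x r u z := by
    ext v
    simp only [nz, nf, sub_apply, smul_apply, ContinuousLinearMap.comp_apply,
      map_smul, smul_smul, mul_inv_cancel₀ hr, one_smul]
  rw [h6] at h5
  exact h5

/-- the derivative of `nz` -/
def dnz (π : E →L[ℝ] F) (x : E) (r : ℝ) (u : F → W) (z : E) : E →L[ℝ] (E →L[ℝ] W) :=
  -(((ContinuousLinearMap.compL ℝ E F W).flip π) ∘L (bz π x r u z ∘L (r⁻¹ • π)))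

theorem dnz_apply (z v w : E) :
    dnz π x r u z v w = -(r⁻¹ • bz π x r u z (π v) (π w)) := by
  simp [dnz]

theorem hasFDerivAt_nz (hu : ContDiff ℝ 2 u) (z : E) :
    HasFDerivAt (nz π ρ x r u) (dnz π x r u z) z := by
  have h0 : ContDiff ℝ 1 (fderiv ℝ u) := hu.fderiv_right (by norm_num)
  have h1 : HasFDerivAt (fderiv ℝ u) (bz π x r u z) (r⁻¹ • π (z - x)) :=
    (h0.differentiable one_ne_zero _).hasFDerivAt
  have h2 := h1.comp z (hasFDerivAt_pt (π := π) (x := x) (r := r) z)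
  have h3 := (((ContinuousLinearMap.compL ℝ E F W).flip π).hasFDerivAt).comp z h2
  have h4 := h3.const_sub ρ
  exact h4

theorem contDiff_ht (hu : ContDiff ℝ 2 u) : ContDiff ℝ 2 (ht π ρ x r u) := by
  have h1 : ContDiff ℝ 2 fun z : E => ρ (z - x) := ρ.contDiff.comp (contDiff_id.sub contDiff_const)
  have h2 : ContDiff ℝ 2 fun z : E => r⁻¹ • π (z - x) :=
    contDiff_const.smul (π.contDiff.comp (contDiff_id.sub contDiff_const))
  exact h1.sub (contDiff_const.smul (hu.comp h2))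

theorem contDiff_nz (hu : ContDiff ℝ 2 u) : ContDiff ℝ 1 (nz π ρ x r u) := by
  have h0 : ContDiff ℝ 1 (fderiv ℝ u) := hu.fderiv_right (by norm_num)
  have h2 : ContDiff ℝ 1 fun z : E => r⁻¹ • π (z - x) :=
    contDiff_const.smul (π.contDiff.comp (contDiff_id.sub contDiff_const))
  have h3 : ContDiff ℝ 1 fun z : E => ((ContinuousLinearMap.compL ℝ E F W).flip π)
    (fderiv ℝ u (r⁻¹ • π (z - x))) := (ContinuousLinearMap.contDiff _).comp (h0.comp h2)
  exact contDiff_const.sub h3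

theorem contDiff_g0 (hu : ContDiff ℝ 2 u) : ContDiff ℝ 1 (g0 π ρ x r u) := by
  have h1 : ContDiff ℝ 1 fun z => adjL (nz π ρ x r u z) :=
    ((adjL (F := E) (V := W)).contDiff).comp (contDiff_nz hu)
  have h2 : ContDiff ℝ 1 (ht π ρ x r u) := (contDiff_ht hu).of_le (by norm_num)
  exact contDiff_const.smul (h1.clm_apply h2)

theorem contDiff_nsq (hu : ContDiff ℝ 2 u) : ContDiff ℝ 1 fun z => ‖ht π ρ x r u z‖ ^ 2 :=
  ((contDiff_ht hu).of_le (by norm_num)).norm_sq ℝ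

theorem contDiff_ps (a : ℝ) (z0 : E) : ContDiff ℝ 1 (ps a z0) :=
  contDiff_const.add (contDiff_const.mul ((contDiff_id.sub contDiff_const).norm_sq ℝ))

theorem contDiff_g1 (hu : ContDiff ℝ 2 u) (a : ℝ) (z0 : E) :
    ContDiff ℝ 1 (g1 π ρ x r u a z0) :=
  ((contDiff_ps a z0).smul (contDiff_g0 hu)).add
    ((contDiff_const.mul (contDiff_nsq hu)).smul (contDiff_id.sub contDiff_const))

theorem g0_inner (z v : E) :
    ⟪g0 π ρ x r u z, v⟫_ℝ = 2 * ⟪ht π ρ x r u z, nz π ρ x r u z v⟫_ℝ := by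
  rw [g0, inner_smul_left, ContinuousLinearMap.adjoint_inner_left]
  simp

theorem hasFDerivAt_nsq (hr : r ≠ 0) (hu : ContDiff ℝ 2 u) (z : E) :
    HasFDerivAt (fun z => ‖ht π ρ x r u z‖ ^ 2) (innerSL ℝ (g0 π ρ x r u z)) z := by
  have h1 := (hasFDerivAt_ht (π := π) (ρ := ρ) (x := x) hr hu z).norm_sq
  refine h1.congr_fderiv ?_
  ext v
  rw [innerSL_apply_apply, g0_inner]
  simp [two_mul]

theorem hasFDerivAt_ps (a : ℝ) (z0 z : E) :
    HasFDerivAt (ps a z0) (innerSL ℝ ((2 * a) • (z - z0))) z := by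
  have h0 : HasFDerivAt (fun z : E => z - z0) (ContinuousLinearMap.id ℝ E) z :=
    (hasFDerivAt_id z).sub_const z0
  have h1 := (h0.norm_sq.const_mul a).const_add 1
  refine h1.congr_fderiv ?_
  ext v
  simp [inner_smul_left]
  ring

theorem hasFDerivAt_g0 (hr : r ≠ 0) (hu : ContDiff ℝ 2 u) (z : E) :
    HasFDerivAt (g0 π ρ x r u) ((2 : ℝ) • (((adjL (nz π ρ x r u z)) ∘L (nz π ρ x r u z)) +
      ((adjL (F := E) (V := W)) ∘L dnz π x r u z).flip (ht π ρ x r u z))) z := by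
  have h1 : HasFDerivAt (fun z => adjL (nz π ρ x r u z)) ((adjL (F := E) (V := W)) ∘L dnz π x r u z)
      z := ((adjL (F := E) (V := W)).hasFDerivAt).comp z (hasFDerivAt_nz hu z)
  exact (h1.clm_apply (hasFDerivAt_ht hr hu z)).const_smul (2 : ℝ)

/-- the trace of `P` against the Hessian of the squared height. -/
theorem tr_g0 (hr : r ≠ 0) (hu : ContDiff ℝ 2 u) (z : E) {P : E →L[ℝ] E} (hP : IsPr P) :
    tr (fderiv ℝ (g0 π ρ x r u) z ∘L P) = 2 * tau (nz π ρ x r u z) P -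
      2 * (r⁻¹ * sig π (bz π x r u z) (ht π ρ x r u z) P) := by
  rw [(hasFDerivAt_g0 hr hu z).fderiv]
  have h1 : ((2 : ℝ) • (((adjL (nz π ρ x r u z)) ∘L (nz π ρ x r u z)) +
      ((adjL (F := E) (V := W)) ∘L dnz π x r u z).flip (ht π ρ x r u z))) ∘L P =
      (2 : ℝ) • (((ContinuousLinearMap.adjoint (nz π ρ x r u z) ∘L (nz π ρ x r u z)) ∘L P) +
      (((adjL (F := E) (V := W)) ∘L dnz π x r u z).flip (ht π ρ x r u z) ∘L P)) := by
    ext v; simp
  rw [h1, Cacc_113.tr_smul, Cacc_113.tr_add, tau_eq _ hP]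
  have h2 : tr (((adjL (F := E) (V := W)) ∘L dnz π x r u z).flip (ht π ρ x r u z) ∘L P) =
      -(r⁻¹ * sig π (bz π x r u z) (ht π ρ x r u z) P) := by
    rw [tr, LinearMap.trace_eq_sum_inner _ (stdOrthonormalBasis ℝ E), sig, Finset.mul_sum,
      ← Finset.sum_neg_distrib]
    refine Finset.sum_congr rfl fun j _ => ?_
    simp only [ContinuousLinearMap.coe_coe, ContinuousLinearMap.comp_apply,
      ContinuousLinearMap.flip_apply, Ell1_3.adjL_apply]
    rw [ContinuousLinearMap.adjoint_inner_right, dnz_apply, inner_neg_left, inner_smul_left,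
      real_inner_comm]
    simp
  rw [h2]
  ring

theorem tr_g1 (hr : r ≠ 0) (hu : ContDiff ℝ 2 u) (a : ℝ) (z0 z : E) {P : E →L[ℝ] E}
    (hP : IsPr P) :
    tr (fderiv ℝ (g1 π ρ x r u a z0) z ∘L P) =
      ps a z0 z * (2 * tau (nz π ρ x r u z) P -
        2 * (r⁻¹ * sig π (bz π x r u z) (ht π ρ x r u z) P)) +
      8 * a * ⟪ht π ρ x r u z, nz π ρ x r u z (P (z - z0))⟫_ℝ +
      2 * a * ‖ht π ρ x r u z‖ ^ 2 * tr P := by
  have h0 : HasFDerivAt (g0 π ρ x r u) (fderiv ℝ (g0 π ρ x r u) z) z :=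
    ((contDiff_g0 hu).differentiable one_ne_zero z).hasFDerivAt
  have h1 := (hasFDerivAt_ps a z0 z).smul h0
  have h2 : HasFDerivAt (fun z : E => z - z0) (ContinuousLinearMap.id ℝ E) z :=
    (hasFDerivAt_id z).sub_const z0
  have h3 := ((hasFDerivAt_nsq (π := π) (ρ := ρ) (x := x) hr hu z).const_mul (2 * a)).smul h2
  have h4 := h1.add h3
  have h5 : HasFDerivAt (g1 π ρ x r u a z0) _ z := h4
  rw [h5.fderiv]
  simp only [ContinuousLinearMap.add_comp, Cacc_113.tr_add, Cacc_113.tr_smulRight_comp,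
    ContinuousLinearMap.smul_comp, Cacc_113.tr_smul, ContinuousLinearMap.id_comp,
    tr_g0 hr hu z hP, smul_apply, innerSL_apply_apply, smul_eq_mul]
  rw [inner_smul_left, real_inner_comm, hP.sa, g0_inner]
  simp only [conj_trivial]
  ring

theorem hasFDerivAt_h (hr : r ≠ 0) (hu : ContDiff ℝ 2 u) (a : ℝ) (z0 z : E) :
    HasFDerivAt (fun z => ps a z0 z * ‖ht π ρ x r u z‖ ^ 2) (innerSL ℝ (g1 π ρ x r u a z0 z)) z := by
  have h1 := (hasFDerivAt_ps a z0 z).mul (hasFDerivAt_nsq (π := π) (ρ := ρ) (x := x) hr hu z)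
  refine h1.congr_fderiv ?_
  ext v
  simp only [g1, innerSL_apply_apply, add_apply, smul_apply, smul_eq_mul, inner_add_left,
    inner_smul_left, conj_trivial]
  ring

end calcu

end

end Crest.Agent.R234.Supm_685
end

-- ▼ part R234/Supm3_685

/-!
R234 (helper685), VF-SUPM part 3: height bound, energy (Caccioppoli) inequality and first variation
identity for the height of a stationary general varifold over a MINIMAL graph `{ρ = r u(π / r)}`.
-/

set_option autoImplicit false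
set_option linter.unusedSectionVars false

open MeasureTheory Metric Set Filter Topology
open scoped InnerProductSpace ContDiff

namespace Crest.Agent.R234.Supm_685

open Crest.Agent.R234.Cacc_113 (tr IsPr St)
open Crest.Agent.R234.Ell1_3 (gop ginv adjL)

noncomputable section

variable {E F W : Type} [NormedAddCommGroup E] [InnerProductSpace ℝ E] [FiniteDimensional ℝ E]
  [NormedAddCommGroup F] [InnerProductSpace ℝ F] [FiniteDimensional ℝ F]
  [NormedAddCommGroup W] [InnerProductSpace ℝ W] [FiniteDimensional ℝ W]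

/-- at the base point of `z`: `‖D²u‖ ≤ κ` and the minimal surface system. -/
def MinAt {ι : Type} [Fintype ι] (e : OrthonormalBasis ι ℝ F) (π : E →L[ℝ] F) (x : E) (r : ℝ)
    (u : F → W) (κ : ℝ) (z : E) : Prop :=
  ‖bz π x r u z‖ ≤ κ ∧
    ∑ i, bz π x r u z (ginv (fderiv ℝ u (r⁻¹ • π (z - x))) (e i)) (e i) = 0

section pointwise

variable {π : E →L[ℝ] F} {ρ : E →L[ℝ] W} {x : E} {r : ℝ} {u : F → W}
  {ι : Type} [Fintype ι] {e : OrthonormalBasis ι ℝ F} {κ : ℝ}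

theorem MinAt.nonneg {z : E} (hz : MinAt e π x r u κ z) : 0 ≤ κ := by
  have h1 := norm_nonneg (bz π x r u z)
  exact le_trans h1 hz.1

theorem sig_bound (h : Fr π ρ) (hr : 0 < r) {z : E} (hz : MinAt e π x r u κ z)
    {P : E →L[ℝ] E} (hP : IsPr P) (hm : tr P = Module.finrank ℝ F) (w : W) :
    |r⁻¹ * sig π (bz π x r u z) w P| ≤
      (Module.finrank ℝ F * κ / r) * ‖w‖ * √(2 * tau (nz π ρ x r u z) P) := by
  have h1 : |sig π (bz π x r u z) w P| ≤ Module.finrank ℝ F * (‖bz π x r u z‖ * ‖w‖ *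
      √(2 * tau (nz π ρ x r u z) P)) :=
    sig_min h (fderiv ℝ u (r⁻¹ • π (z - x))) (bz π x r u z) w e hz.2 hP hm
  have h2 := hz.1
  rw [abs_mul, abs_of_pos (inv_pos.2 hr)]
  calc r⁻¹ * |sig π (bz π x r u z) w P|
      ≤ r⁻¹ * (Module.finrank ℝ F * (κ * ‖w‖ * √(2 * tau (nz π ρ x r u z) P))) := by
        gcongr
        refine h1.trans ?_
        gcongr
    _ = _ := by ring

/-- the squared height is almost subharmonic, with the full tilt as a gain. -/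
theorem tr_g0_ge (h : Fr π ρ) (hr : 0 < r) (hu : ContDiff ℝ 2 u) {z : E}
    (hz : MinAt e π x r u κ z) {P : E →L[ℝ] E} (hP : IsPr P) (hm : tr P = Module.finrank ℝ F) :
    tau (nz π ρ x r u z) P - 2 * (Module.finrank ℝ F * κ / r) ^ 2 * ‖ht π ρ x r u z‖ ^ 2 ≤
      tr (fderiv ℝ (g0 π ρ x r u) z ∘L P) := by
  have h1 := sig_bound h hr hz hP hm (ht π ρ x r u z)
  rw [tr_g0 hr.ne' hu z hP]
  have h0 := tau_nonneg (nz π ρ x r u z) P
  have h2 : √(2 * tau (nz π ρ x r u z) P) ^ 2 = 2 * tau (nz π ρ x r u z) P :=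
    Real.sq_sqrt (by positivity)
  set X := √(2 * tau (nz π ρ x r u z) P)
  set Y := ‖ht π ρ x r u z‖
  set c := (Module.finrank ℝ F * κ / r : ℝ)
  have h3 := le_abs_self (r⁻¹ * sig π (bz π x r u z) (ht π ρ x r u z) P)
  nlinarith [sq_nonneg (X - 2 * (c * Y))]

theorem arith_g1 {M κ r s X Y T0 I0 N : ℝ} (hr : 0 < r) (hM0 : 0 ≤ M) (hMM : M ≤ M ^ 2)
    (hs : 0 ≤ s) (hN0 : 0 ≤ N) (hN : N ≤ s)
    (hsr : 64 * M * κ ^ 2 * s ^ 2 ≤ r ^ 2) (h4 : X ^ 2 - 2 * (M * κ / r) ^ 2 * Y ^ 2 ≤ T0)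
    (h2 : |I0| ≤ Y * (X * s)) :
    0 ≤ (1 + 2 * M * κ ^ 2 / r ^ 2 * N ^ 2) * T0 + 8 * (2 * M * κ ^ 2 / r ^ 2) * I0 +
      2 * (2 * M * κ ^ 2 / r ^ 2) * Y ^ 2 * M := by
  set a : ℝ := 2 * M * κ ^ 2 / r ^ 2 with ha
  set c2 : ℝ := (M * κ / r) ^ 2 with hc2
  have ha0 : 0 ≤ a := by rw [ha]; positivity
  have hc0 : 0 ≤ c2 := by rw [hc2]; positivity
  have has : a * s ^ 2 ≤ 1 / 32 := by
    rw [ha, div_mul_eq_mul_div, div_le_iff₀ (by positivity)]
    nlinarith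
  have hac : 2 * a * M = 4 * c2 := by
    rw [ha, hc2]; field_simp; ring
  have hac2 : a / 2 ≤ c2 := by
    have e1 : a / 2 = M * (κ / r) ^ 2 := by rw [ha]; field_simp
    have e2 : c2 = M ^ 2 * (κ / r) ^ 2 := by rw [hc2]; field_simp
    rw [e1, e2]
    gcongr
  have hp1 : 1 ≤ 1 + a * N ^ 2 := by nlinarith [mul_nonneg ha0 (sq_nonneg N)]
  have hp2 : 1 + a * N ^ 2 ≤ 33 / 32 := by
    have : a * N ^ 2 ≤ a * s ^ 2 := by gcongr
    linarith
  set p := 1 + a * N ^ 2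
  have h5 : X ^ 2 - 33 / 16 * (c2 * Y ^ 2) ≤ p * T0 := by
    have e1 : p * (X ^ 2 - 2 * c2 * Y ^ 2) ≤ p * T0 := by
      have : 0 ≤ p := by linarith
      gcongr
    have e2 : X ^ 2 ≤ p * X ^ 2 := by nlinarith [sq_nonneg X]
    have e3 : p * (c2 * Y ^ 2) ≤ 33 / 32 * (c2 * Y ^ 2) := by gcongr
    nlinarith
  have h6 : -(X ^ 2) - c2 * Y ^ 2 ≤ 8 * a * I0 := by
    have e1 := neg_abs_le I0
    have e2 : 8 * a * -(Y * (X * s)) ≤ 8 * a * I0 := by
      gcongr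
      linarith
    have e3 : 16 * a ^ 2 * s ^ 2 * Y ^ 2 ≤ c2 * Y ^ 2 := by
      have : 16 * a ^ 2 * s ^ 2 ≤ c2 := by
        have e4 : 16 * a * (a * s ^ 2) ≤ 16 * a * (1 / 32) := by gcongr
        nlinarith
      gcongr
    nlinarith [sq_nonneg (X - 4 * a * s * Y)]
  have h7 : 2 * a * Y ^ 2 * M = 4 * (c2 * Y ^ 2) := by
    calc 2 * a * Y ^ 2 * M = (2 * a * M) * Y ^ 2 := by ring
      _ = _ := by rw [hac]; ring
  rw [h7]
  nlinarith [mul_nonneg hc0 (sq_nonneg Y)]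

theorem tr_g1_nonneg (h : Fr π ρ) (hr : 0 < r) (hu : ContDiff ℝ 2 u) {z z0 : E}
    (hz : MinAt e π x r u κ z) {P : E →L[ℝ] E} (hP : IsPr P) (hm : tr P = Module.finrank ℝ F)
    {s : ℝ} (hs : ‖z - z0‖ ≤ s) (hsr : 64 * Module.finrank ℝ F * κ ^ 2 * s ^ 2 ≤ r ^ 2) :
    0 ≤ tr (fderiv ℝ (g1 π ρ x r u (2 * Module.finrank ℝ F * κ ^ 2 / r ^ 2) z0) z ∘L P) := by
  have h1 := tr_g0_ge h hr hu hz hP hm
  rw [tr_g0 hr.ne' hu z hP] at h1
  rw [tr_g1 hr.ne' hu _ z0 z hP, hm]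
  have h2 : |⟪ht π ρ x r u z, nz π ρ x r u z (P (z - z0))⟫_ℝ| ≤
      ‖ht π ρ x r u z‖ * (√(tau (nz π ρ x r u z) P) * s) := by
    refine (abs_real_inner_le_norm _ _).trans ?_
    gcongr
    exact (norm_np_le _ _ _).trans (by gcongr)
  have h3 := Real.sq_sqrt (tau_nonneg (nz π ρ x r u z) P)
  have hMM : (Module.finrank ℝ F : ℝ) ≤ (Module.finrank ℝ F : ℝ) ^ 2 := by
    have : (Module.finrank ℝ F) ≤ (Module.finrank ℝ F) ^ 2 := Nat.le_self_pow two_ne_zero _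
    exact_mod_cast this
  rw [← h3] at h1
  have h5 := arith_g1 hr (Nat.cast_nonneg _) hMM ((norm_nonneg _).trans hs) (norm_nonneg _) hs hsr
    h1 h2
  rw [h3] at h5
  exact h5

theorem g0_pair_le {P : E →L[ℝ] E} (hP : IsPr P) (z : E) (l : E →L[ℝ] ℝ) :
    |l (P (g0 π ρ x r u z))| ≤ 2 * (‖l‖ * (√(tau (nz π ρ x r u z) P) * ‖ht π ρ x r u z‖)) := by
  have h1 : l (P (g0 π ρ x r u z)) =
      2 * l (P (ContinuousLinearMap.adjoint (nz π ρ x r u z) (ht π ρ x r u z))) := by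
    simp [g0]
  rw [h1, abs_mul, abs_of_pos (by norm_num : (0:ℝ) < 2)]
  gcongr
  rw [← Real.norm_eq_abs]
  refine (l.le_opNorm _).trans ?_
  gcongr
  exact norm_p_adj_le _ hP _

end pointwise

section integral

variable [MeasurableSpace E] [BorelSpace E]
  {π : E →L[ℝ] F} {ρ : E →L[ℝ] W} {x : E} {r : ℝ} {u : F → W}
  {ι : Type} [Fintype ι] {e : OrthonormalBasis ι ℝ F} {κ : ℝ}
  {U : Set E} {V : Measure (E × (E →L[ℝ] E))} {m : ℕ}

/-- **height bound over a minimal graph**, weighted form. -/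
theorem height_graph_ps (hV : St U V) (hm : ∀ᵐ z ∂V, tr z.2 = m) (hF : Module.finrank ℝ F = m)
    (h : Fr π ρ) (hr : 0 < r) (hu : ContDiff ℝ 2 u) {z0 : E} {s : ℝ} (hs : 0 < s)
    (hU : closedBall z0 s ⊆ U)
    (hz : ∀ᵐ z ∂V, z.1 ∈ ball z0 s → MinAt e π x r u κ z.1)
    (hsr : 64 * m * κ ^ 2 * s ^ 2 ≤ r ^ 2) {θ : ℝ} (hθ : 0 ≤ θ)
    (hdens : ∃ᶠ t in 𝓝[>] (0 : ℝ), θ * t ^ m ≤ (V (Prod.fst ⁻¹' ball z0 t)).toReal) :
    θ * ‖ht π ρ x r u z0‖ ^ 2 ≤ (s ^ m)⁻¹ *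
      ∫ z in Prod.fst ⁻¹' ball z0 s, ps (2 * m * κ ^ 2 / r ^ 2) z0 z.1 * ‖ht π ρ x r u z.1‖ ^ 2 ∂V := by
  have h1 := hV.mean_value (m := m) (x₀ := z0) (R := s)
    (f := fun z => ps (2 * m * κ ^ 2 / r ^ 2) z0 z * ‖ht π ρ x r u z‖ ^ 2)
    (G := g1 π ρ x r u (2 * m * κ ^ 2 / r ^ 2) z0) hm hs hU
    (fun z => hasFDerivAt_h hr.ne' hu _ z0 z) (contDiff_g1 hu _ _) ?_ ?_ hθ hdens
  · have h2 : ps (2 * m * κ ^ 2 / r ^ 2) z0 z0 = 1 := by simp [ps]
    simpa only [h2, one_mul] using h1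
  · refine Eventually.of_forall fun z _ => ?_
    have : 0 ≤ ps (2 * m * κ ^ 2 / r ^ 2) z0 z.1 := by unfold ps; positivity
    positivity
  · filter_upwards [hz, hm, hV.pr] with z hz hm hpr hzb
    subst hF
    exact tr_g1_nonneg h hr hu (hz hzb) hpr hm (by
      rw [← dist_eq_norm]; exact (mem_ball.1 hzb).le) hsr

/-- continuous functions are integrable over balls -/
theorem integrableOn_ball (hV : St U V) {g : E → ℝ} (hg : Continuous g) {z0 : E} {s : ℝ}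
    (hU : closedBall z0 s ⊆ U) :
    IntegrableOn (fun z : E × (E →L[ℝ] E) => g z.1) (Prod.fst ⁻¹' ball z0 s) V :=
  hV.integrableOn hU hg.continuousOn

/-- **height bound over a minimal graph** (sup by `L²`). -/
theorem height_graph (hV : St U V) (hm : ∀ᵐ z ∂V, tr z.2 = m) (hF : Module.finrank ℝ F = m)
    (h : Fr π ρ) (hr : 0 < r) (hu : ContDiff ℝ 2 u) {z0 : E} {s : ℝ} (hs : 0 < s)
    (hU : closedBall z0 s ⊆ U)
    (hz : ∀ᵐ z ∂V, z.1 ∈ ball z0 s → MinAt e π x r u κ z.1)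
    (hsr : 64 * m * κ ^ 2 * s ^ 2 ≤ r ^ 2) {θ : ℝ} (hθ : 0 ≤ θ)
    (hdens : ∃ᶠ t in 𝓝[>] (0 : ℝ), θ * t ^ m ≤ (V (Prod.fst ⁻¹' ball z0 t)).toReal) :
    θ * ‖ht π ρ x r u z0‖ ^ 2 ≤ 33 / 32 * ((s ^ m)⁻¹ *
      ∫ z in Prod.fst ⁻¹' ball z0 s, ‖ht π ρ x r u z.1‖ ^ 2 ∂V) := by
  refine (height_graph_ps hV hm hF h hr hu hs hU hz hsr hθ hdens).trans ?_
  have hc1 : Continuous fun z => ‖ht π ρ x r u z‖ ^ 2 := (contDiff_nsq hu).continuous
  have hc2 : Continuous fun z => ps (2 * m * κ ^ 2 / r ^ 2) z0 z * ‖ht π ρ x r u z‖ ^ 2 :=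
    (contDiff_ps _ z0).continuous.mul hc1
  have h1 : ∫ z in Prod.fst ⁻¹' ball z0 s,
      ps (2 * m * κ ^ 2 / r ^ 2) z0 z.1 * ‖ht π ρ x r u z.1‖ ^ 2 ∂V ≤
      ∫ z in Prod.fst ⁻¹' ball z0 s, 33 / 32 * ‖ht π ρ x r u z.1‖ ^ 2 ∂V := by
    refine setIntegral_mono_on (integrableOn_ball hV hc2 hU)
      ((integrableOn_ball hV hc1 hU).const_mul _) (measurable_fst measurableSet_ball) ?_
    intro z hzb
    have e1 : ‖z.1 - z0‖ ≤ s := by
      rw [← dist_eq_norm]; exact (mem_ball.1 hzb).le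
    have e2 : ps (2 * m * κ ^ 2 / r ^ 2) z0 z.1 ≤ 33 / 32 := by
      unfold ps
      have : 2 * m * κ ^ 2 / r ^ 2 * ‖z.1 - z0‖ ^ 2 ≤ 2 * m * κ ^ 2 / r ^ 2 * s ^ 2 := by gcongr
      have e3 : 2 * m * κ ^ 2 / r ^ 2 * s ^ 2 ≤ 1 / 32 := by
        rw [div_mul_eq_mul_div, div_le_iff₀ (by positivity)]
        nlinarith
      linarith
    gcongr
  rw [integral_const_mul] at h1
  calc _ ≤ (s ^ m)⁻¹ * (33 / 32 * ∫ z in Prod.fst ⁻¹' ball z0 s, ‖ht π ρ x r u z.1‖ ^ 2 ∂V) := by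
        gcongr
    _ = _ := by ring

/-- **first variation of the squared height** over any `C²` graph. -/
theorem ident_g0 (hV : St U V) (hr : 0 < r) (hu : ContDiff ℝ 2 u) {ζ : E → ℝ}
    (hζ : ContDiff ℝ 1 ζ) (hc : HasCompactSupport ζ) (hs : tsupport ζ ⊆ U) :
    ∫ z, ζ z.1 * tr (fderiv ℝ (g0 π ρ x r u) z.1 ∘L z.2) ∂V =
      - ∫ z, fderiv ℝ ζ z.1 (z.2 (g0 π ρ x r u z.1)) ∂V := by
  have hg := contDiff_g0 (π := π) (ρ := ρ) (x := x) (r := r) hu
  have h1 := hV.st (fun x' => ζ x' • g0 π ρ x r u x') (hζ.smul hg) hc.smul_right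
    ((tsupport_smul_subset_left _ _).trans hs)
  have hd : ∀ z : E × (E →L[ℝ] E), tr (fderiv ℝ (fun x' => ζ x' • g0 π ρ x r u x') z.1 ∘L z.2) =
      fderiv ℝ ζ z.1 (z.2 (g0 π ρ x r u z.1)) +
        ζ z.1 * tr (fderiv ℝ (g0 π ρ x r u) z.1 ∘L z.2) := by
    intro z
    have e1 : HasFDerivAt ζ (fderiv ℝ ζ z.1) z.1 :=
      (hζ.differentiable one_ne_zero z.1).hasFDerivAt
    have e2 : HasFDerivAt (g0 π ρ x r u) (fderiv ℝ (g0 π ρ x r u) z.1) z.1 :=
      (hg.differentiable one_ne_zero z.1).hasFDerivAt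
    have e3 : HasFDerivAt (fun x' => ζ x' • g0 π ρ x r u x') _ z.1 := e1.smul e2
    rw [e3.fderiv, ContinuousLinearMap.add_comp, Cacc_113.tr_add,
      Cacc_113.tr_smulRight_comp, ContinuousLinearMap.smul_comp, Cacc_113.tr_smul]
    ring
  have hi1 : Integrable (fun z : E × (E →L[ℝ] E) =>
      fderiv ℝ ζ z.1 (z.2 (g0 π ρ x r u z.1))) V := by
    refine hV.integrable ?_ hc.isCompact hs ?_
    · exact ((hζ.continuous_fderiv one_ne_zero).comp continuous_fst).clm_apply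
        (continuous_snd.clm_apply (hg.continuous.comp continuous_fst))
    · intro z hz
      have : fderiv ℝ ζ z.1 = 0 := by
        by_contra hcon
        exact hz (support_fderiv_subset ℝ hcon)
      rw [this]; simp
  have hi2 : Integrable (fun z : E × (E →L[ℝ] E) =>
      ζ z.1 * tr (fderiv ℝ (g0 π ρ x r u) z.1 ∘L z.2)) V := by
    refine hV.integrable ?_ hc.isCompact hs ?_
    · refine (hζ.continuous.comp continuous_fst).mul (Cacc_113.continuous_tr.comp ?_)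
      exact ((hg.continuous_fderiv one_ne_zero).comp continuous_fst).clm_comp continuous_snd
    · intro z hz
      rw [image_eq_zero_of_notMem_tsupport hz, zero_mul]
  simp_rw [hd] at h1
  rw [integral_add hi1 hi2] at h1
  linarith

/-- **energy inequality over a minimal graph**. -/
theorem cacc_graph (hV : St U V) (hm : ∀ᵐ z ∂V, tr z.2 = m) (hF : Module.finrank ℝ F = m)
    (h : Fr π ρ) (hr : 0 < r) (hu : ContDiff ℝ 2 u) {φ : E → ℝ} (hφ : ContDiff ℝ 1 φ)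
    (hc : HasCompactSupport φ) (hs : tsupport φ ⊆ U)
    (hz : ∀ᵐ z ∂V, z.1 ∈ tsupport φ → MinAt e π x r u κ z.1) :
    ∫ z, φ z.1 ^ 2 * tau (nz π ρ x r u z.1) z.2 ∂V ≤
      16 * ∫ z, ‖fderiv ℝ φ z.1‖ ^ 2 * ‖ht π ρ x r u z.1‖ ^ 2 ∂V +
      4 * (m * κ / r) ^ 2 * ∫ z, φ z.1 ^ 2 * ‖ht π ρ x r u z.1‖ ^ 2 ∂V := by
  have hφ2 : ContDiff ℝ 1 (fun x => φ x ^ 2) := hφ.pow 2
  have hts : tsupport (fun x => φ x ^ 2) ⊆ tsupport φ := by
    have : (fun x => φ x ^ 2) = fun x => φ x • φ x := by funext x; simp [sq]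
    rw [this]
    exact tsupport_smul_subset_left _ _
  have hcφ : HasCompactSupport (fun x => φ x ^ 2) := by
    have : (fun x => φ x ^ 2) = fun x => φ x • φ x := by funext x; simp [sq]
    rw [this]
    exact hc.smul_right
  have hid := ident_g0 (π := π) (ρ := ρ) (x := x) hV hr hu hφ2 hcφ (hts.trans hs)
  have hder : ∀ x, fderiv ℝ (fun x => φ x ^ 2) x = (2 * φ x) • fderiv ℝ φ x := by
    intro x
    have h2 : HasFDerivAt φ (fderiv ℝ φ x) x := (hφ.differentiable one_ne_zero x).hasFDerivAt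
    rw [(h2.pow 2).fderiv]
    simp
  simp_rw [hder, smul_apply, smul_eq_mul] at hid
  have hfd0 : ∀ z : E × (E →L[ℝ] E), z.1 ∉ tsupport φ → fderiv ℝ φ z.1 = 0 := by
    intro z hz
    by_contra hcon
    exact hz (support_fderiv_subset ℝ hcon)
  have hcf : Continuous (fderiv ℝ φ) := hφ.continuous_fderiv one_ne_zero
  have hg := contDiff_g0 (π := π) (ρ := ρ) (x := x) (r := r) hu
  have hcn : Continuous fun z => ‖ht π ρ x r u z‖ ^ 2 := (contDiff_nsq hu).continuous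
  have hcnz : Continuous (nz π ρ x r u) := (contDiff_nz hu).continuous
  have hctau : Continuous fun z : E × (E →L[ℝ] E) => tau (nz π ρ x r u z.1) z.2 := by
    unfold tau
    refine continuous_finsetSum _ fun j _ => ?_
    exact (((hcnz.comp continuous_fst).clm_apply
      (continuous_snd.clm_apply continuous_const)).norm.pow 2)
  have hiA : Integrable (fun z : E × (E →L[ℝ] E) =>
      φ z.1 ^ 2 * tau (nz π ρ x r u z.1) z.2) V := by
    refine hV.integrable (((hφ.continuous.comp continuous_fst).pow 2).mul hctau)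
      hc.isCompact hs ?_
    intro z hz
    rw [image_eq_zero_of_notMem_tsupport hz]; simp
  have hiB : Integrable (fun z : E × (E →L[ℝ] E) =>
      φ z.1 ^ 2 * ‖ht π ρ x r u z.1‖ ^ 2) V := by
    refine hV.integrable (((hφ.continuous.comp continuous_fst).pow 2).mul
      (hcn.comp continuous_fst)) hc.isCompact hs ?_
    intro z hz
    rw [image_eq_zero_of_notMem_tsupport hz]; simp
  have hiC : Integrable (fun z : E × (E →L[ℝ] E) =>
      ‖fderiv ℝ φ z.1‖ ^ 2 * ‖ht π ρ x r u z.1‖ ^ 2) V := by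
    refine hV.integrable (((hcf.comp continuous_fst).norm.pow 2).mul
      (hcn.comp continuous_fst)) hc.isCompact hs ?_
    intro z hz
    rw [hfd0 z hz]; simp
  have hiD : Integrable (fun z : E × (E →L[ℝ] E) =>
      2 * φ z.1 * fderiv ℝ φ z.1 (z.2 (g0 π ρ x r u z.1))) V := by
    refine hV.integrable ((continuous_const.mul (hφ.continuous.comp continuous_fst)).mul
      ((hcf.comp continuous_fst).clm_apply (continuous_snd.clm_apply
        (hg.continuous.comp continuous_fst)))) hc.isCompact hs ?_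
    intro z hz
    rw [hfd0 z hz]; simp
  have hiE : Integrable (fun z : E × (E →L[ℝ] E) =>
      φ z.1 ^ 2 * tr (fderiv ℝ (g0 π ρ x r u) z.1 ∘L z.2)) V := by
    refine hV.integrable ?_ hc.isCompact hs ?_
    · refine ((hφ.continuous.comp continuous_fst).pow 2).mul (Cacc_113.continuous_tr.comp ?_)
      exact ((hg.continuous_fderiv one_ne_zero).comp continuous_fst).clm_comp continuous_snd
    · intro z hz
      rw [image_eq_zero_of_notMem_tsupport hz]; simp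
  have hle : ∫ z, (φ z.1 ^ 2 * tau (nz π ρ x r u z.1) z.2 -
      2 * (m * κ / r) ^ 2 * (φ z.1 ^ 2 * ‖ht π ρ x r u z.1‖ ^ 2)) ∂V ≤
      ∫ z, φ z.1 ^ 2 * tr (fderiv ℝ (g0 π ρ x r u) z.1 ∘L z.2) ∂V := by
    refine integral_mono_ae (hiA.sub (hiB.const_mul _)) hiE ?_
    filter_upwards [hz, hm, hV.pr] with z hz hm hpr
    by_cases hzφ : z.1 ∈ tsupport φ
    · subst hF
      have := tr_g0_ge h hr hu (hz hzφ) hpr hm
      have := mul_le_mul_of_nonneg_left this (sq_nonneg (φ z.1))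
      linarith
    · simp [image_eq_zero_of_notMem_tsupport hzφ]
  have hle2 : - ∫ z, 2 * φ z.1 * fderiv ℝ φ z.1 (z.2 (g0 π ρ x r u z.1)) ∂V ≤
      ∫ z, (1 / 2 * (φ z.1 ^ 2 * tau (nz π ρ x r u z.1) z.2) +
        8 * (‖fderiv ℝ φ z.1‖ ^ 2 * ‖ht π ρ x r u z.1‖ ^ 2)) ∂V := by
    rw [← integral_neg]
    refine integral_mono_ae hiD.neg ((hiA.const_mul _).add (hiC.const_mul _)) ?_
    filter_upwards [hV.pr] with z hpr
    have e1 := g0_pair_le (π := π) (ρ := ρ) (x := x) (r := r) (u := u) hpr z.1 (fderiv ℝ φ z.1)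
    have e2 := Real.sq_sqrt (tau_nonneg (nz π ρ x r u z.1) z.2)
    set X := √(tau (nz π ρ x r u z.1) z.2)
    set Y := ‖ht π ρ x r u z.1‖
    set L := fderiv ℝ φ z.1 (z.2 (g0 π ρ x r u z.1))
    set D := ‖fderiv ℝ φ z.1‖
    have e3 : -(2 * φ z.1 * L) ≤ 2 * |φ z.1| * (2 * (D * (X * Y))) := by
      calc -(2 * φ z.1 * L) ≤ |2 * φ z.1 * L| := neg_le_abs _
        _ = 2 * |φ z.1| * |L| := by rw [abs_mul, abs_mul]; simp
        _ ≤ _ := by gcongr
    refine e3.trans ?_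
    rw [← e2, ← sq_abs (φ z.1)]
    nlinarith [sq_nonneg (|φ z.1| * X - 4 * (D * Y))]
  rw [integral_sub hiA (hiB.const_mul _), integral_const_mul] at hle
  rw [integral_add (hiA.const_mul _) (hiC.const_mul _), integral_const_mul,
    integral_const_mul] at hle2
  rw [hid] at hle
  linarith

end integral

end

end Crest.Agent.R234.Supm_685
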