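import Crest.Agent.R234.Sw8_733
import Crest.Agent.R234.Main2_456

-- ▼ part R234/Sw9_733
section

/-! # Row 234, VF-F6 (helper733), part 9: test functions radial for the metric at the centre,
the radial coefficient `μ` in foot coordinates -/

set_option autoImplicit false
set_option linter.unusedSectionVars false

open MeasureTheory Set Metric Filter Topology
open scoped ENNReal NNReal ContDiff InnerProductSpace
open Crest.Agent.R234.Ell1_3 Crest.Agent.R234.Fm_209 Crest.Agent.R234.Cy_870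

noncomputable section

namespace Crest.Agent.R234.Sw_733

section Comp

variable {F G : Type} [NormedAddCommGroup F] [InnerProductSpace ℝ F] [FiniteDimensional ℝ F]
  [NormedAddCommGroup G] [InnerProductSpace ℝ G] [FiniteDimensional ℝ G]

theorem compL_bound (A : F →L[ℝ] G) (hA : ‖A‖ ≤ 2) (T : G →L[ℝ] ℝ) :
    ‖T ∘L A‖ ≤ 2 * ‖T‖ := by
  refine (ContinuousLinearMap.opNorm_comp_le _ _).trans ?_
  rw [mul_comm]
  exact mul_le_mul_of_nonneg_right hA (norm_nonneg _)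

/-- affine substitution in a test function. -/
theorem Tst.comp_aff {χ : G → ℝ} {c : ℝ} (h : Tst χ c) (A : F →L[ℝ] G) (hA : ‖A‖ ≤ 2) (v₀ : F) :
    Tst (fun v => χ (A (v - v₀))) (4 * c) := by
  have hc := h.c0
  have haff : ∀ v, HasFDerivAt (fun v : F => A (v - v₀)) A v := fun v =>
    A.hasFDerivAt.comp v ((hasFDerivAt_id v).sub_const v₀)
  have e1 : fderiv ℝ (fun v => χ (A (v - v₀))) = fun v => (fderiv ℝ χ (A (v - v₀))) ∘L A := by
    funext v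
    exact ((h.diff _).hasFDerivAt.comp v (haff v)).fderiv
  have hcd : ContDiff ℝ 2 (fun v : F => A (v - v₀)) := A.contDiff.comp (contDiff_id.sub contDiff_const)
  refine ⟨h.cd.comp hcd, by linarith, fun v => ?_, fun v => ?_, fun v => ?_⟩
  · exact (h.b0 _).trans (by linarith)
  · rw [e1]
    refine (compL_bound A hA _).trans ?_
    have := h.b1 (A (v - v₀))
    linarith
  · rw [e1]
    have h2 : HasFDerivAt (fun v => (fderiv ℝ χ (A (v - v₀))) ∘L A)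
        (((ContinuousLinearMap.compL ℝ F G ℝ).flip A) ∘L
          ((fderiv ℝ (fderiv ℝ χ) (A (v - v₀))) ∘L A)) v := by
      have h3 : HasFDerivAt (fun v => fderiv ℝ χ (A (v - v₀)))
          ((fderiv ℝ (fderiv ℝ χ) (A (v - v₀))) ∘L A) v :=
        (h.diff1 _).hasFDerivAt.comp v (haff v)
      exact ((ContinuousLinearMap.compL ℝ F G ℝ).flip A).hasFDerivAt.comp v h3
    rw [h2.fderiv]
    refine ContinuousLinearMap.opNorm_le_bound _ (by positivity) fun w => ?_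
    change ‖(fderiv ℝ (fderiv ℝ χ) (A (v - v₀)) (A w)) ∘L A‖ ≤ _
    refine (compL_bound A hA _).trans ?_
    have h4 : ‖fderiv ℝ (fderiv ℝ χ) (A (v - v₀)) (A w)‖ ≤ c * (2 * ‖w‖) := by
      refine ((fderiv ℝ (fderiv ℝ χ) (A (v - v₀))).le_opNorm _).trans ?_
      refine mul_le_mul (h.b2 _) ?_ (norm_nonneg _) hc
      exact (A.le_opNorm w).trans (mul_le_mul_of_nonneg_right hA (norm_nonneg _))
    linarith

end Comp

variable {F V : Type} [NormedAddCommGroup F] [InnerProductSpace ℝ F] [FiniteDimensional ℝ F]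
  [NormedAddCommGroup V] [InnerProductSpace ℝ V] [FiniteDimensional ℝ V]

/-! ### operators -/

theorem norm_gop_le {q : F →L[ℝ] V} (hq : ‖q‖ ≤ 1 / 4) : ‖gop q‖ ≤ 2 := by
  refine ContinuousLinearMap.opNorm_le_bound _ (by norm_num) fun v => ?_
  have h1 : gop q v = v + adjL q (q v) := rfl
  rw [h1]
  have h2 : ‖adjL q (q v)‖ ≤ (1 / 4) * ((1 / 4) * ‖v‖) := by
    refine ((adjL q).le_opNorm _).trans ?_
    rw [norm_adjL]
    refine mul_le_mul hq ?_ (norm_nonneg _) (by norm_num)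
    exact (q.le_opNorm v).trans (mul_le_mul_of_nonneg_right hq (norm_nonneg _))
  have := norm_add_le v (adjL q (q v))
  have := norm_nonneg v
  linarith

theorem norm_gop_sub {q q' : F →L[ℝ] V} (hq : ‖q‖ ≤ 1 / 4) (hq' : ‖q'‖ ≤ 1 / 4) :
    ‖gop q' - gop q‖ ≤ ‖q' - q‖ := by
  refine ContinuousLinearMap.opNorm_le_bound _ (norm_nonneg _) fun v => ?_
  have h1 : (gop q' - gop q) v = adjL (q' - q) (q' v) + adjL q ((q' - q) v) := by
    have e1 : gop q v = v + adjL q (q v) := rfl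
    have e2 : gop q' v = v + adjL q' (q' v) := rfl
    simp only [sub_apply, map_sub, e1, e2]
    abel
  rw [h1]
  have h2 : ‖adjL (q' - q) (q' v)‖ ≤ ‖q' - q‖ * (1 / 4 * ‖v‖) := by
    refine ((adjL (q' - q)).le_opNorm _).trans ?_
    rw [norm_adjL]
    refine mul_le_mul_of_nonneg_left ?_ (norm_nonneg _)
    exact (q'.le_opNorm v).trans (mul_le_mul_of_nonneg_right hq' (norm_nonneg _))
  have h3 : ‖adjL q ((q' - q) v)‖ ≤ 1 / 4 * (‖q' - q‖ * ‖v‖) := by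
    refine ((adjL q).le_opNorm _).trans ?_
    rw [norm_adjL]
    exact mul_le_mul hq ((q' - q).le_opNorm v) (norm_nonneg _) (by norm_num)
  have h4 := norm_add_le (adjL (q' - q) (q' v)) (adjL q ((q' - q) v))
  have h5 : 0 ≤ ‖q' - q‖ * ‖v‖ := by positivity
  linarith

theorem norm_ginv_sub {q q' : F →L[ℝ] V} (hq : ‖q‖ ≤ 1 / 4) (hq' : ‖q'‖ ≤ 1 / 4) :
    ‖ginv q' - ginv q‖ ≤ ‖q' - q‖ := by
  have h1 : ginv q' - ginv q = ginv q' ∘L (gop q - gop q') ∘L ginv q := by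
    rw [ContinuousLinearMap.sub_comp, ContinuousLinearMap.comp_sub, gop_ginv,
      ContinuousLinearMap.comp_id, ← ContinuousLinearMap.comp_assoc, ginv_gop,
      ContinuousLinearMap.id_comp]
  rw [h1]
  calc ‖ginv q' ∘L (gop q - gop q') ∘L ginv q‖ ≤ ‖ginv q'‖ * (‖gop q - gop q'‖ * ‖ginv q‖) :=
        (ContinuousLinearMap.opNorm_comp_le _ _).trans (mul_le_mul_of_nonneg_left
          (ContinuousLinearMap.opNorm_comp_le _ _) (norm_nonneg _))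
    _ ≤ 1 * (‖q' - q‖ * 1) := by
        refine mul_le_mul (norm_ginv_le q') (mul_le_mul ?_ (norm_ginv_le q) (norm_nonneg _)
          (norm_nonneg _)) (by positivity) zero_le_one
        rw [norm_sub_rev]
        exact norm_gop_sub hq hq'
    _ = _ := by ring

theorem le_gop_inner (q : F →L[ℝ] V) (v : F) : ‖v‖ ^ 2 ≤ ⟪v, gop q v⟫_ℝ := by
  rw [gop_inner, real_inner_self_eq_norm_sq, real_inner_self_eq_norm_sq]
  have := sq_nonneg ‖q v‖
  linarith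

theorem gop_inner' (q : F →L[ℝ] V) (v : F) : ⟪v, gop q v⟫_ℝ = ‖v‖ ^ 2 + ‖q v‖ ^ 2 := by
  rw [gop_inner, real_inner_self_eq_norm_sq, real_inner_self_eq_norm_sq]

/-! ### test functions -/

/-- `v ↦ g (e^{-2l} ⟨v - v₀, g(q) (v - v₀)⟩)`. -/
def radq (g : ℝ → ℝ) (l : ℝ) (q : F →L[ℝ] V) (v₀ v : F) : ℝ :=
  g (Real.exp (-2 * l) * ⟪v - v₀, gop q (v - v₀)⟫_ℝ)

/-- `v ↦ (v, q v)`. -/
def graphL (q : F →L[ℝ] V) : F →L[ℝ] WithLp 2 (F × V) :=
  (WithLp.prodContinuousLinearEquiv 2 ℝ F V).symm.toContinuousLinearMap ∘L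
    (ContinuousLinearMap.id ℝ F).prod q

theorem norm_graphL_sq (q : F →L[ℝ] V) (v : F) : ‖graphL q v‖ ^ 2 = ‖v‖ ^ 2 + ‖q v‖ ^ 2 := by
  rw [WithLp.prod_norm_sq_eq_of_L2]
  rfl

theorem norm_graphL_le {q : F →L[ℝ] V} (hq : ‖q‖ ≤ 1 / 4) : ‖graphL q‖ ≤ 2 := by
  refine ContinuousLinearMap.opNorm_le_bound _ (by norm_num) fun v => ?_
  have h1 := norm_graphL_sq q v
  have h2 : ‖q v‖ ≤ 1 / 4 * ‖v‖ :=
    (q.le_opNorm v).trans (mul_le_mul_of_nonneg_right hq (norm_nonneg _))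
  have h3 := norm_nonneg v
  have h4 := norm_nonneg (q v)
  refine le_of_sq_le_sq ?_ (by positivity)
  nlinarith

theorem norm_graphL_sub (q q' : F →L[ℝ] V) (v : F) :
    ‖graphL q' v - graphL q v‖ = ‖(q' - q) v‖ := by
  have h1 : ‖graphL q' v - graphL q v‖ ^ 2 = ‖(q' - q) v‖ ^ 2 := by
    rw [WithLp.prod_norm_sq_eq_of_L2]
    have e1 : (graphL q' v - graphL q v).fst = 0 := by
      change v - v = 0
      exact sub_self v
    have e2 : (graphL q' v - graphL q v).snd = (q' - q) v := rfl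
    rw [e1, e2, norm_zero]
    ring
  exact (sq_eq_sq₀ (norm_nonneg _) (norm_nonneg _)).1 h1

theorem radq_eq (g : ℝ → ℝ) (l : ℝ) (q : F →L[ℝ] V) (v₀ v : F) :
    radq g l q v₀ v = rad (WithLp 2 (F × V)) g l (graphL q (v - v₀)) := by
  unfold radq rad
  rw [norm_graphL_sq, gop_inner']

theorem radq_zero {k k' : ℝ → ℝ} (h : Ker k k') {l : ℝ} {q : F →L[ℝ] V} {v₀ v : F}
    (hv : Real.exp l ≤ ‖v - v₀‖) : radq k l q v₀ v = 0 := by
  rw [radq_eq]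
  refine rad_zero h (hv.trans ?_)
  have h1 := norm_graphL_sq q (v - v₀)
  refine le_of_sq_le_sq ?_ (norm_nonneg _)
  have := sq_nonneg ‖q (v - v₀)‖
  linarith

theorem radq_tsupport {k k' : ℝ → ℝ} (h : Ker k k') (l : ℝ) (q : F →L[ℝ] V) (v₀ : F) :
    tsupport (radq k l q v₀) ⊆ closedBall v₀ (Real.exp l) := by
  refine closure_minimal (fun v hv => ?_) isClosed_closedBall
  rw [mem_closedBall, dist_eq_norm]
  by_contra hc
  exact hv (radq_zero h (not_le.1 hc).le)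

variable (F V) in
/-- **bounds of the tests, uniform in scale, slope and centre.** -/
theorem exists_radq {g g1 g2 : ℝ → ℝ} (h : Ker g g1) (h1 : Ker g1 g2) :
    ∃ c : ℝ, 0 ≤ c ∧ ∀ l ≤ 0, ∀ (q : F →L[ℝ] V) (v₀ : F), ‖q‖ ≤ 1 / 4 →
      Tst (radq g l q v₀) (c * Real.exp (-2 * l)) ∧
      (∀ v, |radq g1 l q v₀ v| ≤ c * Real.exp (-l)) ∧
      (∀ v v', |radq g1 l q v₀ v' - radq g1 l q v₀ v| ≤ c * Real.exp (-l) * ‖v' - v‖) ∧
      ∀ q' : F →L[ℝ] V, ‖q'‖ ≤ 1 / 4 →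
        (∀ v, |radq g l q' v₀ v - radq g l q v₀ v| ≤ c * ‖q' - q‖) ∧
        ∀ v, |radq g1 l q' v₀ v - radq g1 l q v₀ v| ≤ c * ‖q' - q‖ := by
  obtain ⟨c0, hc0, H0⟩ := exists_tst (F := WithLp 2 (F × V)) h h1
  obtain ⟨c1, hc1, H1⟩ := exists_lip (F := WithLp 2 (F × V)) h1
  obtain ⟨c2, hc2, H2⟩ := exists_lip (F := WithLp 2 (F × V)) h
  refine ⟨4 * c0 + 2 * c1 + c2, by positivity, fun l hl q v₀ hq => ?_⟩
  have he := Real.exp_pos (-l)
  have he2 := Real.exp_pos (-2 * l)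
  have hee : Real.exp (-l) * Real.exp l = 1 := by rw [← Real.exp_add]; simp
  have hT := H0 l hl
  obtain ⟨L0, L1⟩ := H1 l hl
  obtain ⟨-, L2⟩ := H2 l hl
  have hA := norm_graphL_le hq
  refine ⟨?_, fun v => ?_, fun v v' => ?_, fun q' hq' => ⟨fun v => ?_, fun v => ?_⟩⟩
  · have h3 := hT.comp_aff (graphL q) hA v₀
    have e : (fun v => rad (WithLp 2 (F × V)) g l (graphL q (v - v₀))) = radq g l q v₀ :=
      funext fun v => (radq_eq g l q v₀ v).symm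
    rw [e] at h3
    have hle : 4 * (c0 * Real.exp (-2 * l)) ≤ (4 * c0 + 2 * c1 + c2) * Real.exp (-2 * l) := by
      nlinarith [mul_nonneg hc1 he2.le, mul_nonneg hc2 he2.le]
    exact ⟨h3.cd, by positivity, fun v => (h3.b0 v).trans hle, fun v => (h3.b1 v).trans hle,
      fun v => (h3.b2 v).trans hle⟩
  · rw [radq_eq]
    refine (L0 _).trans ?_
    nlinarith [mul_nonneg hc0 he.le, mul_nonneg hc1 he.le, mul_nonneg hc2 he.le]
  · rw [radq_eq, radq_eq]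
    refine (L1 _ _).trans ?_
    have e : graphL q (v' - v₀) - graphL q (v - v₀) = graphL q (v' - v) := by
      rw [← map_sub]; congr 1; abel
    rw [e]
    have h3 : ‖graphL q (v' - v)‖ ≤ 2 * ‖v' - v‖ :=
      ((graphL q).le_opNorm _).trans (mul_le_mul_of_nonneg_right hA (norm_nonneg _))
    have h4 : 0 ≤ Real.exp (-l) * ‖v' - v‖ := by positivity
    calc c1 * Real.exp (-l) * ‖graphL q (v' - v)‖ ≤ c1 * Real.exp (-l) * (2 * ‖v' - v‖) :=
          mul_le_mul_of_nonneg_left h3 (by positivity)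
      _ ≤ _ := by nlinarith [mul_nonneg hc0 h4, mul_nonneg hc1 h4, mul_nonneg hc2 h4]
  · by_cases hv : Real.exp l ≤ ‖v - v₀‖
    · rw [radq_zero h hv, radq_zero h hv, sub_zero, abs_zero]; positivity
    · rw [not_le] at hv
      rw [radq_eq, radq_eq]
      refine (L2 _ _).trans ?_
      rw [norm_graphL_sub]
      have h3 : ‖(q' - q) (v - v₀)‖ ≤ ‖q' - q‖ * Real.exp l :=
        ((q' - q).le_opNorm _).trans (mul_le_mul_of_nonneg_left hv.le (norm_nonneg _))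
      calc c2 * Real.exp (-l) * ‖(q' - q) (v - v₀)‖ ≤
            c2 * Real.exp (-l) * (‖q' - q‖ * Real.exp l) :=
            mul_le_mul_of_nonneg_left h3 (by positivity)
        _ = c2 * ‖q' - q‖ * (Real.exp (-l) * Real.exp l) := by ring
        _ = c2 * ‖q' - q‖ := by rw [hee, mul_one]
        _ ≤ _ := by nlinarith [norm_nonneg (q' - q), mul_nonneg hc0 (norm_nonneg (q' - q)),
            mul_nonneg hc1 (norm_nonneg (q' - q))]
  · by_cases hv : Real.exp l ≤ ‖v - v₀‖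
    · rw [radq_zero h1 hv, radq_zero h1 hv, sub_zero, abs_zero]; positivity
    · rw [not_le] at hv
      rw [radq_eq, radq_eq]
      refine (L1 _ _).trans ?_
      rw [norm_graphL_sub]
      have h3 : ‖(q' - q) (v - v₀)‖ ≤ ‖q' - q‖ * Real.exp l :=
        ((q' - q).le_opNorm _).trans (mul_le_mul_of_nonneg_left hv.le (norm_nonneg _))
      calc c1 * Real.exp (-l) * ‖(q' - q) (v - v₀)‖ ≤
            c1 * Real.exp (-l) * (‖q' - q‖ * Real.exp l) :=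
            mul_le_mul_of_nonneg_left h3 (by positivity)
        _ = c1 * ‖q' - q‖ * (Real.exp (-l) * Real.exp l) := by ring
        _ = c1 * ‖q' - q‖ := by rw [hee, mul_one]
        _ ≤ _ := by nlinarith [norm_nonneg (q' - q), mul_nonneg hc0 (norm_nonneg (q' - q)),
            mul_nonneg hc1 (norm_nonneg (q' - q)), mul_nonneg hc2 (norm_nonneg (q' - q))]

/-! ### the radial coefficient -/

open Classical in
/-- `μ` in foot coordinates: `q0` slope at the centre, `q` slope at the point, `ξ` = point - centre. -/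
def mq (q0 q : F →L[ℝ] V) (ξ : F) : ℝ :=
  if ξ = 0 then 1 else ⟪gop q0 ξ, ginv q (gop q0 ξ)⟫_ℝ / ⟪ξ, gop q0 ξ⟫_ℝ

theorem mq_sub {q0 q : F →L[ℝ] V} {ξ : F} (hξ : ξ ≠ 0) :
    mq q0 q ξ - 1 = ⟪gop q0 ξ, (ginv q - ginv q0) (gop q0 ξ)⟫_ℝ / ⟪ξ, gop q0 ξ⟫_ℝ := by
  have h1 : 0 < ⟪ξ, gop q0 ξ⟫_ℝ :=
    lt_of_lt_of_le (by have := norm_pos_iff.2 hξ; positivity) (le_gop_inner q0 ξ)
  have h2 : ginv q0 (gop q0 ξ) = ξ := congrArg (fun T : F →L[ℝ] F => T ξ) (ginv_gop q0)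
  rw [mq, if_neg hξ, sub_apply, h2, inner_sub_right, real_inner_comm ξ (gop q0 ξ)]
  field_simp

theorem mq_zero (q0 q : F →L[ℝ] V) : mq q0 q 0 = 1 := by rw [mq, if_pos rfl]

theorem abs_num_le {q0 q : F →L[ℝ] V} (h0 : ‖q0‖ ≤ 1 / 4) (h : ‖q‖ ≤ 1 / 4) (ξ : F) :
    |⟪gop q0 ξ, (ginv q - ginv q0) (gop q0 ξ)⟫_ℝ| ≤ 4 * ‖q - q0‖ * ‖ξ‖ ^ 2 := by
  have h1 : ‖gop q0 ξ‖ ≤ 2 * ‖ξ‖ :=
    ((gop q0).le_opNorm ξ).trans (mul_le_mul_of_nonneg_right (norm_gop_le h0) (norm_nonneg _))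
  refine (abs_real_inner_le_norm _ _).trans ?_
  have h2 : ‖(ginv q - ginv q0) (gop q0 ξ)‖ ≤ ‖q - q0‖ * (2 * ‖ξ‖) :=
    ((ginv q - ginv q0).le_opNorm _).trans (mul_le_mul (norm_ginv_sub h0 h) h1 (norm_nonneg _)
      (norm_nonneg _))
  calc ‖gop q0 ξ‖ * ‖(ginv q - ginv q0) (gop q0 ξ)‖ ≤ (2 * ‖ξ‖) * (‖q - q0‖ * (2 * ‖ξ‖)) :=
        mul_le_mul h1 h2 (norm_nonneg _) (by positivity)
    _ = _ := by ring

theorem abs_mq_sub_one {q0 q : F →L[ℝ] V} (h0 : ‖q0‖ ≤ 1 / 4) (h : ‖q‖ ≤ 1 / 4) (ξ : F) :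
    |mq q0 q ξ - 1| ≤ 4 * ‖q - q0‖ := by
  by_cases hξ : ξ = 0
  · rw [hξ, mq_zero, sub_self, abs_zero]; positivity
  · rw [mq_sub hξ, abs_div]
    have h1 := le_gop_inner q0 ξ
    have h2 : 0 < ‖ξ‖ ^ 2 := by have := norm_pos_iff.2 hξ; positivity
    rw [abs_of_pos (h2.trans_le h1), div_le_iff₀ (h2.trans_le h1)]
    exact (abs_num_le h0 h ξ).trans (mul_le_mul_of_nonneg_left h1 (by positivity))

theorem abs_mq_le {q0 q : F →L[ℝ] V} (h0 : ‖q0‖ ≤ 1 / 4) (h : ‖q‖ ≤ 1 / 4) (ξ : F) :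
    |mq q0 q ξ| ≤ 3 := by
  have h1 := abs_mq_sub_one h0 h ξ
  have h2 : ‖q - q0‖ ≤ 1 / 2 := (norm_sub_le _ _).trans (by linarith)
  have h3 := abs_sub_abs_le_abs_sub (mq q0 q ξ) 1
  rw [abs_one] at h3
  linarith

theorem quot_diff {N N' d d' : ℝ} (hd : 0 < d) (hd' : 0 < d') :
    |N' / d' - N / d| ≤ |N' - N| / d' + |N| * |d' - d| / (d * d') := by
  have h1 : N' / d' - N / d = (N' - N) / d' + N * (d - d') / (d * d') := by
    field_simp; ring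
  rw [h1]
  refine (abs_add_le _ _).trans (le_of_eq ?_)
  rw [abs_div, abs_div, abs_mul, abs_of_pos hd', abs_of_pos (mul_pos hd hd'), abs_sub_comm d d']

/-- change of the two slopes. -/
theorem mq_slope {q0 q q0' q' : F →L[ℝ] V} (h0 : ‖q0‖ ≤ 1 / 4) (h : ‖q‖ ≤ 1 / 4)
    (h0' : ‖q0'‖ ≤ 1 / 4) (h' : ‖q'‖ ≤ 1 / 4) {τ : ℝ} (hτ0 : ‖q0' - q0‖ ≤ τ) (hτ : ‖q' - q‖ ≤ τ)
    (ξ : F) : |mq q0' q' ξ - mq q0 q ξ| ≤ 14 * τ := by
  have ht : 0 ≤ τ := (norm_nonneg _).trans hτ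
  by_cases hξ : ξ = 0
  · rw [hξ, mq_zero, mq_zero, sub_self, abs_zero]; positivity
  have e : mq q0' q' ξ - mq q0 q ξ = (mq q0' q' ξ - 1) - (mq q0 q ξ - 1) := by ring
  rw [e, mq_sub hξ, mq_sub hξ]
  have hn : 0 < ‖ξ‖ := norm_pos_iff.2 hξ
  have d1 := le_gop_inner q0 ξ
  have d1' := le_gop_inner q0' ξ
  have h2 : 0 < ‖ξ‖ ^ 2 := by positivity
  refine (quot_diff (h2.trans_le d1) (h2.trans_le d1')).trans ?_
  have g1 : ‖gop q0 ξ‖ ≤ 2 * ‖ξ‖ :=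
    ((gop q0).le_opNorm ξ).trans (mul_le_mul_of_nonneg_right (norm_gop_le h0) (norm_nonneg _))
  have g1' : ‖gop q0' ξ‖ ≤ 2 * ‖ξ‖ :=
    ((gop q0').le_opNorm ξ).trans (mul_le_mul_of_nonneg_right (norm_gop_le h0') (norm_nonneg _))
  have g2 : ‖gop q0' ξ - gop q0 ξ‖ ≤ τ * ‖ξ‖ :=
    ((gop q0' - gop q0).le_opNorm ξ).trans (mul_le_mul_of_nonneg_right
      ((norm_gop_sub h0 h0').trans hτ0) (norm_nonneg _))
  set H := ginv q - ginv q0 with hH
  set H' := ginv q' - ginv q0' with hH'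
  have hHn : ‖H‖ ≤ 1 / 2 := (norm_ginv_sub h0 h).trans ((norm_sub_le _ _).trans (by linarith))
  have hHd : ‖H' - H‖ ≤ 2 * τ := by
    have : H' - H = (ginv q' - ginv q) - (ginv q0' - ginv q0) := by rw [hH, hH']; abel
    rw [this]
    refine (norm_sub_le _ _).trans ?_
    have a1 := (norm_ginv_sub h h').trans hτ
    have a2 := (norm_ginv_sub h0 h0').trans hτ0
    linarith
  have N1 : |⟪gop q0' ξ, H' (gop q0' ξ)⟫_ℝ - ⟪gop q0 ξ, H (gop q0 ξ)⟫_ℝ| ≤ 10 * τ * ‖ξ‖ ^ 2 := by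
    have e1 : ⟪gop q0' ξ, H' (gop q0' ξ)⟫_ℝ - ⟪gop q0 ξ, H (gop q0 ξ)⟫_ℝ =
        ⟪gop q0' ξ, (H' - H) (gop q0' ξ)⟫_ℝ + ⟪gop q0' ξ - gop q0 ξ, H (gop q0' ξ)⟫_ℝ +
        ⟪gop q0 ξ, H (gop q0' ξ - gop q0 ξ)⟫_ℝ := by
      simp only [sub_apply, map_sub, inner_sub_left, inner_sub_right]; ring
    rw [e1]
    have b1 : |⟪gop q0' ξ, (H' - H) (gop q0' ξ)⟫_ℝ| ≤ (2 * ‖ξ‖) * ((2 * τ) * (2 * ‖ξ‖)) :=
      (abs_real_inner_le_norm _ _).trans (mul_le_mul g1' (((H' - H).le_opNorm _).trans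
        (mul_le_mul hHd g1' (norm_nonneg _) (by positivity))) (norm_nonneg _) (by positivity))
    have b2 : |⟪gop q0' ξ - gop q0 ξ, H (gop q0' ξ)⟫_ℝ| ≤ (τ * ‖ξ‖) * ((1 / 2) * (2 * ‖ξ‖)) :=
      (abs_real_inner_le_norm _ _).trans (mul_le_mul g2 ((H.le_opNorm _).trans
        (mul_le_mul hHn g1' (norm_nonneg _) (by norm_num))) (norm_nonneg _) (by positivity))
    have b3 : |⟪gop q0 ξ, H (gop q0' ξ - gop q0 ξ)⟫_ℝ| ≤ (2 * ‖ξ‖) * ((1 / 2) * (τ * ‖ξ‖)) :=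
      (abs_real_inner_le_norm _ _).trans (mul_le_mul g1 ((H.le_opNorm _).trans
        (mul_le_mul hHn g2 (norm_nonneg _) (by norm_num))) (norm_nonneg _) (by positivity))
    have c1 := abs_add_le (⟪gop q0' ξ, (H' - H) (gop q0' ξ)⟫_ℝ +
      ⟪gop q0' ξ - gop q0 ξ, H (gop q0' ξ)⟫_ℝ) ⟪gop q0 ξ, H (gop q0' ξ - gop q0 ξ)⟫_ℝ
    have c2 := abs_add_le ⟪gop q0' ξ, (H' - H) (gop q0' ξ)⟫_ℝ
      ⟪gop q0' ξ - gop q0 ξ, H (gop q0' ξ)⟫_ℝ
    nlinarith
  have N2 : |⟪gop q0 ξ, H (gop q0 ξ)⟫_ℝ| ≤ 2 * ‖ξ‖ ^ 2 := by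
    refine (abs_num_le h0 h ξ).trans ?_
    have : ‖q - q0‖ ≤ 1 / 2 := (norm_sub_le _ _).trans (by linarith)
    nlinarith
  have N3 : |⟪ξ, gop q0' ξ⟫_ℝ - ⟪ξ, gop q0 ξ⟫_ℝ| ≤ τ * ‖ξ‖ ^ 2 := by
    rw [← inner_sub_right]
    refine (abs_real_inner_le_norm _ _).trans ?_
    calc ‖ξ‖ * ‖gop q0' ξ - gop q0 ξ‖ ≤ ‖ξ‖ * (τ * ‖ξ‖) :=
          mul_le_mul_of_nonneg_left g2 (norm_nonneg _)
      _ = _ := by ring
  have r1 : |⟪gop q0' ξ, H' (gop q0' ξ)⟫_ℝ - ⟪gop q0 ξ, H (gop q0 ξ)⟫_ℝ| / ⟪ξ, gop q0' ξ⟫_ℝ ≤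
      10 * τ := by
    rw [div_le_iff₀ (h2.trans_le d1')]
    exact N1.trans (mul_le_mul_of_nonneg_left d1' (by positivity))
  have r2 : |⟪gop q0 ξ, H (gop q0 ξ)⟫_ℝ| * |⟪ξ, gop q0' ξ⟫_ℝ - ⟪ξ, gop q0 ξ⟫_ℝ| /
      (⟪ξ, gop q0 ξ⟫_ℝ * ⟪ξ, gop q0' ξ⟫_ℝ) ≤ 2 * τ := by
    rw [div_le_iff₀ (mul_pos (h2.trans_le d1) (h2.trans_le d1'))]
    calc |⟪gop q0 ξ, H (gop q0 ξ)⟫_ℝ| * |⟪ξ, gop q0' ξ⟫_ℝ - ⟪ξ, gop q0 ξ⟫_ℝ| ≤
          (2 * ‖ξ‖ ^ 2) * (τ * ‖ξ‖ ^ 2) := mul_le_mul N2 N3 (abs_nonneg _) (by positivity)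
      _ = 2 * τ * (‖ξ‖ ^ 2 * ‖ξ‖ ^ 2) := by ring
      _ ≤ 2 * τ * (⟪ξ, gop q0 ξ⟫_ℝ * ⟪ξ, gop q0' ξ⟫_ℝ) :=
          mul_le_mul_of_nonneg_left (mul_le_mul d1 d1' h2.le (h2.le.trans d1)) (by positivity)
  linarith

/-- Lipschitz property along the graph. -/
theorem mq_lip {q0 q q' : F →L[ℝ] V} (h0 : ‖q0‖ ≤ 1 / 4) (h : ‖q‖ ≤ 1 / 4) (h' : ‖q'‖ ≤ 1 / 4)
    {ξ ξ' : F} (hq : ‖q - q0‖ ≤ ‖ξ‖) (hq' : ‖q' - q0‖ ≤ ‖ξ'‖) (hqq : ‖q' - q‖ ≤ ‖ξ' - ξ‖) :
    |mq q0 q' ξ' - mq q0 q ξ| ≤ 50 * ‖ξ' - ξ‖ := by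
  -- the ordered case
  have main : ∀ {q q' : F →L[ℝ] V} {ξ ξ' : F}, ‖q‖ ≤ 1 / 4 → ‖q'‖ ≤ 1 / 4 → ‖q - q0‖ ≤ ‖ξ‖ →
      ‖q' - q0‖ ≤ ‖ξ'‖ → ‖q' - q‖ ≤ ‖ξ' - ξ‖ → ‖ξ‖ ≤ ‖ξ'‖ →
      |mq q0 q' ξ' - mq q0 q ξ| ≤ 50 * ‖ξ' - ξ‖ := by
    intro q q' ξ ξ' h h' hq hq' hqq hle
    by_cases hξ : ξ = 0
    · subst hξ
      rw [mq_zero]
      refine (abs_mq_sub_one h0 h' ξ').trans ?_
      rw [sub_zero]
      have := norm_nonneg ξ'
      linarith
    have hn : 0 < ‖ξ‖ := norm_pos_iff.2 hξ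
    have hn' : 0 < ‖ξ'‖ := hn.trans_le hle
    have hξ' : ξ' ≠ 0 := norm_pos_iff.1 hn'
    have e : mq q0 q' ξ' - mq q0 q ξ = (mq q0 q' ξ' - 1) - (mq q0 q ξ - 1) := by ring
    rw [e, mq_sub hξ, mq_sub hξ']
    have d1 := le_gop_inner q0 ξ
    have d1' := le_gop_inner q0 ξ'
    have h2 : 0 < ‖ξ‖ ^ 2 := by positivity
    have h2' : 0 < ‖ξ'‖ ^ 2 := by positivity
    refine (quot_diff (h2.trans_le d1) (h2'.trans_le d1')).trans ?_
    set d := ‖ξ' - ξ‖ with hd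
    have hd0 : 0 ≤ d := norm_nonneg _
    have gl : ∀ v : F, ‖gop q0 v‖ ≤ 2 * ‖v‖ := fun v =>
      ((gop q0).le_opNorm v).trans (mul_le_mul_of_nonneg_right (norm_gop_le h0) (norm_nonneg _))
    have g2 : ‖gop q0 ξ' - gop q0 ξ‖ ≤ 2 * d := by rw [← map_sub]; exact gl _
    have g1 : ‖gop q0 ξ‖ ≤ 2 * ‖ξ'‖ := (gl ξ).trans (by linarith)
    have g1' := gl ξ'
    set H := ginv q - ginv q0 with hH
    set H' := ginv q' - ginv q0 with hH'
    have hHn : ‖H‖ ≤ ‖ξ'‖ := ((norm_ginv_sub h0 h).trans hq).trans hle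
    have hHd : ‖H' - H‖ ≤ d := by
      have : H' - H = ginv q' - ginv q := by rw [hH, hH']; abel
      rw [this]
      exact (norm_ginv_sub h h').trans hqq
    have N1 : |⟪gop q0 ξ', H' (gop q0 ξ')⟫_ℝ - ⟪gop q0 ξ, H (gop q0 ξ)⟫_ℝ| ≤
        (4 * d + 8 * d * ‖ξ'‖ * ‖ξ'‖⁻¹) * ‖ξ'‖ ^ 2 := by
      have e1 : ⟪gop q0 ξ', H' (gop q0 ξ')⟫_ℝ - ⟪gop q0 ξ, H (gop q0 ξ)⟫_ℝ =
          ⟪gop q0 ξ', (H' - H) (gop q0 ξ')⟫_ℝ + ⟪gop q0 ξ' - gop q0 ξ, H (gop q0 ξ')⟫_ℝ +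
          ⟪gop q0 ξ, H (gop q0 ξ' - gop q0 ξ)⟫_ℝ := by
        simp only [sub_apply, map_sub, inner_sub_left, inner_sub_right]; ring
      rw [e1]
      have b1 : |⟪gop q0 ξ', (H' - H) (gop q0 ξ')⟫_ℝ| ≤ (2 * ‖ξ'‖) * (d * (2 * ‖ξ'‖)) :=
        (abs_real_inner_le_norm _ _).trans (mul_le_mul g1' (((H' - H).le_opNorm _).trans
          (mul_le_mul hHd g1' (norm_nonneg _) (by positivity))) (norm_nonneg _) (by positivity))
      have b2 : |⟪gop q0 ξ' - gop q0 ξ, H (gop q0 ξ')⟫_ℝ| ≤ (2 * d) * (‖ξ'‖ * (2 * ‖ξ'‖)) :=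
        (abs_real_inner_le_norm _ _).trans (mul_le_mul g2 ((H.le_opNorm _).trans
          (mul_le_mul hHn g1' (norm_nonneg _) (by positivity))) (norm_nonneg _) (by positivity))
      have b3 : |⟪gop q0 ξ, H (gop q0 ξ' - gop q0 ξ)⟫_ℝ| ≤ (2 * ‖ξ'‖) * (‖ξ'‖ * (2 * d)) :=
        (abs_real_inner_le_norm _ _).trans (mul_le_mul g1 ((H.le_opNorm _).trans
          (mul_le_mul hHn g2 (norm_nonneg _) (by positivity))) (norm_nonneg _) (by positivity))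
      have c1 := abs_add_le (⟪gop q0 ξ', (H' - H) (gop q0 ξ')⟫_ℝ +
        ⟪gop q0 ξ' - gop q0 ξ, H (gop q0 ξ')⟫_ℝ) ⟪gop q0 ξ, H (gop q0 ξ' - gop q0 ξ)⟫_ℝ
      have c2 := abs_add_le ⟪gop q0 ξ', (H' - H) (gop q0 ξ')⟫_ℝ
        ⟪gop q0 ξ' - gop q0 ξ, H (gop q0 ξ')⟫_ℝ
      have hinv : ‖ξ'‖ * ‖ξ'‖⁻¹ = 1 := mul_inv_cancel₀ hn'.ne'
      have e2 : (4 * d + 8 * d * ‖ξ'‖ * ‖ξ'‖⁻¹) * ‖ξ'‖ ^ 2 =
          4 * d * ‖ξ'‖ ^ 2 + 8 * d * ‖ξ'‖ ^ 2 * (‖ξ'‖ * ‖ξ'‖⁻¹) := by ring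
      rw [e2, hinv]
      nlinarith
    have hinv : ‖ξ'‖ * ‖ξ'‖⁻¹ = 1 := mul_inv_cancel₀ hn'.ne'
    have e3 : 4 * d + 8 * d * ‖ξ'‖ * ‖ξ'‖⁻¹ = 12 * d := by
      rw [mul_assoc (8 * d), hinv]; ring
    rw [e3] at N1
    have N2 : |⟪gop q0 ξ, H (gop q0 ξ)⟫_ℝ| ≤ 4 * ‖ξ'‖ * ‖ξ‖ ^ 2 := by
      refine (abs_num_le h0 h ξ).trans ?_
      have : ‖q - q0‖ ≤ ‖ξ'‖ := hq.trans hle
      nlinarith
    have N3 : |⟪ξ', gop q0 ξ'⟫_ℝ - ⟪ξ, gop q0 ξ⟫_ℝ| ≤ 4 * d * ‖ξ'‖ := by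
      have e1 : ⟪ξ', gop q0 ξ'⟫_ℝ - ⟪ξ, gop q0 ξ⟫_ℝ = ⟪ξ' - ξ, gop q0 ξ'⟫_ℝ +
          ⟪ξ, gop q0 ξ' - gop q0 ξ⟫_ℝ := by
        simp only [inner_sub_left, inner_sub_right]; ring
      rw [e1]
      refine (abs_add_le _ _).trans ?_
      have b1 : |⟪ξ' - ξ, gop q0 ξ'⟫_ℝ| ≤ d * (2 * ‖ξ'‖) := (abs_real_inner_le_norm _ _).trans
        (mul_le_mul_of_nonneg_left g1' hd0)
      have b2 : |⟪ξ, gop q0 ξ' - gop q0 ξ⟫_ℝ| ≤ ‖ξ'‖ * (2 * d) :=
        (abs_real_inner_le_norm _ _).trans (mul_le_mul hle g2 (norm_nonneg _) (norm_nonneg _))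
      linarith
    have r1 : |⟪gop q0 ξ', H' (gop q0 ξ')⟫_ℝ - ⟪gop q0 ξ, H (gop q0 ξ)⟫_ℝ| / ⟪ξ', gop q0 ξ'⟫_ℝ ≤
        12 * d := by
      rw [div_le_iff₀ (h2'.trans_le d1')]
      exact N1.trans (mul_le_mul_of_nonneg_left d1' (by positivity))
    have r2 : |⟪gop q0 ξ, H (gop q0 ξ)⟫_ℝ| * |⟪ξ', gop q0 ξ'⟫_ℝ - ⟪ξ, gop q0 ξ⟫_ℝ| /
        (⟪ξ, gop q0 ξ⟫_ℝ * ⟪ξ', gop q0 ξ'⟫_ℝ) ≤ 16 * d := by
      rw [div_le_iff₀ (mul_pos (h2.trans_le d1) (h2'.trans_le d1'))]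
      calc |⟪gop q0 ξ, H (gop q0 ξ)⟫_ℝ| * |⟪ξ', gop q0 ξ'⟫_ℝ - ⟪ξ, gop q0 ξ⟫_ℝ| ≤
            (4 * ‖ξ'‖ * ‖ξ‖ ^ 2) * (4 * d * ‖ξ'‖) := mul_le_mul N2 N3 (abs_nonneg _) (by positivity)
        _ = 16 * d * (‖ξ‖ ^ 2 * ‖ξ'‖ ^ 2) := by ring
        _ ≤ 16 * d * (⟪ξ, gop q0 ξ⟫_ℝ * ⟪ξ', gop q0 ξ'⟫_ℝ) :=
            mul_le_mul_of_nonneg_left (mul_le_mul d1 d1' h2'.le (h2.le.trans d1)) (by positivity)
    linarith
  rcases le_total ‖ξ‖ ‖ξ'‖ with hle | hle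
  · exact main h h' hq hq' hqq hle
  · have := main h' h hq' hq (by rwa [norm_sub_rev q, norm_sub_rev ξ]) hle
    rwa [abs_sub_comm, norm_sub_rev] at this

end Crest.Agent.R234.Sw_733
end
end

-- ▼ part R234/Sw10_733
section

/-! # Row 234, VF-F6 (helper733), part 10: the switch of the reference, varifold level,
in foot coordinates -/

set_option autoImplicit false
set_option linter.unusedSectionVars false

open MeasureTheory Set Metric Filter Topology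
open scoped ENNReal NNReal ContDiff InnerProductSpace
open Crest.GeometryTopology.Submanifold
open Crest.Agent.R234.Ell1_3 Crest.Agent.R234.Fm_209 Crest.Agent.R234.Cy_870 Crest.Agent.R234.Vf_884
open Crest.Agent.R234.Main_456 (Frame)

noncomputable section

namespace Crest.Agent.R234.Sw_733

variable {m n k : ℕ}

local notation "adj" => ContinuousLinearMap.adjoint

/-! ### the height integral, general kernels -/

section Height

variable {F V : Type} [NormedAddCommGroup F] [InnerProductSpace ℝ F] [FiniteDimensional ℝ F]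
  [NormedAddCommGroup V] [InnerProductSpace ℝ V] [FiniteDimensional ℝ V]
  [MeasurableSpace F] [BorelSpace F]

theorem Cl.J_pt {u u' : F → V} {D : Set F} {κ τ : ℝ} (h : Cl u u' D κ τ)
    {a : F} {b : V} {x x' : F} {y y' : V}
    (hf1 : Foot u a b x y) (hf1' : Foot u' a b x' y') (hx : x ∈ D) (hx' : x' ∈ D)
    (hy : ‖y‖ ≤ 1 / 4) {Ψ Ψ' : F → ℝ} {e : ℝ} (he : 0 ≤ e)
    (M0' : ∀ v ∈ D, |Ψ' v| ≤ e) (M1 : ∀ v ∈ D, |Ψ' v - Ψ v| ≤ e * τ)
    (M2 : ∀ v ∈ D, ∀ v' ∈ D, |Ψ v' - Ψ v| ≤ e * ‖v' - v‖) :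
    |hf (fderiv ℝ u' x') y' * Ψ' x' - hf (fderiv ℝ u x) y * Ψ x| ≤
      4 * e * (τ * ‖y‖ + τ ^ 2) := by
  obtain ⟨n1, n2, n3⟩ := h.foot_close hf1 hf1' hx hx' hy
  have h1 := h.hf_pt hf1 hf1' hx hx' hy
  have hτ0 := h.τ0
  have hy0 := norm_nonneg y
  have h2 : hf (fderiv ℝ u x) y ≤ 1 / 4 * ‖y‖ := (hf_le ((h.d1 x hx).trans h.κ1) y).trans (by
    rw [sq]; exact mul_le_mul_of_nonneg_right hy hy0)
  have h3 := hf_nonneg (fderiv ℝ u x) y
  set f := hf (fderiv ℝ u x) y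
  set f' := hf (fderiv ℝ u' x') y'
  have e1 : f' * Ψ' x' - f * Ψ x = (f' - f) * Ψ' x' + f * ((Ψ' x' - Ψ x') + (Ψ x' - Ψ x)) := by
    ring
  have p1 : |(f' - f) * Ψ' x'| ≤ (3 * (τ * ‖y‖ + τ ^ 2)) * e := by
    rw [abs_mul]
    exact mul_le_mul h1 (M0' x' hx') (abs_nonneg _) (by positivity)
  have p2 : |f * ((Ψ' x' - Ψ x') + (Ψ x' - Ψ x))| ≤ (1 / 4 * ‖y‖) * (e * τ + e * τ) := by
    rw [abs_mul, abs_of_nonneg h3]
    refine mul_le_mul h2 ?_ (abs_nonneg _) (by positivity)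
    exact (abs_add_le _ _).trans (add_le_add (M1 x' hx') ((M2 x hx x' hx').trans
      (mul_le_mul_of_nonneg_left n1 he)))
  rw [e1]
  have t1 := abs_add_le ((f' - f) * Ψ' x') (f * ((Ψ' x' - Ψ x') + (Ψ x' - Ψ x)))
  have s1 : 0 ≤ e * (τ * ‖y‖) := by positivity
  have s2 : 0 ≤ e * τ ^ 2 := by positivity
  nlinarith

theorem Cl.J_switch {Ω : Type*} [MeasurableSpace Ω] {μ : Measure Ω} [IsFiniteMeasure μ]
    {u u' : F → V} {D S : Set F} {κ τ : ℝ} (h : Cl u u' D κ τ) {a : Ω → F} {b : Ω → V}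
    {x x' : Ω → F} {y y' : Ω → V} {R : Set Ω} (hs : Sit μ u u' D S a b x x' y y' R)
    {Ψ Ψ' : F → ℝ} {e : ℝ} (he : 0 ≤ e) (hψ : ∀ v ∉ S, Ψ v = 0) (hψ' : ∀ v ∉ S, Ψ' v = 0)
    (M0' : ∀ v ∈ D, |Ψ' v| ≤ e) (M1 : ∀ v ∈ D, |Ψ' v - Ψ v| ≤ e * τ)
    (M2 : ∀ v ∈ D, ∀ v' ∈ D, |Ψ v' - Ψ v| ≤ e * ‖v' - v‖)
    {f f' : Ω → ℝ}
    (hf1 : ∀ᵐ p ∂μ, p ∈ R → f p = hf (fderiv ℝ u (x p)) (y p))
    (hf1' : ∀ᵐ p ∂μ, p ∈ R → f' p = hf (fderiv ℝ u' (x' p)) (y' p))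
    (hi : Integrable (fun p => f p * Ψ (x p)) μ)
    (hi' : Integrable (fun p => f' p * Ψ' (x' p)) μ)
    (hyi : IntegrableOn (fun p => ‖y p‖) R μ) :
    |∫ p, f' p * Ψ' (x' p) ∂μ - ∫ p, f p * Ψ (x p) ∂μ| ≤
      4 * e * (τ * ∫ p in R, ‖y p‖ ∂μ + τ ^ 2 * μ.real R) := by
  rw [← integral_sub hi' hi]
  have e2 : ∫ p, (f' p * Ψ' (x' p) - f p * Ψ (x p)) ∂μ =
      ∫ p in R, (f' p * Ψ' (x' p) - f p * Ψ (x p)) ∂μ := by
    rw [← integral_indicator hs.mR]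
    refine integral_congr_ae ?_
    filter_upwards [hs.out] with p hp
    by_cases hR : p ∈ R
    · rw [indicator_of_mem hR]
    · rw [indicator_of_notMem hR]
      obtain ⟨h1, h2, h3⟩ := hp hR
      rw [hψ _ h1, hψ' _ h2]
      simp
  have e3 : 4 * e * (τ * ∫ p in R, ‖y p‖ ∂μ + τ ^ 2 * μ.real R) =
      ∫ p in R, 4 * e * (τ * ‖y p‖ + τ ^ 2) ∂μ := by
    rw [integral_const_mul, integral_add (hyi.const_mul τ) (integrable_const _),
      integral_const_mul, setIntegral_const, smul_eq_mul, mul_comm (μ.real R)]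
  rw [e2, e3, ← Real.norm_eq_abs]
  refine norm_integral_le_of_norm_le ?_ ?_
  · exact ((hyi.const_mul τ).add (integrable_const _)).const_mul _
  · rw [ae_restrict_iff' hs.mR]
    filter_upwards [hs.inn, hf1, hf1'] with p hp g1 g1' hR
    obtain ⟨h1, h2, h3, h4, h5, h6⟩ := hp hR
    rw [Real.norm_eq_abs, g1 hR, g1' hR]
    exact h.J_pt h1 h2 h4 h5 h6 he M0' M1 M2

/-- Cauchy-Schwarz for a set integral. -/
theorem setIntegral_le_sqrt {Ω : Type*} [MeasurableSpace Ω] {μ : Measure Ω} [IsFiniteMeasure μ]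
    {R : Set Ω} {f : Ω → ℝ} (hf : IntegrableOn f R μ) (hf2 : IntegrableOn (fun p => f p ^ 2) R μ)
    {T Λ : ℝ} (hT : ∫ p in R, f p ^ 2 ∂μ ≤ T) (hR : μ.real R ≤ Λ) (hΛ : 1 ≤ Λ) :
    ∫ p in R, f p ∂μ ≤ Λ * Real.sqrt T := by
  have hΛ0 : 0 < Λ := by linarith
  have h0 : 0 ≤ ∫ p in R, f p ^ 2 ∂μ := integral_nonneg fun p => sq_nonneg _
  have hT0 : 0 ≤ T := h0.trans hT
  set s := Real.sqrt T with hs
  have hs0 : 0 ≤ s := Real.sqrt_nonneg _
  have hss : s * s = T := Real.mul_self_sqrt hT0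
  rcases eq_or_lt_of_le hs0 with hs1 | hs1
  · -- `T = 0`
    have hT00 : T = 0 := by rw [← hss, ← hs1]; ring
    have h1 : ∫ p in R, f p ^ 2 ∂μ = 0 := le_antisymm (by linarith) h0
    have h2 := (integral_eq_zero_iff_of_nonneg (fun p => sq_nonneg (f p)) hf2).1 h1
    have h3 : ∫ p in R, f p ∂μ = 0 := by
      rw [← integral_zero Ω ℝ (μ := μ.restrict R)]
      refine integral_congr_ae ?_
      filter_upwards [h2] with p hp
      have : f p ^ 2 = 0 := hp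
      exact pow_eq_zero_iff (two_ne_zero) |>.1 this
    rw [h3]; positivity
  · -- `2 f ≤ f² / s + s`
    have h1 : ∫ p in R, f p ∂μ ≤ ∫ p in R, ((2 * s)⁻¹ * f p ^ 2 + s / 2) ∂μ := by
      refine integral_mono hf ((hf2.const_mul _).add (integrable_const _)) fun p => ?_
      have : 0 ≤ (f p - s) ^ 2 := sq_nonneg _
      have h2 : f p * (2 * s) ≤ f p ^ 2 + s ^ 2 := by nlinarith
      have h3 : (2 * s)⁻¹ * f p ^ 2 + s / 2 = (f p ^ 2 + s ^ 2) / (2 * s) := by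
        field_simp
      change f p ≤ (2 * s)⁻¹ * f p ^ 2 + s / 2
      rw [h3, le_div_iff₀ (by positivity)]
      exact h2
    rw [integral_add (hf2.const_mul _) (integrable_const _), integral_const_mul,
      setIntegral_const, smul_eq_mul] at h1
    have h4 : (2 * s)⁻¹ * ∫ p in R, f p ^ 2 ∂μ ≤ s / 2 := by
      calc (2 * s)⁻¹ * ∫ p in R, f p ^ 2 ∂μ ≤ (2 * s)⁻¹ * T :=
            mul_le_mul_of_nonneg_left hT (by positivity)
        _ = s / 2 := by rw [← hss]; field_simp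
    have h5 : μ.real R * (s / 2) ≤ Λ * (s / 2) := mul_le_mul_of_nonneg_right hR (by positivity)
    nlinarith

end Height

/-! ### varifold level -/



/-- the region of integration. -/
def Rg (π : Euc k →L[ℝ] Euc m) (x₀ : Euc k) (X₀ : Euc m) (t : ℝ) : Set (Euc k × L k) :=
  {p | ‖π (p.1 - x₀) - X₀‖ < t}

theorem measurableSet_Rg (π : Euc k →L[ℝ] Euc m) (x₀ : Euc k) (X₀ : Euc m) (t : ℝ) :
    MeasurableSet (Rg π x₀ X₀ t) := by
  have : IsOpen (Rg π x₀ X₀ t) := isOpen_lt (by fun_prop) continuous_const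
  exact this.measurableSet

/-- **the data of a switch at scale `e^l`**: `h` = height bound, `T` = tilt, `B` = total variation of
`X_# V - Q · area`, all relative to the old reference `u`; `τ` = distance of the references. -/
structure SD (V : Measure (Euc k × L k)) (π : Euc k →L[ℝ] Euc m) (ρ : Euc k →L[ℝ] Euc n)
    (x₀ : Euc k) (u u' : Euc m → Euc n) (X X' : Euc k → Euc m) (Y Y' : Euc k → Euc n) (X₀ : Euc m)
    (t : Euc k × L k → ℝ) (Q l κ τ ε h T B Λ : ℝ) : Prop where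
  fr : Frame π ρ
  fin : V univ ≤ ENNReal.ofReal Λ
  L1 : 1 ≤ Λ
  hQ : |Q| ≤ Λ
  pl : ∀ᵐ p ∂V, p.2 ∈ G m k
  cl : Cl u u' (ball X₀ (Real.exp l + ε)) κ τ
  eps : 0 < ε
  mX : AEMeasurable (fun p => X p.1) V
  mX' : AEMeasurable (fun p => X' p.1) V
  foot : ∀ᵐ p ∂V, Foot u (π (p.1 - x₀)) (ρ (p.1 - x₀)) (X p.1) (Y p.1)
  foot' : ∀ᵐ p ∂V, Foot u' (π (p.1 - x₀)) (ρ (p.1 - x₀)) (X' p.1) (Y' p.1)
  near : ∀ᵐ p ∂V, ‖X p.1 - π (p.1 - x₀)‖ ≤ ε / 4
  near' : ∀ᵐ p ∂V, ‖X' p.1 - π (p.1 - x₀)‖ ≤ ε / 4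
  hh : ∀ᵐ p ∂V, p ∈ Rg π x₀ X₀ (Real.exp l + ε / 2) → ‖Y p.1‖ ≤ h
  h4 : h ≤ 1 / 4
  st : ∀ Z : Euc k → Euc k, ContDiff ℝ 1 Z →
    (∀ z, Real.exp l ≤ ‖π (z - x₀) - X₀‖ → Z z = 0) → FV V Z = 0
  tl : ∀ᵐ p ∂V, p ∈ Rg π x₀ X₀ (Real.exp l + ε / 2) →
    ‖π ∘L p.2 ∘L adj ρ - KT (fderiv ℝ u (X p.1))‖ ^ 2 ≤ 2 * t p
  ti : IntegrableOn t (Rg π x₀ X₀ (Real.exp l + ε / 2)) V
  tT : ∫ p in Rg π x₀ X₀ (Real.exp l + ε / 2), t p ∂V ≤ T
  tv : ∀ (f : Euc m → ℝ) (s : ℝ), Continuous f → (∀ v, |f v| ≤ s) →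
    (∀ v, Real.exp l ≤ ‖v - X₀‖ → f v = 0) →
    |∫ p, f (X p.1) ∂V - Q * ∫ v, f v * dns (fderiv ℝ u v)| ≤ s * B

variable {V : Measure (Euc k × L k)} {π : Euc k →L[ℝ] Euc m} {ρ : Euc k →L[ℝ] Euc n}
  {x₀ : Euc k} {u u' : Euc m → Euc n} {X X' : Euc k → Euc m} {Y Y' : Euc k → Euc n} {X₀ : Euc m}
  {t : Euc k × L k → ℝ} {Q l κ τ ε h T B Λ : ℝ}

theorem norm_co_le {A : Euc k →L[ℝ] Euc m} (h : Ar_870.IsCo A) : ‖A‖ ≤ 1 := by
  refine ContinuousLinearMap.opNorm_le_bound _ zero_le_one fun v => ?_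
  have h1 : ⟪A v, A v⟫_ℝ = ⟪v, adj A (A v)⟫_ℝ := by
    rw [ContinuousLinearMap.adjoint_inner_right]
  have h2 : ‖adj A (A v)‖ = ‖A v‖ := by
    have e1 : ‖adj A (A v)‖ ^ 2 = ‖A v‖ ^ 2 := by
      rw [← real_inner_self_eq_norm_sq, ContinuousLinearMap.adjoint_inner_right,
        ← real_inner_self_eq_norm_sq]
      congr 1
      exact congrArg (fun T : Euc m →L[ℝ] Euc m => T (A v)) h
    exact (sq_eq_sq₀ (norm_nonneg _) (norm_nonneg _)).1 e1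
  have h3 := real_inner_le_norm v (adj A (A v))
  rw [← h1, real_inner_self_eq_norm_sq, h2] at h3
  rw [one_mul]
  rcases eq_or_lt_of_le (norm_nonneg (A v)) with h4 | h4
  · rw [← h4]; exact norm_nonneg _
  · nlinarith

theorem norm_G_le {P : L k} (h : P ∈ G m k) : ‖P‖ ≤ 1 := by
  refine ContinuousLinearMap.opNorm_le_bound _ zero_le_one fun v => ?_
  have h1 : ⟪P v, P v⟫_ℝ = ⟪v, P v⟫_ℝ := by
    have h2 : adj P = P := h.2.1.adjoint_eq
    calc ⟪P v, P v⟫_ℝ = ⟪v, adj P (P v)⟫_ℝ := by rw [ContinuousLinearMap.adjoint_inner_right]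
      _ = ⟪v, P v⟫_ℝ := by rw [h2, G_idem_apply h]
  have h3 := real_inner_le_norm v (P v)
  rw [← h1, real_inner_self_eq_norm_sq] at h3
  rw [one_mul]
  rcases eq_or_lt_of_le (norm_nonneg (P v)) with h4 | h4
  · rw [← h4]; exact norm_nonneg _
  · nlinarith

/-- the block `π P ρᵀ`. -/
def Kb (π : Euc k →L[ℝ] Euc m) (ρ : Euc k →L[ℝ] Euc n) (P : L k) : Euc n →L[ℝ] Euc m :=
  π ∘L P ∘L adj ρ

theorem norm_Kb_le (hf : Frame π ρ) {P : L k} (h : P ∈ G m k) : ‖Kb π ρ P‖ ≤ 1 := by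
  refine (ContinuousLinearMap.opNorm_comp_le _ _).trans ?_
  have h1 := norm_co_le hf.coπ
  have h2 : ‖P ∘L adj ρ‖ ≤ 1 := by
    refine (ContinuousLinearMap.opNorm_comp_le _ _).trans ?_
    have h3 : ‖adj ρ‖ ≤ 1 := by rw [LinearIsometryEquiv.norm_map]; exact norm_co_le hf.coρ
    exact mul_le_one₀ (norm_G_le h) (norm_nonneg _) h3
  exact mul_le_one₀ h1 (norm_nonneg _) h2

theorem continuous_Kb : Continuous (Kb π ρ) :=
  continuous_const.clm_comp (continuous_id.clm_comp continuous_const)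

/-- the first variation of the comparison field. -/
theorem tr_cmp {ξ : Euc m → Euc n} {z : Euc k} (hξ : DifferentiableAt ℝ ξ (π (z - x₀))) (P : L k) :
    tr (fderiv ℝ (fun z => adj ρ (ξ (π (z - x₀)))) z ∘L P) =
      trc (Euc n) (fderiv ℝ ξ (π (z - x₀)) ∘L Kb π ρ P) := by
  have h1 : HasFDerivAt (fun z : Euc k => π (z - x₀)) π z :=
    π.hasFDerivAt.comp z ((hasFDerivAt_id z).sub_const x₀)
  have h2 : HasFDerivAt (fun z => adj ρ (ξ (π (z - x₀))))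
      (adj ρ ∘L (fderiv ℝ ξ (π (z - x₀)) ∘L π)) z :=
    (adj ρ).hasFDerivAt.comp z (hξ.hasFDerivAt.comp z h1)
  rw [h2.fderiv]
  have e1 : (adj ρ ∘L (fderiv ℝ ξ (π (z - x₀)) ∘L π)) ∘L P =
      adj ρ ∘L ((fderiv ℝ ξ (π (z - x₀)) ∘L π) ∘L P) := rfl
  rw [e1]
  change trc (Euc k) _ = _
  rw [trc_comp_comm]
  rfl

end Crest.Agent.R234.Sw_733
end
end

-- ▼ part R234/Sw11_733
section

/-! # Row 234, VF-F6 (helper733), part 11: **the switch of the reference**, in foot coordinates -/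

set_option autoImplicit false
set_option linter.unusedSectionVars false

open MeasureTheory Set Metric Filter Topology
open scoped ENNReal NNReal ContDiff InnerProductSpace
open Crest.GeometryTopology.Submanifold
open Crest.Agent.R234.Ell1_3 Crest.Agent.R234.Fm_209 Crest.Agent.R234.Cy_870 Crest.Agent.R234.Vf_884
open Crest.Agent.R234.Main_456 (Frame)

noncomputable section

namespace Crest.Agent.R234.Sw_733

variable {m n k : ℕ}

local notation "adj" => ContinuousLinearMap.adjoint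

variable {V : Measure (Euc k × L k)} {π : Euc k →L[ℝ] Euc m} {ρ : Euc k →L[ℝ] Euc n}
  {x₀ : Euc k} {u u' : Euc m → Euc n} {X X' : Euc k → Euc m} {Y Y' : Euc k → Euc n} {X₀ : Euc m}
  {t : Euc k × L k → ℝ} {Q l κ τ ε h T B Λ : ℝ}

namespace SD

theorem isFin (H : SD V π ρ x₀ u u' X X' Y Y' X₀ t Q l κ τ ε h T B Λ) : IsFiniteMeasure V :=
  ⟨H.fin.trans_lt ENNReal.ofReal_lt_top⟩

theorem X0D (H : SD V π ρ x₀ u u' X X' Y Y' X₀ t Q l κ τ ε h T B Λ) :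
    X₀ ∈ ball X₀ (Real.exp l + ε) :=
  mem_ball_self (by have := Real.exp_pos l; have := H.eps; linarith)

theorem sit (H : SD V π ρ x₀ u u' X X' Y Y' X₀ t Q l κ τ ε h T B Λ) :
    Sit V u u' (ball X₀ (Real.exp l + ε)) (closedBall X₀ (Real.exp l))
      (fun p => π (p.1 - x₀)) (fun p => ρ (p.1 - x₀)) (fun p => X p.1) (fun p => X' p.1)
      (fun p => Y p.1) (fun p => Y' p.1) (Rg π x₀ X₀ (Real.exp l + ε / 2)) where
  mx := H.mX
  mx' := H.mX'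
  mR := measurableSet_Rg _ _ _ _
  SD := closedBall_subset_ball (by have := H.eps; linarith)
  cS := isCompact_closedBall _ _
  inn := by
    have he := H.eps
    filter_upwards [H.foot, H.foot', H.near, H.near', H.hh] with p h1 h2 h3 h4 h5 hR
    have hR' : ‖π (p.1 - x₀) - X₀‖ < Real.exp l + ε / 2 := hR
    refine ⟨h1, h2, ?_, ?_, ?_, (h5 hR).trans H.h4⟩
    · rw [mem_ball, dist_eq_norm]; linarith
    · rw [mem_ball, dist_eq_norm]
      have : X p.1 - X₀ = (X p.1 - π (p.1 - x₀)) + (π (p.1 - x₀) - X₀) := by abel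
      rw [this]
      refine (norm_add_le _ _).trans_lt ?_
      linarith
    · rw [mem_ball, dist_eq_norm]
      have : X' p.1 - X₀ = (X' p.1 - π (p.1 - x₀)) + (π (p.1 - x₀) - X₀) := by abel
      rw [this]
      refine (norm_add_le _ _).trans_lt ?_
      linarith
  out := by
    have he := H.eps
    filter_upwards [H.near, H.near'] with p h3 h4 hR
    have hR' : Real.exp l + ε / 2 ≤ ‖π (p.1 - x₀) - X₀‖ := not_lt.1 hR
    refine ⟨?_, ?_, ?_⟩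
    · rw [mem_closedBall, dist_eq_norm, not_le]
      have h5 : ‖π (p.1 - x₀) - X₀‖ ≤ ‖X p.1 - X₀‖ + ‖X p.1 - π (p.1 - x₀)‖ := by
        have : π (p.1 - x₀) - X₀ = (X p.1 - X₀) - (X p.1 - π (p.1 - x₀)) := by abel
        rw [this]; exact norm_sub_le _ _
      linarith
    · rw [mem_closedBall, dist_eq_norm, not_le]
      have h5 : ‖π (p.1 - x₀) - X₀‖ ≤ ‖X' p.1 - X₀‖ + ‖X' p.1 - π (p.1 - x₀)‖ := by
        have : π (p.1 - x₀) - X₀ = (X' p.1 - X₀) - (X' p.1 - π (p.1 - x₀)) := by abel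
        rw [this]; exact norm_sub_le _ _
      linarith
    · rw [mem_closedBall, dist_eq_norm, not_le]
      linarith

theorem aeY (H : SD V π ρ x₀ u u' X X' Y Y' X₀ t Q l κ τ ε h T B Λ) :
    AEMeasurable (fun p => Y p.1) V := by
  have h1 : AEMeasurable (fun p : Euc k × L k => ρ (p.1 - x₀) - u (X p.1)) V := by
    refine AEMeasurable.sub ?_ ?_
    · exact (ρ.continuous.comp (continuous_fst.sub continuous_const)).measurable.aemeasurable
    · exact H.cl.cu.continuous.measurable.comp_aemeasurable H.mX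
  refine h1.congr ?_
  filter_upwards [H.foot] with p hp
  rw [hp.2]; abel

theorem aeY' (H : SD V π ρ x₀ u u' X X' Y Y' X₀ t Q l κ τ ε h T B Λ) :
    AEMeasurable (fun p => Y' p.1) V := by
  have h1 : AEMeasurable (fun p : Euc k × L k => ρ (p.1 - x₀) - u' (X' p.1)) V := by
    refine AEMeasurable.sub ?_ ?_
    · exact (ρ.continuous.comp (continuous_fst.sub continuous_const)).measurable.aemeasurable
    · exact H.cl.cu'.continuous.measurable.comp_aemeasurable H.mX'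
  refine h1.congr ?_
  filter_upwards [H.foot'] with p hp
  rw [hp.2]; abel

theorem h0 (H : SD V π ρ x₀ u u' X X' Y Y' X₀ t Q l κ τ ε h T B Λ)
    (hR : V (Rg π x₀ X₀ (Real.exp l + ε / 2)) ≠ 0) : 0 ≤ h := by
  have := H.isFin
  by_contra hc
  apply hR
  have h1 : ∀ᵐ p ∂V, p ∉ Rg π x₀ X₀ (Real.exp l + ε / 2) := by
    filter_upwards [H.hh] with p hp hp2
    exact hc ((norm_nonneg _).trans (hp hp2))
  exact measure_eq_zero_iff_ae_notMem.2 h1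

theorem real_le (H : SD V π ρ x₀ u u' X X' Y Y' X₀ t Q l κ τ ε h T B Λ) (R : Set (Euc k × L k)) :
    V.real R ≤ Λ := by
  have := H.isFin
  have h1 : V R ≤ ENNReal.ofReal Λ := (measure_mono (subset_univ _)).trans H.fin
  exact ENNReal.toReal_le_of_le_ofReal (by have := H.L1; linarith) h1

theorem yi (H : SD V π ρ x₀ u u' X X' Y Y' X₀ t Q l κ τ ε h T B Λ) :
    IntegrableOn (fun p => ‖Y p.1‖) (Rg π x₀ X₀ (Real.exp l + ε / 2)) V := by
  have := H.isFin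
  refine Integrable.mono' (integrable_const |h|) H.aeY.norm.aestronglyMeasurable.restrict ?_
  rw [ae_restrict_iff' (measurableSet_Rg _ _ _ _)]
  filter_upwards [H.hh] with p hp hR
  rw [norm_norm]
  exact (hp hR).trans (le_abs_self h)

theorem int_y (H : SD V π ρ x₀ u u' X X' Y Y' X₀ t Q l κ τ ε h T B Λ) (hh0 : 0 ≤ h) :
    ∫ p in Rg π x₀ X₀ (Real.exp l + ε / 2), ‖Y p.1‖ ∂V ≤ Λ * h := by
  have := H.isFin
  calc ∫ p in Rg π x₀ X₀ (Real.exp l + ε / 2), ‖Y p.1‖ ∂V ≤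
      ∫ p in Rg π x₀ X₀ (Real.exp l + ε / 2), h ∂V := by
        refine integral_mono_ae H.yi (integrable_const _) ?_
        rw [EventuallyLE, ae_restrict_iff' (measurableSet_Rg _ _ _ _)]
        exact H.hh
    _ = V.real (Rg π x₀ X₀ (Real.exp l + ε / 2)) * h := by rw [setIntegral_const, smul_eq_mul]
    _ ≤ _ := mul_le_mul_of_nonneg_right (H.real_le _) hh0

theorem continuous_KT : Continuous (KT : (Euc m →L[ℝ] Euc n) → (Euc n →L[ℝ] Euc m)) := by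
  have h1 : Continuous (ginv : (Euc m →L[ℝ] Euc n) → (Euc m →L[ℝ] Euc m)) :=
    ginv_contDiff.continuous
  have h2 : Continuous (fun q : Euc m →L[ℝ] Euc n => adjL q) := adjL.continuous
  exact h1.clm_comp h2

theorem ki (H : SD V π ρ x₀ u u' X X' Y Y' X₀ t Q l κ τ ε h T B Λ) :
    IntegrableOn (fun p => ‖Kb π ρ p.2 - KT (fderiv ℝ u (X p.1))‖)
      (Rg π x₀ X₀ (Real.exp l + ε / 2)) V ∧
    IntegrableOn (fun p => ‖Kb π ρ p.2 - KT (fderiv ℝ u (X p.1))‖ ^ 2)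
      (Rg π x₀ X₀ (Real.exp l + ε / 2)) V := by
  have := H.isFin
  have hm : AEStronglyMeasurable (fun p : Euc k × L k => Kb π ρ p.2 - KT (fderiv ℝ u (X p.1))) V := by
    refine AEStronglyMeasurable.sub ?_ ?_
    · exact (continuous_Kb.comp continuous_snd).aestronglyMeasurable
    · have h1 : Continuous (fun v => KT (fderiv ℝ u v)) :=
        continuous_KT.comp (H.cl.cu.fderiv_right (m := 1) (by norm_num)).continuous
      exact (h1.measurable.comp_aemeasurable H.mX).aestronglyMeasurable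
  have hb : ∀ᵐ p ∂(V.restrict (Rg π x₀ X₀ (Real.exp l + ε / 2))),
      ‖Kb π ρ p.2 - KT (fderiv ℝ u (X p.1))‖ ≤ 2 := by
    rw [ae_restrict_iff' (measurableSet_Rg _ _ _ _)]
    filter_upwards [H.sit.inn, H.pl] with p hp h2 hR
    obtain ⟨-, -, -, h4, -, -⟩ := hp hR
    refine (norm_sub_le _ _).trans ?_
    have a1 := norm_Kb_le H.fr h2
    have a2 := norm_KT_le (H.cl.d1 _ h4)
    have := H.cl.κ1
    linarith
  refine ⟨?_, ?_⟩
  · refine Integrable.mono' (integrable_const 2) hm.norm.restrict ?_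
    filter_upwards [hb] with p hp
    rwa [norm_norm]
  · refine Integrable.mono' (integrable_const 4) (hm.norm.restrict.pow 2) ?_
    filter_upwards [hb] with p hp
    rw [norm_pow, norm_norm]
    have h0 := norm_nonneg (Kb π ρ p.2 - KT (fderiv ℝ u (X p.1)))
    calc ‖Kb π ρ p.2 - KT (fderiv ℝ u (X p.1))‖ ^ 2 ≤ 2 ^ 2 := pow_le_pow_left₀ h0 hp 2
      _ = 4 := by norm_num

theorem int_k (H : SD V π ρ x₀ u u' X X' Y Y' X₀ t Q l κ τ ε h T B Λ) :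
    ∫ p in Rg π x₀ X₀ (Real.exp l + ε / 2), ‖Kb π ρ p.2 - KT (fderiv ℝ u (X p.1))‖ ∂V ≤
      Λ * (2 * Real.sqrt T) := by
  have := H.isFin
  have h1 : ∫ p in Rg π x₀ X₀ (Real.exp l + ε / 2),
      ‖Kb π ρ p.2 - KT (fderiv ℝ u (X p.1))‖ ^ 2 ∂V ≤ 2 * T := by
    calc _ ≤ ∫ p in Rg π x₀ X₀ (Real.exp l + ε / 2), 2 * t p ∂V := by
          refine integral_mono_ae H.ki.2 (H.ti.const_mul 2) ?_
          rw [EventuallyLE, ae_restrict_iff' (measurableSet_Rg _ _ _ _)]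
          exact H.tl
      _ = 2 * ∫ p in Rg π x₀ X₀ (Real.exp l + ε / 2), t p ∂V := integral_const_mul _ _
      _ ≤ _ := by linarith [H.tT]
  refine (setIntegral_le_sqrt H.ki.1 H.ki.2 h1 (H.real_le _) H.L1).trans ?_
  refine mul_le_mul_of_nonneg_left ?_ (by have := H.L1; linarith)
  rw [Real.sqrt_mul (by norm_num)]
  refine mul_le_mul_of_nonneg_right ?_ (Real.sqrt_nonneg _)
  rw [Real.sqrt_le_left (by norm_num)]
  norm_num

end SD


end Crest.Agent.R234.Sw_733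
end
end

-- ▼ part R234/Sw12_733
section

/-! # Row 234, VF-F6 (helper733), part 12: **the switch of the reference**: the height -/

set_option autoImplicit false
set_option linter.unusedSectionVars false

open MeasureTheory Set Metric Filter Topology
open scoped ENNReal NNReal ContDiff InnerProductSpace
open Crest.GeometryTopology.Submanifold
open Crest.Agent.R234.Ell1_3 Crest.Agent.R234.Fm_209 Crest.Agent.R234.Cy_870 Crest.Agent.R234.Vf_884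
open Crest.Agent.R234.Main_456 (Frame)

noncomputable section

namespace Crest.Agent.R234.Sw_733

variable {m n k : ℕ}

local notation "adj" => ContinuousLinearMap.adjoint

variable {V : Measure (Euc k × L k)} {π : Euc k →L[ℝ] Euc m} {ρ : Euc k →L[ℝ] Euc n}
  {x₀ : Euc k} {u u' : Euc m → Euc n} {X X' : Euc k → Euc m} {Y Y' : Euc k → Euc n} {X₀ : Euc m}
  {t : Euc k × L k → ℝ} {Q l κ τ ε h T B Λ : ℝ}

/-- the kernel of the height in foot coordinates. -/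
def Ps (u : Euc m → Euc n) (g1 : ℝ → ℝ) (X₀ : Euc m) (l : ℝ) (v : Euc m) : ℝ :=
  mq (fderiv ℝ u X₀) (fderiv ℝ u v) (v - X₀) * (-4 * radq g1 l (fderiv ℝ u X₀) X₀ v)


theorem Ps_zero {g1 g2 : ℝ → ℝ} (hg1 : Ker g1 g2) (u : Euc m → Euc n) {X₀ v : Euc m} {l : ℝ}
    (hv : Real.exp l ≤ ‖v - X₀‖) : Ps u g1 X₀ l v = 0 := by
  rw [Ps, radq_zero hg1 hv]; ring

/-- bounds of the kernel. -/
theorem Ps_bound {g1 : ℝ → ℝ} {c b : ℝ} (hc : 0 ≤ c) (hb1 : 1 ≤ b) {u u' : Euc m → Euc n}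
    {D : Set (Euc m)} {κ τ : ℝ} (cl : Cl u u' D κ τ) (h0 : X₀ ∈ D) {l : ℝ}
    (r0 : ∀ v, |radq g1 l (fderiv ℝ u X₀) X₀ v| ≤ c * b)
    (r0' : ∀ v, |radq g1 l (fderiv ℝ u' X₀) X₀ v| ≤ c * b)
    (r1 : ∀ v v', |radq g1 l (fderiv ℝ u X₀) X₀ v' - radq g1 l (fderiv ℝ u X₀) X₀ v| ≤
      c * b * ‖v' - v‖)
    (r2 : ∀ v, |radq g1 l (fderiv ℝ u' X₀) X₀ v - radq g1 l (fderiv ℝ u X₀) X₀ v| ≤ c * τ) :
    (∀ v ∈ D, |Ps u g1 X₀ l v| ≤ 212 * c * b) ∧ (∀ v ∈ D, |Ps u' g1 X₀ l v| ≤ 212 * c * b) ∧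
    (∀ v ∈ D, |Ps u' g1 X₀ l v - Ps u g1 X₀ l v| ≤ 212 * c * b * τ) ∧
    ∀ v ∈ D, ∀ v' ∈ D, |Ps u g1 X₀ l v' - Ps u g1 X₀ l v| ≤ 212 * c * b * ‖v' - v‖ := by
  have hκ0 := cl.κ0
  have hκ1 := cl.κ1
  have hτ0 := cl.τ0
  have hq : ∀ v ∈ D, ‖fderiv ℝ u v‖ ≤ 1 / 4 := fun v hv => (cl.d1 v hv).trans hκ1
  have hq' : ∀ v ∈ D, ‖fderiv ℝ u' v‖ ≤ 1 / 4 := fun v hv => (cl.d1' v hv).trans hκ1
  have hcb : 0 ≤ c * b := by positivity
  refine ⟨fun v hv => ?_, fun v hv => ?_, fun v hv => ?_, fun v hv v' hv' => ?_⟩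
  · rw [Ps, abs_mul, abs_mul, abs_neg, abs_of_pos (by norm_num : (0:ℝ) < 4)]
    calc |mq (fderiv ℝ u X₀) (fderiv ℝ u v) (v - X₀)| *
          (4 * |radq g1 l (fderiv ℝ u X₀) X₀ v|) ≤ 3 * (4 * (c * b)) :=
          mul_le_mul (abs_mq_le (hq _ h0) (hq v hv) _) (mul_le_mul_of_nonneg_left (r0 v)
            (by norm_num)) (by positivity) (by norm_num)
      _ ≤ _ := by nlinarith
  · rw [Ps, abs_mul, abs_mul, abs_neg, abs_of_pos (by norm_num : (0:ℝ) < 4)]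
    calc |mq (fderiv ℝ u' X₀) (fderiv ℝ u' v) (v - X₀)| *
          (4 * |radq g1 l (fderiv ℝ u' X₀) X₀ v|) ≤ 3 * (4 * (c * b)) :=
          mul_le_mul (abs_mq_le (hq' _ h0) (hq' v hv) _) (mul_le_mul_of_nonneg_left (r0' v)
            (by norm_num)) (by positivity) (by norm_num)
      _ ≤ _ := by nlinarith
  · have e : Ps u' g1 X₀ l v - Ps u g1 X₀ l v =
        (mq (fderiv ℝ u' X₀) (fderiv ℝ u' v) (v - X₀) - mq (fderiv ℝ u X₀) (fderiv ℝ u v) (v - X₀)) *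
          (-4 * radq g1 l (fderiv ℝ u' X₀) X₀ v) + mq (fderiv ℝ u X₀) (fderiv ℝ u v) (v - X₀) *
          (-4 * (radq g1 l (fderiv ℝ u' X₀) X₀ v - radq g1 l (fderiv ℝ u X₀) X₀ v)) := by
      unfold Ps; ring
    rw [e]
    refine (abs_add_le _ _).trans ?_
    rw [abs_mul, abs_mul, abs_mul, abs_mul, abs_neg, abs_of_pos (by norm_num : (0:ℝ) < 4)]
    have p1 : |mq (fderiv ℝ u' X₀) (fderiv ℝ u' v) (v - X₀) -
        mq (fderiv ℝ u X₀) (fderiv ℝ u v) (v - X₀)| *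
        (4 * |radq g1 l (fderiv ℝ u' X₀) X₀ v|) ≤ (14 * τ) * (4 * (c * b)) :=
      mul_le_mul (mq_slope (hq _ h0) (hq v hv) (hq' _ h0) (hq' v hv) (cl.w1 _ h0) (cl.w1 v hv) _)
        (mul_le_mul_of_nonneg_left (r0' v) (by norm_num)) (by positivity) (by positivity)
    have p2 : |mq (fderiv ℝ u X₀) (fderiv ℝ u v) (v - X₀)| *
        (4 * |radq g1 l (fderiv ℝ u' X₀) X₀ v - radq g1 l (fderiv ℝ u X₀) X₀ v|) ≤
        3 * (4 * (c * τ)) :=
      mul_le_mul (abs_mq_le (hq _ h0) (hq v hv) _) (mul_le_mul_of_nonneg_left (r2 v)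
        (by norm_num)) (by positivity) (by norm_num)
    have p3 : c * τ ≤ c * b * τ := by
      have : 0 ≤ c * τ := by positivity
      nlinarith
    have p4 : 0 ≤ c * b * τ := by positivity
    nlinarith
  · have e : Ps u g1 X₀ l v' - Ps u g1 X₀ l v =
        (mq (fderiv ℝ u X₀) (fderiv ℝ u v') (v' - X₀) - mq (fderiv ℝ u X₀) (fderiv ℝ u v) (v - X₀)) *
          (-4 * radq g1 l (fderiv ℝ u X₀) X₀ v') + mq (fderiv ℝ u X₀) (fderiv ℝ u v) (v - X₀) *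
          (-4 * (radq g1 l (fderiv ℝ u X₀) X₀ v' - radq g1 l (fderiv ℝ u X₀) X₀ v)) := by
      unfold Ps; ring
    rw [e]
    refine (abs_add_le _ _).trans ?_
    rw [abs_mul, abs_mul, abs_mul, abs_mul, abs_neg, abs_of_pos (by norm_num : (0:ℝ) < 4)]
    have lip : ∀ v ∈ D, ∀ v' ∈ D, ‖fderiv ℝ u v' - fderiv ℝ u v‖ ≤ ‖v' - v‖ := fun v hv v' hv' =>
      (cl.du_lip hv hv').trans (mul_le_of_le_one_left (norm_nonneg _) (by linarith))
    have e3 : (v' - X₀) - (v - X₀) = v' - v := by abel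
    have p1 : |mq (fderiv ℝ u X₀) (fderiv ℝ u v') (v' - X₀) -
        mq (fderiv ℝ u X₀) (fderiv ℝ u v) (v - X₀)| *
        (4 * |radq g1 l (fderiv ℝ u X₀) X₀ v'|) ≤ (50 * ‖v' - v‖) * (4 * (c * b)) := by
      refine mul_le_mul ?_ (mul_le_mul_of_nonneg_left (r0 v') (by norm_num)) (by positivity)
        (by positivity)
      have := mq_lip (hq _ h0) (hq v hv) (hq v' hv') (ξ := v - X₀) (ξ' := v' - X₀)
        (lip _ h0 v hv) (lip _ h0 v' hv') (by rw [e3]; exact lip v hv v' hv')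
      rwa [e3] at this
    have p2 : |mq (fderiv ℝ u X₀) (fderiv ℝ u v) (v - X₀)| *
        (4 * |radq g1 l (fderiv ℝ u X₀) X₀ v' - radq g1 l (fderiv ℝ u X₀) X₀ v|) ≤
        3 * (4 * (c * b * ‖v' - v‖)) :=
      mul_le_mul (abs_mq_le (hq _ h0) (hq v hv) _) (mul_le_mul_of_nonneg_left (r1 v v')
        (by norm_num)) (by positivity) (by norm_num)
    nlinarith

/-- continuity of the kernel. -/
theorem Ps_continuous {g1 g2 : ℝ → ℝ} (hg1 : Ker g1 g2) {u : Euc m → Euc n} {l ε e : ℝ}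
    (hε : 0 < ε) (hl : ∀ v ∈ ball X₀ (Real.exp l + ε), ∀ v' ∈ ball X₀ (Real.exp l + ε),
      |Ps u g1 X₀ l v' - Ps u g1 X₀ l v| ≤ e * ‖v' - v‖) : Continuous (Ps u g1 X₀ l) := by
  rw [continuous_iff_continuousAt]
  intro v
  by_cases hv : v ∈ ball X₀ (Real.exp l + ε)
  · rw [ContinuousAt, tendsto_iff_norm_sub_tendsto_zero]
    have hlim : Tendsto (fun v' : Euc m => e * ‖v' - v‖) (𝓝 v) (𝓝 0) := by
      have : Continuous fun v' : Euc m => e * ‖v' - v‖ := by fun_prop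
      simpa using this.tendsto v
    refine squeeze_zero' (Eventually.of_forall fun v => norm_nonneg _) ?_ hlim
    filter_upwards [isOpen_ball.mem_nhds hv] with v' hv'
    rw [Real.norm_eq_abs]
    exact hl v hv v' hv'
  · have hv2 : Real.exp l < ‖v - X₀‖ := by
      rw [mem_ball, dist_eq_norm, not_lt] at hv; linarith
    have hev : ∀ᶠ v' in 𝓝 v, Ps u g1 X₀ l v' = 0 := by
      have ho : IsOpen {v' : Euc m | Real.exp l < ‖v' - X₀‖} :=
        isOpen_lt continuous_const (by fun_prop)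
      filter_upwards [ho.mem_nhds hv2] with v' hv'
      exact Ps_zero hg1 u (le_of_lt hv')
    have h0 : Ps u g1 X₀ l v = 0 := Ps_zero hg1 u hv2.le
    rw [ContinuousAt, h0]
    exact tendsto_const_nhds.congr' (hev.mono fun v' hv' => hv'.symm)

theorem mq_smul (s : ℝ) (q0 q : Euc m →L[ℝ] Euc n) (ξ : Euc m) (hs : 0 < s) :
    mq q0 q (s • ξ) = mq q0 q ξ := by
  unfold mq
  by_cases hξ : ξ = 0
  · subst hξ; simp
  · have hs' : s • ξ ≠ 0 := smul_ne_zero hs.ne' hξ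
    rw [if_neg hs', if_neg hξ]
    simp only [map_smul, inner_smul_left, inner_smul_right, conj_trivial]
    have h1 : 0 < ⟪ξ, gop q0 ξ⟫_ℝ :=
      lt_of_lt_of_le (by have := norm_pos_iff.2 hξ; positivity) (le_gop_inner q0 ξ)
    field_simp

/-- Lipschitz property of the second kernel. -/
theorem Ps_lip' {g1 : ℝ → ℝ} {c b : ℝ} (hc : 0 ≤ c) (hb1 : 1 ≤ b) {u u' : Euc m → Euc n}
    {D : Set (Euc m)} {κ τ : ℝ} (cl : Cl u u' D κ τ) (h0 : X₀ ∈ D) {l : ℝ}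
    (r0' : ∀ v, |radq g1 l (fderiv ℝ u' X₀) X₀ v| ≤ c * b)
    (r1' : ∀ v v', |radq g1 l (fderiv ℝ u' X₀) X₀ v' - radq g1 l (fderiv ℝ u' X₀) X₀ v| ≤
      c * b * ‖v' - v‖) :
    ∀ v ∈ D, ∀ v' ∈ D, |Ps u' g1 X₀ l v' - Ps u' g1 X₀ l v| ≤
      (250 * (1 + κ + τ) * c * b) * ‖v' - v‖ := by
  have hκ0 := cl.κ0
  have hκ1 := cl.κ1
  have hτ0 := cl.τ0
  have hlip : ∀ v ∈ D, ∀ v' ∈ D,
      ‖fderiv ℝ u' v' - fderiv ℝ u' v‖ ≤ (1 + κ + τ) * ‖v' - v‖ := by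
    intro v hv v' hv'
    have a1 := cl.du_lip hv hv'
    have a2 := cl.dw_lip hv hv'
    have e : fderiv ℝ u' v' - fderiv ℝ u' v = ((fderiv ℝ u' v' - fderiv ℝ u v') -
        (fderiv ℝ u' v - fderiv ℝ u v)) + (fderiv ℝ u v' - fderiv ℝ u v) := by abel
    rw [e]
    refine (norm_add_le _ _).trans ?_
    have := norm_nonneg (v' - v)
    nlinarith
  intro v hv v' hv'
  set s : ℝ := 1 + κ + τ with hs
  have hs1' : 1 ≤ s := by linarith
  have hs0 : 0 < s := by linarith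
  have hq' : ∀ v ∈ D, ‖fderiv ℝ u' v‖ ≤ 1 / 4 := fun v hv => (cl.d1' v hv).trans hκ1
  have e3 : s • (v' - X₀) - s • (v - X₀) = s • (v' - v) := by rw [← smul_sub]; congr 1; abel
  have hn : ∀ w : Euc m, ‖s • w‖ = s * ‖w‖ := fun w => by
    rw [norm_smul, Real.norm_of_nonneg hs0.le]
  have hm1 : |mq (fderiv ℝ u' X₀) (fderiv ℝ u' v') (v' - X₀) -
      mq (fderiv ℝ u' X₀) (fderiv ℝ u' v) (v - X₀)| ≤ 50 * (s * ‖v' - v‖) := by
    have := mq_lip (hq' _ h0) (hq' v hv) (hq' v' hv') (ξ := s • (v - X₀)) (ξ' := s • (v' - X₀))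
      (by rw [hn]; exact hlip _ h0 v hv) (by rw [hn]; exact hlip _ h0 v' hv')
      (by rw [e3, hn]; exact hlip v hv v' hv')
    rwa [mq_smul s _ _ _ hs0, mq_smul s _ _ _ hs0, e3, hn] at this
  have e : Ps u' g1 X₀ l v' - Ps u' g1 X₀ l v =
      (mq (fderiv ℝ u' X₀) (fderiv ℝ u' v') (v' - X₀) -
        mq (fderiv ℝ u' X₀) (fderiv ℝ u' v) (v - X₀)) *
        (-4 * radq g1 l (fderiv ℝ u' X₀) X₀ v') + mq (fderiv ℝ u' X₀) (fderiv ℝ u' v) (v - X₀) *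
        (-4 * (radq g1 l (fderiv ℝ u' X₀) X₀ v' - radq g1 l (fderiv ℝ u' X₀) X₀ v)) := by
    unfold Ps; ring
  rw [e]
  refine (abs_add_le _ _).trans ?_
  rw [abs_mul, abs_mul, abs_mul, abs_mul, abs_neg, abs_of_pos (by norm_num : (0:ℝ) < 4)]
  have p1 : |mq (fderiv ℝ u' X₀) (fderiv ℝ u' v') (v' - X₀) -
      mq (fderiv ℝ u' X₀) (fderiv ℝ u' v) (v - X₀)| *
      (4 * |radq g1 l (fderiv ℝ u' X₀) X₀ v'|) ≤ (50 * (s * ‖v' - v‖)) * (4 * (c * b)) :=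
    mul_le_mul hm1 (mul_le_mul_of_nonneg_left (r0' v') (by norm_num))
      (by positivity) (by positivity)
  have p2 : |mq (fderiv ℝ u' X₀) (fderiv ℝ u' v) (v - X₀)| *
      (4 * |radq g1 l (fderiv ℝ u' X₀) X₀ v' - radq g1 l (fderiv ℝ u' X₀) X₀ v|) ≤
      3 * (4 * (c * b * ‖v' - v‖)) :=
    mul_le_mul (abs_mq_le (hq' _ h0) (hq' v hv) _) (mul_le_mul_of_nonneg_left
      (r1' v v') (by norm_num)) (by positivity) (by norm_num)
  have p3 : c * b * ‖v' - v‖ ≤ s * (c * b * ‖v' - v‖) :=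
    le_mul_of_one_le_left (by positivity) hs1'
  have p4 : 250 * s * c * b * ‖v' - v‖ = 250 * (s * (c * b * ‖v' - v‖)) := by ring
  rw [p4]
  have p5 : 50 * (s * ‖v' - v‖) * (4 * (c * b)) = 200 * (s * (c * b * ‖v' - v‖)) := by ring
  have p6 : 0 ≤ s * (c * b * ‖v' - v‖) := by positivity
  linarith

theorem continuous_hf {u : Euc m → Euc n} (hu : Continuous (fderiv ℝ u)) :
    Continuous (fun q : Euc m × Euc n => hf (fderiv ℝ u q.1) q.2) := by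
  unfold hf
  have h1 : Continuous (fun q : Euc m × Euc n => adjL (fderiv ℝ u q.1) q.2) :=
    (adjL.continuous.comp (hu.comp continuous_fst)).clm_apply continuous_snd
  exact ((h1.norm.pow 2).add (continuous_snd.norm.pow 2)).div_const 2

theorem aem_hf {u : Euc m → Euc n} (hu : Continuous (fderiv ℝ u)) {X : Euc k → Euc m}
    {Y : Euc k → Euc n} (hX : AEMeasurable (fun p : Euc k × L k => X p.1) V)
    (hY : AEMeasurable (fun p : Euc k × L k => Y p.1) V) :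
    AEMeasurable (fun p : Euc k × L k => hf (fderiv ℝ u (X p.1)) (Y p.1)) V := by
  have h1 : Continuous (fun q : Euc m × Euc n => hf (fderiv ℝ u q.1) q.2) := continuous_hf hu
  have h3 : AEMeasurable (fun p : Euc k × L k => (X p.1, Y p.1)) V := hX.prodMk hY
  have h4 := h1.measurable.comp_aemeasurable h3
  exact h4

/-- integrability of the two height densities. -/
theorem SD.int_J (H : SD V π ρ x₀ u u' X X' Y Y' X₀ t Q l κ τ ε h T B Λ) {Ψ Ψ' : Euc m → ℝ} {e : ℝ}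
    (he : 0 ≤ e) (hc : Continuous Ψ) (hc' : Continuous Ψ')
    (hz : ∀ v, Real.exp l ≤ ‖v - X₀‖ → Ψ v = 0) (hz' : ∀ v, Real.exp l ≤ ‖v - X₀‖ → Ψ' v = 0)
    (P0 : ∀ v ∈ ball X₀ (Real.exp l + ε), |Ψ v| ≤ e)
    (P0' : ∀ v ∈ ball X₀ (Real.exp l + ε), |Ψ' v| ≤ e) :
    Integrable (fun p : Euc k × L k => hf (fderiv ℝ u (X p.1)) (Y p.1) * Ψ (X p.1)) V ∧
    Integrable (fun p : Euc k × L k => hf (fderiv ℝ u' (X' p.1)) (Y' p.1) * Ψ' (X' p.1)) V := by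
  have := H.isFin
  have hκ1 := H.cl.κ1
  have hcu1 : Continuous (fderiv ℝ u) := (H.cl.cu.fderiv_right (m := 1) (by norm_num)).continuous
  have hcu1' : Continuous (fderiv ℝ u') :=
    (H.cl.cu'.fderiv_right (m := 1) (by norm_num)).continuous
  have mf := aem_hf hcu1 H.mX H.aeY
  have mf' := aem_hf hcu1' H.mX' H.aeY'
  refine ⟨?_, ?_⟩
  · refine Integrable.mono' (integrable_const (1 * e))
      (mf.mul (hc.measurable.comp_aemeasurable H.mX)).aestronglyMeasurable ?_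
    filter_upwards [H.sit.inn, H.sit.out] with p h1 h2
    rw [norm_mul, Real.norm_of_nonneg (hf_nonneg _ _), Real.norm_eq_abs]
    by_cases hR : p ∈ Rg π x₀ X₀ (Real.exp l + ε / 2)
    · obtain ⟨-, -, -, a1, -, a2⟩ := h1 hR
      refine mul_le_mul ?_ (P0 _ a1) (abs_nonneg _) zero_le_one
      refine (hf_le ((H.cl.d1 _ a1).trans hκ1) _).trans ?_
      have := norm_nonneg (Y p.1)
      nlinarith
    · obtain ⟨a1, -, -⟩ := h2 hR
      rw [mem_closedBall, dist_eq_norm, not_le] at a1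
      rw [hz _ a1.le, abs_zero, mul_zero]
      positivity
  · refine Integrable.mono' (integrable_const (9 * e))
      (mf'.mul (hc'.measurable.comp_aemeasurable H.mX')).aestronglyMeasurable ?_
    filter_upwards [H.sit.inn, H.sit.out] with p h1 h2
    rw [norm_mul, Real.norm_of_nonneg (hf_nonneg _ _), Real.norm_eq_abs]
    by_cases hR : p ∈ Rg π x₀ X₀ (Real.exp l + ε / 2)
    · obtain ⟨f1, f2, -, a1, a1', a2⟩ := h1 hR
      refine mul_le_mul ?_ (P0' _ a1') (abs_nonneg _) (by norm_num)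
      refine (hf_le ((H.cl.d1' _ a1').trans hκ1) _).trans ?_
      obtain ⟨-, n2, -⟩ := H.cl.foot_close f1 f2 a1 a1' a2
      have n3 : ‖Y' p.1‖ ≤ 3 := by
        have e : Y' p.1 = (Y' p.1 - Y p.1) + Y p.1 := by abel
        rw [e]
        refine (norm_add_le _ _).trans ?_
        have := H.cl.τ1
        linarith
      have := norm_nonneg (Y' p.1)
      nlinarith
    · obtain ⟨-, a1, -⟩ := h2 hR
      rw [mem_closedBall, dist_eq_norm, not_le] at a1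
      rw [hz' _ a1.le, abs_zero, mul_zero]
      positivity

/-- comparison of the height integrals for general kernels. -/
theorem SD.J_le (H : SD V π ρ x₀ u u' X X' Y Y' X₀ t Q l κ τ ε h T B Λ) (hh0 : 0 ≤ h)
    {Ψ Ψ' : Euc m → ℝ} {e : ℝ}
    (he : 0 ≤ e) (hc : Continuous Ψ) (hc' : Continuous Ψ')
    (hz : ∀ v, Real.exp l ≤ ‖v - X₀‖ → Ψ v = 0) (hz' : ∀ v, Real.exp l ≤ ‖v - X₀‖ → Ψ' v = 0)
    (P0 : ∀ v ∈ ball X₀ (Real.exp l + ε), |Ψ v| ≤ e)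
    (P0' : ∀ v ∈ ball X₀ (Real.exp l + ε), |Ψ' v| ≤ e)
    (P1 : ∀ v ∈ ball X₀ (Real.exp l + ε), |Ψ' v - Ψ v| ≤ e * τ)
    (P2 : ∀ v ∈ ball X₀ (Real.exp l + ε), ∀ v' ∈ ball X₀ (Real.exp l + ε),
      |Ψ v' - Ψ v| ≤ e * ‖v' - v‖) :
    |∫ p, hf (fderiv ℝ u' (X' p.1)) (Y' p.1) * Ψ' (X' p.1) ∂V -
      ∫ p, hf (fderiv ℝ u (X p.1)) (Y p.1) * Ψ (X p.1) ∂V| ≤ 4 * e * Λ * (τ * (τ + h)) := by
  have := H.isFin
  have hτ0 := H.cl.τ0
  obtain ⟨hi, hi'⟩ := H.int_J he hc hc' hz hz' P0 P0'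
  have main := H.cl.J_switch H.sit (Ψ := Ψ) (Ψ' := Ψ') he
    (fun v hv => hz v (by rw [mem_closedBall, dist_eq_norm, not_le] at hv; exact hv.le))
    (fun v hv => hz' v (by rw [mem_closedBall, dist_eq_norm, not_le] at hv; exact hv.le))
    P0' P1 P2 (f := fun p => hf (fderiv ℝ u (X p.1)) (Y p.1))
    (f' := fun p => hf (fderiv ℝ u' (X' p.1)) (Y' p.1))
    (Eventually.of_forall fun _ _ => rfl) (Eventually.of_forall fun _ _ => rfl) hi hi' H.yi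
  refine main.trans ?_
  have b1 := H.real_le (Rg π x₀ X₀ (Real.exp l + ε / 2))
  have b2 := H.int_y hh0
  rw [mul_assoc (4 * e) Λ]
  refine mul_le_mul_of_nonneg_left ?_ (by positivity)
  have g1 : τ ^ 2 * V.real (Rg π x₀ X₀ (Real.exp l + ε / 2)) ≤ τ ^ 2 * Λ :=
    mul_le_mul_of_nonneg_left b1 (sq_nonneg _)
  have g2 : τ * ∫ p in Rg π x₀ X₀ (Real.exp l + ε / 2), ‖Y p.1‖ ∂V ≤ τ * (Λ * h) :=
    mul_le_mul_of_nonneg_left b2 hτ0
  nlinarith


end Crest.Agent.R234.Sw_733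
end
end

-- ▼ part R234/Sw13_733

/-! # Row 234, VF-F6 (helper733), part 13: the switch of the reference over an abstract measure
space (all points inside the ball) -/

set_option autoImplicit false
set_option linter.unusedSectionVars false
set_option linter.unusedVariables false

open MeasureTheory Set Metric Filter Topology
open scoped ENNReal NNReal ContDiff InnerProductSpace
open Crest.GeometryTopology.Submanifold
open Crest.Agent.R234.Ell1_3 Crest.Agent.R234.Fm_209 Crest.Agent.R234.Cy_870 Crest.Agent.R234.Vf_884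
open Crest.Agent.R234.Main_456 (Frame)

noncomputable section

namespace Crest.Agent.R234.Sw_733

variable {m n : ℕ}

/-- `E` in foot coordinates. -/
def Eg {Ω : Type} [MeasurableSpace Ω] (μ : Measure Ω) (X : Ω → Euc m) (u : Euc m → Euc n)
    (g : ℝ → ℝ) (X₀ : Euc m) (Q l : ℝ) : ℝ :=
  Real.exp ((2 - m) * l) * (∫ p, radq g l (fderiv ℝ u X₀) X₀ (X p) ∂μ -
    Q * ∫ v, radq g l (fderiv ℝ u X₀) X₀ v * dns (fderiv ℝ u v))

/-- `I` in foot coordinates. -/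
def Ig {Ω : Type} [MeasurableSpace Ω] (μ : Measure Ω) (X : Ω → Euc m) (Y : Ω → Euc n)
    (u : Euc m → Euc n) (g1 : ℝ → ℝ) (X₀ : Euc m) (l : ℝ) : ℝ :=
  Real.exp (-m * l) * ∫ p, hf (fderiv ℝ u (X p)) (Y p) * Ps u g1 X₀ l (X p) ∂μ

/-- **the data of a switch at scale `e^l`**: `h` = height bound, `T` = tilt, `B` = total variation of
`X_# μ - Q · area`, all relative to the old reference `u`; `τ` = distance of the references. -/
structure SE {Ω : Type} [MeasurableSpace Ω] (μ : Measure Ω) (α : Ω → Euc m) (β : Ω → Euc n)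
    (Kf : Ω → Euc n →L[ℝ] Euc m) (u u' : Euc m → Euc n) (X X' : Ω → Euc m)
    (Y Y' : Ω → Euc n) (X₀ : Euc m) (t : Ω → ℝ) (Q l κ τ ε h T B Λ : ℝ) : Prop where
  fin : μ univ ≤ ENNReal.ofReal Λ
  L1 : 1 ≤ Λ
  hQ : |Q| ≤ Λ
  mα : AEMeasurable α μ
  mβ : AEMeasurable β μ
  mK : AEStronglyMeasurable Kf μ
  nK : ∀ᵐ p ∂μ, ‖Kf p‖ ≤ 1
  cl : Cl u u' (ball X₀ (Real.exp l + ε)) κ τ
  eps : 0 < ε
  mX : AEMeasurable X μ
  mX' : AEMeasurable X' μ
  foot : ∀ᵐ p ∂μ, Foot u (α p) (β p) (X p) (Y p)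
  foot' : ∀ᵐ p ∂μ, Foot u' (α p) (β p) (X' p) (Y' p)
  ina : ∀ᵐ p ∂μ, α p ∈ ball X₀ (Real.exp l + ε)
  inX : ∀ᵐ p ∂μ, X p ∈ ball X₀ (Real.exp l + ε)
  inX' : ∀ᵐ p ∂μ, X' p ∈ ball X₀ (Real.exp l + ε)
  hh : ∀ᵐ p ∂μ, ‖Y p‖ ≤ h
  h4 : h ≤ 1 / 4
  st : ∀ w : Euc m → Euc n, ContDiff ℝ 2 w → (∀ v, Real.exp l ≤ ‖v - X₀‖ → w v = 0) →
    ∫ p, trc (Euc n) (fderiv ℝ w (α p) ∘L Kf p) ∂μ = 0
  tl : ∀ᵐ p ∂μ, ‖Kf p - KT (fderiv ℝ u (X p))‖ ^ 2 ≤ 2 * t p
  ti : Integrable t μ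
  tT : ∫ p, t p ∂μ ≤ T
  tv : ∀ (f : Euc m → ℝ) (s : ℝ), Continuous f → (∀ v, |f v| ≤ s) →
    (∀ v, Real.exp l ≤ ‖v - X₀‖ → f v = 0) →
    |∫ p, f (X p) ∂μ - Q * ∫ v, f v * dns (fderiv ℝ u v)| ≤ s * B

variable {Ω : Type} [MeasurableSpace Ω] {μ : Measure Ω} {α : Ω → Euc m} {β : Ω → Euc n}
  {Kf : Ω → Euc n →L[ℝ] Euc m} {u u' : Euc m → Euc n} {X X' : Ω → Euc m} {Y Y' : Ω → Euc n}
  {X₀ : Euc m} {t : Ω → ℝ} {Q l κ τ ε h T B Λ : ℝ}

namespace SE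

theorem isFin (H : SE μ α β Kf u u' X X' Y Y' X₀ t Q l κ τ ε h T B Λ) : IsFiniteMeasure μ :=
  ⟨H.fin.trans_lt ENNReal.ofReal_lt_top⟩

theorem X0D (H : SE μ α β Kf u u' X X' Y Y' X₀ t Q l κ τ ε h T B Λ) :
    X₀ ∈ ball X₀ (Real.exp l + ε) :=
  mem_ball_self (by have := Real.exp_pos l; have := H.eps; linarith)

theorem sit (H : SE μ α β Kf u u' X X' Y Y' X₀ t Q l κ τ ε h T B Λ) :
    Sit μ u u' (ball X₀ (Real.exp l + ε)) (closedBall X₀ (Real.exp l)) α β X X' Y Y' univ where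
  mx := H.mX
  mx' := H.mX'
  mR := MeasurableSet.univ
  SD := closedBall_subset_ball (by have := H.eps; linarith)
  cS := isCompact_closedBall _ _
  inn := by
    filter_upwards [H.foot, H.foot', H.ina, H.inX, H.inX', H.hh] with p h1 h2 h3 h4 h5 h6 _
    exact ⟨h1, h2, h3, h4, h5, h6.trans H.h4⟩
  out := Eventually.of_forall fun p hp => absurd (mem_univ p) hp

theorem aeY (H : SE μ α β Kf u u' X X' Y Y' X₀ t Q l κ τ ε h T B Λ) :
    AEMeasurable Y μ := by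
  have h1 : AEMeasurable (fun p : Ω => β p - u (X p)) μ := by
    refine AEMeasurable.sub ?_ ?_
    · exact H.mβ
    · exact H.cl.cu.continuous.measurable.comp_aemeasurable H.mX
  refine h1.congr ?_
  filter_upwards [H.foot] with p hp
  rw [hp.2]; abel

theorem aeY' (H : SE μ α β Kf u u' X X' Y Y' X₀ t Q l κ τ ε h T B Λ) :
    AEMeasurable Y' μ := by
  have h1 : AEMeasurable (fun p : Ω => β p - u' (X' p)) μ := by
    refine AEMeasurable.sub ?_ ?_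
    · exact H.mβ
    · exact H.cl.cu'.continuous.measurable.comp_aemeasurable H.mX'
  refine h1.congr ?_
  filter_upwards [H.foot'] with p hp
  rw [hp.2]; abel

theorem real_le (H : SE μ α β Kf u u' X X' Y Y' X₀ t Q l κ τ ε h T B Λ) (R : Set Ω) :
    μ.real R ≤ Λ := by
  have := H.isFin
  have h1 : μ R ≤ ENNReal.ofReal Λ := (measure_mono (subset_univ _)).trans H.fin
  exact ENNReal.toReal_le_of_le_ofReal (by have := H.L1; linarith) h1

theorem yi (H : SE μ α β Kf u u' X X' Y Y' X₀ t Q l κ τ ε h T B Λ) :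
    IntegrableOn (fun p => ‖Y p‖) univ μ := by
  have := H.isFin
  refine Integrable.mono' (integrable_const |h|) H.aeY.norm.aestronglyMeasurable.restrict ?_
  rw [ae_restrict_iff' (MeasurableSet.univ)]
  filter_upwards [H.hh] with p hp hR
  rw [norm_norm]
  exact hp.trans (le_abs_self h)

theorem int_y (H : SE μ α β Kf u u' X X' Y Y' X₀ t Q l κ τ ε h T B Λ) (hh0 : 0 ≤ h) :
    ∫ p in univ, ‖Y p‖ ∂μ ≤ Λ * h := by
  have := H.isFin
  calc ∫ p in univ, ‖Y p‖ ∂μ ≤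
      ∫ p in univ, h ∂μ := by
        refine integral_mono_ae H.yi (integrable_const _) ?_
        rw [EventuallyLE, ae_restrict_iff' (MeasurableSet.univ)]
        filter_upwards [H.hh] with p hp _
        exact hp
    _ = μ.real (univ) * h := by rw [setIntegral_const, smul_eq_mul]
    _ ≤ _ := mul_le_mul_of_nonneg_right (H.real_le _) hh0

theorem ki (H : SE μ α β Kf u u' X X' Y Y' X₀ t Q l κ τ ε h T B Λ) :
    IntegrableOn (fun p => ‖Kf p - KT (fderiv ℝ u (X p))‖)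
      univ μ ∧
    IntegrableOn (fun p => ‖Kf p - KT (fderiv ℝ u (X p))‖ ^ 2)
      univ μ := by
  have := H.isFin
  have hm : AEStronglyMeasurable (fun p : Ω => Kf p - KT (fderiv ℝ u (X p))) μ := by
    refine AEStronglyMeasurable.sub ?_ ?_
    · exact H.mK
    · have h1 : Continuous (fun v => KT (fderiv ℝ u v)) :=
        SD.continuous_KT.comp (H.cl.cu.fderiv_right (m := 1) (by norm_num)).continuous
      exact (h1.measurable.comp_aemeasurable H.mX).aestronglyMeasurable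
  have hb : ∀ᵐ p ∂(μ.restrict (univ)),
      ‖Kf p - KT (fderiv ℝ u (X p))‖ ≤ 2 := by
    rw [ae_restrict_iff' (MeasurableSet.univ)]
    filter_upwards [H.sit.inn, H.nK] with p hp h2 hR
    obtain ⟨-, -, -, h4, -, -⟩ := hp hR
    refine (norm_sub_le _ _).trans ?_
    have a1 := h2
    have a2 := norm_KT_le (H.cl.d1 _ h4)
    have := H.cl.κ1
    linarith
  refine ⟨?_, ?_⟩
  · refine Integrable.mono' (integrable_const 2) hm.norm.restrict ?_
    filter_upwards [hb] with p hp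
    rwa [norm_norm]
  · refine Integrable.mono' (integrable_const 4) (hm.norm.restrict.pow 2) ?_
    filter_upwards [hb] with p hp
    rw [norm_pow, norm_norm]
    have h0 := norm_nonneg (Kf p - KT (fderiv ℝ u (X p)))
    calc ‖Kf p - KT (fderiv ℝ u (X p))‖ ^ 2 ≤ 2 ^ 2 := pow_le_pow_left₀ h0 hp 2
      _ = 4 := by norm_num

theorem int_k (H : SE μ α β Kf u u' X X' Y Y' X₀ t Q l κ τ ε h T B Λ) :
    ∫ p in univ, ‖Kf p - KT (fderiv ℝ u (X p))‖ ∂μ ≤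
      Λ * (2 * Real.sqrt T) := by
  have := H.isFin
  have h1 : ∫ p in univ,
      ‖Kf p - KT (fderiv ℝ u (X p))‖ ^ 2 ∂μ ≤ 2 * T := by
    calc _ ≤ ∫ p in univ, 2 * t p ∂μ := by
          refine integral_mono_ae H.ki.2 (H.ti.const_mul 2).integrableOn ?_
          rw [EventuallyLE, ae_restrict_iff' (MeasurableSet.univ)]
          filter_upwards [H.tl] with p hp _
          exact hp
      _ = 2 * ∫ p, t p ∂μ := by rw [integral_const_mul, Measure.restrict_univ]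
      _ ≤ _ := by linarith [H.tT]
  refine (setIntegral_le_sqrt H.ki.1 H.ki.2 h1 (H.real_le _) H.L1).trans ?_
  refine mul_le_mul_of_nonneg_left ?_ (by have := H.L1; linarith)
  rw [Real.sqrt_mul (by norm_num)]
  refine mul_le_mul_of_nonneg_right ?_ (Real.sqrt_nonneg _)
  rw [Real.sqrt_le_left (by norm_num)]
  norm_num

end SE

variable (m n) in
/-- **SWITCH, the excess.** -/
theorem exists_Eg_switch {g g1 g2 : ℝ → ℝ} (hg : Ker g g1) (hg1 : Ker g1 g2) (b Λ : ℝ) :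
    ∃ C : ℝ, 0 ≤ C ∧ ∀ (Ω : Type) [MeasurableSpace Ω] (μ : Measure Ω) (α : Ω → Euc m)
      (β : Ω → Euc n) (Kf : Ω → Euc n →L[ℝ] Euc m) (u u' : Euc m → Euc n) (X X' : Ω → Euc m)
      (Y Y' : Ω → Euc n) (X₀ : Euc m) (t : Ω → ℝ) (Q l κ τ ε h T B : ℝ),
      SE μ α β Kf u u' X X' Y Y' X₀ t Q l κ τ ε h T B Λ → l ≤ 0 → Real.exp (-l) ≤ b → 0 ≤ h →
      |Eg μ X' u' g X₀ Q l - Eg μ X u g X₀ Q l| ≤ C * τ * (τ + h + Real.sqrt T + B) := by
  obtain ⟨c, hc0, Hc⟩ := exists_radq (Euc m) (Euc n) hg hg1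
  obtain ⟨Cd, hCd, hdns⟩ := exists_dns (Euc m) (Euc n)
  set om := volume.real (closedBall (0 : Euc m) 1) with hom
  have hom0 : 0 ≤ om := measureReal_nonneg
  set tv := ‖trc (Euc n)‖ with htv
  have htv0 : 0 ≤ tv := (trc (Euc n)).opNorm_nonneg
  set tf := ‖trc (Euc m)‖ with htf
  have htf0 : 0 ≤ tf := (trc (Euc m)).opNorm_nonneg
  set c' := c * (|b| * |b|) with hc'
  have hc'0 : 0 ≤ c' := by positivity
  set Λ' := |Λ| with hΛ'
  have hΛ'0 : 0 ≤ Λ' := abs_nonneg Λ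
  refine ⟨|b| ^ m * ((6 + 3 * tv) * c' * (2 * Λ') + Λ' * (c' * Cd) * om + c' * tf + c),
    by positivity, ?_⟩
  intro Ω _ μ α β Kf u u' X X' Y Y' X₀ t Q l κ τ ε h T B H hl hb hh0
  have := H.isFin
  have hτ0 := H.cl.τ0
  have hκ0 := H.cl.κ0
  have hκ1 := H.cl.κ1
  have hΛ1 := H.L1
  have hΛe : Λ' = Λ := abs_of_nonneg (by linarith)
  have hb0 : 0 ≤ b := (Real.exp_pos _).le.trans hb
  have hbe : |b| = b := abs_of_nonneg hb0
  have hel : Real.exp l ≤ 1 := Real.exp_le_one_iff.2 hl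
  have hsT : 0 ≤ Real.sqrt T := Real.sqrt_nonneg _
  -- scale factors
  have hs1 : Real.exp ((2 - m) * l) ≤ b ^ m := by
    have h1 : Real.exp ((2 - m) * l) ≤ Real.exp (-l) ^ m := by
      rw [← Real.exp_nat_mul]
      refine Real.exp_le_exp.2 ?_
      nlinarith
    exact h1.trans (pow_le_pow_left₀ (Real.exp_pos _).le hb m)
  have hs2 : Real.exp (-2 * l) ≤ b * b := by
    have h1 : Real.exp (-2 * l) = Real.exp (-l) * Real.exp (-l) := by
      rw [← Real.exp_add]; congr 1; ring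
    rw [h1]
    exact mul_le_mul hb hb (Real.exp_pos _).le hb0
  -- slopes at the centre
  set q0 := fderiv ℝ u X₀ with hq0
  set q0' := fderiv ℝ u' X₀ with hq0'
  have hq0n : ‖q0‖ ≤ 1 / 4 := (H.cl.d1 _ H.X0D).trans hκ1
  have hq0n' : ‖q0'‖ ≤ 1 / 4 := (H.cl.d1' _ H.X0D).trans hκ1
  have hq0d : ‖q0' - q0‖ ≤ τ := H.cl.w1 _ H.X0D
  obtain ⟨T1, -, -, -⟩ := Hc l hl q0' X₀ hq0n'
  obtain ⟨T0, -, -, D0⟩ := Hc l hl q0 X₀ hq0n
  have Dg := (D0 q0' hq0n').1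
  have hT1 : Tst (radq g l q0' X₀) c' := by
    have hle : c * Real.exp (-2 * l) ≤ c' := by
      rw [hc', hbe]; exact mul_le_mul_of_nonneg_left hs2 hc0
    exact ⟨T1.cd, hc'0, fun v => (T1.b0 v).trans hle, fun v => (T1.b1 v).trans hle,
      fun v => (T1.b2 v).trans hle⟩
  -- the field
  set w : Euc m → Euc n := fun v => radq g l q0' X₀ v • (u' v - u v) with hw
  have hwcd : ContDiff ℝ 2 w := hT1.cd.smul (H.cl.cu'.sub H.cl.cu)
  have hw0 : ∀ v, Real.exp l ≤ ‖v - X₀‖ → w v = 0 := by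
    intro v hv
    rw [hw]
    simp only
    rw [radq_zero hg hv, zero_smul]
  have hFV : ∫ p, trc (Euc n) (fderiv ℝ w (α p) ∘L Kf p) ∂μ = 0 := H.st w hwcd hw0
  have hFi : Integrable (fun p : Ω =>
      trc (Euc n) (fderiv ℝ w (α p) ∘L Kf p)) μ := by
    have hc1 : Continuous (fderiv ℝ w) := hwcd.continuous_fderiv (by norm_num)
    have hts : ∀ v ∉ closedBall X₀ (Real.exp l), fderiv ℝ w v = 0 := by
      intro v hv
      refine image_eq_zero_of_notMem_tsupport fun hc => hv ?_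
      have h1 := tsupport_fderiv_subset ℝ hc
      refine closure_minimal (fun v hv => ?_) isClosed_closedBall h1
      rw [mem_closedBall, dist_eq_norm]
      by_contra h2
      exact hv (hw0 v (not_le.1 h2).le)
    obtain ⟨Cw, hCw⟩ := (isCompact_closedBall X₀ (Real.exp l)).exists_bound_of_continuousOn
      hc1.continuousOn
    have hCw' : ∀ v, ‖fderiv ℝ w v‖ ≤ |Cw| := by
      intro v
      by_cases hv : v ∈ closedBall X₀ (Real.exp l)
      · exact (hCw v hv).trans (le_abs_self _)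
      · rw [hts v hv, norm_zero]; exact abs_nonneg _
    refine Integrable.mono' (integrable_const (tv * |Cw|)) ?_ ?_
    · have m1 : AEStronglyMeasurable (fun p => fderiv ℝ w (α p)) μ :=
        (hc1.measurable.comp_aemeasurable H.mα).aestronglyMeasurable
      have m2 : Continuous fun q : (Euc m →L[ℝ] Euc n) × (Euc n →L[ℝ] Euc m) =>
          trc (Euc n) (q.1 ∘L q.2) :=
        (trc (Euc n)).continuous.comp (continuous_fst.clm_comp continuous_snd)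
      exact m2.comp_aestronglyMeasurable (m1.prodMk H.mK)
    · filter_upwards [H.nK] with p hp
      rw [Real.norm_eq_abs]
      refine (abs_trc_le _).trans (mul_le_mul_of_nonneg_left ?_ htv0)
      refine (ContinuousLinearMap.opNorm_comp_le _ _).trans ?_
      calc ‖fderiv ℝ w (α p)‖ * ‖Kf p‖ ≤ |Cw| * 1 :=
            mul_le_mul (hCw' _) hp (norm_nonneg _) (abs_nonneg _)
        _ = _ := mul_one _
  have main := H.cl.E_switch hT1 (radq_tsupport hg l q0' X₀) H.sit (K := Kf)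
    H.nK hFi hFV H.yi H.ki.1 hCd hdns Q
  -- the bounds
  have b1 := H.real_le univ
  have b2 := H.int_y hh0
  have b3 := H.int_k
  have b4 : volume.real (closedBall X₀ (Real.exp l)) ≤ om := by
    have e1 : volume (closedBall X₀ (Real.exp l)) = volume (closedBall (0 : Euc m) (Real.exp l)) := by
      rw [Measure.addHaar_closedBall_center]
    rw [hom, measureReal_def, measureReal_def, e1]
    refine ENNReal.toReal_mono measure_closedBall_lt_top.ne ?_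
    exact measure_mono (closedBall_subset_closedBall hel)
  have hXic : Continuous (Xi (radq g l q0' X₀) u u') := by
    have hcu1 : Continuous (fderiv ℝ u) := (H.cl.cu.fderiv_right (m := 1) (by norm_num)).continuous
    have hcu1' : Continuous (fderiv ℝ u') :=
      (H.cl.cu'.fderiv_right (m := 1) (by norm_num)).continuous
    refine hT1.cd.continuous.mul ((trc (Euc m)).continuous.comp ?_)
    exact (SD.continuous_KT.comp hcu1).clm_comp (hcu1'.sub hcu1)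
  have hXi0 : ∀ v, Real.exp l ≤ ‖v - X₀‖ → Xi (radq g l q0' X₀) u u' v = 0 := by
    intro v hv; rw [Xi, radq_zero hg hv, zero_mul]
  have hXib : ∀ v, |Xi (radq g l q0' X₀) u u' v| ≤ c' * tf * τ := by
    intro v
    by_cases hv : Real.exp l ≤ ‖v - X₀‖
    · rw [hXi0 v hv, abs_zero]; positivity
    · have hvD : v ∈ ball X₀ (Real.exp l + ε) := by
        rw [mem_ball, dist_eq_norm]; have := H.eps; linarith [not_le.1 hv]
      rw [Xi, abs_mul]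
      calc |radq g l q0' X₀ v| * |trc (Euc m) (KT (fderiv ℝ u v) ∘L
            (fderiv ℝ u' v - fderiv ℝ u v))| ≤ c' * (tf * (1 * τ)) := by
            refine mul_le_mul (hT1.b0 v) ((abs_trc_le _).trans (mul_le_mul_of_nonneg_left ?_ htf0))
              (abs_nonneg _) hc'0
            refine (ContinuousLinearMap.opNorm_comp_le _ _).trans (mul_le_mul ?_ (H.cl.w1 v hvD)
              (norm_nonneg _) zero_le_one)
            exact (norm_KT_le (H.cl.d1 v hvD)).trans (by linarith)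
        _ = _ := by ring
  have b5 := H.tv (Xi (radq g l q0' X₀) u u') (c' * tf * τ) hXic hXib hXi0
  -- change of the test function
  have hdc : Continuous (fun v => radq g l q0' X₀ v - radq g l q0 X₀ v) :=
    hT1.cd.continuous.sub T0.cd.continuous
  have b6 := H.tv (fun v => radq g l q0' X₀ v - radq g l q0 X₀ v) (c * τ) hdc
    (fun v => (Dg v).trans (mul_le_mul_of_nonneg_left hq0d hc0))
    (fun v hv => by rw [radq_zero hg hv, radq_zero hg hv, sub_zero])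
  -- integrability for the splitting
  have iV : ∀ (q : Euc m →L[ℝ] Euc n), ‖q‖ ≤ 1 / 4 →
      Integrable (fun p : Ω => radq g l q X₀ (X p)) μ := by
    intro q hq
    obtain ⟨Tq, -, -, -⟩ := Hc l hl q X₀ hq
    refine Integrable.mono' (integrable_const (c * Real.exp (-2 * l)))
      ((Tq.cd.continuous.measurable.comp_aemeasurable H.mX).aestronglyMeasurable) ?_
    filter_upwards with p
    rw [Real.norm_eq_abs]; exact Tq.b0 _
  have iL : ∀ (q : Euc m →L[ℝ] Euc n), ‖q‖ ≤ 1 / 4 →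
      Integrable (fun v => radq g l q X₀ v * dns (fderiv ℝ u v)) := by
    intro q hq
    obtain ⟨Tq, -, -, -⟩ := Hc l hl q X₀ hq
    have hcu1 : Continuous (fderiv ℝ u) := (H.cl.cu.fderiv_right (m := 1) (by norm_num)).continuous
    have hdnsc : Continuous (dns : (Euc m →L[ℝ] Euc n) → ℝ) := dns_contDiff.continuous
    refine (Tq.cd.continuous.mul (hdnsc.comp hcu1)).integrable_of_hasCompactSupport ?_
    refine HasCompactSupport.intro (isCompact_closedBall X₀ (Real.exp l)) fun v hv => ?_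
    rw [mem_closedBall, dist_eq_norm, not_le] at hv
    change radq g l q X₀ v * dns (fderiv ℝ u v) = 0
    rw [radq_zero hg hv.le, zero_mul]
  have e1 : ∫ p, (radq g l q0' X₀ (X p) - radq g l q0 X₀ (X p)) ∂μ =
      ∫ p, radq g l q0' X₀ (X p) ∂μ - ∫ p, radq g l q0 X₀ (X p) ∂μ :=
    integral_sub (iV q0' hq0n') (iV q0 hq0n)
  have e2 : ∫ v, (radq g l q0' X₀ v - radq g l q0 X₀ v) * dns (fderiv ℝ u v) =
      (∫ v, radq g l q0' X₀ v * dns (fderiv ℝ u v)) -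
        ∫ v, radq g l q0 X₀ v * dns (fderiv ℝ u v) := by
    rw [← integral_sub (iL q0' hq0n') (iL q0 hq0n)]
    refine integral_congr_ae (Eventually.of_forall fun v => ?_)
    simp only
    ring
  rw [e1, e2] at b6
  unfold Eg
  rw [← hq0, ← hq0', ← mul_sub, abs_mul, abs_of_pos (Real.exp_pos _)]
  set A1 := ∫ p, radq g l q0' X₀ (X' p) ∂μ
  set A2 := ∫ p, radq g l q0' X₀ (X p) ∂μ
  set A3 := ∫ p, radq g l q0 X₀ (X p) ∂μ
  set B1 := ∫ v, radq g l q0' X₀ v * dns (fderiv ℝ u' v)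
  set B2 := ∫ v, radq g l q0' X₀ v * dns (fderiv ℝ u v)
  set B3 := ∫ v, radq g l q0 X₀ v * dns (fderiv ℝ u v)
  have key : |(A1 - Q * B1) - (A3 - Q * B3)| ≤
      ((6 + 3 * tv) * c' * (2 * Λ') + Λ' * (c' * Cd) * om + c' * tf + c) *
        (τ * (τ + h + Real.sqrt T + B)) := by
    have e3 : (A1 - Q * B1) - (A3 - Q * B3) = ((A1 - Q * B1) - (A2 - Q * B2)) +
        ((A2 - A3) - Q * (B2 - B3)) := by ring
    rw [e3]
    refine (abs_add_le _ _).trans ?_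
    have hB0 : 0 ≤ B ∨ τ = 0 := by
      by_contra hc
      rw [not_or, not_le] at hc
      have h1 := H.tv (fun _ => 0) 1 continuous_const (fun v => by simp) (fun _ _ => rfl)
      simp only [integral_zero, zero_mul, mul_zero, sub_zero, abs_zero, one_mul] at h1
      linarith [hc.1]
    have f1 : (6 + 3 * tv) * c' * (τ ^ 2 * μ.real (univ) +
        τ * ∫ p in univ, ‖Y p‖ ∂μ +
        τ * ∫ p in univ,
          ‖Kf p - KT (fderiv ℝ u (X p))‖ ∂μ) ≤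
        (6 + 3 * tv) * c' * (2 * Λ') * (τ * (τ + h + Real.sqrt T)) := by
      rw [hΛe]
      have g1 : τ ^ 2 * μ.real (univ) ≤ τ ^ 2 * Λ :=
        mul_le_mul_of_nonneg_left b1 (sq_nonneg _)
      have g2 : τ * ∫ p in univ, ‖Y p‖ ∂μ ≤ τ * (Λ * h) :=
        mul_le_mul_of_nonneg_left b2 hτ0
      have g3 : τ * ∫ p in univ,
          ‖Kf p - KT (fderiv ℝ u (X p))‖ ∂μ ≤ τ * (Λ * (2 * Real.sqrt T)) :=
        mul_le_mul_of_nonneg_left b3 hτ0
      rw [mul_assoc ((6 + 3 * tv) * c') (2 * Λ)]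
      refine mul_le_mul_of_nonneg_left ?_ (by positivity)
      have g4 : 0 ≤ τ ^ 2 * Λ := by positivity
      have g5 : 0 ≤ τ * (Λ * h) := by positivity
      nlinarith
    have f2 : |Q| * (c' * (Cd * τ ^ 2) * volume.real (closedBall X₀ (Real.exp l))) ≤
        Λ' * (c' * Cd) * om * (τ * τ) := by
      have g1 : |Q| ≤ Λ' := H.hQ.trans (le_abs_self _)
      calc |Q| * (c' * (Cd * τ ^ 2) * volume.real (closedBall X₀ (Real.exp l))) ≤
            Λ' * (c' * (Cd * τ ^ 2) * om) :=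
            mul_le_mul g1 (mul_le_mul_of_nonneg_left b4 (by positivity)) (by positivity) hΛ'0
        _ = _ := by ring
    have f3 : |∫ p, Xi (radq g l q0' X₀) u u' (X p) ∂μ -
        Q * ∫ v, Xi (radq g l q0' X₀) u u' v * dns (fderiv ℝ u v)| ≤ c' * tf * (τ * B) :=
      b5.trans (le_of_eq (by ring))
    have f4 : |(A2 - A3) - Q * (B2 - B3)| ≤ c * (τ * B) := b6.trans (le_of_eq (by ring))
    have hτB : 0 ≤ τ * B := by
      rcases hB0 with h1 | h1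
      · positivity
      · rw [h1, zero_mul]
    have hτh : 0 ≤ τ * h := by positivity
    have hτT : 0 ≤ τ * Real.sqrt T := by positivity
    have hττ : 0 ≤ τ * τ := by positivity
    have expand : ((6 + 3 * tv) * c' * (2 * Λ') + Λ' * (c' * Cd) * om + c' * tf + c) *
        (τ * (τ + h + Real.sqrt T + B)) =
        (6 + 3 * tv) * c' * (2 * Λ') * (τ * (τ + h + Real.sqrt T)) +
        (6 + 3 * tv) * c' * (2 * Λ') * (τ * B) +
        Λ' * (c' * Cd) * om * (τ * τ) + Λ' * (c' * Cd) * om * (τ * h + τ * Real.sqrt T + τ * B) +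
        c' * tf * (τ * B) + c' * tf * (τ * τ + τ * h + τ * Real.sqrt T) +
        c * (τ * B) + c * (τ * τ + τ * h + τ * Real.sqrt T) := by ring
    rw [expand]
    have p1 : 0 ≤ (6 + 3 * tv) * c' * (2 * Λ') * (τ * B) := by positivity
    have p2 : 0 ≤ Λ' * (c' * Cd) * om * (τ * h + τ * Real.sqrt T + τ * B) := by positivity
    have p3 : 0 ≤ c' * tf * (τ * τ + τ * h + τ * Real.sqrt T) := by positivity
    have p4 : 0 ≤ c * (τ * τ + τ * h + τ * Real.sqrt T) := by positivity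
    linarith
  have hp : 0 ≤ |(A1 - Q * B1) - (A3 - Q * B3)| := abs_nonneg _
  calc Real.exp ((2 - m) * l) * |(A1 - Q * B1) - (A3 - Q * B3)| ≤
        |b| ^ m * (((6 + 3 * tv) * c' * (2 * Λ') + Λ' * (c' * Cd) * om + c' * tf + c) *
        (τ * (τ + h + Real.sqrt T + B))) :=
        mul_le_mul (hs1.trans (by rw [hbe])) key hp (by positivity)
    _ = _ := by ring



theorem aem_hf' {v : Euc m → Euc n} (hu : Continuous (fderiv ℝ v)) {ξ : Ω → Euc m}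
    {η : Ω → Euc n} (hX : AEMeasurable ξ μ) (hY : AEMeasurable η μ) :
    AEMeasurable (fun p : Ω => hf (fderiv ℝ v (ξ p)) (η p)) μ := by
  have h1 : Continuous (fun q : Euc m × Euc n => hf (fderiv ℝ v q.1) q.2) := continuous_hf hu
  have h3 : AEMeasurable (fun p : Ω => (ξ p, η p)) μ := hX.prodMk hY
  have h4 := h1.measurable.comp_aemeasurable h3
  exact h4

/-- integrability of the two height densities. -/
theorem SE.int_J (H : SE μ α β Kf u u' X X' Y Y' X₀ t Q l κ τ ε h T B Λ) {Ψ Ψ' : Euc m → ℝ} {e : ℝ}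
    (he : 0 ≤ e) (hc : Continuous Ψ) (hc' : Continuous Ψ')
    (P0 : ∀ v ∈ ball X₀ (Real.exp l + ε), |Ψ v| ≤ e)
    (P0' : ∀ v ∈ ball X₀ (Real.exp l + ε), |Ψ' v| ≤ e) :
    Integrable (fun p : Ω => hf (fderiv ℝ u (X p)) (Y p) * Ψ (X p)) μ ∧
    Integrable (fun p : Ω => hf (fderiv ℝ u' (X' p)) (Y' p) * Ψ' (X' p)) μ := by
  have := H.isFin
  have hκ1 := H.cl.κ1
  have hcu1 : Continuous (fderiv ℝ u) := (H.cl.cu.fderiv_right (m := 1) (by norm_num)).continuous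
  have hcu1' : Continuous (fderiv ℝ u') :=
    (H.cl.cu'.fderiv_right (m := 1) (by norm_num)).continuous
  have mf := aem_hf' hcu1 H.mX H.aeY
  have mf' := aem_hf' hcu1' H.mX' H.aeY'
  refine ⟨?_, ?_⟩
  · refine Integrable.mono' (integrable_const (1 * e))
      (mf.mul (hc.measurable.comp_aemeasurable H.mX)).aestronglyMeasurable ?_
    filter_upwards [H.sit.inn] with p h1
    rw [norm_mul, Real.norm_of_nonneg (hf_nonneg _ _), Real.norm_eq_abs]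
    obtain ⟨-, -, -, a1, -, a2⟩ := h1 (mem_univ p)
    refine mul_le_mul ?_ (P0 _ a1) (abs_nonneg _) zero_le_one
    refine (hf_le ((H.cl.d1 _ a1).trans hκ1) _).trans ?_
    have := norm_nonneg (Y p)
    nlinarith
  · refine Integrable.mono' (integrable_const (9 * e))
      (mf'.mul (hc'.measurable.comp_aemeasurable H.mX')).aestronglyMeasurable ?_
    filter_upwards [H.sit.inn] with p h1
    rw [norm_mul, Real.norm_of_nonneg (hf_nonneg _ _), Real.norm_eq_abs]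
    obtain ⟨f1, f2, -, a1, a1', a2⟩ := h1 (mem_univ p)
    refine mul_le_mul ?_ (P0' _ a1') (abs_nonneg _) (by norm_num)
    refine (hf_le ((H.cl.d1' _ a1').trans hκ1) _).trans ?_
    obtain ⟨-, n2, -⟩ := H.cl.foot_close f1 f2 a1 a1' a2
    have n3 : ‖Y' p‖ ≤ 3 := by
      have e : Y' p = (Y' p - Y p) + Y p := by abel
      rw [e]
      refine (norm_add_le _ _).trans ?_
      have := H.cl.τ1
      linarith
    have := norm_nonneg (Y' p)
    nlinarith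

/-- comparison of the height integrals for general kernels. -/
theorem SE.J_le (H : SE μ α β Kf u u' X X' Y Y' X₀ t Q l κ τ ε h T B Λ) (hh0 : 0 ≤ h)
    {Ψ Ψ' : Euc m → ℝ} {e : ℝ}
    (he : 0 ≤ e) (hc : Continuous Ψ) (hc' : Continuous Ψ')
    (hz : ∀ v, Real.exp l ≤ ‖v - X₀‖ → Ψ v = 0) (hz' : ∀ v, Real.exp l ≤ ‖v - X₀‖ → Ψ' v = 0)
    (P0 : ∀ v ∈ ball X₀ (Real.exp l + ε), |Ψ v| ≤ e)
    (P0' : ∀ v ∈ ball X₀ (Real.exp l + ε), |Ψ' v| ≤ e)
    (P1 : ∀ v ∈ ball X₀ (Real.exp l + ε), |Ψ' v - Ψ v| ≤ e * τ)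
    (P2 : ∀ v ∈ ball X₀ (Real.exp l + ε), ∀ v' ∈ ball X₀ (Real.exp l + ε),
      |Ψ v' - Ψ v| ≤ e * ‖v' - v‖) :
    |∫ p, hf (fderiv ℝ u' (X' p)) (Y' p) * Ψ' (X' p) ∂μ -
      ∫ p, hf (fderiv ℝ u (X p)) (Y p) * Ψ (X p) ∂μ| ≤ 4 * e * Λ * (τ * (τ + h)) := by
  have := H.isFin
  have hτ0 := H.cl.τ0
  obtain ⟨hi, hi'⟩ := H.int_J he hc hc' P0 P0'
  have main := H.cl.J_switch H.sit (Ψ := Ψ) (Ψ' := Ψ') he
    (fun v hv => hz v (by rw [mem_closedBall, dist_eq_norm, not_le] at hv; exact hv.le))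
    (fun v hv => hz' v (by rw [mem_closedBall, dist_eq_norm, not_le] at hv; exact hv.le))
    P0' P1 P2 (f := fun p => hf (fderiv ℝ u (X p)) (Y p))
    (f' := fun p => hf (fderiv ℝ u' (X' p)) (Y' p))
    (Eventually.of_forall fun _ _ => rfl) (Eventually.of_forall fun _ _ => rfl) hi hi' H.yi
  refine main.trans ?_
  have b1 := H.real_le univ
  have b2 := H.int_y hh0
  rw [mul_assoc (4 * e) Λ]
  refine mul_le_mul_of_nonneg_left ?_ (by positivity)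
  have g1 : τ ^ 2 * μ.real (univ) ≤ τ ^ 2 * Λ :=
    mul_le_mul_of_nonneg_left b1 (sq_nonneg _)
  have g2 : τ * ∫ p in univ, ‖Y p‖ ∂μ ≤ τ * (Λ * h) :=
    mul_le_mul_of_nonneg_left b2 hτ0
  nlinarith

variable (m n) in
/-- **SWITCH, the height.** -/
theorem exists_Ig_switch {g g1 g2 : ℝ → ℝ} (hg : Ker g g1) (hg1 : Ker g1 g2) (b Λ : ℝ) :
    ∃ C : ℝ, 0 ≤ C ∧ ∀ (Ω : Type) [MeasurableSpace Ω] (μ : Measure Ω) (α : Ω → Euc m)
      (β : Ω → Euc n) (Kf : Ω → Euc n →L[ℝ] Euc m) (u u' : Euc m → Euc n) (X X' : Ω → Euc m)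
      (Y Y' : Ω → Euc n) (X₀ : Euc m) (t : Ω → ℝ) (Q l κ τ ε h T B : ℝ),
      SE μ α β Kf u u' X X' Y Y' X₀ t Q l κ τ ε h T B Λ → l ≤ 0 → Real.exp (-l) ≤ b → 0 ≤ h →
      |Ig μ X' Y' u' g1 X₀ l - Ig μ X Y u g1 X₀ l| ≤ C * τ * (τ + h) := by
  obtain ⟨c, hc0, Hc⟩ := exists_radq (Euc m) (Euc n) hg hg1
  refine ⟨|b| ^ m * (4 * (212 * c * |b|) * |Λ|), by positivity, ?_⟩
  intro Ω _ μ α β Kf u u' X X' Y Y' X₀ t Q l κ τ ε h T B H hl hb hh0
  have hτ0 := H.cl.τ0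
  have hκ0 := H.cl.κ0
  have hκ1 := H.cl.κ1
  have hΛ1 := H.L1
  have hΛe : |Λ| = Λ := abs_of_nonneg (by linarith)
  have hb1 : 1 ≤ b := (Real.one_le_exp (by linarith)).trans hb
  have hb0 : 0 ≤ b := by linarith
  have hbe : |b| = b := abs_of_nonneg hb0
  rw [hbe, hΛe]
  have hs1 : Real.exp (-m * l) ≤ b ^ m := by
    have h1 : Real.exp (-m * l) = Real.exp (-l) ^ m := by
      rw [← Real.exp_nat_mul]; congr 1; ring
    rw [h1]
    exact pow_le_pow_left₀ (Real.exp_pos _).le hb m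
  have hq0n : ‖fderiv ℝ u X₀‖ ≤ 1 / 4 := (H.cl.d1 _ H.X0D).trans hκ1
  have hq0n' : ‖fderiv ℝ u' X₀‖ ≤ 1 / 4 := (H.cl.d1' _ H.X0D).trans hκ1
  have hq0d : ‖fderiv ℝ u' X₀ - fderiv ℝ u X₀‖ ≤ τ := H.cl.w1 _ H.X0D
  obtain ⟨-, R0, R1, D0⟩ := Hc l hl (fderiv ℝ u X₀) X₀ hq0n
  obtain ⟨-, R0', R1', -⟩ := Hc l hl (fderiv ℝ u' X₀) X₀ hq0n'
  have hcb : c * Real.exp (-l) ≤ c * b := mul_le_mul_of_nonneg_left hb hc0
  have D1 : ∀ v, |radq g1 l (fderiv ℝ u' X₀) X₀ v - radq g1 l (fderiv ℝ u X₀) X₀ v| ≤ c * τ :=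
    fun v => ((D0 _ hq0n').2 v).trans (mul_le_mul_of_nonneg_left hq0d hc0)
  obtain ⟨P0, P0', P1, P2⟩ := Ps_bound hc0 hb1 H.cl H.X0D (fun v => (R0 v).trans hcb)
    (fun v => (R0' v).trans hcb)
    (fun v v' => (R1 v v').trans (mul_le_mul_of_nonneg_right hcb (norm_nonneg _))) D1
  have P2' := Ps_lip' hc0 hb1 H.cl H.X0D (fun v => (R0' v).trans hcb)
    (fun v v' => (R1' v v').trans (mul_le_mul_of_nonneg_right hcb (norm_nonneg _)))
  have key := H.J_le hh0 (Ψ := Ps u g1 X₀ l) (Ψ' := Ps u' g1 X₀ l) (e := 212 * c * b)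
    (by positivity) (Ps_continuous hg1 H.eps P2) (Ps_continuous hg1 H.eps P2')
    (fun v hv => Ps_zero hg1 u hv) (fun v hv => Ps_zero hg1 u' hv) P0 P0' P1 P2
  unfold Ig
  rw [← mul_sub, abs_mul, abs_of_pos (Real.exp_pos _)]
  have hfin := mul_le_mul hs1 key (abs_nonneg _) (pow_nonneg hb0 m)
  refine hfin.trans (le_of_eq ?_)
  ring



end Crest.Agent.R234.Sw_733
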