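import Crest.Agent.R234.Mono1_757
import Crest.Agent.R234.Stp2_518
import Crest.Agent.R234.Mx17_397
import Crest.Agent.R234.Sw13_733
import Crest.Agent.R234.Stp3_518
import Crest.Agent.R234.Swb2_159
import Crest.Agent.R234.Lr1_456
import Crest.Agent.R234.Gs7_685

-- ▼ part R234/Mono2_757
section

/-!
# Row 234, MONO-I, part 2 (helper757): instance for the references of the chain

* `fderiv_w`, `fderiv2_w` : the derivatives of `M.w`.
* `exists_gr` : for every order `N ≥ 2` there is `κ₁ > 0` such that `MG N κ R u` with `κ ≤ κ₁` gives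
  `Gr M.S M.w` and `‖M.w X‖ ≤ η S` (any `R`).
* `mono_sit` : `Sit`, `κ ≤ κ₁` ⟹ `0 ≤ I l`, `I l ≤ exp (m (l' - l)) I l'`, `0 < I l → 0 < I l'`, and
  the logarithmic form, for all `l ≤ l'`.
-/

set_option autoImplicit false

open MeasureTheory Filter Topology Set
open scoped ENNReal NNReal ContDiff
open Crest.GeometryTopology.Submanifold Crest.Agent.R234.Vf_884
open Crest.Agent.R234.Main_456 (Frame)
open Crest.Agent.R234.MG_570 (MG)
open Crest.Agent.R234.GL_394 Crest.Agent.R234.Cy_870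

noncomputable section

namespace Crest.Agent.R234.Stp_518.Mo

variable {m n k : ℕ} {M : Mo m n k}

theorem hasFDerivAt_w {X : Euc m} (hu : DifferentiableAt ℝ M.u (M.S⁻¹ • X)) :
    HasFDerivAt M.w (fderiv ℝ M.u (M.S⁻¹ • X)) X := by
  have hS := M.S_pos
  have h1 : HasFDerivAt (fun X : Euc m => M.S⁻¹ • X)
      (M.S⁻¹ • ContinuousLinearMap.id ℝ (Euc m)) X :=
    (M.S⁻¹ • ContinuousLinearMap.id ℝ (Euc m)).hasFDerivAt
  have h2 := (hu.hasFDerivAt.comp X h1).const_smul M.S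
  refine (h2.congr_fderiv ?_)
  ext1 v
  simp only [ContinuousLinearMap.smul_apply, ContinuousLinearMap.comp_apply,
    ContinuousLinearMap.id_apply, map_smul, smul_smul, mul_inv_cancel₀ hS.ne', one_smul]

theorem fderiv_w (hu : Differentiable ℝ M.u) :
    fderiv ℝ M.w = fun X => fderiv ℝ M.u (M.S⁻¹ • X) :=
  funext fun _ => (hasFDerivAt_w (hu _)).fderiv

theorem norm_fderiv2_w (hu : Differentiable ℝ M.u) (hu2 : Differentiable ℝ (fderiv ℝ M.u))
    (X : Euc m) :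
    ‖fderiv ℝ (fderiv ℝ M.w) X‖ ≤ M.S⁻¹ * ‖fderiv ℝ (fderiv ℝ M.u) (M.S⁻¹ • X)‖ := by
  have hS := M.S_pos
  rw [fderiv_w hu]
  have h1 : HasFDerivAt (fun X : Euc m => M.S⁻¹ • X)
      (M.S⁻¹ • ContinuousLinearMap.id ℝ (Euc m)) X :=
    (M.S⁻¹ • ContinuousLinearMap.id ℝ (Euc m)).hasFDerivAt
  have h2 : HasFDerivAt (fun X : Euc m => fderiv ℝ M.u (M.S⁻¹ • X))
      ((fderiv ℝ (fderiv ℝ M.u) (M.S⁻¹ • X)) ∘L (M.S⁻¹ • ContinuousLinearMap.id ℝ (Euc m))) X :=
    (hu2 (M.S⁻¹ • X)).hasFDerivAt.comp X h1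
  rw [h2.fderiv]
  refine (ContinuousLinearMap.opNorm_comp_le _ _).trans ?_
  rw [mul_comm]
  refine mul_le_mul_of_nonneg_right ?_ (norm_nonneg _)
  rw [norm_smul, Real.norm_of_nonneg (inv_pos.2 hS).le]
  exact mul_le_of_le_one_right (inv_pos.2 hS).le ContinuousLinearMap.norm_id_le

end Crest.Agent.R234.Stp_518.Mo

namespace Crest.Agent.R234.Mono_757

open Crest.Agent.R234.Stp_518

theorem norm_fderiv_eq {m n : ℕ} (u : Euc m → Euc n) (y : Euc m) :
    ‖fderiv ℝ u y‖ = ‖iteratedFDeriv ℝ 1 u y‖ := (norm_iteratedFDeriv_one u).symm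

theorem norm_fderiv2_eq {m n : ℕ} (u : Euc m → Euc n) (y : Euc m) :
    ‖fderiv ℝ (fderiv ℝ u) y‖ = ‖iteratedFDeriv ℝ 2 u y‖ := by
  rw [← norm_iteratedFDeriv_fderiv (n := 1), norm_iteratedFDeriv_one]

/-- the references with small `κ` are graphs in the sense of `Gr`. -/
theorem exists_gr (m n N : ℕ) (hN : 2 ≤ N) {η : ℝ} (hη : 0 < η) : ∃ κ₁ : ℝ, 0 < κ₁ ∧
    ∀ (k : ℕ) (M : Mo m n k) (R : ℝ), M.κ ≤ κ₁ → MG N M.κ R M.u →
      Gi_456.Gr M.S M.w ∧ ∀ X, ‖M.w X‖ ≤ η * M.S := by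
  obtain ⟨C, hC0, hC⟩ := Mx17_397.bdP m n N
  have hC1 : 0 < C + 1 := by linarith
  set δ : ℝ := min η (1 / 8) with hδ
  have hδ0 : 0 < δ := lt_min hη (by norm_num)
  refine ⟨δ / (C + 1), by positivity, ?_⟩
  intro k M R hκ hM
  have hS := M.S_pos
  obtain ⟨hcd, hb⟩ := hC _ _ _ hM
  have hCκ : C * M.κ ≤ δ := by
    have h1 : C * M.κ ≤ C * (δ / (C + 1)) := mul_le_mul_of_nonneg_left hκ hC0
    have h2 : C * (δ / (C + 1)) ≤ (C + 1) * (δ / (C + 1)) :=
      mul_le_mul_of_nonneg_right (by linarith) (by positivity)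
    have h3 : (C + 1) * (δ / (C + 1)) = δ := by field_simp
    linarith
  have hcd4 : ContDiff ℝ 4 M.u := by
    refine hcd.of_le ?_
    have h4 : ((4 : ℕ) : ℕ∞) ≤ ((N + 2 : ℕ) : ℕ∞) := by
      have : (4 : ℕ) ≤ N + 2 := by omega
      exact_mod_cast this
    exact WithTop.coe_le_coe.2 h4
  have hd : Differentiable ℝ M.u := hcd4.differentiable (by norm_num)
  have hd2 : Differentiable ℝ (fderiv ℝ M.u) :=
    (hcd4.fderiv_right (m := 3) (by norm_num)).differentiable (by norm_num)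
  have b1 : ∀ y, ‖fderiv ℝ M.u y‖ ≤ 1 / 8 := by
    intro y
    rw [norm_fderiv_eq]
    exact (hb 1 (by omega) y).trans (hCκ.trans (min_le_right _ _))
  have b2 : ∀ y, ‖fderiv ℝ (fderiv ℝ M.u) y‖ ≤ 1 / 8 := by
    intro y
    rw [norm_fderiv2_eq]
    exact (hb 2 (by omega) y).trans (hCκ.trans (min_le_right _ _))
  refine ⟨⟨hS, ?_, ?_, ?_⟩, ?_⟩
  · show ContDiff ℝ 4 (fun X : Euc m => M.S • M.u (M.S⁻¹ • X))
    exact (hcd4.comp (contDiff_const_smul _)).const_smul _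
  · intro X
    rw [Mo.fderiv_w hd]
    exact b1 _
  · intro X
    refine (Mo.norm_fderiv2_w hd hd2 X).trans ?_
    have h1 := b2 (M.S⁻¹ • X)
    have h2 : M.S⁻¹ * ‖fderiv ℝ (fderiv ℝ M.u) (M.S⁻¹ • X)‖ ≤ M.S⁻¹ * (1 / 8) :=
      mul_le_mul_of_nonneg_left h1 (inv_pos.2 hS).le
    refine h2.trans (le_of_eq ?_)
    field_simp
  · intro X
    show ‖M.S • M.u (M.S⁻¹ • X)‖ ≤ _
    rw [norm_smul, Real.norm_of_nonneg hS.le, mul_comm]
    refine mul_le_mul_of_nonneg_right ?_ hS.le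
    have h1 := hb 0 (by omega) (M.S⁻¹ • X)
    rw [norm_iteratedFDeriv_zero] at h1
    exact h1.trans (hCκ.trans (min_le_left _ _))

/-- the region lies in the ball of radius `3 S`. -/
theorem reg_subset_ball {m n k : ℕ} {M : Mo m n k} {x : Euc k} (hg : Gi_456.Gr M.S M.w)
    (hf : Frame M.π M.ρ) (h0 : ‖M.w 0‖ ≤ 1 / 8 * M.S) :
    M.reg x ⊆ Metric.closedBall x (3 * M.S) := by
  have hS := M.S_pos
  intro z hz
  have h1 := hg.Kc_subset_closedBall hf 0 (R := 2 * M.S) (t := M.S / 2) (x := x)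
    (by linarith) hz
  rw [mem_closedBall_iff_norm] at h1 ⊢
  have h2 : ‖Gi_456.pm M.π M.ρ x M.w 0 - x‖ ≤ 1 / 8 * M.S := by
    have e : Gi_456.pm M.π M.ρ x M.w 0 - x = ContinuousLinearMap.adjoint M.π 0 + ContinuousLinearMap.adjoint M.ρ (M.w 0) := by
      unfold Gi_456.pm
      abel
    have h3 := Gi_456.norm_sq_frame hf 0 (M.w 0)
    rw [← e, norm_zero] at h3
    have h4 : ‖Gi_456.pm M.π M.ρ x M.w 0 - x‖ ^ 2 ≤ (1 / 8 * M.S) ^ 2 := by
      rw [h3]
      have := pow_le_pow_left₀ (norm_nonneg _) h0 2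
      linarith
    exact abs_le_of_sq_le_sq' h4 (by positivity) |>.2
  have h5 : z - x = (z - Gi_456.pm M.π M.ρ x M.w 0) + (Gi_456.pm M.π M.ρ x M.w 0 - x) := by abel
  rw [h5]
  refine (norm_add_le _ _).trans ?_
  linarith

/-- **MONO-I** for the references of the chain. -/
theorem mono_sit (m n N : ℕ) (hN : 2 ≤ N) : ∃ κ₁ : ℝ, 0 < κ₁ ∧
    ∀ (k : ℕ) (U : Set (Euc k)) (D : VarifoldData m k) (Q : ℕ) (x : Euc k) (M : Mo m n k)
      (ε Λ R : ℝ), Sit U D Q x M ε Λ → M.κ ≤ κ₁ → MG N M.κ R M.u →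
      On (M.VM x (VD D)) m (M.reg x) ∧ (∀ l, 0 ≤ M.I x (VD D) l) ∧
      ∀ l l' : ℝ, l ≤ l' →
        M.I x (VD D) l ≤ Real.exp (m * (l' - l)) * M.I x (VD D) l' ∧
        (0 < M.I x (VD D) l → 0 < M.I x (VD D) l' ∧
          Real.log (M.I x (VD D) l) ≤ Real.log (M.I x (VD D) l') + m * (l' - l)) := by
  obtain ⟨κ₁, hκ₁, hgr⟩ := exists_gr m n N hN (η := 1 / 8) (by norm_num)
  refine ⟨κ₁, hκ₁, ?_⟩
  intro k U D Q x M ε Λ R hs hκ hM
  obtain ⟨hg, hw⟩ := hgr k M R hκ hM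
  have hf := hs.pack.frame
  have hS := M.S_pos
  have hsub : M.reg x ⊆ U := by
    refine (reg_subset_ball hg hf (hw 0)).trans ?_
    refine (Metric.closedBall_subset_closedBall ?_).trans hs.sub
    linarith
  have hon : On (M.VM x (VD D)) m (M.reg x) :=
    Mo.on_of_subset hg (stat_VD hs.int hs.st) hsub
  refine ⟨hon, fun l => Mo.I_nonneg hg hf hon l, fun l l' hl => ?_⟩
  exact ⟨Mo.I_mono hg hf hon hl, fun h0 => ⟨Mo.I_pos_mono hg hf hon hl h0,
    Mo.log_I_mono hg hf hon hl h0⟩⟩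

end Crest.Agent.R234.Mono_757
end
end

-- ▼ part R234/Sw14_733
section

/-! # Row 234, VF-F6 (helper733), part 14: the functionals of a reference in foot coordinates -/

set_option autoImplicit false
set_option linter.unusedSectionVars false
set_option linter.unusedVariables false

open MeasureTheory Set Metric Filter Topology
open scoped ENNReal NNReal ContDiff InnerProductSpace
open Crest.GeometryTopology.Submanifold
open Crest.Agent.R234.Ell1_3 Crest.Agent.R234.Fm_209 Crest.Agent.R234.Cy_870 Crest.Agent.R234.Vf_884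
open Crest.Agent.R234.Main_456 (Frame)
open Crest.Agent.R234.Stp_518 (Mo)
open Crest.Agent.R234.Gi_456 (Lo Loi giB jB muG Gr)

noncomputable section

namespace Crest.Agent.R234.Sw_733

variable {m n k : ℕ}

local notation "adj" => ContinuousLinearMap.adjoint


theorem norm_Lo_sq' (q : Euc m →L[ℝ] Euc n) (v : Euc m) : ‖Lo q v‖ ^ 2 = ⟪v, gop q v⟫_ℝ := by
  rw [Gi_456.norm_Lo_sq, gop_inner, real_inner_self_eq_norm_sq, real_inner_self_eq_norm_sq]

theorem adj_Lo_Lo' (q : Euc m →L[ℝ] Euc n) (v : Euc m) : adj (Lo q) (Lo q v) = gop q v :=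
  congrArg (fun T : L m => T v) (Gi_456.adj_Lo_Lo q)

/-- `μ` of the chart in foot coordinates. -/
theorem muG_Lo {w : Euc m → Euc n} (X : Euc m) :
    muG (giB w 0) (Lo (fderiv ℝ w 0) X) = mq (fderiv ℝ w 0) (fderiv ℝ w X) X := by
  unfold mq
  by_cases hX : X = 0
  · subst hX
    rw [map_zero, Gi_456.muG_zero, if_pos rfl]
  · have h0 : Lo (fderiv ℝ w 0) X ≠ 0 := by
      intro hc
      have := Gi_456.le_norm_Lo (fderiv ℝ w 0) X
      rw [hc, norm_zero] at this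
      exact hX (norm_le_zero_iff.1 this)
    rw [Gi_456.muG_of_ne h0, if_neg hX, norm_Lo_sq']
    congr 1
    have e1 : Gi_456.pt w 0 (Lo (fderiv ℝ w 0) X) = X := by
      rw [Gi_456.pt, Gi_456.Loi_Lo, zero_add]
    have e2 : giB w 0 (Lo (fderiv ℝ w 0) X) (Lo (fderiv ℝ w 0) X) =
        Lo (fderiv ℝ w 0) (ginv (fderiv ℝ w X) (gop (fderiv ℝ w 0) X)) := by
      rw [giB, e1]
      simp only [ContinuousLinearMap.comp_apply]
      rw [adj_Lo_Lo']
    rw [e2, ← ContinuousLinearMap.adjoint_inner_left, adj_Lo_Lo']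

theorem norm_Bt_sq {π : Euc k →L[ℝ] Euc m} {ρ : Euc k →L[ℝ] Euc n} (hf1 : Frame π ρ)
    (w : Euc m → Euc n) (X : Euc m) (Y : Euc n) :
    ‖Gi_456.Bt π ρ w X Y‖ ^ 2 / 2 = hf (fderiv ℝ w X) Y := by
  have e1 : Gi_456.Bt π ρ w X Y = adj π (-(adj (fderiv ℝ w X) Y)) + adj ρ Y := by
    simp only [Gi_456.Bt, GLK_128.BB]
    rw [_root_.sub_apply, ContinuousLinearMap.comp_apply, map_neg]
    abel
  rw [e1, Gi_456.norm_sq_frame hf1, norm_neg]
  rfl

namespace St

variable (M : Mo m n k) (x : Euc k)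

/-- the foot in block units. -/
def X (z : Euc k) : Euc m := M.S⁻¹ • Gi_456.foot M.π M.ρ x M.S M.w z

/-- the height in block units. -/
def Y (z : Euc k) : Euc n := M.S⁻¹ • Gi_456.yy M.π M.ρ x M.S M.w z

/-- base coordinate in block units. -/
def a (z : Euc k) : Euc m := M.S⁻¹ • M.π (z - x)

/-- height coordinate in block units. -/
def b (z : Euc k) : Euc n := M.S⁻¹ • M.ρ (z - x)

variable {M x}

theorem S_smul_X (z : Euc k) : M.S • X M x z = Gi_456.foot M.π M.ρ x M.S M.w z := by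
  rw [X, smul_smul, mul_inv_cancel₀ M.S_pos.ne', one_smul]

theorem S_smul_Y (z : Euc k) : M.S • Y M x z = Gi_456.yy M.π M.ρ x M.S M.w z := by
  rw [Y, smul_smul, mul_inv_cancel₀ M.S_pos.ne', one_smul]

theorem fd_w (hu : Differentiable ℝ M.u) (z : Euc k) :
    fderiv ℝ M.w (Gi_456.foot M.π M.ρ x M.S M.w z) = fderiv ℝ M.u (X M x z) := by
  rw [Mo.fderiv_w hu]; rfl

theorem fd_w0 (hu : Differentiable ℝ M.u) : fderiv ℝ M.w 0 = fderiv ℝ M.u 0 := by
  rw [Mo.fderiv_w hu]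
  simp only [smul_zero]

/-- `foot` in block units. -/
theorem isFoot (hu : Differentiable ℝ M.u) (hg : Gr M.S M.w) {z : Euc k}
    (hz : z ∈ Gi_456.tube M.π M.ρ x M.S M.w) : Foot M.u (a M x z) (b M x z) (X M x z) (Y M x z) := by
  have hS := M.S_pos
  have h1 := hg.foot_fix hz
  have h2 : Gi_456.yy M.π M.ρ x M.S M.w z = M.ρ (z - x) - M.w (Gi_456.foot M.π M.ρ x M.S M.w z) := rfl
  refine ⟨?_, ?_⟩
  · show M.S⁻¹ • M.π (z - x) = _
    rw [fd_w hu] at h1
    have e1 : M.π (z - x) = Gi_456.foot M.π M.ρ x M.S M.w z -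
        adj (fderiv ℝ M.u (X M x z)) (Gi_456.yy M.π M.ρ x M.S M.w z) := by
      nth_rewrite 1 [h1]; abel
    rw [e1, smul_sub, Y, map_smul]
    rfl
  · show M.S⁻¹ • M.ρ (z - x) = _
    have e1 : M.ρ (z - x) = M.w (Gi_456.foot M.π M.ρ x M.S M.w z) +
        Gi_456.yy M.π M.ρ x M.S M.w z := by rw [h2]; abel
    rw [e1, smul_add]
    congr 1
    show M.S⁻¹ • (M.S • M.u (M.S⁻¹ • _)) = _
    rw [smul_smul, inv_mul_cancel₀ hS.ne', one_smul]
    rfl

theorem x_sq (hu : Differentiable ℝ M.u) (z : Euc k) :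
    ‖(M.ch x).x z‖ ^ 2 = M.S ^ 2 * ⟪X M x z, gop (fderiv ℝ M.u 0) (X M x z)⟫_ℝ := by
  have e : (M.ch x).x z = Lo (fderiv ℝ M.w 0) (M.S • X M x z) := by
    show Lo (fderiv ℝ M.w 0) (Gi_456.foot M.π M.ρ x M.S M.w z - 0) = _
    rw [sub_zero, S_smul_X]
  rw [e, norm_Lo_sq', fd_w0 hu, map_smul, inner_smul_left, inner_smul_right, conj_trivial]
  ring

theorem exp_S (y : ℝ) : Real.exp (-2 * y) * M.S ^ 2 = Real.exp (-2 * (y - M.lb)) := by
  rw [Mo.S, ← Real.exp_nat_mul, ← Real.exp_add]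
  congr 1
  push_cast
  ring

theorem g_x (hu : Differentiable ℝ M.u) (g : ℝ → ℝ) (y : ℝ) (z : Euc k) :
    g (Real.exp (-2 * y) * ‖(M.ch x).x z‖ ^ 2) =
      radq g (y - M.lb) (fderiv ℝ M.u 0) 0 (X M x z) := by
  rw [x_sq hu, ← mul_assoc, exp_S, radq, sub_zero]

/-- the measure in block units. -/
def mu (V : Measure (Euc k × L k)) : Measure (Euc k × L k) :=
  ENNReal.ofReal ((M.S ^ m)⁻¹) • V

theorem integral_mu (V : Measure (Euc k × L k)) (f : Euc k × L k → ℝ) :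
    ∫ p, f p ∂(mu (M := M) V) = (M.S ^ m)⁻¹ * ∫ p, f p ∂V := by
  have hS := M.S_pos
  rw [mu, integral_smul_measure, ENNReal.toReal_ofReal (by positivity), smul_eq_mul]

/-- the base integral. -/
theorem integral_j (hu : Differentiable ℝ M.u) (g : ℝ → ℝ) (y : ℝ) :
    ∫ v : Euc m, (M.ch x).j v * g (Real.exp (-2 * y) * ‖v‖ ^ 2) =
      M.S ^ m * ∫ v, radq g (y - M.lb) (fderiv ℝ M.u 0) 0 v * dns (fderiv ℝ M.u v) := by
  have hS := M.S_pos
  set q0 := fderiv ℝ M.w 0 with hq0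
  set T : L m := Lo q0 ∘L (M.S • ContinuousLinearMap.id ℝ (Euc m)) with hT
  have hdet : LinearMap.det (T : Euc m →ₗ[ℝ] Euc m) = M.S ^ m * (Lo q0).det := by
    have e1 : (T : Euc m →ₗ[ℝ] Euc m) = M.S • (Lo q0 : Euc m →ₗ[ℝ] Euc m) := by
      ext v : 1
      show Lo q0 (M.S • v) = M.S • Lo q0 v
      rw [map_smul]
    rw [e1, LinearMap.det_smul, finrank_euclideanSpace_fin]
  have hd0 := Gi_456.det_Lo_pos q0
  have hne : LinearMap.det (T : Euc m →ₗ[ℝ] Euc m) ≠ 0 := by rw [hdet]; positivity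
  have key : ∫ v : Euc m, (M.ch x).j (T v) * g (Real.exp (-2 * y) * ‖T v‖ ^ 2) =
      |(LinearMap.det (T : Euc m →ₗ[ℝ] Euc m))⁻¹| *
        ∫ v : Euc m, (M.ch x).j v * g (Real.exp (-2 * y) * ‖v‖ ^ 2) := by
    have h1 : Measure.map T (volume : Measure (Euc m)) =
        ENNReal.ofReal |(LinearMap.det (T : Euc m →ₗ[ℝ] Euc m))⁻¹| • volume :=
      Measure.map_linearMap_addHaar_eq_smul_addHaar volume hne
    have h2 : MeasurableEmbedding T := by
      have h3 : IsUnit (LinearMap.det (T : Euc m →ₗ[ℝ] Euc m)) := isUnit_iff_ne_zero.2 hne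
      set e := LinearEquiv.ofIsUnitDet (f := (T : Euc m →ₗ[ℝ] Euc m)) (v := Module.finBasis ℝ (Euc m))
        (v' := Module.finBasis ℝ (Euc m)) (by
          rw [LinearMap.det_toMatrix]; exact h3) with he
      have h4 : (T : Euc m → Euc m) = e.toContinuousLinearEquiv.toHomeomorph := by
        ext v : 1
        rfl
      rw [h4]
      exact e.toContinuousLinearEquiv.toHomeomorph.measurableEmbedding
    have h5 := h2.integral_map (μ := volume)
      (fun v : Euc m => (M.ch x).j v * g (Real.exp (-2 * y) * ‖v‖ ^ 2))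
    rw [← h5, h1, integral_smul_measure, ENNReal.toReal_ofReal (abs_nonneg _), smul_eq_mul]
  have e2 : ∀ v : Euc m, (M.ch x).j (T v) * g (Real.exp (-2 * y) * ‖T v‖ ^ 2) =
      (Lo q0).det⁻¹ * (radq g (y - M.lb) (fderiv ℝ M.u 0) 0 v * dns (fderiv ℝ M.u v)) := by
    intro v
    have e3 : T v = Lo q0 (M.S • v) := rfl
    have e4 : (M.ch x).j (T v) = dns (fderiv ℝ M.u v) / (Lo q0).det := by
      show dns (fderiv ℝ M.w (Gi_456.pt M.w 0 (T v))) / (Lo (fderiv ℝ M.w 0)).det = _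
      rw [Gi_456.pt, e3, ← hq0, Gi_456.Loi_Lo, zero_add, Mo.fderiv_w hu]
      simp only
      rw [smul_smul, inv_mul_cancel₀ hS.ne', one_smul]
    have e5 : ‖T v‖ ^ 2 = M.S ^ 2 * ⟪v, gop (fderiv ℝ M.u 0) v⟫_ℝ := by
      rw [e3, norm_Lo_sq', hq0, fd_w0 hu, map_smul, inner_smul_left, inner_smul_right,
        conj_trivial]
      ring
    rw [e4, e5, ← mul_assoc, exp_S, radq, sub_zero]
    field_simp
  simp only [e2] at key
  rw [integral_const_mul, hdet, abs_of_pos (by positivity)] at key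
  have h6 : ∫ v : Euc m, (M.ch x).j v * g (Real.exp (-2 * y) * ‖v‖ ^ 2) =
      (M.S ^ m * (Lo q0).det) * ((M.S ^ m * (Lo q0).det)⁻¹ *
        ∫ v : Euc m, (M.ch x).j v * g (Real.exp (-2 * y) * ‖v‖ ^ 2)) := by
    field_simp
  rw [h6, ← key]
  field_simp

theorem exp_lb (y : ℝ) (c : ℝ) : Real.exp (c * y) = Real.exp (c * (y - M.lb)) * Real.exp (c * M.lb) := by
  rw [← Real.exp_add]; congr 1; ring

/-- **`EE` in foot coordinates.** -/
theorem EE_eq (hu : Differentiable ℝ M.u) (V : Measure (Euc k × L k)) (g : ℝ → ℝ) (Q y : ℝ) :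
    GL_394.EE (M.ch x) V g Q y =
      M.S ^ 2 * Eg (mu (M := M) V) (fun p => X M x p.1) M.u g 0 Q (y - M.lb) := by
  have hS := M.S_pos
  unfold GL_394.EE Eg
  rw [integral_j hu, integral_mu]
  have e1 : ∫ p : Euc k × L k, 1 * g (Real.exp (-2 * y) * ‖(M.ch x).x p.1‖ ^ 2) ∂V =
      ∫ p : Euc k × L k, radq g (y - M.lb) (fderiv ℝ M.u 0) 0 (X M x p.1) ∂V := by
    refine integral_congr_ae (Eventually.of_forall fun p => ?_)
    simp only [one_mul]
    exact g_x hu g y p.1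
  rw [e1]
  have e2 : Real.exp ((2 - m) * y) = Real.exp ((2 - m) * (y - M.lb)) * (M.S ^ 2 * (M.S ^ m)⁻¹) := by
    rw [exp_lb (M := M) y]
    congr 1
    rw [Mo.S, ← Real.exp_nat_mul, ← Real.exp_nat_mul, ← Real.exp_neg, ← Real.exp_add]
    congr 1
    push_cast
    ring
  rw [e2]
  field_simp

/-- **`II` in foot coordinates.** -/
theorem II_eq (hu : Differentiable ℝ M.u) (hf1 : Frame M.π M.ρ) (V : Measure (Euc k × L k))
    (g1 : ℝ → ℝ) (y : ℝ) :
    GL_394.II (M.ch x) V g1 y =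
      M.S ^ 2 * Ig (mu (M := M) V) (fun p => X M x p.1) (fun p => Y M x p.1) M.u g1 0 (y - M.lb) := by
  have hS := M.S_pos
  unfold GL_394.II Ig
  rw [integral_mu]
  have e1 : ∀ z : Euc k, ((M.ch x).f z * (M.ch x).mu ((M.ch x).x z)) *
      (-4 * g1 (Real.exp (-2 * y) * ‖(M.ch x).x z‖ ^ 2)) =
      M.S ^ 2 * (hf (fderiv ℝ M.u (X M x z)) (Y M x z) * Ps M.u g1 0 (y - M.lb) (X M x z)) := by
    intro z
    have e2 : (M.ch x).f z = M.S ^ 2 * hf (fderiv ℝ M.u (X M x z)) (Y M x z) := by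
      show ‖Gi_456.Bt M.π M.ρ M.w (Gi_456.foot M.π M.ρ x M.S M.w z)
        (Gi_456.yy M.π M.ρ x M.S M.w z)‖ ^ 2 / 2 = _
      rw [norm_Bt_sq hf1, fd_w hu, ← S_smul_Y]
      unfold hf
      rw [map_smul, norm_smul, norm_smul, Real.norm_of_nonneg hS.le]
      ring
    have e3 : (M.ch x).mu ((M.ch x).x z) =
        mq (fderiv ℝ M.u 0) (fderiv ℝ M.u (X M x z)) (X M x z - 0) := by
      show muG (giB M.w 0) (Lo (fderiv ℝ M.w 0) (Gi_456.foot M.π M.ρ x M.S M.w z - 0)) = _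
      rw [sub_zero, muG_Lo, fd_w hu, fd_w0 hu, ← S_smul_X, mq_smul _ _ _ _ hS, sub_zero]
    rw [e2, e3, g_x hu g1 y z, Ps]
    ring
  have e4 : ∫ p : Euc k × L k, ((M.ch x).f p.1 * (M.ch x).mu ((M.ch x).x p.1)) *
      (-4 * g1 (Real.exp (-2 * y) * ‖(M.ch x).x p.1‖ ^ 2)) ∂V =
      M.S ^ 2 * ∫ p : Euc k × L k, hf (fderiv ℝ M.u (X M x p.1)) (Y M x p.1) *
        Ps M.u g1 0 (y - M.lb) (X M x p.1) ∂V := by
    rw [← integral_const_mul]
    exact integral_congr_ae (Eventually.of_forall fun p => e1 p.1)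
  rw [e4]
  have e2 : Real.exp (-m * y) = Real.exp (-m * (y - M.lb)) * (M.S ^ m)⁻¹ := by
    rw [exp_lb (M := M) y]
    congr 1
    rw [Mo.S, ← Real.exp_nat_mul, ← Real.exp_neg]
    congr 1
    ring
  rw [e2]
  ring

end St

end Crest.Agent.R234.Sw_733
end
end

-- ▼ part R234/Sw15_733
section

/-! # Row 234, VF-F6 (helper733), part 15: the inputs of the switch for a reference, geometry -/

set_option autoImplicit false
set_option linter.unusedSectionVars false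
set_option linter.unusedVariables false

open MeasureTheory Set Metric Filter Topology
open scoped ENNReal NNReal ContDiff InnerProductSpace
open Crest.GeometryTopology.Submanifold
open Crest.Agent.R234.Ell1_3 Crest.Agent.R234.Fm_209 Crest.Agent.R234.Cy_870 Crest.Agent.R234.Vf_884
open Crest.Agent.R234.Main_456 (Frame hgt)
open Crest.Agent.R234.Stp_518 (Mo GrB)
open Crest.Agent.R234.Gi_456 (Lo Loi giB jB muG Gr tube)

noncomputable section

namespace Crest.Agent.R234.Sw_733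

variable {m n k : ℕ}

local notation "adj" => ContinuousLinearMap.adjoint

/-- the cylinder of base radius `A`, height one, in block units. -/
def Zc (M : Mo m n k) (x : Euc k) (A : ℝ) : Set (Euc k) :=
  {z | ‖M.π (z - x)‖ ≤ M.S * A ∧ ‖M.ρ (z - x)‖ ≤ M.S}

theorem isClosed_Zc (M : Mo m n k) (x : Euc k) (A : ℝ) : IsClosed (Zc M x A) := by
  have h1 : IsClosed {z : Euc k | ‖M.π (z - x)‖ ≤ M.S * A} :=
    isClosed_le (by fun_prop) continuous_const
  have h2 : IsClosed {z : Euc k | ‖M.ρ (z - x)‖ ≤ M.S} :=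
    isClosed_le (by fun_prop) continuous_const
  exact h1.inter h2

theorem measurableSet_Zc (M : Mo m n k) (x : Euc k) (A : ℝ) :
    MeasurableSet (Zc M x A ×ˢ (univ : Set (Vf_884.L k))) :=
  (isClosed_Zc M x A).measurableSet.prod MeasurableSet.univ

/-- the level in block units. -/
def R0 (M : Mo m n k) (l : ℝ) : ℝ := Real.exp (l - M.lb)

theorem R0_pos (M : Mo m n k) (l : ℝ) : 0 < R0 M l := Real.exp_pos _

theorem S_R0 (M : Mo m n k) (l : ℝ) : M.S * R0 M l = Real.exp l := by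
  rw [Mo.S, R0, ← Real.exp_add]; congr 1; ring

/-- **the V-level inputs of the switch** for the reference `M` at the level `l`. -/
structure Pk (U : Set (Euc k)) (D : VarifoldData m k) (Q : ℕ) (x : Euc k) (M : Mo m n k)
    (ε Λ l K b η h T B : ℝ) : Prop where
  sit : Stp_518.Sit U D Q x M ε Λ
  gr : GrB M b
  hε : ε ≤ 1 / 16
  hb : b ≤ 1 / 16
  K32 : 32 ≤ K
  hl : l ≤ M.lb
  du0 : ‖fderiv ℝ M.u 0‖ ≤ 1 / (64 * K)
  h0 : 0 ≤ h
  hη : η ≤ R0 M l / (512 * K)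
  hhs : h ≤ R0 M l / (512 * K)
  fine : ∀ᵐ p ∂(VD D), p.1 ∈ M.reg x → ‖(M.ch x).x p.1‖ ≤ Real.exp l * (1 + 1 / (4 * K)) →
    ‖hgt M.π M.ρ x M.S M.u p.1‖ ≤ M.S * η
  shp : ∀ᵐ p ∂(VD D), ‖M.π (p.1 - x)‖ ≤ Real.exp l * (1 + 1 / (2 * K)) → ‖M.ρ (p.1 - x)‖ ≤ M.S →
    ‖hgt M.π M.ρ x M.S M.u p.1‖ ≤ M.S * h
  tilt : ∫ p in {p : Euc k × Vf_884.L k | ‖(M.ch x).x p.1‖ ≤ Real.exp l * (1 + 1 / (4 * K))},
    (M.ch x).tau p.1 p.2 ∂(M.VM x (VD D)) ≤ M.S ^ m * T
  tv : ∀ (F : Euc m → ℝ) (s : ℝ), Measurable F → (∀ v, |F v| ≤ s) →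
    (∀ v, Real.exp l * (1 + 1 / (8 * K)) < ‖v‖ → F v = 0) →
    |∫ p, F ((M.ch x).x p.1) ∂(M.VM x (VD D)) - Q * ∫ v, F v * (M.ch x).j v| ≤ s * (M.S ^ m * B)

namespace Pk

variable {U : Set (Euc k)} {D : VarifoldData m k} {Q : ℕ} {x : Euc k} {M N : Mo m n k}
  {ε Λ l K b η h T B : ℝ}

theorem hu (H : Pk U D Q x M ε Λ l K b η h T B) : Differentiable ℝ M.u :=
  H.gr.cu.differentiable (by norm_num)

theorem R0_le (H : Pk U D Q x M ε Λ l K b η h T B) : R0 M l ≤ 1 :=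
  Real.exp_le_one_iff.2 (by linarith [H.hl])

theorem dK (H : Pk U D Q x M ε Λ l K b η h T B) : 0 < 1 / K ∧ 1 / K ≤ 1 / 32 :=
  ⟨by have := H.K32; positivity, one_div_le_one_div_of_le (by norm_num) H.K32⟩

/-- the chart coordinate against the foot in block units. -/
theorem x_le (H : Pk U D Q x M ε Λ l K b η h T B) (z : Euc k) :
    ‖(M.ch x).x z‖ ≤ (1 + 1 / (64 * K)) * (M.S * ‖St.X M x z‖) := by
  have hS := M.S_pos
  have h1 := Gr.x_le_foot (π := M.π) (ρ := M.ρ) (x := x) (S := M.S) (w := M.w)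
    (κ := 1 / (64 * K)) (by rw [St.fd_w0 H.hu]; exact H.du0) z
  rw [← St.S_smul_X, norm_smul, Real.norm_of_nonneg hS.le] at h1
  exact h1

theorem le_x (H : Pk U D Q x M ε Λ l K b η h T B) (z : Euc k) :
    M.S * ‖St.X M x z‖ ≤ ‖(M.ch x).x z‖ := by
  have hS := M.S_pos
  have h1 := Gr.foot_le_x (π := M.π) (ρ := M.ρ) (x := x) (S := M.S) (w := M.w) z
  rw [← St.S_smul_X, norm_smul, Real.norm_of_nonneg hS.le] at h1
  exact h1

/-- in the tube, block units. -/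
theorem tube_bd (hg : Gr M.S M.w) {z : Euc k} (hz : z ∈ tube M.π M.ρ x M.S M.w) {t : ℝ}
    (ht : ‖hgt M.π M.ρ x M.S M.u z‖ ≤ M.S * t) :
    ‖St.X M x z - St.a M x z‖ ≤ t / 4 ∧ ‖St.Y M x z‖ ≤ 9 / 8 * t := by
  have hS := M.S_pos
  have ht' : ‖M.ρ (z - x) - M.w (M.π (z - x))‖ ≤ M.S * t := ht
  have h1 := hg.norm_foot_sub hz
  have h2 := hg.norm_yy_le hz
  refine ⟨?_, ?_⟩
  · have e : St.X M x z - St.a M x z =
        M.S⁻¹ • (Gi_456.foot M.π M.ρ x M.S M.w z - M.π (z - x)) := by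
      rw [St.X, St.a, smul_sub]
    rw [e, norm_smul, norm_inv, Real.norm_of_nonneg hS.le, inv_mul_le_iff₀ hS]
    linarith
  · rw [St.Y, norm_smul, norm_inv, Real.norm_of_nonneg hS.le, inv_mul_le_iff₀ hS]
    linarith

theorem norm_a (z : Euc k) : M.S * ‖St.a M x z‖ = ‖M.π (z - x)‖ := by
  have hS := M.S_pos
  rw [St.a, norm_smul, norm_inv, Real.norm_of_nonneg hS.le, ← mul_assoc,
    mul_inv_cancel₀ hS.ne', one_mul]

/-- **points of the cylinder.** -/
theorem onZ (H : Pk U D Q x M ε Λ l K b η h T B) {A : ℝ} (hA : A ≤ R0 M l * (1 + 1 / (16 * K))) :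
    ∀ᵐ p ∂(VD D), p.1 ∈ Zc M x A → p.1 ∈ M.reg x ∧ p.1 ∈ tube M.π M.ρ x M.S M.w ∧
      ‖hgt M.π M.ρ x M.S M.u p.1‖ ≤ M.S * h ∧ ‖M.ρ (p.1 - x)‖ ≤ M.S / 16 ∧
      ‖St.a M x p.1‖ ≤ A ∧
      ‖St.X M x p.1 - St.a M x p.1‖ ≤ h / 4 ∧ ‖St.Y M x p.1‖ ≤ 9 / 8 * h ∧
      ‖(M.ch x).x p.1‖ ≤ Real.exp l * (1 + 1 / (4 * K)) := by
  have hS := M.S_pos
  have hR := R0_pos M l
  have hR1 := H.R0_le
  obtain ⟨k0, k1⟩ := H.dK
  have hK0 : 0 < K := by linarith [H.K32]
  have e16 : 1 / (16 * K) = 1 / K / 16 := by field_simp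
  have e2 : 1 / (2 * K) = 1 / K / 2 := by field_simp
  have e4 : 1 / (4 * K) = 1 / K / 4 := by field_simp
  have e64 : 1 / (64 * K) = 1 / K / 64 := by field_simp
  have e512 : R0 M l / (512 * K) = R0 M l * (1 / K) / 512 := by field_simp
  have hSR := S_R0 M l
  have hhs := H.hhs
  rw [e512] at hhs
  set δ := 1 / K with hδ
  have hfr := H.sit.pack.frame
  filter_upwards [H.shp, H.sit.pack.supae] with p h1 h2 hz
  obtain ⟨z1, z2⟩ := hz
  have z1' : ‖M.π (p.1 - x)‖ ≤ M.S * (R0 M l * (1 + δ / 16)) := by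
    rw [e16] at hA
    exact z1.trans (mul_le_mul_of_nonneg_left hA hS.le)
  have z3 : ‖M.π (p.1 - x)‖ ≤ Real.exp l * (1 + 1 / (2 * K)) := by
    rw [e2, ← hSR]
    refine z1'.trans ?_
    rw [mul_assoc]
    refine mul_le_mul_of_nonneg_left (mul_le_mul_of_nonneg_left (by linarith) hR.le) hS.le
  have z4 := h1 z3 z2
  have zb : ‖M.π (p.1 - x)‖ ≤ M.S * (3 / 2) := by
    refine z1'.trans (mul_le_mul_of_nonneg_left ?_ hS.le)
    nlinarith
  have z5 : p.1 ∈ Metric.ball x (4 * M.S) := by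
    rw [Metric.mem_ball, dist_eq_norm]
    have h4 := Stp_518.norm_vec (M := M) hfr (p.1 - x)
    have h6 := norm_nonneg (M.π (p.1 - x))
    have h7 := norm_nonneg (M.ρ (p.1 - x))
    nlinarith [norm_nonneg (p.1 - x)]
  have z6 : ‖M.ρ (p.1 - x)‖ ≤ M.S / 16 := by
    refine (h2 z5).trans ?_
    have : ε * M.S ≤ 1 / 16 * M.S := mul_le_mul_of_nonneg_right H.hε hS.le
    linarith
  have z7 : p.1 ∈ M.reg x :=
    Stp_518.mem_reg H.gr (by linarith [H.hb]) hfr zb (by linarith)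
  have z8 : p.1 ∈ tube M.π M.ρ x M.S M.w := by
    have : M.reg x ⊆ tube M.π M.ρ x M.S M.w := H.gr.gr.Kc_subset hfr 0 (by linarith)
    exact this z7
  obtain ⟨z9, z10⟩ := tube_bd H.gr.gr z8 z4
  have z11 : ‖St.a M x p.1‖ ≤ A := by
    have := norm_a (M := M) (x := x) p.1
    have h3 : M.S * ‖St.a M x p.1‖ ≤ M.S * A := by rw [this]; exact z1
    exact le_of_mul_le_mul_left h3 hS
  refine ⟨z7, z8, z4, z6, z11, z9, z10, ?_⟩
  have z12 : ‖St.X M x p.1‖ ≤ R0 M l * (1 + δ / 16) + h / 4 := by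
    have : St.X M x p.1 = (St.X M x p.1 - St.a M x p.1) + St.a M x p.1 := by abel
    rw [this]
    refine (norm_add_le _ _).trans ?_
    rw [e16] at hA
    linarith
  refine (H.x_le p.1).trans ?_
  rw [e64, ← hSR, e4, mul_assoc M.S]
  rw [mul_left_comm]
  refine mul_le_mul_of_nonneg_left ?_ hS.le
  have z13 : ‖St.X M x p.1‖ ≤ R0 M l * (1 + δ / 8) := by
    refine z12.trans ?_
    nlinarith
  calc (1 + δ / 64) * ‖St.X M x p.1‖ ≤ (1 + δ / 64) * (R0 M l * (1 + δ / 8)) :=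
        mul_le_mul_of_nonneg_left z13 (by linarith)
    _ = R0 M l * ((1 + δ / 64) * (1 + δ / 8)) := by ring
    _ ≤ R0 M l * (1 + δ / 4) := mul_le_mul_of_nonneg_left (by nlinarith) hR.le

/-- **points with foot near the ball lie in the cylinder.** -/
theorem inZX (H : Pk U D Q x M ε Λ l K b η h T B) :
    ∀ᵐ p ∂(VD D), p.1 ∈ M.reg x → ‖St.X M x p.1‖ ≤ R0 M l * (1 + 1 / (256 * K)) →
      p.1 ∈ Zc M x (R0 M l * (1 + 1 / (128 * K))) := by
  have hS := M.S_pos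
  have hR := R0_pos M l
  obtain ⟨k0, k1⟩ := H.dK
  have hK0 : 0 < K := by linarith [H.K32]
  have e4 : 1 / (4 * K) = 1 / K / 4 := by field_simp
  have e64 : 1 / (64 * K) = 1 / K / 64 := by field_simp
  have e256 : 1 / (256 * K) = 1 / K / 256 := by field_simp
  have e128 : 1 / (128 * K) = 1 / K / 128 := by field_simp
  have e512 : R0 M l / (512 * K) = R0 M l * (1 / K) / 512 := by field_simp
  have hSR := S_R0 M l
  have hη := H.hη
  rw [e512] at hη
  have hE := Real.exp_pos l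
  have hfr := H.sit.pack.frame
  filter_upwards [H.fine] with p h1 hr hx
  have h3 := H.x_le p.1
  rw [e256] at hx
  rw [e4] at h1
  rw [e64] at h3
  set δ := 1 / K with hδ
  have h2 := h1 hr (by
    refine h3.trans ?_
    rw [← hSR, mul_assoc M.S, mul_left_comm]
    refine mul_le_mul_of_nonneg_left ?_ hS.le
    calc (1 + δ / 64) * ‖St.X M x p.1‖ ≤ (1 + δ / 64) * (R0 M l * (1 + δ / 256)) :=
          mul_le_mul_of_nonneg_left hx (by linarith)
      _ = R0 M l * ((1 + δ / 64) * (1 + δ / 256)) := by ring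
      _ ≤ R0 M l * (1 + δ / 4) := mul_le_mul_of_nonneg_left (by nlinarith) hR.le)
  have z8 : p.1 ∈ tube M.π M.ρ x M.S M.w := by
    have : M.reg x ⊆ tube M.π M.ρ x M.S M.w := H.gr.gr.Kc_subset hfr 0 (by linarith)
    exact this hr
  obtain ⟨z9, z10⟩ := tube_bd H.gr.gr z8 h2
  refine ⟨?_, Stp_518.rho_le_of_reg H.gr (by linarith [H.hb]) hfr hr⟩
  rw [← norm_a (M := M) (x := x) p.1]
  refine mul_le_mul_of_nonneg_left ?_ hS.le
  have h5 : ‖St.a M x p.1‖ ≤ ‖St.X M x p.1‖ + ‖St.X M x p.1 - St.a M x p.1‖ :=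
    norm_le_norm_add_norm_sub _ _
  rw [e128]
  nlinarith

/-- **points of the chart ball lie in the cylinder.** -/
theorem inZ (H : Pk U D Q x M ε Λ l K b η h T B) :
    ∀ᵐ p ∂(VD D), p.1 ∈ M.reg x → ‖(M.ch x).x p.1‖ ≤ Real.exp l * (1 + 1 / (256 * K)) →
      p.1 ∈ Zc M x (R0 M l * (1 + 1 / (128 * K))) := by
  have hS := M.S_pos
  filter_upwards [H.inZX] with p h1 hr hx
  refine h1 hr ?_
  have : M.S * ‖St.X M x p.1‖ ≤ M.S * (R0 M l * (1 + 1 / (256 * K))) := by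
    rw [← mul_assoc, S_R0]; exact (H.le_x p.1).trans hx
  exact le_of_mul_le_mul_left this hS

end Pk

/-- the second reference. -/
structure Pn (M N : Mo m n k) (l K b σ τ : ℝ) : Prop where
  hπ : N.π = M.π
  hρ : N.ρ = M.ρ
  hlb : N.lb = M.lb
  gr : GrB N b
  σ0 : 0 ≤ σ
  hσ : σ ≤ R0 M l / (512 * K)
  g0 : ∀ X, ‖N.u X - M.u X‖ ≤ σ
  g1 : ∀ X, ‖fderiv ℝ N.u X - fderiv ℝ M.u X‖ ≤ σ
  g2 : ∀ X, ‖fderiv ℝ (fderiv ℝ N.u) X - fderiv ℝ (fderiv ℝ M.u) X‖ ≤ σ
  τ0 : 0 ≤ τ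
  τ1 : τ ≤ 1
  t0 : ∀ X ∈ ball (0 : Euc m) (R0 M l * (1 + 1 / (64 * K))), ‖N.u X - M.u X‖ ≤ τ
  t1 : ∀ X ∈ ball (0 : Euc m) (R0 M l * (1 + 1 / (64 * K))),
    ‖fderiv ℝ N.u X - fderiv ℝ M.u X‖ ≤ τ
  t2 : ∀ X ∈ ball (0 : Euc m) (R0 M l * (1 + 1 / (64 * K))),
    ‖fderiv ℝ (fderiv ℝ N.u) X - fderiv ℝ (fderiv ℝ M.u) X‖ ≤ τ

namespace Pk

variable {U : Set (Euc k)} {D : VarifoldData m k} {Q : ℕ} {x : Euc k} {M N : Mo m n k}
  {ε Λ l K b η h T B σ τ : ℝ}

theorem hS' (P : Pn M N l K b σ τ) : N.S = M.S := by unfold Mo.S; rw [P.hlb]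

theorem a_eq (P : Pn M N l K b σ τ) (z : Euc k) : St.a N x z = St.a M x z := by
  rw [St.a, St.a, P.hπ, hS' P]

theorem b_eq (P : Pn M N l K b σ τ) (z : Euc k) : St.b N x z = St.b M x z := by
  rw [St.b, St.b, P.hρ, hS' P]

theorem hu' (P : Pn M N l K b σ τ) : Differentiable ℝ N.u :=
  P.gr.cu.differentiable (by norm_num)

theorem cd2 (g : GrB M b) : ContDiff ℝ 2 M.u := g.cu.of_le (by norm_num)

theorem b0 (g : GrB M b) : 0 ≤ b := (norm_nonneg _).trans (g.b0 0)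

/-- the two references, globally. -/
theorem cl_glob (H : Pk U D Q x M ε Λ l K b η h T B) (P : Pn M N l K b σ τ) :
    Cl M.u N.u univ b σ where
  conv := convex_univ
  cu := cd2 H.gr
  cu' := cd2 P.gr
  κ0 := b0 H.gr
  κ1 := by linarith [H.hb]
  τ0 := P.σ0
  τ1 := by
    have h1 := P.hσ
    have h2 := H.R0_le
    have h3 := H.K32
    have h4 : R0 M l / (512 * K) ≤ 1 := by
      rw [div_le_one (by linarith)]
      linarith
    linarith
  d1 := fun X _ => H.gr.b1 X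
  d1' := fun X _ => P.gr.b1 X
  d2 := fun X _ => H.gr.b2 X
  w0 := fun X _ => P.g0 X
  w1 := fun X _ => P.g1 X
  w2 := fun X _ => P.g2 X

/-- the two references, near the origin. -/
theorem cl_loc (H : Pk U D Q x M ε Λ l K b η h T B) (P : Pn M N l K b σ τ) :
    Cl M.u N.u (ball 0 (R0 M l * (1 + 1 / (64 * K)))) b τ where
  conv := convex_ball _ _
  cu := cd2 H.gr
  cu' := cd2 P.gr
  κ0 := b0 H.gr
  κ1 := by linarith [H.hb]
  τ0 := P.τ0
  τ1 := P.τ1
  d1 := fun X _ => H.gr.b1 X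
  d1' := fun X _ => P.gr.b1 X
  d2 := fun X _ => H.gr.b2 X
  w0 := P.t0
  w1 := P.t1
  w2 := P.t2

/-- a crude bound in the ball `4 S`. -/
theorem crude (H : Pk U D Q x M ε Λ l K b η h T B) (P : Pn M N l K b σ τ) :
    ∀ᵐ p ∂(VD D), p.1 ∈ Metric.ball x (4 * M.S) → ‖hgt M.π M.ρ x M.S M.u p.1‖ ≤ M.S * (1 / 8) ∧
      ‖hgt N.π N.ρ x N.S N.u p.1‖ ≤ M.S * (1 / 8) ∧ ‖M.ρ (p.1 - x)‖ ≤ M.S := by
  have hS := M.S_pos
  filter_upwards [H.sit.pack.supae] with p h1 hb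
  have h2 := h1 hb
  have h3 : ε * M.S ≤ 1 / 16 * M.S := mul_le_mul_of_nonneg_right H.hε hS.le
  have h4 := H.gr.w0 (M.π (p.1 - x))
  have h5 := P.gr.w0 (N.π (p.1 - x))
  rw [hS' P] at h5
  have h6 : M.S * b ≤ M.S * (1 / 16) := mul_le_mul_of_nonneg_left H.hb hS.le
  refine ⟨?_, ?_, by linarith⟩
  · rw [Mo.hgt_eq]
    refine (norm_sub_le _ _).trans ?_
    linarith
  · rw [Mo.hgt_eq]
    refine (norm_sub_le _ _).trans ?_
    rw [P.hρ]
    linarith

theorem reg_ball (g : GrB M b) (hb : b ≤ 1 / 16) (hf : Frame M.π M.ρ) :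
    M.reg x ⊆ Metric.ball x (4 * M.S) := by
  have hS := M.S_pos
  have h1 : ‖M.w 0‖ ≤ 1 / 8 * M.S := by
    refine (g.w0 0).trans ?_
    nlinarith
  refine (Mono_757.reg_subset_ball g.gr hf h1).trans (closedBall_subset_ball (by linarith))

/-- **points of the second region outside the cylinder are far in the second chart.** -/
theorem far (H : Pk U D Q x M ε Λ l K b η h T B) (P : Pn M N l K b σ τ) :
    ∀ᵐ p ∂(VD D), p.1 ∈ N.reg x → p.1 ∉ Zc M x (R0 M l * (1 + 1 / (128 * K))) →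
      Real.exp l ≤ ‖(N.ch x).x p.1‖ := by
  have hS := M.S_pos
  have hR := R0_pos M l
  have hR1 := H.R0_le
  obtain ⟨k0, k1⟩ := H.dK
  have hK0 : 0 < K := by linarith [H.K32]
  have e4 : 1 / (4 * K) = 1 / K / 4 := by field_simp
  have e64 : 1 / (64 * K) = 1 / K / 64 := by field_simp
  have e128 : 1 / (128 * K) = 1 / K / 128 := by field_simp
  have e512 : R0 M l / (512 * K) = R0 M l * (1 / K) / 512 := by field_simp
  have hSR := S_R0 M l
  have hη := H.hη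
  have hσ := P.hσ
  rw [e512] at hη hσ
  have hfr := H.sit.pack.frame
  have hfr' : Frame N.π N.ρ := by rw [P.hπ, P.hρ]; exact hfr
  filter_upwards [H.crude P, H.fine] with p h1 h2 hr hZ
  by_contra hc
  push Not at hc
  apply hZ
  have r1 : p.1 ∈ Metric.ball x (4 * M.S) := by
    have := reg_ball P.gr H.hb hfr' hr
    rwa [hS' P] at this
  obtain ⟨c1, c2, c3⟩ := h1 r1
  have t1 : p.1 ∈ tube M.π M.ρ x M.S M.w := by
    show ‖hgt M.π M.ρ x M.S M.u p.1‖ < M.S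
    linarith
  have t2 : p.1 ∈ tube N.π N.ρ x N.S N.w := by
    show ‖hgt N.π N.ρ x N.S N.u p.1‖ < N.S
    have := hS' P
    linarith
  have f1 := St.isFoot (x := x) H.hu H.gr.gr t1
  have f2 := St.isFoot (x := x) (hu' P) P.gr.gr t2
  rw [a_eq P, b_eq P] at f2
  obtain ⟨m1, m2⟩ := tube_bd H.gr.gr t1 c1
  obtain ⟨n1, -, -⟩ := (H.cl_glob P).foot_close f1 f2 (mem_univ _) (mem_univ _) (by linarith)
  have q1 : ‖St.X N x p.1‖ ≤ R0 M l := by
    have h3 := Gr.foot_le_x (π := N.π) (ρ := N.ρ) (x := x) (S := N.S) (w := N.w) p.1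
    rw [← St.S_smul_X, norm_smul, Real.norm_of_nonneg N.S_pos.le] at h3
    have h4 : M.S * ‖St.X N x p.1‖ ≤ M.S * R0 M l := by
      rw [hSR]
      have e := hS' P
      calc M.S * ‖St.X N x p.1‖ = N.S * ‖St.X N x p.1‖ := by rw [e]
        _ ≤ _ := h3.trans hc.le
    exact le_of_mul_le_mul_left h4 hS
  have q2 : ‖St.X M x p.1‖ ≤ R0 M l + σ := by
    have : St.X M x p.1 = St.X N x p.1 - (St.X N x p.1 - St.X M x p.1) := by abel
    rw [this]
    refine (norm_sub_le _ _).trans ?_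
    linarith
  have q3 : ‖St.X M x p.1‖ ≤ R0 M l * (1 + 1 / K / 512) := by
    refine q2.trans ?_
    nlinarith
  have q4 : p.1 ∈ M.reg x := by
    unfold Mo.reg
    rw [H.gr.gr.mem_Kc hfr (by linarith)]
    refine ⟨t1, ?_, ?_⟩
    · rw [sub_zero, ← St.S_smul_X, norm_smul, Real.norm_of_nonneg hS.le, mul_comm 2]
      refine mul_le_mul_of_nonneg_left (q3.trans ?_) hS.le
      nlinarith
    · rw [← St.S_smul_Y, norm_smul, Real.norm_of_nonneg hS.le]
      have := mul_le_mul_of_nonneg_left m2 hS.le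
      linarith
  have q5 : ‖(M.ch x).x p.1‖ ≤ Real.exp l * (1 + 1 / (4 * K)) := by
    refine (H.x_le p.1).trans ?_
    rw [e64, e4, ← hSR, mul_assoc M.S, mul_left_comm]
    refine mul_le_mul_of_nonneg_left ?_ hS.le
    calc (1 + 1 / K / 64) * ‖St.X M x p.1‖ ≤ (1 + 1 / K / 64) * (R0 M l * (1 + 1 / K / 512)) :=
          mul_le_mul_of_nonneg_left q3 (by linarith)
      _ = R0 M l * ((1 + 1 / K / 64) * (1 + 1 / K / 512)) := by ring
      _ ≤ R0 M l * (1 + 1 / K / 4) := mul_le_mul_of_nonneg_left (by nlinarith) hR.le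
  have q6 := h2 q4 q5
  obtain ⟨m3, m4⟩ := tube_bd H.gr.gr t1 q6
  refine ⟨?_, c3⟩
  rw [← norm_a (M := M) (x := x) p.1]
  refine mul_le_mul_of_nonneg_left ?_ hS.le
  have h5 : ‖St.a M x p.1‖ ≤ ‖St.X M x p.1‖ + ‖St.X M x p.1 - St.a M x p.1‖ :=
    norm_le_norm_add_norm_sub _ _
  rw [e128]
  nlinarith

/-- **points of the cylinder, second reference.** -/
theorem onZ' (H : Pk U D Q x M ε Λ l K b η h T B) (P : Pn M N l K b σ τ) {A : ℝ}
    (hA : A ≤ R0 M l * (1 + 1 / (16 * K))) :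
    ∀ᵐ p ∂(VD D), p.1 ∈ Zc M x A → p.1 ∈ N.reg x ∧ p.1 ∈ tube N.π N.ρ x N.S N.w ∧
      ‖St.X N x p.1 - St.X M x p.1‖ ≤ σ := by
  have hS := M.S_pos
  have hR := R0_pos M l
  have hR1 := H.R0_le
  obtain ⟨k0, k1⟩ := H.dK
  have hK0 : 0 < K := by linarith [H.K32]
  have e16 : 1 / (16 * K) = 1 / K / 16 := by field_simp
  have e512 : R0 M l / (512 * K) = R0 M l * (1 / K) / 512 := by field_simp
  have hSR := S_R0 M l
  have hhs := H.hhs
  rw [e512] at hhs
  rw [e16] at hA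
  have hfr := H.sit.pack.frame
  have hfr' : Frame N.π N.ρ := by rw [P.hπ, P.hρ]; exact hfr
  filter_upwards [H.onZ (A := A) (by rw [e16]; exact hA), H.crude P] with p h1 h2 hz
  obtain ⟨z1, z2, z3, z4, z5, z6, z7, z8⟩ := h1 hz
  have r1 : p.1 ∈ Metric.ball x (4 * M.S) := reg_ball H.gr H.hb hfr z1
  obtain ⟨c1, c2, c3⟩ := h2 r1
  have y1 : p.1 ∈ N.reg x := by
    refine Stp_518.mem_reg P.gr (by linarith [H.hb]) hfr' ?_ ?_
    · rw [P.hπ, hS' P]
      refine hz.1.trans (mul_le_mul_of_nonneg_left ?_ hS.le)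
      refine hA.trans ?_
      nlinarith
    · rw [P.hρ, hS' P]
      linarith
  have t2 : p.1 ∈ tube N.π N.ρ x N.S N.w := by
    show ‖hgt N.π N.ρ x N.S N.u p.1‖ < N.S
    have := hS' P
    linarith
  have f1 := St.isFoot (x := x) H.hu H.gr.gr z2
  have f2 := St.isFoot (x := x) (hu' P) P.gr.gr t2
  rw [a_eq P, b_eq P] at f2
  obtain ⟨n1, -, -⟩ := (H.cl_glob P).foot_close f1 f2 (mem_univ _) (mem_univ _) (by nlinarith)
  exact ⟨y1, t2, n1⟩

/-! ### the functionals over the cylinder -/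

/-- the restricted varifold. -/
def VZ (M : Mo m n k) (x : Euc k) (V : Measure (Euc k × Vf_884.L k)) (A : ℝ) :
    Measure (Euc k × Vf_884.L k) := V.restrict (Zc M x A ×ˢ univ)

theorem reg_meas (g : GrB M b) : MeasurableSet (M.reg x ×ˢ (univ : Set (Vf_884.L k))) :=
  (g.gr.isCompact_Kc 0 _ _).isClosed.measurableSet.prod MeasurableSet.univ

/-- restriction to the cylinder, general form. -/
theorem EI_congr {V : Measure (Euc k × Vf_884.L k)} (g : GrB N b) {A y : ℝ}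
    (h1 : ∀ᵐ p ∂V, p.1 ∈ N.reg x → p.1 ∉ Zc M x A → Real.exp y ≤ ‖(N.ch x).x p.1‖)
    (h2 : ∀ᵐ p ∂V, p.1 ∈ Zc M x A → p.1 ∈ N.reg x) {q q' : ℝ → ℝ} (hq : Ker q q') (Q : ℝ) :
    GL_394.EE (N.ch x) (N.VM x V) q Q y = GL_394.EE (N.ch x) (VZ M x V A) q Q y ∧
    GL_394.II (N.ch x) (N.VM x V) q y = GL_394.II (N.ch x) (VZ M x V A) q y := by
  have e1 : V.restrict ((N.reg x ×ˢ univ) ∩ (Zc M x A ×ˢ univ)) =
      V.restrict (Zc M x A ×ˢ (univ : Set (Vf_884.L k))) := by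
    refine Measure.restrict_congr_set ?_
    filter_upwards [h2] with p hp
    exact propext ⟨fun h => h.2, fun h => ⟨⟨hp h.1, mem_univ _⟩, h⟩⟩
  have h3 : ∀ᵐ p ∂V, p ∈ N.reg x ×ˢ (univ : Set (Vf_884.L k)) →
      p ∉ Zc M x A ×ˢ (univ : Set (Vf_884.L k)) → Real.exp y ≤ ‖(N.ch x).x p.1‖ := by
    filter_upwards [h1] with p hp a1 a2
    exact hp a1.1 (fun hc => a2 ⟨hc, mem_univ _⟩)
  constructor
  · have := Swb_159.EE_restrict (c := N.ch x) (reg_meas g) (measurableSet_Zc M x A) hq h3 Q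
    rw [e1] at this
    exact this
  · have := Swb_159.II_restrict (c := N.ch x) (reg_meas g) (measurableSet_Zc M x A) hq h3
    rw [e1] at this
    exact this

/-- **the functionals of the first reference.** -/
theorem EI_M (H : Pk U D Q x M ε Λ l K b η h T B) {y : ℝ} (hy : y ≤ l) {q q' : ℝ → ℝ}
    (hq : Ker q q') (Q' : ℝ) :
    GL_394.EE (M.ch x) (M.VM x (VD D)) q Q' y =
      GL_394.EE (M.ch x) (VZ M x (VD D) (R0 M l * (1 + 1 / (128 * K)))) q Q' y ∧
    GL_394.II (M.ch x) (M.VM x (VD D)) q y =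
      GL_394.II (M.ch x) (VZ M x (VD D) (R0 M l * (1 + 1 / (128 * K)))) q y := by
  have hK0 : 0 < K := by linarith [H.K32]
  refine EI_congr H.gr ?_ ?_ hq Q'
  · filter_upwards [H.inZ] with p h1 hr hz
    by_contra hc
    push Not at hc
    refine hz (h1 hr (hc.le.trans ?_))
    have h2 : Real.exp y ≤ Real.exp l := Real.exp_le_exp.2 hy
    have h3 : 0 < 1 / (256 * K) := by positivity
    have := Real.exp_pos l
    nlinarith
  · filter_upwards [H.onZ (A := R0 M l * (1 + 1 / (128 * K))) (by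
      refine mul_le_mul_of_nonneg_left ?_ (R0_pos M l).le
      have : 1 / (128 * K) ≤ 1 / (16 * K) := by
        rw [div_le_div_iff₀ (by positivity) (by positivity)]; linarith
      linarith)] with p h1 hz
    exact (h1 hz).1

/-- **the functionals of the second reference.** -/
theorem EI_N (H : Pk U D Q x M ε Λ l K b η h T B) (P : Pn M N l K b σ τ) {y : ℝ} (hy : y ≤ l)
    {q q' : ℝ → ℝ} (hq : Ker q q') (Q' : ℝ) :
    GL_394.EE (N.ch x) (N.VM x (VD D)) q Q' y =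
      GL_394.EE (N.ch x) (VZ M x (VD D) (R0 M l * (1 + 1 / (128 * K)))) q Q' y ∧
    GL_394.II (N.ch x) (N.VM x (VD D)) q y =
      GL_394.II (N.ch x) (VZ M x (VD D) (R0 M l * (1 + 1 / (128 * K)))) q y := by
  have hK0 : 0 < K := by linarith [H.K32]
  refine EI_congr P.gr ?_ ?_ hq Q'
  · filter_upwards [H.far P] with p h1 hr hz
    exact (Real.exp_le_exp.2 hy).trans (h1 hr hz)
  · filter_upwards [H.onZ' P (A := R0 M l * (1 + 1 / (128 * K))) (by
      refine mul_le_mul_of_nonneg_left ?_ (R0_pos M l).le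
      have : 1 / (128 * K) ≤ 1 / (16 * K) := by
        rw [div_le_div_iff₀ (by positivity) (by positivity)]; linarith
      linarith)] with p h1 hz
    exact (h1 hz).1

end Pk

end Crest.Agent.R234.Sw_733
end
end

-- ▼ part R234/Sw16_733
section

/-! # Row 234, VF-F6 (helper733), part 16: the switch for two references -/

set_option autoImplicit false
set_option linter.unusedSectionVars false
set_option linter.unusedVariables false

open MeasureTheory Set Metric Filter Topology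
open scoped ENNReal NNReal ContDiff InnerProductSpace
open Crest.GeometryTopology.Submanifold
open Crest.Agent.R234.Ell1_3 Crest.Agent.R234.Fm_209 Crest.Agent.R234.Cy_870 Crest.Agent.R234.Vf_884
open Crest.Agent.R234.Main_456 (Frame hgt)
open Crest.Agent.R234.Stp_518 (Mo GrB)
open Crest.Agent.R234.Gi_456 (Lo Loi giB jB muG Gr tube)
open Crest.Agent.R234.GI_640 (g3 g31 g32 ker3 ker31)

noncomputable section

namespace Crest.Agent.R234.Sw_733

variable {m n k : ℕ}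

local notation "adj" => ContinuousLinearMap.adjoint

/-- change of variables for the base integral. -/
theorem St.integral_F {M : Mo m n k} {x : Euc k} (hu : Differentiable ℝ M.u) (F : Euc m → ℝ) :
    ∫ v : Euc m, F v * (M.ch x).j v =
      M.S ^ m * ∫ v, F (Lo (fderiv ℝ M.u 0) (M.S • v)) * dns (fderiv ℝ M.u v) := by
  have hS := M.S_pos
  set q0 := fderiv ℝ M.w 0 with hq0
  set T : L m := Lo q0 ∘L (M.S • ContinuousLinearMap.id ℝ (Euc m)) with hT
  have hdet : LinearMap.det (T : Euc m →ₗ[ℝ] Euc m) = M.S ^ m * (Lo q0).det := by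
    have e1 : (T : Euc m →ₗ[ℝ] Euc m) = M.S • (Lo q0 : Euc m →ₗ[ℝ] Euc m) := by
      ext v : 1
      show Lo q0 (M.S • v) = M.S • Lo q0 v
      rw [map_smul]
    rw [e1, LinearMap.det_smul, finrank_euclideanSpace_fin]
  have hd0 := Gi_456.det_Lo_pos q0
  have hne : LinearMap.det (T : Euc m →ₗ[ℝ] Euc m) ≠ 0 := by rw [hdet]; positivity
  have key : ∫ v : Euc m, F (T v) * (M.ch x).j (T v) =
      |(LinearMap.det (T : Euc m →ₗ[ℝ] Euc m))⁻¹| * ∫ v : Euc m, F v * (M.ch x).j v := by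
    have h1 : Measure.map T (volume : Measure (Euc m)) =
        ENNReal.ofReal |(LinearMap.det (T : Euc m →ₗ[ℝ] Euc m))⁻¹| • volume :=
      Measure.map_linearMap_addHaar_eq_smul_addHaar volume hne
    have h2 : MeasurableEmbedding T := by
      have h3 : IsUnit (LinearMap.det (T : Euc m →ₗ[ℝ] Euc m)) := isUnit_iff_ne_zero.2 hne
      set e := LinearEquiv.ofIsUnitDet (f := (T : Euc m →ₗ[ℝ] Euc m)) (v := Module.finBasis ℝ (Euc m))
        (v' := Module.finBasis ℝ (Euc m)) (by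
          rw [LinearMap.det_toMatrix]; exact h3) with he
      have h4 : (T : Euc m → Euc m) = e.toContinuousLinearEquiv.toHomeomorph := by
        ext v : 1
        rfl
      rw [h4]
      exact e.toContinuousLinearEquiv.toHomeomorph.measurableEmbedding
    have h5 := h2.integral_map (μ := volume) (fun v : Euc m => F v * (M.ch x).j v)
    rw [← h5, h1, integral_smul_measure, ENNReal.toReal_ofReal (abs_nonneg _), smul_eq_mul]
  have e2 : ∀ v : Euc m, F (T v) * (M.ch x).j (T v) =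
      (Lo q0).det⁻¹ * (F (Lo (fderiv ℝ M.u 0) (M.S • v)) * dns (fderiv ℝ M.u v)) := by
    intro v
    have e3 : T v = Lo q0 (M.S • v) := rfl
    have e4 : (M.ch x).j (T v) = dns (fderiv ℝ M.u v) / (Lo q0).det := by
      show dns (fderiv ℝ M.w (Gi_456.pt M.w 0 (T v))) / (Lo (fderiv ℝ M.w 0)).det = _
      rw [Gi_456.pt, e3, ← hq0, Gi_456.Loi_Lo, zero_add, Mo.fderiv_w hu]
      simp only
      rw [smul_smul, inv_mul_cancel₀ hS.ne', one_smul]
    rw [e4, e3, hq0, St.fd_w0 hu]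
    field_simp
  simp only [e2] at key
  rw [integral_const_mul, hdet, abs_of_pos (by positivity)] at key
  have h6 : ∫ v : Euc m, F v * (M.ch x).j v =
      (M.S ^ m * (Lo q0).det) * ((M.S ^ m * (Lo q0).det)⁻¹ *
        ∫ v : Euc m, F v * (M.ch x).j v) := by
    field_simp
  rw [h6, ← key]
  field_simp

/-- the zoomed cylinder. -/
theorem map_mu (M : Mo m n k) (x : Euc k) (V : Measure (Euc k × Vf_884.L k)) (A : ℝ) :
    (St.mu (M := M) (Pk.VZ M x V A)).map (Vc_164.hom x M.S) =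
      Top_395.wz m V x M.S M.π M.ρ A := by
  have hS := M.S_pos
  have hCm : MeasurableSet (Cy_870.cyl M.π M.ρ 0 A 1 ×ˢ (univ : Set (Vf_884.L k))) :=
    (Cy_870.isClosed_cyl M.π M.ρ 0 A 1).measurableSet.prod MeasurableSet.univ
  have e1 : Vc_164.hom x M.S ⁻¹' (Cy_870.cyl M.π M.ρ 0 A 1 ×ˢ univ) =
      Zc M x A ×ˢ (univ : Set (Vf_884.L k)) := by
    ext p
    have g1 : p ∈ Vc_164.hom x M.S ⁻¹' (Cy_870.cyl M.π M.ρ 0 A 1 ×ˢ univ) ↔
        ‖M.π (M.S⁻¹ • (p.1 - x)) - 0‖ ≤ A ∧ ‖M.ρ (M.S⁻¹ • (p.1 - x))‖ ≤ 1 := by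
      rw [mem_preimage, mem_prod]
      exact ⟨fun h => h.1, fun h => ⟨h, mem_univ _⟩⟩
    rw [g1, sub_zero, map_smul, map_smul, norm_smul, norm_smul, norm_inv,
      Real.norm_of_nonneg hS.le, inv_mul_le_iff₀ hS, inv_mul_le_iff₀ hS, mul_one, mem_prod]
    exact ⟨fun h => ⟨h, mem_univ _⟩, fun h => h.1⟩
  unfold St.mu Pk.VZ Top_395.wz Vc_164.resc
  rw [Measure.map_smul, Measure.restrict_smul, ← e1,
    ← Measure.restrict_map (Vc_164.measurable_hom x M.S) hCm]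

namespace Pk

variable {U : Set (Euc k)} {D : VarifoldData m k} {Q : ℕ} {x : Euc k} {M N : Mo m n k}
  {ε Λ l K b η h T B σ τ : ℝ}

/-- radius of the cylinder. -/
def A1 (M : Mo m n k) (l K : ℝ) : ℝ := R0 M l * (1 + 1 / (128 * K))

/-- the measure. -/
def mz (M : Mo m n k) (x : Euc k) (V : Measure (Euc k × Vf_884.L k)) (l K : ℝ) :
    Measure (Euc k × Vf_884.L k) := St.mu (M := M) (VZ M x V (A1 M l K))

theorem A1_le (H : Pk U D Q x M ε Λ l K b η h T B) : A1 M l K ≤ R0 M l * (1 + 1 / (16 * K)) := by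
  have hK0 : 0 < K := by linarith [H.K32]
  refine mul_le_mul_of_nonneg_left ?_ (R0_pos M l).le
  have : 1 / (128 * K) ≤ 1 / (16 * K) := by
    rw [div_le_div_iff₀ (by positivity) (by positivity)]; linarith
  linarith

theorem A1_le2 (H : Pk U D Q x M ε Λ l K b η h T B) : A1 M l K ≤ 2 := by
  have hK0 : 0 < K := by linarith [H.K32]
  have h1 := H.R0_le
  have h2 := R0_pos M l
  have h3 : 1 / (128 * K) ≤ 1 := by
    rw [div_le_one (by positivity)]; linarith [H.K32]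
  have h4 : 0 < 1 / (128 * K) := by positivity
  unfold A1
  nlinarith

theorem ae_mu {V : Measure (Euc k × Vf_884.L k)} {p : Euc k × Vf_884.L k → Prop}
    (h : ∀ᵐ q ∂V, p q) : ∀ᵐ q ∂(St.mu (M := M) V), p q :=
  Measure.ae_smul_measure h _

theorem ae_mz {V : Measure (Euc k × Vf_884.L k)} {p : Euc k × Vf_884.L k → Prop}
    (h : ∀ᵐ q ∂V, q.1 ∈ Zc M x (A1 M l K) → p q) : ∀ᵐ q ∂(mz M x V l K), p q := by
  refine ae_mu ?_
  unfold VZ
  rw [ae_restrict_iff' (measurableSet_Zc M x _)]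
  filter_upwards [h] with q hq hq2
  exact hq hq2.1

theorem mz_univ (H : Pk U D Q x M ε Λ l K b η h T B) :
    (mz M x (VD D) l K) univ ≤ ENNReal.ofReal Λ := by
  have h1 := H.sit.pack.mass_le (A1 M l K) H.A1_le2
  rw [← map_mu, Measure.map_apply (Vc_164.measurable_hom x M.S) MeasurableSet.univ] at h1
  exact h1

theorem VZ_eq (H : Pk U D Q x M ε Λ l K b η h T B) :
    VZ M x (VD D) (A1 M l K) =
      (M.VM x (VD D)).restrict (Zc M x (A1 M l K) ×ˢ (univ : Set (Vf_884.L k))) := by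
  unfold VZ Mo.VM GL_394.VK
  rw [Measure.restrict_restrict (measurableSet_Zc M x _)]
  refine Measure.restrict_congr_set ?_
  filter_upwards [H.onZ H.A1_le] with p hp
  exact propext ⟨fun h => ⟨h, (hp h.1).1, mem_univ _⟩, fun h => h.1⟩

theorem reg_tube (H : Pk U D Q x M ε Λ l K b η h T B) : M.reg x ⊆ tube M.π M.ρ x M.S M.w :=
  Stp_518.Mo.reg_subset_tube H.gr.gr H.sit.pack.frame

theorem ok (H : Pk U D Q x M ε Λ l K b η h T B) : GL_394.Ok (M.ch x) (M.reg x) univ :=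
  Stp_518.Mo.ok H.gr.gr H.sit.pack.frame

theorem isOn (H : Pk U D Q x M ε Λ l K b η h T B) : GL_394.On (M.VM x (VD D)) m (M.reg x) := by
  have hS := M.S_pos
  refine Stp_518.Mo.on_of_subset H.gr.gr (stat_VD H.sit.int H.sit.st) ?_
  refine (reg_ball H.gr H.hb H.sit.pack.frame).trans ?_
  exact (ball_subset_closedBall.trans (closedBall_subset_closedBall (by linarith))).trans H.sit.sub

theorem tau_nonneg (H : Pk U D Q x M ε Λ l K b η h T B) {p : Euc k × Vf_884.L k}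
    (h1 : p.1 ∈ tube M.π M.ρ x M.S M.w) (h2 : p.2 ∈ G m k) : 0 ≤ (M.ch x).tau p.1 p.2 :=
  GLK_128.tau0_nonneg (Gi_456.frame_fr H.sit.pack.frame)
    (H.gr.gr.inv (Gi_456.foot M.π M.ρ x M.S M.w p.1) (Y := Gi_456.yy M.π M.ρ x M.S M.w p.1)
      (H.gr.gr.norm_yy_lt h1).le) (Gv_685.pj_of_G h2)

theorem tau_int (H : Pk U D Q x M ε Λ l K b η h T B) :
    Integrable (fun p : Euc k × Vf_884.L k => (M.ch x).tau p.1 p.2) (M.VM x (VD D)) :=
  H.isOn.integrable H.ok.cpt H.ok.ctau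

/-- **the tilt against the block.** -/
theorem tl_pt (H : Pk U D Q x M ε Λ l K b η h T B) {p : Euc k × Vf_884.L k}
    (h1 : p.1 ∈ tube M.π M.ρ x M.S M.w) (h2 : p.2 ∈ G m k) :
    ‖Kb M.π M.ρ p.2 - KT (fderiv ℝ M.u (St.X M x p.1))‖ ^ 2 ≤ 2 * (M.ch x).tau p.1 p.2 := by
  have hP := Gv_685.pj_of_G h2
  have h3 := norm_block_sq_le (Gi_456.frame_fr H.sit.pack.frame)
    (H.gr.gr.inv (Gi_456.foot M.π M.ρ x M.S M.w p.1) (Y := Gi_456.yy M.π M.ρ x M.S M.w p.1)
      (H.gr.gr.norm_yy_lt h1).le) hP.idem hP.sa hP.tr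
  rw [ContinuousLinearMap.adjoint_adjoint] at h3
  have e1 : Kb M.π M.ρ p.2 - KT (fderiv ℝ M.u (St.X M x p.1)) =
      M.π ∘L p.2 ∘L adj M.ρ - ginv (fderiv ℝ M.w (Gi_456.foot M.π M.ρ x M.S M.w p.1)) ∘L
        adj (fderiv ℝ M.w (Gi_456.foot M.π M.ρ x M.S M.w p.1)) := by
    rw [St.fd_w H.hu]
    rfl
  rw [e1]
  exact h3

theorem aem_X (g : GrB M b) {V : Measure (Euc k × Vf_884.L k)} (hf : Frame M.π M.ρ)
    (h : ∀ᵐ p ∂V, p.1 ∈ tube M.π M.ρ x M.S M.w) : AEMeasurable (fun p => St.X M x p.1) V := by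
  have hS := M.S_pos
  have h1 : ContinuousOn (fun p : Euc k × Vf_884.L k => St.X M x p.1)
      (tube M.π M.ρ x M.S M.w ×ˢ univ) := by
    have h2 := g.gr.continuousOn_foot (x := x) hf
    have h3 : ContinuousOn (fun p : Euc k × Vf_884.L k =>
        Gi_456.foot M.π M.ρ x M.S M.w p.1) (tube M.π M.ρ x M.S M.w ×ˢ univ) :=
      h2.comp continuousOn_fst (fun p hp => hp.1)
    exact h3.const_smul (M.S⁻¹)
  have hm : MeasurableSet (tube M.π M.ρ x M.S M.w ×ˢ (univ : Set (Vf_884.L k))) :=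
    (g.gr.isOpen_tube).measurableSet.prod MeasurableSet.univ
  have h4 := h1.aemeasurable (μ := V) hm
  have h5 : V.restrict (tube M.π M.ρ x M.S M.w ×ˢ univ) = V :=
    Measure.restrict_eq_self_of_ae_mem (by filter_upwards [h] with p hp; exact ⟨hp, mem_univ _⟩)
  rwa [h5] at h4

/-- **the stationarity over the cylinder.** -/
theorem st (H : Pk U D Q x M ε Λ l K b η h T B) (w : Euc m → Euc n) (hw : ContDiff ℝ 2 w)
    (h0 : ∀ v, A1 M l K ≤ ‖v‖ → w v = 0) :
    ∫ p, trc (Euc n) (fderiv ℝ w (St.a M x p.1) ∘L Kb M.π M.ρ p.2) ∂(mz M x (VD D) l K) = 0 := by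
  have hS := M.S_pos
  have hst := (H.sit.pack.cyl (A1 M l K) H.A1_le2).stat (fun z => adj M.ρ (w (M.π z)))
    ((adj M.ρ).contDiff.comp ((hw.of_le (by norm_num)).comp M.π.contDiff)) (by
      intro p hp
      rw [sub_zero] at hp
      rw [h0 _ hp, map_zero])
  unfold Cy_870.FV at hst
  have e0 : ∀ p : Euc k × Vf_884.L k,
      tr (fderiv ℝ (fun z => adj M.ρ (w (M.π z))) p.1 ∘L p.2) =
        trc (Euc n) (fderiv ℝ w (M.π p.1) ∘L Kb M.π M.ρ p.2) := by
    intro p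
    have := tr_cmp (π := M.π) (ρ := M.ρ) (x₀ := (0 : Euc k)) (ξ := w) (z := p.1)
      ((hw.differentiable (by norm_num)) _) p.2
    simpa only [sub_zero] using this
  simp only [e0] at hst
  have hcont : Continuous fun p : Euc k × Vf_884.L k =>
      trc (Euc n) (fderiv ℝ w (M.π p.1) ∘L Kb M.π M.ρ p.2) := by
    have hc1 : Continuous (fderiv ℝ w) := hw.continuous_fderiv (by norm_num)
    exact (trc (Euc n)).continuous.comp ((hc1.comp (M.π.continuous.comp
      continuous_fst)).clm_comp (continuous_Kb.comp continuous_snd))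
  have h1 : ∫ p, trc (Euc n) (fderiv ℝ w (M.π p.1) ∘L Kb M.π M.ρ p.2)
        ∂((mz M x (VD D) l K).map (Vc_164.hom x M.S)) =
      ∫ p, trc (Euc n) (fderiv ℝ w (M.π (Vc_164.hom x M.S p).1) ∘L
        Kb M.π M.ρ (Vc_164.hom x M.S p).2) ∂(mz M x (VD D) l K) :=
    integral_map (Vc_164.measurable_hom x M.S).aemeasurable hcont.aestronglyMeasurable
  rw [mz, map_mu, hst] at h1
  rw [mz, h1]
  refine integral_congr_ae (Eventually.of_forall fun p => ?_)
  have e2 : M.π (Vc_164.hom x M.S p).1 = St.a M x p.1 := by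
    show M.π (M.S⁻¹ • (p.1 - x)) = M.S⁻¹ • M.π (p.1 - x)
    rw [map_smul]
  have e3 : (Vc_164.hom x M.S p).2 = p.2 := rfl
  simp only
  rw [e2, e3]

/-- **the total variation in block units.** -/
theorem tvb (H : Pk U D Q x M ε Λ l K b η h T B) {f : Euc m → ℝ} {s : ℝ} (hf : Measurable f)
    (hs : ∀ v, |f v| ≤ s) (h0 : ∀ v, R0 M l * (1 + 1 / (16 * K)) < ‖v‖ → f v = 0) :
    |(M.S ^ m)⁻¹ * ∫ p, f (St.X M x p.1) ∂(M.VM x (VD D)) -
      Q * ∫ v, f v * dns (fderiv ℝ M.u v)| ≤ s * B := by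
  have hS := M.S_pos
  have hR := R0_pos M l
  obtain ⟨k0, k1⟩ := H.dK
  have hK0 : 0 < K := by linarith [H.K32]
  have hSR := S_R0 M l
  set q0 := fderiv ℝ M.u 0 with hq0
  have hF := H.tv (fun v => f (M.S⁻¹ • Loi q0 v)) s
    (hf.comp ((continuous_const_smul M.S⁻¹).comp (Loi q0).continuous).measurable)
    (fun v => hs _) (fun v hv => by
      refine h0 _ ?_
      have h1 : ‖v‖ ≤ (1 + 1 / (64 * K)) * ‖Loi q0 v‖ := by
        have h2 := Gi_456.norm_Lo_sq q0 (Loi q0 v)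
        rw [Gi_456.Lo_Loi] at h2
        have h3 : ‖q0 (Loi q0 v)‖ ≤ 1 / (64 * K) * ‖Loi q0 v‖ :=
          (ContinuousLinearMap.le_opNorm _ _).trans
            (mul_le_mul_of_nonneg_right H.du0 (norm_nonneg _))
        have h4 : ‖q0 (Loi q0 v)‖ ^ 2 ≤ (1 / (64 * K) * ‖Loi q0 v‖) ^ 2 :=
          pow_le_pow_left₀ (norm_nonneg _) h3 2
        have h5 : 0 < 1 / (64 * K) := by positivity
        refine abs_le_of_sq_le_sq' ?_ (by positivity) |>.2
        rw [h2]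
        have := mul_nonneg h5.le (sq_nonneg ‖Loi q0 v‖)
        nlinarith
      rw [norm_smul, norm_inv, Real.norm_of_nonneg hS.le]
      have e64 : 1 / (64 * K) = 1 / K / 64 := by field_simp
      have e16 : 1 / (16 * K) = 1 / K / 16 := by field_simp
      have e8 : 1 / (8 * K) = 1 / K / 8 := by field_simp
      rw [e64] at h1
      rw [e16]
      rw [e8] at hv
      set δ := 1 / K with hδ
      rw [← hSR] at hv
      rw [lt_inv_mul_iff₀ hS]
      by_contra hc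
      push Not at hc
      have h6 : ‖v‖ ≤ (1 + δ / 64) * (M.S * (R0 M l * (1 + δ / 16))) :=
        h1.trans (mul_le_mul_of_nonneg_left hc (by linarith))
      have h7 : (1 + δ / 64) * (M.S * (R0 M l * (1 + δ / 16))) ≤ M.S * R0 M l * (1 + δ / 8) := by
        have e : (1 + δ / 64) * (M.S * (R0 M l * (1 + δ / 16))) =
            M.S * R0 M l * ((1 + δ / 64) * (1 + δ / 16)) := by ring
        rw [e]
        refine mul_le_mul_of_nonneg_left ?_ (by positivity)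
        nlinarith
      linarith)
  have e1 : ∀ z : Euc k, M.S⁻¹ • Loi q0 ((M.ch x).x z) = St.X M x z := by
    intro z
    have e2 : (M.ch x).x z = Lo q0 (Gi_456.foot M.π M.ρ x M.S M.w z) := by
      show Lo (fderiv ℝ M.w 0) (Gi_456.foot M.π M.ρ x M.S M.w z - 0) = _
      rw [sub_zero, St.fd_w0 H.hu]
    rw [e2, Gi_456.Loi_Lo]
    rfl
  simp only [e1] at hF
  rw [St.integral_F H.hu] at hF
  have e3 : ∀ v : Euc m, M.S⁻¹ • Loi q0 (Lo (fderiv ℝ M.u 0) (M.S • v)) = v := by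
    intro v
    rw [← hq0, Gi_456.Loi_Lo, smul_smul, inv_mul_cancel₀ hS.ne', one_smul]
  simp only [e3] at hF
  have e4 : (M.S ^ m)⁻¹ * ∫ p, f (St.X M x p.1) ∂(M.VM x (VD D)) -
      Q * ∫ v, f v * dns (fderiv ℝ M.u v) = (M.S ^ m)⁻¹ *
      (∫ p, f (St.X M x p.1) ∂(M.VM x (VD D)) -
        Q * (M.S ^ m * ∫ v, f v * dns (fderiv ℝ M.u v))) := by
    field_simp
  rw [e4, abs_mul, abs_of_pos (by positivity)]
  calc (M.S ^ m)⁻¹ * |∫ p, f (St.X M x p.1) ∂(M.VM x (VD D)) -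
        Q * (M.S ^ m * ∫ v, f v * dns (fderiv ℝ M.u v))| ≤ (M.S ^ m)⁻¹ * (s * (M.S ^ m * B)) :=
        mul_le_mul_of_nonneg_left hF (by positivity)
    _ = s * B := by field_simp

/-- integrals of functions of the foot over the region and over the cylinder. -/
theorem int_X (H : Pk U D Q x M ε Λ l K b η h T B) {f : Euc m → ℝ}
    (h0 : ∀ v, R0 M l * (1 + 1 / (256 * K)) < ‖v‖ → f v = 0) :
    ∫ p, f (St.X M x p.1) ∂(mz M x (VD D) l K) =
      (M.S ^ m)⁻¹ * ∫ p, f (St.X M x p.1) ∂(M.VM x (VD D)) := by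
  rw [mz, St.integral_mu, H.VZ_eq]
  congr 1
  rw [← integral_indicator (measurableSet_Zc M x _)]
  refine integral_congr_ae ?_
  have h1 : ∀ᵐ p ∂(M.VM x (VD D)), p.1 ∈ M.reg x := by
    unfold Mo.VM GL_394.VK
    filter_upwards [ae_restrict_mem (reg_meas H.gr)] with p hp
    exact hp.1
  have h2 := ae_restrict_of_ae (s := M.reg x ×ˢ (univ : Set (Vf_884.L k))) H.inZX
  have h2' : ∀ᵐ p ∂(M.VM x (VD D)), p.1 ∈ M.reg x → ‖St.X M x p.1‖ ≤ R0 M l * (1 + 1 / (256 * K)) →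
      p.1 ∈ Zc M x (R0 M l * (1 + 1 / (128 * K))) := h2
  filter_upwards [h1, h2'] with p a1 a2
  by_cases hZ : p ∈ Zc M x (A1 M l K) ×ˢ (univ : Set (Vf_884.L k))
  · rw [indicator_of_mem hZ]
  · rw [indicator_of_notMem hZ]
    refine (h0 _ ?_).symm
    by_contra hc
    push Not at hc
    exact hZ ⟨a2 a1 hc, mem_univ _⟩

end Pk

end Crest.Agent.R234.Sw_733
end
end

-- ▼ part R234/Sw17_733

/-! # Row 234, VF-F6 (helper733), part 17: **the switch for two references** -/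

set_option autoImplicit false
set_option linter.unusedSectionVars false
set_option linter.unusedVariables false

open MeasureTheory Set Metric Filter Topology
open scoped ENNReal NNReal ContDiff InnerProductSpace
open Crest.GeometryTopology.Submanifold
open Crest.Agent.R234.Ell1_3 Crest.Agent.R234.Fm_209 Crest.Agent.R234.Cy_870 Crest.Agent.R234.Vf_884
open Crest.Agent.R234.Main_456 (Frame hgt)
open Crest.Agent.R234.Stp_518 (Mo GrB)
open Crest.Agent.R234.Gi_456 (Lo Loi giB jB muG Gr tube)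
open Crest.Agent.R234.GI_640 (g3 g31 g32 ker3 ker31)

noncomputable section

namespace Crest.Agent.R234.Sw_733

variable {m n k : ℕ}

local notation "adj" => ContinuousLinearMap.adjoint

namespace Pk

variable {U : Set (Euc k)} {D : VarifoldData m k} {Q : ℕ} {x : Euc k} {M N : Mo m n k}
  {ε Λ l K b η h T B σ τ : ℝ}

theorem exp_le_R0 {y : ℝ} (hy : y ≤ l) : Real.exp (y - M.lb) ≤ R0 M l :=
  Real.exp_le_exp.2 (by linarith)

/-- **the data of the switch.** -/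
theorem se (H : Pk U D Q x M ε Λ l K b η h T B) (P : Pn M N l K b σ τ) {y Λ' : ℝ} (hy : y ≤ l)
    (hΛ : Λ ≤ Λ') (hΛ1 : 1 ≤ Λ') (hQ : (Q : ℝ) ≤ Λ') :
    SE (mz M x (VD D) l K) (fun p => St.a M x p.1) (fun p => St.b M x p.1)
      (fun p => Kb M.π M.ρ p.2) M.u N.u (fun p => St.X M x p.1) (fun p => St.X N x p.1)
      (fun p => St.Y M x p.1) (fun p => St.Y N x p.1) 0 (fun p => (M.ch x).tau p.1 p.2) Q
      (y - M.lb) b τ (R0 M l * (1 + 1 / (64 * K)) - Real.exp (y - M.lb)) (9 / 8 * h) T B Λ' := by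
  have hS := M.S_pos
  have hR := R0_pos M l
  have hR1 := H.R0_le
  obtain ⟨k0, k1⟩ := H.dK
  have hK0 : 0 < K := by linarith [H.K32]
  have hfr := H.sit.pack.frame
  have hfr' : Frame N.π N.ρ := by rw [P.hπ, P.hρ]; exact hfr
  have e64 : 1 / (64 * K) = 1 / K / 64 := by field_simp
  have e128 : 1 / (128 * K) = 1 / K / 128 := by field_simp
  have e256 : 1 / (256 * K) = 1 / K / 256 := by field_simp
  have e16 : 1 / (16 * K) = 1 / K / 16 := by field_simp
  have e512 : R0 M l / (512 * K) = R0 M l * (1 / K) / 512 := by field_simp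
  have hhs := H.hhs
  have hσ := P.hσ
  rw [e512] at hhs hσ
  have hye := exp_le_R0 (M := M) hy
  have hball : Real.exp (y - M.lb) + (R0 M l * (1 + 1 / (64 * K)) - Real.exp (y - M.lb)) =
      R0 M l * (1 + 1 / (64 * K)) := by ring
  have hRK : 0 < R0 M l * (1 / K) := by positivity
  have o1 := ae_mz (M := M) (x := x) (l := l) (K := K) (H.onZ H.A1_le)
  have o2 := ae_mz (M := M) (x := x) (l := l) (K := K) (H.onZ' P H.A1_le)
  have opl : ∀ᵐ p ∂(mz M x (VD D) l K), p.2 ∈ G m k :=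
    ae_mz (by filter_upwards [(stat_VD H.sit.int H.sit.st).conc] with p hp _; exact hp)
  have hA1 : A1 M l K = R0 M l * (1 + 1 / K / 128) := by rw [A1, e128]
  refine
    { fin := H.mz_univ.trans (ENNReal.ofReal_le_ofReal hΛ)
      L1 := hΛ1
      hQ := by rw [abs_of_nonneg (Nat.cast_nonneg _)]; exact hQ
      mα := ?_
      mβ := ?_
      mK := (continuous_Kb.comp continuous_snd).aestronglyMeasurable
      nK := by filter_upwards [opl] with p hp; exact norm_Kb_le hfr hp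
      cl := by rw [hball]; exact H.cl_loc P
      eps := by nlinarith
      mX := aem_X H.gr hfr (by filter_upwards [o1] with p hp; exact hp.2.1)
      mX' := aem_X P.gr hfr' (by filter_upwards [o2] with p hp; exact hp.2.1)
      foot := by filter_upwards [o1] with p hp; exact St.isFoot H.hu H.gr.gr hp.2.1
      foot' := ?_
      ina := ?_
      inX := ?_
      inX' := ?_
      hh := by filter_upwards [o1] with p hp; exact hp.2.2.2.2.2.2.1
      h4 := by nlinarith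
      st := ?_
      tl := by filter_upwards [o1, opl] with p hp h2; exact H.tl_pt hp.2.1 h2
      ti := ?_
      tT := ?_
      tv := ?_ }
  · have hc : Continuous fun p : Euc k × Vf_884.L k => St.a M x p.1 := by
      unfold St.a
      exact (M.π.continuous.comp (continuous_fst.sub continuous_const)).const_smul (M.S⁻¹)
    exact hc.measurable.aemeasurable
  · have hc : Continuous fun p : Euc k × Vf_884.L k => St.b M x p.1 := by
      unfold St.b
      exact (M.ρ.continuous.comp (continuous_fst.sub continuous_const)).const_smul (M.S⁻¹)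
    exact hc.measurable.aemeasurable
  · filter_upwards [o2] with p hp
    have := St.isFoot (x := x) (hu' P) P.gr.gr hp.2.1
    rwa [a_eq P, b_eq P] at this
  · filter_upwards [o1] with p hp
    rw [hball, mem_ball_zero_iff]
    have h1 := hp.2.2.2.2.1
    rw [hA1] at h1
    rw [e64]
    nlinarith
  · filter_upwards [o1] with p hp
    rw [hball, mem_ball_zero_iff]
    have h1 := hp.2.2.2.2.1
    have h2 := hp.2.2.2.2.2.1
    rw [hA1] at h1
    rw [e64]
    have h3 : ‖St.X M x p.1‖ ≤ ‖St.a M x p.1‖ + ‖St.X M x p.1 - St.a M x p.1‖ :=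
      norm_le_norm_add_norm_sub' _ _
    nlinarith
  · filter_upwards [o1, o2] with p hp hp2
    rw [hball, mem_ball_zero_iff]
    have h1 := hp.2.2.2.2.1
    have h2 := hp.2.2.2.2.2.1
    rw [hA1] at h1
    rw [e64]
    have h3 : ‖St.X M x p.1‖ ≤ ‖St.a M x p.1‖ + ‖St.X M x p.1 - St.a M x p.1‖ :=
      norm_le_norm_add_norm_sub' _ _
    have h4 : ‖St.X N x p.1‖ ≤ ‖St.X M x p.1‖ + ‖St.X N x p.1 - St.X M x p.1‖ :=
      norm_le_norm_add_norm_sub' _ _
    have h5 := hp2.2.2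
    nlinarith
  · intro w hw h0
    refine H.st w hw fun v hv => h0 v ?_
    rw [sub_zero]
    rw [hA1] at hv
    nlinarith
  · have h1 := H.tau_int
    have h2 : Integrable (fun p : Euc k × Vf_884.L k => (M.ch x).tau p.1 p.2)
        (VZ M x (VD D) (A1 M l K)) := by
      rw [H.VZ_eq]
      exact h1.restrict
    exact h2.smul_measure ENNReal.ofReal_ne_top
  · rw [mz, St.integral_mu, H.VZ_eq]
    have h1 : ∫ p in Zc M x (A1 M l K) ×ˢ univ, (M.ch x).tau p.1 p.2 ∂(M.VM x (VD D)) ≤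
        ∫ p in {p : Euc k × Vf_884.L k | ‖(M.ch x).x p.1‖ ≤ Real.exp l * (1 + 1 / (4 * K))},
          (M.ch x).tau p.1 p.2 ∂(M.VM x (VD D)) := by
      refine setIntegral_mono_set H.tau_int.integrableOn ?_ ?_
      · refine ae_restrict_of_ae ?_
        filter_upwards [H.isOn.mem] with p hp
        exact H.tau_nonneg (H.reg_tube hp.1) hp.2
      · have h2 := ae_restrict_of_ae (s := M.reg x ×ˢ (univ : Set (Vf_884.L k))) (H.onZ H.A1_le)
        have h2' : ∀ᵐ p ∂(M.VM x (VD D)), p.1 ∈ Zc M x (A1 M l K) →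
            ‖(M.ch x).x p.1‖ ≤ Real.exp l * (1 + 1 / (4 * K)) := by
          filter_upwards [h2] with p hp hz
          exact (hp hz).2.2.2.2.2.2.2
        filter_upwards [h2'] with p hp hz
        exact hp hz.1
    calc (M.S ^ m)⁻¹ * ∫ p in Zc M x (A1 M l K) ×ˢ univ, (M.ch x).tau p.1 p.2 ∂(M.VM x (VD D)) ≤
          (M.S ^ m)⁻¹ * (M.S ^ m * T) :=
          mul_le_mul_of_nonneg_left (h1.trans H.tilt) (by positivity)
      _ = T := by field_simp
  · intro f s hf hs h0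
    rw [H.int_X (f := f) (fun v hv => h0 v (by
      rw [sub_zero]
      rw [e256] at hv
      nlinarith))]
    exact H.tvb hf.measurable hs (fun v hv => h0 v (by
      rw [sub_zero]
      rw [e16] at hv
      nlinarith))

theorem mu_eq (P : Pn M N l K b σ τ) (V : Measure (Euc k × Vf_884.L k)) :
    St.mu (M := N) V = St.mu (M := M) V := by
  unfold St.mu
  rw [hS' P]

end Pk

variable (m n) in
/-- **SWITCH** for two references. -/
theorem exists_switch (T₀ Λ' : ℝ) (h1 : 1 ≤ Λ') :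
    ∃ C : ℝ, 0 ≤ C ∧ ∀ (k : ℕ) (U : Set (Euc k)) (D : VarifoldData m k) (Q : ℕ) (x : Euc k)
      (M N : Mo m n k) (ε Λ l K b η h T B σ τ : ℝ), Pk U D Q x M ε Λ l K b η h T B →
      Pn M N l K b σ τ → Λ ≤ Λ' → (Q : ℝ) ≤ Λ' → ∀ y, y ≤ l → M.lb - T₀ ≤ y →
      |N.E x (VD D) Q y - M.E x (VD D) Q y| ≤
        M.S ^ 2 * (C * τ * (τ + h + Real.sqrt T + B)) ∧
      |N.I x (VD D) y - M.I x (VD D) y| ≤ M.S ^ 2 * (C * τ * (τ + h)) := by
  obtain ⟨CE, hCE, HE⟩ := exists_Eg_switch m n ker3 ker31 (Real.exp T₀) Λ'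
  obtain ⟨CI, hCI, HI⟩ := exists_Ig_switch m n ker3 ker31 (Real.exp T₀) Λ'
  refine ⟨2 * (CE + CI), by positivity, ?_⟩
  intro k U D Q x M N ε Λ l K b η h T B σ τ H P hΛ hQ y hy hyT
  have hS := M.S_pos
  have hfr := H.sit.pack.frame
  have hfr' : Frame N.π N.ρ := by rw [P.hπ, P.hρ]; exact hfr
  have hse := H.se P hy hΛ h1 hQ
  have hl0 : y - M.lb ≤ 0 := by linarith [H.hl]
  have hb0 : Real.exp (-(y - M.lb)) ≤ Real.exp T₀ := Real.exp_le_exp.2 (by linarith)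
  have hh0 : 0 ≤ 9 / 8 * h := by linarith [H.h0]
  have k1 := HE _ _ _ _ _ _ _ _ _ _ _ _ _ _ _ _ _ _ _ _ _ hse hl0 hb0 hh0
  have k2 := HI _ _ _ _ _ _ _ _ _ _ _ _ _ _ _ _ _ _ _ _ _ hse hl0 hb0 hh0
  have a1 := (H.EI_M hy ker3 (Q : ℝ)).1.trans (St.EE_eq H.hu _ _ _ _)
  have a2 := (H.EI_M hy ker31 (Q : ℝ)).2.trans (St.II_eq H.hu hfr _ _ _)
  have b1 := (H.EI_N P hy ker3 (Q : ℝ)).1.trans (St.EE_eq (Pk.hu' P) _ _ _ _)
  have b2 := (H.EI_N P hy ker31 (Q : ℝ)).2.trans (St.II_eq (Pk.hu' P) hfr' _ _ _)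
  rw [Pk.mu_eq P, Pk.hS' P, P.hlb] at b1 b2
  have hτ := P.τ0
  have hh := H.h0
  have hsT := Real.sqrt_nonneg T
  constructor
  · have e : N.E x (VD D) Q y - M.E x (VD D) Q y =
        M.S ^ 2 * (Eg (Pk.mz M x (VD D) l K) (fun p => St.X N x p.1) N.u g3 0 Q (y - M.lb) -
          Eg (Pk.mz M x (VD D) l K) (fun p => St.X M x p.1) M.u g3 0 Q (y - M.lb)) := by
      rw [mul_sub]
      exact congrArg₂ _ b1 a1
    have hB : 0 ≤ τ * B := by
      rcases eq_or_lt_of_le hτ with h0 | h0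
      · rw [← h0, zero_mul]
      · refine mul_nonneg hτ ?_
        have h2 := H.tv (fun _ => 0) 1 measurable_const (fun v => by simp) (fun _ _ => rfl)
        simp only [integral_zero, zero_mul, mul_zero, sub_zero, abs_zero, one_mul] at h2
        exact (mul_nonneg_iff_of_pos_left (by positivity)).1 h2
    rw [e, abs_mul, abs_of_pos (by positivity)]
    refine mul_le_mul_of_nonneg_left (k1.trans ?_) (by positivity)
    have e1 : 2 * (CE + CI) * τ * (τ + h + √T + B) =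
        2 * (CE + CI) * (τ * (τ + h + √T) + τ * B) := by ring
    have e2 : CE * τ * (τ + 9 / 8 * h + √T + B) =
        CE * (τ * (τ + 9 / 8 * h + √T) + τ * B) := by ring
    rw [e1, e2]
    have e3 : τ * (τ + 9 / 8 * h + √T) ≤ 2 * (τ * (τ + h + √T)) := by
      have : 0 ≤ τ * (τ + h + √T) := by positivity
      have : τ * (τ + 9 / 8 * h + √T) ≤ τ * (2 * (τ + h + √T)) :=
        mul_le_mul_of_nonneg_left (by linarith) hτ
      linarith
    have e4 : 0 ≤ τ * (τ + h + √T) := by positivity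
    nlinarith [mul_nonneg hCE hB, mul_nonneg hCI hB, mul_nonneg hCE e4, mul_nonneg hCI e4,
      mul_le_mul_of_nonneg_left e3 hCE]
  · have e : N.I x (VD D) y - M.I x (VD D) y =
        M.S ^ 2 * (Ig (Pk.mz M x (VD D) l K) (fun p => St.X N x p.1) (fun p => St.Y N x p.1)
          N.u g31 0 (y - M.lb) -
          Ig (Pk.mz M x (VD D) l K) (fun p => St.X M x p.1) (fun p => St.Y M x p.1)
            M.u g31 0 (y - M.lb)) := by
      rw [mul_sub]
      exact congrArg₂ _ b2 a2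
    rw [e, abs_mul, abs_of_pos (by positivity)]
    refine mul_le_mul_of_nonneg_left (k2.trans ?_) (by positivity)
    have e4 : 0 ≤ τ * (τ + h) := by positivity
    have e3 : τ * (τ + 9 / 8 * h) ≤ 2 * (τ * (τ + h)) := by
      have : τ * (τ + 9 / 8 * h) ≤ τ * (2 * (τ + h)) :=
        mul_le_mul_of_nonneg_left (by linarith) hτ
      linarith
    have e1 : 2 * (CE + CI) * τ * (τ + h) = 2 * (CE + CI) * (τ * (τ + h)) := by ring
    have e2 : CI * τ * (τ + 9 / 8 * h) = CI * (τ * (τ + 9 / 8 * h)) := by ring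
    rw [e1, e2]
    nlinarith [mul_nonneg hCE e4, mul_nonneg hCI e4, mul_le_mul_of_nonneg_left e3 hCI]

end Crest.Agent.R234.Sw_733
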