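import Crest.Agent.R234.Sw1_733
import Crest.Agent.R234.Sw5_733
import Crest.Agent.R234.GLK1_128
import Crest.Agent.R234.GL1_394

-- ▼ part R234/Sw7_733
section

/-! # Row 234, VF-F6 (helper733), part 7: interpolation with finitely many derivatives -/

set_option autoImplicit false
set_option linter.unusedSectionVars false

open MeasureTheory Set Metric Filter Topology
open scoped ENNReal NNReal ContDiff

noncomputable section

namespace Crest.Agent.R234.Sw_733

variable {F : Type*} [NormedAddCommGroup F] [InnerProductSpace ℝ F] [FiniteDimensional ℝ F]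
  [MeasurableSpace F] [BorelSpace F] {G : Type*} [NormedAddCommGroup G] [NormedSpace ℝ G]
  [CompleteSpace G]

/-- Landau's inequality for iterated derivatives. -/
theorem landau_iterN {f : F → G} {j : ℕ} (hf : ContDiff ℝ ((j + 2 : ℕ) : ℕ∞) f) {x : F} {a b t : ℝ} (ht : 0 < t)
    (ha : ∀ z ∈ ball x (2 * t), ‖iteratedFDeriv ℝ j f z‖ ≤ a)
    (hb : ∀ z ∈ ball x (2 * t), ‖iteratedFDeriv ℝ (j + 2) f z‖ ≤ b) :
    ‖iteratedFDeriv ℝ (j + 1) f x‖ ≤ 2 * a / t + b * t := by
  have hx : x ∈ ball x (2 * t) := mem_ball_self (by linarith)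
  have hb0 : 0 ≤ b := (norm_nonneg _).trans (hb x hx)
  have hd : ∀ i ≤ j + 1, Differentiable ℝ (iteratedFDeriv ℝ i f) := fun i hi =>
    hf.differentiable_iteratedFDeriv (by exact_mod_cast (show i < j + 2 by omega))
  have hfd : ∀ z, fderiv ℝ (iteratedFDeriv ℝ j f) z =
      (continuousMultilinearCurryLeftEquiv ℝ (fun _ : Fin (j + 1) => F) G)
        (iteratedFDeriv ℝ (j + 1) f z) := by
    intro z
    rw [fderiv_iteratedFDeriv]
    rfl
  have h1 : ∀ z ∈ ball x (2 * t), ‖fderiv ℝ (iteratedFDeriv ℝ j f) z -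
      fderiv ℝ (iteratedFDeriv ℝ j f) x‖ ≤ b * ‖z - x‖ := by
    intro z hz
    have hiso := (continuousMultilinearCurryLeftEquiv ℝ (fun _ : Fin (j + 1) => F) G).isometry.dist_eq
      (iteratedFDeriv ℝ (j + 1) f z) (iteratedFDeriv ℝ (j + 1) f x)
    rw [← hfd, ← hfd, dist_eq_norm, dist_eq_norm] at hiso
    rw [hiso]
    refine (convex_ball x (2 * t)).norm_image_sub_le_of_norm_fderiv_le (𝕜 := ℝ)
      (f := iteratedFDeriv ℝ (j + 1) f) (fun y _ => (hd (j + 1) le_rfl) y) ?_ hx hz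
    intro y hy
    rw [norm_fderiv_iteratedFDeriv]
    exact hb y hy
  have := landau (f := iteratedFDeriv ℝ j f) (x := x) ht (fun z _ => (hd j (by omega)) z) ha h1 hb0
  rwa [norm_fderiv_iteratedFDeriv] at this

/-- the induction. -/
theorem interp_auxN {w : F → G} {J : ℕ} (hw : ContDiff ℝ ((J + 1 : ℕ) : ℕ∞) w) {A C ρ R : ℝ} (hρ : 0 < ρ)
    (_hA0 : 0 ≤ A) (hA : ∀ j ≤ J + 1, ∀ z ∈ ball (0 : F) R, ‖iteratedFDeriv ℝ j w z‖ ≤ A)
    (h0 : ∀ z ∈ ball (0 : F) R, ‖w z‖ ≤ C * ρ * A) :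
    ∀ j ≤ J, ∀ z ∈ ball (0 : F) (R - 2 * ∑ i ∈ Finset.range j, rt ρ (i + 1)),
      ‖iteratedFDeriv ℝ j w z‖ ≤ ct C j * rt ρ j * A := by
  intro j
  induction j with
  | zero =>
    intro _ z hz
    simp only [Finset.range_zero, Finset.sum_empty, mul_zero, sub_zero] at hz
    rw [norm_iteratedFDeriv_zero]
    exact h0 z hz
  | succ j ih =>
    intro hj z hz
    rw [Finset.sum_range_succ] at hz
    set S := ∑ i ∈ Finset.range j, rt ρ (i + 1) with hS
    set t := rt ρ (j + 1) with ht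
    have htp : 0 < t := rt_pos hρ _
    have hS0 : 0 ≤ S := Finset.sum_nonneg fun i _ => (rt_pos hρ _).le
    have hsub : ball z (2 * t) ⊆ ball (0 : F) (R - 2 * S) := by
      intro y hy
      rw [mem_ball_zero_iff] at hz ⊢
      rw [mem_ball, dist_eq_norm] at hy
      have : ‖y‖ ≤ ‖y - z‖ + ‖z‖ := by
        calc ‖y‖ = ‖(y - z) + z‖ := by congr 1; abel
          _ ≤ _ := norm_add_le _ _
      linarith
    have hsub2 : ball z (2 * t) ⊆ ball (0 : F) R :=
      hsub.trans (ball_subset_ball (by linarith))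
    have h1 := landau_iterN (hw.of_le (by exact_mod_cast (show j + 2 ≤ J + 1 by omega))) (j := j) (x := z) htp
      (fun y hy => ih (by omega) y (hsub hy))
      (fun y hy => hA (j + 2) (by omega) y (hsub2 hy))
    refine h1.trans (le_of_eq ?_)
    have hsq : rt ρ j = t * t := by
      rw [ht]
      change rt ρ j = Real.sqrt (rt ρ j) * Real.sqrt (rt ρ j)
      rw [Real.mul_self_sqrt (rt_pos hρ j).le]
    change 2 * (ct C j * rt ρ j * A) / t + A * t = (2 * ct C j + 1) * t * A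
    rw [hsq]
    field_simp

/-- **interpolation.**  `w` has derivatives bounded by `A` and tested averages `≤ ρ^(d+K+1) A`
with respect to a measure of lower density at scale `ρ`; then all derivatives are small. -/
theorem interpN (F : Type*) [NormedAddCommGroup F] [InnerProductSpace ℝ F] [FiniteDimensional ℝ F]
    [MeasurableSpace F] [BorelSpace F] (K J : ℕ) :
    ∃ C₀ : ℝ, 1 ≤ C₀ ∧ ∀ (G : Type) [NormedAddCommGroup G] [NormedSpace ℝ G] [CompleteSpace G]
      (d : ℕ) (μ : Measure F) (w : F → G) (r ε A ρ c : ℝ), ContDiff ℝ ((J + 1 : ℕ) : ℕ∞) w →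
      0 < ε → ε ≤ 1 → 0 < ρ → ρ ≤ 1 → 0 < c → c ≤ 1 → 0 ≤ A →
      (∀ j ≤ J + 1, ∀ z ∈ ball (0 : F) (r + ε), ‖iteratedFDeriv ℝ j w z‖ ≤ A) →
      μ (ball 0 (r + ε)) < ⊤ →
      (∀ z ∈ ball (0 : F) (r + ε / 2), c * ρ ^ d ≤ μ.real (closedBall z (ρ / 2))) →
      (∀ ζ : F → ℝ, ContDiff ℝ ∞ ζ → tsupport ζ ⊆ ball 0 (r + ε) →
        (∀ j ≤ K, ∀ z, ‖iteratedFDeriv ℝ j ζ z‖ ≤ 1) → ‖∫ z, ζ z • w z ∂μ‖ ≤ ρ ^ (d + K + 1) * A) →
      ∀ j ≤ J, ∀ z ∈ ball (0 : F) r, ‖iteratedFDeriv ℝ j w z‖ ≤ C₀ / (c * ε) * rt ρ J * A := by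
  obtain ⟨Cη, hCη1, hCη⟩ := exists_bp_bound F K
  set B : ℝ := ct (1 + Cη) J with hB
  have hB0 : 0 ≤ B := ct_nonneg (by linarith) J
  refine ⟨B + (4 * J + 4), by have : (0:ℝ) ≤ J := Nat.cast_nonneg J; linarith, ?_⟩
  intro G _ _ _ d μ w r ε A ρ c hw hε hε1 hρ hρ1 hc hc1 hA0 hA hfin hlow htest j hj z hz
  have hJ0 : (0 : ℝ) ≤ J := Nat.cast_nonneg J
  have hrt : 0 < rt ρ J := rt_pos hρ J
  by_cases hsmall : rt ρ J ≤ ε / (4 * J + 4)
  · -- the main case
    have hρε : ρ ≤ ε / 4 := by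
      have h1 : ρ ≤ rt ρ J := rt_mono hρ hρ1 (Nat.zero_le J)
      refine h1.trans (hsmall.trans ?_)
      refine div_le_div_of_nonneg_left hε.le (by norm_num) (by linarith)
    have h0 : ∀ y ∈ ball (0 : F) (r + ε / 2), ‖w y‖ ≤ ((1 + Cη) / c) * ρ * A := by
      intro y hy
      rw [mem_ball_zero_iff] at hy
      have hcb : closedBall y ρ ⊆ ball (0 : F) (r + ε) := by
        intro v hv
        rw [mem_closedBall, dist_eq_norm] at hv
        rw [mem_ball_zero_iff]
        have : ‖v‖ ≤ ‖v - y‖ + ‖y‖ := by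
          calc ‖v‖ = ‖(v - y) + y‖ := by congr 1; abel
            _ ≤ _ := norm_add_le _ _
        linarith
      set q : ℝ := (Cη * (ρ⁻¹) ^ K)⁻¹ with hq
      have hCp : 0 < Cη * (ρ⁻¹) ^ K := by positivity
      have hq0 : 0 < q := inv_pos.2 hCp
      have hζ := htest (fun v => q * bs y ρ v) (contDiff_const.mul (contDiff_bs y ρ)) ?_ ?_
      · have e1 : ∫ v, (q * bs y ρ v) • w v ∂μ = q • ∫ v, bs y ρ v • w v ∂μ := by
          rw [← integral_smul]
          refine integral_congr_ae (Eventually.of_forall fun v => ?_)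
          simp only [mul_smul]
        rw [e1, norm_smul, Real.norm_of_nonneg hq0.le] at hζ
        have hT : ‖∫ v, bs y ρ v • w v ∂μ‖ ≤ Cη * ρ ^ (d + 1) * A := by
          have h2 : ‖∫ v, bs y ρ v • w v ∂μ‖ ≤ q⁻¹ * (ρ ^ (d + K + 1) * A) := by
            rw [← mul_le_mul_iff_right₀ hq0, mul_inv_cancel_left₀ hq0.ne']
            exact hζ
          refine h2.trans (le_of_eq ?_)
          rw [hq, inv_inv, inv_pow]
          have : ρ ^ (d + K + 1) = ρ ^ (d + 1) * ρ ^ K := by ring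
          rw [this]
          field_simp
        have h3 := norm_le_of_tested μ (w := w) (x := y) (L := A * ρ) (c := c * ρ ^ d) hρ
          hw.continuous ((measure_mono hcb).trans_lt hfin) ?_ (by positivity)
          (hlow y (by rwa [mem_ball_zero_iff])) hT
        · have h30 : Cη * ρ ^ (d + 1) * A / (c * ρ ^ d) = Cη * ρ * A / c := by
            rw [pow_succ]
            field_simp
          rw [h30] at h3
          have h4 : A * ρ ≤ ρ * A / c := by
            rw [le_div_iff₀ hc]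
            nlinarith [mul_nonneg hA0 hρ.le]
          have h5 : (1 + Cη) / c * ρ * A = ρ * A / c + Cη * ρ * A / c := by
            field_simp
          rw [h5]
          linarith
        · intro v hv
          have hv' : v ∈ ball (0 : F) (r + ε) := hcb (ball_subset_closedBall hv)
          have hy' : y ∈ ball (0 : F) (r + ε) := by rw [mem_ball_zero_iff]; linarith
          have h4 := (convex_ball (0 : F) (r + ε)).norm_image_sub_le_of_norm_fderiv_le (𝕜 := ℝ)
            (f := w) (fun u _ => (hw.differentiable (by exact_mod_cast (show J + 1 ≠ 0 by omega))) u) (C := A) (fun u hu => by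
              have := hA 1 (by omega) u hu
              rwa [norm_iteratedFDeriv_one] at this) hy' hv'
          refine h4.trans ?_
          rw [mem_ball, dist_eq_norm] at hv
          exact mul_le_mul_of_nonneg_left hv.le hA0
      · refine Subset.trans ?_ hcb
        refine Subset.trans (closure_mono ?_) (bs_tsupport (x := y) hρ)
        intro v hv
        rw [Function.mem_support] at hv ⊢
        exact right_ne_zero_of_mul hv
      · intro i hi v
        have e2 : (fun v => q * bs y ρ v) = q • (fun v => bs y ρ v) := by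
          funext v; simp
        rw [e2, iteratedFDeriv_const_smul_apply ((contDiff_bs y ρ).contDiffAt.of_le
          (by exact_mod_cast le_top)), norm_smul, Real.norm_of_nonneg hq0.le]
        have := norm_iteratedFDeriv_bs_le hCη hCη1 y hρ hρ1 hi v
        calc q * ‖iteratedFDeriv ℝ i (fun v => bs y ρ v) v‖ ≤ q * (Cη * (ρ⁻¹) ^ K) :=
              mul_le_mul_of_nonneg_left this hq0.le
          _ = 1 := by rw [hq]; exact inv_mul_cancel₀ hCp.ne'
    have h1 := interp_auxN (J := J) hw hρ hA0 (R := r + ε / 2) (C := (1 + Cη) / c) (A := A)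
      (fun i hi y hy => hA i hi y (ball_subset_ball (by linarith) hy)) h0 j hj z ?_
    · refine h1.trans ?_
      have hcc : ct ((1 + Cη) / c) j ≤ ct (1 + Cη) J / c := by
        have h2 : ∀ i : ℕ, ct ((1 + Cη) / c) i ≤ ct (1 + Cη) i / c := by
          intro i
          induction i with
          | zero => exact le_rfl
          | succ i ih =>
            change 2 * ct ((1 + Cη) / c) i + 1 ≤ (2 * ct (1 + Cη) i + 1) / c
            rw [le_div_iff₀ hc] at ih ⊢
            nlinarith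
        refine (h2 j).trans ?_
        gcongr
        exact ct_mono (by linarith) hj
      have hrj : rt ρ j ≤ rt ρ J := rt_mono hρ hρ1 hj
      have h3 : ct ((1 + Cη) / c) j * rt ρ j * A ≤ (B / c) * rt ρ J * A := by
        have h0' : 0 ≤ ct ((1 + Cη) / c) j := ct_nonneg (by positivity) j
        have h4 := (rt_pos hρ j).le
        gcongr
      refine h3.trans ?_
      have h5 : B / c ≤ (B + (4 * J + 4)) / (c * ε) := by
        rw [div_le_div_iff₀ hc (by positivity)]
        have : B * (c * ε) ≤ B * c := by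
          have := mul_le_mul_of_nonneg_left hε1 (mul_nonneg hB0 hc.le)
          nlinarith
        nlinarith [mul_nonneg (by linarith : (0:ℝ) ≤ 4 * J + 4) hc.le]
      gcongr
    · have h6 : ∑ i ∈ Finset.range j, rt ρ (i + 1) ≤ J * (ε / (4 * J + 4)) := by
        calc ∑ i ∈ Finset.range j, rt ρ (i + 1) ≤ ∑ _i ∈ Finset.range j, rt ρ J := by
              refine Finset.sum_le_sum fun i hi => ?_
              have := Finset.mem_range.1 hi
              exact rt_mono hρ hρ1 (by omega)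
          _ = j * rt ρ J := by simp
          _ ≤ J * (ε / (4 * J + 4)) := by gcongr
      have h7 : (J : ℝ) * (ε / (4 * J + 4)) ≤ ε / 4 := by
        rw [mul_div_assoc', div_le_div_iff₀ (by linarith) (by norm_num)]
        nlinarith
      exact ball_subset_ball (by linarith) hz
  · -- trivial case
    rw [not_le] at hsmall
    refine (hA j (by omega) z (ball_subset_ball (by linarith) hz)).trans ?_
    have h1 : 1 ≤ (B + (4 * J + 4)) / (c * ε) * rt ρ J := by
      rw [div_lt_iff₀ (by linarith)] at hsmall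
      rw [div_mul_eq_mul_div, le_div_iff₀ (by positivity), one_mul]
      have : c * ε ≤ ε := mul_le_of_le_one_left hε.le hc1
      nlinarith [mul_nonneg hB0 hrt.le]
    nlinarith


end Crest.Agent.R234.Sw_733
end
end

-- ▼ part R234/Sw6_733
section

/-! # Row 234, VF-F6 (helper733), part 6: the height changes little when the reference is switched -/

set_option autoImplicit false
set_option linter.unusedSectionVars false

open MeasureTheory Set Metric Filter Topology
open scoped ENNReal NNReal ContDiff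
open Crest.Agent.R234.Ell1_3 Crest.Agent.R234.Fm_209

noncomputable section

namespace Crest.Agent.R234.Sw_733

variable {F V : Type} [NormedAddCommGroup F] [InnerProductSpace ℝ F] [FiniteDimensional ℝ F]
  [NormedAddCommGroup V] [InnerProductSpace ℝ V] [FiniteDimensional ℝ V]
  [MeasurableSpace F] [BorelSpace F]

/-- half of the squared distance in the normal chart: `(|qᵀ y|² + |y|²) / 2`. -/
def hf (q : F →L[ℝ] V) (y : V) : ℝ := (‖adjL q y‖ ^ 2 + ‖y‖ ^ 2) / 2

theorem hf_nonneg (q : F →L[ℝ] V) (y : V) : 0 ≤ hf q y := by unfold hf; positivity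

theorem hf_le {q : F →L[ℝ] V} (hq : ‖q‖ ≤ 1 / 4) (y : V) : hf q y ≤ ‖y‖ ^ 2 := by
  have h1 : ‖adjL q y‖ ≤ ‖y‖ := ((adjL q).le_opNorm _).trans (by
    rw [norm_adjL]; exact mul_le_of_le_one_left (norm_nonneg _) (hq.trans (by norm_num)))
  have h2 : ‖adjL q y‖ ^ 2 ≤ ‖y‖ ^ 2 := pow_le_pow_left₀ (norm_nonneg _) h1 2
  unfold hf; linarith

/-- pointwise comparison of the heights. -/
theorem Cl.hf_pt {u u' : F → V} {D : Set F} {κ τ : ℝ} (h : Cl u u' D κ τ)
    {a : F} {b : V} {x x' : F} {y y' : V}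
    (hf1 : Foot u a b x y) (hf1' : Foot u' a b x' y') (hx : x ∈ D) (hx' : x' ∈ D)
    (hy : ‖y‖ ≤ 1 / 4) :
    |hf (fderiv ℝ u' x') y' - hf (fderiv ℝ u x) y| ≤ 3 * (τ * ‖y‖ + τ ^ 2) := by
  obtain ⟨n1, n2, n3⟩ := h.foot_close hf1 hf1' hx hx' hy
  have hκ1 := h.κ1
  have hτ0 := h.τ0
  have hy0 := norm_nonneg y
  have hy0' := norm_nonneg y'
  set q := fderiv ℝ u x
  set q' := fderiv ℝ u' x'
  have hq : ‖q‖ ≤ 1 / 4 := (h.d1 x hx).trans hκ1
  have hq' : ‖q'‖ ≤ 1 / 4 := (h.d1' x' hx').trans hκ1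
  have a1 : ‖y'‖ ≤ ‖y‖ + 2 * τ := by
    have : ‖y'‖ ≤ ‖y' - y‖ + ‖y‖ := by
      calc ‖y'‖ = ‖(y' - y) + y‖ := by rw [sub_add_cancel]
        _ ≤ _ := norm_add_le _ _
    linarith
  have a2 : |‖y'‖ - ‖y‖| ≤ 2 * τ := (abs_norm_sub_norm_le _ _).trans n2
  have a3 : ‖adjL q' y' - adjL q y‖ ≤ τ := by
    have e : adjL q' y' - adjL q y = adjL q' (y' - y) + adjL (q' - q) y := by
      simp only [map_sub, sub_apply]; abel
    rw [e]
    refine (norm_add_le _ _).trans ?_
    have b1 : ‖adjL q' (y' - y)‖ ≤ 1 / 4 * (2 * τ) := ((adjL q').le_opNorm _).trans (by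
      rw [norm_adjL]; exact mul_le_mul hq' n2 (norm_nonneg _) (by norm_num))
    have b2 : ‖adjL (q' - q) y‖ ≤ (2 * τ) * (1 / 4) := ((adjL (q' - q)).le_opNorm _).trans (by
      rw [norm_adjL]; exact mul_le_mul n3 hy (norm_nonneg _) (by positivity))
    linarith
  have a4 : |‖adjL q' y'‖ - ‖adjL q y‖| ≤ τ := (abs_norm_sub_norm_le _ _).trans a3
  have a5 : ‖adjL q y‖ ≤ 1 / 4 * ‖y‖ := ((adjL q).le_opNorm _).trans (by
    rw [norm_adjL]; exact mul_le_mul_of_nonneg_right hq hy0)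
  have a6 : ‖adjL q' y'‖ ≤ 1 / 4 * ‖y'‖ := ((adjL q').le_opNorm _).trans (by
    rw [norm_adjL]; exact mul_le_mul_of_nonneg_right hq' hy0')
  have b0 := norm_nonneg (adjL q y)
  have b0' := norm_nonneg (adjL q' y')
  have e1 : hf q' y' - hf q y = ((‖adjL q' y'‖ - ‖adjL q y‖) * (‖adjL q' y'‖ + ‖adjL q y‖) +
      (‖y'‖ - ‖y‖) * (‖y'‖ + ‖y‖)) / 2 := by unfold hf; ring
  rw [e1, abs_div, abs_two]
  have c1 : |(‖adjL q' y'‖ - ‖adjL q y‖) * (‖adjL q' y'‖ + ‖adjL q y‖)| ≤
      τ * (1 / 4 * (2 * ‖y‖ + 2 * τ)) := by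
    rw [abs_mul, abs_of_nonneg (add_nonneg b0' b0)]
    exact mul_le_mul a4 (by linarith) (by positivity) hτ0
  have c2 : |(‖y'‖ - ‖y‖) * (‖y'‖ + ‖y‖)| ≤ (2 * τ) * (2 * ‖y‖ + 2 * τ) := by
    rw [abs_mul, abs_of_nonneg (add_nonneg hy0' hy0)]
    exact mul_le_mul a2 (by linarith) (by positivity) (by positivity)
  have c3 := abs_add_le ((‖adjL q' y'‖ - ‖adjL q y‖) * (‖adjL q' y'‖ + ‖adjL q y‖))
    ((‖y'‖ - ‖y‖) * (‖y'‖ + ‖y‖))
  have c4 : 0 ≤ τ * ‖y‖ := by positivity
  rw [div_le_iff₀ (by norm_num)]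
  nlinarith [sq_nonneg τ]




end Crest.Agent.R234.Sw_733
end
end

-- ▼ part R234/Sw8_733

/-! # Row 234, VF-F6 (helper733), part 8: tilt and radial test functions -/

set_option autoImplicit false
set_option linter.unusedSectionVars false

open MeasureTheory Set Metric Filter Topology
open scoped ENNReal NNReal ContDiff InnerProductSpace
open Crest.Agent.R234.Ell1_3 Crest.Agent.R234.Fm_209

noncomputable section

namespace Crest.Agent.R234.Sw_733

section Tilt

variable {E F V : Type} [NormedAddCommGroup E] [InnerProductSpace ℝ E] [FiniteDimensional ℝ E]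
  [NormedAddCommGroup F] [InnerProductSpace ℝ F] [FiniteDimensional ℝ F]
  [NormedAddCommGroup V] [InnerProductSpace ℝ V] [FiniteDimensional ℝ V]

local notation "adj" => ContinuousLinearMap.adjoint

open GLK_128

/-- the projection onto the normal space of the graph of `q`. -/
def Nq (i : F →L[ℝ] E) (j : V →L[ℝ] E) (q : F →L[ℝ] V) (hi : V →L[ℝ] V) : E →L[ℝ] E :=
  BB i j q ∘L hi ∘L adj (BB i j q)

/-- **the mixed block of the projection is close to `g⁻¹ qᵀ`, up to the tilt.** -/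
theorem norm_block_sq_le {i : F →L[ℝ] E} {j : V →L[ℝ] E} (h : Fr i j) {q : F →L[ℝ] V}
    {Y : F →L[ℝ] F} {gi : F →L[ℝ] F} {hi : V →L[ℝ] V} {Li : F →L[ℝ] F} (H : Inv q Y gi hi Li)
    {P : E →L[ℝ] E} (hP : P ∘L P = P) (hPs : adj P = P) (htr : trc E P = Module.finrank ℝ F) :
    ‖adj i ∘L P ∘L j - gi ∘L adj q‖ ^ 2 ≤ 2 * trc E (Nq i j q hi ∘L P) := by
  set T : E →L[ℝ] E := A0 i j q ∘L gi ∘L adj (A0 i j q) with hT
  have hTN : T + Nq i j q hi = ContinuousLinearMap.id ℝ E := H.decomp h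
  have hA : adj (A0 i j q) ∘L A0 i j q = gg q := A0A0 h
  have hTs : adj T = T := by
    rw [hT]
    simp only [ContinuousLinearMap.adjoint_comp, ContinuousLinearMap.adjoint_adjoint, H.gi_adj]
    rfl
  have hTT : T ∘L T = T := by
    calc T ∘L T = A0 i j q ∘L gi ∘L (adj (A0 i j q) ∘L A0 i j q) ∘L gi ∘L adj (A0 i j q) := rfl
      _ = A0 i j q ∘L (gi ∘L gg q) ∘L gi ∘L adj (A0 i j q) := by rw [hA]; rfl
      _ = T := by rw [H.g1, ContinuousLinearMap.id_comp]
  have htT : trc E T = Module.finrank ℝ F := by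
    have h1 : T = A0 i j q ∘L (gi ∘L adj (A0 i j q)) := rfl
    rw [h1, trc_comp_comm]
    have h2 : (gi ∘L adj (A0 i j q)) ∘L A0 i j q = gi ∘L gg q := by
      rw [← hA]; rfl
    rw [h2, H.g1, trc_id]
  have hblock : adj i ∘L P ∘L j - gi ∘L adj q = adj i ∘L (P - T) ∘L j := by
    have h1 : adj i ∘L T ∘L j = gi ∘L adj q := by
      have h2 : adj i ∘L A0 i j q = ContinuousLinearMap.id ℝ F := by
        ext1 v
        simp [A0, h.ii_apply, h.ij_apply]
      have h3 : adj (A0 i j q) ∘L j = adj q := by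
        ext1 v
        rw [ContinuousLinearMap.comp_apply, adj_A0_apply, h.ij_apply, h.jj_apply, zero_add]
      calc adj i ∘L T ∘L j = (adj i ∘L A0 i j q) ∘L gi ∘L (adj (A0 i j q) ∘L j) := rfl
        _ = gi ∘L adj q := by rw [h2, h3, ContinuousLinearMap.id_comp]
    rw [← h1, ContinuousLinearMap.sub_comp, ContinuousLinearMap.comp_sub]
  have hle : ‖adj i ∘L (P - T) ∘L j‖ ≤ ‖P - T‖ := by
    refine (ContinuousLinearMap.opNorm_comp_le _ _).trans ?_
    have h1 : ‖adj i‖ ≤ 1 := by rw [LinearIsometryEquiv.norm_map]; exact h.norm_i_le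
    have h2 : ‖(P - T) ∘L j‖ ≤ ‖P - T‖ := (ContinuousLinearMap.opNorm_comp_le _ _).trans
      (mul_le_of_le_one_right (norm_nonneg _) h.norm_j_le)
    calc ‖adj i‖ * ‖(P - T) ∘L j‖ ≤ 1 * ‖P - T‖ :=
          mul_le_mul h1 h2 (norm_nonneg _) zero_le_one
      _ = _ := one_mul _
  rw [hblock]
  have hsq : ‖P - T‖ ^ 2 ≤ trc E (adj (P - T) ∘L (P - T)) := norm_sq_le_trc _
  have hexp : trc E (adj (P - T) ∘L (P - T)) = 2 * trc E (Nq i j q hi ∘L P) := by
    have h1 : adj (P - T) = P - T := by rw [map_sub, hPs, hTs]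
    have h2 : (P - T) ∘L (P - T) = P - P ∘L T - T ∘L P + T := by
      rw [ContinuousLinearMap.sub_comp, ContinuousLinearMap.comp_sub,
        ContinuousLinearMap.comp_sub, hP, hTT]
      abel
    have h3 : Nq i j q hi ∘L P = P - T ∘L P := by
      have : Nq i j q hi = ContinuousLinearMap.id ℝ E - T := by rw [← hTN]; abel
      rw [this, ContinuousLinearMap.sub_comp, ContinuousLinearMap.id_comp]
    rw [h1, h2, h3, map_add, map_sub, map_sub, map_sub, trc_comp_comm P T, htr, htT]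
    ring
  calc ‖adj i ∘L (P - T) ∘L j‖ ^ 2 ≤ ‖P - T‖ ^ 2 := pow_le_pow_left₀ (norm_nonneg _) hle 2
    _ ≤ _ := hsq.trans hexp.le

end Tilt

section Radial

variable {F : Type} [NormedAddCommGroup F] [InnerProductSpace ℝ F] [FiniteDimensional ℝ F]

open Cy_870

/-- the radial function at scale `e^l`. -/
def rad (F : Type) [NormedAddCommGroup F] (g : ℝ → ℝ) (l : ℝ) (v : F) : ℝ :=
  g (Real.exp (-2 * l) * ‖v‖ ^ 2)

theorem rad_scale (g : ℝ → ℝ) (l : ℝ) (v : F) :
    rad F g l v = rad F g 0 (Real.exp (-l) • v) := by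
  unfold rad
  congr 1
  rw [norm_smul, Real.norm_of_nonneg (Real.exp_pos _).le, mul_pow, ← Real.exp_nat_mul]
  simp only [mul_zero, Real.exp_zero, one_mul]
  congr 2
  push_cast
  ring

theorem contDiff_one_of {k k' : ℝ → ℝ} (h : Ker k k') : ContDiff ℝ 1 k := by
  have hd : deriv k = k' := funext fun t => (h.der t).deriv
  rw [contDiff_one_iff_deriv]
  exact ⟨fun t => (h.der t).differentiableAt, by rw [hd]; exact h.cont⟩

theorem contDiff_two_of {g g1 g2 : ℝ → ℝ} (h : Ker g g1) (h1 : Ker g1 g2) : ContDiff ℝ 2 g := by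
  have hd : deriv g = g1 := funext fun t => (h.der t).deriv
  have : (2 : WithTop ℕ∞) = 1 + 1 := by norm_num
  rw [this, contDiff_succ_iff_deriv]
  refine ⟨fun t => (h.der t).differentiableAt, fun h => ?_, by rw [hd]; exact contDiff_one_of h1⟩
  exact absurd h (by decide)

theorem rad_zero {k k' : ℝ → ℝ} (h : Ker k k') {l : ℝ} {v : F} (hv : Real.exp l ≤ ‖v‖) :
    rad F k l v = 0 := by
  refine h.zero _ ?_
  have h1 : Real.exp l ^ 2 ≤ ‖v‖ ^ 2 := pow_le_pow_left₀ (Real.exp_pos l).le hv 2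
  have h2 : Real.exp (-2 * l) * Real.exp l ^ 2 = 1 := by
    rw [← Real.exp_nat_mul, ← Real.exp_add]
    have : -2 * l + ((2 : ℕ) : ℝ) * l = 0 := by push_cast; ring
    rw [this, Real.exp_zero]
  calc (1 : ℝ) = Real.exp (-2 * l) * Real.exp l ^ 2 := h2.symm
    _ ≤ _ := mul_le_mul_of_nonneg_left h1 (Real.exp_pos _).le

theorem rad_tsupport {k k' : ℝ → ℝ} (h : Ker k k') (l : ℝ) :
    tsupport (rad F k l) ⊆ closedBall 0 (Real.exp l) := by
  refine closure_minimal (fun v hv => ?_) isClosed_closedBall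
  rw [mem_closedBall_zero_iff]
  by_contra hc
  exact hv (rad_zero h (not_le.1 hc).le)

theorem exists_bd {G : Type*} [NormedAddCommGroup G] {f : F → G} (hf : Continuous f)
    (h0 : ∀ v, 1 < ‖v‖ → f v = 0) : ∃ C : ℝ, 0 ≤ C ∧ ∀ v, ‖f v‖ ≤ C := by
  obtain ⟨C, hC⟩ := (isCompact_closedBall (0 : F) 1).exists_bound_of_continuousOn hf.continuousOn
  refine ⟨|C|, abs_nonneg C, fun v => ?_⟩
  by_cases hv : ‖v‖ ≤ 1
  · exact (hC v (mem_closedBall_zero_iff.2 hv)).trans (le_abs_self C)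
  · rw [h0 v (not_le.1 hv), norm_zero]; exact abs_nonneg C

theorem nsm {G : Type*} [NormedAddCommGroup G] [NormedSpace ℝ G] (a : ℝ) (x : G) (ha : 0 ≤ a) :
    ‖a • x‖ = a * ‖x‖ := by rw [norm_smul, Real.norm_of_nonneg ha]

theorem fderiv_smul_arg {G : Type*} [NormedAddCommGroup G] [NormedSpace ℝ G] {f : F → G}
    (hf : Differentiable ℝ f) (s : ℝ) (v : F) :
    fderiv ℝ (fun v => f (s • v)) v = s • fderiv ℝ f (s • v) := by
  have h1 : HasFDerivAt (fun v : F => s • v) (s • ContinuousLinearMap.id ℝ F) v :=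
    (hasFDerivAt_id v).const_smul s
  have h2 := (hf (s • v)).hasFDerivAt.comp v h1
  have h3 : HasFDerivAt (fun v => f (s • v)) _ v := h2
  rw [h3.fderiv]
  ext w
  simp

/-- **bounds of the radial test functions, uniform in the scale.** -/
theorem exists_tst {g g1 g2 : ℝ → ℝ} (h : Ker g g1) (h1 : Ker g1 g2) :
    ∃ c : ℝ, 0 ≤ c ∧ ∀ l ≤ 0, Tst (rad F g l) (c * Real.exp (-2 * l)) := by
  have hcd : ContDiff ℝ 2 (rad F g 0) := by
    refine (contDiff_two_of h h1).comp (contDiff_const.mul (contDiff_norm_sq ℝ))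
  have hcd1 : ContDiff ℝ 1 (fderiv ℝ (rad F g 0)) := hcd.fderiv_right (by norm_num)
  have hts : ∀ v : F, 1 < ‖v‖ → v ∉ tsupport (rad F g 0) := by
    intro v hv hc
    have := rad_tsupport h 0 hc
    rw [Real.exp_zero, mem_closedBall_zero_iff] at this
    linarith
  obtain ⟨C0, hC0, hb0⟩ := exists_bd hcd.continuous
    (fun v hv => image_eq_zero_of_notMem_tsupport (hts v hv))
  obtain ⟨C1, hC1, hb1⟩ := exists_bd hcd1.continuous
    (fun v hv => image_eq_zero_of_notMem_tsupport fun hc => hts v hv (tsupport_fderiv_subset ℝ hc))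
  obtain ⟨C2, hC2, hb2⟩ := exists_bd (hcd1.continuous_fderiv one_ne_zero)
    (fun v hv => image_eq_zero_of_notMem_tsupport fun hc => hts v hv
      (tsupport_fderiv_subset ℝ (tsupport_fderiv_subset ℝ hc)))
  refine ⟨C0 + C1 + C2, by positivity, fun l hl => ?_⟩
  have he : 1 ≤ Real.exp (-l) := Real.one_le_exp (by linarith)
  have he2 : Real.exp (-2 * l) = Real.exp (-l) * Real.exp (-l) := by
    rw [← Real.exp_add]; congr 1; ring
  have he3 : 1 ≤ Real.exp (-2 * l) := Real.one_le_exp (by linarith)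
  have he4 : Real.exp (-l) ≤ Real.exp (-2 * l) := by rw [he2]; nlinarith
  have efun : rad F g l = fun v => rad F g 0 (Real.exp (-l) • v) := funext fun v => rad_scale g l v
  have hdiff : Differentiable ℝ (rad F g 0) := hcd.differentiable (by norm_num)
  have hdiff1 : Differentiable ℝ (fderiv ℝ (rad F g 0)) := hcd1.differentiable one_ne_zero
  have ef1 : fderiv ℝ (rad F g l) = fun v => Real.exp (-l) • fderiv ℝ (rad F g 0)
      (Real.exp (-l) • v) := by
    rw [efun]; exact funext fun v => fderiv_smul_arg hdiff _ v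
  have ef2 : ∀ v, fderiv ℝ (fderiv ℝ (rad F g l)) v = Real.exp (-l) • (Real.exp (-l) •
      fderiv ℝ (fderiv ℝ (rad F g 0)) (Real.exp (-l) • v)) := by
    intro v
    rw [ef1]
    have h2 : HasFDerivAt (fun v : F => fderiv ℝ (rad F g 0) (Real.exp (-l) • v))
        (Real.exp (-l) • fderiv ℝ (fderiv ℝ (rad F g 0)) (Real.exp (-l) • v)) v := by
      rw [← fderiv_smul_arg hdiff1]
      refine DifferentiableAt.hasFDerivAt ?_
      exact (hdiff1 _).comp v ((differentiable_id.const_smul _) v)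
    exact (h2.const_smul (Real.exp (-l))).fderiv
  refine ⟨?_, by positivity, fun v => ?_, fun v => ?_, fun v => ?_⟩
  · rw [efun]; exact hcd.comp (contDiff_const_smul _)
  · rw [efun, ← Real.norm_eq_abs]
    refine (hb0 _).trans ?_
    nlinarith
  · rw [ef1]
    simp only [norm_smul, Real.norm_of_nonneg (Real.exp_pos (-l)).le]
    have := hb1 (Real.exp (-l) • v)
    calc Real.exp (-l) * ‖fderiv ℝ (rad F g 0) (Real.exp (-l) • v)‖ ≤
          Real.exp (-2 * l) * C1 := mul_le_mul he4 this (norm_nonneg _) (Real.exp_pos _).le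
      _ ≤ _ := by nlinarith [Real.exp_pos (-2 * l)]
  · have n1 := nsm (Real.exp (-l)) (Real.exp (-l) •
      fderiv ℝ (fderiv ℝ (rad F g 0)) (Real.exp (-l) • v)) (Real.exp_pos (-l)).le
    have n2 := nsm (Real.exp (-l)) (fderiv ℝ (fderiv ℝ (rad F g 0)) (Real.exp (-l) • v))
      (Real.exp_pos (-l)).le
    rw [ef2, n1, n2, ← mul_assoc, ← he2]
    have := hb2 (Real.exp (-l) • v)
    calc Real.exp (-2 * l) * ‖fderiv ℝ (fderiv ℝ (rad F g 0)) (Real.exp (-l) • v)‖ ≤
          Real.exp (-2 * l) * C2 := mul_le_mul_of_nonneg_left this (Real.exp_pos _).le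
      _ ≤ _ := by nlinarith [Real.exp_pos (-2 * l)]

/-- bounds of the radial kernels, uniform in the scale. -/
theorem exists_lip {k k' : ℝ → ℝ} (h : Ker k k') :
    ∃ c : ℝ, 0 ≤ c ∧ ∀ l ≤ 0, (∀ v, |rad F k l v| ≤ c * Real.exp (-l)) ∧
      ∀ v v', |rad F k l v' - rad F k l v| ≤ (c * Real.exp (-l)) * ‖v' - v‖ := by
  have hcd : ContDiff ℝ 1 (rad F k 0) := by
    refine (contDiff_one_of h).comp (contDiff_const.mul (contDiff_norm_sq ℝ))
  have hts : ∀ v : F, 1 < ‖v‖ → v ∉ tsupport (rad F k 0) := by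
    intro v hv hc
    have := rad_tsupport h 0 hc
    rw [Real.exp_zero, mem_closedBall_zero_iff] at this
    linarith
  obtain ⟨C0, hC0, hb0⟩ := exists_bd hcd.continuous
    (fun v hv => image_eq_zero_of_notMem_tsupport (hts v hv))
  obtain ⟨C1, hC1, hb1⟩ := exists_bd (hcd.continuous_fderiv one_ne_zero)
    (fun v hv => image_eq_zero_of_notMem_tsupport fun hc => hts v hv (tsupport_fderiv_subset ℝ hc))
  refine ⟨C0 + C1, by positivity, fun l hl => ?_⟩
  have he : 1 ≤ Real.exp (-l) := Real.one_le_exp (by linarith)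
  refine ⟨fun v => ?_, fun v v' => ?_⟩
  · rw [rad_scale, ← Real.norm_eq_abs]
    refine (hb0 _).trans ?_
    nlinarith
  · rw [rad_scale, rad_scale (v := v)]
    have h1 := convex_univ.norm_image_sub_le_of_norm_fderiv_le (𝕜 := ℝ) (f := rad F k 0) (C := C1)
      (fun v _ => (hcd.differentiable one_ne_zero) v) (fun v _ => hb1 v)
      (mem_univ (Real.exp (-l) • v)) (mem_univ (Real.exp (-l) • v'))
    rw [← smul_sub, norm_smul, Real.norm_of_nonneg (Real.exp_pos (-l)).le, Real.norm_eq_abs] at h1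
    refine h1.trans ?_
    have := norm_nonneg (v' - v)
    have h2 : 0 ≤ Real.exp (-l) * ‖v' - v‖ := by positivity
    nlinarith

end Radial

end Crest.Agent.R234.Sw_733
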