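import Crest.Agent.R234.Thya1_685
import Crest.Agent.R234.End10_395
import Crest.Agent.R234.Main7_456
import Crest.Agent.R234.Thya4_685
import Crest.Agent.R234.Pos1_395_Mg
import Crest.Agent.R234.F11f_188
import Crest.Agent.R234.LowF19_471
import Crest.Agent.R234.Fin10_618_Mg
import Crest.Agent.R234.F41_354
import Crest.Agent.R234.Sw17_733
import Crest.Agent.R234.Sw8_733
import Crest.Agent.R234.Nrm2_842
import Crest.Agent.R234.Stp3_518
import Crest.Agent.R234.Mx17_397
import Crest.Agent.R234.Sw19_733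

-- ▼ part R234/Thya2_685
section

/-!
R234 (helper685): the component `FinAll` of `Thya1_685` from 395's `fin_sta`.
-/

set_option autoImplicit false

open MeasureTheory Filter Topology Set
open scoped ENNReal NNReal

namespace Crest.Agent.R234.Thya_685

open Crest.GeometryTopology.Submanifold Crest.Agent.R234.Vf_884
open Crest.Agent.R234.Main_456
open Crest.Agent.R234.Stp_518

/-- **END** -/
theorem finAll (hG : GLP) (m n : ℕ) (hm : 3 ≤ m) (hn : 1 ≤ n) : FinAll m n := by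
  refine ⟨0, fun Ks _ K hK Q hQ => ?_⟩
  obtain ⟨N₀, H⟩ := End_395.fin_sta hG m n Q hm hn (by omega)
  refine ⟨N₀, fun N hN => ⟨0, fun T hT c₀ _ G CK P K₀ k _ _ _ _ => ⟨1, one_pos, fun κ₀ _ _ =>
    ⟨0, fun L₁ _ => ⟨0, fun Λ₀ _ => ⟨1, one_pos, fun om _ _ => ?_⟩⟩⟩⟩⟩⟩
  refine ⟨4, 8 * Real.exp (T + 5), by positivity, fun U D x r₁ hE hRU _ F => ?_⟩
  obtain ⟨C, HC⟩ := H ⟨N, Ks, T, κ₀, L₁, G, CK⟩ hN hT K hK k (κ₀ * Real.exp (-(4 / 5 * (T + 1)))) F
  refine ⟨C, fun ε hε => ?_⟩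
  obtain ⟨mu, κ₁, ε', h1, h2, H'⟩ := HC ε hε
  refine ⟨mu, κ₁, ε', h1, h2, fun r P' hr hrr hnear M l hl1 hl2 hst hF hκ hmu => ?_⟩
  exact H' U D x hE.opn hE.int hE.st hE.Th r P' hr
    ((Metric.closedBall_subset_closedBall (by gcongr)).trans hRU) hnear M l hl1 hl2 hst hF hκ hmu

end Crest.Agent.R234.Thya_685
end

-- ▼ part R234/Skel4_884
section

/-!
Row 234 (helper884, captain), skeleton part 4: the two frozen statements from the literal leaves
`StepAll`, `FlAll`, `StartAll`, `FinAll` (chain; `Thya1_685`), `SgE`, `F3E` (pinching; `Main7_456`).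
-/

set_option autoImplicit false

open MeasureTheory Crest.GeometryTopology.Submanifold
open scoped ENNReal

noncomputable section

namespace Crest.Agent.R234.Skel4_884

open Crest.Agent.R234 Crest.Agent.R234.Main_456

/-- all literal leaves that are left -/
structure Leaves : Prop where
  step : ∀ m n : ℕ, 3 ≤ m → 1 ≤ n → Thya_685.StepAll m n
  fl : ∀ m n : ℕ, 3 ≤ m → 1 ≤ n → Thya_685.FlAll m n
  start : ∀ m n : ℕ, 3 ≤ m → 1 ≤ n → Thya_685.StartAll m n
  fin : ∀ m n : ℕ, 3 ≤ m → 1 ≤ n → Thya_685.FinAll m n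
  sg : SgE
  f3 : F3E

theorem dblE (h : Leaves) : DblE :=
  Skel3_884.dblK_of (Thya_685.thyAll_of h.step h.fl h.start h.fin)

/-- **S0362** from the leaves -/
theorem s0362 (h : Leaves)
    (m n : ℕ) (hm : 1 ≤ m) (hn : 1 ≤ n) (U : Set (EuclideanSpace ℝ (Fin (m + n))))
    (hU : IsOpen U) (D : VarifoldData m (m + n)) (hDi : IsIntegralVarifoldIn U D)
    (hstat : IsStationaryIn U D) :
    dimH (singularSet m (m + n) U D) ≤ (m : ENNReal) - 1 :=
  s0362_7 (dblE h) h.sg h.f3 m n hm hn U hU D hDi hstat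

/-- **S0363** from the leaves -/
theorem s0363 (h : Leaves)
    (m n : ℕ) (hm : 1 ≤ m) (hn : 1 ≤ n) (R : ℝ) (hR : 0 < R)
    (D : VarifoldData m (m + n + 1)) (hDi : IsIntegralVarifoldIn Set.univ D)
    (hsph : ∀ i, D.chart i '' D.dom i ⊆ Metric.sphere (0 : EuclideanSpace ℝ (Fin (m + n + 1))) R)
    (hstat : ∀ X : EuclideanSpace ℝ (Fin (m + n + 1)) → EuclideanSpace ℝ (Fin (m + n + 1)),
      ContDiff ℝ 1 X → HasCompactSupport X →
      (∀ x ∈ Metric.sphere (0 : EuclideanSpace ℝ (Fin (m + n + 1))) R, inner ℝ (X x) x = 0) →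
      firstVariation D X = 0) :
    μH[(m : ℝ)] (singularSet m (m + n + 1) Set.univ D) = 0 :=
  s0363_7 (dblE h) h.sg h.f3 m n hm hn R hR D hDi hsph hstat

end Crest.Agent.R234.Skel4_884
end
end

-- ▼ part R234/Thya5_685
section

/-!
R234 (helper685): the literal leaves of `Skel4_884` from what is left.
-/

set_option autoImplicit false

namespace Crest.Agent.R234.Thya_685

/-- **F3 at the scale one** (618's `fin`, 354's `lep`) -/
theorem f3P1 (m n Q : ℕ) (hm : 3 ≤ m) (hn : 1 ≤ n) (hQ : 1 ≤ Q) :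
    F36_354.F3P1 m n (m + n) Q :=
  Fin_618.fin (by omega) (F40_354.lep m n (m + n) Q hm hn hQ)

/-- `SgE` of the skeleton -/
theorem sgE : Main_456.SgE := Qp_534.sgE_of f3P1

/-- `F3E` of the skeleton -/
theorem f3E : Main_456.F3E := LowF20_471.f3E_of f3P1

/-- **all leaves of the row from**: the step and `GLP`. -/
theorem leaves_of (h1 : ∀ m n : ℕ, 3 ≤ m → 1 ≤ n → StepAll m n) (hG : Stp_518.GLP) :
    Skel4_884.Leaves where
  step := h1
  fl m n hm _ := FL10_567.flAll m n (by omega)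
  start := F11f_188.startAll hG
  fin := finAll hG
  sg := sgE
  f3 := f3E

/-- the same from 518's text of the step -/
theorem leaves_of' (h1 : ∀ m n : ℕ, 3 ≤ m → 1 ≤ n → StepT m n) (hG : Stp_518.GLP) :
    Skel4_884.Leaves :=
  leaves_of (fun m n hm hn => stepAll_of (h1 m n hm hn)) hG

end Crest.Agent.R234.Thya_685
end

-- ▼ part R234/Swc1_395
section

/-!
# Row 234 (helper395), SWITCH: two references with small means are close (1)

* `lowbase` : the projected mass has a lower density at every scale `ρ` above the heights.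
* `close_core` : if two references have small means, their difference is small relative to its
  a priori size.
-/

set_option autoImplicit false
set_option linter.unusedSectionVars false
set_option linter.unusedVariables false

open MeasureTheory Set Metric Filter Topology
open scoped ENNReal NNReal ContDiff
open Crest.GeometryTopology.Submanifold
open Crest.Agent.R234.Ell1_3 Crest.Agent.R234.Vf_884
open Crest.Agent.R234.Main_456 (Frame hgt)
open Crest.Agent.R234.Stp_518 (Mo GrB)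
open Crest.Agent.R234.Gi_456 (Lo Loi Gr tube)
open Crest.Agent.R234.Sw_733
open Crest.Agent.R234.MG_570 (MG bar)

noncomputable section

namespace Crest.Agent.R234.Swc_395

variable {m n k : ℕ}

theorem vol_cb (z : Euc m) {r : ℝ} (hr : 0 ≤ r) :
    (volume : Measure (Euc m)).real (closedBall z r) = ome m * r ^ m := by
  have h1 := ome_pos m
  rw [measureReal_def, Measure.addHaar_closedBall volume z hr, finrank_euclideanSpace,
    Fintype.card_fin, ENNReal.toReal_mul, ENNReal.toReal_ofReal (by positivity)]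
  show r ^ m * ome m = _
  ring

variable {U : Set (Euc k)} {D : VarifoldData m k} {Q : ℕ} {x : Euc k} {M N : Mo m n k}
  {ε Λ l K b η h T B σ τ : ℝ}

/-- radius of the cylinder of the means. -/
def A2 (M : Mo m n k) (l K : ℝ) : ℝ := R0 M l * (1 + 1 / (16 * K))

/-- the projected mass, block units. -/
def base (M : Mo m n k) (x : Euc k) (D : VarifoldData m k) (l K : ℝ) : Measure (Euc m) :=
  (Top_395.wz m (VD D) x M.S M.π M.ρ (A2 M l K)).map (fun p => M.π p.1)

theorem A2_le (H : Pk U D Q x M ε Λ l K b η h T B) : A2 M l K ≤ 3 / 2 := by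
  have hK0 : 0 < K := by linarith [H.K32]
  have h1 := H.R0_le
  have h2 := R0_pos M l
  have h3 : 1 / (16 * K) ≤ 1 / 2 := by
    rw [div_le_div_iff₀ (by positivity) (by norm_num)]; linarith [H.K32]
  have h4 : 0 < 1 / (16 * K) := by positivity
  unfold A2
  nlinarith

theorem base_apply {s : Set (Euc m)} (hs : MeasurableSet s) :
    base M x D l K s = (St.mu (M := M) (Pk.VZ M x (VD D) (A2 M l K)))
      ((fun p : Euc k × Vf_884.L k => St.a M x p.1) ⁻¹' s) := by
  have hm1 : Measurable fun p : Euc k × Vf_884.L k => M.π p.1 :=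
    (M.π.continuous.comp continuous_fst).measurable
  unfold base
  rw [Measure.map_apply hm1 hs, ← map_mu, Measure.map_apply (Vc_164.measurable_hom x M.S) (hm1 hs)]
  congr 1
  ext p
  show M.π (M.S⁻¹ • (p.1 - x)) ∈ s ↔ M.S⁻¹ • M.π (p.1 - x) ∈ s
  rw [map_smul]

theorem continuous_a : Continuous fun p : Euc k × Vf_884.L k => St.a M x p.1 :=
  (M.π.continuous.comp (continuous_fst.sub continuous_const)).const_smul (M.S⁻¹)

/-- **lower density of the projected mass.** -/
theorem lowbase (H : Pk U D Q x M ε Λ l K b η h T B) {ρ : ℝ} {z : Euc m} (hρ : 0 < ρ)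
    (hhρ : h ≤ ρ) (hz : ‖z‖ + ρ / 4 ≤ R0 M l * (1 + 3 / (64 * K)))
    (hB : B ≤ ome m / 2 * (ρ / 4) ^ m) :
    ome m / 2 * (ρ / 4) ^ m ≤ (base M x D l K).real (closedBall z (ρ / 2)) := by
  have hS := M.S_pos
  have hR := R0_pos M l
  have hR1 := H.R0_le
  obtain ⟨k0, k1⟩ := H.dK
  have hK0 : 0 < K := by linarith [H.K32]
  have e4 : 1 / (4 * K) = 1 / K / 4 := by field_simp
  have e64 : 1 / (64 * K) = 1 / K / 64 := by field_simp
  have e364 : 3 / (64 * K) = 3 * (1 / K) / 64 := by field_simp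
  have e16 : 1 / (16 * K) = 1 / K / 16 := by field_simp
  have e512 : R0 M l / (512 * K) = R0 M l * (1 / K) / 512 := by field_simp
  have hSR := S_R0 M l
  have hη := H.hη
  rw [e512] at hη
  have hE := Real.exp_pos l
  have hfr := H.sit.pack.frame
  have hRK : 0 < R0 M l * (1 / K) := by positivity
  rw [e364] at hz
  set f : Euc m → ℝ := (closedBall z (ρ / 4)).indicator fun _ => (1:ℝ) with hf
  set f' : Euc m → ℝ := (closedBall z (ρ / 2)).indicator fun _ => (1:ℝ) with hf'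
  have hcb : MeasurableSet (closedBall z (ρ / 4)) := isClosed_closedBall.measurableSet
  have hcb' : MeasurableSet (closedBall z (ρ / 2)) := isClosed_closedBall.measurableSet
  -- total variation
  have htv := H.tvb (f := f) (s := 1) (measurable_const.indicator hcb) (fun v => by
    rw [hf]
    by_cases hv : v ∈ closedBall z (ρ / 4)
    · rw [indicator_of_mem hv]; simp
    · rw [indicator_of_notMem hv]; simp) (fun v hv => by
    rw [hf]
    refine indicator_of_notMem ?_ _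
    intro hc
    rw [mem_closedBall_iff_norm] at hc
    have : ‖v‖ ≤ ‖v - z‖ + ‖z‖ := by
      calc ‖v‖ = ‖(v - z) + z‖ := by congr 1; abel
        _ ≤ _ := norm_add_le _ _
    rw [e16] at hv
    nlinarith)
  rw [one_mul] at htv
  -- the area
  have hcd : Continuous fun v => dns (fderiv ℝ M.u v) :=
    dns_contDiff.continuous.comp (H.gr.cu.continuous_fderiv (by norm_num))
  have harea : ome m * (ρ / 4) ^ m ≤ ∫ v, f v * dns (fderiv ℝ M.u v) := by
    have e1 : ∫ v, f v * dns (fderiv ℝ M.u v) = ∫ v in closedBall z (ρ / 4), dns (fderiv ℝ M.u v) := by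
      rw [← integral_indicator hcb]
      refine integral_congr_ae (Eventually.of_forall fun v => ?_)
      simp only [hf]
      by_cases hv : v ∈ closedBall z (ρ / 4)
      · rw [indicator_of_mem hv, indicator_of_mem hv, one_mul]
      · rw [indicator_of_notMem hv, indicator_of_notMem hv, zero_mul]
    have hi : IntegrableOn (fun v => dns (fderiv ℝ M.u v)) (closedBall z (ρ / 4)) :=
      hcd.continuousOn.integrableOn_compact (isCompact_closedBall _ _)
    have hfin : volume (closedBall z (ρ / 4)) ≠ ⊤ := measure_closedBall_lt_top.ne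
    rw [e1]
    calc ome m * (ρ / 4) ^ m = ∫ _y in closedBall z (ρ / 4), (1:ℝ) := by
          rw [setIntegral_const, vol_cb z (by positivity), smul_eq_mul, mul_one]
      _ ≤ _ := setIntegral_mono (integrableOn_const hfin) hi fun y => Nrm_842.one_le_dns _
  have hQ : (1:ℝ) ≤ Q := by exact_mod_cast H.sit.Q1
  have ho := ome_pos m
  have hlow : ome m * (ρ / 4) ^ m - B ≤
      (M.S ^ m)⁻¹ * ∫ p, f (St.X M x p.1) ∂(M.VM x (VD D)) := by
    have h1 := (abs_le.1 htv).1
    have h2 : ome m * (ρ / 4) ^ m ≤ Q * ∫ v, f v * dns (fderiv ℝ M.u v) := by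
      have h3 : 0 ≤ ∫ v, f v * dns (fderiv ℝ M.u v) := le_trans (by positivity) harea
      nlinarith
    linarith
  -- the comparison
  set VZ := Pk.VZ M x (VD D) (A2 M l K) with hVZ
  have hfinZ : VZ univ < ⊤ := by
    have h1 := H.sit.pack.mass_le (A2 M l K) (by have := A2_le H; linarith)
    rw [← map_mu, Measure.map_apply (Vc_164.measurable_hom x M.S) MeasurableSet.univ] at h1
    have h2 : (St.mu (M := M) VZ) univ < ⊤ := lt_of_le_of_lt h1 ENNReal.ofReal_lt_top
    unfold St.mu at h2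
    rw [Measure.smul_apply, smul_eq_mul] at h2
    rcases ENNReal.mul_lt_top_iff.1 h2 with h3 | h3 | h3
    · exact h3.2
    · rw [ENNReal.ofReal_eq_zero] at h3
      have : 0 < (M.S ^ m)⁻¹ := by positivity
      linarith
    · rw [h3]; exact ENNReal.zero_lt_top
  have : IsFiniteMeasure VZ := ⟨hfinZ⟩
  have hpre : MeasurableSet ((fun p : Euc k × Vf_884.L k => St.a M x p.1) ⁻¹' closedBall z (ρ / 2)) :=
    continuous_a.measurable hcb'
  have hcomp : ∫ p, f (St.X M x p.1) ∂(M.VM x (VD D)) ≤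
      VZ.real ((fun p : Euc k × Vf_884.L k => St.a M x p.1) ⁻¹' closedBall z (ρ / 2)) := by
    have e1 : VZ.real ((fun p : Euc k × Vf_884.L k => St.a M x p.1) ⁻¹' closedBall z (ρ / 2)) =
        ∫ p, ((fun p : Euc k × Vf_884.L k => St.a M x p.1) ⁻¹' closedBall z (ρ / 2)).indicator
          (fun _ => (1:ℝ)) p ∂VZ := by
      rw [integral_indicator hpre, setIntegral_const, smul_eq_mul, mul_one]
    rw [e1, hVZ]
    unfold Pk.VZ Mo.VM GL_394.VK
    rw [← integral_indicator (Pk.reg_meas H.gr), ← integral_indicator (measurableSet_Zc M x _)]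
    refine integral_mono_of_nonneg ?_ ?_ ?_
    · refine Eventually.of_forall fun p => ?_
      refine indicator_nonneg (fun q _ => ?_) p
      exact indicator_nonneg (fun _ _ => zero_le_one) _
    · have h5 : Integrable (((fun p : Euc k × Vf_884.L k => St.a M x p.1) ⁻¹'
          closedBall z (ρ / 2)).indicator (fun _ => (1:ℝ))) VZ :=
        (integrable_const (1:ℝ)).indicator hpre
      rw [hVZ] at h5
      exact (integrable_indicator_iff (measurableSet_Zc M x _)).2 h5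
    · filter_upwards [H.fine, H.onZ (A := A2 M l K) le_rfl] with p h1 h2
      by_cases hr : p ∈ M.reg x ×ˢ (univ : Set (Vf_884.L k))
      · rw [indicator_of_mem hr]
        by_cases hX : St.X M x p.1 ∈ closedBall z (ρ / 4)
        · have hXn : ‖St.X M x p.1‖ ≤ R0 M l * (1 + 3 * (1 / K) / 64) := by
            rw [mem_closedBall_iff_norm] at hX
            have : ‖St.X M x p.1‖ ≤ ‖St.X M x p.1 - z‖ + ‖z‖ := by
              calc ‖St.X M x p.1‖ = ‖(St.X M x p.1 - z) + z‖ := by congr 1; abel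
                _ ≤ _ := norm_add_le _ _
            linarith
          have h3 := H.x_le p.1
          rw [e64] at h3
          rw [e4] at h1
          have h4 := h1 hr.1 (by
            refine h3.trans ?_
            rw [← hSR, mul_assoc M.S, mul_left_comm]
            refine mul_le_mul_of_nonneg_left ?_ hS.le
            calc (1 + 1 / K / 64) * ‖St.X M x p.1‖ ≤
                  (1 + 1 / K / 64) * (R0 M l * (1 + 3 * (1 / K) / 64)) :=
                  mul_le_mul_of_nonneg_left hXn (by linarith)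
              _ = R0 M l * ((1 + 1 / K / 64) * (1 + 3 * (1 / K) / 64)) := by ring
              _ ≤ R0 M l * (1 + 1 / K / 4) := mul_le_mul_of_nonneg_left (by nlinarith) hR.le)
          have ht : p.1 ∈ tube M.π M.ρ x M.S M.w := by
            have : M.reg x ⊆ tube M.π M.ρ x M.S M.w := H.gr.gr.Kc_subset hfr 0 (by linarith)
            exact this hr.1
          obtain ⟨z9, -⟩ := Pk.tube_bd H.gr.gr ht h4
          have hZ : p.1 ∈ Zc M x (A2 M l K) := by
            refine ⟨?_, Stp_518.rho_le_of_reg H.gr (by linarith [H.hb]) hfr hr.1⟩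
            rw [← Pk.norm_a (M := M) (x := x) p.1]
            refine mul_le_mul_of_nonneg_left ?_ hS.le
            have h5 : ‖St.a M x p.1‖ ≤ ‖St.X M x p.1‖ + ‖St.X M x p.1 - St.a M x p.1‖ :=
              norm_le_norm_add_norm_sub _ _
            unfold A2
            rw [e16]
            nlinarith
          obtain ⟨-, -, -, -, -, z6, -, -⟩ := h2 hZ
          have ha : p ∈ (fun p : Euc k × Vf_884.L k => St.a M x p.1) ⁻¹' closedBall z (ρ / 2) := by
            show St.a M x p.1 ∈ closedBall z (ρ / 2)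
            rw [mem_closedBall_iff_norm] at hX ⊢
            have : ‖St.a M x p.1 - z‖ ≤ ‖St.X M x p.1 - z‖ + ‖St.X M x p.1 - St.a M x p.1‖ := by
              calc ‖St.a M x p.1 - z‖ =
                    ‖(St.X M x p.1 - z) - (St.X M x p.1 - St.a M x p.1)‖ := by congr 1; abel
                _ ≤ _ := norm_sub_le _ _
            linarith
          have hZ' : p ∈ Zc M x (A2 M l K) ×ˢ (univ : Set (Vf_884.L k)) := ⟨hZ, mem_univ _⟩
          rw [indicator_of_mem hZ', indicator_of_mem ha, hf, indicator_of_mem hX]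
        · rw [hf, indicator_of_notMem hX]
          refine indicator_nonneg (fun q _ => ?_) p
          exact indicator_nonneg (fun _ _ => zero_le_one) _
      · rw [indicator_of_notMem hr]
        refine indicator_nonneg (fun q _ => ?_) p
        exact indicator_nonneg (fun _ _ => zero_le_one) _
  have hbase : (base M x D l K).real (closedBall z (ρ / 2)) = (M.S ^ m)⁻¹ *
      VZ.real ((fun p : Euc k × Vf_884.L k => St.a M x p.1) ⁻¹' closedBall z (ρ / 2)) := by
    rw [measureReal_def, base_apply hcb']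
    unfold St.mu
    rw [Measure.smul_apply, smul_eq_mul, ENNReal.toReal_mul,
      ENNReal.toReal_ofReal (by positivity)]
    rfl
  rw [hbase]
  have h6 : (M.S ^ m)⁻¹ * ∫ p, f (St.X M x p.1) ∂(M.VM x (VD D)) ≤ (M.S ^ m)⁻¹ *
      VZ.real ((fun p : Euc k × Vf_884.L k => St.a M x p.1) ⁻¹' closedBall z (ρ / 2)) :=
    mul_le_mul_of_nonneg_left hcomp (by positivity)
  linarith

theorem integrable_bar (hfr : Frame M.π M.ρ) {u : Euc m → Euc n} {b' : ℝ} (hu : Continuous u)
    (hub : ∀ y, ‖u y‖ ≤ b') (hs : Stp_518.Sit U D Q x M ε Λ) {A : ℝ} (hA : A ≤ 2) {ζ : Euc m → ℝ}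
    (hζ : Continuous ζ) (hζ1 : ∀ y, ‖ζ y‖ ≤ 1) :
    Integrable (fun p => ζ (M.π p.1) • (M.ρ p.1 - u (M.π p.1)))
      (Top_395.wz m (VD D) x M.S M.π M.ρ A) := by
  have hfin : IsFiniteMeasure (Top_395.wz m (VD D) x M.S M.π M.ρ A) :=
    ⟨lt_of_le_of_lt (hs.pack.mass_le A hA) ENNReal.ofReal_lt_top⟩
  have hcm : MeasurableSet (Cy_870.cyl M.π M.ρ (0 : Euc m) A 1 ×ˢ (univ : Set (Vf_884.L k))) :=
    (Cy_870.isClosed_cyl M.π M.ρ 0 A 1).measurableSet.prod MeasurableSet.univ
  have hc : Continuous fun p : Euc k × Vf_884.L k => ζ (M.π p.1) • (M.ρ p.1 - u (M.π p.1)) := by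
    fun_prop
  refine Integrable.of_bound hc.aestronglyMeasurable (1 + b') ?_
  unfold Top_395.wz
  filter_upwards [ae_restrict_mem hcm] with p hp
  have h1 : ‖M.ρ p.1‖ ≤ 1 := hp.1.2
  have h2 := hub (M.π p.1)
  have h3 := hζ1 (M.π p.1)
  rw [norm_smul]
  have h4 := norm_sub_le (M.ρ p.1) (u (M.π p.1))
  have h5 := norm_nonneg (M.ρ p.1 - u (M.π p.1))
  calc ‖ζ (M.π p.1)‖ * ‖M.ρ p.1 - u (M.π p.1)‖ ≤ 1 * ‖M.ρ p.1 - u (M.π p.1)‖ := by gcongr
    _ ≤ 1 + b' := by linarith

/-- **difference of the means.** -/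
theorem mean_diff (H : Pk U D Q x M ε Λ l K b η h T B) (hπ : N.π = M.π) (hρ : N.ρ = M.ρ)
    (hlb : N.lb = M.lb) (gN : GrB N b) {ζ : Euc m → ℝ} (hζ : Continuous ζ)
    (hζ1 : ∀ y, ‖ζ y‖ ≤ 1) (hs : ∀ y, A2 M l K < ‖y‖ → ζ y = 0) :
    M.S ^ (m + 1) • ∫ y, ζ y • (N.u y - M.u y) ∂(base M x D l K) =
      M.mean x (VD D) ζ - N.mean x (VD D) ζ := by
  have hS' : N.S = M.S := by unfold Mo.S; rw [hlb]
  have hb8 : b ≤ 1 / 8 := by linarith [H.hb]
  have hε8 : ε ≤ 1 / 8 := by linarith [H.hε]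
  have hfr := H.sit.pack.frame
  have hA := A2_le H
  have hsN : Stp_518.Sit U D Q x N ε Λ := H.sit.congr hπ hρ hlb
  have h1 := Stp_518.mean_eq_bar H.gr hb8 H.sit hε8 hA hζ hs
  have h2 := Stp_518.mean_eq_bar gN hb8 hsN hε8 hA hζ hs
  rw [hS', hπ, hρ] at h2
  rw [h1, h2, ← smul_sub]
  congr 1
  have hcu : Continuous M.u := H.gr.cu.continuous
  have hcu' : Continuous N.u := gN.cu.continuous
  unfold bar
  rw [← integral_sub (integrable_bar hfr hcu H.gr.b0 H.sit (by linarith) hζ hζ1)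
    (integrable_bar hfr hcu' gN.b0 H.sit (by linarith) hζ hζ1)]
  have hm1 : Measurable fun p : Euc k × Vf_884.L k => M.π p.1 :=
    (M.π.continuous.comp continuous_fst).measurable
  have hc : Continuous fun y => ζ y • (N.u y - M.u y) := by fun_prop
  unfold base
  rw [integral_map hm1.aemeasurable hc.aestronglyMeasurable]
  refine integral_congr_ae (Eventually.of_forall fun p => ?_)
  simp only
  rw [← smul_sub]
  congr 1
  abel

set_option maxHeartbeats 1000000 in
/-- **closeness of two references.** -/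
theorem close_core (m n Ks J : ℕ) : ∃ C₀ : ℝ, 1 ≤ C₀ ∧ ∀ (k : ℕ) (U : Set (Euc k))
    (D : VarifoldData m k) (Q : ℕ) (x : Euc k) (M N : Mo m n k)
    (ε Λ l K b η h T B A θ ρ : ℝ), Pk U D Q x M ε Λ l K b η h T B → N.π = M.π → N.ρ = M.ρ →
    N.lb = M.lb → GrB N b → ContDiff ℝ ((J + 1 : ℕ) : ℕ∞) (fun y => N.u y - M.u y) → 0 ≤ A →
    (∀ j ≤ J + 1, ∀ z, ‖iteratedFDeriv ℝ j (fun y => N.u y - M.u y) z‖ ≤ A) →
    0 < ρ → ρ ≤ R0 M l / (16 * K) → h ≤ ρ → B ≤ ome m / 2 * (ρ / 4) ^ m →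
    Stp_518.MeanK Ks M x (VD D) (R0 M l * (1 + 1 / (8 * K))) (M.S * θ) →
    Stp_518.MeanK Ks N x (VD D) (R0 M l * (1 + 1 / (8 * K))) (M.S * θ) →
    2 * θ ≤ ρ ^ (m + Ks + 1) * A →
    ∀ j ≤ J, ∀ z ∈ ball (0 : Euc m) (R0 M l * (1 + 1 / (64 * K))),
      ‖iteratedFDeriv ℝ j (fun y => N.u y - M.u y) z‖ ≤ C₀ * (K / R0 M l) * rt ρ J * A := by
  obtain ⟨C₁, hC₁, HC⟩ := interpN (Euc m) Ks J
  have ho := ome_pos m
  set c : ℝ := min 1 (ome m / (2 * 4 ^ m)) with hc
  have hc0 : 0 < c := by positivity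
  have hc1 : c ≤ 1 := min_le_left _ _
  refine ⟨64 * C₁ / c, ?_, ?_⟩
  · rw [le_div_iff₀ hc0]; linarith
  intro k U D Q x M N ε Λ l K b η h T B A θ ρ H hπ hρ' hlb gN hcd hA hAb hρ hρK hhρ hB hM hN hθ
  have hS := M.S_pos
  have hR := R0_pos M l
  have hR1 := H.R0_le
  obtain ⟨k0, k1⟩ := H.dK
  have hK0 : 0 < K := by linarith [H.K32]
  have e64 : 1 / (64 * K) = 1 / K / 64 := by field_simp
  have e364 : 3 / (64 * K) = 3 * (1 / K) / 64 := by field_simp
  have e16 : 1 / (16 * K) = 1 / K / 16 := by field_simp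
  have e8 : 1 / (8 * K) = 1 / K / 8 := by field_simp
  have eR64 : R0 M l / (64 * K) = R0 M l * (1 / K) / 64 := by field_simp
  have eR16 : R0 M l / (16 * K) = R0 M l * (1 / K) / 16 := by field_simp
  rw [eR16] at hρK
  set δ := 1 / K with hδ
  have hRδ : 0 < R0 M l * δ := by positivity
  have hRδ1 : R0 M l * δ ≤ 1 / 32 := by nlinarith
  have hS' : N.S = M.S := by unfold Mo.S; rw [hlb]
  have hmain := HC (Euc n) m (base M x D l K) (fun y => N.u y - M.u y)
    (R0 M l * (1 + 1 / (64 * K))) (R0 M l / (64 * K)) A ρ c hcd (by positivity)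
    (by rw [eR64]; linarith) hρ (by linarith) hc0 hc1 hA (fun j hj z _ => hAb j hj z) ?_ ?_ ?_
  · intro j hj z hz
    refine (hmain j hj z hz).trans (le_of_eq ?_)
    field_simp
  · refine lt_of_le_of_lt (measure_mono (subset_univ _)) ?_
    unfold base
    have hm1 : Measurable fun p : Euc k × Vf_884.L k => M.π p.1 :=
      (M.π.continuous.comp continuous_fst).measurable
    rw [Measure.map_apply hm1 MeasurableSet.univ]
    refine lt_of_le_of_lt (measure_mono (subset_univ _)) ?_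
    exact lt_of_le_of_lt (H.sit.pack.mass_le _ (by have := A2_le H; linarith))
      ENNReal.ofReal_lt_top
  · intro z hz
    rw [mem_ball_zero_iff, eR64, e64] at hz
    have h1 := lowbase H (ρ := ρ) (z := z) hρ hhρ (by rw [e364]; nlinarith) hB
    refine le_trans ?_ h1
    calc c * ρ ^ m ≤ ome m / (2 * 4 ^ m) * ρ ^ m := by
          gcongr
          exact min_le_right _ _
      _ = ome m / 2 * (ρ / 4) ^ m := by rw [div_pow]; field_simp
  · intro ζ hζ hζs hζb
    have hζ0 : ∀ y, ‖ζ y‖ ≤ 1 := fun y => by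
      have := hζb 0 (Nat.zero_le _) y
      rwa [norm_iteratedFDeriv_zero] at this
    have hout : ∀ y, R0 M l * (1 + δ / 32) ≤ ‖y‖ → ζ y = 0 := by
      intro y hy
      refine image_eq_zero_of_notMem_tsupport fun hcn => ?_
      have h2 := hζs hcn
      rw [mem_ball_zero_iff, eR64, e64] at h2
      nlinarith
    have hd := mean_diff H hπ hρ' hlb gN hζ.continuous hζ0 (fun y hy => by
      refine hout y ?_
      unfold A2 at hy
      rw [e16] at hy
      nlinarith)
    have hsub : tsupport ζ ⊆ ball 0 (R0 M l * (1 + 1 / (8 * K))) := by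
      refine hζs.trans (ball_subset_ball ?_)
      rw [e8, e64, eR64]
      nlinarith
    have h1 := hM ζ hζ hsub hζb
    have h2 := hN ζ hζ hsub hζb
    rw [hS'] at h2
    have h3 : M.S ^ (m + 1) * ‖∫ y, ζ y • (N.u y - M.u y) ∂(base M x D l K)‖ ≤
        M.S ^ (m + 1) * (2 * θ) := by
      have e5 := congrArg norm hd
      rw [norm_smul, Real.norm_of_nonneg (show 0 ≤ M.S ^ (m + 1) by positivity)] at e5
      rw [e5]
      have e : M.S ^ (m + 1) * (2 * θ) = M.S ^ m * (M.S * θ) + M.S ^ m * (M.S * θ) := by ring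
      rw [e]
      exact (norm_sub_le _ _).trans (add_le_add h1 h2)
    exact (le_of_mul_le_mul_left h3 (by positivity)).trans hθ

end Crest.Agent.R234.Swc_395
end
end

-- ▼ part R234/Swc2_395
section

/-!
# Row 234 (helper395), SWITCH: two references with small means are close (2)

* `exists_Pn` : 733's `Pn` (closeness in `C²` by `L^(-q) exp (-L/2)`) from the means.
* `sqrt_I` : `√I = exp (l - Λ/2)`.
-/

set_option autoImplicit false
set_option linter.unusedSectionVars false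
set_option linter.unusedVariables false

open MeasureTheory Set Metric Filter Topology
open scoped ENNReal NNReal ContDiff
open Crest.GeometryTopology.Submanifold
open Crest.Agent.R234.Ell1_3 Crest.Agent.R234.Vf_884
open Crest.Agent.R234.Main_456 (Frame hgt)
open Crest.Agent.R234.Stp_518 (Mo GrB)
open Crest.Agent.R234.Sw_733
open Crest.Agent.R234.MG_570 (MG bar)

noncomputable section

namespace Crest.Agent.R234.Swc_395

variable {m n k : ℕ}

theorem sqrt_I {I : ℝ → ℝ} {l : ℝ} (h : 0 < I l) :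
    Real.sqrt (I l) = Real.exp (l - Stp_518.lam I l / 2) := by
  have e : I l = Real.exp (l - Stp_518.lam I l / 2) ^ 2 := by
    rw [← Real.exp_nat_mul]
    unfold Stp_518.lam
    push_cast
    rw [show 2 * (l - (2 * l - Real.log (I l)) / 2) = Real.log (I l) by ring, Real.exp_log h]
  nth_rewrite 1 [e]
  exact Real.sqrt_sq (Real.exp_pos _).le

theorem rt_two {y : ℝ} (hy : 0 ≤ y) : rt (y ^ 4) 2 = y := by
  show Real.sqrt (Real.sqrt (y ^ 4)) = y
  rw [show y ^ 4 = (y ^ 2) ^ 2 by ring, Real.sqrt_sq (by positivity), Real.sqrt_sq hy]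

/-- values and two derivatives of a difference. -/
theorem d012 {u v : Euc m → Euc n} (hu : ContDiff ℝ 4 u) (hv : ContDiff ℝ 4 v) (X : Euc m) {s : ℝ}
    (h : ∀ j ≤ 2, ‖iteratedFDeriv ℝ j (fun y => u y - v y) X‖ ≤ s) :
    ‖u X - v X‖ ≤ s ∧ ‖fderiv ℝ u X - fderiv ℝ v X‖ ≤ s ∧
      ‖fderiv ℝ (fderiv ℝ u) X - fderiv ℝ (fderiv ℝ v) X‖ ≤ s := by
  have du : Differentiable ℝ u := hu.differentiable (by norm_num)
  have dv : Differentiable ℝ v := hv.differentiable (by norm_num)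
  have du1 : Differentiable ℝ (fderiv ℝ u) :=
    (hu.fderiv_right (m := 3) (by norm_num)).differentiable (by norm_num)
  have dv1 : Differentiable ℝ (fderiv ℝ v) :=
    (hv.fderiv_right (m := 3) (by norm_num)).differentiable (by norm_num)
  have e1 : fderiv ℝ (fun y => u y - v y) = fun y => fderiv ℝ u y - fderiv ℝ v y := by
    funext y
    exact fderiv_fun_sub (du y) (dv y)
  have e2 : fderiv ℝ (fderiv ℝ (fun y => u y - v y)) X =
      fderiv ℝ (fderiv ℝ u) X - fderiv ℝ (fderiv ℝ v) X := by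
    rw [e1]
    exact fderiv_fun_sub (du1 X) (dv1 X)
  refine ⟨?_, ?_, ?_⟩
  · have := h 0 (by norm_num)
    rwa [norm_iteratedFDeriv_zero] at this
  · have := h 1 (by norm_num)
    rw [norm_iteratedFDeriv_one, e1] at this
    exact this
  · have := h 2 le_rfl
    rw [← norm_iteratedFDeriv_fderiv, norm_iteratedFDeriv_one, e2] at this
    exact this

/-- the numbers. -/
theorem pn_num (m p₀ : ℕ) (C C₀ T : ℝ) (hC : 1 ≤ C) (hC₀ : 1 ≤ C₀) : ∃ L₁ : ℝ, 2 ≤ L₁ ∧
    ∀ L : ℝ, L₁ ≤ L → 64 * Real.exp T ≤ L ∧ 2 * 4 ^ m / ome m ≤ L ∧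
      4 * C₀ * C * Real.exp T ≤ L ∧
      C * (L ^ p₀ * Real.exp (-(L / 2))) * (2048 * L ^ 2 * Real.exp T) ≤ 1 := by
  have t1 : Tendsto (fun L : ℝ => C * (L ^ p₀ * Real.exp (-(L / 2))) *
      (2048 * L ^ 2 * Real.exp T)) atTop (𝓝 0) := by
    have h1 : Tendsto (fun y : ℝ => y ^ (p₀ + 2) * Real.exp (-y)) atTop (𝓝 0) :=
      Real.tendsto_pow_mul_exp_neg_atTop_nhds_zero (p₀ + 2)
    have h2 : Tendsto (fun L : ℝ => (L / 2) ^ (p₀ + 2) * Real.exp (-(L / 2))) atTop (𝓝 0) :=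
      h1.comp (tendsto_id.atTop_div_const (by norm_num))
    have h3 := h2.const_mul (C * 2048 * Real.exp T * 2 ^ (p₀ + 2))
    rw [mul_zero] at h3
    refine h3.congr fun L => ?_
    rw [div_pow]
    field_simp
    ring
  have hev : ∀ᶠ L : ℝ in atTop, 2 ≤ L ∧ 64 * Real.exp T ≤ L ∧ 2 * 4 ^ m / ome m ≤ L ∧
      4 * C₀ * C * Real.exp T ≤ L ∧
      C * (L ^ p₀ * Real.exp (-(L / 2))) * (2048 * L ^ 2 * Real.exp T) ≤ 1 := by
    filter_upwards [eventually_ge_atTop 2, eventually_ge_atTop (64 * Real.exp T),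
      eventually_ge_atTop (2 * 4 ^ m / ome m), eventually_ge_atTop (4 * C₀ * C * Real.exp T),
      t1.eventually (gt_mem_nhds one_pos)] with L a1 a2 a3 a4 a5
    exact ⟨a1, a2, a3, a4, a5.le⟩
  obtain ⟨L₁, h⟩ := eventually_atTop.1 hev
  exact ⟨max L₁ 2, le_max_right _ _, fun L hL => (h L ((le_max_left _ _).trans hL)).2⟩

set_option maxHeartbeats 1000000 in
/-- **closeness of two references with small means**, in the form `Pn`. -/
theorem exists_Pn (m n N₀ Ks p₀ q : ℕ) (hN : 1 ≤ N₀) (T : ℝ) :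
    ∃ (q₁ a : ℕ) (C L₁ : ℝ), 1 ≤ C ∧ ∀ (k : ℕ) (U : Set (Euc k)) (D : VarifoldData m k) (Q : ℕ)
      (x : Euc k) (M N : Mo m n k) (ε Λ l K b η h T' B A L : ℝ),
      Pk U D Q x M ε Λ l K b η h T' B → N.π = M.π → N.ρ = M.ρ → N.lb = M.lb → GrB N b →
      MG N₀ A 0 (fun y => N.u y - M.u y) → A ≤ L ^ p₀ * Real.exp (-(L / 2)) →
      K ≤ 4 * L ^ 2 → M.lb - T ≤ l → L₁ ≤ L → h ≤ (L ^ a)⁻¹ → B ≤ (L ^ a)⁻¹ →
      Stp_518.MeanK Ks M x (VD D) (Real.exp (l - M.lb) * (1 + 1 / (8 * K)))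
        ((L ^ q₁)⁻¹ * Real.exp (l - L / 2)) →
      Stp_518.MeanK Ks N x (VD D) (Real.exp (l - M.lb) * (1 + 1 / (8 * K)))
        ((L ^ q₁)⁻¹ * Real.exp (l - L / 2)) →
      Pn M N l K b (C * A) ((L ^ q)⁻¹ * Real.exp (-(L / 2))) := by
  obtain ⟨Cb, hCb, Hb⟩ := Mx17_397.bdP m n N₀
  obtain ⟨C₀, hC₀, HC⟩ := close_core m n Ks 2
  set C : ℝ := max Cb 1 with hC
  have hC1 : 1 ≤ C := le_max_right _ _
  obtain ⟨L₁, hL₁, HL⟩ := pn_num m p₀ C C₀ T hC1 hC₀
  set s := 3 + p₀ + q with hs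
  set a₀ := 4 * s with ha₀
  refine ⟨a₀ * (m + Ks + 1) + 1, a₀ * m + a₀ + 1, C, L₁, hC1, ?_⟩
  intro k U D Q x M N ε Λ l K b η h T' B A L H hπ hρ hlb gN hMG hA hK hl hL hh hB hM hN'
  obtain ⟨n1, n2, n3, n4⟩ := HL L hL
  have hL2 : 2 ≤ L := hL₁.trans hL
  have hL0 : 0 < L := by linarith
  have hL1 : 1 ≤ L := by linarith
  have hS := M.S_pos
  have hR := R0_pos M l
  have hR1 := H.R0_le
  have hK32 := H.K32
  have hK0 : 0 < K := by linarith
  have ho := ome_pos m
  have hET := Real.exp_pos T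
  have hEL := Real.exp_pos (-(L / 2))
  have hRT : (Real.exp T)⁻¹ ≤ R0 M l := by
    rw [← Real.exp_neg]
    exact Real.exp_le_exp.2 (by linarith)
  have hA0 : 0 ≤ A := by
    obtain ⟨α, -, h2, -⟩ := hMG
    exact (norm_nonneg _).trans h2
  obtain ⟨hcd, hbd⟩ := Hb A 0 _ hMG
  have hCA : Cb * A ≤ C * A := mul_le_mul_of_nonneg_right (le_max_left _ _) hA0
  have hCA' : C * A ≤ C * (L ^ p₀ * Real.exp (-(L / 2))) :=
    mul_le_mul_of_nonneg_left hA (by linarith)
  set A' := C * (L ^ p₀ * Real.exp (-(L / 2))) with hA'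
  have hA'0 : 0 ≤ A' := by positivity
  have hA'1 : Real.exp (-(L / 2)) ≤ A' := by
    have h1 : 1 ≤ L ^ p₀ := one_le_pow₀ hL1
    have h2 : Real.exp (-(L / 2)) ≤ L ^ p₀ * Real.exp (-(L / 2)) :=
      le_mul_of_one_le_left hEL.le h1
    refine h2.trans (le_mul_of_one_le_left (by positivity) hC1)
  -- the collar
  have hRK : (L ^ 3)⁻¹ ≤ R0 M l / (16 * K) := by
    rw [inv_le_comm₀ (by positivity) (by positivity), inv_div, div_le_iff₀ hR]
    calc 16 * K ≤ 16 * (4 * L ^ 2) := by gcongr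
      _ = (64 * Real.exp T) * L ^ 2 * (Real.exp T)⁻¹ := by field_simp; norm_num
      _ ≤ L * L ^ 2 * (Real.exp T)⁻¹ := by gcongr
      _ = L ^ 3 * (Real.exp T)⁻¹ := by ring
      _ ≤ L ^ 3 * R0 M l := by gcongr
  have hRK' : K / R0 M l ≤ 4 * L ^ 2 * Real.exp T := by
    rw [div_le_iff₀ hR]
    calc K ≤ 4 * L ^ 2 := hK
      _ = 4 * L ^ 2 * Real.exp T * (Real.exp T)⁻¹ := by field_simp
      _ ≤ 4 * L ^ 2 * Real.exp T * R0 M l := by gcongr
  have hσ : C * A ≤ R0 M l / (512 * K) := by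
    rw [le_div_iff₀ (by positivity)]
    calc C * A * (512 * K) ≤ A' * (512 * (4 * L ^ 2)) := by gcongr
      _ = A' * (2048 * L ^ 2 * Real.exp T) * (Real.exp T)⁻¹ := by field_simp; ring
      _ ≤ 1 * (Real.exp T)⁻¹ := by gcongr
      _ ≤ R0 M l := by rw [one_mul]; exact hRT
  -- the scale
  set y := (L ^ s)⁻¹ with hy
  have hy0 : 0 < y := by positivity
  have hρe : y ^ 4 = (L ^ a₀)⁻¹ := by
    rw [hy, inv_pow, ← pow_mul, ha₀, mul_comm s 4]
  have hρ0 : 0 < y ^ 4 := by positivity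
  have hdec : ∀ i j : ℕ, i ≤ j → (L ^ j)⁻¹ ≤ (L ^ i)⁻¹ := fun i j hij =>
    inv_anti₀ (by positivity) (pow_le_pow_right₀ hL1 hij)
  have hmain := HC k U D Q x M N ε Λ l K b η h T' B A' (M.S⁻¹ * ((L ^ (a₀ * (m + Ks + 1) + 1))⁻¹ *
    Real.exp (l - L / 2))) (y ^ 4) H hπ hρ hlb gN (hcd.of_le (by
      exact_mod_cast (show 2 + 1 ≤ N₀ + 2 by omega))) hA'0
    (fun j hj z => ((hbd j (by omega) z).trans hCA).trans hCA') hρ0
    (by rw [hρe]; exact (hdec 3 a₀ (by omega)).trans hRK)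
    (by rw [hρe]; exact hh.trans (hdec _ _ (by omega))) ?_ ?_ ?_ ?_
  · -- the conclusion
    have hfin : ∀ j ≤ 2, ∀ z ∈ ball (0 : Euc m) (R0 M l * (1 + 1 / (64 * K))),
        ‖iteratedFDeriv ℝ j (fun y => N.u y - M.u y) z‖ ≤ (L ^ q)⁻¹ * Real.exp (-(L / 2)) := by
      intro j hj z hz
      refine (hmain j hj z hz).trans ?_
      rw [rt_two hy0.le]
      calc C₀ * (K / R0 M l) * y * A' ≤ C₀ * (4 * L ^ 2 * Real.exp T) * y * A' := by gcongr
        _ = (4 * C₀ * C * Real.exp T) * (L ^ (2 + p₀) * y) * Real.exp (-(L / 2)) := by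
            rw [hA', pow_add]; ring
        _ ≤ L * (L ^ (2 + p₀) * y) * Real.exp (-(L / 2)) := by gcongr
        _ = (L ^ q)⁻¹ * Real.exp (-(L / 2)) := by
            congr 1
            rw [hy, hs]
            have : L ^ (3 + p₀ + q) = L * L ^ (2 + p₀) * L ^ q := by ring
            rw [this]
            field_simp
    have g := fun X => d012 gN.cu H.gr.cu X (s := C * A)
      (fun j hj => (hbd j (by omega) X).trans hCA)
    have t := fun X (hX : X ∈ ball (0 : Euc m) (R0 M l * (1 + 1 / (64 * K)))) =>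
      d012 gN.cu H.gr.cu X (fun j hj => hfin j hj X hX)
    exact
      { hπ := hπ, hρ := hρ, hlb := hlb, gr := gN, σ0 := by positivity, hσ := hσ
        g0 := fun X => (g X).1, g1 := fun X => (g X).2.1, g2 := fun X => (g X).2.2
        τ0 := by positivity
        τ1 := by
          have h1 : (L ^ q)⁻¹ ≤ 1 := inv_le_one_of_one_le₀ (one_le_pow₀ hL1)
          have h2 : Real.exp (-(L / 2)) ≤ 1 := Real.exp_le_one_iff.2 (by linarith)
          exact mul_le_one₀ h1 hEL.le h2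
        t0 := fun X hX => (t X hX).1, t1 := fun X hX => (t X hX).2.1
        t2 := fun X hX => (t X hX).2.2 }
  · -- total variation
    refine hB.trans ?_
    have e1 : ome m / 2 * (y ^ 4 / 4) ^ m = (L ^ (a₀ * m))⁻¹ * (ome m / (2 * 4 ^ m)) := by
      rw [hρe, div_pow, inv_pow, ← pow_mul]
      field_simp
    rw [e1]
    calc (L ^ (a₀ * m + a₀ + 1))⁻¹ ≤ (L ^ (a₀ * m + 1))⁻¹ := hdec _ _ (by omega)
      _ = (L ^ (a₀ * m))⁻¹ * L⁻¹ := by rw [pow_succ, mul_inv]
      _ ≤ (L ^ (a₀ * m))⁻¹ * (ome m / (2 * 4 ^ m)) := by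
          refine mul_le_mul_of_nonneg_left ?_ (by positivity)
          rw [inv_le_comm₀ hL0 (by positivity), inv_div]
          exact n2
  · -- mean of `M`
    have e : M.S * (M.S⁻¹ * ((L ^ (a₀ * (m + Ks + 1) + 1))⁻¹ * Real.exp (l - L / 2))) =
        (L ^ (a₀ * (m + Ks + 1) + 1))⁻¹ * Real.exp (l - L / 2) := by field_simp
    rw [e]
    exact hM
  · have e : M.S * (M.S⁻¹ * ((L ^ (a₀ * (m + Ks + 1) + 1))⁻¹ * Real.exp (l - L / 2))) =
        (L ^ (a₀ * (m + Ks + 1) + 1))⁻¹ * Real.exp (l - L / 2) := by field_simp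
    rw [e]
    exact hN'
  · -- the means against the a priori bound
    have e1 : M.S⁻¹ * Real.exp (l - L / 2) = R0 M l * Real.exp (-(L / 2)) := by
      unfold Mo.S R0
      rw [← Real.exp_neg, ← Real.exp_add, ← Real.exp_add]
      congr 1
      ring
    have e2 : M.S⁻¹ * ((L ^ (a₀ * (m + Ks + 1) + 1))⁻¹ * Real.exp (l - L / 2)) =
        (L ^ (a₀ * (m + Ks + 1) + 1))⁻¹ * (R0 M l * Real.exp (-(L / 2))) := by
      rw [← e1]; ring
    rw [e2, hρe, inv_pow, ← pow_mul, pow_succ, mul_inv]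
    calc 2 * ((L ^ (a₀ * (m + Ks + 1)))⁻¹ * L⁻¹ * (R0 M l * Real.exp (-(L / 2))))
        = (2 * L⁻¹) * ((L ^ (a₀ * (m + Ks + 1)))⁻¹ * (R0 M l * Real.exp (-(L / 2)))) := by ring
      _ ≤ 1 * ((L ^ (a₀ * (m + Ks + 1)))⁻¹ * (1 * A')) := by
          have h1 : 2 * L⁻¹ ≤ 1 := by
            rw [← div_eq_mul_inv, div_le_one hL0]; exact hL2
          gcongr
      _ = (L ^ (a₀ * (m + Ks + 1)))⁻¹ * A' := by ring

end Crest.Agent.R234.Swc_395
end
end

-- ▼ part R234/Sw20_733

/-! # Row 234, VF-F6 (helper733), part 20: `swP : Stp_518.SwP`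

`exists_pk` (Sw19), `exists_Pn` (395), `exists_switch` (Sw17). -/

set_option autoImplicit false
set_option linter.unusedSectionVars false
set_option linter.unusedVariables false

open MeasureTheory Set Metric Filter Topology
open scoped ENNReal NNReal ContDiff InnerProductSpace
open Crest.GeometryTopology.Submanifold
open Crest.Agent.R234.Ell1_3 Crest.Agent.R234.Fm_209 Crest.Agent.R234.Cy_870 Crest.Agent.R234.Vf_884
open Crest.Agent.R234.Main_456 (Frame hgt)
open Crest.Agent.R234.Stp_518 (Mo GrB SupLe lam)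
open Crest.Agent.R234.Gi_456 (Lo Loi giB jB muG Gr tube)
open Crest.Agent.R234.MG_570 (MG)

noncomputable section

namespace Crest.Agent.R234.Sw_733

/-- the numbers of the switch. -/
theorem sw_num {S lb T G l L I Iy C Cp τ h s B : ℝ} {p q q' : ℕ} (hq' : q' = q + p + 1)
    (hS : S = Real.exp lb) (hI : I = Real.exp (2 * l - L)) (hT : lb - T ≤ l)
    (hIy : I ≤ Real.exp G * Iy) (hIy0 : 0 ≤ Iy) (hC : 0 ≤ C) (hCp : 1 ≤ Cp) (hL : 1 ≤ L)
    (hLC : 4 * C * Cp * Real.exp (2 * T + G) ≤ L)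
    (hτ : τ = (L ^ q')⁻¹ * Real.exp (-(L / 2))) (hs0 : 0 ≤ s)
    (hs : s ≤ 4 * (Cp * L ^ p * Real.exp (-(L / 2)))) :
    S ^ 2 * (C * τ * s) ≤ (L ^ q)⁻¹ * Iy := by
  have hL0 : 0 < L := by linarith
  have h1 : S ^ 2 * Real.exp (-L) ≤ Real.exp (2 * T + G) * Iy := by
    have e1 : S ^ 2 * Real.exp (-L) ≤ Real.exp (2 * T) * I := by
      rw [hS, hI, ← Real.exp_nat_mul, ← Real.exp_add, ← Real.exp_add]
      exact Real.exp_le_exp.2 (by push_cast; linarith)
    refine e1.trans ?_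
    calc Real.exp (2 * T) * I ≤ Real.exp (2 * T) * (Real.exp G * Iy) :=
          mul_le_mul_of_nonneg_left hIy (Real.exp_pos _).le
      _ = _ := by rw [Real.exp_add]; ring
  have h2 : C * τ * s ≤ C * τ * (4 * (Cp * L ^ p * Real.exp (-(L / 2)))) := by
    have : 0 ≤ τ := by rw [hτ]; positivity
    exact mul_le_mul_of_nonneg_left hs (by positivity)
  have hE : Real.exp (-(L / 2)) * Real.exp (-(L / 2)) = Real.exp (-L) := by
    rw [← Real.exp_add]; congr 1; ring
  calc S ^ 2 * (C * τ * s) ≤ S ^ 2 * (C * τ * (4 * (Cp * L ^ p * Real.exp (-(L / 2))))) :=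
        mul_le_mul_of_nonneg_left h2 (by positivity)
    _ = (4 * C * Cp) * ((L ^ q')⁻¹ * L ^ p) *
        (S ^ 2 * (Real.exp (-(L / 2)) * Real.exp (-(L / 2)))) := by rw [hτ]; ring
    _ = (4 * C * Cp) * ((L ^ q')⁻¹ * L ^ p) * (S ^ 2 * Real.exp (-L)) := by rw [hE]
    _ ≤ (4 * C * Cp) * ((L ^ q')⁻¹ * L ^ p) * (Real.exp (2 * T + G) * Iy) :=
        mul_le_mul_of_nonneg_left h1 (by positivity)
    _ = (4 * C * Cp * Real.exp (2 * T + G)) * ((L ^ q')⁻¹ * L ^ p) * Iy := by ring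
    _ ≤ L * ((L ^ q')⁻¹ * L ^ p) * Iy :=
        mul_le_mul_of_nonneg_right (mul_le_mul_of_nonneg_right hLC (by positivity)) hIy0
    _ = (L ^ q)⁻¹ * Iy := by
        congr 1
        rw [hq', pow_add, pow_add, pow_one]
        field_simp

/-- **SWITCH**, literally 518's `SwP`. -/
theorem swP : Stp_518.SwP := by
  intro m n Q hm hn hQ
  obtain ⟨N₀, hN₀, Hpk⟩ := exists_pk m n Q hm hn hQ
  refine ⟨N₀, fun N hN Ks p₀ q T Λ G => ?_⟩
  obtain ⟨Cp, p, κp, εp, Lp, hCp, hκp, hεp, Hpk⟩ := Hpk N hN T Λ G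
  obtain ⟨q₁, a, Cn, Ln, hCn, HPn⟩ := Swc_395.exists_Pn m n N Ks p₀ (q + p + 1) (by omega) T
  obtain ⟨κg, Cg, hκg, hCg, -, Hgr⟩ := Stp_518.gr_of m n N (hN₀.trans hN)
  obtain ⟨Cs, hCs, Hsw⟩ := exists_switch m n (T + 1) (max 1 (max Λ Q)) (le_max_left _ _)
  have hev : ∀ᶠ L : ℝ in atTop, Cp * L ^ (p + a) * Real.exp (-(1 / 2 * L)) ≤ 1 ∧
      4 * Cs * Cp * Real.exp (2 * T + G) ≤ L ∧ 1 ≤ L ∧ Lp ≤ L ∧ Ln ≤ L := by
    filter_upwards [Stp_518.ev_exp Cp (1 / 2) (p + a) (by norm_num) one_pos,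
      eventually_ge_atTop (4 * Cs * Cp * Real.exp (2 * T + G)),
      eventually_ge_atTop 1, eventually_ge_atTop Lp, eventually_ge_atTop Ln] with L h1 h2 h3 h4 h5
    exact ⟨h1, h2, h3, h4, h5⟩
  obtain ⟨L₁, hL₁⟩ := eventually_atTop.1 hev
  refine ⟨q₁, min κp (min κg (1 / (16 * Cg))), εp, L₁, by positivity, hεp, ?_⟩
  intro U D x M M' l K A hs hπ hρ hlb hκ0 hκ hκ0' hκ' hMG hMG' hMGA hA hK hKL hT hl hI hL hgr hgd
    hdu hsup hmean hmean'
  obtain ⟨t1, t2, t3, t4, t5⟩ := hL₁ _ hL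
  set L := lam (M.I x (VD D)) l with hLd
  set I := M.I x (VD D) l with hId
  have hK0 : 0 < K := by linarith
  have hL0 : 0 < L := by linarith
  have eh2 : Real.exp (-(1 / 2 * L)) = Real.exp (-(L / 2)) := by congr 1; ring
  rw [eh2] at t1
  set E := Real.exp (-(L / 2)) with hE
  have hE0 : 0 < E := Real.exp_pos _
  have hE1 : E ≤ 1 := Real.exp_le_one_iff.2 (by linarith)
  have hsqI : √I = Real.exp (l - L / 2) := Stp_518.sqrt_I (I := M.I x (VD D)) hI
  have hIexp : I = Real.exp (2 * l - L) := by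
    have h1 : I = √I * √I := (Real.mul_self_sqrt hI.le).symm
    rw [h1, hsqI, ← Real.exp_add]
    congr 1; ring
  have H := Hpk U D x M l K L hLd hs hκ0 (hκ.trans (min_le_left _ _)) hMG hK hKL hT hl hI t4 hgr
    (hdu.trans (div_le_div_of_nonneg_right (min_le_left _ _) hK0.le)) hsup
  have hgrN : GrB M' (1 / 16) := by
    have k1 := hκ'.trans ((min_le_right _ _).trans (min_le_left _ _))
    have k2 := hκ'.trans ((min_le_right _ _).trans (min_le_right _ _))
    refine GrB.mono (Hgr (m + n) M' _ hκ0' k1 hMG') ?_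
    rw [le_div_iff₀ (by positivity)] at k2
    linarith
  set h := Cp * L ^ p * E with hh
  have hEL : Real.exp (-L) = E * E := by
    rw [hE, ← Real.exp_add]; congr 1; ring
  have hB : Cp * L ^ p * Real.exp (-L) ≤ h := by
    rw [hEL, hh]
    refine mul_le_mul_of_nonneg_left ?_ (by positivity)
    nlinarith
  have hha : h ≤ (L ^ a)⁻¹ := by
    rw [le_inv_comm₀ (by positivity) (by positivity), ← one_div, le_div_iff₀ (by positivity)]
    calc L ^ a * h = Cp * L ^ (p + a) * E := by rw [hh, pow_add]; ring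
      _ ≤ 1 := t1
  rw [hsqI] at hmean hmean'
  have P := HPn (m + n) U D Q x M M' (1 / 16) Λ l K (1 / 16) h h _ _ A L H hπ hρ hlb hgrN hMGA
    hA hKL hT t5 hha (hB.trans hha) hmean hmean'
  have hΛ : Λ ≤ max 1 (max Λ (Q : ℝ)) := (le_max_left _ _).trans (le_max_right _ _)
  have hQ' : (Q : ℝ) ≤ max 1 (max Λ (Q : ℝ)) := (le_max_right _ _).trans (le_max_right _ _)
  intro y hy
  have k2K : 2 / K ≤ 1 := by
    rw [div_le_one hK0]; linarith
  obtain ⟨r1, r2⟩ := Hsw (m + n) U D Q x M M' (1 / 16) Λ l K (1 / 16) h h _ _ _ _ H P hΛ hQ' y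
    hy.2 (by linarith [hy.1])
  have hIy := hgd y hy
  have hIy0 : 0 ≤ M.I x (VD D) y := by
    by_contra hneg
    push Not at hneg
    have h5 : Real.exp G * M.I x (VD D) y ≤ 0 :=
      mul_nonpos_of_nonneg_of_nonpos (Real.exp_pos _).le hneg.le
    linarith
  have hLp : 1 ≤ L ^ p := one_le_pow₀ t3
  have hh0 : 0 ≤ h := by positivity
  have hτh : (L ^ (q + p + 1))⁻¹ * E ≤ h := by
    have h1 : (L ^ (q + p + 1))⁻¹ ≤ 1 := inv_le_one_of_one_le₀ (one_le_pow₀ t3)
    have h2 : 1 ≤ Cp * L ^ p := by nlinarith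
    calc (L ^ (q + p + 1))⁻¹ * E ≤ 1 * E := mul_le_mul_of_nonneg_right h1 hE0.le
      _ ≤ Cp * L ^ p * E := mul_le_mul_of_nonneg_right h2 hE0.le
  have hsT : √(Cp * L ^ p * Real.exp (-L)) ≤ h := by
    refine Real.sqrt_le_iff.2 ⟨hh0, ?_⟩
    have h2 : 1 ≤ Cp * L ^ p := by nlinarith
    calc Cp * L ^ p * Real.exp (-L) = (Cp * L ^ p) * 1 * (E * E) := by rw [hEL]; ring
      _ ≤ (Cp * L ^ p) * (Cp * L ^ p) * (E * E) := by
          refine mul_le_mul_of_nonneg_right ?_ (by positivity)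
          exact mul_le_mul_of_nonneg_left h2 (by positivity)
      _ = h ^ 2 := by rw [hh]; ring
  have hτ0 : 0 ≤ (L ^ (q + p + 1))⁻¹ * E := by positivity
  have hsq0 := Real.sqrt_nonneg (Cp * L ^ p * Real.exp (-L))
  have hB0 : 0 ≤ Cp * L ^ p * Real.exp (-L) := by positivity
  constructor
  · refine r2.trans ?_
    exact sw_num (p := p) (q := q) (q' := q + p + 1) (T := T) (τ := (L ^ (q + p + 1))⁻¹ * E)
      (h := h) (B := 0) rfl (rfl : M.S = Real.exp M.lb) hIexp hT hIy hIy0 hCs hCp t3 t2 rfl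
      (by positivity) (by rw [← hE, ← hh]; linarith)
  · refine r1.trans ?_
    exact sw_num (p := p) (q := q) (q' := q + p + 1) (T := T) (τ := (L ^ (q + p + 1))⁻¹ * E)
      (h := h) (B := 0) rfl (rfl : M.S = Real.exp M.lb) hIexp hT hIy hIy0 hCs hCp t3 t2 rfl
      (by positivity) (by rw [← hE, ← hh]; linarith)

end Crest.Agent.R234.Sw_733
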