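import Crest.Agent.R234.Swb7_159
import Crest.Agent.R234.Lk1_456
import Crest.Agent.R234.Grot8_842
import Crest.Agent.R234.Stp3_518

-- ▼ part R234/Swb8_159
section

/-!
# Row 234, F6-BLOCK (helper159), part 8: regions of two frames, feet of one point in two frames

* `foot_two` : the feet of one point in two frames are close if the two references are `C¹`-close.
* `exists_psi` : `psi` is onto, with a bound of the preimage; `Same.isFoot_back` : the foot in the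
  first frame from the foot in the second one (182's remark: exact, no flatness).
* `Reg` : the hypotheses; the two regions (456's `Kc`), the common compact.
-/

set_option autoImplicit false
set_option linter.unusedSectionVars false

open MeasureTheory Set Metric Filter Topology
open Crest.GeometryTopology.Submanifold
open scoped ENNReal NNReal ContDiff RealInnerProductSpace

noncomputable section

namespace Crest.Agent.R234.Swb_159

open Crest.Agent.R234.Vf_884 (L G)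
open Crest.Agent.R234.Cy_870 (Ker)
open Crest.Agent.R234.Ell1_3 Crest.Agent.R234.Main_456 Crest.Agent.R234.Grot_842
open Crest.Agent.R234.GL_394 (Ch Ok On VK)
open Crest.Agent.R234.Gi_456 (Gr tube IsFoot foot yy Bt Lo Loi ch Kc)

local notation "adj" => ContinuousLinearMap.adjoint

variable {m n k : ℕ} {q : Euc m →L[ℝ] Euc n} {H : Euc m →L[ℝ] Euc m} {H' : Euc n →L[ℝ] Euc n}
  {w w' : Euc m → Euc n} {A : Set (Euc m)} {π : Euc k →L[ℝ] Euc m} {ρ : Euc k →L[ℝ] Euc n}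
  {x : Euc k} {r r' R σ : ℝ} {V : Measure (Euc k × L k)}


/-- normal vectors in the second frame are normal in the first one -/
theorem Same.normal_back (h : Same q H H' w w' A) (hf : Frame π ρ) {X : Euc m} (hX : X ∈ A)
    {ν : Euc k}
    (hν : rπ π ρ q H ν + adj (fderiv ℝ w' (psi q H w X)) (rρ π ρ q H' ν) = 0) :
    π ν + adj (fderiv ℝ w X) (ρ ν) = 0 := by
  have hD2 := h.hD hX
  refine ext_inner_right ℝ fun y => ?_
  rw [inner_zero_left, inner_add_left, ContinuousLinearMap.adjoint_inner_left]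
  set τ : Euc k := adj π y + adj ρ (fderiv ℝ w X y) with hτ
  have e3 : π τ = y := by rw [hτ, map_add, fr_ππ hf, fr_πρ hf, add_zero]
  have e4 : ρ τ = fderiv ℝ w X y := by rw [hτ, map_add, fr_ρπ hf, fr_ρρ hf, zero_add]
  have e1 : Foot_842.dchg q H (fderiv ℝ w X) y = rπ π ρ q H τ := by
    rw [rπ_apply, e3, e4, Foot_842.dchg_apply]
  have e2 : H' (fderiv ℝ w X y - q y) = rρ π ρ q H' τ := by
    rw [rρ_apply, e3, e4]
  have h6 : ⟪rπ π ρ q H ν, rπ π ρ q H τ⟫ + ⟪rρ π ρ q H' ν, rρ π ρ q H' τ⟫ = 0 := by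
    have h7 : ⟪rπ π ρ q H ν + adj (fderiv ℝ w' (psi q H w X)) (rρ π ρ q H' ν),
        Foot_842.dchg q H (fderiv ℝ w X) y⟫ = 0 := by rw [hν, inner_zero_left]
    rw [inner_add_left, ContinuousLinearMap.adjoint_inner_left, hD2, e2, e1] at h7
    exact h7
  rw [Foot_842.fr_inner (frame_rot hf h.rt), ← Foot_842.fr_inner hf, e3, e4] at h6
  exact h6

/-- **the foot in the first frame from the foot in the second one** -/
theorem Same.isFoot_back (h : Same q H H' w w' A) (hf : Frame π ρ) {z : Euc k} {X : Euc m}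
    (hX : X ∈ A) (hz : IsFoot (rπ π ρ q H) (rρ π ρ q H') x r' w' z (psi q H w X))
    (hr : ‖z - Swb_159.pnt π ρ x w X‖ ≤ 2 * r) : IsFoot π ρ x r w z X := by
  rw [isFoot_iff hf]
  have h1 := (isFoot_iff (frame_rot hf h.rt)).1 hz
  rw [h.pnt hf hX] at h1
  exact ⟨h.normal_back hf hX h1.1, (fr_norm_ρ hf _).trans hr⟩

/-- `psi` is onto -/
theorem exists_psi (h : Gr r w) (rt : Rt q H H') (hq : ‖q‖ ≤ 1 / 8) (Y : Euc m) :
    ∃ X, psi q H w X = Y ∧ ‖X‖ ≤ (1 + ‖q‖ ^ 2) * ‖Y‖ + ‖q‖ * ‖w X‖ := by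
  set Z := gop q (H Y) with hZ
  have hc : ContractingWith (1 / 64) (fun X : Euc m => Z - adj q (w X)) := by
    refine ⟨by norm_num, LipschitzWith.of_dist_le_mul fun X X' => ?_⟩
    rw [dist_eq_norm, dist_eq_norm]
    have e : Z - adj q (w X) - (Z - adj q (w X')) = adj q (w X' - w X) := by
      rw [map_sub]; abel
    rw [e]
    refine (ContinuousLinearMap.le_opNorm _ _).trans ?_
    rw [LinearIsometryEquiv.norm_map]
    have h1 := h.lip X' X
    rw [norm_sub_rev X' X] at h1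
    calc ‖q‖ * ‖w X' - w X‖ ≤ 1 / 8 * (1 / 8 * ‖X - X'‖) :=
          mul_le_mul hq h1 (norm_nonneg _) (by norm_num)
      _ = _ := by push_cast; ring
  set X := hc.fixedPoint with hX
  have hfix : Z - adj q (w X) = X := hc.fixedPoint_isFixedPt
  have e1 : X + adj q (w X) = Z := by
    have := sub_add_cancel Z (adj q (w X))
    rw [hfix] at this
    exact this
  refine ⟨X, ?_, ?_⟩
  · unfold psi
    rw [e1, hZ, rt.inv]
  · have h1 : ‖X‖ ≤ ‖Z‖ + ‖adj q (w X)‖ := by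
      calc ‖X‖ = ‖Z - adj q (w X)‖ := by rw [hfix]
        _ ≤ _ := norm_sub_le _ _
    have h2 : ‖adj q (w X)‖ ≤ ‖q‖ * ‖w X‖ := by
      refine (ContinuousLinearMap.le_opNorm _ _).trans ?_
      rw [LinearIsometryEquiv.norm_map]
    have h3 : ‖Z‖ ≤ (1 + ‖q‖ ^ 2) * ‖Y‖ := by
      have e2 : Z = H Y + adj q (q (H Y)) := rfl
      rw [e2]
      have h4 := rt.le Y
      have h5 : ‖adj q (q (H Y))‖ ≤ ‖q‖ * (‖q‖ * ‖H Y‖) := by
        refine (ContinuousLinearMap.le_opNorm _ _).trans ?_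
        rw [LinearIsometryEquiv.norm_map]
        exact mul_le_mul_of_nonneg_left (q.le_opNorm _) (norm_nonneg _)
      refine (norm_add_le _ _).trans ?_
      have h6 : ‖q‖ * (‖q‖ * ‖H Y‖) ≤ ‖q‖ * (‖q‖ * ‖Y‖) := by gcongr
      nlinarith
    linarith

/-- one surface, two frames, a flat measure -/
structure Reg (π : Euc k →L[ℝ] Euc m) (ρ : Euc k →L[ℝ] Euc n) (x : Euc k) (q : Euc m →L[ℝ] Euc n)
    (H : Euc m →L[ℝ] Euc m) (H' : Euc n →L[ℝ] Euc n) (r r' : ℝ) (w w' : Euc m → Euc n)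
    (A : Set (Euc m)) (R σ : ℝ) (V : Measure (Euc k × L k)) : Prop
    extends Two π ρ x q H H' r r' w w' 0 0 A R σ where
  ws : ∀ X, ‖w X‖ ≤ r' / 16
  ws' : ∀ X, ‖w' X‖ ≤ r' / 16
  rr : r' ≤ r
  R1 : R ≤ 3 / 2 * r'
  flat : ∀ᵐ p ∂V, p.1 ∈ Metric.ball x (4 * r) → ‖ρ (p.1 - x)‖ ≤ r' / 16
  fin : V (Kc π ρ x w 0 (2 * r) (r / 2) ×ˢ univ) < ⊤
  pl : ∀ᵐ p ∂V, p.1 ∈ Kc π ρ x w 0 (2 * r) (r / 2) → p.2 ∈ G m k

theorem fr_norm_le (hf : Frame π ρ) (v : Euc k) : ‖v‖ ≤ ‖π v‖ + ‖ρ v‖ := by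
  have h1 := Gi_456.norm_sq_frame hf (π v) (ρ v)
  rw [Gi_456.Frame.full_apply hf] at h1
  refine abs_le_of_sq_le_sq' ?_ (by positivity) |>.2
  rw [h1]
  nlinarith [norm_nonneg (π v), norm_nonneg (ρ v)]

/-- `π`-coordinate from the foot -/
theorem norm_pi_le_foot (h : Gr r w) {z : Euc k} {X : Euc m} (hX : IsFoot π ρ x r w z X) :
    ‖π (z - x)‖ ≤ ‖X‖ + 1 / 8 * ‖ρ (z - x) - w X‖ := by
  have h1 : π (z - x) = X - adj (fderiv ℝ w X) (ρ (z - x) - w X) := by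
    have := hX.1
    exact eq_sub_of_add_eq this.symm
  rw [h1]
  refine (norm_sub_le _ _).trans (add_le_add le_rfl ?_)
  refine (ContinuousLinearMap.le_opNorm _ _).trans ?_
  rw [LinearIsometryEquiv.norm_map]
  exact mul_le_mul_of_nonneg_right (h.d1 X) (norm_nonneg _)

theorem norm_Lo_le' (q0 : Euc m →L[ℝ] Euc n) (v : Euc m) : ‖Lo q0 v‖ ≤ (1 + ‖q0‖ ^ 2) * ‖v‖ := by
  have h1 := Gi_456.norm_Lo_sq q0 v
  have h2 := q0.le_opNorm v
  have h3 : ‖q0 v‖ ^ 2 ≤ (‖q0‖ * ‖v‖) ^ 2 := pow_le_pow_left₀ (norm_nonneg _) h2 2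
  refine abs_le_of_sq_le_sq' ?_ (by positivity) |>.2
  rw [h1]
  nlinarith [sq_nonneg (‖q0‖ ^ 2 * ‖v‖), sq_nonneg (‖q0‖ * ‖v‖)]

namespace Reg

variable (h : Reg π ρ x q H H' r r' w w' A R σ V)
include h

theorem r0' : 0 < r' := h.gr'.pos

/-- the first region -/
theorem cK1 : IsCompact (Kc π ρ x w 0 (2 * r) (r / 2)) := h.gr.isCompact_Kc 0 _ _

theorem cK2 : IsCompact (Kc (rπ π ρ q H) (rρ π ρ q H') x w' 0 (2 * r') (r' / 2)) :=
  h.gr'.isCompact_Kc 0 _ _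

theorem mem1 {z : Euc k} : z ∈ Kc π ρ x w 0 (2 * r) (r / 2) ↔
    z ∈ tube π ρ x r w ∧ ‖foot π ρ x r w z - 0‖ ≤ 2 * r ∧ ‖yy π ρ x r w z‖ ≤ r / 2 :=
  h.gr.mem_Kc h.fr (by have := h.gr.pos; linarith)

theorem mem2 {z : Euc k} : z ∈ Kc (rπ π ρ q H) (rρ π ρ q H') x w' 0 (2 * r') (r' / 2) ↔
    z ∈ tube (rπ π ρ q H) (rρ π ρ q H') x r' w' ∧
      ‖foot (rπ π ρ q H) (rρ π ρ q H') x r' w' z - 0‖ ≤ 2 * r' ∧
      ‖yy (rπ π ρ q H) (rρ π ρ q H') x r' w' z‖ ≤ r' / 2 :=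
  h.gr'.mem_Kc (frame_rot h.fr h.same.rt) (by have := h.gr'.pos; linarith)

/-- points of the first region lie in the flat ball -/
theorem mem_ball_of_mem1 {z : Euc k} (hz : z ∈ Kc π ρ x w 0 (2 * r) (r / 2)) :
    z ∈ Metric.ball x (4 * r) := by
  obtain ⟨h1, h2, h3⟩ := h.mem1.1 hz
  rw [sub_zero] at h2
  have hr := h.gr.pos
  have hrr := h.rr
  have h4 : ‖π (z - x)‖ ≤ ‖foot π ρ x r w z‖ + 1 / 8 * ‖yy π ρ x r w z‖ :=
    norm_pi_le_foot h.gr (h.gr.foot_spec h1)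
  have h5 : ‖ρ (z - x)‖ ≤ ‖yy π ρ x r w z‖ + ‖w (foot π ρ x r w z)‖ := by
    have : ρ (z - x) = yy π ρ x r w z + w (foot π ρ x r w z) := by unfold yy; abel
    rw [this]
    exact norm_add_le _ _
  have h6 := h.ws (foot π ρ x r w z)
  have h7 := fr_norm_le h.fr (z - x)
  rw [mem_ball_iff_norm]
  linarith

/-- points of the second region are within `11/4 r'` of `x` -/
theorem norm_of_mem2 {z : Euc k}
    (hz : z ∈ Kc (rπ π ρ q H) (rρ π ρ q H') x w' 0 (2 * r') (r' / 2)) :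
    ‖z - x‖ ≤ 11 / 4 * r' := by
  obtain ⟨h1, h2, h3⟩ := h.mem2.1 hz
  rw [sub_zero] at h2
  have hr := h.r0'
  have hf' := frame_rot h.fr h.same.rt
  have h4 := norm_pi_le_foot h.gr' (h.gr'.foot_spec h1)
  have h5 : ‖rρ π ρ q H' (z - x)‖ ≤ ‖yy (rπ π ρ q H) (rρ π ρ q H') x r' w' z‖ +
      ‖w' (foot (rπ π ρ q H) (rρ π ρ q H') x r' w' z)‖ := by
    have : rρ π ρ q H' (z - x) = yy (rπ π ρ q H) (rρ π ρ q H') x r' w' z +
      w' (foot (rπ π ρ q H) (rρ π ρ q H') x r' w' z) := by unfold yy; abel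
    rw [this]
    exact norm_add_le _ _
  have h6 := h.ws' (foot (rπ π ρ q H) (rρ π ρ q H') x r' w' z)
  have h7 := fr_norm_le hf' (z - x)
  have h8 : ‖rρ π ρ q H' (z - x) - w' (foot (rπ π ρ q H) (rρ π ρ q H') x r' w' z)‖ =
      ‖yy (rπ π ρ q H) (rρ π ρ q H') x r' w' z‖ := rfl
  rw [h8] at h4
  linarith

/-- small heights of flat points of the first region -/
theorem small {z : Euc k} (hz : z ∈ Kc π ρ x w 0 (2 * r) (r / 2)) (hfl : ‖ρ (z - x)‖ ≤ r' / 16) :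
    ‖yy π ρ x r w z‖ ≤ 9 / 64 * r' ∧ ‖(ch π ρ x r w 0).nu z‖ ≤ r' / 6 := by
  obtain ⟨h1, h2, h3⟩ := h.mem1.1 hz
  have h4 := h.gr.norm_yy_le h1
  have h5 := norm_sub_le (ρ (z - x)) (w (π (z - x)))
  have h6 := h.ws (π (z - x))
  have h7 : ‖(ch π ρ x r w 0).nu z‖ ≤ 65 / 64 * ‖yy π ρ x r w z‖ :=
    h.gr.norm_nu_le_yy h.fr _ _
  have hr := h.r0'
  exact ⟨by linarith, by linarith⟩

/-- **a flat point of the first region with foot in the common domain lies in the second region** -/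
theorem mem2_of {z : Euc k} (hz : z ∈ Kc π ρ x w 0 (2 * r) (r / 2))
    (hfl : ‖ρ (z - x)‖ ≤ r' / 16) (hR : ‖(ch π ρ x r w 0).x z‖ ≤ R) :
    z ∈ Kc (rπ π ρ q H) (rρ π ρ q H') x w' 0 (2 * r') (r' / 2) ∧
      foot (rπ π ρ q H) (rρ π ρ q H') x r' w' z = psi q H w (foot π ρ x r w z) := by
  obtain ⟨h1, h2, h3⟩ := h.mem1.1 hz
  obtain ⟨s1, s2⟩ := h.small hz hfl
  have hr := h.r0'
  have hR1 := h.R1
  set X := foot π ρ x r w z with hX
  have hfoot : IsFoot π ρ x r w z X := h.gr.foot_spec h1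
  have hXR : ‖X‖ ≤ R := by
    have h4 := Gi_456.le_norm_Lo (fderiv ℝ w 0) (X - 0)
    rw [sub_zero] at h4
    refine h4.trans ?_
    have e : (ch π ρ x r w 0).x z = Lo (fderiv ℝ w 0) (X - 0) := rfl
    rw [e, sub_zero] at hR
    exact hR
  have hXA : X ∈ A := h.ball (mem_closedBall_zero_iff.2 hXR)
  have hnu : (ch π ρ x r w 0).nu z = z - pnt π ρ x w X := nu_of_isFoot h.fr hfoot
  have hfoot' := h.same.isFoot (r' := r') h.fr hXA hfoot (by rw [← hnu]; linarith)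
  have hpi : ‖π (z - x)‖ ≤ ‖X‖ + 1 / 8 * ‖yy π ρ x r w z‖ := norm_pi_le_foot h.gr hfoot
  have hq := h.hq
  have hq0 := norm_nonneg q
  have hρ' : ‖rρ π ρ q H' (z - x)‖ ≤ 11 / 40 * r' := by
    rw [rρ_apply]
    refine (h.same.rt.le' _).trans ((norm_sub_le _ _).trans ?_)
    have h5 := q.le_opNorm (π (z - x))
    have h6 : ‖q‖ * ‖π (z - x)‖ ≤ 1 / 8 * (8 / 5 * r') :=
      mul_le_mul hq (by linarith) (norm_nonneg _) (by norm_num)
    linarith
  have htube : z ∈ tube (rπ π ρ q H) (rρ π ρ q H') x r' w' := by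
    show ‖rρ π ρ q H' (z - x) - w' (rπ π ρ q H (z - x))‖ < r'
    have h5 := norm_sub_le (rρ π ρ q H' (z - x)) (w' (rπ π ρ q H (z - x)))
    have h6 := h.ws' (rπ π ρ q H (z - x))
    linarith
  have hf2 : foot (rπ π ρ q H) (rρ π ρ q H') x r' w' z = psi q H w X := h.gr'.foot_eq hfoot'
  refine ⟨h.mem2.2 ⟨htube, ?_, ?_⟩, hf2⟩
  · rw [hf2, sub_zero]
    unfold psi
    refine (h.same.rt.le _).trans ((norm_add_le _ _).trans ?_)
    have h5 : ‖adj q (w X)‖ ≤ 1 / 8 * (r' / 16) := by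
      refine (ContinuousLinearMap.le_opNorm _ _).trans ?_
      rw [LinearIsometryEquiv.norm_map]
      exact mul_le_mul hq (h.ws X) (norm_nonneg _) (by norm_num)
    linarith
  · have e : yy (rπ π ρ q H) (rρ π ρ q H') x r' w' z =
        rρ π ρ q H' (z - x) - w' (foot (rπ π ρ q H) (rρ π ρ q H') x r' w' z) := rfl
    rw [e]
    have h5 := norm_sub_le (rρ π ρ q H' (z - x))
      (w' (foot (rπ π ρ q H) (rρ π ρ q H') x r' w' z))
    have h6 := h.ws' (foot (rπ π ρ q H) (rρ π ρ q H') x r' w' z)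
    linarith

/-- flat points of the second region lie in the first tube -/
theorem tube_of_mem2 {z : Euc k}
    (hz : z ∈ Kc (rπ π ρ q H) (rρ π ρ q H') x w' 0 (2 * r') (r' / 2))
    (hfl : ‖ρ (z - x)‖ ≤ r' / 16) :
    z ∈ tube π ρ x r w ∧ ‖yy π ρ x r w z‖ ≤ 9 / 64 * r' := by
  have hr := h.r0'
  have hrr := h.rr
  have h5 := norm_sub_le (ρ (z - x)) (w (π (z - x)))
  have h6 := h.ws (π (z - x))
  have h1 : z ∈ tube π ρ x r w := by
    show ‖ρ (z - x) - w (π (z - x))‖ < r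
    linarith
  have h4 := h.gr.norm_yy_le h1
  exact ⟨h1, by linarith⟩

theorem mem_ball_of_mem2 {z : Euc k}
    (hz : z ∈ Kc (rπ π ρ q H) (rρ π ρ q H') x w' 0 (2 * r') (r' / 2)) :
    z ∈ Metric.ball x (4 * r) := by
  have h1 := h.norm_of_mem2 hz
  have hr := h.r0'
  have hrr := h.rr
  rw [mem_ball_iff_norm]
  linarith

/-- **a flat point of the second region with foot in the common domain lies in the first one** -/
theorem mem1_of {z : Euc k}
    (hz : z ∈ Kc (rπ π ρ q H) (rρ π ρ q H') x w' 0 (2 * r') (r' / 2))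
    (hfl : ‖ρ (z - x)‖ ≤ r' / 16) (hR : ‖(ch π ρ x r w 0).x z‖ ≤ R) :
    z ∈ Kc π ρ x w 0 (2 * r) (r / 2) := by
  obtain ⟨h1, h2⟩ := h.tube_of_mem2 hz hfl
  have hr := h.r0'
  have hrr := h.rr
  have hR1 := h.R1
  refine h.mem1.2 ⟨h1, ?_, by linarith⟩
  have h4 := Gi_456.le_norm_Lo (fderiv ℝ w 0) (foot π ρ x r w z - 0)
  have e : (ch π ρ x r w 0).x z = Lo (fderiv ℝ w 0) (foot π ρ x r w z - 0) := rfl
  rw [e] at hR
  linarith

/-- **far points stay far** (exact) -/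
theorem far {z : Euc k}
    (h2 : z ∈ Kc (rπ π ρ q H) (rρ π ρ q H') x w' 0 (2 * r') (r' / 2)) {e : ℝ}
    (he : (1 + ‖fderiv ℝ w 0‖ ^ 2) * ((1 + ‖q‖ ^ 2) * e + ‖q‖ * (r' / 16)) ≤ R)
    (hx : R < ‖(ch π ρ x r w 0).x z‖) :
    e ≤ ‖(ch (rπ π ρ q H) (rρ π ρ q H') x r' w' 0).x z‖ := by
  by_contra hc
  push Not at hc
  obtain ⟨h1, h3, h4⟩ := h.mem2.1 h2
  have hr := h.r0'
  have hrr := h.rr
  have hq0 := norm_nonneg q
  set X' := foot (rπ π ρ q H) (rρ π ρ q H') x r' w' z with hX'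
  have hf' := frame_rot h.fr h.same.rt
  have e2 : (ch (rπ π ρ q H) (rρ π ρ q H') x r' w' 0).x z = Lo (fderiv ℝ w' 0) (X' - 0) := rfl
  rw [e2, sub_zero] at hc
  have h5 : ‖X'‖ ≤ e := (Gi_456.le_norm_Lo _ _).trans hc.le
  obtain ⟨X, hX1, hX2⟩ := exists_psi h.gr h.same.rt h.hq X'
  have h6 : ‖X‖ ≤ (1 + ‖q‖ ^ 2) * e + ‖q‖ * (r' / 16) := by
    have h7 : (1 + ‖q‖ ^ 2) * ‖X'‖ ≤ (1 + ‖q‖ ^ 2) * e := mul_le_mul_of_nonneg_left h5 (by positivity)
    have h8 : ‖q‖ * ‖w X‖ ≤ ‖q‖ * (r' / 16) := mul_le_mul_of_nonneg_left (h.ws X) hq0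
    linarith
  have h7 : (1 + ‖fderiv ℝ w 0‖ ^ 2) * ‖X‖ ≤ R :=
    (mul_le_mul_of_nonneg_left h6 (by positivity)).trans he
  have hXA : X ∈ A := by
    refine h.ball (mem_closedBall_zero_iff.2 (le_trans ?_ h7))
    have : 0 ≤ ‖fderiv ℝ w 0‖ ^ 2 * ‖X‖ := by positivity
    linarith
  have hfoot' : IsFoot (rπ π ρ q H) (rρ π ρ q H') x r' w' z (psi q H w X) := by
    rw [hX1]; exact h.gr'.foot_spec h1
  have hν : ‖z - pnt π ρ x w X‖ ≤ 2 * r := by
    rw [← h.same.pnt h.fr hXA, ← nu_of_isFoot hf' hfoot']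
    refine (h.gr'.norm_nu_le_yy hf' _ _).trans ?_
    have e3 : yy (rπ π ρ q H) (rρ π ρ q H') x r' w' z = rρ π ρ q H' (z - x) - w' X' := rfl
    rw [e3] at h4
    rw [hX1]
    linarith
  have hfoot := h.same.isFoot_back (r := r) h.fr hXA hfoot' hν
  have e1 : (ch π ρ x r w 0).x z = Lo (fderiv ℝ w 0) (foot π ρ x r w z - 0) := rfl
  rw [e1, sub_zero, h.gr.foot_eq hfoot] at hx
  have h8 := norm_Lo_le' (fderiv ℝ w 0) X
  linarith

/-! ### the common compact -/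

/-- the common compact -/
theorem cK0 : IsCompact (Kc π ρ x w 0 (2 * r) (r / 2) ∩
    Kc (rπ π ρ q H) (rρ π ρ q H') x w' 0 (2 * r') (r' / 2) ∩
      (ch π ρ x r w 0).x ⁻¹' closedBall 0 R) := by
  have hK1 : Kc π ρ x w 0 (2 * r) (r / 2) ⊆ tube π ρ x r w :=
    h.gr.Kc_subset h.fr 0 (by have := h.gr.pos; linarith)
  have ok1 := h.gr.ok h.fr 0 h.cK1 hK1
  have hc : ContinuousOn (ch π ρ x r w 0).x (Kc π ρ x w 0 (2 * r) (r / 2)) := fun z hz =>
    (ok1.hx z hz).continuousAt.continuousWithinAt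
  have h1 : IsClosed (Kc π ρ x w 0 (2 * r) (r / 2) ∩ (ch π ρ x r w 0).x ⁻¹' closedBall 0 R) :=
    hc.preimage_isClosed_of_isClosed h.cK1.isClosed isClosed_closedBall
  have h2 : Kc π ρ x w 0 (2 * r) (r / 2) ∩
      Kc (rπ π ρ q H) (rρ π ρ q H') x w' 0 (2 * r') (r' / 2) ∩
        (ch π ρ x r w 0).x ⁻¹' closedBall 0 R =
      Kc (rπ π ρ q H) (rρ π ρ q H') x w' 0 (2 * r') (r' / 2) ∩
        (Kc π ρ x w 0 (2 * r) (r / 2) ∩ (ch π ρ x r w 0).x ⁻¹' closedBall 0 R) := by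
    ext z
    simp only [mem_inter_iff]
    tauto
  rw [h2]
  exact h.cK2.inter_right h1

end Reg

end Crest.Agent.R234.Swb_159
end
end

-- ▼ part R234/Swb9_159
section

/-!
# Row 234, F6-BLOCK (helper159), part 9: `EE`, `II` of the two regions

`Reg.EE_two`, `Reg.II_two`: comparison of the functionals of the two references, each over its own
region; `Reg.integral_le` : the quantities on the right may be taken over the first region.
-/

set_option autoImplicit false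
set_option linter.unusedSectionVars false

open MeasureTheory Set Metric Filter Topology
open Crest.GeometryTopology.Submanifold
open scoped ENNReal NNReal ContDiff RealInnerProductSpace

noncomputable section

namespace Crest.Agent.R234.Swb_159

open Crest.Agent.R234.Vf_884 (L G)
open Crest.Agent.R234.Cy_870 (Ker)
open Crest.Agent.R234.Ell1_3 Crest.Agent.R234.Main_456 Crest.Agent.R234.Grot_842
open Crest.Agent.R234.GL_394 (Ch Ok On VK)
open Crest.Agent.R234.Gi_456 (Gr tube IsFoot foot yy Bt Lo Loi ch Kc)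

local notation "adj" => ContinuousLinearMap.adjoint

variable {m n k : ℕ} {q : Euc m →L[ℝ] Euc n} {H : Euc m →L[ℝ] Euc m} {H' : Euc n →L[ℝ] Euc n}
  {w w' : Euc m → Euc n} {A : Set (Euc m)} {π : Euc k →L[ℝ] Euc m} {ρ : Euc k →L[ℝ] Euc n}
  {x : Euc k} {r r' R σ : ℝ} {V : Measure (Euc k × L k)}

/-- the region of a reference (518's `Mo.reg`) -/
def rgn (π : Euc k →L[ℝ] Euc m) (ρ : Euc k →L[ℝ] Euc n) (x : Euc k) (r : ℝ) (w : Euc m → Euc n) :
    Set (Euc k) := Kc π ρ x w 0 (2 * r) (r / 2)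

/-- the common compact -/
def rg0 (π : Euc k →L[ℝ] Euc m) (ρ : Euc k →L[ℝ] Euc n) (x : Euc k) (q : Euc m →L[ℝ] Euc n)
    (H : Euc m →L[ℝ] Euc m) (H' : Euc n →L[ℝ] Euc n) (r r' : ℝ) (w w' : Euc m → Euc n) (R : ℝ) :
    Set (Euc k) :=
  rgn π ρ x r w ∩ rgn (rπ π ρ q H) (rρ π ρ q H') x r' w' ∩
    (ch π ρ x r w 0).x ⁻¹' closedBall 0 R

namespace Reg

variable (h : Reg π ρ x q H H' r r' w w' A R σ V)
include h

theorem m0 : MeasurableSet (rg0 π ρ x q H H' r r' w w' R ×ˢ (univ : Set (L k))) :=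
  h.cK0.isClosed.measurableSet.prod MeasurableSet.univ

theorem m1 : MeasurableSet (rgn π ρ x r w ×ˢ (univ : Set (L k))) :=
  h.cK1.isClosed.measurableSet.prod MeasurableSet.univ

theorem m2 : MeasurableSet (rgn (rπ π ρ q H) (rρ π ρ q H') x r' w' ×ˢ (univ : Set (L k))) :=
  h.cK2.isClosed.measurableSet.prod MeasurableSet.univ

/-- points of the first region outside the common compact are far -/
theorem ae1 : ∀ᵐ p ∂V, p ∈ rgn π ρ x r w ×ˢ (univ : Set (L k)) →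
    p ∉ rg0 π ρ x q H H' r r' w w' R ×ˢ (univ : Set (L k)) → R < ‖(ch π ρ x r w 0).x p.1‖ := by
  filter_upwards [h.flat] with p hp h1 h2
  by_contra h3
  push Not at h3
  refine h2 ⟨⟨⟨h1.1, ?_⟩, mem_closedBall_zero_iff.2 h3⟩, mem_univ _⟩
  exact (h.mem2_of h1.1 (hp (h.mem_ball_of_mem1 h1.1)) h3).1

theorem ae2 {e : ℝ} (he : (1 + ‖fderiv ℝ w 0‖ ^ 2) *
    ((1 + ‖q‖ ^ 2) * e + ‖q‖ * (r' / 16)) ≤ R) :
    ∀ᵐ p ∂V, p ∈ rgn (rπ π ρ q H) (rρ π ρ q H') x r' w' ×ˢ (univ : Set (L k)) →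
    p ∉ rg0 π ρ x q H H' r r' w w' R ×ˢ (univ : Set (L k)) →
      e ≤ ‖(ch (rπ π ρ q H) (rρ π ρ q H') x r' w' 0).x p.1‖ := by
  filter_upwards [h.flat] with p hp h1 h2
  have hfl := hp (h.mem_ball_of_mem2 h1.1)
  rcases le_or_gt ‖(ch π ρ x r w 0).x p.1‖ R with h3 | h3
  · exact absurd ⟨⟨⟨h.mem1_of h1.1 hfl h3, h1.1⟩, mem_closedBall_zero_iff.2 h3⟩, mem_univ _⟩ h2
  · exact h.far h1.1 he h3

theorem fin0 : V (rg0 π ρ x q H H' r r' w w' R ×ˢ (univ : Set (L k))) < ⊤ :=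
  (measure_mono (prod_mono_left fun _ hz => hz.1.1)).trans_lt h.fin

theorem on0 : On (VK V (rg0 π ρ x q H H' r r' w w' R)) m (rg0 π ρ x q H H' r r' w w' R) where
  fin := ⟨by
    rw [VK, Measure.restrict_apply_univ]
    exact h.fin0⟩
  mem := by
    rw [VK, ae_restrict_iff' h.m0]
    filter_upwards [h.pl] with p hp h1
    exact ⟨h1.1, hp h1.1.1.1⟩

theorem on1 : On (VK V (rgn π ρ x r w)) m (rgn π ρ x r w) where
  fin := ⟨by
    rw [VK, Measure.restrict_apply_univ]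
    exact h.fin⟩
  mem := by
    rw [VK, ae_restrict_iff' h.m1]
    filter_upwards [h.pl] with p hp h1
    exact ⟨h1.1, hp h1.1⟩

theorem near0 : Near π ρ x q H H' r r' w w' 0 0 R (VK V (rg0 π ρ x q H H' r r' w w' R)) := by
  unfold Near
  rw [VK, ae_restrict_iff' h.m0]
  filter_upwards [h.flat] with p hp h1
  refine Or.inl ⟨(h.mem1.1 h1.1.1.1).1, mem_closedBall_zero_iff.1 h1.1.2, ?_⟩
  have h2 := (h.small h1.1.1.1 (hp (h.mem_ball_of_mem1 h1.1.1.1))).2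
  have := h.r0'
  linarith

theorem sub1 : rg0 π ρ x q H H' r r' w w' R ×ˢ (univ : Set (L k)) ⊆
    rgn π ρ x r w ×ˢ (univ : Set (L k)) := prod_mono_left fun _ hz => hz.1.1

theorem sub2 : rg0 π ρ x q H H' r r' w w' R ×ˢ (univ : Set (L k)) ⊆
    rgn (rπ π ρ q H) (rρ π ρ q H') x r' w' ×ˢ (univ : Set (L k)) :=
  prod_mono_left fun _ hz => hz.1.2

/-- restriction for the first chart -/
theorem EE1 {g g1 : ℝ → ℝ} (hg : Ker g g1) (Q : ℝ) {l : ℝ} (hl : Real.exp l ≤ R) :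
    GL_394.EE (ch π ρ x r w 0) (VK V (rgn π ρ x r w)) g Q l =
      GL_394.EE (ch π ρ x r w 0) (VK V (rg0 π ρ x q H H' r r' w w' R)) g Q l := by
  have := EE_restrict (c := ch π ρ x r w 0) h.m1 h.m0 hg (l := l) (by
    filter_upwards [h.ae1] with p hp h1 h2
    exact hl.trans (hp h1 h2).le) Q
  rw [inter_eq_self_of_subset_right h.sub1] at this
  exact this

theorem EE2 {g g1 : ℝ → ℝ} (hg : Ker g g1) (Q : ℝ) {l : ℝ} (he : (1 + ‖fderiv ℝ w 0‖ ^ 2) *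
    ((1 + ‖q‖ ^ 2) * Real.exp l + ‖q‖ * (r' / 16)) ≤ R) :
    GL_394.EE (ch (rπ π ρ q H) (rρ π ρ q H') x r' w' 0)
      (VK V (rgn (rπ π ρ q H) (rρ π ρ q H') x r' w')) g Q l =
      GL_394.EE (ch (rπ π ρ q H) (rρ π ρ q H') x r' w' 0)
        (VK V (rg0 π ρ x q H H' r r' w w' R)) g Q l := by
  have := EE_restrict (c := ch (rπ π ρ q H) (rρ π ρ q H') x r' w' 0) h.m2 h.m0 hg (l := l)
    (h.ae2 he) Q
  rw [inter_eq_self_of_subset_right h.sub2] at this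
  exact this

theorem II1 {g g1 : ℝ → ℝ} (hg : Ker g g1) {l : ℝ} (hl : Real.exp l ≤ R) :
    GL_394.II (ch π ρ x r w 0) (VK V (rgn π ρ x r w)) g l =
      GL_394.II (ch π ρ x r w 0) (VK V (rg0 π ρ x q H H' r r' w w' R)) g l := by
  have := II_restrict (c := ch π ρ x r w 0) h.m1 h.m0 hg (l := l) (by
    filter_upwards [h.ae1] with p hp h1 h2
    exact hl.trans (hp h1 h2).le)
  rw [inter_eq_self_of_subset_right h.sub1] at this
  exact this

theorem II2 {g g1 : ℝ → ℝ} (hg : Ker g g1) {l : ℝ} (he : (1 + ‖fderiv ℝ w 0‖ ^ 2) *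
    ((1 + ‖q‖ ^ 2) * Real.exp l + ‖q‖ * (r' / 16)) ≤ R) :
    GL_394.II (ch (rπ π ρ q H) (rρ π ρ q H') x r' w' 0)
      (VK V (rgn (rπ π ρ q H) (rρ π ρ q H') x r' w')) g l =
      GL_394.II (ch (rπ π ρ q H) (rρ π ρ q H') x r' w' 0)
        (VK V (rg0 π ρ x q H H' r r' w w' R)) g l := by
  have := II_restrict (c := ch (rπ π ρ q H) (rρ π ρ q H') x r' w' 0) h.m2 h.m0 hg (l := l)
    (h.ae2 he)
  rw [inter_eq_self_of_subset_right h.sub2] at this
  exact this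

/-- functions of the foot with support in the common domain have the same integrals -/
theorem int_eq {F : Euc k × L k → ℝ} {s : ℝ} (hs : s ≤ R)
    (hF : ∀ p, s < ‖(ch π ρ x r w 0).x p.1‖ → F p = 0) :
    ∫ p, F p ∂(VK V (rgn π ρ x r w)) = ∫ p, F p ∂(VK V (rg0 π ρ x q H H' r r' w w' R)) := by
  refine setIntegral_eq_of_subset_of_ae_sdiff_eq_zero h.m1.nullMeasurableSet h.sub1 ?_
  filter_upwards [h.ae1] with p hp h1
  exact hF p (hs.trans_lt (hp h1.1 h1.2))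

/-- integrals of nonnegative functions over the common compact are smaller -/
theorem int_le {F : Euc k × L k → ℝ} (S : Set (Euc k × L k))
    (hi : Integrable F (VK V (rgn π ρ x r w))) (h0 : ∀ᵐ p ∂(VK V (rgn π ρ x r w)), 0 ≤ F p) :
    ∫ p in S, F p ∂(VK V (rg0 π ρ x q H H' r r' w w' R)) ≤
      ∫ p in S, F p ∂(VK V (rgn π ρ x r w)) := by
  have h1 : VK V (rg0 π ρ x q H H' r r' w w' R) ≤ VK V (rgn π ρ x r w) :=
    Measure.restrict_mono h.sub1 le_rfl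
  exact integral_mono_measure (Measure.restrict_mono le_rfl h1) (ae_restrict_of_ae h0)
    hi.restrict

/-- **the excess of one surface in two frames, each over its own region** -/
theorem EE_two {g g1 : ℝ → ℝ} (hg : Ker g g1) {G1 : ℝ} (hG : ∀ t, 0 ≤ t → |g1 t| ≤ G1) (Q : ℝ)
    {l : ℝ} (hb : 2 * ‖psi q H w 0‖ ≤ σ * Real.exp l) (hl : (1 + 3 * σ) * Real.exp l ≤ R)
    (he : (1 + ‖fderiv ℝ w 0‖ ^ 2) *
      ((1 + ‖q‖ ^ 2) * Real.exp l + ‖q‖ * (r' / 16)) ≤ R)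
    (hτ0 : ∀ᵐ p ∂(VK V (rgn π ρ x r w)), 0 ≤ (ch π ρ x r w 0).tau p.1 p.2)
    {e2 : Measure (Euc m)} (hfin : e2 (closedBall 0 ((1 + 3 * σ) * Real.exp l)) ≠ ⊤)
    (habs : ∀ f : Euc m → ℝ, Measurable f → (∃ C, ∀ v, |f v| ≤ C) →
      (∀ v ∉ closedBall (0 : Euc m) ((1 + 3 * σ) * Real.exp l), f v = 0) →
      |∫ p, f ((ch π ρ x r w 0).x p.1) * (1 - (ch π ρ x r w 0).tau p.1 p.2 / 2)
        ∂(VK V (rgn π ρ x r w)) - Q * ∫ v, f v * (ch π ρ x r w 0).j v| ≤ ∫ v, |f v| ∂e2) :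
    |GL_394.EE (ch (rπ π ρ q H) (rρ π ρ q H') x r' w' 0)
        (VK V (rgn (rπ π ρ q H) (rρ π ρ q H') x r' w')) g Q l -
      GL_394.EE (ch π ρ x r w 0) (VK V (rgn π ρ x r w)) g Q l| ≤
        12 * G1 * σ * (Real.exp ((2 - m) * l) *
          (e2.real (closedBall 0 ((1 + 3 * σ) * Real.exp l)) +
            (1 / 2) * ∫ p in {p | ‖(ch π ρ x r w 0).x p.1‖ ≤ (1 + 3 * σ) * Real.exp l},
              (ch π ρ x r w 0).tau p.1 p.2 ∂(VK V (rgn π ρ x r w)))) := by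
  have hs0 := h.s0
  have hexp := Real.exp_pos l
  have hlR : Real.exp l ≤ R := le_trans (by nlinarith) hl
  have hK1 : rg0 π ρ x q H H' r r' w w' R ⊆ tube π ρ x r w := fun z hz =>
    (h.mem1.1 hz.1.1).1
  have hK2 : rg0 π ρ x q H H' r r' w w' R ⊆ tube (rπ π ρ q H) (rρ π ρ q H') x r' w' :=
    fun z hz => (h.mem2.1 hz.1.2).1
  have ok1 := h.gr.ok h.fr 0 h.cK1 (fun z hz => (h.mem1.1 hz).1)
  have hle0 : VK V (rg0 π ρ x q H H' r r' w w' R) ≤ VK V (rgn π ρ x r w) :=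
    Measure.restrict_mono h.sub1 le_rfl
  have h0' : ∀ᵐ p ∂(VK V (rg0 π ρ x q H H' r r' w w' R)), 0 ≤ (ch π ρ x r w 0).tau p.1 p.2 :=
    ae_mono hle0 hτ0
  have hb' : 2 * ‖psi q H w 0 - 0‖ ≤ σ * Real.exp l := by rwa [sub_zero]
  have hG10 : 0 ≤ G1 := (abs_nonneg _).trans (hG 0 le_rfl)
  have key := h.toTwo.block_EE h.cK0 hK1 hK2 h.on0 h.near0 hg hG Q hb' hl h0' hfin (by
    intro f hf hfb hfs
    refine le_of_eq_of_le ?_ (habs f hf hfb hfs)
    have := h.int_eq (F := fun p => f ((ch π ρ x r w 0).x p.1) *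
      (1 - (ch π ρ x r w 0).tau p.1 p.2 / 2)) hl (fun p hp => by
        show f ((ch π ρ x r w 0).x p.1) * _ = 0
        rw [hfs _ (fun hc => absurd (mem_closedBall_zero_iff.1 hc) (not_le.2 hp)), zero_mul])
    rw [this])
  rw [h.EE1 hg Q hlR, h.EE2 hg Q he]
  refine key.trans ?_
  have h2 := h.int_le {p | ‖(ch π ρ x r w 0).x p.1‖ ≤ (1 + 3 * σ) * Real.exp l}
    (F := fun p => (ch π ρ x r w 0).tau p.1 p.2) (h.on1.integrable h.cK1 ok1.ctau) hτ0
  have h3 : 0 ≤ Real.exp ((2 - m) * l) := (Real.exp_pos _).le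
  have h4 : 0 ≤ 12 * G1 * σ := by positivity
  refine mul_le_mul_of_nonneg_left (mul_le_mul_of_nonneg_left ?_ h3) h4
  exact add_le_add le_rfl (mul_le_mul_of_nonneg_left h2 (by norm_num))

/-- **the height functional of one surface in two frames, each over its own region** -/
theorem II_two {g1 g2 : ℝ → ℝ} (hg : Ker g1 g2) {G1 G2 : ℝ} (hG1 : ∀ t, 0 ≤ t → |g1 t| ≤ G1)
    (hG2 : ∀ t, 0 ≤ t → |g2 t| ≤ G2) {l : ℝ} (hb : 2 * ‖psi q H w 0‖ ≤ σ * Real.exp l)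
    (hl : (1 + 3 * σ) * Real.exp l ≤ R)
    (he : (1 + ‖fderiv ℝ w 0‖ ^ 2) *
      ((1 + ‖q‖ ^ 2) * Real.exp l + ‖q‖ * (r' / 16)) ≤ R) :
    |GL_394.II (ch (rπ π ρ q H) (rρ π ρ q H') x r' w' 0)
        (VK V (rgn (rπ π ρ q H) (rρ π ρ q H') x r' w')) g1 l -
      GL_394.II (ch π ρ x r w 0) (VK V (rgn π ρ x r w)) g1 l| ≤
        (64 * G1 + 72 * G2) * σ * (Real.exp (-m * l) *
          ∫ p in {p | ‖(ch π ρ x r w 0).x p.1‖ ≤ (1 + 3 * σ) * Real.exp l},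
            (ch π ρ x r w 0).f p.1 ∂(VK V (rgn π ρ x r w))) := by
  have hs0 := h.s0
  have hexp := Real.exp_pos l
  have hlR : Real.exp l ≤ R := le_trans (by nlinarith) hl
  have hK1 : rg0 π ρ x q H H' r r' w w' R ⊆ tube π ρ x r w := fun z hz =>
    (h.mem1.1 hz.1.1).1
  have hK2 : rg0 π ρ x q H H' r r' w w' R ⊆ tube (rπ π ρ q H) (rρ π ρ q H') x r' w' :=
    fun z hz => (h.mem2.1 hz.1.2).1
  have ok1 := h.gr.ok h.fr 0 h.cK1 (fun z hz => (h.mem1.1 hz).1)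
  have hb' : 2 * ‖psi q H w 0 - 0‖ ≤ σ * Real.exp l := by rwa [sub_zero]
  have hG10 : 0 ≤ G1 := (abs_nonneg _).trans (hG1 0 le_rfl)
  have hG20 : 0 ≤ G2 := (abs_nonneg _).trans (hG2 0 le_rfl)
  have key := h.toTwo.block_II h.cK0 hK1 hK2 h.on0 h.near0 hg hG1 hG2 hb' hl
  rw [h.II1 hg hlR, h.II2 hg he]
  refine key.trans ?_
  have hfc : ContinuousOn (fun p : Euc k × L k => (ch π ρ x r w 0).f p.1)
      (Kc π ρ x w 0 (2 * r) (r / 2) ×ˢ G m k) := by
    have h2 : ContinuousOn (ch π ρ x r w 0).f (Kc π ρ x w 0 (2 * r) (r / 2)) := fun z hz =>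
      (ok1.hf z hz).continuousAt.continuousWithinAt
    exact h2.comp continuousOn_fst fun p hp => hp.1
  have h2 := h.int_le {p | ‖(ch π ρ x r w 0).x p.1‖ ≤ (1 + 3 * σ) * Real.exp l}
    (F := fun p => (ch π ρ x r w 0).f p.1) (h.on1.integrable h.cK1 hfc)
    (Filter.Eventually.of_forall fun p => by
      show 0 ≤ ‖Bt π ρ w (foot π ρ x r w p.1) (yy π ρ x r w p.1)‖ ^ 2 / 2
      positivity)
  have h4 : 0 ≤ (64 * G1 + 72 * G2) * σ := by positivity
  exact mul_le_mul_of_nonneg_left (mul_le_mul_of_nonneg_left h2 (Real.exp_pos _).le) h4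

end Reg

end Crest.Agent.R234.Swb_159
end
end

-- ▼ part R234/Swb10_159

/-!
# Row 234, F6-BLOCK (helper159), part 10: bounds of `II` by `∫ f`, facts of the flat package
-/

set_option autoImplicit false
set_option linter.unusedSectionVars false

open MeasureTheory Set Metric Filter Topology
open Crest.GeometryTopology.Submanifold
open scoped ENNReal NNReal ContDiff RealInnerProductSpace

noncomputable section

namespace Crest.Agent.R234.Swb_159

open Crest.Agent.R234.Vf_884 (L G)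
open Crest.Agent.R234.Cy_870 (Ker)
open Crest.Agent.R234.Ell1_3 Crest.Agent.R234.Main_456 Crest.Agent.R234.Grot_842
open Crest.Agent.R234.GL_394 (Ch Ok On VK)
open Crest.Agent.R234.Gi_456 (Gr tube IsFoot foot yy Bt Lo Loi ch Kc giB muG)
open Crest.Agent.R234.GI_640 (g3 g31 g32)

local notation "adj" => ContinuousLinearMap.adjoint

variable {m n k : ℕ} {w : Euc m → Euc n} {π : Euc k →L[ℝ] Euc m} {ρ : Euc k →L[ℝ] Euc n}
  {x : Euc k} {r : ℝ} {X0 : Euc m} {V : Measure (Euc k × L k)} {K : Set (Euc k)}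

/-- `1/2 ≤ μ ≤ 3/2` -/
theorem mu_bd (h : Gr r w) {v : Euc m} (hv : ‖v‖ ≤ 15 * r) :
    1 / 2 ≤ (ch π ρ x r w X0).mu v ∧ (ch π ρ x r w X0).mu v ≤ 3 / 2 := by
  have hr := h.pos
  show 1 / 2 ≤ muG (giB w X0) v ∧ muG (giB w X0) v ≤ 3 / 2
  by_cases h0 : v = 0
  · subst h0
    rw [Gi_456.muG_zero]; norm_num
  have hn : 0 < ‖v‖ := norm_pos_iff.2 h0
  have h1 := norm_giB_sub h X0 v
  have h2 : 1 / (30 * r) * ‖v‖ ≤ 1 / 2 := by
    calc 1 / (30 * r) * ‖v‖ ≤ 1 / (30 * r) * (15 * r) :=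
          mul_le_mul_of_nonneg_left hv (by positivity)
      _ = 1 / 2 := by field_simp; norm_num
  have h3 := Gi_456.muG_mul (G := giB w X0) v
  have h4 : ⟪v, giB w X0 v v⟫ - ‖v‖ ^ 2 =
      ⟪v, (giB w X0 v - ContinuousLinearMap.id ℝ (Euc m)) v⟫ := by
    rw [_root_.sub_apply, inner_sub_right, ContinuousLinearMap.id_apply,
      real_inner_self_eq_norm_sq]
  have h5 : |⟪v, (giB w X0 v - ContinuousLinearMap.id ℝ (Euc m)) v⟫| ≤ 1 / 2 * ‖v‖ ^ 2 := by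
    refine (abs_real_inner_le_norm _ _).trans ?_
    have h6 := (giB w X0 v - ContinuousLinearMap.id ℝ (Euc m)).le_opNorm v
    have h7 : ‖giB w X0 v - ContinuousLinearMap.id ℝ (Euc m)‖ * ‖v‖ ≤ 1 / 2 * ‖v‖ :=
      mul_le_mul_of_nonneg_right (h1.trans h2) hn.le
    calc _ ≤ ‖v‖ * (1 / 2 * ‖v‖) := mul_le_mul_of_nonneg_left (h6.trans h7) hn.le
      _ = _ := by ring
  rw [← h4, h3] at h5
  obtain ⟨h8, h9⟩ := abs_le.1 h5
  have h10 : 0 < ‖v‖ ^ 2 := by positivity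
  constructor
  · refine le_of_mul_le_mul_right ?_ h10
    linarith
  · refine le_of_mul_le_mul_right ?_ h10
    linarith

theorem f_nonneg (z : Euc k) : 0 ≤ (ch π ρ x r w X0).f z := by
  show 0 ≤ ‖Bt π ρ w (foot π ρ x r w z) (yy π ρ x r w z)‖ ^ 2 / 2
  positivity

theorem integrable_f (h : Gr r w) (hf : Frame π ρ) (hK : IsCompact K) (hK1 : K ⊆ tube π ρ x r w)
    (hV : On V m K) : Integrable (fun p : Euc k × L k => (ch π ρ x r w X0).f p.1) V := by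
  have ok1 := h.ok hf X0 hK hK1
  refine hV.integrable hK ?_
  have h2 : ContinuousOn (ch π ρ x r w X0).f K := fun z hz =>
    (ok1.hf z hz).continuousAt.continuousWithinAt
  exact h2.comp continuousOn_fst fun p hp => hp.1

theorem aem' {c : Ch m k} {D : Set (Euc m)} (hc : Ok c K D) (hV : On V m K) :
    AEMeasurable (fun p : Euc k × L k => c.x p.1) V := by
  have := hV.fin
  have hS : MeasurableSet (K ×ˢ G m k) :=
    hc.cpt.isClosed.measurableSet.prod (Vf_884.measurableSet_G m k)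
  rw [← Measure.restrict_eq_self_of_ae_mem hV.mem]
  have h1 : ContinuousOn c.x K := fun z hz => (hc.hx z hz).continuousAt.continuousWithinAt
  exact (h1.comp continuousOn_fst (fun p hp => hp.1)).aemeasurable hS

theorem integrable_II' {c : Ch m k} {D : Set (Euc m)} (hc : Ok c K D) (hV : On V m K)
    {g1 g2 : ℝ → ℝ} (hg : Ker g1 g2)
    (l : ℝ) : Integrable (fun p : Euc k × L k => (c.f p.1 * c.mu (c.x p.1)) *
      (-4 * g1 (Real.exp (-2 * l) * ‖c.x p.1‖ ^ 2))) V := by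
  refine hV.integrable hc.cpt ?_
  have h0 : ContinuousOn (fun p : Euc k × L k => p.1) (K ×ˢ G m k) := continuousOn_fst
  have hm : MapsTo (fun p : Euc k × L k => p.1) (K ×ˢ G m k) K := fun p hp => hp.1
  have h1 : ContinuousOn c.x K := fun z hz => (hc.hx z hz).continuousAt.continuousWithinAt
  have h2 : ContinuousOn c.f K := fun z hz => (hc.hf z hz).continuousAt.continuousWithinAt
  have h3 : ContinuousOn (fun z => c.mu (c.x z)) K := hc.cmu.comp h1 hc.mem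
  have h4 : ContinuousOn (fun z => g1 (Real.exp (-2 * l) * ‖c.x z‖ ^ 2)) K :=
    hg.continuous.comp_continuousOn ((h1.norm.pow 2).const_mul _)
  exact ((h2.mul h3).mul (h4.const_mul _)).comp h0 hm

/-- measurable up to null sets -/
theorem nullMeasurable_ball (h : Gr r w) (hf : Frame π ρ) (hK : IsCompact K)
    (hK1 : K ⊆ tube π ρ x r w) (hV : On V m K) (s : ℝ) :
    NullMeasurableSet {p : Euc k × L k | ‖(ch π ρ x r w X0).x p.1‖ ≤ s} V := by
  have hm : AEMeasurable (fun p : Euc k × L k => (ch π ρ x r w X0).x p.1) V :=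
    aem' (h.ok hf X0 hK hK1) hV
  have h1 : AEMeasurable (fun p : Euc k × L k => ‖(ch π ρ x r w X0).x p.1‖) V := hm.norm
  exact h1.nullMeasurableSet_preimage measurableSet_Iic

/-- **lower bound of `II`** -/
theorem int_f_le_II (h : Gr r w) (hf : Frame π ρ) (hK : IsCompact K)
    (hK1 : K ⊆ tube π ρ x r w) (hV : On V m K) {l s δ : ℝ} (hs : s ≤ 15 * r) (hδ : 0 ≤ δ)
    (hl : Real.exp l ≤ 15 * r) (h1 : δ ≤ 1 - Real.exp (-2 * l) * s ^ 2) (hs0 : 0 ≤ s) :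
    6 * δ ^ 2 * (Real.exp (-m * l) *
      ∫ p in {p | ‖(ch π ρ x r w X0).x p.1‖ ≤ s}, (ch π ρ x r w X0).f p.1 ∂V) ≤
        GL_394.II (ch π ρ x r w X0) V g31 l := by
  have ok1 := h.ok hf X0 hK hK1
  have hint := integrable_f (X0 := X0) h hf hK hK1 hV
  have hI := integrable_II' ok1 hV GI_640.ker31 l
  have hns := nullMeasurable_ball (X0 := X0) h hf hK hK1 hV s
  unfold GL_394.II
  have e1 : 6 * δ ^ 2 * (Real.exp (-m * l) *
      ∫ p in {p | ‖(ch π ρ x r w X0).x p.1‖ ≤ s}, (ch π ρ x r w X0).f p.1 ∂V) =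
      Real.exp (-m * l) * ∫ p in {p | ‖(ch π ρ x r w X0).x p.1‖ ≤ s},
        6 * δ ^ 2 * (ch π ρ x r w X0).f p.1 ∂V := by
    rw [integral_const_mul]; ring
  rw [e1]
  refine mul_le_mul_of_nonneg_left ?_ (Real.exp_pos _).le
  rw [← integral_indicator₀ hns]
  refine integral_mono ((hint.const_mul _).indicator₀ hns) hI fun p => ?_
  have hf0 := f_nonneg (π := π) (ρ := ρ) (x := x) (r := r) (w := w) (X0 := X0) p.1
  have hker : ∀ t, 0 ≤ -4 * g31 t := fun t => by have := GI_640.g31_nonpos t; linarith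
  by_cases hp : ‖(ch π ρ x r w X0).x p.1‖ ≤ s
  · rw [indicator_of_mem (show p ∈ {p | ‖(ch π ρ x r w X0).x p.1‖ ≤ s} from hp)]
    have hmu := (mu_bd (π := π) (ρ := ρ) (x := x) (X0 := X0) h (hp.trans hs)).1
    have hk : 12 * δ ^ 2 ≤ -4 * g31 (Real.exp (-2 * l) * ‖(ch π ρ x r w X0).x p.1‖ ^ 2) := by
      unfold GI_640.g31
      have h2 : Real.exp (-2 * l) * ‖(ch π ρ x r w X0).x p.1‖ ^ 2 ≤ Real.exp (-2 * l) * s ^ 2 := by
        gcongr
      have h3 : δ ≤ max 0 (1 - Real.exp (-2 * l) * ‖(ch π ρ x r w X0).x p.1‖ ^ 2) :=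
        le_max_of_le_right (by linarith)
      have h4 := pow_le_pow_left₀ hδ h3 2
      linarith
    have h5 : 1 / 2 * (12 * δ ^ 2) ≤ (ch π ρ x r w X0).mu ((ch π ρ x r w X0).x p.1) *
        (-4 * g31 (Real.exp (-2 * l) * ‖(ch π ρ x r w X0).x p.1‖ ^ 2)) :=
      mul_le_mul hmu hk (by positivity) (by linarith)
    calc 6 * δ ^ 2 * (ch π ρ x r w X0).f p.1 =
        (ch π ρ x r w X0).f p.1 * (1 / 2 * (12 * δ ^ 2)) := by ring
      _ ≤ (ch π ρ x r w X0).f p.1 * ((ch π ρ x r w X0).mu ((ch π ρ x r w X0).x p.1) *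
        (-4 * g31 (Real.exp (-2 * l) * ‖(ch π ρ x r w X0).x p.1‖ ^ 2))) :=
          mul_le_mul_of_nonneg_left h5 hf0
      _ = _ := by ring
  · rw [indicator_of_notMem (show p ∉ {p | ‖(ch π ρ x r w X0).x p.1‖ ≤ s} from hp)]
    rcases le_or_gt (Real.exp l) ‖(ch π ρ x r w X0).x p.1‖ with h2 | h2
    · rw [ker_zero GI_640.ker31 h2, mul_zero, mul_zero]
    · have hmu := (mu_bd (π := π) (ρ := ρ) (x := x) (X0 := X0) h (h2.le.trans hl)).1
      exact mul_nonneg (mul_nonneg hf0 (by linarith)) (hker _)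

/-- **upper bound of `II`** -/
theorem II_le_int_f (h : Gr r w) (hf : Frame π ρ) (hK : IsCompact K)
    (hK1 : K ⊆ tube π ρ x r w) (hV : On V m K) {l s : ℝ} (hl : Real.exp l ≤ 15 * r)
    (hs : Real.exp l ≤ s) :
    GL_394.II (ch π ρ x r w X0) V g31 l ≤ 18 * (Real.exp (-m * l) *
      ∫ p in {p | ‖(ch π ρ x r w X0).x p.1‖ ≤ s}, (ch π ρ x r w X0).f p.1 ∂V) := by
  have ok1 := h.ok hf X0 hK hK1
  have hint := integrable_f (X0 := X0) h hf hK hK1 hV
  have hI := integrable_II' ok1 hV GI_640.ker31 l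
  have hns := nullMeasurable_ball (X0 := X0) h hf hK hK1 hV s
  unfold GL_394.II
  have e1 : 18 * (Real.exp (-m * l) *
      ∫ p in {p | ‖(ch π ρ x r w X0).x p.1‖ ≤ s}, (ch π ρ x r w X0).f p.1 ∂V) =
      Real.exp (-m * l) * ∫ p in {p | ‖(ch π ρ x r w X0).x p.1‖ ≤ s},
        18 * (ch π ρ x r w X0).f p.1 ∂V := by
    rw [integral_const_mul]; ring
  rw [e1]
  refine mul_le_mul_of_nonneg_left ?_ (Real.exp_pos _).le
  rw [← integral_indicator₀ hns]
  refine integral_mono hI ((hint.const_mul _).indicator₀ hns) fun p => ?_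
  have hf0 := f_nonneg (π := π) (ρ := ρ) (x := x) (r := r) (w := w) (X0 := X0) p.1
  have hind : 0 ≤ {p : Euc k × L k | ‖(ch π ρ x r w X0).x p.1‖ ≤ s}.indicator
      (fun p => 18 * (ch π ρ x r w X0).f p.1) p :=
    indicator_nonneg (fun q _ => by
      have := f_nonneg (π := π) (ρ := ρ) (x := x) (r := r) (w := w) (X0 := X0) q.1
      positivity) p
  rcases le_or_gt (Real.exp l) ‖(ch π ρ x r w X0).x p.1‖ with h2 | h2
  · rw [ker_zero GI_640.ker31 h2, mul_zero, mul_zero]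
    exact hind
  · rw [indicator_of_mem (show p ∈ {p | ‖(ch π ρ x r w X0).x p.1‖ ≤ s} from h2.le.trans hs)]
    have hmu := mu_bd (π := π) (ρ := ρ) (x := x) (X0 := X0) h (h2.le.trans hl)
    have hk : -4 * g31 (Real.exp (-2 * l) * ‖(ch π ρ x r w X0).x p.1‖ ^ 2) ≤ 12 := by
      unfold GI_640.g31
      have h3 : max 0 (1 - Real.exp (-2 * l) * ‖(ch π ρ x r w X0).x p.1‖ ^ 2) ≤ 1 :=
        max_le (by norm_num) (by
          have : 0 ≤ Real.exp (-2 * l) * ‖(ch π ρ x r w X0).x p.1‖ ^ 2 := by positivity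
          linarith)
      have h4 := pow_le_pow_left₀ (le_max_left _ _) h3 2
      linarith
    have hk0 : 0 ≤ -4 * g31 (Real.exp (-2 * l) * ‖(ch π ρ x r w X0).x p.1‖ ^ 2) := by
      have := GI_640.g31_nonpos (Real.exp (-2 * l) * ‖(ch π ρ x r w X0).x p.1‖ ^ 2); linarith
    have h5 : (ch π ρ x r w X0).mu ((ch π ρ x r w X0).x p.1) *
        (-4 * g31 (Real.exp (-2 * l) * ‖(ch π ρ x r w X0).x p.1‖ ^ 2)) ≤ 3 / 2 * 12 :=
      mul_le_mul hmu.2 hk hk0 (by norm_num)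
    calc (ch π ρ x r w X0).f p.1 * (ch π ρ x r w X0).mu ((ch π ρ x r w X0).x p.1) *
        (-4 * g31 (Real.exp (-2 * l) * ‖(ch π ρ x r w X0).x p.1‖ ^ 2)) =
        (ch π ρ x r w X0).f p.1 * ((ch π ρ x r w X0).mu ((ch π ρ x r w X0).x p.1) *
        (-4 * g31 (Real.exp (-2 * l) * ‖(ch π ρ x r w X0).x p.1‖ ^ 2))) := by ring
      _ ≤ (ch π ρ x r w X0).f p.1 * (3 / 2 * 12) := mul_le_mul_of_nonneg_left h5 hf0
      _ = 18 * (ch π ρ x r w X0).f p.1 := by ring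

/-- monotonicity of `∫ f` in the radius -/
theorem int_f_mono (h : Gr r w) (hf : Frame π ρ) (hK : IsCompact K)
    (hK1 : K ⊆ tube π ρ x r w) (hV : On V m K) {s s' : ℝ} (hs : s ≤ s') :
    ∫ p in {p | ‖(ch π ρ x r w X0).x p.1‖ ≤ s}, (ch π ρ x r w X0).f p.1 ∂V ≤
      ∫ p in {p | ‖(ch π ρ x r w X0).x p.1‖ ≤ s'}, (ch π ρ x r w X0).f p.1 ∂V :=
  setIntegral_mono_set (integrable_f (X0 := X0) h hf hK hK1 hV).integrableOn
    (Eventually.of_forall fun p => f_nonneg p.1)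
    (HasSubset.Subset.eventuallyLE fun p (hp : ‖(ch π ρ x r w X0).x p.1‖ ≤ s) =>
      le_trans hp hs)

theorem int_f_nonneg (s : ℝ) :
    0 ≤ ∫ p in {p | ‖(ch π ρ x r w X0).x p.1‖ ≤ s}, (ch π ρ x r w X0).f p.1 ∂V :=
  integral_nonneg fun p => f_nonneg p.1

end Crest.Agent.R234.Swb_159
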