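import Crest.Agent.R234.Swb11_159
import Crest.Agent.R234.Stp4_518
import Crest.Agent.R234.Swb12_159
import Crest.Agent.R234.Swb7_159
import Crest.Agent.R234.Rs8_182
import Crest.Agent.R234.F10v_188

-- ▼ part R234/Swb14_159
section

/-!
# Row 234, F6-BLOCK (helper159), part 14: elementary facts for `BlkP`

* `pow_small` : powers of `Λ`; `II_mono` : `e^{ml} II` is nondecreasing;
* `u0_le` : the value of the reference at the point `x` from the bound of the heights.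
-/

set_option autoImplicit false
set_option linter.unusedSectionVars false
set_option linter.unusedVariables false

open MeasureTheory Set Metric Filter Topology
open Crest.GeometryTopology.Submanifold
open scoped ENNReal NNReal ContDiff RealInnerProductSpace

noncomputable section

namespace Crest.Agent.R234.Swb_159

open Crest.Agent.R234.Vf_884 (L G Stat VD Th mass rat ome)
open Crest.Agent.R234.Cy_870 (Ker)
open Crest.Agent.R234.Ell1_3 Crest.Agent.R234.Main_456 Crest.Agent.R234.Grot_842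
open Crest.Agent.R234.GL_394 (Ch Ok On VK)
open Crest.Agent.R234.Gi_456 (Gr tube IsFoot foot yy Bt Lo Loi ch Kc giB muG)
open Crest.Agent.R234.GI_640 (g3 g31 g32)
open Crest.Agent.R234.Stp_518 (Mo GrB gr_of SupLe)

local notation "adj" => ContinuousLinearMap.adjoint

variable {m n k : ℕ}

/-! ### numbers -/

theorem pow_small {B L K : ℝ} {P q q₁ : ℕ} (hB : 0 ≤ B) (hL : 1 ≤ L) (hK : 0 ≤ K)
    (hKL : K ≤ 2 * L ^ 2) (hq : 2 * P + q + 1 ≤ q₁) (hBL : B * 2 ^ P ≤ L) :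
    (L ^ q₁)⁻¹ * (B * K ^ P) ≤ (L ^ q)⁻¹ := by
  have hL0 : 0 < L := by linarith
  have h1 : (L ^ q₁)⁻¹ ≤ (L ^ (2 * P + q + 1))⁻¹ :=
    inv_anti₀ (by positivity) (pow_le_pow_right₀ hL hq)
  have h2 : K ^ P ≤ (2 * L ^ 2) ^ P := pow_le_pow_left₀ hK hKL P
  calc (L ^ q₁)⁻¹ * (B * K ^ P) ≤ (L ^ (2 * P + q + 1))⁻¹ * (B * (2 * L ^ 2) ^ P) := by gcongr
    _ = (B * 2 ^ P) * L⁻¹ * (L ^ q)⁻¹ := by
        have : L ^ (2 * P + q + 1) = (L ^ 2) ^ P * (L ^ q * L) := by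
          rw [← pow_mul]; ring
        rw [this, mul_pow]
        field_simp
    _ ≤ 1 * (L ^ q)⁻¹ := by
        refine mul_le_mul_of_nonneg_right ?_ (by positivity)
        rw [← div_eq_mul_inv, div_le_one hL0]
        exact hBL
    _ = _ := one_mul _

theorem one_sub_exp_ge {s : ℝ} (hs : 0 ≤ s) (hs1 : s ≤ 1) : s / 2 ≤ 1 - Real.exp (-s) := by
  have h1 := Real.add_one_le_exp s
  have h2 : Real.exp (-s) ≤ (s + 1)⁻¹ := by
    rw [Real.exp_neg]
    exact inv_anti₀ (by linarith) h1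
  have h3 : (s + 1)⁻¹ ≤ 1 - s / 2 := by
    rw [inv_le_iff_one_le_mul₀ (by linarith)]
    nlinarith
  linarith

/-! ### monotonicity of `II` -/

section mono

variable {w : Euc m → Euc n} {π : Euc k →L[ℝ] Euc m} {ρ : Euc k →L[ℝ] Euc n}
  {x : Euc k} {r : ℝ} {X0 : Euc m} {V : Measure (Euc k × L k)} {K : Set (Euc k)}

theorem g31_mono {s t : ℝ} (h : s ≤ t) : g31 s ≤ g31 t := by
  unfold GI_640.g31
  have h1 : max 0 (1 - t) ≤ max 0 (1 - s) := max_le_max le_rfl (by linarith)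
  have h2 := pow_le_pow_left₀ (le_max_left 0 (1 - t)) h1 2
  linarith

theorem II_mono (h : Gr r w) (hf : Frame π ρ) (hK : IsCompact K)
    (hK1 : K ⊆ tube π ρ x r w) (hV : On V m K) {l l' : ℝ} (hll : l ≤ l')
    (hl' : Real.exp l' ≤ 15 * r) :
    GL_394.II (ch π ρ x r w X0) V g31 l ≤
      Real.exp (m * (l' - l)) * GL_394.II (ch π ρ x r w X0) V g31 l' := by
  have ok1 := h.ok hf X0 hK hK1
  have hI := integrable_II' ok1 hV GI_640.ker31 l
  have hI' := integrable_II' ok1 hV GI_640.ker31 l'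
  unfold GL_394.II
  rw [← mul_assoc, ← Real.exp_add]
  have e1 : (m : ℝ) * (l' - l) + -m * l' = -m * l := by ring
  rw [e1]
  refine mul_le_mul_of_nonneg_left (integral_mono hI hI' fun p => ?_) (Real.exp_pos _).le
  have hf0 := f_nonneg (π := π) (ρ := ρ) (x := x) (r := r) (w := w) (X0 := X0) p.1
  rcases le_or_gt (Real.exp l') ‖(ch π ρ x r w X0).x p.1‖ with h2 | h2
  · show _ * (-4 * g31 (Real.exp (-2 * l) * ‖(ch π ρ x r w X0).x p.1‖ ^ 2)) ≤
      _ * (-4 * g31 (Real.exp (-2 * l') * ‖(ch π ρ x r w X0).x p.1‖ ^ 2))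
    rw [ker_zero GI_640.ker31 h2, ker_zero GI_640.ker31 ((Real.exp_le_exp.2 hll).trans h2)]
  · have hmu := (mu_bd (π := π) (ρ := ρ) (x := x) (X0 := X0) h (h2.le.trans hl')).1
    refine mul_le_mul_of_nonneg_left ?_ (mul_nonneg hf0 (by linarith))
    have h3 : Real.exp (-2 * l') * ‖(ch π ρ x r w X0).x p.1‖ ^ 2 ≤
        Real.exp (-2 * l) * ‖(ch π ρ x r w X0).x p.1‖ ^ 2 :=
      mul_le_mul_of_nonneg_right (Real.exp_le_exp.2 (by linarith)) (by positivity)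
    have := g31_mono h3
    linarith

end mono

/-! ### the value at the point -/

theorem u0_le {U : Set (Euc k)} {D : VarifoldData m k} {Q : ℕ} {x : Euc k} {M : Mo m n k}
    (hm : 1 ≤ m) (hV : Stat m k U (VD D)) (hQ : 1 ≤ Q) (hTh : Th m (VD D) x = (Q : ℝ≥0∞))
    (hU : Metric.closedBall x (8 * M.S) ⊆ U) (hf : Frame M.π M.ρ) (hu : Continuous M.u) {R η : ℝ}
    (hR : 0 < R) (hs : SupLe M x (VD D) R η) : ‖M.u 0‖ ≤ η := by
  have hS := M.S_pos
  by_contra hc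
  push Not at hc
  have hcont : Continuous fun z : Euc k => ‖hgt M.π M.ρ x M.S M.u z‖ := by
    have h1 : Continuous fun z : Euc k => M.ρ (z - x) - M.S • M.u (M.S⁻¹ • M.π (z - x)) := by
      fun_prop
    exact h1.norm
  have h0 : ‖hgt M.π M.ρ x M.S M.u x‖ = M.S * ‖M.u 0‖ := by
    show ‖M.ρ (x - x) - M.S • M.u (M.S⁻¹ • M.π (x - x))‖ = _
    rw [sub_self, map_zero, map_zero, smul_zero, zero_sub, norm_neg, norm_smul,
      Real.norm_of_nonneg hS.le]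
  have h1 : ∀ᶠ z in 𝓝 x, M.S * η < ‖hgt M.π M.ρ x M.S M.u z‖ := by
    refine hcont.continuousAt.eventually (lt_mem_nhds ?_)
    show M.S * η < ‖hgt M.π M.ρ x M.S M.u x‖
    rw [h0]
    exact mul_lt_mul_of_pos_left hc hS
  obtain ⟨d, hd, h2⟩ := Metric.eventually_nhds_iff_ball.1 h1
  set s : ℝ := min d (min (M.S * min R 1) (8 * M.S)) with hs'
  have hs0 : 0 < s := by positivity
  have hsd : s ≤ d := min_le_left _ _
  have hsR : s ≤ M.S * min R 1 := (min_le_right _ _).trans (min_le_left _ _)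
  have hs8 : s ≤ 8 * M.S := (min_le_right _ _).trans (min_le_right _ _)
  have hsR1 : s ≤ M.S * R := hsR.trans (mul_le_mul_of_nonneg_left (min_le_left _ _) hS.le)
  have hsS : s ≤ M.S := by
    refine hsR.trans ?_
    calc M.S * min R 1 ≤ M.S * 1 := mul_le_mul_of_nonneg_left (min_le_right _ _) hS.le
      _ = M.S := mul_one _
  have hsub : Metric.ball x s ⊆ U := fun z hz =>
    hU (Metric.ball_subset_closedBall (Metric.ball_subset_ball hs8 hz))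
  have h3 := Vf_884.mul_le_mass hV hm hs0 hsub (c := 1) (by
    rw [hTh]; exact_mod_cast hQ)
  have hpos : 0 < mass (VD D) (Metric.ball x s) := by
    refine lt_of_lt_of_le ?_ h3
    rw [one_mul]
    exact ENNReal.ofReal_pos.2 (Vf_884.den_pos m hs0)
  have h4 : ∀ᵐ p ∂(VD D), p.1 ∉ Metric.ball x s := by
    filter_upwards [hs] with p hp hpb
    have h5 : ‖p.1 - x‖ < s := mem_ball_iff_norm.1 hpb
    have h6 := hp ((Gi_456.norm_pi_le' hf _).trans (h5.le.trans hsR1))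
      ((Gi_456.norm_rho_le' hf _).trans (h5.le.trans hsS))
    exact absurd h6 (not_le.2 (h2 p.1 (Metric.ball_subset_ball hsd hpb)))
  have h5 : mass (VD D) (Metric.ball x s) = 0 := by
    have h6 : VD D {p | p.1 ∈ Metric.ball x s} = 0 := measure_eq_zero_iff_ae_notMem.2 h4
    unfold Vf_884.mass
    first
      | exact h6
      | (rw [Measure.map_apply measurable_fst Metric.isOpen_ball.measurableSet]; exact h6)
  exact hpos.ne' h5

end Crest.Agent.R234.Swb_159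
end
end

-- ▼ part R234/Swb15_159
section

/-!
# Row 234, F6-BLOCK (helper159), part 15: comparison of `I`, `E` of the rotated reference

`BD` : data of the block change at fixed constants; `BD.I_sub`, `BD.E_sub` : the differences.
-/

set_option autoImplicit false
set_option linter.unusedSectionVars false
set_option linter.unusedVariables false

open MeasureTheory Set Metric Filter Topology
open Crest.GeometryTopology.Submanifold
open scoped ENNReal NNReal ContDiff RealInnerProductSpace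

noncomputable section

namespace Crest.Agent.R234.Swb_159

open Crest.Agent.R234.Vf_884 (L G Stat VD Th mass rat ome)
open Crest.Agent.R234.Cy_870 (Ker)
open Crest.Agent.R234.Ell1_3 Crest.Agent.R234.Main_456 Crest.Agent.R234.Grot_842
open Crest.Agent.R234.GL_394 (Ch Ok On VK)
open Crest.Agent.R234.Gi_456 (Gr tube IsFoot foot yy Bt Lo Loi ch Kc giB muG)
open Crest.Agent.R234.GI_640 (g3 g31 g32)
open Crest.Agent.R234.Stp_518 (Mo GrB gr_of SupLe Sit)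

local notation "adj" => ContinuousLinearMap.adjoint

variable {m n k : ℕ} {U : Set (Euc k)} {D : VarifoldData m k} {Q : ℕ} {x : Euc k}
  {M M' : Mo m n k} {ε Λ : ℝ} {q : Euc m →L[ℝ] Euc n} {H : Euc m →L[ℝ] Euc m}
  {H' : Euc n →L[ℝ] Euc n} {A : Set (Euc m)} {l K t δ b b' : ℝ}

/-- data of the block change -/
structure BD (U : Set (Euc k)) (D : VarifoldData m k) (Q : ℕ) (x : Euc k) (M M' : Mo m n k)
    (ε Λ : ℝ) (q : Euc m →L[ℝ] Euc n) (H : Euc m →L[ℝ] Euc m) (H' : Euc n →L[ℝ] Euc n)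
    (A : Set (Euc m)) (l K t δ b b' : ℝ) : Prop where
  sit : Sit U D Q x M ε Λ
  hg : GrB M b
  hg' : GrB M' b'
  hb : b ≤ t / 16
  hb' : b' ≤ 1 / 16
  ht0 : 0 < t
  ht4 : t ≤ 1 / 4
  ht : M'.S = t * M.S
  eπ : M'.π = rπ M.π M.ρ q H
  eρ : M'.ρ = rρ M.π M.ρ q H'
  lb : M'.lb = l - 2 / K + 1 / 8
  same : Same q H H' M.w M'.w A
  hA : closedBall (0 : Euc m) (Real.exp (l + 1 / K)) ⊆ A
  hq : ‖q‖ ≤ 2 * δ
  du : ‖fderiv ℝ M.u 0‖ ≤ δ
  du' : fderiv ℝ M'.u 0 = 0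
  hδ0 : 0 ≤ δ
  hδ : 300 * K * δ ≤ 1
  hK : 32 ≤ K
  hε : ε ≤ t / 16
  hlb : l + 1 / K ≤ M.lb

namespace BD

variable (h : BD U D Q x M M' ε Λ q H H' A l K t δ b b')
include h

theorem K0 : 0 < K := by have := h.hK; linarith

theorem iK : 1 / K ≤ 1 / 32 := one_div_le_one_div_of_le (by norm_num) h.hK

theorem iK0 : 0 < 1 / K := one_div_pos.2 h.K0

theorem δK : δ ≤ 1 / 300 * (1 / K) := by
  have h1 := h.hδ
  have hK := h.K0
  have : δ ≤ 1 / (300 * K) := by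
    rw [le_div_iff₀ (by positivity)]; linarith
  refine this.trans (le_of_eq ?_)
  field_simp

theorem two_div : 2 / K = 2 * (1 / K) := by ring

theorem S'le : M'.S ≤ 2 * Real.exp (l - 2 / K) := by
  show Real.exp M'.lb ≤ _
  rw [h.lb, Real.exp_add]
  have h1 : Real.exp (1 / 8 : ℝ) ≤ 2 := by
    have h2 := Real.exp_one_lt_d9
    have h3 : Real.exp (1 / 8 : ℝ) ^ 8 = Real.exp 1 := by
      rw [← Real.exp_nat_mul]; norm_num
    by_contra hc
    push Not at hc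
    have h4 : (2 : ℝ) ^ 8 ≤ Real.exp (1 / 8 : ℝ) ^ 8 := pow_le_pow_left₀ (by norm_num) hc.le 8
    rw [h3] at h4
    norm_num at h4
    linarith
  have := Real.exp_pos (l - 2 / K)
  nlinarith

/-- `e^(l + 1/K) ≤ S'` -/
theorem le_S' : Real.exp (l + 1 / K) ≤ M'.S := by
  show _ ≤ Real.exp M'.lb
  rw [h.lb]
  refine Real.exp_le_exp.2 ?_
  have := h.iK
  have := h.two_div
  linarith

theorem ws : ∀ X, ‖M.w X‖ ≤ M'.S / 16 := fun X => by
  have h1 := h.hg.w0 X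
  have h2 := mul_le_mul_of_nonneg_left h.hb M.S_pos.le
  rw [h.ht]; linarith

theorem ws' : ∀ X, ‖M'.w X‖ ≤ M'.S / 16 := fun X => by
  have h1 := h.hg'.w0 X
  have h2 := mul_le_mul_of_nonneg_left h.hb' M'.S_pos.le
  linarith

theorem S'S : M'.S ≤ M.S := by
  have := M.S_pos
  have := h.ht4
  rw [h.ht]; nlinarith

theorem stat : Stat m k U (VD D) := Vf_884.stat_VD h.sit.int h.sit.st

theorem dw0 : fderiv ℝ M.w 0 = fderiv ℝ M.u 0 := by rw [h.hg.dw, smul_zero]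

theorem dw0' : fderiv ℝ M'.w 0 = 0 := by rw [h.hg'.dw, smul_zero, h.du']

/-- **the hypotheses of the comparison** -/
theorem reg : Reg M.π M.ρ x q H H' M.S M'.S M.w M'.w A (Real.exp (l + 1 / K)) (12 * δ) (VD D) := by
  have hS := M.S_pos
  have hS' := M'.S_pos
  have hδK := h.δK
  have hiK := h.iK
  have hδ0 := h.hδ0
  have hle := h.le_S'
  have hSS := h.S'S
  refine ⟨⟨h.sit.pack.frame, h.hg.gr, h.hg'.gr, h.same, by linarith [h.hq], Real.exp_pos _, h.hA,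
    by linarith, ?_, by linarith⟩, h.ws, h.ws', hSS, by linarith, ?_,
    rgn_fin h.hg.gr h.sit.pack.frame (fun X => (h.ws X).trans (by linarith)) h.stat h.sit.sub, ?_⟩
  · rw [h.dw0, h.dw0', norm_zero]
    have h1 := h.du
    have h2 := h.hq
    have h3 : ‖fderiv ℝ M.u 0‖ ^ 2 ≤ δ ^ 2 := pow_le_pow_left₀ (norm_nonneg _) h1 2
    nlinarith
  · filter_upwards [h.sit.pack.supae] with p hp h1
    refine (hp h1).trans ?_
    have := mul_le_mul_of_nonneg_right h.hε hS.le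
    rw [h.ht]; linarith
  · filter_upwards [h.stat.conc] with p hp _
    exact hp

theorem I_eq (y : ℝ) : M'.I x (VD D) y = GL_394.II (ch (rπ M.π M.ρ q H) (rρ M.π M.ρ q H') x M'.S
    M'.w 0) (VK (VD D) (rgn (rπ M.π M.ρ q H) (rρ M.π M.ρ q H') x M'.S M'.w)) g31 y := by
  show GL_394.II (ch M'.π M'.ρ x M'.S M'.w 0)
    (VK (VD D) (Kc M'.π M'.ρ x M'.w 0 (2 * M'.S) (M'.S / 2))) g31 y = _
  rw [h.eπ, h.eρ]
  rfl

theorem E_eq (Qr y : ℝ) : M'.E x (VD D) Qr y = GL_394.EE (ch (rπ M.π M.ρ q H)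
    (rρ M.π M.ρ q H') x M'.S M'.w 0)
      (VK (VD D) (rgn (rπ M.π M.ρ q H) (rρ M.π M.ρ q H') x M'.S M'.w)) g3 Qr y := by
  show GL_394.EE (ch M'.π M'.ρ x M'.S M'.w 0)
    (VK (VD D) (Kc M'.π M'.ρ x M'.w 0 (2 * M'.S) (M'.S / 2))) g3 Qr y = _
  rw [h.eπ, h.eρ]
  rfl

/-- conditions at the level `y` -/
theorem lev {y : ℝ} (hy : l - 2 / K ≤ y) (hy' : y ≤ l + 3 / (4 * K)) :
    2 * ‖psi q H M.w 0‖ ≤ 12 * δ * Real.exp y ∧
      (1 + 3 * (12 * δ)) * Real.exp y ≤ Real.exp (y + 1 / (8 * K)) ∧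
      (1 + 3 * (12 * δ)) * Real.exp y ≤ Real.exp (l + 1 / K) ∧
      (1 + ‖fderiv ℝ M.w 0‖ ^ 2) * ((1 + ‖q‖ ^ 2) * Real.exp y + ‖q‖ * (M'.S / 16)) ≤
        Real.exp (l + 1 / K) := by
  have hK := h.K0
  have hδK := h.δK
  have hiK := h.iK
  have hiK0 := h.iK0
  have hδ0 := h.hδ0
  have hq0 := norm_nonneg q
  have hq := h.hq
  have hE := Real.exp_pos y
  have hS'2 : M'.S ≤ 2 * Real.exp y := h.S'le.trans
    (mul_le_mul_of_nonneg_left (Real.exp_le_exp.2 hy) (by norm_num))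
  have hS' := M'.S_pos
  have e8 : 1 / (8 * K) = 1 / 8 * (1 / K) := by field_simp
  have e4 : 3 / (4 * K) = 3 / 4 * (1 / K) := by field_simp
  have hexp : (1 + 1 / (8 * K)) * Real.exp y ≤ Real.exp (y + 1 / (8 * K)) := by
    rw [Real.exp_add, mul_comm (Real.exp y)]
    refine mul_le_mul_of_nonneg_right ?_ hE.le
    have := Real.add_one_le_exp (1 / (8 * K))
    linarith
  have hlt : Real.exp (y + 1 / (8 * K)) ≤ Real.exp (l + 1 / K) := by
    refine Real.exp_le_exp.2 ?_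
    rw [e8]; rw [e4] at hy'; linarith
  have h3 : (1 + 3 * (12 * δ)) * Real.exp y ≤ Real.exp (y + 1 / (8 * K)) := by
    refine le_trans (mul_le_mul_of_nonneg_right ?_ hE.le) hexp
    rw [e8]; linarith
  refine ⟨?_, h3, h3.trans hlt, le_trans ?_ (hexp.trans hlt)⟩
  · have h1 := norm_psi_zero h.same.rt M.w
    have h2 : ‖q‖ * ‖M.w 0‖ ≤ 2 * δ * (M'.S / 16) :=
      mul_le_mul hq (h.ws 0) (norm_nonneg _) (by linarith)
    have h4 : δ * M'.S ≤ δ * (2 * Real.exp y) := mul_le_mul_of_nonneg_left hS'2 hδ0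
    have h5 : 0 ≤ δ * Real.exp y := by positivity
    linarith
  · rw [h.dw0]
    have h1 : ‖fderiv ℝ M.u 0‖ ^ 2 ≤ δ := by
      have : ‖fderiv ℝ M.u 0‖ ^ 2 ≤ δ ^ 2 := pow_le_pow_left₀ (norm_nonneg _) h.du 2
      nlinarith
    have h2 : ‖q‖ ^ 2 ≤ δ := by nlinarith
    have h4 : ‖q‖ * (M'.S / 16) ≤ 2 * δ * (2 * Real.exp y / 16) :=
      mul_le_mul hq (by linarith) (by linarith) (by linarith)
    have h5 : (1 + ‖q‖ ^ 2) * Real.exp y ≤ (1 + δ) * Real.exp y :=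
      mul_le_mul_of_nonneg_right (by linarith) hE.le
    have h7 : 0 ≤ δ * Real.exp y := by positivity
    have h6 : (1 + ‖q‖ ^ 2) * Real.exp y + ‖q‖ * (M'.S / 16) ≤ (1 + 2 * δ) * Real.exp y := by
      linarith
    have h8 : 0 ≤ (1 + ‖q‖ ^ 2) * Real.exp y + ‖q‖ * (M'.S / 16) := by positivity
    calc _ ≤ (1 + δ) * ((1 + 2 * δ) * Real.exp y) := mul_le_mul (by linarith) h6 h8 (by linarith)
      _ = ((1 + δ) * (1 + 2 * δ)) * Real.exp y := by ring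
      _ ≤ (1 + 1 / (8 * K)) * Real.exp y := by
          refine mul_le_mul_of_nonneg_right ?_ hE.le
          rw [e8]
          nlinarith

/-- the integral of the heights below `e^(l + 7/(8K))` -/
theorem J_le : Real.exp (-m * (l + 1 / K)) *
    ∫ p in {p | ‖(ch M.π M.ρ x M.S M.w 0).x p.1‖ ≤ Real.exp (l + 7 / (8 * K))},
      (ch M.π M.ρ x M.S M.w 0).f p.1 ∂(VK (VD D) (rgn M.π M.ρ x M.S M.w)) ≤
        32 / 3 * K ^ 2 * M.I x (VD D) (l + 1 / K) := by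
  have hK := h.K0
  have hiK := h.iK
  have hiK0 := h.iK0
  have hS := M.S_pos
  have hreg := h.reg
  have hlbS : Real.exp (l + 1 / K) ≤ M.S := Real.exp_le_exp.2 h.hlb
  have e7 : 7 / (8 * K) = 7 / 8 * (1 / K) := by field_simp
  have h78 : Real.exp (l + 7 / (8 * K)) ≤ Real.exp (l + 1 / K) := by
    refine Real.exp_le_exp.2 ?_
    rw [e7]; linarith
  have ht := rgn_subset_tube (x := x) h.hg.gr h.sit.pack.frame
  have hlow := int_f_le_II (X0 := 0) h.hg.gr h.sit.pack.frame hreg.cK1 ht hreg.on1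
    (l := l + 1 / K) (s := Real.exp (l + 7 / (8 * K))) (δ := 1 / (8 * K)) (by linarith)
    (by positivity) (by linarith) (by
      have h1 : Real.exp (-2 * (l + 1 / K)) * Real.exp (l + 7 / (8 * K)) ^ 2 =
          Real.exp (-(1 / (4 * K))) := by
        rw [← Real.exp_nat_mul, ← Real.exp_add]; congr 1; push_cast; field_simp; ring
      rw [h1]
      have h2 := one_sub_exp_ge (s := 1 / (4 * K)) (by positivity) (by
        have : 1 / (4 * K) = 1 / 4 * (1 / K) := by field_simp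
        rw [this]; linarith)
      have h3 : 1 / (4 * K) / 2 = 1 / (8 * K) := by field_simp; norm_num
      linarith) (Real.exp_pos _).le
  set J := Real.exp (-m * (l + 1 / K)) *
    ∫ p in {p | ‖(ch M.π M.ρ x M.S M.w 0).x p.1‖ ≤ Real.exp (l + 7 / (8 * K))},
      (ch M.π M.ρ x M.S M.w 0).f p.1 ∂(VK (VD D) (rgn M.π M.ρ x M.S M.w)) with hJ
  have hI : M.I x (VD D) (l + 1 / K) = GL_394.II (ch M.π M.ρ x M.S M.w 0)
    (VK (VD D) (rgn M.π M.ρ x M.S M.w)) g31 (l + 1 / K) := rfl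
  rw [← hI] at hlow
  have h1 : 6 * (1 / (8 * K)) ^ 2 * J = J * (3 / 32) / K ^ 2 := by field_simp; ring
  rw [h1, div_le_iff₀ (by positivity)] at hlow
  linarith

/-- **the difference of the height functionals** -/
theorem I_sub {y : ℝ} (hy : l - 2 / K ≤ y) (hy' : y ≤ l + 3 / (4 * K)) :
    |M'.I x (VD D) y - M.I x (VD D) y| ≤
      δ * (79872 * Real.exp m * K ^ 2) * M.I x (VD D) (l + 1 / K) := by
  have hK := h.K0
  have hiK := h.iK
  have hiK0 := h.iK0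
  have hδ0 := h.hδ0
  obtain ⟨c1, c2, c3, c4⟩ := h.lev hy hy'
  have hreg := h.reg
  have key := hreg.II_two GI_640.ker31 abs_g31_le abs_g32_le c1 c3 c4
  have e4 : 3 / (4 * K) = 3 / 4 * (1 / K) := by field_simp
  have e8 : 1 / (8 * K) = 1 / 8 * (1 / K) := by field_simp
  have e7 : 7 / (8 * K) = 7 / 8 * (1 / K) := by field_simp
  have h2K : 2 / K = 2 * (1 / K) := h.two_div
  have hmono := int_f_mono (X0 := 0) h.hg.gr h.sit.pack.frame hreg.cK1
    (rgn_subset_tube (x := x) h.hg.gr h.sit.pack.frame) hreg.on1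
    (s := (1 + 3 * (12 * δ)) * Real.exp y) (s' := Real.exp (l + 7 / (8 * K)))
    (c2.trans (Real.exp_le_exp.2 (by rw [e8, e7]; rw [e4] at hy'; linarith)))
  have hJ := h.J_le
  rw [h.I_eq y]
  refine key.trans ?_
  set J1 := ∫ p in {p | ‖(ch M.π M.ρ x M.S M.w 0).x p.1‖ ≤ Real.exp (l + 7 / (8 * K))},
    (ch M.π M.ρ x M.S M.w 0).f p.1 ∂(VK (VD D) (rgn M.π M.ρ x M.S M.w)) with hJ1
  have hJ10 : 0 ≤ J1 := int_f_nonneg _
  have hexp : Real.exp (-m * y) ≤ Real.exp m * Real.exp (-m * (l + 1 / K)) := by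
    rw [← Real.exp_add]
    refine Real.exp_le_exp.2 ?_
    have hm0 : (0 : ℝ) ≤ m := Nat.cast_nonneg m
    have h5 : l + 1 / K - y ≤ 1 := by linarith
    nlinarith
  have hE0 := Real.exp_pos (m : ℝ)
  calc (64 * 3 + 72 * 6) * (12 * δ) * (Real.exp (-m * y) *
        ∫ p in {p | ‖(ch M.π M.ρ x M.S M.w 0).x p.1‖ ≤ (1 + 3 * (12 * δ)) * Real.exp y},
          (ch M.π M.ρ x M.S M.w 0).f p.1 ∂(VK (VD D) (rgn M.π M.ρ x M.S M.w)))
      ≤ (64 * 3 + 72 * 6) * (12 * δ) * ((Real.exp m * Real.exp (-m * (l + 1 / K))) * J1) := by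
        refine mul_le_mul_of_nonneg_left ?_ (by positivity)
        exact mul_le_mul hexp hmono (int_f_nonneg _) (by positivity)
    _ = 7488 * δ * Real.exp m * (Real.exp (-m * (l + 1 / K)) * J1) := by ring
    _ ≤ 7488 * δ * Real.exp m * (32 / 3 * K ^ 2 * M.I x (VD D) (l + 1 / K)) :=
        mul_le_mul_of_nonneg_left hJ (by positivity)
    _ = δ * (79872 * Real.exp m * K ^ 2) * M.I x (VD D) (l + 1 / K) := by ring

/-- **the difference of the mass excesses** -/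
theorem E_sub {y B : ℝ} (hy : l - 2 / K ≤ y) (hy' : y ≤ l) {e2 : Measure (Euc m)}
    (hT : Tot M x (VD D) Q (Real.exp (l + 7 / (8 * K))) B e2) :
    |M'.E x (VD D) Q y - M.E x (VD D) Q y| ≤ 432 * δ * (Real.exp ((2 - m) * y) * B) := by
  have hK := h.K0
  have hiK := h.iK
  have hiK0 := h.iK0
  have hδ0 := h.hδ0
  have e4 : 3 / (4 * K) = 3 / 4 * (1 / K) := by field_simp
  have e8 : 1 / (8 * K) = 1 / 8 * (1 / K) := by field_simp
  have e7 : 7 / (8 * K) = 7 / 8 * (1 / K) := by field_simp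
  obtain ⟨c1, c2, c3, c4⟩ := h.lev hy (by rw [e4]; linarith)
  have hreg := h.reg
  have hs : (1 + 3 * (12 * δ)) * Real.exp y ≤ Real.exp (l + 7 / (8 * K)) :=
    c2.trans (Real.exp_le_exp.2 (by rw [e8, e7]; linarith))
  have hss : closedBall (0 : Euc m) ((1 + 3 * (12 * δ)) * Real.exp y) ⊆
    closedBall 0 (Real.exp (l + 7 / (8 * K))) := closedBall_subset_closedBall hs
  have hfin : e2 (closedBall 0 ((1 + 3 * (12 * δ)) * Real.exp y)) ≠ ⊤ :=
    ((measure_mono hss).trans_lt hT.fin.lt_top).ne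
  have key := hreg.EE_two GI_640.ker3 abs_g31_le Q c1 c3 c4 hT.pos hfin
    (fun f hf hfb hfs => hT.abs f hf hfb fun v hv => hfs v fun hc => hv (hss hc))
  rw [h.E_eq Q y]
  refine key.trans ?_
  have h1 : e2.real (closedBall 0 ((1 + 3 * (12 * δ)) * Real.exp y)) ≤
      e2.real (closedBall 0 (Real.exp (l + 7 / (8 * K)))) :=
    measureReal_mono hss hT.fin
  have ok1 := h.hg.gr.ok h.sit.pack.frame 0 hreg.cK1
    (rgn_subset_tube (x := x) h.hg.gr h.sit.pack.frame)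
  have hi : Integrable (fun p : Euc k × L k => (ch M.π M.ρ x M.S M.w 0).tau p.1 p.2)
    (VK (VD D) (rgn M.π M.ρ x M.S M.w)) := hreg.on1.integrable hreg.cK1 ok1.ctau
  have h2 : ∫ p in {p | ‖(ch M.π M.ρ x M.S M.w 0).x p.1‖ ≤ (1 + 3 * (12 * δ)) * Real.exp y},
      (ch M.π M.ρ x M.S M.w 0).tau p.1 p.2 ∂(VK (VD D) (rgn M.π M.ρ x M.S M.w)) ≤
      ∫ p in {p | ‖(ch M.π M.ρ x M.S M.w 0).x p.1‖ ≤ Real.exp (l + 7 / (8 * K))},
        (ch M.π M.ρ x M.S M.w 0).tau p.1 p.2 ∂(VK (VD D) (rgn M.π M.ρ x M.S M.w)) :=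
    setIntegral_mono_set hi.integrableOn (ae_restrict_of_ae hT.pos)
      (LE.le.eventuallyLE fun p hp => le_trans hp hs)
  have h3 : 0 ≤ ∫ p in {p | ‖(ch M.π M.ρ x M.S M.w 0).x p.1‖ ≤ Real.exp (l + 7 / (8 * K))},
      (ch M.π M.ρ x M.S M.w 0).tau p.1 p.2 ∂(VK (VD D) (rgn M.π M.ρ x M.S M.w)) :=
    integral_nonneg_of_ae (ae_restrict_of_ae hT.pos)
  have h4 : e2.real (closedBall 0 ((1 + 3 * (12 * δ)) * Real.exp y)) + 1 / 2 *
      ∫ p in {p | ‖(ch M.π M.ρ x M.S M.w 0).x p.1‖ ≤ (1 + 3 * (12 * δ)) * Real.exp y},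
        (ch M.π M.ρ x M.S M.w 0).tau p.1 p.2 ∂(VK (VD D) (rgn M.π M.ρ x M.S M.w)) ≤ B := by
    have := hT.le
    have e : ∫ p in {p | ‖(M.ch x).x p.1‖ ≤ Real.exp (l + 7 / (8 * K))},
        (M.ch x).tau p.1 p.2 ∂(M.VM x (VD D)) =
      ∫ p in {p | ‖(ch M.π M.ρ x M.S M.w 0).x p.1‖ ≤ Real.exp (l + 7 / (8 * K))},
        (ch M.π M.ρ x M.S M.w 0).tau p.1 p.2 ∂(VK (VD D) (rgn M.π M.ρ x M.S M.w)) := rfl
    rw [e] at this
    linarith
  calc 12 * 3 * (12 * δ) * (Real.exp ((2 - m) * y) *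
        (e2.real (closedBall 0 ((1 + 3 * (12 * δ)) * Real.exp y)) + 1 / 2 *
          ∫ p in {p | ‖(ch M.π M.ρ x M.S M.w 0).x p.1‖ ≤ (1 + 3 * (12 * δ)) * Real.exp y},
            (ch M.π M.ρ x M.S M.w 0).tau p.1 p.2 ∂(VK (VD D) (rgn M.π M.ρ x M.S M.w))))
      ≤ 12 * 3 * (12 * δ) * (Real.exp ((2 - m) * y) * B) := by
        refine mul_le_mul_of_nonneg_left ?_ (by positivity)
        exact mul_le_mul_of_nonneg_left h4 (Real.exp_pos _).le
    _ = _ := by ring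

end BD

end Crest.Agent.R234.Swb_159
end
end

-- ▼ part R234/Swb13_159

/-!
# Row 234, F6-BLOCK (helper159), part 13: the class part of the block change

`blk_cls` : base point, rotation, new function, class bound, `Same` in every ambient scale.
-/

set_option autoImplicit false
set_option linter.unusedSectionVars false
set_option linter.unusedVariables false

open MeasureTheory Set Metric Filter Topology
open Crest.GeometryTopology.Submanifold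
open scoped ENNReal NNReal ContDiff RealInnerProductSpace

noncomputable section

namespace Crest.Agent.R234.Swb_159

open Crest.Agent.R234.Ell1_3 Crest.Agent.R234.Main_456 Crest.Agent.R234.Grot_842
open Crest.Agent.R234.Gi_456 (Gr)
open Crest.Agent.R234.MG_570 (MG)
open Crest.Agent.R234.Rs_182 (RotG)

local notation "adj" => ContinuousLinearMap.adjoint

variable {m n k : ℕ}

/-- 182's rescaling, `c` after `H, H'`. -/
def RescH (m n N : ℕ) : Prop := ∀ r₀ : ℝ, 0 < r₀ → r₀ ≤ 1 →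
    ∃ (κ₀ C : ℝ) (p J : ℕ), 0 < κ₀ ∧ 1 ≤ C ∧
    ∀ (t ε R κ th : ℝ) (u : Euc m → Euc n) (X₀ : Euc m),
      0 < t → 4 * t ≤ 1 → 0 < ε → ε ≤ 1 / 4 → r₀ ≤ R → R ≤ 3 / 2 → κ ≤ κ₀ → MG N κ (t * R) u →
      ‖X₀‖ ≤ ε * (t * R) / 8 → ‖fderiv ℝ u X₀‖ ≤ th → 0 < th → th ≤ 1 →
      C * (ε⁻¹) ^ p * th ^ ((1 / 2 : ℝ) ^ J) ≤ 1 →
      ∃ (H : Euc m →L[ℝ] Euc m) (H' : Euc n →L[ℝ] Euc n), Rt (fderiv ℝ u X₀) H H' ∧
        ∀ c : Euc n, ∃ u' : Euc m → Euc n,
          MG N (C * t * κ + C * (ε⁻¹) ^ p * th ^ ((1 / 2 : ℝ) ^ J) * κ + C * ‖c‖)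
            ((1 - ε) * R) u' ∧
          RotG u u' X₀ c (fderiv ℝ u X₀) H H' t R ((1 - ε) * R) (C * κ * ‖fderiv ℝ u X₀‖)

/-- the radius of the block change (new block units) -/
def rbl (K : ℝ) : ℝ := Real.exp (3 / K - 1 / 8) * (1 + 1 / (8 * K))

theorem rbl_bds {K : ℝ} (hK : 32 ≤ K) : 7 / 8 ≤ rbl K ∧ rbl K ≤ 1 := by
  have hK0 : 0 < K := by linarith
  have h3 : 3 / K ≤ 3 / 32 := div_le_div_of_nonneg_left (by norm_num) (by norm_num) hK
  have h30 : 0 < 3 / K := by positivity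
  have h8 : 1 / (8 * K) ≤ 1 / 256 := one_div_le_one_div_of_le (by norm_num) (by linarith)
  have h80 : 0 < 1 / (8 * K) := by positivity
  constructor
  · have h1 := Real.add_one_le_exp (3 / K - 1 / 8)
    unfold rbl
    nlinarith
  · have h1 : Real.exp (3 / K - 1 / 8) ≤ Real.exp (-(1 / 32)) := Real.exp_le_exp.2 (by linarith)
    have h2 : Real.exp (-(1 / 32 : ℝ)) ≤ 32 / 33 := by
      rw [Real.exp_neg]
      have h3 := Real.add_one_le_exp (1 / 32 : ℝ)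
      have h4 : (Real.exp (1 / 32 : ℝ))⁻¹ ≤ (1 / 32 + 1 : ℝ)⁻¹ := inv_anti₀ (by norm_num) h3
      refine h4.trans (by norm_num)
    unfold rbl
    calc _ ≤ (32 / 33 : ℝ) * (1 + 1 / 256) :=
          mul_le_mul (h1.trans h2) (by linarith) (by positivity) (by norm_num)
      _ ≤ 1 := by norm_num

/-- powers of `th` -/
theorem th_pow {L : ℝ} (hL : 1 ≤ L) {J Q₁ q₁ : ℕ} (hq : 2 ^ J * Q₁ ≤ q₁) :
    (2 * (L ^ q₁)⁻¹) ^ ((1 / 2 : ℝ) ^ J) ≤ 2 * (L ^ Q₁)⁻¹ := by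
  have hL0 : 0 < L := by linarith
  have e1 : ((1 / 2 : ℝ) ^ J) = ((2 ^ J : ℕ) : ℝ)⁻¹ := by
    rw [one_div, inv_pow]; push_cast; rfl
  have he0 : (0 : ℝ) ≤ (1 / 2 : ℝ) ^ J := by positivity
  have he1 : (1 / 2 : ℝ) ^ J ≤ 1 := pow_le_one₀ (by norm_num) (by norm_num)
  rw [Real.mul_rpow (by norm_num) (by positivity)]
  have h1 : (2 : ℝ) ^ ((1 / 2 : ℝ) ^ J) ≤ 2 := by
    calc (2 : ℝ) ^ ((1 / 2 : ℝ) ^ J) ≤ (2 : ℝ) ^ (1 : ℝ) :=
          Real.rpow_le_rpow_of_exponent_le (by norm_num) he1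
      _ = 2 := Real.rpow_one 2
  have h2 : ((L ^ q₁)⁻¹) ^ ((1 / 2 : ℝ) ^ J) ≤ (L ^ Q₁)⁻¹ := by
    have h3 : (L ^ q₁)⁻¹ ≤ ((L ^ Q₁)⁻¹) ^ (2 ^ J) := by
      rw [inv_pow, ← pow_mul]
      refine inv_anti₀ (by positivity) (pow_le_pow_right₀ hL ?_)
      rw [mul_comm]; exact hq
    calc ((L ^ q₁)⁻¹) ^ ((1 / 2 : ℝ) ^ J) ≤ (((L ^ Q₁)⁻¹) ^ (2 ^ J)) ^ ((1 / 2 : ℝ) ^ J) :=
          Real.rpow_le_rpow (by positivity) h3 he0
      _ = (L ^ Q₁)⁻¹ := by
          rw [e1]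
          exact Real.pow_rpow_inv_natCast (by positivity) (by positivity)
  exact mul_le_mul h1 h2 (by positivity) (by norm_num)

/-- **the class part of the block change.** -/
theorem blk_cls (m n N : ℕ) (hR : RescH m n N) : ∃ (C₁ κs : ℝ) (Qs : ℕ → ℕ), 1 ≤ C₁ ∧ 0 < κs ∧
    ∀ (T : ℝ) (q q₁ : ℕ), Qs q ≤ q₁ → 1 ≤ q₁ → ∃ L₁ : ℝ, ∀ (k : ℕ) (π : Euc k →L[ℝ] Euc m)
      (ρ : Euc k →L[ℝ] Euc n) (u : Euc m → Euc n) (κ L K t : ℝ), Frame π ρ → Gr 1 u →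
      0 ≤ κ → κ ≤ κs → κ ≤ 1 → L₁ ≤ L → 32 ≤ K → K ≤ 2 * L ^ 2 → Real.exp (-T) ≤ t → 4 * t ≤ 1 →
      MG N κ (t * rbl K) u → ‖fderiv ℝ u 0‖ ≤ (L ^ q₁)⁻¹ → ‖u 0‖ ≤ Real.exp (-(L / 4)) →
      ∃ (X₀ : Euc m) (H : Euc m →L[ℝ] Euc m) (H' : Euc n →L[ℝ] Euc n) (u' : Euc m → Euc n)
        (κ' : ℝ), Rt (fderiv ℝ u X₀) H H' ∧ ‖X₀‖ ≤ Real.exp (-(L / 4)) ∧
        ‖fderiv ℝ u X₀‖ ≤ 2 * (L ^ q₁)⁻¹ ∧ 0 ≤ κ' ∧ κ' ≤ C₁ * t * κ + (L ^ q)⁻¹ ∧
        MG N κ' ((1 - 1 / (32 * K)) * rbl K) u' ∧ fderiv ℝ u' 0 = 0 ∧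
        ∀ S : ℝ, 0 < S → Same (fderiv ℝ u X₀) H H' (amb S u) (amb (t * S) u')
          (reg (fderiv ℝ u X₀) H u X₀ t S (rbl K) ((1 - 1 / (32 * K)) * rbl K)) := by
  obtain ⟨κs, C, p, J, hκs, hC, h⟩ := hR (1 / 2) (by norm_num) (by norm_num)
  refine ⟨C, κs, fun q => 2 ^ J * (2 * p + q + 4), hC, hκs, ?_⟩
  intro T q q₁ hq₁ hq₁1
  have hC0 : 0 < C := by linarith
  have hT := Real.exp_pos T
  -- largeness of `L`
  have ev1 := Stp_518.ev_exp (1024 * Real.exp T) (1 / 4) 2 (by norm_num) (δ := 1) one_pos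
  have ev2 := Stp_518.ev_exp 1 (1 / 4) q₁ (by norm_num) (δ := 1) one_pos
  have ev3 := Stp_518.ev_exp (6 * C * Real.exp T) (1 / 4) q (by norm_num) (δ := 1) one_pos
  obtain ⟨L₁, hL₁⟩ := Filter.eventually_atTop.1 ((((ev1.and ev2).and ev3).and
    (eventually_ge_atTop (2 * C * 64 ^ p))).and (eventually_ge_atTop 4))
  refine ⟨L₁, ?_⟩
  intro k π ρ u κ L K t hf hu hκ0 hκ hκ1 hL hK hKL ht ht4 hMG hdu hu0
  obtain ⟨⟨⟨⟨e1, e2⟩, e3⟩, e4⟩, e5⟩ := hL₁ L hL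
  have hL0 : 0 < L := by linarith
  have hL1 : 1 ≤ L := by linarith
  have hK0 : 0 < K := by linarith
  have ht0 : 0 < t := (Real.exp_pos _).trans_le ht
  set x := Real.exp (-(L / 4)) with hx
  have hx0 : 0 < x := Real.exp_pos _
  have ex : Real.exp (-(1 / 4 * L)) = x := by rw [hx]; congr 1; ring
  rw [ex] at e1 e2 e3
  have hx1 : x ≤ 1 := Real.exp_le_one_iff.2 (by linarith)
  have hxq : x ≤ (L ^ q₁)⁻¹ := by
    rw [← one_div, le_div_iff₀ (by positivity)]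
    linarith
  obtain ⟨X₀, h0, hX1, hX2⟩ := F10v_188.exists_foot0 hf hu (by
    refine hu0.trans_lt (lt_of_lt_of_le (Real.exp_lt_exp.2 (show -(L / 4) < 0 by linarith)) ?_)
    rw [Real.exp_zero])
  have hX3 : ‖X₀‖ ≤ x := by linarith [norm_nonneg (u 0)]
  have huX : ‖u X₀‖ ≤ 2 * x := by linarith
  -- the slope at the base point
  have hq2 : ‖fderiv ℝ u X₀‖ ≤ 2 * (L ^ q₁)⁻¹ := by
    have h1 := hu.lip' X₀ 0
    rw [sub_zero] at h1
    have h2 := norm_le_norm_add_norm_sub' (fderiv ℝ u X₀) (fderiv ℝ u 0)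
    have h3 : 1 / (8 * 1) * ‖X₀‖ ≤ x := by
      have := norm_nonneg X₀
      linarith
    linarith
  obtain ⟨hr1, hr2⟩ := rbl_bds hK
  have hε0 : (0 : ℝ) < 1 / (32 * K) := by positivity
  have hε1 : 1 / (32 * K) ≤ 1 / 4 := one_div_le_one_div_of_le (by norm_num) (by linarith)
  -- the base point is close to the centre
  have hX4 : ‖X₀‖ ≤ 1 / (32 * K) * (t * rbl K) / 8 := by
    refine hX3.trans ?_
    have h1 : Real.exp (-T) * (1 / 2) ≤ t * rbl K :=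
      mul_le_mul ht (by linarith) (by norm_num) ht0.le
    have h2 : 1 / (64 * L ^ 2) ≤ 1 / (32 * K) :=
      one_div_le_one_div_of_le (by positivity) (by linarith)
    have h3 : 1 / (64 * L ^ 2) * (Real.exp (-T) * (1 / 2)) / 8 ≤
        1 / (32 * K) * (t * rbl K) / 8 := by
      have := mul_le_mul h2 h1 (by positivity) hε0.le
      linarith
    refine le_trans ?_ h3
    have h4 : 1 / (64 * L ^ 2) * (Real.exp (-T) * (1 / 2)) / 8 =
        1 / (1024 * Real.exp T * L ^ 2) := by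
      rw [Real.exp_neg]; field_simp; norm_num
    rw [h4, le_div_iff₀ (by positivity)]
    linarith
  -- the small factor
  have hth0 : 0 < 2 * (L ^ q₁)⁻¹ := by positivity
  have hth1 : 2 * (L ^ q₁)⁻¹ ≤ 1 := by
    have h1 : L ≤ L ^ q₁ := le_self_pow₀ hL1 (by omega)
    have h2 : (L ^ q₁)⁻¹ ≤ L⁻¹ := inv_anti₀ hL0 h1
    have h3 : L⁻¹ ≤ (4 : ℝ)⁻¹ := inv_anti₀ (by norm_num) e5
    linarith
  set T2 : ℝ := C * ((1 / (32 * K))⁻¹) ^ p * (2 * (L ^ q₁)⁻¹) ^ ((1 / 2 : ℝ) ^ J) with hT2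
  have hT20 : 0 ≤ T2 := by positivity
  have hT2b : T2 ≤ (L ^ (q + 3))⁻¹ := by
    have h1 : (1 / (32 * K))⁻¹ ≤ 64 * L ^ 2 := by
      rw [one_div, inv_inv]; linarith
    have h2 : ((1 / (32 * K))⁻¹) ^ p ≤ (64 * L ^ 2) ^ p := pow_le_pow_left₀ (by positivity) h1 p
    have h3 := th_pow hL1 (J := J) (Q₁ := 2 * p + q + 4) (q₁ := q₁) hq₁
    have h4 : T2 ≤ C * (64 * L ^ 2) ^ p * (2 * (L ^ (2 * p + q + 4))⁻¹) :=
      mul_le_mul (mul_le_mul_of_nonneg_left h2 hC0.le) h3 (by positivity) (by positivity)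
    refine h4.trans ?_
    have h5 : C * (64 * L ^ 2) ^ p * (2 * (L ^ (2 * p + q + 4))⁻¹) =
        (2 * C * 64 ^ p) * (L * L ^ (q + 3))⁻¹ := by
      have : L ^ (2 * p + q + 4) = (L ^ 2) ^ p * (L * L ^ (q + 3)) := by
        rw [← pow_mul]; ring
      rw [this, mul_pow]
      field_simp
    rw [h5, mul_inv, ← mul_assoc]
    have h6 : 2 * C * 64 ^ p * L⁻¹ ≤ 1 := by
      rw [← div_eq_mul_inv, div_le_one hL0]; exact e4
    have h7 : 0 ≤ (L ^ (q + 3))⁻¹ := by positivity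
    calc _ ≤ 1 * (L ^ (q + 3))⁻¹ := mul_le_mul_of_nonneg_right h6 h7
      _ = _ := one_mul _
  have hLq3 : (L ^ (q + 3))⁻¹ ≤ 1 / 2 * (L ^ q)⁻¹ := by
    have h1 : L ^ (q + 3) = L ^ q * L ^ 3 := pow_add _ _ _
    rw [h1, mul_inv, mul_comm]
    refine mul_le_mul_of_nonneg_right ?_ (by positivity)
    have h2 : (4 : ℝ) ^ 3 ≤ L ^ 3 := pow_le_pow_left₀ (by norm_num) e5 3
    have h3 : (L ^ 3)⁻¹ ≤ ((4 : ℝ) ^ 3)⁻¹ := inv_anti₀ (by norm_num) h2
    refine h3.trans (by norm_num)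
  have hLq1 : (L ^ q)⁻¹ ≤ 1 := inv_le_one_of_one_le₀ (one_le_pow₀ hL1)
  obtain ⟨H, H', rt, hu'⟩ := h t (1 / (32 * K)) (rbl K) κ (2 * (L ^ q₁)⁻¹) u X₀ ht0 ht4 hε0 hε1
    (by linarith) (by linarith) hκ hMG hX4 hq2 hth0 hth1
    (hT2b.trans (hLq3.trans (by linarith)))
  obtain ⟨u', hMG', hG⟩ := hu' (t⁻¹ • H' (u X₀ - fderiv ℝ u X₀ X₀))
  have hcn : C * ‖t⁻¹ • H' (u X₀ - fderiv ℝ u X₀ X₀)‖ ≤ 1 / 2 * (L ^ q)⁻¹ := by
    have h1 : ‖t⁻¹ • H' (u X₀ - fderiv ℝ u X₀ X₀)‖ ≤ Real.exp T * (3 * x) := by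
      rw [norm_smul, norm_inv, Real.norm_of_nonneg ht0.le]
      have h2 : t⁻¹ ≤ Real.exp T := by
        have := inv_anti₀ (Real.exp_pos _) ht
        rwa [Real.exp_neg, inv_inv] at this
      refine mul_le_mul h2 ?_ (norm_nonneg _) hT.le
      refine (rt.le' _).trans ((norm_sub_le _ _).trans ?_)
      have h3 := (fderiv ℝ u X₀).le_opNorm X₀
      have h4 : ‖fderiv ℝ u X₀‖ * ‖X₀‖ ≤ 1 * x :=
        mul_le_mul (hq2.trans hth1) hX3 (norm_nonneg _) zero_le_one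
      linarith
    have h5 : x ≤ 1 / (6 * C * Real.exp T) * (L ^ q)⁻¹ := by
      rw [one_div, ← mul_inv, ← one_div, le_div_iff₀ (by positivity)]
      linarith
    calc C * ‖t⁻¹ • H' (u X₀ - fderiv ℝ u X₀ X₀)‖ ≤ C * (Real.exp T * (3 * x)) :=
          mul_le_mul_of_nonneg_left h1 hC0.le
      _ = 3 * C * Real.exp T * x := by ring
      _ ≤ 3 * C * Real.exp T * (1 / (6 * C * Real.exp T) * (L ^ q)⁻¹) :=
          mul_le_mul_of_nonneg_left h5 (by positivity)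
      _ = 1 / 2 * (L ^ q)⁻¹ := by field_simp; norm_num
  refine ⟨X₀, H, H', u', C * t * κ + T2 * κ + C * ‖t⁻¹ • H' (u X₀ - fderiv ℝ u X₀ X₀)‖, rt, hX3,
    hq2, by positivity, ?_, hMG', hG.der, fun S hS => ?_⟩
  · have h1 : T2 * κ ≤ 1 / 2 * (L ^ q)⁻¹ := by
      calc T2 * κ ≤ T2 * 1 := mul_le_mul_of_nonneg_left hκ1 hT20
        _ = T2 := mul_one _
        _ ≤ _ := hT2b.trans hLq3
    linarith
  · exact same_of_fwd ht0 hS rt hu.differentiable (Rs_182.MG_diff hMG') h0 rfl hG.fwd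

end Crest.Agent.R234.Swb_159
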