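import Crest.Agent.R234.Sme1_290
import Crest.Agent.R234.F3d_433
import Crest.Agent.R234.F3g_433
import Crest.Agent.R234.Fin10_618_Mg
import Crest.Agent.R234.F41_354
import Crest.Agent.R234.Ng13_290
import Crest.Agent.R234.Swb13_159_Mg
import Crest.Agent.R234.Bmo2_842
import Crest.Agent.R234.Rs8_182
import Crest.Agent.R234.Bmo3_842
import Crest.Agent.R234.Tot1_128
import Crest.Agent.R234.Sp2_685
import Crest.Agent.R234.Sw20_733_Mg
import Crest.Agent.R234.Stp9_518
import Crest.Agent.R234.F11f_188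

-- ▼ part R234/Sme2_433
section

/-!
# Row 234 (helper433): `SmP` (smoothing outside a ball, difference form), from `Sme1_290`
-/

set_option autoImplicit false
set_option linter.unusedVariables false
set_option linter.unusedSectionVars false

open MeasureTheory Metric Set Function Filter Topology
open scoped ContDiff Convolution

noncomputable section

namespace Crest.Agent.R234.Sme_433

open Crest.Agent.R234.Sme_290

variable {E F : Type*} [NormedAddCommGroup E] [InnerProductSpace ℝ E] [FiniteDimensional ℝ E]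
  [MeasurableSpace E] [BorelSpace E] [NormedAddCommGroup F] [NormedSpace ℝ F] [CompleteSpace F]

/-- **smooth modification away from a ball**, difference form -/
theorem exists_smooth_ext' {w : E → F} {N : ℕ} (hw : ContDiff ℝ (N + 1 : ℕ) w) {b : ℕ → ℝ}
    (hb : ∀ j, 1 ≤ j → j ≤ N + 1 → ∀ Y, ‖iteratedFDeriv ℝ j w Y‖ ≤ b j) {X0 : E} {R R' : ℝ}
    (hR0 : 0 < R') (hR : R' < R) (hs : ContDiffOn ℝ ∞ w (ball X0 R)) {η : ℝ} (hη : 0 < η) :
    ∃ w' : E → F, ContDiff ℝ ∞ w' ∧ (∀ Y ∈ ball X0 R', w' Y = w Y) ∧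
      ∀ j ≤ N, ∀ Y, ‖iteratedFDeriv ℝ j w' Y - iteratedFDeriv ℝ j w Y‖ ≤ η := by
  classical
  let χ : ContDiffBump X0 := ⟨R', (R' + R) / 2, hR0, by linarith⟩
  have hχs : ContDiff ℝ ∞ (χ : E → ℝ) := χ.contDiff
  have hχb : ∀ i : ℕ, ∃ C : ℝ, ∀ y, ‖iteratedFDeriv ℝ i (χ : E → ℝ) y‖ ≤ C := fun i => by
    have h1 : Continuous (iteratedFDeriv ℝ i (χ : E → ℝ)) :=
      hχs.continuous_iteratedFDeriv (by exact_mod_cast le_top)
    exact h1.bounded_above_of_compact_support (χ.hasCompactSupport.iteratedFDeriv i)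
  choose C hC using hχb
  have hC0 : ∀ i, 0 ≤ C i := fun i => (norm_nonneg _).trans (hC i X0)
  set A : ℝ := 1 + ∑ i ∈ Finset.range (N + 1), C i with hA
  have hA1 : 1 ≤ A := by
    have : 0 ≤ ∑ i ∈ Finset.range (N + 1), C i := Finset.sum_nonneg fun i _ => hC0 i
    linarith
  have hAi : ∀ i ≤ N, ∀ y, ‖iteratedFDeriv ℝ i (χ : E → ℝ) y‖ ≤ A := fun i hi y => by
    have h1 : C i ≤ ∑ i ∈ Finset.range (N + 1), C i :=
      Finset.single_le_sum (fun i _ => hC0 i) (Finset.mem_range.2 (by omega))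
    linarith [hC i y]
  set B : ℝ := 1 + ∑ i ∈ Finset.range (N + 2), |b i| with hB
  have hB1 : 1 ≤ B := by
    have : 0 ≤ ∑ i ∈ Finset.range (N + 2), |b i| := Finset.sum_nonneg fun i _ => abs_nonneg _
    linarith
  have hBi : ∀ j, 1 ≤ j → j ≤ N + 1 → ∀ y, ‖iteratedFDeriv ℝ j w y‖ ≤ B := fun j h1 h2 y => by
    have h3 : |b j| ≤ ∑ i ∈ Finset.range (N + 2), |b i| :=
      Finset.single_le_sum (fun i _ => abs_nonneg (b i)) (Finset.mem_range.2 (by omega))
    linarith [hb j h1 h2 y, le_abs_self (b j)]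
  set δ : ℝ := η / (2 ^ N * (A + 1) * B) with hδ
  have hδ0 : 0 < δ := by positivity
  have hδe : 2 ^ N * (A + 1) * (δ * B) = η := by rw [hδ]; field_simp
  let φ : ContDiffBump (0 : E) := ⟨δ / 2, δ, by positivity, by linarith⟩
  have hφ : φ.rOut = δ := rfl
  have hwc : Continuous w := hw.continuous
  have hsm := contDiff_mo φ hwc
  have hcd : ∀ j ≤ N, ContDiff ℝ j w := fun j hj => hw.of_le (by exact_mod_cast (by omega))
  have hmo : ∀ j ≤ N, iteratedFDeriv ℝ j (mo φ w) = mo φ (iteratedFDeriv ℝ j w) := fun j hj =>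
    iter_mo φ j (hcd j hj) fun i h1 h2 => ⟨B, hBi i h1 (by omega)⟩
  set v : E → F := fun y => w y - mo φ w y with hv
  have hvc : ContDiff ℝ N v := (hcd N le_rfl).sub (hsm.of_le (by exact_mod_cast le_top))
  have hvj : ∀ j ≤ N, ∀ y, ‖iteratedFDeriv ℝ j v y‖ ≤ δ * B := fun j hj y => by
    have h1 : iteratedFDeriv ℝ j v y = iteratedFDeriv ℝ j w y - iteratedFDeriv ℝ j (mo φ w) y := by
      have := iteratedFDeriv_sub_apply (𝕜 := ℝ) (i := j) (f := w) (g := mo φ w) (x := y)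
        (hcd j hj).contDiffAt (hsm.of_le (by exact_mod_cast le_top)).contDiffAt
      rw [← this]
      rfl
    rw [h1, hmo j hj, ← hφ]
    have h2 : ContDiff ℝ 1 (iteratedFDeriv ℝ j w) :=
      hw.iteratedFDeriv_right (by norm_cast; omega)
    refine norm_sub_mo_le φ (h2.differentiable (by norm_num)) (fun z => ?_) y
    rw [norm_fderiv_iteratedFDeriv]
    exact hBi (j + 1) (by omega) (by omega) z
  have hχle : ∀ y, |χ y| ≤ 1 := fun y => by
    rw [abs_of_nonneg χ.nonneg]; exact χ.le_one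
  refine ⟨fun y => mo φ w y + χ y • v y, ?_, ?_, ?_⟩
  · rw [contDiff_iff_contDiffAt]
    intro y
    by_cases hy : y ∈ ball X0 R
    · have h1 : ContDiffAt ℝ ∞ w y := hs.contDiffAt (isOpen_ball.mem_nhds hy)
      exact hsm.contDiffAt.add (hχs.contDiffAt.smul (h1.sub hsm.contDiffAt))
    · have h2 : (fun y => mo φ w y + χ y • v y) =ᶠ[𝓝 y] mo φ w := by
        have h3 : y ∈ (closedBall X0 ((R' + R) / 2))ᶜ := by
          rw [mem_compl_iff, mem_closedBall]
          rw [mem_ball] at hy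
          push Not at hy ⊢
          linarith
        filter_upwards [isClosed_closedBall.isOpen_compl.mem_nhds h3] with z hz
        have h4 : χ z = 0 := by
          refine χ.zero_of_le_dist ?_
          rw [mem_compl_iff, mem_closedBall] at hz
          push Not at hz
          exact hz.le
        rw [h4, zero_smul, add_zero]
      exact hsm.contDiffAt.congr_of_eventuallyEq h2
  · intro y hy
    have h1 : χ y = 1 := χ.one_of_mem_closedBall (ball_subset_closedBall hy)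
    show mo φ w y + χ y • (w y - mo φ w y) = w y
    rw [h1, one_smul]; abel
  · intro j hj y
    set θ : E → ℝ := fun y => χ y - 1 with hθ
    have hθs : ContDiff ℝ ∞ θ := hχs.sub contDiff_const
    have hθi : ∀ i ≤ N, ∀ y, ‖iteratedFDeriv ℝ i θ y‖ ≤ A + 1 := by
      intro i hi y
      have h1 : iteratedFDeriv ℝ i θ y = iteratedFDeriv ℝ i (χ : E → ℝ) y -
          iteratedFDeriv ℝ i (fun _ : E => (1:ℝ)) y :=
        iteratedFDeriv_sub_apply (𝕜 := ℝ) (i := i) (f := (χ : E → ℝ)) (g := fun _ => (1:ℝ)) (x := y)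
          (hχs.of_le (by exact_mod_cast le_top)).contDiffAt contDiffAt_const
      rw [h1]
      refine (norm_sub_le _ _).trans (add_le_add (hAi i hi y) ?_)
      rcases Nat.eq_zero_or_pos i with h0 | h0
      · subst h0
        rw [norm_iteratedFDeriv_zero, norm_one]
      · rw [iteratedFDeriv_const_of_ne (by omega)]
        simp
    have h2 : (fun y => mo φ w y + χ y • v y) = fun y => w y + θ y • v y := by
      funext y
      show mo φ w y + χ y • (w y - mo φ w y) = w y + (χ y - 1) • (w y - mo φ w y)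
      rw [sub_smul, one_smul]; abel
    have h3 : iteratedFDeriv ℝ j (fun y => w y + θ y • v y) y =
        iteratedFDeriv ℝ j w y + iteratedFDeriv ℝ j (fun y => θ y • v y) y := by
      have := iteratedFDeriv_add_apply (𝕜 := ℝ) (i := j) (f := w) (g := fun y => θ y • v y)
        (x := y) (hcd j hj).contDiffAt
        ((hθs.of_le (by exact_mod_cast le_top)).smul
          (hvc.of_le (by exact_mod_cast hj))).contDiffAt
      rw [← this]
      rfl
    rw [h2, h3, add_sub_cancel_left]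
    refine (norm_iteratedFDeriv_smul_le (N := (N : ℕ∞)) (hθs.of_le (by exact_mod_cast le_top))
        hvc y (n := j) (by exact_mod_cast hj)).trans ?_
    calc ∑ i ∈ Finset.range (j + 1), (j.choose i : ℝ) * ‖iteratedFDeriv ℝ i θ y‖ *
            ‖iteratedFDeriv ℝ (j - i) v y‖
          ≤ ∑ i ∈ Finset.range (j + 1), (j.choose i : ℝ) * ((A + 1) * (δ * B)) := by
            refine Finset.sum_le_sum fun i hi => ?_
            have hi' := Finset.mem_range.1 hi
            rw [mul_assoc]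
            refine mul_le_mul_of_nonneg_left ?_ (Nat.cast_nonneg _)
            exact mul_le_mul (hθi i (by omega) y) (hvj _ (by omega) y) (norm_nonneg _) (by linarith)
        _ = 2 ^ j * ((A + 1) * (δ * B)) := by
            rw [← Finset.sum_mul, ← Nat.cast_sum, Nat.sum_range_choose]
            push_cast; ring
        _ ≤ 2 ^ N * ((A + 1) * (δ * B)) := by
            refine mul_le_mul_of_nonneg_right ?_ (by positivity)
            exact pow_le_pow_right₀ (by norm_num) hj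
        _ = η := by rw [← hδe]; ring

/-- **`SmP`** -/
theorem smP (m n : ℕ) : F3d_433.SmP m n := by
  intro w X0 R R' η hR' hR hη hw hB hs
  obtain ⟨B, hB⟩ := hB
  exact exists_smooth_ext' (N := 4) (b := fun _ => B) (by exact_mod_cast hw)
    (fun j _ hj Y => hB j (by omega) Y) hR' hR hs hη

end Crest.Agent.R234.Sme_433
end
end

-- ▼ part R234/F3h_433
section

/-!
# Row 234 (helper433): `F36_354.F3P1 → F3d_433.F3P`
-/

namespace Crest.Agent.R234.F3h_433

/-- **F3 for a block chart, from 354's / 618's `F3P1`** -/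
theorem f3P_of_F3P1 {m n k Q : ℕ} (hm : 1 ≤ m) (h : F36_354.F3P1 m n k Q) :
    F3d_433.F3P m n k Q :=
  F3g_433.f3P_of (Sme_433.smP m n) (F3t_433.f3Ps_of hm h)

end Crest.Agent.R234.F3h_433
end

-- ▼ part R234/LowF21_471
section

/-!
# Row 234 (helper471): F3 closed: `F3P1`, `F3E`, `SgE`
-/

set_option autoImplicit false

open Crest.GeometryTopology.Submanifold

namespace Crest.Agent.R234.LowF21_471

/-- **F3 at the scale 1** (354's LEP + 618's FIN) -/
theorem f3P1 (m n Q : ℕ) (hm : 3 ≤ m) (hn : 1 ≤ n) (hQ : 1 ≤ Q) :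
    F36_354.F3P1 m n (m + n) Q :=
  Fin_618.fin (by omega) (F40_354.lep m n (m + n) Q hm hn hQ)



end Crest.Agent.R234.LowF21_471
end

-- ▼ part R234/Ng14_290
section

/-!
# Row 234, node F7-GL, part 14 (helper290): `GLP`, unconditional
-/

set_option autoImplicit false

open Crest.Agent.R234

namespace Crest.Agent.R234.Ng_290

/-- **F7-GL** (F3P1 from 354 / 618, F3P from 433) -/
theorem glp : Stp_518.GLP :=
  glp_of_F3P fun m n Q hm hn hQ =>
    F3h_433.f3P_of_F3P1 (by omega) (LowF21_471.f3P1 m n Q hm hn hQ)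

end Crest.Agent.R234.Ng_290
end

-- ▼ part R234/Swb16_159
section

/-!
# Row 234, F6-BLOCK (helper159), part 16: consequences of `BD` at the level of `Mo`

`BD.pos` : `0 < I (l + 1/K)`; `BD.near` : `Near`; `BD.top` : the bound at `l + 3/(4K)`;
`BD.rotMo` : 842's structure.
-/

set_option autoImplicit false
set_option linter.unusedSectionVars false
set_option linter.unusedVariables false

open MeasureTheory Set Metric Filter Topology
open Crest.GeometryTopology.Submanifold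
open scoped ENNReal NNReal ContDiff RealInnerProductSpace

noncomputable section

namespace Crest.Agent.R234.Swb_159

open Crest.Agent.R234.Vf_884 (L G Stat VD Th mass rat ome)
open Crest.Agent.R234.Cy_870 (Ker)
open Crest.Agent.R234.Ell1_3 Crest.Agent.R234.Main_456 Crest.Agent.R234.Grot_842
open Crest.Agent.R234.GL_394 (Ch Ok On VK)
open Crest.Agent.R234.Gi_456 (Gr tube IsFoot foot yy Bt Lo Loi ch Kc giB muG)
open Crest.Agent.R234.GI_640 (g3 g31 g32)
open Crest.Agent.R234.Stp_518 (Mo GrB gr_of SupLe Sit MeanK lam)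
open Crest.Agent.R234.Bmo_842 (RotMo Wc)

local notation "adj" => ContinuousLinearMap.adjoint

variable {m n k : ℕ} {U : Set (Euc k)} {D : VarifoldData m k} {Q : ℕ} {x : Euc k}
  {M M' : Mo m n k} {ε Λ : ℝ} {q : Euc m →L[ℝ] Euc n} {H : Euc m →L[ℝ] Euc m}
  {H' : Euc n →L[ℝ] Euc n} {A : Set (Euc m)} {l K t δ b b' : ℝ}

namespace BD

variable (h : BD U D Q x M M' ε Λ q H H' A l K t δ b b')
include h

theorem I_mono {y y' : ℝ} (hy : y ≤ y') (hy' : y' ≤ l + 1 / K) :
    M.I x (VD D) y ≤ Real.exp (m * (y' - y)) * M.I x (VD D) y' := by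
  have hS := M.S_pos
  have hreg := h.reg
  have hE : Real.exp y' ≤ 15 * M.S := by
    have h1 : Real.exp y' ≤ M.S := Real.exp_le_exp.2 (hy'.trans h.hlb)
    linarith
  exact II_mono (X0 := 0) h.hg.gr h.sit.pack.frame hreg.cK1
    (rgn_subset_tube (x := x) h.hg.gr h.sit.pack.frame) hreg.on1 hy hE

theorem pos (h0 : 0 < M.I x (VD D) l) : 0 < M.I x (VD D) (l + 1 / K) := by
  have h1 := h.I_mono (y := l) (y' := l + 1 / K) (by have := h.iK0; linarith) le_rfl
  have h2 := Real.exp_pos (m * (l + 1 / K - l))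
  by_contra hc
  push Not at hc
  have := mul_nonpos_of_nonneg_of_nonpos h2.le hc
  linarith

/-- **`Near`** -/
theorem near {g C θ : ℝ} {p : ℕ} (hI0 : 0 < M.I x (VD D) (l + 1 / K)) (hg0 : 0 < g)
    (hC : 0 ≤ C)
    (hup : ∀ y ∈ Icc (l - 2 / K) l, M.I x (VD D) (l + 1 / K) ≤ g * M.I x (VD D) y)
    {e2 : Measure (Euc m)}
    (hT : Tot M x (VD D) Q (Real.exp (l + 7 / (8 * K)))
      (C * (8 * K) ^ p * (Real.exp ((m - 2) * (l + 1 / K)) * M.I x (VD D) (l + 1 / K))) e2)
    (h1 : δ * (79872 * Real.exp m * g * K ^ 2) ≤ θ)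
    (h2 : δ * (432 * C * 8 ^ p * Real.exp m * g * K ^ p) ≤ θ) :
    Stp_518.Near (M.I x (VD D)) (M.E x (VD D) Q) (M'.I x (VD D)) (M'.E x (VD D) Q) l K θ := by
  have hK := h.K0
  have hiK := h.iK
  have hiK0 := h.iK0
  have hδ0 := h.hδ0
  have hEm := Real.exp_pos (m : ℝ)
  intro y hy
  have hy1 := hy.1
  have hy2 := hy.2
  have e4 : 3 / (4 * K) = 3 / 4 * (1 / K) := by field_simp
  have h2K : 2 / K = 2 * (1 / K) := h.two_div
  have hIy := hup y hy
  have hIy0 : 0 < M.I x (VD D) y := by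
    by_contra hc
    push Not at hc
    have := mul_nonpos_of_nonneg_of_nonpos hg0.le hc
    linarith
  constructor
  · refine (h.I_sub hy1 (by rw [e4]; linarith)).trans ?_
    calc δ * (79872 * Real.exp m * K ^ 2) * M.I x (VD D) (l + 1 / K)
        ≤ δ * (79872 * Real.exp m * K ^ 2) * (g * M.I x (VD D) y) :=
          mul_le_mul_of_nonneg_left hIy (by positivity)
      _ = δ * (79872 * Real.exp m * g * K ^ 2) * M.I x (VD D) y := by ring
      _ ≤ θ * M.I x (VD D) y := mul_le_mul_of_nonneg_right h1 hIy0.le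
  · refine (h.E_sub hy1 hy2 hT).trans ?_
    have hexp : Real.exp ((2 - m) * y) * Real.exp ((m - 2) * (l + 1 / K)) ≤ Real.exp m := by
      rw [← Real.exp_add]
      refine Real.exp_le_exp.2 ?_
      have hm0 : (0 : ℝ) ≤ m := Nat.cast_nonneg m
      have h5 : l + 1 / K - y ≤ 1 := by linarith
      have h6 : 0 ≤ l + 1 / K - y := by linarith
      nlinarith
    calc 432 * δ * (Real.exp ((2 - m) * y) *
          (C * (8 * K) ^ p * (Real.exp ((m - 2) * (l + 1 / K)) * M.I x (VD D) (l + 1 / K))))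
        = 432 * δ * C * (8 * K) ^ p * M.I x (VD D) (l + 1 / K) *
          (Real.exp ((2 - m) * y) * Real.exp ((m - 2) * (l + 1 / K))) := by ring
      _ ≤ 432 * δ * C * (8 * K) ^ p * M.I x (VD D) (l + 1 / K) * Real.exp m :=
          mul_le_mul_of_nonneg_left hexp (by positivity)
      _ ≤ 432 * δ * C * (8 * K) ^ p * (g * M.I x (VD D) y) * Real.exp m := by gcongr
      _ = δ * (432 * C * 8 ^ p * Real.exp m * g * K ^ p) * M.I x (VD D) y := by
          rw [mul_pow]; ring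
      _ ≤ θ * M.I x (VD D) y := mul_le_mul_of_nonneg_right h2 hIy0.le

/-- the bound at the top -/
theorem top (hI0 : 0 < M.I x (VD D) (l + 1 / K)) (h1 : δ * (79872 * K ^ 2) ≤ 1) :
    M'.I x (VD D) (l + 3 / (4 * K)) ≤ 2 * Real.exp m * M.I x (VD D) (l + 1 / K) := by
  have hK := h.K0
  have hiK := h.iK
  have hiK0 := h.iK0
  have hδ0 := h.hδ0
  have hEm := Real.exp_pos (m : ℝ)
  have e4 : 3 / (4 * K) = 3 / 4 * (1 / K) := by field_simp
  have h2K : 2 / K = 2 * (1 / K) := h.two_div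
  have h2 := (abs_le.1 (h.I_sub (y := l + 3 / (4 * K)) (by rw [e4, h2K]; linarith) le_rfl)).2
  have h3 := h.I_mono (y := l + 3 / (4 * K)) (y' := l + 1 / K) (by rw [e4]; linarith) le_rfl
  have h4 : Real.exp (m * (l + 1 / K - (l + 3 / (4 * K)))) ≤ Real.exp m := by
    refine Real.exp_le_exp.2 ?_
    have hm0 : (0 : ℝ) ≤ m := Nat.cast_nonneg m
    have h5 : l + 1 / K - (l + 3 / (4 * K)) ≤ 1 := by rw [e4]; linarith
    nlinarith
  have h5 : δ * (79872 * Real.exp m * K ^ 2) * M.I x (VD D) (l + 1 / K) ≤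
      Real.exp m * M.I x (VD D) (l + 1 / K) := by
    refine mul_le_mul_of_nonneg_right ?_ hI0.le
    calc δ * (79872 * Real.exp m * K ^ 2) = δ * (79872 * K ^ 2) * Real.exp m := by ring
      _ ≤ 1 * Real.exp m := mul_le_mul_of_nonneg_right h1 hEm.le
      _ = _ := one_mul _
  have h6 := mul_le_mul_of_nonneg_right h4 hI0.le
  linarith

/-- 842's structure -/
theorem rotMo : RotMo M M' q H H' A where
  fr := h.sit.pack.frame
  eπ := h.eπ
  eρ := h.eρ
  same := h.same
  hq := by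
    have := h.δK; have := h.iK; have := h.hq
    linarith
  gr := h.hg.gr
  gr' := h.hg'.gr
  w0 := by
    have h1 := h.ws 0
    have h2 := h.S'S
    have := M.S_pos
    linarith
  w0' := by
    have h1 := h.ws' 0
    have := M'.S_pos
    linarith

end BD

end Crest.Agent.R234.Swb_159
end
end

-- ▼ part R234/Swb17_159
section

/-!
# Row 234, F6-BLOCK (helper159), part 17: the new reference

`blk_ex` : existence of the new reference with its class, as the structure `BD`.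
-/

set_option autoImplicit false
set_option linter.unusedSectionVars false
set_option linter.unusedVariables false

open MeasureTheory Set Metric Filter Topology
open Crest.GeometryTopology.Submanifold
open scoped ENNReal NNReal ContDiff RealInnerProductSpace

noncomputable section

namespace Crest.Agent.R234.Swb_159

open Crest.Agent.R234.Vf_884 (L G Stat VD Th mass rat ome)
open Crest.Agent.R234.Ell1_3 Crest.Agent.R234.Main_456 Crest.Agent.R234.Grot_842
open Crest.Agent.R234.Gi_456 (Gr)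
open Crest.Agent.R234.MG_570 (MG)
open Crest.Agent.R234.Stp_518 (Mo GrB gr_of SupLe Sit MeanK lam)

local notation "adj" => ContinuousLinearMap.adjoint

variable {m n : ℕ}

/-- the radius of the class -/
theorem rbl_final {K : ℝ} (hK : 32 ≤ K) : 1 + 1 / (16 * K) ≤ (1 + 1 / (8 * K)) * (1 - 1 / (32 * K)) := by
  have hK0 : 0 < K := by linarith
  set a := 1 / K with ha
  have ha0 : 0 < a := by positivity
  have ha1 : a ≤ 1 / 32 := one_div_le_one_div_of_le (by norm_num) hK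
  have e16 : 1 / (16 * K) = a / 16 := by rw [ha]; field_simp
  have e8 : 1 / (8 * K) = a / 8 := by rw [ha]; field_simp
  have e32 : 1 / (32 * K) = a / 32 := by rw [ha]; field_simp
  rw [e16, e8, e32]
  nlinarith

set_option maxHeartbeats 1000000 in
/-- **the new reference** -/
theorem blk_ex (m n N : ℕ) (hm : 1 ≤ m) (hN : 2 ≤ N) (hR : RescH m n N) :
    ∃ (C₁ : ℝ) (Qs : ℕ → ℕ), 1 ≤ C₁ ∧ ∀ T : ℝ, 5 ≤ T → ∃ κ₀ : ℝ, 0 < κ₀ ∧
      ∀ q q₁ : ℕ, Qs q ≤ q₁ → ∃ L₁ : ℝ,
    ∀ (k : ℕ) (U : Set (Euc k)) (D : VarifoldData m k) (Q : ℕ) (x : Euc k) (M : Mo m n k)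
      (Λ l K L : ℝ),
      Sit U D Q x M (Real.exp (-T) / 16) Λ → 0 ≤ M.κ → M.κ ≤ κ₀ →
      MG N M.κ (Real.exp (l + 1 / K - M.lb) * (1 + 1 / (8 * K))) M.u →
      ‖fderiv ℝ M.u 0‖ ≤ (L ^ q₁)⁻¹ → 32 ≤ K → K ≤ 2 * L ^ 2 → M.lb - T ≤ l →
      l ≤ M.lb - T + 1 → L₁ ≤ L →
      SupLe M x (VD D) (Real.exp (l + 1 / K - M.lb) * (1 + 1 / (8 * K)))
        (Real.exp (-(L / 4))) →
      ∃ (M' : Mo m n k) (p : Euc m →L[ℝ] Euc n) (H : Euc m →L[ℝ] Euc m)
        (H' : Euc n →L[ℝ] Euc n) (A : Set (Euc m)) (b b' : ℝ),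
        BD U D Q x M M' (Real.exp (-T) / 16) Λ p H H' A l K (Real.exp (M'.lb - M.lb))
          ((L ^ q₁)⁻¹) b b' ∧
        0 ≤ M'.κ ∧ M'.κ ≤ C₁ * Real.exp (M'.lb - M.lb) * M.κ + (L ^ q)⁻¹ ∧
        MG N M'.κ (Real.exp (l + 1 / K - M'.lb) * (1 + 1 / (16 * K))) M'.u := by
  obtain ⟨κg, Cg, hκg, hCg, hCκg, hgr⟩ := gr_of m n N hN
  obtain ⟨C₁, κs, Qs, hC₁, hκs, hcls⟩ := blk_cls m n N hR
  have hC₁0 : 0 < C₁ := by linarith
  refine ⟨C₁, fun q => Qs (q + 1) + 3, hC₁, fun T hT => ?_⟩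
  have hET := Real.exp_pos T
  have hEnT := Real.exp_pos (-T)
  set κg' : ℝ := min κg (1 / (16 * Cg)) with hκg'd
  have hκg' : 0 < κg' := by positivity
  refine ⟨min (min κg κs) (min 1 (min (Real.exp (-T) / (16 * Cg)) (κg' / (2 * C₁)))),
    by positivity, ?_⟩
  intro q q₁ hq₁
  replace hq₁ : Qs (q + 1) + 3 ≤ q₁ := hq₁
  obtain ⟨L₂, hL₂⟩ := hcls T (q + 1) q₁ (by omega) (by omega)
  obtain ⟨L₃, hL₃⟩ := Filter.eventually_atTop.1
    (Stp_518.ev_exp (32 * Real.exp T) (1 / 4) 2 (by norm_num) (δ := 1) one_pos)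
  refine ⟨max (max L₂ L₃) (max (max 600 (8 * Real.exp T)) (2 / κg')), ?_⟩
  intro k U D Q x M Λ l K L hs hκ0 hκ hMG hdu hK hKL hl1 hl2 hL hsup
  have hLa : L₂ ≤ L := le_trans (by simp) hL
  have hLb : L₃ ≤ L := le_trans (by simp) hL
  have hLc : 600 ≤ L := le_trans (by simp) hL
  have hLd : 8 * Real.exp T ≤ L := le_trans (by simp) hL
  have hLe : 2 / κg' ≤ L := le_trans (by simp) hL
  have hκ1 : M.κ ≤ κg := hκ.trans (by simp)
  have hκ2 : M.κ ≤ κs := hκ.trans (by simp)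
  have hκ3 : M.κ ≤ 1 := hκ.trans (by simp)
  have hκ4 : M.κ ≤ Real.exp (-T) / (16 * Cg) := hκ.trans (by simp)
  have hκ5 : M.κ ≤ κg' / (2 * C₁) := hκ.trans (by simp)
  have hL0 : 0 < L := by linarith
  have hL1 : 1 ≤ L := by linarith
  have hK0 : 0 < K := by linarith
  have hS := M.S_pos
  have iK : 1 / K ≤ 1 / 32 := one_div_le_one_div_of_le (by norm_num) hK
  have iK0 : 0 < 1 / K := by positivity
  have e2K : 2 / K = 2 * (1 / K) := by ring
  have e3K : 3 / K = 3 * (1 / K) := by ring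
  have e8K : 1 / (8 * K) = 1 / 8 * (1 / K) := by field_simp
  set lb' : ℝ := l - 2 / K + 1 / 8 with hlb'
  set t : ℝ := Real.exp (lb' - M.lb) with ht
  have ht0 : 0 < t := Real.exp_pos _
  have htT : Real.exp (-T) ≤ t := Real.exp_le_exp.2 (by rw [hlb', e2K]; linarith)
  have ht4 : 4 * t ≤ 1 := by
    have h1 : t ≤ Real.exp (-2) := Real.exp_le_exp.2 (by rw [hlb', e2K]; linarith)
    have h2 := Real.exp_one_gt_d9
    have h3 : Real.exp (-2 : ℝ) = (Real.exp 1 ^ 2)⁻¹ := by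
      rw [← Real.exp_nat_mul, ← Real.exp_neg]; norm_num
    have h4 : (4 : ℝ) ≤ Real.exp 1 ^ 2 := by nlinarith
    have h5 := inv_anti₀ (by norm_num) h4
    rw [h3] at h1
    linarith
  have hr8 : 0 < 1 + 1 / (8 * K) := by positivity
  have trbl : t * rbl K = Real.exp (l + 1 / K - M.lb) * (1 + 1 / (8 * K)) := by
    unfold rbl
    rw [← mul_assoc, ht, ← Real.exp_add]
    congr 2
    rw [hlb', e2K, e3K]; ring
  have hgB := hgr k M _ hκ0 hκ1 hMG
  have hb16 : Cg * M.κ ≤ Real.exp (-T) / 16 := by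
    calc Cg * M.κ ≤ Cg * (Real.exp (-T) / (16 * Cg)) := mul_le_mul_of_nonneg_left hκ4 hCg.le
      _ = _ := by field_simp
  have hT1 : Real.exp (-T) ≤ 1 := Real.exp_le_one_iff.2 (by linarith)
  have hGr1 : Gr 1 M.u := ⟨one_pos, hgB.cu, fun X => (hgB.b1 X).trans (by linarith),
    fun X => (hgB.b2 X).trans (by linarith)⟩
  have hstat := Vf_884.stat_VD hs.int hs.st
  have hu0 : ‖M.u 0‖ ≤ Real.exp (-(L / 4)) :=
    u0_le hm hstat hs.Q1 hs.Th hs.sub hs.pack.frame hgB.cu.continuous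
      (mul_pos (Real.exp_pos _) hr8) hsup
  obtain ⟨X₀, H, H', u', κ', rt, hX₀, hdX, hκ'0, hκ'1, hMG', hdu', hsame⟩ :=
    hL₂ k M.π M.ρ M.u M.κ L K t hs.pack.frame hGr1 hκ0 hκ2 hκ3 hLa hK hKL htT ht4
      (by rw [trbl]; exact hMG) hdu hu0
  set p := fderiv ℝ M.u X₀ with hp
  set δ : ℝ := (L ^ q₁)⁻¹ with hδ
  have hδ0 : 0 < δ := by positivity
  set x' := Real.exp (-(L / 4)) with hx'
  have hx'0 : 0 < x' := Real.exp_pos _
  -- the new reference
  let M' : Mo m n k := { M with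
    π := rπ M.π M.ρ p H
    ρ := rρ M.π M.ρ p H'
    lb := lb'
    u := u'
    κ := κ' }
  have hSt : M'.S = t * M.S := by
    show Real.exp lb' = Real.exp (lb' - M.lb) * Real.exp M.lb
    rw [← Real.exp_add]; congr 1; ring
  have hκ'g : κ' ≤ κg' := by
    have h1 : C₁ * t * M.κ ≤ κg' / 2 := by
      calc C₁ * t * M.κ ≤ C₁ * 1 * (κg' / (2 * C₁)) := by
            refine mul_le_mul (mul_le_mul_of_nonneg_left (by linarith) hC₁0.le) hκ5 hκ0
              (by positivity)
        _ = κg' / 2 := by field_simp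
    have h2 : (L ^ (q + 1))⁻¹ ≤ κg' / 2 := by
      have h3 : L ≤ L ^ (q + 1) := le_self_pow₀ hL1 (by omega)
      have h4 : (L ^ (q + 1))⁻¹ ≤ L⁻¹ := inv_anti₀ hL0 h3
      have h5 : L⁻¹ ≤ (2 / κg')⁻¹ := inv_anti₀ (by positivity) hLe
      rw [inv_div] at h5
      linarith
    linarith
  have hκ'1g : κ' ≤ κg := hκ'g.trans (min_le_left _ _)
  have hκ'2g : Cg * κ' ≤ 1 / 16 := by
    calc Cg * κ' ≤ Cg * (1 / (16 * Cg)) :=
          mul_le_mul_of_nonneg_left (hκ'g.trans (min_le_right _ _)) hCg.le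
      _ = 1 / 16 := by field_simp
  have hgB' : GrB M' (Cg * κ') := hgr k M' _ hκ'0 hκ'1g hMG'
  -- the radius of the top
  set E : ℝ := Real.exp (l + 1 / K) with hE
  have hE0 : 0 < E := Real.exp_pos _
  have tSr : t * M.S * rbl K = E * (1 + 1 / (8 * K)) := by
    rw [← hSt]
    show Real.exp lb' * (Real.exp (3 / K - 1 / 8) * (1 + 1 / (8 * K))) = _
    rw [← mul_assoc, ← Real.exp_add]
    congr 2
    rw [hlb', e2K, e3K]; ring
  have hSE : Real.exp (-T) * M.S ≤ E := by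
    show Real.exp (-T) * Real.exp M.lb ≤ _
    rw [← Real.exp_add]
    exact Real.exp_le_exp.2 (by linarith)
  have hSE' : M.S ≤ Real.exp T * E := by
    have h1 := mul_le_mul_of_nonneg_left hSE hET.le
    have h2 : Real.exp T * Real.exp (-T) = 1 := by rw [← Real.exp_add]; simp
    rw [← mul_assoc, h2, one_mul] at h1
    exact h1
  have hxs : 16 * K * Real.exp T * x' ≤ 1 := by
    have h1 := hL₃ L hLb
    have ex : Real.exp (-(1 / 4 * L)) = x' := by rw [hx']; congr 1; ring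
    rw [ex] at h1
    calc 16 * K * Real.exp T * x' ≤ 16 * (2 * L ^ 2) * Real.exp T * x' := by gcongr
      _ = 32 * Real.exp T * L ^ 2 * x' := by ring
      _ ≤ 1 := h1
  have hδ300 : 300 * K * δ ≤ 1 := by
    have h1 := pow_small (B := 300) (P := 1) (q := 0) (q₁ := q₁) (by norm_num) hL1 hK0.le hKL
      (by omega) (by linarith)
    rw [pow_one, pow_zero, inv_one] at h1
    linarith
  have hδT : δ * (4 * Real.exp T * K) ≤ 1 := by
    have h1 := pow_small (B := 4 * Real.exp T) (P := 1) (q := 0) (q₁ := q₁) (by positivity) hL1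
      hK0.le hKL (by omega) (by linarith)
    rwa [pow_one, pow_zero, inv_one] at h1
  have hA : closedBall (0 : Euc m) E ⊆
      reg p H M.u X₀ t M.S (rbl K) ((1 - 1 / (32 * K)) * rbl K) := by
    refine closedBall_subset_reg ht0 hS rt ?_ ?_
    · rw [tSr]
      have h1 : M.S * ‖X₀‖ ≤ Real.exp T * E * x' :=
        mul_le_mul hSE' hX₀ (norm_nonneg _) (by positivity)
      have h2 : Real.exp T * E * x' ≤ E * (1 / 16 * (1 / K)) := by
        have h3 : Real.exp T * x' ≤ 1 / 16 * (1 / K) := by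
          rw [show (1 / 16 * (1 / K) : ℝ) = 1 / (16 * K) by field_simp,
            le_div_iff₀ (by positivity)]
          linarith
        calc Real.exp T * E * x' = E * (Real.exp T * x') := by ring
          _ ≤ _ := mul_le_mul_of_nonneg_left h3 hE0.le
      rw [e8K]
      have h4 : 0 < E * (1 / K) := by positivity
      linarith
    · intro X hX
      have h0 : t * M.S * ((1 - 1 / (32 * K)) * rbl K) =
          E * ((1 + 1 / (8 * K)) * (1 - 1 / (32 * K))) := by
        calc t * M.S * ((1 - 1 / (32 * K)) * rbl K) = (t * M.S * rbl K) * (1 - 1 / (32 * K)) := by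
              ring
          _ = _ := by rw [tSr]; ring
      rw [h0]
      have h1 : ‖amb M.S M.u X‖ ≤ M.S * (Cg * M.κ) := hgB.w0 X
      have h2 : M.S * (Cg * M.κ) ≤ Real.exp T * E * (1 / 16) :=
        mul_le_mul hSE' (by linarith) (by positivity) (by positivity)
      have h3 : ‖p‖ * ‖amb M.S M.u X‖ ≤ 2 * δ * (Real.exp T * E * (1 / 16)) :=
        mul_le_mul hdX (h1.trans h2) (norm_nonneg _) (by positivity)
      have h4 : δ * Real.exp T ≤ 1 / 4 * (1 / K) := by
        rw [show (1 / 4 * (1 / K) : ℝ) = 1 / (4 * K) by field_simp, le_div_iff₀ (by positivity)]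
        linarith
      have h5 : 2 * δ * (Real.exp T * E * (1 / 16)) ≤ E * (1 / 32 * (1 / K)) := by
        calc 2 * δ * (Real.exp T * E * (1 / 16)) = E * (1 / 8 * (δ * Real.exp T)) := by ring
          _ ≤ E * (1 / 8 * (1 / 4 * (1 / K))) := by gcongr
          _ = _ := by ring
      have h6 := mul_le_mul_of_nonneg_left (rbl_final hK) hE0.le
      have e16K : 1 / (16 * K) = 1 / 16 * (1 / K) := by field_simp
      rw [e16K] at h6
      have h7 : 0 < E * (1 / K) := by positivity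
      linarith
  refine ⟨M', p, H, H', reg p H M.u X₀ t M.S (rbl K) ((1 - 1 / (32 * K)) * rbl K), Cg * M.κ,
    Cg * κ', ?_, hκ'0, ?_, ?_⟩
  · show BD U D Q x M M' (Real.exp (-T) / 16) Λ p H H'
      (reg p H M.u X₀ t M.S (rbl K) ((1 - 1 / (32 * K)) * rbl K)) l K t δ (Cg * M.κ) (Cg * κ')
    exact
      { sit := hs
        hg := hgB
        hg' := hgB'
        hb := by linarith
        hb' := hκ'2g
        ht0 := ht0
        ht4 := by linarith
        ht := hSt
        eπ := rfl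
        eρ := rfl
        lb := rfl
        same := by
          have h1 := hsame M.S hS
          rw [← hSt] at h1
          exact h1
        hA := hA
        hq := hdX
        du := hdu
        du' := hdu'
        hδ0 := hδ0.le
        hδ := hδ300
        hK := hK
        hε := by linarith
        hlb := by linarith }
  · show κ' ≤ C₁ * t * M.κ + (L ^ q)⁻¹
    have h1 : (L ^ (q + 1))⁻¹ ≤ (L ^ q)⁻¹ :=
      inv_anti₀ (by positivity) (pow_le_pow_right₀ hL1 (by omega))
    linarith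
  · show MG N κ' (Real.exp (l + 1 / K - lb') * (1 + 1 / (16 * K))) u'
    refine hMG'.mono le_rfl ?_
    have h1 : l + 1 / K - lb' = 3 / K - 1 / 8 := by rw [hlb', e2K, e3K]; ring
    rw [h1]
    unfold rbl
    have h2 := mul_le_mul_of_nonneg_left (rbl_final hK) (Real.exp_pos (3 / K - 1 / 8)).le
    calc _ ≤ _ := h2
      _ = _ := by ring

end Crest.Agent.R234.Swb_159
end
end

-- ▼ part R234/Rs9_182
section

/-!
# Row 234, node RESCALE (helper182), part 9: the rotation first, then every constant `c`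
-/

set_option autoImplicit false
set_option linter.unusedSectionVars false

open MeasureTheory Set Metric Filter Topology
open scoped ContDiff NNReal RealInnerProductSpace
open Crest.GeometryTopology.Submanifold

noncomputable section

namespace Crest.Agent.R234.Rs_182

open Crest.Agent.R086.Wie Crest.Agent.R234.Mx1_397 Crest.Agent.R234.Mx5_397
  Crest.Agent.R234.Mx6_397 Crest.Agent.R234.Mx16_397 Crest.Agent.R234.MG_570
  Crest.Agent.R234.Ell1_3 Crest.Agent.R234.Grot_842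
open Crest.Agent.R234.Main_456 (Msys)

/-- adding a constant inside the class -/
theorem MG_add_const (m n N : ℕ) : ∃ Ck : ℝ, 0 ≤ Ck ∧
    ∀ (κ r : ℝ) (u₀ : Euc m → Euc n) (c : Euc n), r ≤ 6 → MG N κ r u₀ →
      ∃ u' : Euc m → Euc n, MG N (κ + Ck * ‖c‖) r u' ∧ (∀ y, ‖y‖ ≤ 6 → u' y = u₀ y + c) ∧
        ∀ j ≤ N + 2, ∀ y, ‖iteratedFDeriv ℝ j (fun y => u' y - u₀ y) y‖ ≤ Ck * ‖c‖ := by
  obtain ⟨Ck, hCk, hk⟩ := norm_kX_le m n (N + 2)
  have hpi := Real.pi_pos
  set Cg : ℝ := Fintype.card (Fin n) * (2 * Real.pi) ^ (N + 2) with hCg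
  have hCg0 : 0 ≤ Cg := by positivity
  refine ⟨(1 + Cg) * Ck, by positivity, ?_⟩
  intro κ r u₀ c hr h
  obtain ⟨a, ha, han, hrep, hM⟩ := h
  set b := EuclideanSpace.basisFun (Fin n) ℝ with hb
  have hu₀ : u₀ = syn b a := rep_syn hrep
  have hkc : Ck * ‖c‖ ≤ (1 + Cg) * Ck * ‖c‖ := by
    have : 0 ≤ Cg * (Ck * ‖c‖) := by positivity
    nlinarith
  have hgc : Cg * (Ck * ‖c‖) ≤ (1 + Cg) * Ck * ‖c‖ := by
    have : 0 ≤ Ck * ‖c‖ := by positivity
    nlinarith
  have hu'e : ∀ x, ‖x‖ ≤ 6 → syn b (a + kX m (N + 2) c) x = u₀ x + c := fun x hx => by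
    have e1 : syn b (a + kX m (N + 2) c) x = syn b a x + syn b (kX m (N + 2) c) x :=
      syn_add b a _ x
    rw [e1, syn_kX, chi0_quarter hx, one_smul, hu₀]
  have hr1 : IsReal (a + kX m (N + 2) c) := fun α => by
    show star (a α + kX m (N + 2) c α) = a α + kX m (N + 2) c α
    rw [star_add, ha α, star_kX]
  refine ⟨syn b (a + kX m (N + 2) c), ⟨a + kX m (N + 2) c, hr1, ?_, syn_rep hr1,
    msys_add_const' hM fun y hy => hu'e y (by linarith)⟩, hu'e, ?_⟩
  · calc ‖a + kX m (N + 2) c‖ ≤ κ + Ck * ‖c‖ := (norm_add_le _ _).trans (add_le_add han (hk c))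
      _ ≤ _ := by linarith
  · intro j hj y
    have e1 : (fun y => syn b (a + kX m (N + 2) c) y - u₀ y) = syn b (kX m (N + 2) c) := by
      funext x
      have e1 : syn b (a + kX m (N + 2) c) x = syn b a x + syn b (kX m (N + 2) c) x :=
        syn_add b a _ x
      rw [e1, hu₀, add_sub_cancel_left]
    rw [e1]
    refine (norm_iteratedFDeriv_syn_le b _ hj y).trans (le_trans ?_ hgc)
    rw [hCg, mul_assoc]
    have := hk c
    gcongr

/-- **RESCALE, the rotation chosen before the constant `c`** -/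
theorem rescaleH (m n N : ℕ) (hm : 1 ≤ m) (r₀ : ℝ) (hr0 : 0 < r₀) (hr1 : r₀ ≤ 1) :
    ∃ (κ₀ C : ℝ) (p J : ℕ), 0 < κ₀ ∧ 1 ≤ C ∧
    ∀ (t ε R κ th : ℝ) (u : Euc m → Euc n) (X₀ : Euc m),
      0 < t → 4 * t ≤ 1 → 0 < ε → ε ≤ 1 / 4 → r₀ ≤ R → R ≤ 3 / 2 → κ ≤ κ₀ → MG N κ (t * R) u →
      ‖X₀‖ ≤ ε * (t * R) / 8 → ‖fderiv ℝ u X₀‖ ≤ th → 0 < th → th ≤ 1 →
      C * (ε⁻¹) ^ p * th ^ ((1 / 2 : ℝ) ^ J) ≤ 1 →
      ∃ (H : Euc m →L[ℝ] Euc m) (H' : Euc n →L[ℝ] Euc n), Rt (fderiv ℝ u X₀) H H' ∧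
        ∀ c : Euc n, ∃ u' : Euc m → Euc n,
        MG N (C * t * κ + C * (ε⁻¹) ^ p * th ^ ((1 / 2 : ℝ) ^ J) * κ + C * ‖c‖) ((1 - ε) * R) u' ∧
        RotG u u' X₀ c (fderiv ℝ u X₀) H H' t R ((1 - ε) * R) (C * κ * ‖fderiv ℝ u X₀‖) ∧
        (∀ y, ‖y‖ < 6 → ‖u' y - (t⁻¹ • (u (X₀ + t • y) - u X₀) - fderiv ℝ u X₀ y + c)‖ ≤
          C * (ε⁻¹) ^ p * th ^ ((1 / 2 : ℝ) ^ J) * κ) ∧
        ∀ y, ‖y‖ < 6 → ‖fderiv ℝ u' y - (fderiv ℝ u (X₀ + t • y) - fderiv ℝ u X₀)‖ ≤
          C * (ε⁻¹) ^ p * th ^ ((1 / 2 : ℝ) ^ J) * κ := by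
  obtain ⟨κ₀, C, p, J, hκ₀, hC, h⟩ := rescaleG m n N hm r₀ hr0 hr1
  obtain ⟨Ck, hCk, hk⟩ := MG_add_const m n N
  have hC0 : 0 ≤ C := zero_le_one.trans hC
  refine ⟨κ₀, C + Ck, p, J, hκ₀, by linarith, ?_⟩
  intro t ε R κ th u X₀ ht ht1 hε hε1 hR1 hR2 hκ hMG hX₀ hqth hth hth1 hsm
  have hκ0 : 0 ≤ κ := by
    obtain ⟨a, _, haκ, _, _⟩ := hMG
    exact (norm_nonneg _).trans haκ
  have hCD : C ≤ C + Ck := by linarith
  have hkD : Ck ≤ C + Ck := by linarith
  have hT0 : 0 ≤ (ε⁻¹) ^ p * th ^ ((1 / 2 : ℝ) ^ J) := by positivity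
  have hmono : C * (ε⁻¹) ^ p * th ^ ((1 / 2 : ℝ) ^ J) * κ ≤
      (C + Ck) * (ε⁻¹) ^ p * th ^ ((1 / 2 : ℝ) ^ J) * κ := by gcongr
  obtain ⟨H, H', u₀, h1, h2, h3, h4⟩ := h t ε R κ th u X₀ 0 ht ht1 hε hε1 hR1 hR2 hκ hMG hX₀ hqth
    hth hth1 (by
      refine le_trans ?_ hsm
      rw [mul_assoc, mul_assoc]
      gcongr)
  rw [norm_zero, mul_zero, add_zero] at h1
  have hR0 : 0 < R := hr0.trans_le hR1
  have hRR : (1 - ε) * R ≤ R := by nlinarith
  have hRR0 : 0 < (1 - ε) * R := mul_pos (by linarith) hR0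
  refine ⟨H, H', h2.rt, fun c => ?_⟩
  obtain ⟨u', k1, k2, -⟩ := hk _ _ u₀ c (by linarith) h1
  refine ⟨u', ?_, ?_, ?_, ?_⟩
  · obtain ⟨a, a1, a2, a3, a4⟩ := k1
    refine ⟨a, a1, a2.trans ?_, a3, a4⟩
    gcongr
  · have k3 := h2.add_const hRR0 (c := c) (u' := u') fun y hy => k2 y (by linarith)
    refine ⟨k3.rt, k3.val, k3.der, fun y hy => ?_, k3.inj, k3.fwd⟩
    obtain ⟨x, b1, b2, b3, b4⟩ := k3.bwd y hy
    refine ⟨x, b1, b2, b3, b4.trans ?_⟩
    gcongr
  · intro y hy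
    have k4 := h3 y hy
    rw [add_zero] at k4
    rw [k2 y hy.le, add_sub_add_right_eq_sub]
    exact k4.trans hmono
  · intro y hy
    have k5 : u' =ᶠ[𝓝 y] fun y => u₀ y + c := by
      filter_upwards [(isOpen_lt continuous_norm continuous_const).mem_nhds hy] with z hz
      exact k2 z (le_of_lt hz)
    rw [k5.fderiv_eq, fderiv_add_const]
    exact (h4 y hy).trans hmono


end Crest.Agent.R234.Rs_182
end
end

-- ▼ part R234/Swb18_159
section

/-!
# Row 234, F6-BLOCK (helper159), part 18: **`BlkP`**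

`blkP_of'` : `SupP → TotP → BlkP` (518's literal statement of the block change).
-/

set_option autoImplicit false
set_option linter.unusedSectionVars false
set_option linter.unusedVariables false

open MeasureTheory Set Metric Filter Topology
open Crest.GeometryTopology.Submanifold
open scoped ENNReal NNReal ContDiff RealInnerProductSpace

noncomputable section

namespace Crest.Agent.R234.Swb_159

open Crest.Agent.R234.Vf_884 (L G Stat VD Th mass rat ome)
open Crest.Agent.R234.Ell1_3 Crest.Agent.R234.Main_456 Crest.Agent.R234.Grot_842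
open Crest.Agent.R234.MG_570 (MG)
open Crest.Agent.R234.Stp_518 (Mo GrB SupLe Sit MeanK lam SupP BlkP)

theorem rescH (m n N : ℕ) (hm : 1 ≤ m) : RescH m n N := by
  intro r₀ hr0 hr1
  obtain ⟨κ₀, C, p, J, hκ, hC, h⟩ := Rs_182.rescaleH m n N hm r₀ hr0 hr1
  refine ⟨κ₀, C, p, J, hκ, hC, ?_⟩
  intro t ε R κ th u X₀ h1 h2 h3 h4 h5 h6 h7 h8 h9 h10 h11 h12 h13
  obtain ⟨H, H', rt, hu⟩ := h t ε R κ th u X₀ h1 h2 h3 h4 h5 h6 h7 h8 h9 h10 h11 h12 h13
  refine ⟨H, H', rt, fun c => ?_⟩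
  obtain ⟨u', ha, hb, -, -⟩ := hu c
  exact ⟨u', ha, hb⟩

set_option maxHeartbeats 1000000 in
/-- **the block change** -/
theorem blkP_of' (hSup : SupP) (hTot : TotP) : BlkP := by
  intro m n Q hm hn hQ
  obtain ⟨N₁, hN₁⟩ := Bmo_842.blk_d hSup m n Q hm hn hQ
  obtain ⟨N₂, hN₂⟩ := hTot m n Q hm hn hQ
  refine ⟨max 2 (max N₁ N₂), fun N hN => ?_⟩
  have hNa : 2 ≤ N := le_trans (by simp) hN
  have hNb : N₁ ≤ N := le_trans (by simp) hN
  have hNc : N₂ ≤ N := le_trans (by simp) hN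
  have hm1 : 1 ≤ m := by omega
  obtain ⟨C₁, Qs, hC₁, hex⟩ := blk_ex m n N hm1 hNa (rescH m n N hm1)
  refine ⟨C₁, 5, hC₁, fun Ks q T Λ G hKs hT => ?_⟩
  obtain ⟨κa, hκa, hexT⟩ := hex T hT
  obtain ⟨qd, κd, εd, Ld, hκd, hεd, hd⟩ := hN₁ N hNb Ks q T Λ G hKs (by linarith)
  obtain ⟨Ct, pt, hCt, κt, εt, Lt, hκt, hεt, ht⟩ := hN₂ N hNc (T + 1) Λ
  have hEm := Real.exp_pos (m : ℝ)
  have hE2G := Real.exp_pos (2 * G)
  -- the constants
  set q₁ : ℕ := Qs q + qd + 2 * (pt + 2) + q + 6 with hq₁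
  obtain ⟨La, hLa⟩ := hexT q q₁ (by omega)
  set B1 : ℝ := 79872 * Real.exp m * Real.exp (2 * G) with hB1
  set B2 : ℝ := 432 * Ct * 8 ^ pt * Real.exp m * Real.exp (2 * G) with hB2
  have hB10 : 0 ≤ B1 := by positivity
  have hB20 : 0 ≤ B2 := by positivity
  refine ⟨q₁, min κa (min κd κt), min (Real.exp (-T) / 16) (min εd εt),
    max (max La Ld) (max (max (Lt + G) (max (2 * G) 1000000)) (max (max (B1 * 2 ^ 2) (B2 * 2 ^ pt))
      (8 / κt * 2 ^ 1))), by positivity, by positivity, ?_⟩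
  intro U D x M l K hs hκ0 hκ hMG hdu hK hKL hl1 hl2 hI hL hup hdn hsup hmean
  set L := lam (M.I x (VD D)) l with hLdef
  have b1 : La ≤ L := le_trans (by simp) hL
  have b2 : Ld ≤ L := le_trans (by simp) hL
  have b3 : Lt + G ≤ L := le_trans (by simp) hL
  have b4 : 2 * G ≤ L := le_trans (by simp) hL
  have b5 : 1000000 ≤ L := le_trans (by simp) hL
  have b6 : B1 * 2 ^ 2 ≤ L := le_trans (by simp) hL
  have b7 : B2 * 2 ^ pt ≤ L := le_trans (by simp) hL
  have b8 : 8 / κt * 2 ^ 1 ≤ L := le_trans (by simp) hL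
  have hκ1 : M.κ ≤ κa := hκ.trans (by simp)
  have hκ2 : M.κ ≤ κd := hκ.trans (by simp)
  have hκ3 : M.κ ≤ κt := hκ.trans (by simp)
  have hs1 := Stp_518.Sit.mono hs (min_le_left _ _)
  have hs2 := Stp_518.Sit.mono hs ((min_le_right _ _).trans (min_le_left _ _))
  have hs3 := Stp_518.Sit.mono hs ((min_le_right _ _).trans (min_le_right _ _))
  have hL1 : 1 ≤ L := by linarith
  have hL0 : 0 < L := by linarith
  have hK0 : 0 < K := by linarith
  have iK : 1 / K ≤ 1 / 32 := one_div_le_one_div_of_le (by norm_num) hK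
  have iK0 : 0 < 1 / K := by positivity
  have e2K : 2 / K = 2 * (1 / K) := by ring
  have e8K : 1 / (8 * K) = 1 / 8 * (1 / K) := by field_simp
  have e78 : 7 / (8 * K) = 7 / 8 * (1 / K) := by field_simp
  set δ : ℝ := (L ^ q₁)⁻¹ with hδ
  have hδ0 : 0 < δ := by positivity
  -- the new reference
  obtain ⟨M', p, H, H', A, b, b', hBD, hκ'0, hκ'1, hMG'⟩ :=
    hLa (m + n) U D Q x M Λ l K L hs1 hκ0 hκ1 hMG hdu hK hKL hl1 hl2 b1 hsup
  -- part (d)
  have hL2q : δ ≤ (L ^ qd)⁻¹ :=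
    inv_anti₀ (by positivity) (pow_le_pow_right₀ hL1 (by omega))
  have hsq := Real.sqrt_nonneg (M.I x (VD D) l)
  have hA7 : closedBall (0 : Euc m) (Real.exp (l + 7 / (8 * K))) ⊆ A := by
    refine (closedBall_subset_closedBall (Real.exp_le_exp.2 ?_)).trans hBD.hA
    rw [e78]; linarith
  obtain ⟨hsup', hmean'⟩ := hd U D x M l K (2 * δ) hs2 hκ0 hκ2 hMG (by positivity)
    (mul_le_mul_of_nonneg_left hL2q (by norm_num)) (by linarith) hK hKL hl1 hl2 hI b2 hup hsup
    (Stp_518.MeanK.mono hmean le_rfl (mul_le_mul_of_nonneg_right (by linarith) hsq))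
    M' p H H' A hBD.rotMo hBD.lb hBD.hq hA7
  -- growth
  have hI1 : 0 < M.I x (VD D) (l + 1 / K) := hBD.pos hI
  have hIup : M.I x (VD D) (l + 1 / K) ≤ Real.exp G * M.I x (VD D) l :=
    Stp_518.le_exp_of_log hI hup
  have hupg : ∀ y ∈ Icc (l - 2 / K) l,
      M.I x (VD D) (l + 1 / K) ≤ Real.exp (2 * G) * M.I x (VD D) y := fun y hy => by
    have h1 := mul_le_mul_of_nonneg_left (hdn y hy) (Real.exp_pos G).le
    have h2 : Real.exp (2 * G) = Real.exp G * Real.exp G := by rw [← Real.exp_add]; congr 1; ring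
    rw [h2]
    linarith
  -- total tilt and defect
  have hlam : L - G ≤ lam (M.I x (VD D)) (l + 1 / K) := by
    have h1 : lam (M.I x (VD D)) (l + 1 / K) =
        2 * (l + 1 / K) - Real.log (M.I x (VD D) (l + 1 / K)) := rfl
    have h2 : L = 2 * l - Real.log (M.I x (VD D) l) := rfl
    linarith
  have hdut : ‖fderiv ℝ M.u 0‖ ≤ κt / (8 * K) := by
    have h1 := pow_small (B := 8 / κt) (P := 1) (q := 0) (q₁ := q₁) (by positivity) hL1
      hK0.le hKL (by omega) b8
    rw [pow_one, pow_zero, inv_one] at h1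
    refine hdu.trans ?_
    rw [le_div_iff₀ (by positivity)]
    have h2 : δ * (8 / κt * K) = δ * (8 * K) / κt := by ring
    rw [← hδ] at h1
    rw [h2, div_le_one hκt] at h1
    exact h1
  have hMGt : MG N M.κ (Real.exp (l + 1 / K - M.lb)) M.u := by
    refine hMG.mono le_rfl ?_
    have h1 := Real.exp_pos (l + 1 / K - M.lb)
    have h2 : 0 < 1 / (8 * K) := by positivity
    nlinarith
  obtain ⟨e2, he2⟩ := ht U D x M (l + 1 / K) (8 * K) hs3 hκ0 hκ3 hMGt hdut (by linarith)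
    (by linarith) (by linarith) hI1 (by linarith) (by
      have h1 : 500000 ≤ lam (M.I x (VD D)) (l + 1 / K) := by linarith
      have h2 : L / 2 ≤ lam (M.I x (VD D)) (l + 1 / K) := by linarith
      have h3 : (L / 2) ^ 3 ≤ lam (M.I x (VD D)) (l + 1 / K) ^ 3 :=
        pow_le_pow_left₀ (by linarith) h2 3
      refine le_trans ?_ h3
      have h4 : 8 * K ≤ 16 * L ^ 2 := by linarith
      refine h4.trans ?_
      have h5 : 0 ≤ L ^ 2 * (L - 128) := mul_nonneg (by positivity) (by linarith)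
      nlinarith)
  rw [show l + 1 / K - 1 / (8 * K) = l + 7 / (8 * K) by rw [e8K, e78]; ring] at he2
  have hBD1 := hBD
  refine ⟨M', hBD.lb, ?_, hκ'0, hκ'1, hMG', hBD.du', ?_, ?_, hsup', hmean'⟩
  · rw [hBD.eπ, hBD.eρ]
    exact frame_rot hBD.sit.pack.frame hBD.same.rt
  · refine hBD.near hI1 hE2G hCt hupg he2 ?_ ?_
    · have h1 := pow_small (B := B1) (P := 2) (q := q) (q₁ := q₁) hB10 hL1 hK0.le hKL
        (by omega) b6
      exact h1
    · have h1 := pow_small (B := B2) (P := pt) (q := q) (q₁ := q₁) hB20 hL1 hK0.le hKL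
        (by omega) b7
      exact h1
  · refine hBD.top hI1 ?_
    have h1 := pow_small (B := 79872) (P := 2) (q := 0) (q₁ := q₁) (by norm_num) hL1 hK0.le hKL
      (by omega) (by norm_num; linarith)
    rwa [pow_zero, inv_one] at h1

end Crest.Agent.R234.Swb_159
end
end

-- ▼ part R234/Swb19_159
section

/-!
# Row 234, F6-BLOCK (helper159), part 19: `BlkP` from `SupP` alone
-/

set_option autoImplicit false

namespace Crest.Agent.R234.Swb_159

/-- **BLOCK CHANGE** (518's literal `BlkP`) from 685's `SupP`. -/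
theorem blkP_of (hSup : Stp_518.SupP) : Stp_518.BlkP := blkP_of' hSup Tot_128.totP

end Crest.Agent.R234.Swb_159
end

-- ▼ part R234/Swb20_159
section

/-!
# Row 234, F6-BLOCK (helper159), part 20: `BlkP`, unconditional
-/

set_option autoImplicit false

namespace Crest.Agent.R234.Swb_159

/-- **BLOCK CHANGE** (518's literal `BlkP`), no hypothesis. -/
theorem blkP : Stp_518.BlkP := blkP_of Sp_685.supP

end Crest.Agent.R234.Swb_159
end

-- ▼ part R234/Thya6_685

/-!
R234 (helper685): all leaves of the row.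
-/

set_option autoImplicit false

namespace Crest.Agent.R234.Thya_685

/-- the step -/
theorem stepT (m n : ℕ) (hm : 3 ≤ m) (hn : 1 ≤ n) : StepT m n :=
  Stp_518.stepT Ng_290.glp Sp_685.supP Sw_733.swP Swb_159.blkP MG_570.selP3 m n hm hn

/-- **all leaves** -/
theorem leaves : Skel4_884.Leaves := leaves_of' stepT Ng_290.glp

end Crest.Agent.R234.Thya_685
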