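import Mathlib

-- ▼ part R234/Well1_761
section

/-!
Row 234, VF-WELL (helper761), file 1: multi-well functions of the height variable.
`W` is a real inner product space.  `cut` is a smooth concave function with `cut t = t` for
`t ≤ 1/64` and constant for `1/16 ≤ t`.  `well c q y = q²/2 · cut (|y-c|²/q²)`.
`wells C q = top q - ∑_{c ∈ C} (top q - well c q)`.
-/

set_option autoImplicit false
set_option linter.unusedSectionVars false

open Set Filter Topology MeasureTheory
open scoped ContDiff InnerProductSpace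

noncomputable section

namespace Crest.Agent.R234.Well_761

/-! ### the profile -/

/-- smooth, `1` for `t ≤ 1/64`, `0` for `1/16 ≤ t`, nonincreasing. -/
def eta (t : ℝ) : ℝ := 1 - Real.smoothTransition ((t - 1 / 64) * (64 / 3))

theorem eta_contDiff : ContDiff ℝ ∞ eta := by
  unfold eta
  exact contDiff_const.sub (Real.smoothTransition.contDiff.comp
    ((contDiff_id.sub contDiff_const).mul contDiff_const))

theorem eta_cont : Continuous eta := eta_contDiff.continuous

theorem eta_nonneg (t : ℝ) : 0 ≤ eta t := by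
  unfold eta
  linarith [Real.smoothTransition.le_one ((t - 1 / 64) * (64 / 3))]

theorem eta_le_one (t : ℝ) : eta t ≤ 1 := by
  unfold eta
  linarith [Real.smoothTransition.nonneg ((t - 1 / 64) * (64 / 3))]

theorem eta_eq_one {t : ℝ} (ht : t ≤ 1 / 64) : eta t = 1 := by
  unfold eta
  rw [Real.smoothTransition.zero_of_nonpos (by nlinarith), sub_zero]

theorem eta_eq_zero {t : ℝ} (ht : 1 / 16 ≤ t) : eta t = 0 := by
  unfold eta
  rw [Real.smoothTransition.one_of_one_le (by linarith), sub_self]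

theorem smoothTransition_mono : Monotone Real.smoothTransition := by
  intro x y hxy
  unfold Real.smoothTransition
  have hd : ∀ z : ℝ, 0 < expNegInvGlue z + expNegInvGlue (1 - z) :=
    Real.smoothTransition.pos_denom
  rw [div_le_div_iff₀ (hd x) (hd y)]
  have h1 : expNegInvGlue x ≤ expNegInvGlue y := by
    unfold expNegInvGlue
    split_ifs with h1 h2
    · rfl
    · positivity
    · exact absurd (hxy.trans (by assumption)) (by assumption)
    · push Not at *
      gcongr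
  have h2 : expNegInvGlue (1 - y) ≤ expNegInvGlue (1 - x) := by
    unfold expNegInvGlue
    split_ifs with h1 h2
    · rfl
    · positivity
    · exfalso
      push Not at *
      linarith
    · push Not at *
      have : 1 - y ≤ 1 - x := by linarith
      gcongr
  have h3 := expNegInvGlue.nonneg x
  have h4 := expNegInvGlue.nonneg (1 - x)
  have h5 := expNegInvGlue.nonneg y
  have h6 := expNegInvGlue.nonneg (1 - y)
  nlinarith

theorem eta_anti : Antitone eta := by
  intro s t hst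
  unfold eta
  have := smoothTransition_mono (a := (s - 1 / 64) * (64 / 3)) (b := (t - 1 / 64) * (64 / 3))
    (by linarith)
  linarith

theorem deriv_eta_nonpos (t : ℝ) : deriv eta t ≤ 0 := eta_anti.deriv_nonpos

theorem eta_diff (t : ℝ) : HasDerivAt eta (deriv eta t) t :=
  (eta_contDiff.differentiable (by simp) t).hasDerivAt

theorem deriv_eta_eq_zero_of_lt {t : ℝ} (ht : t < 1 / 64) : deriv eta t = 0 := by
  have h : eta =ᶠ[𝓝 t] fun _ => (1 : ℝ) := by
    filter_upwards [Iio_mem_nhds ht] with s hs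
    exact eta_eq_one (le_of_lt hs)
  rw [h.deriv_eq]; simp

theorem deriv_eta_eq_zero_of_gt {t : ℝ} (ht : 1 / 16 < t) : deriv eta t = 0 := by
  have h : eta =ᶠ[𝓝 t] fun _ => (0 : ℝ) := by
    filter_upwards [Ioi_mem_nhds ht] with s hs
    exact eta_eq_zero (le_of_lt hs)
  rw [h.deriv_eq]; simp

theorem deriv_eta_cont : Continuous (deriv eta) :=
  (eta_contDiff.of_le (by exact_mod_cast le_top)).continuous_deriv_one

theorem deriv_eta_eq_zero_of_le {t : ℝ} (ht : t ≤ 1 / 64) : deriv eta t = 0 := by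
  have hc : IsClosed {s : ℝ | deriv eta s = 0} := isClosed_eq deriv_eta_cont continuous_const
  have hsub : Iio (1 / 64 : ℝ) ⊆ {s : ℝ | deriv eta s = 0} := fun s hs =>
    deriv_eta_eq_zero_of_lt hs
  have := hc.closure_subset_iff.2 hsub
  rw [closure_Iio] at this
  exact this ht

theorem deriv_eta_eq_zero_of_ge {t : ℝ} (ht : 1 / 16 ≤ t) : deriv eta t = 0 := by
  have hc : IsClosed {s : ℝ | deriv eta s = 0} := isClosed_eq deriv_eta_cont continuous_const
  have hsub : Ioi (1 / 16 : ℝ) ⊆ {s : ℝ | deriv eta s = 0} := fun s hs =>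
    deriv_eta_eq_zero_of_gt hs
  have := hc.closure_subset_iff.2 hsub
  rw [closure_Ioi] at this
  exact this ht

/-- a bound for `|eta'|`. -/
theorem exists_deriv_eta_bound : ∃ C : ℝ, 0 ≤ C ∧ ∀ t, -C ≤ deriv eta t := by
  obtain ⟨C, hC⟩ := (isCompact_Icc (a := (1 / 64 : ℝ)) (b := 1 / 16)).exists_bound_of_continuousOn
    deriv_eta_cont.continuousOn
  refine ⟨max C 0, le_max_right _ _, fun t => ?_⟩
  rcases le_total t (1 / 64) with h | h
  · rw [deriv_eta_eq_zero_of_le h]
    have := le_max_right C 0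
    linarith
  rcases le_total (1 / 16) t with h' | h'
  · rw [deriv_eta_eq_zero_of_ge h']
    have := le_max_right C 0
    linarith
  have := hC t ⟨h, h'⟩
  rw [Real.norm_eq_abs] at this
  have h2 := neg_abs_le (deriv eta t)
  have h3 := le_max_left C 0
  linarith

/-- the constant `C₁` with `-C₁ ≤ eta'`. -/
def etaC : ℝ := exists_deriv_eta_bound.choose

theorem etaC_nonneg : 0 ≤ etaC := exists_deriv_eta_bound.choose_spec.1

theorem neg_etaC_le (t : ℝ) : -etaC ≤ deriv eta t := exists_deriv_eta_bound.choose_spec.2 t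

/-- the primitive of `eta`. -/
def cut (t : ℝ) : ℝ := ∫ u in (0 : ℝ)..t, eta u

theorem cut_hasDerivAt (t : ℝ) : HasDerivAt cut (eta t) t :=
  intervalIntegral.integral_hasDerivAt_right (eta_cont.intervalIntegrable _ _)
    eta_cont.aestronglyMeasurable.stronglyMeasurableAtFilter eta_cont.continuousAt

theorem deriv_cut : deriv cut = eta := funext fun t => (cut_hasDerivAt t).deriv

theorem cut_contDiff : ContDiff ℝ ∞ cut := by
  rw [contDiff_infty_iff_deriv]
  refine ⟨fun t => (cut_hasDerivAt t).differentiableAt, ?_⟩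
  rw [deriv_cut]
  exact eta_contDiff

theorem cut_zero : cut 0 = 0 := intervalIntegral.integral_same

theorem cut_mono : Monotone cut :=
  monotone_of_deriv_nonneg (fun t => (cut_hasDerivAt t).differentiableAt)
    fun t => by rw [deriv_cut]; exact eta_nonneg t

theorem cut_nonneg {t : ℝ} (ht : 0 ≤ t) : 0 ≤ cut t := by
  rw [← cut_zero]; exact cut_mono ht

theorem cut_eq_id {t : ℝ} (ht : t ≤ 1 / 64) : cut t = t := by
  unfold cut
  rw [intervalIntegral.integral_congr (g := fun _ => (1 : ℝ))]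
  · simp
  · intro u hu
    have : u ≤ 1 / 64 := by
      rcases le_total 0 t with h | h
      · rw [uIcc_of_le h] at hu
        exact hu.2.trans ht
      · rw [uIcc_of_ge h] at hu
        linarith [hu.2]
    simp only
    exact eta_eq_one this

theorem cut_le_id {t : ℝ} (ht : 0 ≤ t) : cut t ≤ t := by
  have h : cut t ≤ ∫ _u in (0 : ℝ)..t, (1 : ℝ) :=
    intervalIntegral.integral_mono_on ht (eta_cont.intervalIntegrable _ _)
      (continuous_const.intervalIntegrable _ _) fun u _ => eta_le_one u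
  simpa using h

theorem mul_eta_le_cut {t : ℝ} (ht : 0 ≤ t) : t * eta t ≤ cut t := by
  have h : ∫ _u in (0 : ℝ)..t, eta t ≤ cut t :=
    intervalIntegral.integral_mono_on ht (continuous_const.intervalIntegrable _ _)
      (eta_cont.intervalIntegrable _ _) fun u hu => eta_anti hu.2
  simpa using h

/-- the final value. -/
def cutTop : ℝ := cut (1 / 16)

theorem cut_eq_top {t : ℝ} (ht : 1 / 16 ≤ t) : cut t = cutTop := by
  unfold cutTop cut
  rw [← intervalIntegral.integral_add_adjacent_intervals (b := 1 / 16)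
    (eta_cont.intervalIntegrable _ _) (eta_cont.intervalIntegrable _ _)]
  have : ∫ u in (1 / 16 : ℝ)..t, eta u = 0 := by
    rw [intervalIntegral.integral_congr (g := fun _ => (0 : ℝ))]
    · simp
    · intro u hu
      rw [uIcc_of_le ht] at hu
      exact eta_eq_zero hu.1
  rw [this, add_zero]

theorem cut_le_top (t : ℝ) : cut t ≤ cutTop := by
  rcases le_total t (1 / 16) with h | h
  · exact cut_mono h
  · exact (cut_eq_top h).le

theorem cutTop_ge : 1 / 64 ≤ cutTop := by
  have := cut_mono (show (1 / 64 : ℝ) ≤ 1 / 16 by norm_num)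
  rw [cut_eq_id le_rfl] at this
  exact this

theorem cutTop_le : cutTop ≤ 1 / 16 := cut_le_id (by norm_num)

/-! ### one well -/

variable {W : Type*} [NormedAddCommGroup W] [InnerProductSpace ℝ W]

/-- one well. -/
def well (c : W) (q : ℝ) (y : W) : ℝ := q ^ 2 / 2 * cut (‖y - c‖ ^ 2 / q ^ 2)

/-- its gradient. -/
def wellG (c : W) (q : ℝ) (y : W) : W := eta (‖y - c‖ ^ 2 / q ^ 2) • (y - c)

/-- its Hessian. -/
def wellH (c : W) (q : ℝ) (y : W) : W →L[ℝ] W :=
  eta (‖y - c‖ ^ 2 / q ^ 2) • ContinuousLinearMap.id ℝ W +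
    ((2 * deriv eta (‖y - c‖ ^ 2 / q ^ 2) / q ^ 2) • innerSL ℝ (y - c)).smulRight (y - c)

/-- the plateau value. -/
def wellTop (q : ℝ) : ℝ := q ^ 2 / 2 * cutTop

theorem well_contDiff (c : W) (q : ℝ) : ContDiff ℝ ∞ (well c q) := by
  unfold well
  have h1 : ContDiff ℝ ∞ (fun y : W => ‖y - c‖ ^ 2 / q ^ 2) :=
    ((contDiff_id.sub contDiff_const).norm_sq ℝ).div_const _
  exact contDiff_const.mul (cut_contDiff.comp h1)

theorem wellG_contDiff (c : W) (q : ℝ) : ContDiff ℝ ∞ (wellG c q) := by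
  unfold wellG
  have h1 : ContDiff ℝ ∞ (fun y : W => ‖y - c‖ ^ 2 / q ^ 2) :=
    ((contDiff_id.sub contDiff_const).norm_sq ℝ).div_const _
  exact (eta_contDiff.comp h1).smul (contDiff_id.sub contDiff_const)

theorem hasFDerivAt_sq (c : W) (q : ℝ) (y : W) :
    HasFDerivAt (fun y : W => ‖y - c‖ ^ 2 / q ^ 2) ((2 / q ^ 2) • innerSL ℝ (y - c)) y := by
  have h1 : HasFDerivAt (fun y : W => y - c) (ContinuousLinearMap.id ℝ W) y :=
    (hasFDerivAt_id y).sub_const c
  have h2 : HasFDerivAt (fun y : W => ‖y - c‖ ^ 2) (2 • innerSL ℝ (y - c)) y := by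
    have := h1.norm_sq
    simpa using this
  have h3 := h2.const_mul (1 / q ^ 2)
  have e1 : (fun y : W => ‖y - c‖ ^ 2 / q ^ 2) = fun y : W => 1 / q ^ 2 * ‖y - c‖ ^ 2 := by
    funext y; ring
  have e2 : (2 / q ^ 2) • innerSL ℝ (y - c) = (1 / q ^ 2) • (2 • innerSL ℝ (y - c)) := by
    rw [← Nat.cast_smul_eq_nsmul ℝ, smul_smul]
    congr 1
    push_cast
    ring
  rw [e1, e2]
  exact h3

theorem well_hasFDerivAt (c : W) {q : ℝ} (hq : 0 < q) (y : W) :
    HasFDerivAt (well c q) (innerSL ℝ (wellG c q y)) y := by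
  have h1 := (cut_hasDerivAt (‖y - c‖ ^ 2 / q ^ 2)).comp_hasFDerivAt y (hasFDerivAt_sq c q y)
  have h2 := h1.const_mul (q ^ 2 / 2)
  have e : innerSL ℝ (wellG c q y)
      = (q ^ 2 / 2) • (eta (‖y - c‖ ^ 2 / q ^ 2) • ((2 / q ^ 2) • innerSL ℝ (y - c))) := by
    ext v
    simp only [wellG, innerSL_apply_apply, inner_smul_left, smul_apply, smul_eq_mul,
      RCLike.conj_to_real]
    field_simp
  rw [e]
  exact h2

theorem wellG_hasFDerivAt (c : W) (q : ℝ) (y : W) :
    HasFDerivAt (wellG c q) (wellH c q y) y := by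
  have h0 : HasFDerivAt (fun y : W => y - c) (ContinuousLinearMap.id ℝ W) y :=
    (hasFDerivAt_id y).sub_const c
  have h1 := (eta_diff (‖y - c‖ ^ 2 / q ^ 2)).comp_hasFDerivAt y (hasFDerivAt_sq c q y)
  have h2 := h1.smul h0
  have e : wellH c q y = eta (‖y - c‖ ^ 2 / q ^ 2) • ContinuousLinearMap.id ℝ W +
      (deriv eta (‖y - c‖ ^ 2 / q ^ 2) • ((2 / q ^ 2) • innerSL ℝ (y - c))).smulRight (y - c) := by
    unfold wellH
    rw [smul_smul]
    congr 3
    ring
  rw [e]
  exact h2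

theorem wellH_apply (c : W) (q : ℝ) (y v : W) : wellH c q y v =
    eta (‖y - c‖ ^ 2 / q ^ 2) • v +
      (2 * deriv eta (‖y - c‖ ^ 2 / q ^ 2) / q ^ 2 * ⟪y - c, v⟫_ℝ) • (y - c) := by
  simp only [wellH, add_apply, smul_apply, ContinuousLinearMap.smulRight_apply,
    ContinuousLinearMap.id_apply, innerSL_apply_apply, smul_eq_mul]

theorem wellH_inner (c : W) (q : ℝ) (y v w : W) : ⟪wellH c q y v, w⟫_ℝ =
    eta (‖y - c‖ ^ 2 / q ^ 2) * ⟪v, w⟫_ℝ +
      2 * deriv eta (‖y - c‖ ^ 2 / q ^ 2) / q ^ 2 * (⟪y - c, v⟫_ℝ * ⟪y - c, w⟫_ℝ) := by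
  rw [wellH_apply, inner_add_left, inner_smul_left, inner_smul_left]
  simp only [RCLike.conj_to_real]
  ring

theorem wellH_symm (c : W) (q : ℝ) (y v w : W) :
    ⟪wellH c q y v, w⟫_ℝ = ⟪v, wellH c q y w⟫_ℝ := by
  rw [real_inner_comm (wellH c q y w) v, wellH_inner, wellH_inner, real_inner_comm v w]
  ring

theorem well_nonneg (c : W) (q : ℝ) (y : W) : 0 ≤ well c q y := by
  unfold well
  exact mul_nonneg (by positivity) (cut_nonneg (by positivity))

theorem well_le_top (c : W) (q : ℝ) (y : W) : well c q y ≤ wellTop q := by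
  unfold well wellTop
  exact mul_le_mul_of_nonneg_left (cut_le_top _) (by positivity)

theorem wellTop_le (q : ℝ) : wellTop q ≤ q ^ 2 / 32 := by
  unfold wellTop
  nlinarith [cutTop_le, sq_nonneg q]

theorem wellTop_ge (q : ℝ) : q ^ 2 / 128 ≤ wellTop q := by
  unfold wellTop
  nlinarith [cutTop_ge, sq_nonneg q]

theorem well_le_sq (c : W) {q : ℝ} (hq : 0 < q) (y : W) : well c q y ≤ ‖y - c‖ ^ 2 / 2 := by
  unfold well
  calc q ^ 2 / 2 * cut (‖y - c‖ ^ 2 / q ^ 2) ≤ q ^ 2 / 2 * (‖y - c‖ ^ 2 / q ^ 2) :=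
        mul_le_mul_of_nonneg_left (cut_le_id (by positivity)) (by positivity)
    _ = ‖y - c‖ ^ 2 / 2 := by field_simp

/-- `|∇F|² ≤ 2F`. -/
theorem wellG_sq_le (c : W) {q : ℝ} (hq : 0 < q) (y : W) :
    ‖wellG c q y‖ ^ 2 ≤ 2 * well c q y := by
  unfold wellG well
  rw [norm_smul, mul_pow, Real.norm_eq_abs, sq_abs]
  set t := ‖y - c‖ ^ 2 / q ^ 2 with ht
  have h1 : ‖y - c‖ ^ 2 = q ^ 2 * t := by rw [ht]; field_simp
  have h2 := mul_eta_le_cut (t := t) (by positivity)
  have h3 := eta_le_one t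
  have h4 := eta_nonneg t
  have h5 : 0 ≤ t := by positivity
  have h6 : eta t ^ 2 * t ≤ cut t := by
    calc eta t ^ 2 * t = eta t * (t * eta t) := by ring
      _ ≤ 1 * (t * eta t) := mul_le_mul_of_nonneg_right h3 (by positivity)
      _ ≤ cut t := by rw [one_mul]; exact h2
  rw [h1]
  calc eta t ^ 2 * (q ^ 2 * t) = q ^ 2 * (eta t ^ 2 * t) := by ring
    _ ≤ q ^ 2 * cut t := mul_le_mul_of_nonneg_left h6 (by positivity)
    _ = 2 * (q ^ 2 / 2 * cut t) := by ring

/-- `D²F ≤ 1`. -/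
theorem wellH_le (c : W) {q : ℝ} (hq : 0 < q) (y v : W) :
    ⟪wellH c q y v, v⟫_ℝ ≤ eta (‖y - c‖ ^ 2 / q ^ 2) * ‖v‖ ^ 2 := by
  rw [wellH_inner, real_inner_self_eq_norm_sq]
  have h1 := deriv_eta_nonpos (‖y - c‖ ^ 2 / q ^ 2)
  have h2 : 2 * deriv eta (‖y - c‖ ^ 2 / q ^ 2) / q ^ 2 * (⟪y - c, v⟫_ℝ * ⟪y - c, v⟫_ℝ) ≤ 0 := by
    refine mul_nonpos_of_nonpos_of_nonneg ?_ (mul_self_nonneg _)
    exact div_nonpos_of_nonpos_of_nonneg (by linarith) (by positivity)
  linarith

theorem wellH_le_sq (c : W) {q : ℝ} (hq : 0 < q) (y v : W) :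
    ⟪wellH c q y v, v⟫_ℝ ≤ ‖v‖ ^ 2 := by
  refine (wellH_le c hq y v).trans ?_
  exact mul_le_of_le_one_left (by positivity) (eta_le_one _)


theorem well_eq_sq {c : W} {q : ℝ} (hq : 0 < q) {y : W} (hy : ‖y - c‖ ≤ q / 8) :
    well c q y = ‖y - c‖ ^ 2 / 2 := by
  have h : ‖y - c‖ ^ 2 / q ^ 2 ≤ 1 / 64 := by
    rw [div_le_iff₀ (by positivity)]
    nlinarith [norm_nonneg (y - c)]
  unfold well
  rw [cut_eq_id h]
  field_simp

theorem wellG_eq {c : W} {q : ℝ} (hq : 0 < q) {y : W} (hy : ‖y - c‖ ≤ q / 8) :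
    wellG c q y = y - c := by
  have h : ‖y - c‖ ^ 2 / q ^ 2 ≤ 1 / 64 := by
    rw [div_le_iff₀ (by positivity)]
    nlinarith [norm_nonneg (y - c)]
  unfold wellG
  rw [eta_eq_one h, one_smul]

theorem wellH_eq {c : W} {q : ℝ} (hq : 0 < q) {y : W} (hy : ‖y - c‖ ≤ q / 8) :
    wellH c q y = ContinuousLinearMap.id ℝ W := by
  have h : ‖y - c‖ ^ 2 / q ^ 2 ≤ 1 / 64 := by
    rw [div_le_iff₀ (by positivity)]
    nlinarith [norm_nonneg (y - c)]
  unfold wellH
  rw [eta_eq_one h, deriv_eta_eq_zero_of_le h]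
  ext v; simp

theorem well_eq_top {c : W} {q : ℝ} (hq : 0 < q) {y : W} (hy : q / 4 ≤ ‖y - c‖) :
    well c q y = wellTop q := by
  have h : 1 / 16 ≤ ‖y - c‖ ^ 2 / q ^ 2 := by
    rw [le_div_iff₀ (by positivity)]
    nlinarith [norm_nonneg (y - c)]
  unfold well wellTop
  rw [cut_eq_top h]

theorem wellG_eq_zero {c : W} {q : ℝ} (hq : 0 < q) {y : W} (hy : q / 4 ≤ ‖y - c‖) :
    wellG c q y = 0 := by
  have h : 1 / 16 ≤ ‖y - c‖ ^ 2 / q ^ 2 := by
    rw [le_div_iff₀ (by positivity)]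
    nlinarith [norm_nonneg (y - c)]
  unfold wellG
  rw [eta_eq_zero h, zero_smul]

theorem wellH_eq_zero {c : W} {q : ℝ} (hq : 0 < q) {y : W} (hy : q / 4 ≤ ‖y - c‖) :
    wellH c q y = 0 := by
  have h : 1 / 16 ≤ ‖y - c‖ ^ 2 / q ^ 2 := by
    rw [le_div_iff₀ (by positivity)]
    nlinarith [norm_nonneg (y - c)]
  unfold wellH
  rw [eta_eq_zero h, deriv_eta_eq_zero_of_ge h]
  ext v; simp


/-- lower bound of the bump `top - well` near the centre. -/
theorem top_sub_well_ge {c : W} {q : ℝ} (hq : 0 < q) {y : W} (hy : ‖y - c‖ ≤ q / 16) :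
    q ^ 2 * (3 / 512) ≤ wellTop q - well c q y := by
  rw [well_eq_sq hq (by linarith)]
  have := wellTop_ge q
  have h2 : ‖y - c‖ ^ 2 ≤ (q / 16) ^ 2 := by gcongr
  nlinarith


/-! ### several wells -/

/-- the wells with centres `C` and gap `q`. -/
def wells (C : Finset W) (q : ℝ) (y : W) : ℝ := wellTop q - ∑ c ∈ C, (wellTop q - well c q y)

/-- its gradient. -/
def wellsG (C : Finset W) (q : ℝ) (y : W) : W := ∑ c ∈ C, wellG c q y

/-- its Hessian. -/
def wellsH (C : Finset W) (q : ℝ) (y : W) : W →L[ℝ] W := ∑ c ∈ C, wellH c q y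

theorem wells_contDiff (C : Finset W) (q : ℝ) : ContDiff ℝ ∞ (wells C q) := by
  unfold wells
  exact contDiff_const.sub (ContDiff.sum fun c _ => contDiff_const.sub (well_contDiff c q))

theorem wellsG_contDiff (C : Finset W) (q : ℝ) : ContDiff ℝ ∞ (wellsG C q) := by
  unfold wellsG
  exact ContDiff.sum fun c _ => wellG_contDiff c q

theorem wells_hasFDerivAt (C : Finset W) {q : ℝ} (hq : 0 < q) (y : W) :
    HasFDerivAt (wells C q) (innerSL ℝ (wellsG C q y)) y := by
  have h : HasFDerivAt (fun y => ∑ c ∈ C, (wellTop q - well c q y))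
      (∑ c ∈ C, (-innerSL ℝ (wellG c q y))) y :=
    HasFDerivAt.fun_sum fun c _ => (well_hasFDerivAt c hq y).const_sub _
  have h2 := h.const_sub (wellTop q)
  have e : innerSL ℝ (wellsG C q y) = -∑ c ∈ C, (-innerSL ℝ (wellG c q y)) := by
    rw [Finset.sum_neg_distrib, neg_neg, wellsG, map_sum]
  rw [e]
  exact h2

theorem wellsG_hasFDerivAt (C : Finset W) (q : ℝ) (y : W) :
    HasFDerivAt (wellsG C q) (wellsH C q y) y :=
  HasFDerivAt.fun_sum fun c _ => wellG_hasFDerivAt c q y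

theorem wellsH_symm (C : Finset W) (q : ℝ) (y v w : W) :
    ⟪wellsH C q y v, w⟫_ℝ = ⟪v, wellsH C q y w⟫_ℝ := by
  unfold wellsH
  rw [sum_apply, sum_apply, sum_inner, inner_sum]
  exact Finset.sum_congr rfl fun c _ => wellH_symm c q y v w

/-- separated set of centres. -/
def Sep (C : Finset W) (q : ℝ) : Prop := ∀ c ∈ C, ∀ c' ∈ C, c ≠ c' → q ≤ dist c c'

theorem Sep.far {C : Finset W} {q : ℝ} (hq : 0 < q) (h : Sep C q) {c c' : W} (hc : c ∈ C)
    (hc' : c' ∈ C) (hne : c' ≠ c) {y : W} (hy : ‖y - c‖ ≤ q / 4) : q / 4 ≤ ‖y - c'‖ := by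
  have h1 := h c' hc' c hc hne
  have h2 : dist c' c ≤ ‖y - c'‖ + ‖y - c‖ := by
    rw [dist_eq_norm]
    calc ‖c' - c‖ = ‖(y - c) - (y - c')‖ := by congr 1; abel
      _ ≤ ‖y - c‖ + ‖y - c'‖ := norm_sub_le _ _
      _ = _ := add_comm _ _
  linarith

/-- near one centre only this well is active. -/
theorem wells_near {C : Finset W} {q : ℝ} (hq : 0 < q) (h : Sep C q) {c : W} (hc : c ∈ C)
    {y : W} (hy : ‖y - c‖ ≤ q / 4) :
    wells C q y = well c q y ∧ wellsG C q y = wellG c q y ∧ wellsH C q y = wellH c q y := by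
  refine ⟨?_, ?_, ?_⟩
  · unfold wells
    rw [Finset.sum_eq_single_of_mem c hc]
    · ring
    · intro c' hc' hne
      rw [well_eq_top hq (h.far hq hc hc' hne hy), sub_self]
  · unfold wellsG
    rw [Finset.sum_eq_single_of_mem c hc]
    intro c' hc' hne
    exact wellG_eq_zero hq (h.far hq hc hc' hne hy)
  · unfold wellsH
    rw [Finset.sum_eq_single_of_mem c hc]
    intro c' hc' hne
    exact wellH_eq_zero hq (h.far hq hc hc' hne hy)

/-- far from all centres. -/
theorem wells_far {C : Finset W} {q : ℝ} (hq : 0 < q) {y : W}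
    (hy : ∀ c ∈ C, q / 4 ≤ ‖y - c‖) :
    wells C q y = wellTop q ∧ wellsG C q y = 0 ∧ wellsH C q y = 0 := by
  refine ⟨?_, ?_, ?_⟩
  · unfold wells
    rw [Finset.sum_eq_zero, sub_zero]
    intro c hc
    rw [well_eq_top hq (hy c hc), sub_self]
  · exact Finset.sum_eq_zero fun c hc => wellG_eq_zero hq (hy c hc)
  · exact Finset.sum_eq_zero fun c hc => wellH_eq_zero hq (hy c hc)

theorem wells_cases {C : Finset W} {q : ℝ} (hq : 0 < q) (h : Sep C q) (y : W) :
    (∃ c ∈ C, ‖y - c‖ ≤ q / 4 ∧ wells C q y = well c q y ∧ wellsG C q y = wellG c q y ∧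
      wellsH C q y = wellH c q y) ∨
    ((∀ c ∈ C, q / 4 ≤ ‖y - c‖) ∧ wells C q y = wellTop q ∧ wellsG C q y = 0 ∧
      wellsH C q y = 0) := by
  by_cases hy : ∀ c ∈ C, q / 4 ≤ ‖y - c‖
  · exact Or.inr ⟨hy, wells_far hq hy⟩
  · push Not at hy
    obtain ⟨c, hc, hlt⟩ := hy
    exact Or.inl ⟨c, hc, hlt.le, wells_near hq h hc hlt.le⟩

theorem wellTop_nonneg (q : ℝ) : 0 ≤ wellTop q := by
  have := wellTop_ge q
  have h2 := sq_nonneg q
  linarith

theorem wells_nonneg {C : Finset W} {q : ℝ} (hq : 0 < q) (h : Sep C q) (y : W) :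
    0 ≤ wells C q y := by
  rcases wells_cases hq h y with ⟨c, -, -, h1, -⟩ | ⟨-, h1, -⟩
  · rw [h1]; exact well_nonneg c q y
  · rw [h1]; exact wellTop_nonneg q

theorem wells_le_top {C : Finset W} {q : ℝ} (y : W) : wells C q y ≤ wellTop q := by
  unfold wells
  have : 0 ≤ ∑ c ∈ C, (wellTop q - well c q y) :=
    Finset.sum_nonneg fun c _ => sub_nonneg.2 (well_le_top c q y)
  linarith

theorem wells_le {C : Finset W} {q : ℝ} (y : W) {c : W} (hc : c ∈ C) :
    wells C q y ≤ well c q y := by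
  unfold wells
  have : wellTop q - well c q y ≤ ∑ c ∈ C, (wellTop q - well c q y) :=
    Finset.single_le_sum (f := fun c => wellTop q - well c q y)
      (fun c _ => sub_nonneg.2 (well_le_top c q y)) hc
  linarith

theorem wells_le_sq {C : Finset W} {q : ℝ} (hq : 0 < q) (y : W) {c : W} (hc : c ∈ C) :
    wells C q y ≤ ‖y - c‖ ^ 2 / 2 :=
  (wells_le y hc).trans (well_le_sq c hq y)

theorem wellsG_sq_le {C : Finset W} {q : ℝ} (hq : 0 < q) (h : Sep C q) (y : W) :
    ‖wellsG C q y‖ ^ 2 ≤ 2 * wells C q y := by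
  rcases wells_cases hq h y with ⟨c, -, -, h1, h2, -⟩ | ⟨-, h1, h2, -⟩
  · rw [h1, h2]; exact wellG_sq_le c hq y
  · rw [h1, h2, norm_zero]
    have := wellTop_nonneg q
    nlinarith

theorem wellsH_le_sq {C : Finset W} {q : ℝ} (hq : 0 < q) (h : Sep C q) (y v : W) :
    ⟪wellsH C q y v, v⟫_ℝ ≤ ‖v‖ ^ 2 := by
  rcases wells_cases hq h y with ⟨c, -, -, -, -, h1⟩ | ⟨-, -, -, h1⟩
  · rw [h1]; exact wellH_le_sq c hq y v
  · rw [h1]; simp


/-- on the balls of radius `q/8` the function is `|y-c|²/2`. -/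
theorem wells_eq_sq {C : Finset W} {q : ℝ} (hq : 0 < q) (h : Sep C q) {c : W} (hc : c ∈ C)
    {y : W} (hy : ‖y - c‖ ≤ q / 8) :
    wells C q y = ‖y - c‖ ^ 2 / 2 ∧ wellsG C q y = y - c ∧
      wellsH C q y = ContinuousLinearMap.id ℝ W := by
  obtain ⟨h1, h2, h3⟩ := wells_near hq h hc (y := y) (by linarith)
  rw [h1, h2, h3]
  exact ⟨well_eq_sq hq hy, wellG_eq hq hy, wellH_eq hq hy⟩



end Crest.Agent.R234.Well_761
end
end

-- ▼ part R234/Well2_761
section

/-!
Row 234, VF-WELL (helper761), file 2: the metric lemma of the wells (pure combinatorics).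
`P 0, …, P N` are finite nonempty subsets of a metric space whose separated subsets have at most
`N` points; every point of `P (i+1)` is `δ (i+1)`-close to `P i`; `r i + 2 δ (i+1) ≤ r (i+1)`.
Then for some `i < N` the set `P i` contains `C` with: every point of `P i` is `r i`-close to `C`
and the points of `C` are `r (i+1) - 2 δ (i+1)`-separated.
-/

set_option autoImplicit false

open Set

namespace Crest.Agent.R234.Well_761

variable {X : Type*} [PseudoMetricSpace X]

/-- separated finite set. -/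
def SepD (C : Finset X) (q : ℝ) : Prop := ∀ c ∈ C, ∀ c' ∈ C, c ≠ c' → q ≤ dist c c'

/-- there is a separated subset of cardinality `n`. -/
def HasSep (P : Set X) (r : ℝ) (n : ℕ) : Prop :=
  ∃ C : Finset X, (C : Set X) ⊆ P ∧ C.card = n ∧ SepD C r

theorem SepD.mono {C : Finset X} {q q' : ℝ} (h : SepD C q) (hq : q' ≤ q) : SepD C q' :=
  fun c hc c' hc' hne => hq.trans (h c hc c' hc' hne)

theorem HasSep.mono {P : Set X} {r r' : ℝ} {n : ℕ} (h : HasSep P r n) (hr : r' ≤ r) :
    HasSep P r' n := by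
  obtain ⟨C, h1, h2, h3⟩ := h
  exact ⟨C, h1, h2, h3.mono hr⟩

/-- transport of separated sets. -/
theorem HasSep.transport {P P' : Set X} {r δ : ℝ} {n : ℕ} (h : HasSep P' r n)
    (hr : 0 < r - 2 * δ) (hc : ∀ p' ∈ P', ∃ p ∈ P, dist p p' ≤ δ) :
    HasSep P (r - 2 * δ) n := by
  classical
  obtain ⟨C, h1, h2, h3⟩ := h
  have hf : ∀ c : X, ∃ p : X, c ∈ C → p ∈ P ∧ dist p c ≤ δ := by
    intro c
    by_cases hcC : c ∈ C
    · obtain ⟨p, hp, hd⟩ := hc c (h1 hcC)
      exact ⟨p, fun _ => ⟨hp, hd⟩⟩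
    · exact ⟨c, fun h => absurd h hcC⟩
  choose f hf using hf
  have hd : ∀ c ∈ C, ∀ c' ∈ C, c ≠ c' → r - 2 * δ ≤ dist (f c) (f c') := by
    intro c hcC c' hc'C hne
    have e1 := h3 c hcC c' hc'C hne
    have e2 := (hf c hcC).2
    have e3 := (hf c' hc'C).2
    have e4 : dist c c' ≤ dist c (f c) + dist (f c) (f c') + dist (f c') c' :=
      dist_triangle4 _ _ _ _
    rw [dist_comm c (f c)] at e4
    linarith
  have hinj : Set.InjOn f C := by
    intro c hcC c' hc'C heq
    by_contra hne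
    have := hd c hcC c' hc'C hne
    rw [heq, dist_self] at this
    linarith
  refine ⟨C.image f, ?_, ?_, ?_⟩
  · intro x hx
    rw [Finset.coe_image] at hx
    obtain ⟨c, hcC, rfl⟩ := hx
    exact (hf c hcC).1
  · rw [Finset.card_image_of_injOn hinj, h2]
  · intro x hx y hy hne
    rw [Finset.mem_image] at hx hy
    obtain ⟨c, hcC, rfl⟩ := hx
    obtain ⟨c', hc'C, rfl⟩ := hy
    exact hd c hcC c' hc'C fun h => hne (by rw [h])

open Classical in
/-- the separation number, at most `N` by convention. -/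
noncomputable def sepN (P : Set X) (N : ℕ) (r : ℝ) : ℕ :=
  Nat.findGreatest (fun n => HasSep P r n) N

theorem sepN_le (P : Set X) (N : ℕ) (r : ℝ) : sepN P N r ≤ N := by
  classical
  unfold sepN
  exact Nat.findGreatest_le N

theorem hasSep_zero (P : Set X) (r : ℝ) : HasSep P r 0 :=
  ⟨∅, by simp, rfl, fun c hc => by simp at hc⟩

theorem hasSep_sepN (P : Set X) (N : ℕ) (r : ℝ) : HasSep P r (sepN P N r) := by
  classical
  unfold sepN
  exact Nat.findGreatest_spec (P := fun n => HasSep P r n) (m := 0) (Nat.zero_le _)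
    (hasSep_zero P r)

theorem le_sepN {P : Set X} {N : ℕ} {r : ℝ} {n : ℕ} (h : HasSep P r n) (hn : n ≤ N) :
    n ≤ sepN P N r := by
  classical
  unfold sepN
  exact Nat.le_findGreatest hn h

theorem sepN_pos {P : Set X} {N : ℕ} {r : ℝ} (hP : P.Nonempty) (hN : 1 ≤ N) :
    1 ≤ sepN P N r := by
  obtain ⟨p, hp⟩ := hP
  refine le_sepN ⟨{p}, by simpa using hp, by simp, ?_⟩ hN
  intro c hc c' hc' hne
  simp only [Finset.mem_singleton] at hc hc'
  exact absurd (hc.trans hc'.symm) hne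

/-- **metric lemma**. -/
theorem exists_run {N : ℕ} (P : ℕ → Set X) (r δ : ℕ → ℝ)
    (hne : ∀ i ≤ N, (P i).Nonempty) (hN : 1 ≤ N) (hr0 : 0 < r 0)
    (hcard : ∀ i ≤ N, ∀ n, HasSep (P i) (r i) n → n ≤ N)
    (hδ : ∀ i < N, ∀ p' ∈ P (i + 1), ∃ p ∈ P i, dist p p' ≤ δ (i + 1))
    (hr : ∀ i < N, r i + 2 * δ (i + 1) ≤ r (i + 1)) :
    ∃ i < N, ∃ C : Finset X, (C : Set X) ⊆ P i ∧ C.Nonempty ∧ C.card ≤ N ∧
      (∀ p ∈ P i, ∃ c ∈ C, dist p c < r i) ∧ SepD C (r (i + 1) - 2 * δ (i + 1)) := by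
  classical
  have hrpos : ∀ i ≤ N, 0 < r i := by
    intro i
    induction i with
    | zero => intro _; exact hr0
    | succ i ih =>
      intro hi
      have h1 := ih (by omega)
      have h2 := hr i (by omega)
      obtain ⟨p', hp'⟩ := hne (i + 1) hi
      obtain ⟨p, -, hd⟩ := hδ i (by omega) p' hp'
      have : 0 ≤ δ (i + 1) := dist_nonneg.trans hd
      linarith
  -- the separation numbers
  set n : ℕ → ℕ := fun i => sepN (P i) N (r i) with hn
  have h1 : ∀ i ≤ N, 1 ≤ n i := fun i hi => sepN_pos (hne i hi) hN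
  have h2 : ∀ i, n i ≤ N := fun i => sepN_le _ _ _
  -- some step does not decrease
  have h3 : ∃ i < N, n i ≤ n (i + 1) := by
    by_contra hcon
    push Not at hcon
    have h4 : ∀ i ≤ N, n i + i ≤ N := by
      intro i
      induction i with
      | zero => intro _; simpa using h2 0
      | succ i ih =>
        intro hi
        have e1 := ih (by omega)
        have e2 := hcon i (by omega)
        omega
    have h5 := h4 N le_rfl
    have h6 := h1 N le_rfl
    omega
  obtain ⟨i, hi, hle⟩ := h3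
  have hpos : 0 < r (i + 1) - 2 * δ (i + 1) := by
    have := hr i hi
    have := hrpos i hi.le
    linarith
  obtain ⟨C, hC1, hC2, hC3⟩ := (hasSep_sepN (P (i + 1)) N (r (i + 1))).transport hpos (hδ i hi)
  have hC4 : SepD C (r i) := hC3.mono (by linarith [hr i hi])
  have hC5 : n i ≤ C.card := by rw [hC2]; exact hle
  refine ⟨i, hi, C, hC1, ?_, ?_, ?_, hC3⟩
  · rw [← Finset.card_pos, hC2]
    exact h1 (i + 1) hi
  · rw [hC2]; exact h2 (i + 1)
  · intro p hp
    by_contra hcon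
    push Not at hcon
    have hpC : p ∉ C := by
      intro h
      have := hcon p h
      rw [dist_self] at this
      linarith [hrpos i hi.le]
    have h7 : HasSep (P i) (r i) (C.card + 1) := by
      refine ⟨insert p C, ?_, Finset.card_insert_of_notMem hpC, ?_⟩
      · rw [Finset.coe_insert]
        exact Set.insert_subset hp hC1
      · intro c hc c' hc' hne'
        rw [Finset.mem_insert] at hc hc'
        rcases hc with rfl | hc <;> rcases hc' with rfl | hc'
        · exact absurd rfl hne'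
        · exact hcon c' hc'
        · rw [dist_comm]; exact hcon c hc
        · exact hC4 c hc c' hc' hne'
    have h8 := le_sepN h7 (hcard i hi.le _ h7)
    have h9 : sepN (P i) N (r i) = n i := rfl
    rw [h9] at h8
    omega

end Crest.Agent.R234.Well_761
end

-- ▼ part R234/Well3_761

/-!
Row 234, VF-WELL (helper761), file 3: the flow of heights, abstract form.
`mu`, `en` are measures on `H × W` (base × heights): mass and tilt energy.
`nu m κ mu x l F = e^{-ml} ∫ κ(|x'-x| e^{-l}) F(y) dmu(x',y)`.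
-/

set_option autoImplicit false
set_option linter.unusedSectionVars false

open Set Filter Topology MeasureTheory Metric
open scoped ContDiff InnerProductSpace ENNReal

noncomputable section

namespace Crest.Agent.R234.Well_761

variable {H : Type*} [PseudoMetricSpace H] [MeasurableSpace H] [OpensMeasurableSpace H]
variable {W : Type*} [NormedAddCommGroup W] [InnerProductSpace ℝ W] [MeasurableSpace W]
  [OpensMeasurableSpace W]

/-- the cylinder over a closed ball with heights in `S`. -/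
def cyl (x : H) (s : ℝ) (S : Set W) : Set (H × W) := closedBall x s ×ˢ S

/-- the averaged height functional. -/
def nu (m : ℕ) (κ : ℝ → ℝ) (mu : Measure (H × W)) (x : H) (l : ℝ) (F : W → ℝ) : ℝ :=
  Real.exp (-(m * l)) * ∫ z, κ (dist z.1 x * Real.exp (-l)) * F z.2 ∂mu

/-- admissible kernels. -/
structure Ker (κ : ℝ → ℝ) (Kκ cκ : ℝ) : Prop where
  meas : Measurable κ
  nonneg : ∀ t, 0 ≤ κ t
  le : ∀ t, κ t ≤ Kκ
  zero : ∀ t, 1 ≤ t → κ t = 0
  ge : ∀ t, 0 ≤ t → t ≤ 1 / 2 → cκ ≤ κ t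
  cpos : 0 < cκ

variable {m : ℕ} {κ : ℝ → ℝ} {Kκ cκ : ℝ} {mu en : Measure (H × W)}

theorem Ker.Kpos (hκ : Ker κ Kκ cκ) : 0 < Kκ :=
  hκ.cpos.trans_le ((hκ.ge 0 le_rfl (by norm_num)).trans (hκ.le 0))

theorem cyl_meas (x : H) (s : ℝ) {S : Set W} (hS : MeasurableSet S) :
    MeasurableSet (cyl x s S) := measurableSet_closedBall.prod hS

/-- the kernel vanishes off the cylinder. -/
theorem ker_zero (hκ : Ker κ Kκ cκ) {x : H} {l : ℝ} {z : H × W}
    (hz : z ∉ cyl x (Real.exp l) (univ : Set W)) : κ (dist z.1 x * Real.exp (-l)) = 0 := by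
  have h : Real.exp l < dist z.1 x := by
    by_contra hcon
    push Not at hcon
    exact hz ⟨mem_closedBall.2 hcon, trivial⟩
  refine hκ.zero _ ?_
  rw [Real.exp_neg, ← div_eq_mul_inv, le_div_iff₀ (Real.exp_pos l), one_mul]
  exact h.le

theorem kerF_meas (hκ : Ker κ Kκ cκ) (x : H) (l : ℝ) {F : W → ℝ} (hF : Measurable F) :
    Measurable fun z : H × W => κ (dist z.1 x * Real.exp (-l)) * F z.2 := by
  have h1 : Measurable fun z : H × W => dist z.1 x :=
    (measurable_dist_const x).comp measurable_fst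
  exact (hκ.meas.comp (h1.mul_const _)).mul (hF.comp measurable_snd)
where
  measurable_dist_const (x : H) : Measurable fun y : H => dist y x :=
    (continuous_id.dist continuous_const).measurable

theorem kerF_integrable (hκ : Ker κ Kκ cκ) {x : H} {l : ℝ} {F : W → ℝ} (hF : Measurable F)
    {M : ℝ} (hM : ∀ y, |F y| ≤ M) (hfin : mu (cyl x (Real.exp l) univ) ≠ ⊤) :
    Integrable (fun z : H × W => κ (dist z.1 x * Real.exp (-l)) * F z.2) mu := by
  have h1 : IntegrableOn (fun z : H × W => κ (dist z.1 x * Real.exp (-l)) * F z.2)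
      (cyl x (Real.exp l) univ) mu := by
    refine IntegrableOn.of_bound (lt_top_iff_ne_top.2 hfin)
      (kerF_meas hκ x l hF).aestronglyMeasurable (Kκ * M) (ae_of_all _ fun z => ?_)
    rw [Real.norm_eq_abs, abs_mul, abs_of_nonneg (hκ.nonneg _)]
    exact mul_le_mul (hκ.le _) (hM _) (abs_nonneg _) hκ.Kpos.le
  refine (integrableOn_iff_integrable_of_support_subset ?_).1 h1
  intro z hz
  by_contra hcon
  apply hz
  simp only
  rw [ker_zero hκ hcon, zero_mul]

theorem nu_neg (x : H) (l : ℝ) (F : W → ℝ) :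
    nu m κ mu x l (fun y => -F y) = -nu m κ mu x l F := by
  unfold nu
  simp only [mul_neg, integral_neg]

theorem nu_nonneg (hκ : Ker κ Kκ cκ) (x : H) (l : ℝ) {F : W → ℝ} (hF : ∀ y, 0 ≤ F y) :
    0 ≤ nu m κ mu x l F := by
  unfold nu
  exact mul_nonneg (Real.exp_pos _).le
    (integral_nonneg fun z => mul_nonneg (hκ.nonneg _) (hF _))

/-- change of the centre. -/
theorem nu_centre (hκ : Ker κ Kκ cκ) {x x' : H} {l l' : ℝ} {F : W → ℝ} (hFm : Measurable F)
    (hF : ∀ y, 0 ≤ F y) {M : ℝ} (hM : ∀ y, F y ≤ M)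
    (hfin : mu (cyl x' (Real.exp l') univ) ≠ ⊤)
    (hsub : Real.exp l + dist x x' ≤ Real.exp l' / 2) :
    nu m κ mu x l F ≤ Kκ / cκ * Real.exp (m * (l' - l)) * nu m κ mu x' l' F := by
  have hM' : ∀ y, |F y| ≤ M := fun y => by rw [abs_of_nonneg (hF y)]; exact hM y
  have hfin2 : mu (cyl x (Real.exp l) univ) ≠ ⊤ := by
    refine ne_top_of_le_ne_top hfin (measure_mono ?_)
    refine prod_mono (closedBall_subset_closedBall' ?_) le_rfl
    have := Real.exp_pos l'
    linarith
  have key : ∫ z, κ (dist z.1 x * Real.exp (-l)) * F z.2 ∂mu ≤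
      Kκ / cκ * ∫ z, κ (dist z.1 x' * Real.exp (-l')) * F z.2 ∂mu := by
    rw [← integral_const_mul]
    refine integral_mono (kerF_integrable hκ hFm hM' hfin2)
      ((kerF_integrable hκ hFm hM' hfin).const_mul _) fun z => ?_
    simp only
    by_cases hz : z ∈ cyl x (Real.exp l) (univ : Set W)
    · have h1 : dist z.1 x' * Real.exp (-l') ≤ 1 / 2 := by
        have h2 : dist z.1 x ≤ Real.exp l := mem_closedBall.1 hz.1
        have h3 : dist z.1 x' ≤ dist z.1 x + dist x x' := dist_triangle _ _ _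
        rw [Real.exp_neg, ← div_eq_mul_inv, div_le_iff₀ (Real.exp_pos l')]
        linarith
      have h4 := hκ.ge _ (mul_nonneg dist_nonneg (Real.exp_pos _).le) h1
      have h5 : κ (dist z.1 x * Real.exp (-l)) ≤
          Kκ / cκ * κ (dist z.1 x' * Real.exp (-l')) := by
        calc κ (dist z.1 x * Real.exp (-l)) ≤ Kκ := hκ.le _
          _ = Kκ / cκ * cκ := by field_simp [hκ.cpos.ne']
          _ ≤ _ := mul_le_mul_of_nonneg_left h4 (div_nonneg hκ.Kpos.le hκ.cpos.le)
      calc κ (dist z.1 x * Real.exp (-l)) * F z.2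
          ≤ Kκ / cκ * κ (dist z.1 x' * Real.exp (-l')) * F z.2 :=
            mul_le_mul_of_nonneg_right h5 (hF _)
        _ = _ := by ring
    · rw [ker_zero hκ hz, zero_mul]
      exact mul_nonneg (div_nonneg hκ.Kpos.le hκ.cpos.le)
        (mul_nonneg (hκ.nonneg _) (hF _))
  unfold nu
  have e1 : Real.exp (-(m * l)) = Real.exp (m * (l' - l)) * Real.exp (-(m * l')) := by
    rw [← Real.exp_add]; congr 1; ring
  rw [e1]
  calc Real.exp (m * (l' - l)) * Real.exp (-(m * l')) *
        ∫ z, κ (dist z.1 x * Real.exp (-l)) * F z.2 ∂mu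
      ≤ Real.exp (m * (l' - l)) * Real.exp (-(m * l')) *
        (Kκ / cκ * ∫ z, κ (dist z.1 x' * Real.exp (-l')) * F z.2 ∂mu) :=
        mul_le_mul_of_nonneg_left key (by positivity)
    _ = _ := by ring

/-- the heights of `T` over a ball. -/
def Ht (T : Set (H × W)) (x : H) (D : ℝ) : Set W := {y | ∃ x' : H, (x', y) ∈ T ∧ dist x' x ≤ D}

/-- upper bound of the functional by the mass. -/
theorem nu_le (hκ : Ker κ Kκ cκ) {T : Set (H × W)} (hT : mu Tᶜ = 0) {x : H} {l : ℝ}
    {F : W → ℝ} (hFm : Measurable F) {M : ℝ} (hM : ∀ y, |F y| ≤ M) {a : ℝ} (ha : 0 ≤ a)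
    (hF : ∀ y ∈ Ht T x (Real.exp l), F y ≤ a) {Cμ : ℝ} (hC0 : 0 ≤ Cμ)
    (hmass : mu (cyl x (Real.exp l) univ) ≤ ENNReal.ofReal (Cμ * Real.exp (m * l))) :
    nu m κ mu x l F ≤ a * Kκ * Cμ := by
  have hfin : mu (cyl x (Real.exp l) univ) ≠ ⊤ :=
    ne_top_of_le_ne_top ENNReal.ofReal_ne_top hmass
  have hTae : ∀ᵐ z ∂mu, z ∈ T := by
    rw [ae_iff]; exact hT
  have h1 : ∫ z, κ (dist z.1 x * Real.exp (-l)) * F z.2 ∂mu ≤
      ∫ z in cyl x (Real.exp l) (univ : Set W), (Kκ * a) ∂mu := by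
    rw [← integral_indicator (cyl_meas x _ MeasurableSet.univ)]
    refine integral_mono_ae (kerF_integrable hκ hFm hM hfin) ?_ ?_
    · have h0 : IntegrableOn (fun _ : H × W => Kκ * a) (cyl x (Real.exp l) univ) mu :=
        integrableOn_const hfin
      exact h0.integrable_indicator (cyl_meas x _ MeasurableSet.univ)
    · filter_upwards [hTae] with z hz
      by_cases hzc : z ∈ cyl x (Real.exp l) (univ : Set W)
      · rw [indicator_of_mem hzc]
        have h2 : F z.2 ≤ a := hF _ ⟨z.1, hz, mem_closedBall.1 hzc.1⟩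
        calc κ (dist z.1 x * Real.exp (-l)) * F z.2
            ≤ κ (dist z.1 x * Real.exp (-l)) * a := mul_le_mul_of_nonneg_left h2 (hκ.nonneg _)
          _ ≤ Kκ * a := mul_le_mul_of_nonneg_right (hκ.le _) ha
      · rw [indicator_of_notMem hzc, ker_zero hκ hzc, zero_mul]
  have h2 : ∫ z in cyl x (Real.exp l) (univ : Set W), (Kκ * a) ∂mu ≤
      Cμ * Real.exp (m * l) * (Kκ * a) := by
    rw [setIntegral_const, smul_eq_mul]
    refine mul_le_mul_of_nonneg_right ?_ (mul_nonneg hκ.Kpos.le ha)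
    exact ENNReal.toReal_le_of_le_ofReal (by positivity) hmass
  unfold nu
  calc Real.exp (-(m * l)) * ∫ z, κ (dist z.1 x * Real.exp (-l)) * F z.2 ∂mu
      ≤ Real.exp (-(m * l)) * (Cμ * Real.exp (m * l) * (Kκ * a)) :=
        mul_le_mul_of_nonneg_left (h1.trans h2) (Real.exp_pos _).le
    _ = (Real.exp (-(m * l)) * Real.exp (m * l)) * (a * Kκ * Cμ) := by ring
    _ = a * Kκ * Cμ := by rw [← Real.exp_add]; simp

/-- lower bound of the functional at a point of the support. -/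
theorem nu_ge (hκ : Ker κ Kκ cκ) {x x' : H} {p : W} {l : ℝ} {F : W → ℝ} (hFm : Measurable F)
    {M : ℝ} (hM : ∀ y, |F y| ≤ M) (hF0 : ∀ y, 0 ≤ F y) {b : ℝ} (hb : 0 ≤ b)
    (hF : ∀ y ∈ closedBall p (Real.exp l / 4), b ≤ F y)
    (hx : dist x' x ≤ Real.exp l / 4) {c0 : ℝ} (hc0 : 0 ≤ c0)
    (hfin : mu (cyl x (Real.exp l) univ) ≠ ⊤)
    (hmass : ENNReal.ofReal (c0 * (Real.exp l / 4) ^ m) ≤
      mu (cyl x' (Real.exp l / 4) (closedBall p (Real.exp l / 4)))) :
    b * cκ * (c0 / 4 ^ m) ≤ nu m κ mu x l F := by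
  set B := cyl x' (Real.exp l / 4) (closedBall p (Real.exp l / 4)) with hB
  have hBm : MeasurableSet B := cyl_meas _ _ measurableSet_closedBall
  have hsub : B ⊆ cyl x (Real.exp l) univ := by
    rintro z ⟨hz1, hz2⟩
    refine ⟨?_, trivial⟩
    rw [mem_closedBall] at hz1 ⊢
    have := dist_triangle z.1 x' x
    have := Real.exp_pos l
    linarith
  have hfinB : mu B ≠ ⊤ := ne_top_of_le_ne_top hfin (measure_mono hsub)
  have h1 : ∫ _z in B, (cκ * b) ∂mu ≤ ∫ z, κ (dist z.1 x * Real.exp (-l)) * F z.2 ∂mu := by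
    rw [← integral_indicator hBm]
    refine integral_mono ?_ (kerF_integrable hκ hFm hM hfin) fun z => ?_
    · have h0 : IntegrableOn (fun _ : H × W => cκ * b) B mu := integrableOn_const hfinB
      exact h0.integrable_indicator hBm
    · by_cases hz : z ∈ B
      · simp only [indicator_of_mem hz]
        have h2 : dist z.1 x * Real.exp (-l) ≤ 1 / 2 := by
          have h3 : dist z.1 x' ≤ Real.exp l / 4 := mem_closedBall.1 hz.1
          have h4 := dist_triangle z.1 x' x
          rw [Real.exp_neg, ← div_eq_mul_inv, div_le_iff₀ (Real.exp_pos l)]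
          linarith
        have h5 := hκ.ge _ (mul_nonneg dist_nonneg (Real.exp_pos _).le) h2
        exact mul_le_mul h5 (hF _ hz.2) hb (hκ.nonneg _)
      · simp only [indicator_of_notMem hz]
        exact mul_nonneg (hκ.nonneg _) (hF0 _)
  have h2 : c0 * (Real.exp l / 4) ^ m * (cκ * b) ≤ ∫ _z in B, (cκ * b) ∂mu := by
    rw [setIntegral_const, smul_eq_mul]
    refine mul_le_mul_of_nonneg_right ?_ (mul_nonneg hκ.cpos.le hb)
    exact (ENNReal.ofReal_le_iff_le_toReal hfinB).1 hmass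
  unfold nu
  calc b * cκ * (c0 / 4 ^ m) = Real.exp (-(m * l)) * (c0 * (Real.exp l / 4) ^ m * (cκ * b)) := by
        rw [div_pow, ← Real.exp_nat_mul]
        have : Real.exp (-(m * l)) * Real.exp (m * l) = 1 := by
          rw [← Real.exp_add]; simp
        calc b * cκ * (c0 / 4 ^ m) = 1 * (b * cκ * (c0 / 4 ^ m)) := by ring
          _ = Real.exp (-(m * l)) * Real.exp (m * l) * (b * cκ * (c0 / 4 ^ m)) := by rw [this]
          _ = _ := by ring
    _ ≤ _ := mul_le_mul_of_nonneg_left (h2.trans h1) (Real.exp_pos _).le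

/-- if a nonnegative function vanishes on the heights of `T` over the ball, the functional is
zero. -/
theorem nu_eq_zero (hκ : Ker κ Kκ cκ) {T : Set (H × W)} (hT : mu Tᶜ = 0) {x : H} {l : ℝ}
    {F : W → ℝ} (hF : ∀ y ∈ Ht T x (Real.exp l), F y = 0) : nu m κ mu x l F = 0 := by
  have hTae : ∀ᵐ z ∂mu, z ∈ T := by
    rw [ae_iff]; exact hT
  have h1 : ∫ z, κ (dist z.1 x * Real.exp (-l)) * F z.2 ∂mu = 0 := by
    rw [integral_eq_zero_of_ae]
    filter_upwards [hTae] with z hz
    by_cases hzc : z ∈ cyl x (Real.exp l) (univ : Set W)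
    · rw [hF _ ⟨z.1, hz, mem_closedBall.1 hzc.1⟩, mul_zero]; rfl
    · rw [ker_zero hκ hzc, zero_mul]; rfl
  unfold nu
  rw [h1, mul_zero]

end Crest.Agent.R234.Well_761
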