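import Crest.Agent.R234.Cy7_870
import Crest.Agent.R234.Well4_761

-- ▼ part R234/Wi1_870
section

/-!
# Row 234, VF-WELLINST, part 1 (helper870)

(W3) and the vertical identity for general (signed) `C²` functions of the height.
First variation terms are kept (stationarity is not used).
-/

set_option autoImplicit false

open MeasureTheory Set Function Filter Topology
open Crest.GeometryTopology.Submanifold
open Crest.Agent.R234.Vf_884 Crest.Agent.R234.Ar_870 Crest.Agent.R234.Cy_870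
open scoped ENNReal NNReal InnerProductSpace

noncomputable section

namespace Crest.Agent.R234.Wi_870

variable {m n k : ℕ}

/-- `C²` functions of the height: gradient `dF`, Hessian `H` -/
structure C2w (F : Euc n → ℝ) (dF : Euc n → Euc n) (H : Euc n → L n) : Prop where
  hasF : ∀ y, HasFDerivAt F (innerSL ℝ (dF y)) y
  hasdF : ∀ y, HasFDerivAt dF (H y) y
  contH : Continuous H

namespace C2w

variable {F : Euc n → ℝ} {dF : Euc n → Euc n} {H : Euc n → L n}

theorem contF (h : C2w F dF H) : Continuous F :=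
  continuous_iff_continuousAt.2 fun y => (h.hasF y).continuousAt

theorem contdF (h : C2w F dF H) : Continuous dF :=
  continuous_iff_continuousAt.2 fun y => (h.hasdF y).continuousAt

end C2w


variable {π : Euc k →L[ℝ] Euc m} {κ : Euc k →L[ℝ] Euc n} {x : Euc m} {L₀ h₀ : ℝ}
  {V : Measure (Euc k × L k)} {g g1 g2 : ℝ → ℝ}
  {F : Euc n → ℝ} {dF : Euc n → Euc n} {H : Euc n → L n}

theorem aesm_F (hF : C2w F dF H) (κ : Euc k →L[ℝ] Euc n) (V : Measure (Euc k × L k)) :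
    AEStronglyMeasurable (fun p : Euc k × L k => F (κ p.1)) V :=
  (hF.contF.comp (κ.continuous.comp continuous_fst)).aestronglyMeasurable

theorem continuous_cM (hF : C2w F dF H) (π : Euc k →L[ℝ] Euc m) (κ : Euc k →L[ℝ] Euc n)
    (x : Euc m) : Continuous (cM π κ x dF) := by
  unfold cM
  refine (hF.contdF.comp (κ.continuous.comp continuous_fst)).inner ?_
  exact ((continuous_Svh π κ).comp continuous_snd).clm_apply
    ((π.continuous.comp continuous_fst).sub continuous_const)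

theorem cM_bd (h : Fr V π κ x L₀) (hh : Hgt V π κ x L₀ h₀) (hF : C2w F dF H) :
    ∃ C : ℝ, ∀ᵐ p ∂V, ‖π p.1 - x‖ ^ 2 < Real.exp (2 * L₀) → |cM π κ x dF p| ≤ C :=
  exists_bd h hh (c := fun q => ⟪dF q.1, Svh π κ q.2.1 (q.2.2 - x)⟫_ℝ)
    ((hF.contdF.comp continuous_fst).inner
      (((continuous_Svh π κ).comp (continuous_fst.comp continuous_snd)).clm_apply
        ((continuous_snd.comp continuous_snd).sub continuous_const)))

theorem F_bd (h : Fr V π κ x L₀) (hh : Hgt V π κ x L₀ h₀) (hF : C2w F dF H) :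
    ∃ C : ℝ, ∀ᵐ p ∂V, ‖π p.1 - x‖ ^ 2 < Real.exp (2 * L₀) → |F (κ p.1)| ≤ C :=
  exists_bd h hh (c := fun q => F q.1) (hF.contF.comp continuous_fst)

theorem trH_cont (hF : C2w F dF H) (κ : Euc k →L[ℝ] Euc n) :
    Continuous fun p : Euc k × L k => tr (H (κ p.1) ∘L Shh κ p.2) :=
  tr.continuous.comp ((hF.contH.comp (κ.continuous.comp continuous_fst)).clm_comp
    ((continuous_Shh κ).comp continuous_snd))

theorem trH_bd (h : Fr V π κ x L₀) (hh : Hgt V π κ x L₀ h₀) (hF : C2w F dF H) :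
    ∃ C : ℝ, ∀ᵐ p ∂V, ‖π p.1 - x‖ ^ 2 < Real.exp (2 * L₀) →
      |tr (H (κ p.1) ∘L Shh κ p.2)| ≤ C :=
  exists_bd h hh (c := fun q => tr (H q.1 ∘L Shh κ q.2.1))
    (tr.continuous.comp ((hF.contH.comp continuous_fst).clm_comp
      ((continuous_Shh κ).comp (continuous_fst.comp continuous_snd))))

theorem FV_X2 (h : Fr V π κ x L₀) (hh : Hgt V π κ x L₀ h₀) (hF : C2w F dF H) (hg : Ker g g1)
    {l : ℝ} (hl : l ≤ L₀) :
    FV V (X2 π κ x dF g l) =
      (∫ p, tr (H (κ p.1) ∘L Shh κ p.2) * g (Real.exp (-2 * l) * ‖π p.1 - x‖ ^ 2) ∂V)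
        + 2 * Real.exp (-2 * l) * MM V π κ x dF g1 l := by
  obtain ⟨C1, hC1⟩ := trH_bd h hh hF
  obtain ⟨C2, hC2⟩ := cM_bd h hh hF
  have i1 := h.integrable_c (trH_cont hF κ).aestronglyMeasurable hC1 hg hl
  have i2 := integrable_k' h (continuous_cM hF π κ x).aestronglyMeasurable hC2 hg hl
  unfold MM
  rw [← integral_const_mul, ← integral_add i1 (i2.const_mul _)]
  unfold FV
  refine integral_congr_ae ?_
  filter_upwards [h.conc] with p hp
  have h1 := tr_field (m := n) (n := m) κ π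
    (F := fun v : Euc m => g (Real.exp (-2 * l) * ‖v - x‖ ^ 2)) (ξ := dF) p.1 p.2
    (hasFDerivAt_rad hg.der l x (π p.1)).differentiableAt (hF.hasdF _).differentiableAt
  have h2 : tr (fderiv ℝ (X2 π κ x dF g l) p.1 ∘L p.2) = _ := h1
  rw [h2, (hasFDerivAt_rad hg.der l x (π p.1)).fderiv, (hF.hasdF _).fderiv, innerSL_apply_apply,
    inner_smul_left, inner_swap (isPr_of_G hp)]
  unfold cM
  simp only [RCLike.conj_to_real]
  ring

theorem FV_X3 (h : Fr V π κ x L₀) (hh : Hgt V π κ x L₀ h₀) (hF : C2w F dF H) (hg : Ker g1 g2)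
    {l : ℝ} (hl : l ≤ L₀) :
    FV V (X3 π κ x F g1 l) =
      (m * (∫ p, F (κ p.1) * g1 (Real.exp (-2 * l) * ‖π p.1 - x‖ ^ 2) ∂V)
        + 2 * (∫ p, F (κ p.1) * (Real.exp (-2 * l) * ‖π p.1 - x‖ ^ 2 *
            g2 (Real.exp (-2 * l) * ‖π p.1 - x‖ ^ 2)) ∂V)
        - (∫ p, (F (κ p.1) * tl π p.2) * g1 (Real.exp (-2 * l) * ‖π p.1 - x‖ ^ 2) ∂V)
        - 2 * Real.exp (-2 * l) * (∫ p, (F (κ p.1) * qf π p.2 (π p.1 - x)) *
            g2 (Real.exp (-2 * l) * ‖π p.1 - x‖ ^ 2) ∂V))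
        + MM V π κ x dF g1 l := by
  obtain ⟨C1, hC1⟩ := F_bd h hh hF
  obtain ⟨C2, hC2⟩ := cM_bd h hh hF
  have hFt : AEStronglyMeasurable (fun p : Euc k × L k => F (κ p.1) * tl π p.2) V :=
    (aesm_F hF κ V).mul (aestronglyMeasurable_tl π V)
  have hFq : AEStronglyMeasurable (fun p : Euc k × L k => F (κ p.1) * qf π p.2 (π p.1 - x)) V :=
    (aesm_F hF κ V).mul (continuous_qf π x).aestronglyMeasurable
  have hbt : ∀ᵐ p ∂V, ‖π p.1 - x‖ ^ 2 < Real.exp (2 * L₀) →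
      |F (κ p.1) * tl π p.2| ≤ C1 * m := by
    filter_upwards [hC1, h.tl_bound] with p h1 h2 hlt
    rw [abs_mul]
    exact mul_le_mul (h1 hlt) (h2 hlt) (abs_nonneg _) ((abs_nonneg _).trans (h1 hlt))
  have hbq : ∀ᵐ p ∂V, ‖π p.1 - x‖ ^ 2 < Real.exp (2 * L₀) →
      |F (κ p.1) * qf π p.2 (π p.1 - x)| ≤ C1 * Real.exp (2 * L₀) := by
    filter_upwards [hC1, h.qf_bound] with p h1 h2 hlt
    rw [abs_mul]
    exact mul_le_mul (h1 hlt) (h2 hlt) (abs_nonneg _) ((abs_nonneg _).trans (h1 hlt))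
  have i1 := h.integrable_c (aesm_F hF κ V) hC1 hg hl
  have i2 := integrable_tk h (aesm_F hF κ V) hC1 hg hl
  have i3 := h.integrable_c hFt hbt hg hl
  have i4 := integrable_k' h hFq hbq hg hl
  have i5 := h.integrable_c (continuous_cM hF π κ x).aestronglyMeasurable hC2 hg hl
  have h0 := int4 i1 i2 i3 i4 (m:ℝ) 2 (-1) (-(2 * Real.exp (-2 * l)))
  have e1 : (m * (∫ p, F (κ p.1) * g1 (Real.exp (-2 * l) * ‖π p.1 - x‖ ^ 2) ∂V)
        + 2 * (∫ p, F (κ p.1) * (Real.exp (-2 * l) * ‖π p.1 - x‖ ^ 2 *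
            g2 (Real.exp (-2 * l) * ‖π p.1 - x‖ ^ 2)) ∂V)
        - (∫ p, (F (κ p.1) * tl π p.2) * g1 (Real.exp (-2 * l) * ‖π p.1 - x‖ ^ 2) ∂V)
        - 2 * Real.exp (-2 * l) * (∫ p, (F (κ p.1) * qf π p.2 (π p.1 - x)) *
            g2 (Real.exp (-2 * l) * ‖π p.1 - x‖ ^ 2) ∂V)) =
      (m * (∫ p, F (κ p.1) * g1 (Real.exp (-2 * l) * ‖π p.1 - x‖ ^ 2) ∂V)
        + 2 * (∫ p, F (κ p.1) * (Real.exp (-2 * l) * ‖π p.1 - x‖ ^ 2 *
            g2 (Real.exp (-2 * l) * ‖π p.1 - x‖ ^ 2)) ∂V)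
        + -1 * (∫ p, (F (κ p.1) * tl π p.2) * g1 (Real.exp (-2 * l) * ‖π p.1 - x‖ ^ 2) ∂V)
        + -(2 * Real.exp (-2 * l)) * (∫ p, (F (κ p.1) * qf π p.2 (π p.1 - x)) *
            g2 (Real.exp (-2 * l) * ‖π p.1 - x‖ ^ 2) ∂V)) := by ring
  rw [e1, ← h0]
  unfold MM
  have i6 : Integrable (fun p : Euc k × L k =>
      (m:ℝ) * (F (κ p.1) * g1 (Real.exp (-2 * l) * ‖π p.1 - x‖ ^ 2)) +
      2 * (F (κ p.1) * (Real.exp (-2 * l) * ‖π p.1 - x‖ ^ 2 *
        g2 (Real.exp (-2 * l) * ‖π p.1 - x‖ ^ 2))) +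
      -1 * (F (κ p.1) * tl π p.2 * g1 (Real.exp (-2 * l) * ‖π p.1 - x‖ ^ 2)) +
      -(2 * Real.exp (-2 * l)) * (F (κ p.1) * qf π p.2 (π p.1 - x) *
        g2 (Real.exp (-2 * l) * ‖π p.1 - x‖ ^ 2))) V :=
    (((i1.const_mul _).add (i2.const_mul _)).add (i3.const_mul _)).add (i4.const_mul _)
  rw [← integral_add i6 i5]
  unfold FV
  refine integral_congr_ae ?_
  filter_upwards [h.conc] with p hp
  have h1 := tr_field π κ (F := F)
    (ξ := fun v : Euc m => g1 (Real.exp (-2 * l) * ‖v - x‖ ^ 2) • (v - x)) p.1 p.2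
    (hF.hasF _).differentiableAt
    ((contDiff_rad hg.der hg.cont l x).differentiable one_ne_zero _)
  have h2 : tr (fderiv ℝ (X3 π κ x F g1 l) p.1 ∘L p.2) = _ := h1
  rw [h2, tr_rad hg.der hg.cont, (hF.hasF _).fderiv, innerSL_apply_apply]
  have h3 : ⟪dF (κ p.1), κ (p.2 (ContinuousLinearMap.adjoint π
      (g1 (Real.exp (-2 * l) * ‖π p.1 - x‖ ^ 2) • (π p.1 - x))))⟫_ℝ =
      cM π κ x dF p * g1 (Real.exp (-2 * l) * ‖π p.1 - x‖ ^ 2) := by
    rw [map_smul, map_smul, map_smul, inner_smul_right, mul_comm]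
    rfl
  rw [h3, tl_eq]
  unfold qf
  ring

/-- the vertical identity `e_F = s^{2-m} (δV(χ dF) - 2 s^{-2} ∫ g' ⟨dF, S_vh v⟩ dV)` -/
theorem eF_eq (h : Fr V π κ x L₀) (hh : Hgt V π κ x L₀ h₀) (hF : C2w F dF H) (hg : Ker g g1)
    {l : ℝ} (hl : l ≤ L₀) :
    eF V π κ x H g l - Real.exp ((2 - m) * l) * FV V (X2 π κ x dF g l) =
      -(2 * Real.exp (-m * l) * MM V π κ x dF g1 l) := by
  rw [FV_X2 h hh hF hg hl]
  unfold eF
  have h6 : Real.exp (-m * l) = Real.exp ((2 - m) * l) * Real.exp (-2 * l) := by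
    rw [← Real.exp_add]; congr 1; ring
  rw [h6]
  ring

/-- **(W3)**: `dI_F/dl = 2 e_F + 2 s^{2-m} ∫ F (1 - S_hh) : D²χ + 2 s^{2-m} (δV(F ∇χ) - δV(χ dF))` -/
theorem hasDerivAt_IF (h : Fr V π κ x L₀) (hh : Hgt V π κ x L₀ h₀) (hF : C2w F dF H)
    (hg : Prof g g1 g2) {l : ℝ} (hl : l < L₀) :
    HasDerivAt (IF V π κ x F g1)
      (2 * eF V π κ x H g l + err3 V π κ x F g1 g2 l +
        (4 * Real.exp (-m * l) * FV V (X3 π κ x F g1 l) -
          2 * (Real.exp ((2 - m) * l) * FV V (X2 π κ x dF g l)))) l := by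
  obtain ⟨C1, hC1⟩ := F_bd h hh hF
  have h1 := h.deriv_c (aesm_F hF κ V) hC1 hg.k1 hl
  have h3 : HasDerivAt (fun l : ℝ => Real.exp (-m * l)) (Real.exp (-m * l) * (-m)) l := by
    have h4 : HasDerivAt (fun l : ℝ => (-m : ℝ) * l) (-m) l := by
      simpa using (hasDerivAt_id l).const_mul (-m : ℝ)
    exact h4.exp
  have h5 := h3.mul (h1.const_mul (-4))
  have hfun : IF V π κ x F g1 = (fun l : ℝ => Real.exp (-m * l)) * (fun l =>
      -4 * ∫ p, F (κ p.1) * g1 (Real.exp (-2 * l) * ‖π p.1 - x‖ ^ 2) ∂V) := by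
    funext l
    unfold IF
    simp only [Pi.mul_apply]
    rw [int_c4 V (fun p => F (κ p.1)) (fun p => g1 (Real.exp (-2 * l) * ‖π p.1 - x‖ ^ 2)) (-4)]
  rw [hfun]
  refine h5.congr_deriv ?_
  have e2 := eF_eq h hh hF hg.k0 hl.le
  have e3 := FV_X3 h hh hF hg.k1 hl.le
  have h7 : ∫ p, F (κ p.1) * (-2 * (Real.exp (-2 * l) * ‖π p.1 - x‖ ^ 2 *
      g2 (Real.exp (-2 * l) * ‖π p.1 - x‖ ^ 2))) ∂V =
      -2 * ∫ p, F (κ p.1) * (Real.exp (-2 * l) * ‖π p.1 - x‖ ^ 2 *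
      g2 (Real.exp (-2 * l) * ‖π p.1 - x‖ ^ 2)) ∂V := by
    rw [← integral_const_mul]
    refine integral_congr_ae (Eventually.of_forall fun p => ?_)
    simp only
    ring
  rw [h7]
  have e4 : eF V π κ x H g l = Real.exp ((2 - m) * l) * FV V (X2 π κ x dF g l)
      - 2 * Real.exp (-m * l) * MM V π κ x dF g1 l := by linarith
  rw [e4, e3]
  unfold err3
  ring


end Crest.Agent.R234.Wi_870
end
namespace Crest.Agent.R234.Cy_870
end Crest.Agent.R234.Cy_870
end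

-- ▼ part R234/Wi2_870
section

/-!
# Row 234, VF-WELLINST, part 2 (helper870)

Bounds: Cauchy-Schwarz `|e_F| ≤ √ν(|dF|²) √R`, one-sided bound of `e_F` by the tilt energy over the
heights in `S`, bound of the error of (W3) by the tilt energy over the heights in `S`.
-/

set_option autoImplicit false

open MeasureTheory Set Function Filter Topology
open Crest.GeometryTopology.Submanifold
open Crest.Agent.R234.Vf_884 Crest.Agent.R234.Ar_870 Crest.Agent.R234.Cy_870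
open scoped ENNReal NNReal InnerProductSpace

noncomputable section

namespace Crest.Agent.R234.Wi_870

variable {m n k : ℕ}

/-! ### traces -/

theorem tr_quad {κ : Euc k →L[ℝ] Euc n} {P : L k} (hP : IsPr P) (A : L n) :
    tr (A ∘L Shh κ P) =
      ∑ i, ⟪κ (P (EuclideanSpace.basisFun (Fin k) ℝ i)),
        A (κ (P (EuclideanSpace.basisFun (Fin k) ℝ i)))⟫_ℝ := by
  have h1 : A ∘L Shh κ P = (A ∘L κ ∘L P) ∘L (P ∘L ContinuousLinearMap.adjoint κ) := by
    have h2 : P ∘L P = P := hP.1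
    unfold Shh
    calc A ∘L κ ∘L P ∘L ContinuousLinearMap.adjoint κ =
        A ∘L κ ∘L (P ∘L P) ∘L ContinuousLinearMap.adjoint κ := by rw [h2]
      _ = _ := rfl
  rw [h1, ← tr_cyc, tr_apply, LinearMap.trace_eq_sum_inner _ (EuclideanSpace.basisFun (Fin k) ℝ)]
  refine Finset.sum_congr rfl fun i _ => ?_
  set e := EuclideanSpace.basisFun (Fin k) ℝ i with he
  change ⟪e, P (ContinuousLinearMap.adjoint κ (A (κ (P e))))⟫_ℝ = _
  rw [← ContinuousLinearMap.adjoint_inner_left, hP.2, ContinuousLinearMap.adjoint_inner_right]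

theorem tr_quad_nonpos {κ : Euc k →L[ℝ] Euc n} {P : L k} (hP : IsPr P) {A : L n}
    (hA : ∀ v, ⟪A v, v⟫_ℝ ≤ 0) : tr (A ∘L Shh κ P) ≤ 0 := by
  rw [tr_quad hP]
  refine Finset.sum_nonpos fun i _ => ?_
  rw [real_inner_comm]
  exact hA _

theorem tr_quad_le {π : Euc k →L[ℝ] Euc m} {κ : Euc k →L[ℝ] Euc n} (hs : Split π κ) {P : L k}
    (hP : P ∈ G m k) {A : L n} {B : ℝ} (hA : ‖A‖ ≤ B) :
    tr (A ∘L Shh κ P) ≤ B * tl π P := by
  have hPr := isPr_of_G hP
  have h1 := tr_quad hPr (ContinuousLinearMap.id ℝ (Euc n)) (κ := κ)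
  rw [ContinuousLinearMap.id_comp, tr_Svv hs hP] at h1
  rw [tr_quad hPr, h1, Finset.mul_sum]
  refine Finset.sum_le_sum fun i _ => ?_
  set v := κ (P (EuclideanSpace.basisFun (Fin k) ℝ i)) with hv
  calc ⟪v, A v⟫_ℝ ≤ ‖v‖ * ‖A v‖ := real_inner_le_norm _ _
    _ ≤ ‖v‖ * (B * ‖v‖) := by
        refine mul_le_mul_of_nonneg_left ?_ (norm_nonneg _)
        exact (A.le_opNorm v).trans (mul_le_mul_of_nonneg_right hA (norm_nonneg _))
    _ = B * ⟪v, ContinuousLinearMap.id ℝ (Euc n) v⟫_ℝ := by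
        rw [ContinuousLinearMap.id_apply, real_inner_self_eq_norm_sq]; ring

variable {π : Euc k →L[ℝ] Euc m} {κ : Euc k →L[ℝ] Euc n} {x : Euc m} {L₀ h₀ : ℝ}
  {V : Measure (Euc k × L k)} {g g1 g2 : ℝ → ℝ}
  {F : Euc n → ℝ} {dF : Euc n → Euc n} {H : Euc n → L n}

/-! ### Cauchy-Schwarz -/

/-- `ν(|dF|²)` with the kernel `-2 g'` -/
def nuG (V : Measure (Euc k × L k)) (π : Euc k →L[ℝ] Euc m) (κ : Euc k →L[ℝ] Euc n) (x : Euc m)
    (f : Euc n → ℝ) (g1 : ℝ → ℝ) (l : ℝ) : ℝ :=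
  Real.exp (-m * l) *
    ∫ p, f (κ p.1) * (-2 * g1 (Real.exp (-2 * l) * ‖π p.1 - x‖ ^ 2)) ∂V

theorem abs_eF_sub_le (h : Fr V π κ x L₀) (hh : Hgt V π κ x L₀ h₀) (hF : C2w F dF H)
    (hg : Prof g g1 g2) {l : ℝ} (hl : l ≤ L₀) :
    |eF V π κ x H g l - Real.exp ((2 - m) * l) * FV V (X2 π κ x dF g l)| ≤
      Real.sqrt (nuG V π κ x (fun y => ‖dF y‖ ^ 2) g1 l) * Real.sqrt (RR V π x g1 l) := by
  have hsq : (eF V π κ x H g l - Real.exp ((2 - m) * l) * FV V (X2 π κ x dF g l)) ^ 2 ≤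
      nuG V π κ x (fun y => ‖dF y‖ ^ 2) g1 l * RR V π x g1 l := by
    rw [eF_eq h hh hF hg.k0 hl]
    have hnm : AEStronglyMeasurable (fun p : Euc k × L k => ‖dF (κ p.1)‖ ^ 2) V :=
      ((hF.contdF.comp (κ.continuous.comp continuous_fst)).norm.pow 2).aestronglyMeasurable
    obtain ⟨C1, hC1⟩ := exists_bd h hh (c := fun q => ‖dF q.1‖ ^ 2)
      ((hF.contdF.comp continuous_fst).norm.pow 2)
    obtain ⟨C2, hC2⟩ := cM_bd h hh hF
    have i1 := h.integrable_c hnm hC1 hg.k1 hl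
    have i2 := h.integrable_c (continuous_qf π x).aestronglyMeasurable h.qf_bound hg.k1 hl
    have i3 := h.integrable_c (continuous_cM hF π κ x).aestronglyMeasurable hC2 hg.k1 hl
    set A := ∫ p, ‖dF (κ p.1)‖ ^ 2 * g1 (Real.exp (-2 * l) * ‖π p.1 - x‖ ^ 2) ∂V with hA
    set Bq := ∫ p, qf π p.2 (π p.1 - x) * g1 (Real.exp (-2 * l) * ‖π p.1 - x‖ ^ 2) ∂V with hB
    set M := MM V π κ x dF g1 l with hM
    have key : ∀ t : ℝ, 0 ≤ (-A) * (t * t) + 2 * M * t + (-Bq) := by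
      intro t
      have h1 : (-A) * (t * t) + 2 * M * t + (-Bq) =
          ∫ p, ((-(t * t)) * (‖dF (κ p.1)‖ ^ 2 * g1 (Real.exp (-2 * l) * ‖π p.1 - x‖ ^ 2)) +
            (2 * t) * (cM π κ x dF p * g1 (Real.exp (-2 * l) * ‖π p.1 - x‖ ^ 2)) +
            (-1) * (qf π p.2 (π p.1 - x) * g1 (Real.exp (-2 * l) * ‖π p.1 - x‖ ^ 2)) +
            0 * (qf π p.2 (π p.1 - x) * g1 (Real.exp (-2 * l) * ‖π p.1 - x‖ ^ 2))) ∂V := by
        rw [int4 i1 i3 i2 i2]
        rw [← hA, ← hB]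
        unfold MM at hM
        rw [← hM]
        ring
      rw [h1]
      refine integral_nonneg_of_ae ?_
      filter_upwards [h.conc] with p hp
      have hneg : 0 ≤ -g1 (Real.exp (-2 * l) * ‖π p.1 - x‖ ^ 2) := by
        have := hg.anti (Real.exp (-2 * l) * ‖π p.1 - x‖ ^ 2) (by positivity)
        linarith
      have h2 : (0:ℝ) ≤ (t * t) * ‖dF (κ p.1)‖ ^ 2 - 2 * t * cM π κ x dF p +
          qf π p.2 (π p.1 - x) := by
        have h4 := norm_Svh_sq_le h.sp (isPr_of_G hp) (π p.1 - x)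
        have h5 : ‖t • dF (κ p.1) - Svh π κ p.2 (π p.1 - x)‖ ^ 2 =
            (t * t) * ‖dF (κ p.1)‖ ^ 2 - 2 * t * cM π κ x dF p +
              ‖Svh π κ p.2 (π p.1 - x)‖ ^ 2 := by
          rw [norm_sub_sq_real, inner_smul_left, norm_smul, mul_pow, Real.norm_eq_abs, sq_abs]
          unfold cM
          simp only [RCLike.conj_to_real]
          ring
        have h6 : 0 ≤ ‖t • dF (κ p.1) - Svh π κ p.2 (π p.1 - x)‖ ^ 2 := by positivity
        linarith
      have h7 := mul_nonneg hneg h2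
      simp only [Pi.zero_apply]
      nlinarith
    have hd := discrim_le_zero key
    unfold discrim at hd
    have eI : nuG V π κ x (fun y => ‖dF y‖ ^ 2) g1 l = Real.exp (-m * l) * (-2 * A) := by
      unfold nuG
      rw [int_c4 V (fun p => ‖dF (κ p.1)‖ ^ 2)
        (fun p => g1 (Real.exp (-2 * l) * ‖π p.1 - x‖ ^ 2)) (-2)]
    have eR : RR V π x g1 l = Real.exp (-m * l) * (-2 * Bq) := by
      unfold RR
      rw [int_c4 V (fun p => qf π p.2 (π p.1 - x))
        (fun p => g1 (Real.exp (-2 * l) * ‖π p.1 - x‖ ^ 2)) (-2)]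
    rw [eI, eR]
    have hE : 0 ≤ Real.exp (-m * l) ^ 2 := by positivity
    nlinarith
  have h0 : 0 ≤ nuG V π κ x (fun y => ‖dF y‖ ^ 2) g1 l := by
    unfold nuG
    refine mul_nonneg (Real.exp_pos _).le (integral_nonneg fun p => ?_)
    have := hg.anti (Real.exp (-2 * l) * ‖π p.1 - x‖ ^ 2) (by positivity)
    have h1 : 0 ≤ -2 * g1 (Real.exp (-2 * l) * ‖π p.1 - x‖ ^ 2) := by linarith
    simp only [Pi.zero_apply]
    positivity
  rw [← Real.sqrt_mul h0]
  exact Real.abs_le_sqrt hsq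

/-! ### localisation in the height -/

/-- tilt energy (not normalised) of the open base ball of radius `e^l` over the heights in `S` -/
def tS (V : Measure (Euc k × L k)) (π : Euc k →L[ℝ] Euc m) (κ : Euc k →L[ℝ] Euc n) (x : Euc m)
    (l : ℝ) (S : Set (Euc n)) : ℝ :=
  ∫ p in {p | ‖π p.1 - x‖ ^ 2 < Real.exp (2 * l) ∧ κ p.1 ∈ S}, tl π p.2 ∂V

theorem measurableSet_tS (π : Euc k →L[ℝ] Euc m) (κ : Euc k →L[ℝ] Euc n) (x : Euc m) (l : ℝ)
    {S : Set (Euc n)} (hS : MeasurableSet S) :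
    MeasurableSet {p : Euc k × L k | ‖π p.1 - x‖ ^ 2 < Real.exp (2 * l) ∧ κ p.1 ∈ S} :=
  (measurableSet_base π x l).inter ((κ.continuous.comp continuous_fst).measurable hS)

theorem integrableOn_tl (h : Fr V π κ x L₀) :
    IntegrableOn (fun p => tl π p.2) {p | ‖π p.1 - x‖ ^ 2 < Real.exp (2 * L₀)} V := by
  refine IntegrableOn.of_bound h.fin (aestronglyMeasurable_tl π V).restrict m ?_
  filter_upwards [ae_restrict_of_ae h.tl_bound, ae_restrict_mem (measurableSet_base π x L₀)]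
    with p hp hp2
  exact hp hp2

theorem integrableOn_tS (h : Fr V π κ x L₀) {l : ℝ} (hl : l ≤ L₀) (S : Set (Euc n)) :
    IntegrableOn (fun p => tl π p.2)
      {p | ‖π p.1 - x‖ ^ 2 < Real.exp (2 * l) ∧ κ p.1 ∈ S} V := by
  refine (integrableOn_tl h).mono_set fun p hp => lt_of_lt_of_le hp.1 ?_
  exact Real.exp_le_exp.2 (by linarith)

theorem one_le_of_not {l : ℝ} {ρ : ℝ} (hρ : ¬ ρ < Real.exp (2 * l)) :
    1 ≤ Real.exp (-2 * l) * ρ := by
  calc (1:ℝ) = Real.exp (-2 * l) * Real.exp (2 * l) := by rw [← Real.exp_add]; simp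
    _ ≤ _ := mul_le_mul_of_nonneg_left (not_lt.1 hρ) (Real.exp_pos _).le

/-- upper bound of a kernel integral: coefficient `≤ C tl` over heights in `S`, `≤ 0` elsewhere -/
theorem ker_le_S (h : Fr V π κ x L₀) {l : ℝ} (hl : l ≤ L₀) {S : Set (Euc n)}
    (hS : MeasurableSet S) {c : Euc k × L k → ℝ} {f : ℝ → ℝ} {C K : ℝ}
    (hi : Integrable (fun p => c p * f (Real.exp (-2 * l) * ‖π p.1 - x‖ ^ 2)) V)
    (hc : ∀ᵐ p ∂V, κ p.1 ∈ S → c p * f (Real.exp (-2 * l) * ‖π p.1 - x‖ ^ 2) ≤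
      C * tl π p.2 * K)
    (hc' : ∀ᵐ p ∂V, κ p.1 ∉ S → c p * f (Real.exp (-2 * l) * ‖π p.1 - x‖ ^ 2) ≤ 0)
    (hf0 : ∀ t, 1 ≤ t → f t = 0) :
    ∫ p, c p * f (Real.exp (-2 * l) * ‖π p.1 - x‖ ^ 2) ∂V ≤ C * K * tS V π κ x l S := by
  have hM := measurableSet_tS π κ x l hS
  unfold tS
  rw [← integral_const_mul, ← integral_indicator hM]
  have hI : IntegrableOn (fun p : Euc k × L k => C * K * tl π p.2)
      {p | ‖π p.1 - x‖ ^ 2 < Real.exp (2 * l) ∧ κ p.1 ∈ S} V :=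
    (integrableOn_tS h hl S).const_mul (C * K)
  refine integral_mono_ae hi (hI.integrable_indicator hM) ?_
  filter_upwards [hc, hc'] with p h1 h2
  by_cases hp : p ∈ {p : Euc k × L k | ‖π p.1 - x‖ ^ 2 < Real.exp (2 * l) ∧ κ p.1 ∈ S}
  · rw [indicator_of_mem hp]
    have := h1 hp.2
    linarith
  · rw [indicator_of_notMem hp]
    by_cases h3 : κ p.1 ∈ S
    · have h4 : ¬ ‖π p.1 - x‖ ^ 2 < Real.exp (2 * l) := fun h5 => hp ⟨h5, h3⟩
      rw [hf0 _ (one_le_of_not h4), mul_zero]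
    · exact h2 h3

theorem eF_le_S (h : Fr V π κ x L₀) (hh : Hgt V π κ x L₀ h₀) (hF : C2w F dF H)
    (hg : Prof g g1 g2) {K B : ℝ} (hg0 : ∀ t, 0 ≤ t → 0 ≤ g t) (hK : ∀ t, 0 ≤ t → g t ≤ K)
    (hB : ∀ y, ‖H y‖ ≤ B) {S : Set (Euc n)} (hS : MeasurableSet S)
    (hoff : ∀ y, y ∉ S → ∀ v, ⟪H y v, v⟫_ℝ ≤ 0) {l : ℝ} (hl : l ≤ L₀) :
    eF V π κ x H g l ≤ Real.exp ((2 - m) * l) * (B * K * tS V π κ x l S) := by
  have hB0 : 0 ≤ B := (norm_nonneg _).trans (hB 0)
  have hK0 : 0 ≤ K := (hg0 0 le_rfl).trans (hK 0 le_rfl)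
  obtain ⟨C1, hC1⟩ := trH_bd h hh hF
  have i1 := h.integrable_c (trH_cont hF κ).aestronglyMeasurable hC1 hg.k0 hl
  unfold eF
  refine mul_le_mul_of_nonneg_left ?_ (Real.exp_pos _).le
  refine ker_le_S h hl hS i1 ?_ ?_ hg.k0.zero
  · filter_upwards [h.conc] with p hp _
    have h1 := tr_quad_le h.sp hp (hB (κ p.1))
    have h2 := hg0 (Real.exp (-2 * l) * ‖π p.1 - x‖ ^ 2) (by positivity)
    have h3 := hK (Real.exp (-2 * l) * ‖π p.1 - x‖ ^ 2) (by positivity)
    have h4 := tl_nonneg h.sp.hh (isPr_of_G hp)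
    exact (mul_le_mul_of_nonneg_right h1 h2).trans
      (mul_le_mul_of_nonneg_left h3 (mul_nonneg hB0 h4))
  · filter_upwards [h.conc] with p hp hnS
    have h1 := tr_quad_nonpos (κ := κ) (isPr_of_G hp) (hoff _ hnS)
    have h2 := hg0 (Real.exp (-2 * l) * ‖π p.1 - x‖ ^ 2) (by positivity)
    exact mul_nonpos_of_nonpos_of_nonneg h1 h2

/-- absolute value version -/
theorem abs_ker_le_S (h : Fr V π κ x L₀) {l : ℝ} (hl : l ≤ L₀) {S : Set (Euc n)}
    (hS : MeasurableSet S) {c : Euc k × L k → ℝ} {f : ℝ → ℝ} {C : ℝ}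
    (hc : ∀ᵐ p ∂V, κ p.1 ∈ S → |c p * f (Real.exp (-2 * l) * ‖π p.1 - x‖ ^ 2)| ≤
      C * tl π p.2)
    (hc' : ∀ᵐ p ∂V, κ p.1 ∉ S → c p * f (Real.exp (-2 * l) * ‖π p.1 - x‖ ^ 2) = 0)
    (hf0 : ∀ t, 1 ≤ t → f t = 0) :
    |∫ p, c p * f (Real.exp (-2 * l) * ‖π p.1 - x‖ ^ 2) ∂V| ≤ C * tS V π κ x l S := by
  have hM := measurableSet_tS π κ x l hS
  unfold tS
  rw [← integral_const_mul, ← integral_indicator hM, ← Real.norm_eq_abs]
  have hI : IntegrableOn (fun p : Euc k × L k => C * tl π p.2)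
      {p | ‖π p.1 - x‖ ^ 2 < Real.exp (2 * l) ∧ κ p.1 ∈ S} V :=
    (integrableOn_tS h hl S).const_mul C
  refine norm_integral_le_of_norm_le (hI.integrable_indicator hM) ?_
  filter_upwards [hc, hc'] with p h1 h2
  rw [Real.norm_eq_abs]
  by_cases hp : p ∈ {p : Euc k × L k | ‖π p.1 - x‖ ^ 2 < Real.exp (2 * l) ∧ κ p.1 ∈ S}
  · rw [indicator_of_mem hp]
    exact h1 hp.2
  · rw [indicator_of_notMem hp]
    by_cases h3 : κ p.1 ∈ S
    · have h4 : ¬ ‖π p.1 - x‖ ^ 2 < Real.exp (2 * l) := fun h5 => hp ⟨h5, h3⟩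
      rw [hf0 _ (one_le_of_not h4), mul_zero, abs_zero]
    · rw [h2 h3, abs_zero]

theorem abs_err3_le_S (h : Fr V π κ x L₀) (hg : Prof g g1 g2) {K A : ℝ}
    (hK1 : ∀ t, 0 ≤ t → |g1 t| ≤ K) (hK2 : ∀ t, 0 ≤ t → |t * g2 t| ≤ K)
    (hA : ∀ y, |F y| ≤ A) {S : Set (Euc n)} (hS : MeasurableSet S)
    (hoff : ∀ y, y ∉ S → F y = 0) {l : ℝ} (hl : l ≤ L₀) :
    |err3 V π κ x F g1 g2 l| ≤ 12 * K * A * Real.exp (-m * l) * tS V π κ x l S := by
  have hA0 : 0 ≤ A := (abs_nonneg _).trans (hA 0)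
  have hK0 : 0 ≤ K := (abs_nonneg _).trans (hK1 0 le_rfl)
  set T := tS V π κ x l S with hT
  have e1 : |∫ p, (F (κ p.1) * tl π p.2) * g1 (Real.exp (-2 * l) * ‖π p.1 - x‖ ^ 2) ∂V| ≤
      A * K * T := by
    refine abs_ker_le_S h hl hS ?_ ?_ hg.k1.zero
    · filter_upwards [h.conc] with p hp _
      have h1 := tl_nonneg h.sp.hh (isPr_of_G hp)
      rw [abs_mul, abs_mul, abs_of_nonneg h1]
      calc |F (κ p.1)| * tl π p.2 * |g1 (Real.exp (-2 * l) * ‖π p.1 - x‖ ^ 2)|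
          ≤ A * tl π p.2 * K :=
            mul_le_mul (mul_le_mul_of_nonneg_right (hA _) h1) (hK1 _ (by positivity))
              (abs_nonneg _) (mul_nonneg hA0 h1)
        _ = A * K * tl π p.2 := by ring
    · refine Eventually.of_forall fun p hp => ?_
      rw [hoff _ hp, zero_mul, zero_mul]
  have e2 : |∫ p, (F (κ p.1) * qf π p.2 (π p.1 - x)) *
      g2 (Real.exp (-2 * l) * ‖π p.1 - x‖ ^ 2) ∂V| ≤ A * K * Real.exp (2 * l) * T := by
    refine abs_ker_le_S h hl hS ?_ ?_ hg.k1.zero'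
    · filter_upwards [h.conc] with p hp _
      have hPr := isPr_of_G hp
      have h1 := tl_nonneg h.sp.hh hPr
      have hq0 := qf_nonneg h.sp.hh hPr (π p.1 - x)
      have hq := qf_le_tl h.sp hp (π p.1 - x)
      set ρ := ‖π p.1 - x‖ ^ 2 with hρ
      have hρ0 : 0 ≤ ρ := by positivity
      have h2 := hK2 (Real.exp (-2 * l) * ρ) (by positivity)
      rw [abs_mul, abs_mul, abs_of_nonneg hq0]
      have h3 : ρ * |g2 (Real.exp (-2 * l) * ρ)| ≤ Real.exp (2 * l) * K := by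
        have h4 : ρ * |g2 (Real.exp (-2 * l) * ρ)| =
            Real.exp (2 * l) * |(Real.exp (-2 * l) * ρ) * g2 (Real.exp (-2 * l) * ρ)| := by
          rw [abs_mul, abs_of_nonneg (mul_nonneg (Real.exp_pos (-2 * l)).le hρ0), ← mul_assoc,
            ← mul_assoc, ← Real.exp_add]
          simp
        rw [h4]
        exact mul_le_mul_of_nonneg_left h2 (Real.exp_pos _).le
      calc |F (κ p.1)| * qf π p.2 (π p.1 - x) * |g2 (Real.exp (-2 * l) * ρ)|
          ≤ A * (ρ * tl π p.2) * |g2 (Real.exp (-2 * l) * ρ)| := by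
            refine mul_le_mul_of_nonneg_right ?_ (abs_nonneg _)
            exact mul_le_mul (hA _) hq hq0 hA0
        _ = A * tl π p.2 * (ρ * |g2 (Real.exp (-2 * l) * ρ)|) := by ring
        _ ≤ A * tl π p.2 * (Real.exp (2 * l) * K) :=
            mul_le_mul_of_nonneg_left h3 (mul_nonneg hA0 h1)
        _ = A * K * Real.exp (2 * l) * tl π p.2 := by ring
    · refine Eventually.of_forall fun p hp => ?_
      rw [hoff _ hp, zero_mul, zero_mul]
  unfold err3
  rw [abs_mul, abs_mul, abs_of_pos (by norm_num : (0:ℝ) < 4), abs_of_pos (Real.exp_pos _)]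
  have e3 : |(∫ p, (F (κ p.1) * tl π p.2) * g1 (Real.exp (-2 * l) * ‖π p.1 - x‖ ^ 2) ∂V)
      + 2 * Real.exp (-2 * l) * (∫ p, (F (κ p.1) * qf π p.2 (π p.1 - x)) *
            g2 (Real.exp (-2 * l) * ‖π p.1 - x‖ ^ 2) ∂V)| ≤ A * K * T + 2 * (A * K * T) := by
    refine (abs_add_le _ _).trans (add_le_add e1 ?_)
    rw [abs_mul, abs_of_pos (by positivity)]
    calc 2 * Real.exp (-2 * l) * |∫ p, (F (κ p.1) * qf π p.2 (π p.1 - x)) *
            g2 (Real.exp (-2 * l) * ‖π p.1 - x‖ ^ 2) ∂V|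
        ≤ 2 * Real.exp (-2 * l) * (A * K * Real.exp (2 * l) * T) :=
          mul_le_mul_of_nonneg_left e2 (by positivity)
      _ = 2 * (A * K * T) * (Real.exp (-2 * l) * Real.exp (2 * l)) := by ring
      _ = 2 * (A * K * T) := by rw [← Real.exp_add]; simp
  calc 4 * Real.exp (-m * l) * |(∫ p, (F (κ p.1) * tl π p.2) *
          g1 (Real.exp (-2 * l) * ‖π p.1 - x‖ ^ 2) ∂V)
      + 2 * Real.exp (-2 * l) * (∫ p, (F (κ p.1) * qf π p.2 (π p.1 - x)) *
            g2 (Real.exp (-2 * l) * ‖π p.1 - x‖ ^ 2) ∂V)|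
      ≤ 4 * Real.exp (-m * l) * (A * K * T + 2 * (A * K * T)) :=
        mul_le_mul_of_nonneg_left e3 (by positivity)
    _ = _ := by ring

end Crest.Agent.R234.Wi_870
end
end

-- ▼ part R234/Wi3_870

/-!
# Row 234, VF-WELLINST, part 3 (helper870)

Instance of the abstract interface `Flow` of helper761 (Well4_761) for the push-forward of a varifold
in a cylinder. `flow_of` keeps the first variation terms in `er`; `CylStat.flow` is the stationary case.
-/

set_option autoImplicit false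

open MeasureTheory Set Function Filter Topology
open Crest.GeometryTopology.Submanifold
open Crest.Agent.R234.Vf_884 Crest.Agent.R234.Ar_870 Crest.Agent.R234.Cy_870
open scoped ENNReal NNReal InnerProductSpace ContDiff

noncomputable section

namespace Crest.Agent.R234.Wi_870

variable {m n k : ℕ}

/-- base and height -/
def bh (π : Euc k →L[ℝ] Euc m) (κ : Euc k →L[ℝ] Euc n) (p : Euc k × L k) : Euc m × Euc n :=
  (π p.1, κ p.1)

/-- mass of the base × heights -/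
def muOf (V : Measure (Euc k × L k)) (π : Euc k →L[ℝ] Euc m) (κ : Euc k →L[ℝ] Euc n) :
    Measure (Euc m × Euc n) := V.map (bh π κ)

/-- tilt energy of the base × heights -/
def enOf (V : Measure (Euc k × L k)) (π : Euc k →L[ℝ] Euc m) (κ : Euc k →L[ℝ] Euc n) :
    Measure (Euc m × Euc n) :=
  (V.withDensity fun p => ENNReal.ofReal (tl π p.2)).map (bh π κ)

/-- the kernel `κ(t) = -2 g'(t²)` -/
def kap (g1 : ℝ → ℝ) (t : ℝ) : ℝ := -2 * g1 (t ^ 2)

theorem measurable_bh (π : Euc k →L[ℝ] Euc m) (κ : Euc k →L[ℝ] Euc n) : Measurable (bh π κ) :=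
  ((π.continuous.comp continuous_fst).prodMk (κ.continuous.comp continuous_fst)).measurable

variable {π : Euc k →L[ℝ] Euc m} {κ : Euc k →L[ℝ] Euc n} {x x₀ : Euc m} {L₀ h₀ ρ₀ : ℝ}
  {V : Measure (Euc k × L k)} {g g1 g2 : ℝ → ℝ}

/-- `kap` is an admissible kernel -/
theorem ker_kap (hg : Prof g g1 g2) {K c : ℝ} (hK1 : ∀ t, 0 ≤ t → |g1 t| ≤ K) (hc : 0 < c)
    (hc1 : ∀ t, 0 ≤ t → t ≤ 1 / 4 → g1 t ≤ -c) :
    Well_761.Ker (kap g1) (2 * K) (2 * c) where
  meas := by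
    unfold kap
    exact (measurable_const.mul ((hg.k1.continuous.comp (continuous_pow 2)).measurable))
  nonneg t := by
    have := hg.anti (t ^ 2) (by positivity)
    unfold kap; linarith
  le t := by
    have := (abs_le.1 (hK1 (t ^ 2) (by positivity))).1
    unfold kap; linarith
  zero t ht := by
    unfold kap
    rw [hg.k1.zero _ (by nlinarith), mul_zero]
  ge t h0 h1 := by
    have := hc1 (t ^ 2) (by positivity) (by nlinarith)
    unfold kap; linarith
  cpos := by linarith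

theorem dist_sq_exp (u x : Euc m) (l : ℝ) :
    (dist u x * Real.exp (-l)) ^ 2 = Real.exp (-2 * l) * ‖u - x‖ ^ 2 := by
  rw [dist_eq_norm, mul_pow, ← Real.exp_nat_mul, mul_comm]
  congr 2
  push_cast
  ring

/-- the abstract functional of the push-forward -/
theorem nu_eq (hg : Prof g g1 g2) (V : Measure (Euc k × L k)) (π : Euc k →L[ℝ] Euc m)
    (κ : Euc k →L[ℝ] Euc n) (x : Euc m) (l : ℝ) {F : Euc n → ℝ} (hF : Measurable F) :
    Well_761.nu m (kap g1) (muOf V π κ) x l F = nuG V π κ x F g1 l := by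
  unfold Well_761.nu muOf nuG
  have h1 : Measurable fun z : Euc m × Euc n => dist z.1 x :=
    (continuous_fst.dist continuous_const).measurable
  have h2 : Measurable fun z : Euc m × Euc n => kap g1 (dist z.1 x * Real.exp (-l)) * F z.2 := by
    refine Measurable.mul ?_ (hF.comp measurable_snd)
    unfold kap
    exact measurable_const.mul (hg.k1.continuous.measurable.comp ((h1.mul_const _).pow_const 2))
  rw [integral_map (measurable_bh π κ).aemeasurable h2.aestronglyMeasurable]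
  congr 1
  · congr 1; ring
  · refine integral_congr_ae (Eventually.of_forall fun p => ?_)
    simp only [bh, kap]
    rw [dist_sq_exp]
    ring

theorem IF_eq_nuG (V : Measure (Euc k × L k)) (π : Euc k →L[ℝ] Euc m) (κ : Euc k →L[ℝ] Euc n)
    (x : Euc m) (l : ℝ) (F : Euc n → ℝ) (g1 : ℝ → ℝ) :
    nuG V π κ x F g1 l = IF V π κ x F g1 l / 2 := by
  unfold nuG IF
  have h1 : ∫ p, F (κ p.1) * (-4 * g1 (Real.exp (-2 * l) * ‖π p.1 - x‖ ^ 2)) ∂V =
      2 * ∫ p, F (κ p.1) * (-2 * g1 (Real.exp (-2 * l) * ‖π p.1 - x‖ ^ 2)) ∂V := by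
    rw [← integral_const_mul]
    refine integral_congr_ae (Eventually.of_forall fun p => ?_)
    simp only
    ring
  rw [h1]
  ring

theorem RR_nonneg' (hg : Prof g g1 g2) (h : Fr V π κ x L₀) (x' : Euc m) (l : ℝ) :
    0 ≤ RR V π x' g1 l := by
  unfold RR
  refine mul_nonneg (Real.exp_pos _).le (integral_nonneg_of_ae ?_)
  filter_upwards [h.conc] with p hp
  have h1 := hg.anti (Real.exp (-2 * l) * ‖π p.1 - x'‖ ^ 2) (by positivity)
  exact mul_nonneg (qf_nonneg h.sp.hh (isPr_of_G hp) _) (by linarith)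

/-- the energy measure of a cylinder dominates `tS` -/
theorem tS_le_en (h : Fr V π κ x L₀) {l : ℝ} (hl : l < L₀) {S : Set (Euc n)}
    (hS : MeasurableSet S) :
    tS V π κ x l S ≤ (enOf V π κ (Well_761.cyl x (Real.exp l) S)).toReal := by
  have hcm : MeasurableSet (Well_761.cyl x (Real.exp l) S) :=
    Metric.isClosed_closedBall.measurableSet.prod hS
  have hpre : MeasurableSet (bh π κ ⁻¹' Well_761.cyl x (Real.exp l) S) :=
    measurable_bh (m := m) π κ hcm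
  have hsub1 : bh π κ ⁻¹' Well_761.cyl x (Real.exp l) S ⊆
      {p | ‖π p.1 - x‖ ^ 2 < Real.exp (2 * L₀)} := by
    intro p hp
    have h1 : ‖π p.1 - x‖ ≤ Real.exp l := by
      have := hp.1
      rwa [Metric.mem_closedBall, dist_eq_norm] at this
    have h2 : ‖π p.1 - x‖ ^ 2 ≤ Real.exp l ^ 2 := pow_le_pow_left₀ (norm_nonneg _) h1 2
    rw [← Real.exp_nat_mul] at h2
    refine lt_of_le_of_lt h2 (Real.exp_lt_exp.2 ?_)
    push_cast
    linarith
  have hint : IntegrableOn (fun p => tl π p.2) (bh π κ ⁻¹' Well_761.cyl x (Real.exp l) S) V :=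
    (integrableOn_tl h).mono_set hsub1
  have hnn : ∀ᵐ p ∂V, 0 ≤ tl π p.2 := by
    filter_upwards [h.conc] with p hp
    exact tl_nonneg h.sp.hh (isPr_of_G hp)
  have e1 : enOf V π κ (Well_761.cyl x (Real.exp l) S) =
      ∫⁻ p in bh π κ ⁻¹' Well_761.cyl x (Real.exp l) S, ENNReal.ofReal (tl π p.2) ∂V := by
    unfold enOf
    rw [Measure.map_apply (measurable_bh π κ) hcm, withDensity_apply _ hpre]
  rw [e1, ← ofReal_integral_eq_lintegral_ofReal hint (ae_restrict_of_ae hnn),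
    ENNReal.toReal_ofReal (integral_nonneg_of_ae (ae_restrict_of_ae hnn))]
  unfold tS
  refine setIntegral_mono_set hint (ae_restrict_of_ae hnn) ?_
  refine LE.le.eventuallyLE ?_
  intro p hp
  refine ⟨?_, hp.2⟩
  rw [Metric.mem_closedBall, bh, dist_eq_norm]
  have h1 : ‖π p.1 - x‖ ^ 2 ≤ Real.exp l ^ 2 := by
    rw [← Real.exp_nat_mul]; push_cast; exact hp.1.le
  exact (sq_le_sq₀ (norm_nonneg _) (Real.exp_pos _).le).1 h1

theorem test_c2w {F : Euc n → ℝ} {G : Euc n → Euc n} {A : Euc n → L n} {q : ℝ}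
    (h : Well_761.Test F G A q) : C2w F G A where
  hasF := h.dF
  hasdF := h.dG
  contH := by
    have h1 : A = fderiv ℝ G := funext fun y => (h.dG y).fderiv.symm
    rw [h1]
    exact h.cG.continuous_fderiv (by simp)

/-- **the instance of `Flow`**, first variation terms in `er` -/
theorem flow_of (hfr : ∀ x L, Fr V π κ x L) (hh : ∀ x L, Hgt V π κ x L h₀)
    (hg : Prof g g1 g2) {Kg K : ℝ} (hg0 : ∀ t, 0 ≤ t → 0 ≤ g t) (hKg : ∀ t, 0 ≤ t → g t ≤ Kg)
    (hK1 : ∀ t, 0 ≤ t → |g1 t| ≤ K) (hK2 : ∀ t, 0 ≤ t → |t * g2 t| ≤ K)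
    {er : Euc m → ℝ → ℝ → ℝ}
    (her : ∀ x l, dist x x₀ + Real.exp l ≤ ρ₀ → ∀ (F : Euc n → ℝ) (G : Euc n → Euc n)
      (A : Euc n → L n) (q : ℝ), 0 < q → Well_761.Test F G A q →
      2 * Real.exp (-m * l) * |FV V (X3 π κ x F g1 l)| +
        Real.exp ((2 - m) * l) * |FV V (X2 π κ x G g l)| ≤ er x l q) :
    Well_761.Flow m (kap g1) (muOf V π κ) (enOf V π κ) (fun x l => RR V π x g1 l) er
      (Kg * (1 + Well_761.etaC / 8) + 6 * K) x₀ ρ₀ where
  K0 := by
    have h1 := (hg0 0 le_rfl).trans (hKg 0 le_rfl)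
    have h2 : 0 ≤ K := (abs_nonneg _).trans (hK1 0 le_rfl)
    have h3 := Well_761.etaC_nonneg
    positivity
  Rnn x l := RR_nonneg' hg (hfr x l) x l
  flow := by
    intro x l hx F G A q hq hT
    have hF := test_c2w hT
    have hfr' := hfr x (l + 1)
    have hh' := hh x (l + 1)
    have hl : l < l + 1 := by linarith
    have h1 := (hasDerivAt_IF hfr' hh' hF hg hl).div_const 2
    have hKg0 : 0 ≤ Kg := (hg0 0 le_rfl).trans (hKg 0 le_rfl)
    have hK0 : 0 ≤ K := (abs_nonneg _).trans (hK1 0 le_rfl)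
    have hB0 : 0 ≤ 1 + Well_761.etaC / 8 := by
      have := Well_761.etaC_nonneg; linarith
    have hfun : (fun l => Well_761.nu m (kap g1) (muOf V π κ) x l F) =
        fun l => IF V π κ x F g1 l / 2 := by
      funext l'
      rw [nu_eq hg V π κ x l' hT.meas, IF_eq_nuG]
    have hGm : Measurable fun y : Euc n => ‖G y‖ ^ 2 :=
      (hT.cG.continuous.norm.pow 2).measurable
    have hers := her x l hx F G A q hq hT
    have hexp : Real.exp (-m * l) = Real.exp (-(m * l)) := by congr 1; ring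
    have hexp2 : Real.exp ((2 - m) * l) = Real.exp (2 * l) * Real.exp (-(m * l)) := by
      rw [← Real.exp_add]; congr 1; ring
    have hFV2 := le_abs_self (FV V (X2 π κ x G g l))
    have hFV3 := le_abs_self (FV V (X3 π κ x F g1 l))
    have hP2 := Real.exp_pos ((2 - m) * l)
    have hPm := Real.exp_pos (-m * l)
    refine ⟨_, by rw [hfun]; exact h1, ?_, ?_⟩
    · -- (N2)
      have e1 := abs_eF_sub_le hfr' hh' hF hg hl.le
      have e2 := abs_err3_le_S hfr' hg hK1 hK2 hT.bF MeasurableSet.univ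
        (fun y hy => (hy (mem_univ y)).elim) hl.le
      have e3 := tS_le_en hfr' hl (S := (univ : Set (Euc n))) MeasurableSet.univ
      rw [nu_eq hg V π κ x l hGm]
      set a := eF V π κ x A g l - Real.exp ((2 - m) * l) * FV V (X2 π κ x G g l) with ha
      set E := (enOf V π κ (Well_761.cyl x (Real.exp l) univ)).toReal with hE
      have hE0 : 0 ≤ E := ENNReal.toReal_nonneg
      have e4 : (2 * eF V π κ x A g l + err3 V π κ x F g1 g2 l +
          (4 * Real.exp (-m * l) * FV V (X3 π κ x F g1 l) -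
            2 * (Real.exp ((2 - m) * l) * FV V (X2 π κ x G g l)))) / 2 =
          a + err3 V π κ x F g1 g2 l / 2 + 2 * Real.exp (-m * l) * FV V (X3 π κ x F g1 l) := by
        rw [ha]; ring
      rw [e4]
      have e5 : |a + err3 V π κ x F g1 g2 l / 2 + 2 * Real.exp (-m * l) * FV V (X3 π κ x F g1 l)| ≤
          |a| + |err3 V π κ x F g1 g2 l| / 2 +
            2 * Real.exp (-m * l) * |FV V (X3 π κ x F g1 l)| := by
        refine (abs_add_le _ _).trans (add_le_add ((abs_add_le _ _).trans (add_le_add le_rfl ?_)) ?_)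
        · rw [abs_div, abs_of_pos (by norm_num : (0:ℝ) < 2)]
        · rw [abs_mul, abs_of_pos (by positivity : 0 < 2 * Real.exp (-m * l))]
      have e6 : |err3 V π κ x F g1 g2 l| / 2 ≤ 6 * K * q ^ 2 * Real.exp (-(m * l)) * E := by
        have e7 : 12 * K * q ^ 2 * Real.exp (-m * l) * tS V π κ x l univ ≤
            12 * K * q ^ 2 * Real.exp (-m * l) * E :=
          mul_le_mul_of_nonneg_left e3 (by positivity)
        rw [← hexp]
        linarith
      have e8 : 6 * K * q ^ 2 * Real.exp (-(m * l)) * E ≤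
          (Kg * (1 + Well_761.etaC / 8) + 6 * K) * q ^ 2 * Real.exp (-(m * l)) * E := by
        have : 0 ≤ Kg * (1 + Well_761.etaC / 8) := mul_nonneg hKg0 hB0
        gcongr
        linarith
      have e9 : 0 ≤ Real.exp ((2 - m) * l) * |FV V (X2 π κ x G g l)| := by positivity
      linarith
    · -- (N1)
      intro S hS hoff
      have e1 := eF_le_S hfr' hh' hF hg hg0 hKg hT.bA hS (fun y hy => (hoff y hy).2) hl.le
      have e2 := abs_err3_le_S hfr' hg hK1 hK2 hT.bF hS (fun y hy => (hoff y hy).1) hl.le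
      have e3 := tS_le_en hfr' hl hS
      set E := (enOf V π κ (Well_761.cyl x (Real.exp l) S)).toReal with hE
      have hE0 : 0 ≤ E := ENNReal.toReal_nonneg
      have e5 : Real.exp ((2 - m) * l) * ((1 + Well_761.etaC / 8) * Kg * tS V π κ x l S) ≤
          Real.exp ((2 - m) * l) * ((1 + Well_761.etaC / 8) * Kg * E) := by
        gcongr
      have e6 : err3 V π κ x F g1 g2 l / 2 ≤ 6 * K * q ^ 2 * Real.exp (-(m * l)) * E := by
        have e7 : 12 * K * q ^ 2 * Real.exp (-m * l) * tS V π κ x l S ≤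
            12 * K * q ^ 2 * Real.exp (-m * l) * E :=
          mul_le_mul_of_nonneg_left e3 (by positivity)
        have e8 := le_abs_self (err3 V π κ x F g1 g2 l)
        rw [← hexp]
        linarith
      have e9 : Real.exp ((2 - m) * l) * ((1 + Well_761.etaC / 8) * Kg * E) +
          6 * K * q ^ 2 * Real.exp (-(m * l)) * E ≤
          (Kg * (1 + Well_761.etaC / 8) + 6 * K) * (Real.exp (2 * l) + q ^ 2) *
            Real.exp (-(m * l)) * E := by
        rw [hexp2]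
        have h2 : 0 ≤ Kg * (1 + Well_761.etaC / 8) * q ^ 2 * Real.exp (-(m * l)) * E := by
          positivity
        have h3 : 0 ≤ 6 * K * Real.exp (2 * l) * Real.exp (-(m * l)) * E := by positivity
        nlinarith
      have e10 : -(Real.exp ((2 - m) * l) * FV V (X2 π κ x G g l)) ≤
          Real.exp ((2 - m) * l) * |FV V (X2 π κ x G g l)| := by
        have := neg_abs_le (FV V (X2 π κ x G g l))
        nlinarith
      have e11 : 2 * Real.exp (-m * l) * FV V (X3 π κ x F g1 l) ≤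
          2 * Real.exp (-m * l) * |FV V (X3 π κ x F g1 l)| := by
        gcongr
      linarith

/-! ### the stationary case -/



variable {R : ℝ}






end Crest.Agent.R234.Wi_870
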