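import Crest.Agent.R234.MgDefs4_570
import Crest.Agent.R234.Th2_186
import Crest.Agent.R234.Ibp2_937

-- ▼ part R234/Wj1_186
section

/-!
# Row 234, node F2-WJ (helper186), file 1: the bridge from `CylStat`, `u` to `HStat`, `GD`
-/

set_option autoImplicit false

open MeasureTheory Filter Topology Set
open scoped ENNReal NNReal ContDiff InnerProductSpace
open Crest.GeometryTopology.Submanifold Crest.Agent.R234.Vf_884
open Crest.Agent.R234.Ell1_3 (gop ginv dns)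
open Crest.Agent.R234.Cy_870 (Split tr_cyc CylStat)
open Crest.Agent.R234.Ibp_937 (tr_eb)
open Crest.Agent.R234.MG_570 (TG)
open Crest.Agent.R234.Mx5_397 (msop)
open Crest.Agent.R234.Sel1_570 Crest.Agent.R234.Sel2_570 Crest.Agent.R234.Th_186
open Crest.Agent.R234.Pt_615 (HStat HBase)

noncomputable section

namespace Crest.Agent.R234.Wj_186

variable {m n k : ℕ} {π : Euc k →L[ℝ] Euc m} {ρ : Euc k →L[ℝ] Euc n} {u : Euc m → Euc n}

local notation "adj" => ContinuousLinearMap.adjoint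
local notation "eb" => stdOrthonormalBasis ℝ (Euc m)

/-- horizontal projection -/
def Hp (π : Euc k →L[ℝ] Euc m) : L k := adj π ∘L π

/-- the graph map -/
def wg (π : Euc k →L[ℝ] Euc m) (ρ : Euc k →L[ℝ] Euc n) (u : Euc m → Euc n) (z : Euc k) : Euc k :=
  adj ρ (u (π z))

theorem Hp_apply (z : Euc k) : Hp π z = adj π (π z) := rfl

theorem pi_Hp (h : Split π ρ) (z : Euc k) : π (Hp π z) = π z := by
  rw [Hp_apply, hh_apply h]

theorem gd (h : Split π ρ) (hu : ContDiff ℝ 3 u) : GD (Hp π) (wg π ρ u) where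
  idem := by
    ext1 z
    exact congrArg (adj π) (hh_apply h (π z))
  sa := by
    rw [ContinuousLinearMap.star_eq_adjoint, Hp, ContinuousLinearMap.adjoint_comp,
      ContinuousLinearMap.adjoint_adjoint]
  smooth := (adj ρ).contDiff.comp (hu.comp π.contDiff)
  hor z := by rw [wg, pi_Hp h, wg]
  ver z := by rw [wg, Hp_apply, hv_apply h, map_zero]

theorem Bz_eq (hu : ContDiff ℝ 3 u) (z : Euc k) :
    Bz (wg π ρ u) z = adj ρ ∘L fderiv ℝ u (π z) ∘L π := by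
  have h1 : HasFDerivAt u (fderiv ℝ u (π z)) (π z) :=
    (hu.differentiable (by norm_num) (π z)).hasFDerivAt
  exact ((adj ρ).hasFDerivAt.comp z (h1.comp z π.hasFDerivAt)).fderiv

theorem TZ_eq (hu : ContDiff ℝ 3 u) (z : Euc k) :
    TZ (Hp π) (wg π ρ u) z = TG π ρ u (π z) := by
  rw [TZ, Bz_eq hu]; rfl

theorem ht_eq (h : Split π ρ) (z : Euc k) :
    ht (Hp π) (wg π ρ u) z = adj ρ (ρ z - u (π z)) := by
  have h1 : z - Hp π z = adj ρ (ρ z) := by
    rw [Hp_apply, sub_eq_iff_eq_add', sum_apply' h]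
  rw [ht, h1, map_sub]; rfl

theorem norm_ht (h : Split π ρ) (z : Euc k) :
    ‖ht (Hp π) (wg π ρ u) z‖ = ‖ρ z - u (π z)‖ := by
  rw [ht_eq h, norm_adj_rho h]

theorem tr_H (h : Split π ρ) : tr (Hp π) = m := by
  rw [Hp, tr_cyc, h.hh, tr_one]


theorem norm_rho_le (h : Split π ρ) (z : Euc k) : ‖ρ z‖ ≤ ‖z‖ := by
  have h1 := h.norm_sq z
  have h2 : ‖ρ z‖ ^ 2 ≤ ‖z‖ ^ 2 := by nlinarith [sq_nonneg ‖π z‖]
  exact abs_le_of_sq_le_sq' h2 (norm_nonneg _) |>.2

theorem k_eq (h : Split π ρ) : (k : ℝ) = m + n := by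
  have h1 := congrArg (fun A : L k => tr A) h.sum
  simp only [map_add] at h1
  rw [tr_cyc, h.hh, tr_cyc, h.vv, tr_one, tr_one, tr_one] at h1
  exact h1.symm

theorem hstat {W : Measure (Euc k × L k)} {R : ℝ} (hW : CylStat W π ρ 0 R 1) :
    HStat m (Hp π) {y | ‖π y‖ < R} W where
  conc := hW.conc
  bdd := by
    refine ⟨R + 1, ?_⟩
    filter_upwards [hW.base, hW.hgt] with p h1 h2
    rw [sub_zero] at h1
    calc ‖p.1‖ = ‖adj π (π p.1) + adj ρ (ρ p.1)‖ := by rw [sum_apply' hW.sp]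
      _ ≤ ‖adj π (π p.1)‖ + ‖adj ρ (ρ p.1)‖ := norm_add_le _ _
      _ ≤ R + 1 := by rw [norm_adj_pi hW.sp, norm_adj_rho hW.sp]; gcongr
  stat X hX h0 := hW.stat X hX fun p hp => h0 p (by
    rw [sub_zero] at hp
    simp only [mem_ofPred_eq, not_lt, pi_Hp hW.sp]
    exact hp)

theorem fderiv_Bz (hu : ContDiff ℝ 3 u) (z v : Euc k) :
    fderiv ℝ (Bz (wg π ρ u)) z v
      = adj ρ ∘L (fderiv ℝ (fderiv ℝ u) (π z) (π v)) ∘L π := by
  have h0 : ContDiff ℝ 2 (fderiv ℝ u) := hu.fderiv_right (by norm_num)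
  have h1 : HasFDerivAt (fderiv ℝ u) (fderiv ℝ (fderiv ℝ u) (π z)) (π z) :=
    (h0.differentiable (by norm_num) (π z)).hasFDerivAt
  have h2 : HasFDerivAt (fun y : Euc k => fderiv ℝ u (π y))
      (fderiv ℝ (fderiv ℝ u) (π z) ∘L π) z := h1.comp z π.hasFDerivAt
  have h3 : HasFDerivAt (fun y : Euc k => adj ρ ∘L (fderiv ℝ u (π y) ∘L π))
      (((ContinuousLinearMap.compL ℝ (Euc k) (Euc n) (Euc k)) (adj ρ)) ∘L
        (((ContinuousLinearMap.compL ℝ (Euc k) (Euc m) (Euc n)).flip π) ∘L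
          (fderiv ℝ (fderiv ℝ u) (π z) ∘L π))) z :=
    ((ContinuousLinearMap.compL ℝ (Euc k) (Euc n) (Euc k)) (adj ρ)).hasFDerivAt.comp z
      (((ContinuousLinearMap.compL ℝ (Euc k) (Euc m) (Euc n)).flip π).hasFDerivAt.comp z h2)
  have h4 : Bz (wg π ρ u) = fun y : Euc k => adj ρ ∘L (fderiv ℝ u (π y) ∘L π) := by
    funext y; exact Bz_eq hu y
  rw [h4, h3.fderiv]
  rfl

/-- the second fundamental operator -/
theorem AA_eq (h : Split π ρ) (hu : ContDiff ℝ 3 u) (z e v : Euc k) :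
    AA (wg π ρ u) z e v = adj π (adj (fderiv ℝ (fderiv ℝ u) (π z) (π v)) (ρ e)) := by
  refine ext_inner_right ℝ fun v' => ?_
  rw [(gd h hu).AA_inner]
  have h1 : fderiv ℝ (fderiv ℝ (wg π ρ u)) z v v' = fderiv ℝ (Bz (wg π ρ u)) z v v' := rfl
  rw [h1, fderiv_Bz hu, ContinuousLinearMap.adjoint_inner_left,
    ContinuousLinearMap.adjoint_inner_left]
  have h2 : (adj ρ ∘L (fderiv ℝ (fderiv ℝ u) (π z) (π v)) ∘L π) v'
      = adj ρ (fderiv ℝ (fderiv ℝ u) (π z) (π v) (π v')) := rfl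
  rw [h2, ContinuousLinearMap.adjoint_inner_right]

/-- trace against the tangent projection of an operator `π† S π` -/
theorem tr_TZ (h : Split π ρ) (hu : ContDiff ℝ 3 u) (z : Euc k) (S : L m) :
    tr ((adj π ∘L S ∘L π) ∘L TZ (Hp π) (wg π ρ u) z)
      = ∑ i, ⟪S (ginv (fderiv ℝ u (π z)) (eb i)), eb i⟫_ℝ := by
  rw [TZ_eq hu, TG_eq h]
  set q := fderiv ℝ u (π z) with hq
  have h1 : (adj π ∘L S ∘L π) ∘L Tq π ρ q = (adj π ∘L S ∘L ginv q) ∘L adj (Fq π ρ q) := by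
    ext1 v
    show adj π (S (π (Fq π ρ q (ginv q (adj (Fq π ρ q) v))))) = _
    rw [pi_Fq h]; rfl
  rw [h1, tr_cyc, tr_eb]
  refine Finset.sum_congr rfl fun i _ => ?_
  have e1 : (adj (Fq π ρ q) ∘L (adj π ∘L S ∘L ginv q)) (eb i)
      = adj (Fq π ρ q) (adj π (S (ginv q (eb i)))) := rfl
  rw [e1, ContinuousLinearMap.adjoint_inner_right, ContinuousLinearMap.adjoint_inner_right,
    pi_Fq h, real_inner_comm]

/-- the second fundamental operator on the base -/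
def Sx (u : Euc m → Euc n) (π : Euc k →L[ℝ] Euc m) (ρ : Euc k →L[ℝ] Euc n) (z e : Euc k) : L m :=
  π ∘L AA (wg π ρ u) z e ∘L adj π

theorem Sx_apply (h : Split π ρ) (hu : ContDiff ℝ 3 u) (z e : Euc k) (x : Euc m) :
    Sx u π ρ z e x = adj (fderiv ℝ (fderiv ℝ u) (π z) x) (ρ e) := by
  have h1 : Sx u π ρ z e x = π (AA (wg π ρ u) z e (adj π x)) := rfl
  rw [h1, AA_eq h hu, hh_apply h, hh_apply h]

theorem AA_Sx (h : Split π ρ) (hu : ContDiff ℝ 3 u) (z e : Euc k) :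
    AA (wg π ρ u) z e = adj π ∘L Sx u π ρ z e ∘L π := by
  ext1 v
  have h1 : (adj π ∘L Sx u π ρ z e ∘L π) v = adj π (Sx u π ρ z e (π v)) := rfl
  rw [h1, Sx_apply h hu, AA_eq h hu]

theorem min_of (h : Split π ρ) (hu : ContDiff ℝ 3 u) {z : Euc k} (hz : msop u (π z) = 0) :
    Min (Hp π) (wg π ρ u) z := by
  intro e
  have h1 : tr (AA (wg π ρ u) z e * TZ (Hp π) (wg π ρ u) z)
      = tr ((adj π ∘L Sx u π ρ z e ∘L π) ∘L TZ (Hp π) (wg π ρ u) z) := by
    rw [← AA_Sx h hu]; rfl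
  rw [h1, tr_TZ h hu]
  have h2 : ∀ i, ⟪Sx u π ρ z e (ginv (fderiv ℝ u (π z)) (eb i)), eb i⟫_ℝ
      = ⟪ρ e, fderiv ℝ (fderiv ℝ u) (π z) (ginv (fderiv ℝ u (π z)) (eb i)) (eb i)⟫_ℝ := fun i => by
    rw [Sx_apply h hu, ContinuousLinearMap.adjoint_inner_left]
  simp only [h2]
  rw [← inner_sum]
  have h3 : ∑ i, fderiv ℝ (fderiv ℝ u) (π z) (ginv (fderiv ℝ u (π z)) (eb i)) (eb i)
      = msop u (π z) := rfl
  rw [h3, hz, inner_zero_right]

end Crest.Agent.R234.Wj_186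
end
end

-- ▼ part R234/Wj3_186
section

/-!
# Row 234, node F2-WJ (helper186), file 3: the integrand of the weak Jacobi inequality is `lopT`
-/

set_option autoImplicit false

open MeasureTheory Filter Topology Set
open scoped ENNReal NNReal ContDiff InnerProductSpace
open Crest.GeometryTopology.Submanifold Crest.Agent.R234.Vf_884
open Crest.Agent.R234.Ell1_3 (gop ginv dns adjL)
open Crest.Agent.R234.Cy_870 (Split tr_cyc CylStat)
open Crest.Agent.R234.Ibp_937 (tr_eb)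
open Crest.Agent.R234.MG_570 (TG Psi lopT)
open Crest.Agent.R234.Mx5_397 (msop)
open Crest.Agent.R234.Sel1_570 Crest.Agent.R234.Sel2_570 Crest.Agent.R234.Th_186
open Crest.Agent.R234.Pt_615 (HStat HBase)

noncomputable section

namespace Crest.Agent.R234.Wj_186

variable {m n k : ℕ} {π : Euc k →L[ℝ] Euc m} {ρ : Euc k →L[ℝ] Euc n} {u : Euc m → Euc n}

local notation "adj" => ContinuousLinearMap.adjoint
local notation "eb" => stdOrthonormalBasis ℝ (Euc m)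

/-! ### `gI` -/

theorem norm_gI_le (B : L k) : ‖gI B‖ ≤ 1 := Sw_733.norm_ginv_le (F := Euc k) (V := Euc k) B

theorem norm_star' (B : L k) : ‖star B‖ = ‖B‖ := norm_star B

theorem norm_gI_sub {B B' : L k} (h : ‖B‖ ≤ 1) (h' : ‖B'‖ ≤ 1) :
    ‖gI B - gI B'‖ ≤ 2 * ‖B - B'‖ := by
  have e : gI B - gI B' = gI B * (star B' * (B' - B) + star (B' - B) * B) * gI B' := by
    have e1 : star B' * (B' - B) + star (B' - B) * B = star B' * B' - star B * B := by
      rw [ssub]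
      nr570
    have e2 : star B' * B' - star B * B = (1 + star B' * B') - (1 + star B * B) := by abel
    rw [e1, e2, mul_sub, gI_mul, sub_mul, mul_assoc, mul_gI, mul_one, one_mul]
  have h1 : ‖star B' * (B' - B) + star (B' - B) * B‖ ≤ 2 * ‖B - B'‖ := by
    refine (norm_add_le _ _).trans ?_
    have a1 : ‖star B' * (B' - B)‖ ≤ 1 * ‖B - B'‖ := by
      refine (norm_mul_le _ _).trans ?_
      rw [norm_star', norm_sub_rev B' B]
      gcongr
    have a2 : ‖star (B' - B) * B‖ ≤ ‖B - B'‖ * 1 := by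
      refine (norm_mul_le _ _).trans ?_
      rw [norm_star', norm_sub_rev B' B]
      gcongr
    linarith
  rw [e]
  calc ‖gI B * (star B' * (B' - B) + star (B' - B) * B) * gI B'‖
      ≤ ‖gI B‖ * ‖star B' * (B' - B) + star (B' - B) * B‖ * ‖gI B'‖ :=
        (norm_mul_le _ _).trans (by gcongr; exact norm_mul_le _ _)
    _ ≤ 1 * (2 * ‖B - B'‖) * 1 := by
        gcongr
        · exact norm_gI_le B
        · exact norm_gI_le B'
    _ = _ := by ring

theorem gI_adj (h : Split π ρ) (q : Euc m →L[ℝ] Euc n) (x : Euc m) :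
    gI (adj ρ ∘L q ∘L π) (adj π x) = adj π (ginv q x) := by
  set B : L k := adj ρ ∘L q ∘L π with hB
  have hBs : star B = adj π ∘L adj q ∘L ρ := by
    rw [ContinuousLinearMap.star_eq_adjoint, hB, ContinuousLinearMap.adjoint_comp,
      ContinuousLinearMap.adjoint_comp, ContinuousLinearMap.adjoint_adjoint]
    rfl
  have h1 : ∀ x : Euc m, (1 + star B * B : L k) (adj π x) = adj π (gop q x) := by
    intro x
    have e1 : (1 + star B * B : L k) (adj π x) = adj π x + star B (B (adj π x)) := rfl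
    have e2 : B (adj π x) = adj ρ (q (π (adj π x))) := rfl
    have e3 : ∀ y, star B y = adj π (adj q (ρ y)) := fun y => by rw [hBs]; rfl
    have e4 : gop q x = x + adj q (q x) := rfl
    rw [e1, e2, e3, hh_apply h, vv_apply h, e4, map_add]
  have h2 : ∀ x : Euc m, gI B (adj π (gop q x)) = adj π x := by
    intro x
    have := congrArg (fun A : L k => A (adj π x)) (gI_mul B)
    have e : gI B ((1 + star B * B : L k) (adj π x)) = adj π x := this
    rwa [h1] at e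
  have := h2 (ginv q x)
  rwa [Ibp_937.gop_ginv_apply] at this

/-- `QQ` on vertical vectors -/
theorem QQ_eq (h : Split π ρ) (hu : ContDiff ℝ 3 u) (z : Euc k) (e y : Euc n) :
    QQ (wg π ρ u) z (adj ρ e) (adj ρ y)
      = adj π (adj (fderiv ℝ (fderiv ℝ u) (π z) (ginv (fderiv ℝ u (π z))
          (adj (fderiv ℝ u (π z)) y))) e) := by
  have h1 : QQ (wg π ρ u) z (adj ρ e) (adj ρ y)
      = AA (wg π ρ u) z (adj ρ e) (gI (Bz (wg π ρ u) z) (star (Bz (wg π ρ u) z) (adj ρ y))) := rfl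
  have h2 : star (Bz (wg π ρ u) z) (adj ρ y) = adj π (adj (fderiv ℝ u (π z)) y) := by
    rw [Bz_eq hu, ContinuousLinearMap.star_eq_adjoint, ContinuousLinearMap.adjoint_comp,
      ContinuousLinearMap.adjoint_comp, ContinuousLinearMap.adjoint_adjoint]
    show adj π (adj (fderiv ℝ u (π z)) (ρ (adj ρ y))) = _
    rw [vv_apply h]
  rw [h1, h2, Bz_eq hu, gI_adj h, AA_eq h hu, hh_apply h, vv_apply h]

/-! ### the test functions -/

variable {φ : Euc m → Euc n}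

/-- component of the test field -/
def ph (π : Euc k →L[ℝ] Euc m) (φ : Euc m → Euc n) (e : Euc n) (z : Euc k) : ℝ := ⟪φ (π z), e⟫_ℝ

/-- its gradient -/
def Gp (π : Euc k →L[ℝ] Euc m) (φ : Euc m → Euc n) (e : Euc n) (z : Euc k) : Euc k :=
  adj π (adjL (fderiv ℝ φ (π z)) e)

theorem hasFDerivAt_ph (hφ : ContDiff ℝ 2 φ) (e : Euc n) (z : Euc k) :
    HasFDerivAt (ph π φ e) (innerSL ℝ (Gp π φ e z)) z := by
  have h1 : HasFDerivAt φ (fderiv ℝ φ (π z)) (π z) :=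
    (hφ.differentiable (by norm_num) (π z)).hasFDerivAt
  have h2 : HasFDerivAt (fun z => φ (π z)) (fderiv ℝ φ (π z) ∘L π) z := h1.comp z π.hasFDerivAt
  refine (h2.inner ℝ (hasFDerivAt_const e z)).congr_fderiv ?_
  ext1 v
  rw [ContinuousLinearMap.comp_apply, fderivInnerCLM_apply, innerSL_apply_apply, Gp,
    ContinuousLinearMap.adjoint_inner_left, Ell1_3.adjL_apply,
    ContinuousLinearMap.adjoint_inner_left]
  simp
  rw [real_inner_comm]

theorem contDiff_ph (hφ : ContDiff ℝ 2 φ) (e : Euc n) : ContDiff ℝ 2 (ph π φ e) :=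
  (hφ.comp π.contDiff).inner ℝ contDiff_const

theorem contDiff_Gp (hφ : ContDiff ℝ 2 φ) (e : Euc n) : ContDiff ℝ 1 (Gp π φ e) := by
  have h1 : ContDiff ℝ 1 (fderiv ℝ φ) := hφ.fderiv_right (by norm_num)
  have h2 : ContDiff ℝ 1 fun z : Euc k => adjL (fderiv ℝ φ (π z)) :=
    (adjL (F := Euc m) (V := Euc n)).contDiff.comp (h1.comp π.contDiff)
  exact (adj π).contDiff.comp (h2.clm_apply contDiff_const)

theorem fderiv_Gp (hφ : ContDiff ℝ 2 φ) (e : Euc n) (z v : Euc k) :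
    fderiv ℝ (Gp π φ e) z v = adj π (adjL (fderiv ℝ (fderiv ℝ φ) (π z) (π v)) e) := by
  have h1 : ContDiff ℝ 1 (fderiv ℝ φ) := hφ.fderiv_right (by norm_num)
  have h2 : HasFDerivAt (fderiv ℝ φ) (fderiv ℝ (fderiv ℝ φ) (π z)) (π z) :=
    (h1.differentiable one_ne_zero (π z)).hasFDerivAt
  have h3 : HasFDerivAt (fun z : Euc k => adjL (fderiv ℝ φ (π z)))
      ((adjL (F := Euc m) (V := Euc n)) ∘L (fderiv ℝ (fderiv ℝ φ) (π z) ∘L π)) z :=
    (adjL (F := Euc m) (V := Euc n)).hasFDerivAt.comp z (h2.comp z π.hasFDerivAt)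
  have h4 : HasFDerivAt (Gp π φ e) _ z :=
    (adj π).hasFDerivAt.comp z (h3.clm_apply (hasFDerivAt_const e z))
  rw [h4.fderiv]
  simp

/-- a `C¹` function which vanishes off the open ball has vanishing derivative there -/
theorem fderiv_zero_of' {G : Type*} [NormedAddCommGroup G] [NormedSpace ℝ G] {r : ℝ} (hr : 0 < r)
    {Y : Euc m → G} (hY : ContDiff ℝ 1 Y)
    (h0 : ∀ x, r ≤ ‖x‖ → Y x = 0) {x : Euc m} (hx : r ≤ ‖x‖) : fderiv ℝ Y x = 0 := by
  have hgt : ∀ y : Euc m, r < ‖y‖ → fderiv ℝ Y y = 0 := by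
    intro y hy
    have : Y =ᶠ[𝓝 y] fun _ => 0 := by
      have ho : IsOpen {y : Euc m | r < ‖y‖} := isOpen_lt continuous_const continuous_norm
      filter_upwards [ho.mem_nhds hy] with z hz
      exact h0 z (le_of_lt hz)
    rw [this.fderiv_eq]
    exact fderiv_const_apply (0 : G)
  have hc : Continuous fun t : ℝ => fderiv ℝ Y (t • x) :=
    (hY.continuous_fderiv one_ne_zero).comp (continuous_id.smul continuous_const)
  have h1 : Tendsto (fun t : ℝ => fderiv ℝ Y (t • x)) (𝓝[>] 1) (𝓝 (fderiv ℝ Y x)) := by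
    have := (hc.tendsto 1).mono_left (nhdsWithin_le_nhds (s := Ioi 1))
    simpa using this
  have h2 : Tendsto (fun t : ℝ => fderiv ℝ Y (t • x)) (𝓝[>] 1) (𝓝 0) := by
    refine tendsto_const_nhds.congr' ?_
    filter_upwards [self_mem_nhdsWithin] with t ht
    rw [hgt]
    have ht' : (1 : ℝ) < t := ht
    rw [norm_smul, Real.norm_eq_abs, abs_of_pos (by linarith)]
    have : 0 < ‖x‖ := hr.trans_le hx
    nlinarith
  exact tendsto_nhds_unique h1 h2

theorem tf (h : Split π ρ) (hφ : ContDiff ℝ 2 φ) {r R : ℝ} (hr : 0 < r) (hR : r < R)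
    (h0 : ∀ x, r ≤ ‖x‖ → φ x = 0) (e : Euc n) :
    TF (Hp π) {y | ‖π y‖ < R} (ph π φ e) (Gp π φ e) where
  der z := hasFDerivAt_ph hφ e z
  smooth := (contDiff_ph hφ e).of_le (by norm_num)
  smoothG := contDiff_Gp hφ e
  zero z hz := by
    simp only [mem_ofPred_eq, not_lt, pi_Hp h] at hz
    rw [ph, h0 _ (hR.le.trans hz), inner_zero_left]
  zeroG z hz := by
    simp only [mem_ofPred_eq, not_lt, pi_Hp h] at hz
    rw [Gp, fderiv_zero_of' hr (hφ.of_le (by norm_num)) h0 (hR.le.trans hz), map_zero]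
    simp

/-! ### the integrand -/

/-- the integrand of `GD.weak_jacobi` -/
def Fi (π : Euc k →L[ℝ] Euc m) (ρ : Euc k →L[ℝ] Euc n) (u φ : Euc m → Euc n) (e : Euc n)
    (z : Euc k) : ℝ :=
  ⟪ht (Hp π) (wg π ρ u) z, adj ρ e⟫_ℝ * tr (fderiv ℝ (Gp π φ e) z * TZ (Hp π) (wg π ρ u) z)
    + 2 * tr ((fderiv ℝ (fun z => ph π φ e z • QQ (wg π ρ u) z (adj ρ e)) z).flip
        (ht (Hp π) (wg π ρ u) z) * TZ (Hp π) (wg π ρ u) z)

theorem first_part (h : Split π ρ) (hu : ContDiff ℝ 3 u) (hφ : ContDiff ℝ 2 φ) (e : Euc n)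
    (z : Euc k) :
    ⟪ht (Hp π) (wg π ρ u) z, adj ρ e⟫_ℝ * tr (fderiv ℝ (Gp π φ e) z * TZ (Hp π) (wg π ρ u) z)
      = ∑ i, ⟪ρ z - u (π z), e⟫_ℝ * ⟪e, fderiv ℝ (fderiv ℝ φ) (π z)
          (ginv (fderiv ℝ u (π z)) (eb i)) (eb i)⟫_ℝ := by
  set S : L m := ((adjL (F := Euc m) (V := Euc n)).flip e) ∘L (fderiv ℝ (fderiv ℝ φ) (π z)) with hS
  have hSx : ∀ x, S x = adj (fderiv ℝ (fderiv ℝ φ) (π z) x) e := fun x => rfl
  have h1 : fderiv ℝ (Gp π φ e) z = adj π ∘L S ∘L π := by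
    ext1 v
    rw [fderiv_Gp hφ]; rfl
  have h2 : tr (fderiv ℝ (Gp π φ e) z * TZ (Hp π) (wg π ρ u) z)
      = tr ((adj π ∘L S ∘L π) ∘L TZ (Hp π) (wg π ρ u) z) := by rw [h1]; rfl
  rw [h2, tr_TZ h hu, ht_eq h, ContinuousLinearMap.adjoint_inner_right, vv_apply h,
    Finset.mul_sum]
  refine Finset.sum_congr rfl fun i _ => ?_
  rw [hSx, ContinuousLinearMap.adjoint_inner_left]

theorem second_sum (h : Split π ρ) (hu : ContDiff ℝ 3 u) (hφ : ContDiff ℝ 2 φ) (z : Euc k)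
    {ι : Type*} [Fintype ι] (b : OrthonormalBasis ι ℝ (Euc n)) (y : Euc n) :
    ∑ α, tr ((fderiv ℝ (fun z => ph π φ (b α) z • QQ (wg π ρ u) z (adj ρ (b α))) z).flip
        (adj ρ y) * TZ (Hp π) (wg π ρ u) z)
      = ∑ i, ⟪fderiv ℝ (fun x => Psi u φ x y) (π z)
          (ginv (fderiv ℝ u (π z)) (eb i)), eb i⟫_ℝ := by
  have hPs : ContDiff ℝ 1 fun x => Psi u φ x y := by
    simp only [Ibp_937.Psi_eq]
    exact (((Ibp_937.contDiff_Aop hu).clm_apply contDiff_const).clm_apply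
      (hφ.of_le (by norm_num)))
  have hc : ∀ α, ContDiff ℝ 1 fun z => ph π φ (b α) z • QQ (wg π ρ u) z (adj ρ (b α)) := fun α =>
    ((contDiff_ph hφ (b α)).of_le (by norm_num)).smul ((gd h hu).contDiff_QQ _)
  -- the sum of the fields
  have hsum : ∀ z : Euc k, ∑ α, (ph π φ (b α) z • QQ (wg π ρ u) z (adj ρ (b α))) (adj ρ y)
      = adj π (Psi u φ (π z) y) := by
    intro z
    have e1 : ∀ α, (ph π φ (b α) z • QQ (wg π ρ u) z (adj ρ (b α))) (adj ρ y)
        = adj π (adj (fderiv ℝ (fderiv ℝ u) (π z) (ginv (fderiv ℝ u (π z))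
          (adj (fderiv ℝ u (π z)) y))) (⟪φ (π z), b α⟫_ℝ • b α)) := by
      intro α
      rw [smul_apply, QQ_eq h hu, map_smul, map_smul, ph]
    simp only [e1]
    rw [← map_sum, ← map_sum]
    have e2 : ∑ α, ⟪φ (π z), b α⟫_ℝ • b α = φ (π z) := by
      conv_rhs => rw [← b.sum_repr' (φ (π z))]
      refine Finset.sum_congr rfl fun α _ => ?_
      rw [real_inner_comm]
    rw [e2]; rfl
  have hD : ∀ v : Euc k, ∑ α, (fderiv ℝ (fun z => ph π φ (b α) z •
      QQ (wg π ρ u) z (adj ρ (b α))) z).flip (adj ρ y) v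
      = adj π (fderiv ℝ (fun x => Psi u φ x y) (π z) (π v)) := by
    intro v
    have h1 : HasFDerivAt (fun z => ∑ α, (ph π φ (b α) z • QQ (wg π ρ u) z (adj ρ (b α)))
        (adj ρ y)) (∑ α, (fderiv ℝ (fun z => ph π φ (b α) z •
      QQ (wg π ρ u) z (adj ρ (b α))) z).flip (adj ρ y)) z := by
      refine HasFDerivAt.fun_sum fun α _ => ?_
      have h2 : HasFDerivAt (fun z => ph π φ (b α) z • QQ (wg π ρ u) z (adj ρ (b α))) _ z :=
        ((hc α).differentiable one_ne_zero z).hasFDerivAt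
      refine (h2.clm_apply (hasFDerivAt_const (adj ρ y) z)).congr_fderiv ?_
      ext1 v
      simp
    have h3 : HasFDerivAt (fun z => adj π (Psi u φ (π z) y))
        (adj π ∘L (fderiv ℝ (fun x => Psi u φ x y) (π z) ∘L π)) z :=
      (adj π).hasFDerivAt.comp z (((hPs.differentiable one_ne_zero (π z)).hasFDerivAt).comp z
        π.hasFDerivAt)
    simp only [hsum] at h1
    have h4 := congrArg (fun A : L k => A v) (h1.unique h3)
    simpa [sum_apply] using h4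
  have hop : ∑ α, (fderiv ℝ (fun z => ph π φ (b α) z •
      QQ (wg π ρ u) z (adj ρ (b α))) z).flip (adj ρ y)
      = adj π ∘L (fderiv ℝ (fun x => Psi u φ x y) (π z)) ∘L π := by
    ext1 v
    rw [sum_apply, hD]; rfl
  rw [← tr_TZ h hu, ← hop, ← map_sum]
  congr 1
  exact (Finset.sum_mul _ _ _).symm

/-- **the sum of the integrands is `lopT`** -/
theorem sum_Fi (h : Split π ρ) (hu : ContDiff ℝ 3 u) (hφ : ContDiff ℝ 2 φ) (z : Euc k)
    {ι : Type*} [Fintype ι] (b : OrthonormalBasis ι ℝ (Euc n)) :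
    ∑ α, Fi π ρ u φ (b α) z = lopT u φ (π z) (ρ z - u (π z)) := by
  unfold Fi lopT
  rw [Finset.sum_add_distrib]
  congr 1
  · simp only [first_part h hu hφ]
    rw [Finset.sum_comm]
    refine Finset.sum_congr rfl fun i _ => ?_
    rw [b.sum_inner_mul_inner, real_inner_comm]
  · rw [← Finset.mul_sum, ht_eq h, second_sum h hu hφ]

end Crest.Agent.R234.Wj_186
end
end

-- ▼ part R234/Wj4_186

/-!
# Row 234, node F2-WJ (helper186), file 4: bounds of the coefficients, the weak Jacobi inequality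
-/

set_option autoImplicit false
set_option maxSynthPendingDepth 3

open MeasureTheory Filter Topology Set
open scoped ENNReal NNReal ContDiff InnerProductSpace
open Crest.GeometryTopology.Submanifold Crest.Agent.R234.Vf_884
open Crest.Agent.R234.Ell1_3 (gop ginv dns adjL)
open Crest.Agent.R234.Cy_870 (Split tr_cyc CylStat)
open Crest.Agent.R234.MG_570 (TG Psi lopT)
open Crest.Agent.R234.Mx5_397 (msop)
open Crest.Agent.R234.Sel1_570 Crest.Agent.R234.Sel2_570 Crest.Agent.R234.Th_186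
open Crest.Agent.R234.Pt_615 (HStat HBase)

noncomputable section

namespace Crest.Agent.R234.Wj_186

variable {m n k : ℕ} {π : Euc k →L[ℝ] Euc m} {ρ : Euc k →L[ℝ] Euc n} {u φ : Euc m → Euc n}

local notation "adj" => ContinuousLinearMap.adjoint
local notation "eb" => stdOrthonormalBasis ℝ (Euc m)

/-- `C³` bounds of `u` -/
structure U3 (u : Euc m → Euc n) : Prop where
  sm : ContDiff ℝ 3 u
  d1 : ∀ x, ‖fderiv ℝ u x‖ ≤ 1
  d2 : ∀ x, ‖fderiv ℝ (fderiv ℝ u) x‖ ≤ 1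
  d3 : ∀ x, ‖fderiv ℝ (fderiv ℝ (fderiv ℝ u)) x‖ ≤ 1


theorem norm_Bz_le (h : Split π ρ) (hu : U3 u) (z : Euc k) : ‖Bz (wg π ρ u) z‖ ≤ 1 := by
  rw [Bz_eq hu.sm]
  refine ContinuousLinearMap.opNorm_le_bound _ zero_le_one fun v => ?_
  show ‖adj ρ (fderiv ℝ u (π z) (π v))‖ ≤ _
  rw [norm_adj_rho h]
  calc ‖fderiv ℝ u (π z) (π v)‖ ≤ ‖fderiv ℝ u (π z)‖ * ‖π v‖ := ContinuousLinearMap.le_opNorm _ _
    _ ≤ 1 * ‖v‖ := by
        gcongr
        · exact hu.d1 _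
        · exact norm_pi_le h v

theorem lip_fderiv {G : Type*} [NormedAddCommGroup G] [NormedSpace ℝ G] {f : Euc m → G} {C : ℝ}
    (hf : Differentiable ℝ f) (hC : ∀ x, ‖fderiv ℝ f x‖ ≤ C) (x y : Euc m) :
    ‖f x - f y‖ ≤ C * ‖x - y‖ :=
  convex_univ.norm_image_sub_le_of_norm_fderiv_le (fun x _ => hf x) (fun x _ => hC x)
    (mem_univ y) (mem_univ x)

theorem lip_Du (hu : U3 u) (x y : Euc m) : ‖fderiv ℝ u x - fderiv ℝ u y‖ ≤ ‖x - y‖ := by
  have h1 : ContDiff ℝ 2 (fderiv ℝ u) := hu.sm.fderiv_right (by norm_num)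
  have := lip_fderiv (h1.differentiable (by norm_num)) hu.d2 x y
  rwa [one_mul] at this

theorem lip_D2u (hu : U3 u) (x y : Euc m) :
    ‖fderiv ℝ (fderiv ℝ u) x - fderiv ℝ (fderiv ℝ u) y‖ ≤ ‖x - y‖ := by
  have h1 : ContDiff ℝ 2 (fderiv ℝ u) := hu.sm.fderiv_right (by norm_num)
  have h2 : ContDiff ℝ 1 (fderiv ℝ (fderiv ℝ u)) := h1.fderiv_right (by norm_num)
  have := lip_fderiv (h2.differentiable (by norm_num)) hu.d3 x y
  rwa [one_mul] at this

theorem norm_pi_sub_le (h : Split π ρ) (z z' : Euc k) : ‖π z - π z'‖ ≤ ‖z - z'‖ := by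
  rw [← map_sub]; exact norm_pi_le h _

theorem lip_Bz (h : Split π ρ) (hu : U3 u) (z z' : Euc k) :
    ‖Bz (wg π ρ u) z - Bz (wg π ρ u) z'‖ ≤ ‖z - z'‖ := by
  rw [Bz_eq hu.sm, Bz_eq hu.sm]
  refine ContinuousLinearMap.opNorm_le_bound _ (norm_nonneg _) fun v => ?_
  show ‖adj ρ (fderiv ℝ u (π z) (π v)) - adj ρ (fderiv ℝ u (π z') (π v))‖ ≤ _
  rw [← map_sub, norm_adj_rho h, ← sub_apply]
  calc ‖(fderiv ℝ u (π z) - fderiv ℝ u (π z')) (π v)‖
      ≤ ‖fderiv ℝ u (π z) - fderiv ℝ u (π z')‖ * ‖π v‖ := ContinuousLinearMap.le_opNorm _ _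
    _ ≤ ‖z - z'‖ * ‖v‖ := by
        gcongr
        · exact (lip_Du hu _ _).trans (norm_pi_sub_le h z z')
        · exact norm_pi_le h v

theorem norm_adj' (q : Euc m →L[ℝ] Euc n) : ‖adj q‖ = ‖q‖ := LinearIsometryEquiv.norm_map _ q

theorem norm_AA_le (h : Split π ρ) (hu : U3 u) (z e : Euc k) :
    ‖AA (wg π ρ u) z e‖ ≤ ‖e‖ := by
  refine ContinuousLinearMap.opNorm_le_bound _ (norm_nonneg _) fun v => ?_
  rw [AA_eq h hu.sm, norm_adj_pi h]
  calc ‖adj (fderiv ℝ (fderiv ℝ u) (π z) (π v)) (ρ e)‖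
      ≤ ‖adj (fderiv ℝ (fderiv ℝ u) (π z) (π v))‖ * ‖ρ e‖ := ContinuousLinearMap.le_opNorm _ _
    _ ≤ (1 * ‖v‖) * ‖e‖ := by
        rw [norm_adj']
        gcongr
        · refine (ContinuousLinearMap.le_opNorm _ _).trans ?_
          gcongr
          · exact hu.d2 _
          · exact norm_pi_le h v
        · exact norm_rho_le h e
    _ = ‖e‖ * ‖v‖ := by ring

theorem lip_AA (h : Split π ρ) (hu : U3 u) (e z z' : Euc k) :
    ‖AA (wg π ρ u) z e - AA (wg π ρ u) z' e‖ ≤ ‖e‖ * ‖z - z'‖ := by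
  refine ContinuousLinearMap.opNorm_le_bound _ (by positivity) fun v => ?_
  rw [sub_apply, AA_eq h hu.sm, AA_eq h hu.sm, ← map_sub, norm_adj_pi h]
  have e1 : adj (fderiv ℝ (fderiv ℝ u) (π z) (π v)) (ρ e)
      - adj (fderiv ℝ (fderiv ℝ u) (π z') (π v)) (ρ e)
      = adj ((fderiv ℝ (fderiv ℝ u) (π z) - fderiv ℝ (fderiv ℝ u) (π z')) (π v)) (ρ e) := by
    rw [sub_apply, map_sub]; rfl
  rw [e1]
  calc ‖adj ((fderiv ℝ (fderiv ℝ u) (π z) - fderiv ℝ (fderiv ℝ u) (π z')) (π v)) (ρ e)‖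
      ≤ ‖adj ((fderiv ℝ (fderiv ℝ u) (π z) - fderiv ℝ (fderiv ℝ u) (π z')) (π v))‖ * ‖ρ e‖ :=
        ContinuousLinearMap.le_opNorm _ _
    _ ≤ (‖z - z'‖ * ‖v‖) * ‖e‖ := by
        rw [norm_adj']
        gcongr
        · refine (ContinuousLinearMap.le_opNorm _ _).trans ?_
          gcongr
          · exact (lip_D2u hu _ _).trans (norm_pi_sub_le h z z')
          · exact norm_pi_le h v
        · exact norm_rho_le h e
    _ = ‖e‖ * ‖z - z'‖ * ‖v‖ := by ring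

theorem norm_QQ_le (h : Split π ρ) (hu : U3 u) (z e : Euc k) :
    ‖QQ (wg π ρ u) z e‖ ≤ ‖e‖ := by
  rw [QQ]
  calc ‖AA (wg π ρ u) z e * gI (Bz (wg π ρ u) z) * star (Bz (wg π ρ u) z)‖
      ≤ ‖AA (wg π ρ u) z e‖ * ‖gI (Bz (wg π ρ u) z)‖ * ‖star (Bz (wg π ρ u) z)‖ :=
        (norm_mul_le _ _).trans (by gcongr; exact norm_mul_le _ _)
    _ ≤ ‖e‖ * 1 * 1 := by
        rw [norm_star']
        gcongr
        · exact norm_AA_le h hu z e
        · exact norm_gI_le _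
        · exact norm_Bz_le h hu z
    _ = ‖e‖ := by ring

theorem lip_QQ (h : Split π ρ) (hu : U3 u) (e z z' : Euc k) :
    ‖QQ (wg π ρ u) z e - QQ (wg π ρ u) z' e‖ ≤ 4 * ‖e‖ * ‖z - z'‖ := by
  set A := AA (wg π ρ u) z e with hA
  set A' := AA (wg π ρ u) z' e with hA'
  set B := Bz (wg π ρ u) z with hB
  set B' := Bz (wg π ρ u) z' with hB'
  have e1 : QQ (wg π ρ u) z e - QQ (wg π ρ u) z' e
      = (A - A') * gI B * star B + A' * (gI B - gI B') * star B + A' * gI B' * star (B - B') := by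
    rw [QQ, QQ, ssub]
    nr570
  have b1 : ‖B‖ ≤ 1 := norm_Bz_le h hu z
  have b2 : ‖B'‖ ≤ 1 := norm_Bz_le h hu z'
  have b3 : ‖B - B'‖ ≤ ‖z - z'‖ := lip_Bz h hu z z'
  have b4 : ‖gI B - gI B'‖ ≤ 2 * ‖z - z'‖ := (norm_gI_sub b1 b2).trans (by linarith)
  have b5 : ‖A - A'‖ ≤ ‖e‖ * ‖z - z'‖ := lip_AA h hu e z z'
  have b6 : ‖A'‖ ≤ ‖e‖ := norm_AA_le h hu z' e
  have c1 : ‖(A - A') * gI B * star B‖ ≤ ‖e‖ * ‖z - z'‖ * 1 * 1 := by
    refine (norm_mul_le _ _).trans ?_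
    rw [norm_star']
    gcongr
    refine (norm_mul_le _ _).trans ?_
    gcongr
    exact norm_gI_le B
  have c2 : ‖A' * (gI B - gI B') * star B‖ ≤ ‖e‖ * (2 * ‖z - z'‖) * 1 := by
    refine (norm_mul_le _ _).trans ?_
    rw [norm_star']
    gcongr
    refine (norm_mul_le _ _).trans ?_
    gcongr
  have c3 : ‖A' * gI B' * star (B - B')‖ ≤ ‖e‖ * 1 * ‖z - z'‖ := by
    refine (norm_mul_le _ _).trans ?_
    rw [norm_star']
    gcongr
    refine (norm_mul_le _ _).trans ?_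
    gcongr
    exact norm_gI_le B'
  rw [e1]
  calc _ ≤ ‖(A - A') * gI B * star B‖ + ‖A' * (gI B - gI B') * star B‖
        + ‖A' * gI B' * star (B - B')‖ := norm_add₃_le
    _ ≤ ‖e‖ * ‖z - z'‖ * 1 * 1 + ‖e‖ * (2 * ‖z - z'‖) * 1 + ‖e‖ * 1 * ‖z - z'‖ := by gcongr
    _ = _ := by ring

theorem norm_fderiv_QQ_le (h : Split π ρ) (hu : U3 u) (e z : Euc k) :
    ‖fderiv ℝ (fun z => QQ (wg π ρ u) z e) z‖ ≤ 4 * ‖e‖ := by
  have h1 : LipschitzWith ⟨4 * ‖e‖, by positivity⟩ fun z => QQ (wg π ρ u) z e :=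
    LipschitzWith.of_dist_le_mul fun z z' => by
      rw [dist_eq_norm, dist_eq_norm]
      exact lip_QQ h hu e z z'
  exact norm_fderiv_le_of_lipschitz ℝ h1

/-- bounds of the test field -/
structure P2 (φ : Euc m → Euc n) (r B : ℝ) : Prop where
  sm : ContDiff ℝ 2 φ
  b0 : ∀ x, ‖φ x‖ ≤ B
  b1 : ∀ x, ‖fderiv ℝ φ x‖ ≤ B
  b2 : ∀ x, ‖fderiv ℝ (fderiv ℝ φ) x‖ ≤ B
  z : ∀ x, r ≤ ‖x‖ → φ x = 0

theorem P2.nonneg {r B : ℝ} (h : P2 φ r B) : 0 ≤ B := (norm_nonneg _).trans (h.b0 0)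

theorem norm_Gp_le (h : Split π ρ) {r B : ℝ} (hφ : P2 φ r B) (e : Euc n) (z : Euc k) :
    ‖Gp π φ e z‖ ≤ B * ‖e‖ := by
  rw [Gp, norm_adj_pi h, Ell1_3.adjL_apply]
  refine (ContinuousLinearMap.le_opNorm _ _).trans ?_
  rw [norm_adj']
  gcongr
  exact hφ.b1 _

theorem abs_ph_le {r B : ℝ} (hφ : P2 φ r B) (e : Euc n) (z : Euc k) :
    |ph π φ e z| ≤ B * ‖e‖ := by
  rw [ph]
  refine (abs_real_inner_le_norm _ _).trans ?_
  gcongr
  exact hφ.b0 _

theorem norm_fderiv_Gp_le (h : Split π ρ) {r B : ℝ} (hφ : P2 φ r B) (e : Euc n) (z : Euc k) :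
    ‖fderiv ℝ (Gp π φ e) z‖ ≤ B * ‖e‖ := by
  refine ContinuousLinearMap.opNorm_le_bound _
    (mul_nonneg hφ.nonneg (norm_nonneg _)) fun v => ?_
  rw [fderiv_Gp hφ.sm, norm_adj_pi h, Ell1_3.adjL_apply]
  refine (ContinuousLinearMap.le_opNorm _ _).trans ?_
  rw [norm_adj']
  calc ‖fderiv ℝ (fderiv ℝ φ) (π z) (π v)‖ * ‖e‖ ≤ (B * ‖v‖) * ‖e‖ := by
        gcongr
        refine (ContinuousLinearMap.le_opNorm _ _).trans ?_
        gcongr
        · exact hφ.nonneg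
        · exact hφ.b2 _
        · exact norm_pi_le h v
    _ = _ := by ring

theorem norm_fderiv_phQQ_le (h : Split π ρ) (hu : U3 u) {r B : ℝ} (hφ : P2 φ r B) (e : Euc n)
    (z : Euc k) :
    ‖fderiv ℝ (fun z => ph π φ e z • QQ (wg π ρ u) z (adj ρ e)) z‖ ≤ 5 * B * ‖e‖ ^ 2 := by
  have hB := hφ.nonneg
  have h1 : HasFDerivAt (fun z => QQ (wg π ρ u) z (adj ρ e))
      (fderiv ℝ (fun z => QQ (wg π ρ u) z (adj ρ e)) z) z :=
    (((gd h hu.sm).contDiff_QQ (adj ρ e)).differentiable one_ne_zero z).hasFDerivAt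
  have h2 : HasFDerivAt (fun z => ph π φ e z • QQ (wg π ρ u) z (adj ρ e)) _ z :=
    (hasFDerivAt_ph (π := π) hφ.sm e z).smul h1
  rw [h2.fderiv]
  have a1 : ‖ph π φ e z • fderiv ℝ (fun z => QQ (wg π ρ u) z (adj ρ e)) z‖
      ≤ (B * ‖e‖) * (4 * ‖e‖) := by
    rw [norm_smul, Real.norm_eq_abs]
    gcongr
    · exact abs_ph_le hφ e z
    · have := norm_fderiv_QQ_le h hu (adj ρ e) z
      rwa [norm_adj_rho h] at this
  have a2 : ‖(innerSL ℝ (Gp π φ e z)).smulRight (QQ (wg π ρ u) z (adj ρ e))‖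
      ≤ (B * ‖e‖) * ‖e‖ := by
    rw [ContinuousLinearMap.norm_smulRight_apply, innerSL_apply_norm]
    gcongr
    · exact norm_Gp_le h hφ e z
    · have := norm_QQ_le h hu z (adj ρ e)
      rwa [norm_adj_rho h] at this
  calc _ ≤ ‖ph π φ e z • fderiv ℝ (fun z => QQ (wg π ρ u) z (adj ρ e)) z‖
        + ‖(innerSL ℝ (Gp π φ e z)).smulRight (QQ (wg π ρ u) z (adj ρ e))‖ := norm_add_le _ _
    _ ≤ (B * ‖e‖) * (4 * ‖e‖) + (B * ‖e‖) * ‖e‖ := add_le_add a1 a2
    _ = _ := by ring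

/-- the integrands vanish off the closed ball -/
theorem near_zero {r B : ℝ} (hφ : P2 φ r B) (e : Euc n) {z : Euc k}
    (hz : r < ‖π z‖) : (∀ᶠ y in 𝓝 z, ph π φ e y = 0) ∧ (∀ᶠ y in 𝓝 z, Gp π φ e y = 0) := by
  have ho : IsOpen {y : Euc k | r < ‖π y‖} := isOpen_lt continuous_const π.continuous.norm
  have ho' : IsOpen {x : Euc m | r < ‖x‖} := isOpen_lt continuous_const continuous_norm
  constructor
  · filter_upwards [ho.mem_nhds hz] with y hy
    have hy' : r < ‖π y‖ := hy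
    rw [ph, hφ.z _ hy'.le, inner_zero_left]
  · filter_upwards [ho.mem_nhds hz] with y hy
    have hy' : r < ‖π y‖ := hy
    have : φ =ᶠ[𝓝 (π y)] fun _ => 0 := by
      filter_upwards [ho'.mem_nhds hy'] with x hx
      have hx' : r < ‖x‖ := hx
      exact hφ.z _ hx'.le
    rw [Gp, this.fderiv_eq, fderiv_const_apply (0 : Euc n), map_zero]
    simp

theorem continuous_Fi (h : Split π ρ) (hu : ContDiff ℝ 3 u) (hφ : ContDiff ℝ 2 φ) (e : Euc n) :
    Continuous (Fi π ρ u φ e) := by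
  have cf : Continuous fun z : Euc k => ht (Hp π) (wg π ρ u) z := (gd h hu).continuous_ht
  have cDG : Continuous fun z : Euc k => fderiv ℝ (Gp π φ e) z :=
    (contDiff_Gp hφ e).continuous_fderiv (by norm_num)
  have cY : Continuous fun z : Euc k =>
      fderiv ℝ (fun z => ph π φ e z • QQ (wg π ρ u) z (adj ρ e)) z :=
    (((contDiff_ph hφ e).of_le (by norm_num)).smul
      ((gd h hu).contDiff_QQ (adj ρ e))).continuous_fderiv (by norm_num)
  have cT : Continuous fun z : Euc k => TZ (Hp π) (wg π ρ u) z := (gd h hu).contDiff_TT.continuous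
  have cflip : Continuous fun z : Euc k =>
      (fderiv ℝ (fun z => ph π φ e z • QQ (wg π ρ u) z (adj ρ e)) z).flip
        (ht (Hp π) (wg π ρ u) z) :=
    ((ContinuousLinearMap.flipₗᵢ ℝ (Euc k) (Euc k) (Euc k)).continuous.comp cY).clm_apply cf
  unfold Fi
  exact ((cf.inner continuous_const).mul (tr.continuous.comp (cDG.mul cT))).add
    (continuous_const.mul (tr.continuous.comp (cflip.mul cT)))

/-- **one component** -/
theorem comp_le {W : Measure (Euc k × L k)} [IsFiniteMeasure W] {r R B : ℝ} (hr : 0 < r)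
    (hR : r < R) (hW : CylStat W π ρ 0 R 1) (hu : U3 u) (hφ : P2 φ r B)
    (hmin : ∀ x ∈ Metric.ball (0 : Euc m) R, msop u x = 0) {et : Euc m → ℝ} (hc : Continuous et)
    (h1 : ∀ x, ‖x‖ ≤ r → et x = 1) {e : Euc n} (he : ‖e‖ = 1) :
    |∫ p, Fi π ρ u φ e p.1 ∂W| ≤ ∫ p, et (π p.1) ^ 2 * (k * (B + 2 * (5 * B)) *
      ‖ht (Hp π) (wg π ρ u) p.1‖ ^ 2 + (k * (B + 2 * (5 * B)) + 4 * k * B) *
        tau (TZ (Hp π) (wg π ρ u) p.1) p.2) ∂W := by
  have h := hW.sp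
  have hB := hφ.nonneg
  have hae : ‖adj ρ e‖ = 1 := by rw [norm_adj_rho h, he]
  refine GD.weak_jacobi (gd h hu.sm) (tr_H h) (hstat hW) (η := fun z => et (π z))
    (tf h hφ.sm hr hR hφ.z e) (adj ρ e) ?_ (hc.comp π.continuous) ?_ ?_ ?_
  · intro z hz
    refine min_of h hu.sm (hmin _ ?_)
    rw [mem_ball_zero_iff]
    by_contra hcon
    exact hz (by rw [ph, hφ.z _ (hR.le.trans (not_lt.1 hcon)), inner_zero_left])
  · intro z
    rw [hae, one_mul]
    by_cases hz : ‖π z‖ ≤ r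
    · rw [h1 _ hz]
      have := norm_fderiv_Gp_le h hφ e z
      rw [he] at this
      linarith
    · have h2 := (near_zero hφ e (not_le.1 hz)).2
      have h3 : fderiv ℝ (Gp π φ e) z = 0 := by
        have : Gp π φ e =ᶠ[𝓝 z] fun _ => 0 := h2
        rw [this.fderiv_eq]; exact fderiv_const_apply (0 : Euc k)
      rw [h3, norm_zero]
      positivity
  · intro z
    by_cases hz : ‖π z‖ ≤ r
    · rw [h1 _ hz]
      have := norm_fderiv_phQQ_le h hu hφ e z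
      rw [he] at this
      linarith
    · have h2 := (near_zero hφ e (not_le.1 hz)).1
      have h3 : fderiv ℝ (fun z => ph π φ e z • QQ (wg π ρ u) z (adj ρ e)) z = 0 := by
        have : (fun z => ph π φ e z • QQ (wg π ρ u) z (adj ρ e)) =ᶠ[𝓝 z] fun _ => 0 := by
          filter_upwards [h2] with y hy
          rw [hy]
          exact zero_smul ℝ (QQ (wg π ρ u) y (adj ρ e))
        rw [this.fderiv_eq]; exact fderiv_const_apply (0 : L k)
      rw [h3]
      have : ‖(0 : Euc k →L[ℝ] L k)‖ = 0 := ContinuousLinearMap.opNorm_zero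
      rw [this]
      positivity
  · intro z
    by_cases hz : ‖π z‖ ≤ r
    · rw [h1 _ hz]
      calc |ph π φ e z| * ‖AA (wg π ρ u) z (adj ρ e)‖ ≤ (B * ‖e‖) * ‖adj ρ e‖ := by
            gcongr
            · exact abs_ph_le hφ e z
            · exact norm_AA_le h hu z _
        _ = B * 1 ^ 2 := by rw [hae, he]; ring
    · have : ph π φ e z = 0 := by
        rw [ph, hφ.z _ (not_le.1 hz).le, inner_zero_left]
      rw [this, abs_zero, zero_mul]
      positivity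

/-- **WEAK JACOBI, all components** -/
theorem weak_lopT {W : Measure (Euc k × L k)} {r R B h₀ Λ E : ℝ} (hr : 0 < r)
    (hR : r < R) (hW : CylStat W π ρ 0 R 1) (hΛ : W univ ≤ ENNReal.ofReal Λ) (hΛ0 : 0 ≤ Λ)
    (hu : U3 u) (hφ : P2 φ r B)
    (hmin : ∀ x ∈ Metric.ball (0 : Euc m) R, msop u x = 0)
    (hh : ∀ᵐ q ∂W, ‖ρ q.1 - u (π q.1)‖ ≤ h₀) {et : Euc m → ℝ} (hc : Continuous et)
    (h1 : ∀ x, ‖x‖ ≤ r → et x = 1) (h01 : ∀ x, 0 ≤ et x ∧ et x ≤ 1)
    (hE : ∫ p, et (π p.1) ^ 2 * tau (TG π ρ u (π p.1)) p.2 ∂W ≤ E) :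
    |∫ p, lopT u φ (π p.1) (ρ p.1 - u (π p.1)) ∂W|
      ≤ n * (15 * k * B * (Λ * h₀ ^ 2 + E)) := by
  have : IsFiniteMeasure W := ⟨hW.fin⟩
  have h := hW.sp
  have hB := hφ.nonneg
  set b := EuclideanSpace.basisFun (Fin n) ℝ with hb
  have hbase := (hstat hW).toHBase
  have hint : ∀ α, Integrable (fun p : Euc k × L k => Fi π ρ u φ (b α) p.1) W := fun α =>
    integrable_of_cont' hbase ((continuous_Fi h hu.sm hφ.sm (b α)).comp continuous_fst)
  have e1 : ∫ p, lopT u φ (π p.1) (ρ p.1 - u (π p.1)) ∂W = ∑ α, ∫ p, Fi π ρ u φ (b α) p.1 ∂W := by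
    rw [← integral_finsetSum _ fun α _ => hint α]
    refine integral_congr_ae (Eventually.of_forall fun p => ?_)
    simp only
    rw [sum_Fi h hu.sm hφ.sm]
  have iτ : Integrable (fun p : Euc k × L k =>
      et (π p.1) ^ 2 * tau (TZ (Hp π) (wg π ρ u) p.1) p.2) W :=
    integrable_of_cont' hbase ((((hc.comp π.continuous).comp continuous_fst).pow 2).mul
      (gd h hu.sm).continuous_tau)
  have ih : Integrable (fun p : Euc k × L k =>
      et (π p.1) ^ 2 * ‖ht (Hp π) (wg π ρ u) p.1‖ ^ 2) W :=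
    integrable_of_cont' hbase ((((hc.comp π.continuous).comp continuous_fst).pow 2).mul
      (((gd h hu.sm).continuous_ht.comp continuous_fst).norm.pow 2))
  have hWr : W.real univ ≤ Λ := by
    rw [Measure.real]
    exact ENNReal.toReal_le_of_le_ofReal hΛ0 hΛ
  have hhb : ∫ p, et (π p.1) ^ 2 * ‖ht (Hp π) (wg π ρ u) p.1‖ ^ 2 ∂W ≤ Λ * h₀ ^ 2 := by
    calc ∫ p, et (π p.1) ^ 2 * ‖ht (Hp π) (wg π ρ u) p.1‖ ^ 2 ∂W
        ≤ ∫ _p, 1 * h₀ ^ 2 ∂W := by
          refine integral_mono_ae ih (integrable_const _) ?_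
          filter_upwards [hh] with p hp
          have a1 : et (π p.1) ^ 2 ≤ 1 := pow_le_one₀ (h01 _).1 (h01 _).2
          have a2 : ‖ht (Hp π) (wg π ρ u) p.1‖ ^ 2 ≤ h₀ ^ 2 := by
            rw [norm_ht h]
            exact pow_le_pow_left₀ (norm_nonneg _) hp 2
          exact mul_le_mul a1 a2 (by positivity) zero_le_one
      _ = W.real univ * h₀ ^ 2 := by rw [integral_const, smul_eq_mul, one_mul]
      _ ≤ Λ * h₀ ^ 2 := by gcongr
  have hτ : ∫ p, et (π p.1) ^ 2 * tau (TZ (Hp π) (wg π ρ u) p.1) p.2 ∂W ≤ E := by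
    simpa only [TZ_eq hu.sm] using hE
  have k0 : (0 : ℝ) ≤ k := Nat.cast_nonneg k
  have hone : ∀ α, |∫ p, Fi π ρ u φ (b α) p.1 ∂W| ≤ 15 * k * B * (Λ * h₀ ^ 2 + E) := by
    intro α
    have hα : ‖b α‖ = 1 := b.norm_eq_one α
    refine (comp_le hr hR hW hu hφ hmin hc h1 hα).trans ?_
    have e2 : ∀ p : Euc k × L k, et (π p.1) ^ 2 * (k * (B + 2 * (5 * B)) *
      ‖ht (Hp π) (wg π ρ u) p.1‖ ^ 2 + (k * (B + 2 * (5 * B)) + 4 * k * B) *
        tau (TZ (Hp π) (wg π ρ u) p.1) p.2)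
        = 11 * k * B * (et (π p.1) ^ 2 * ‖ht (Hp π) (wg π ρ u) p.1‖ ^ 2)
          + 15 * k * B * (et (π p.1) ^ 2 * tau (TZ (Hp π) (wg π ρ u) p.1) p.2) := fun p => by ring
    simp only [e2]
    rw [integral_add (ih.const_mul _) (iτ.const_mul _), integral_const_mul, integral_const_mul]
    have a0 : 0 ≤ k * B := mul_nonneg k0 hB
    have a1 : 0 ≤ Λ * h₀ ^ 2 := by positivity
    nlinarith [mul_le_mul_of_nonneg_left hhb a0, mul_le_mul_of_nonneg_left hτ a0,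
      mul_nonneg a0 a1]
  rw [e1]
  refine (Finset.abs_sum_le_sum_abs _ _).trans ?_
  calc ∑ α, |∫ p, Fi π ρ u φ (b α) p.1 ∂W| ≤ ∑ _α : Fin n, 15 * k * B * (Λ * h₀ ^ 2 + E) :=
        Finset.sum_le_sum fun α _ => hone α
    _ = n * (15 * k * B * (Λ * h₀ ^ 2 + E)) := by simp

end Crest.Agent.R234.Wj_186
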