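import Crest.Agent.R234.Grot8_842
import Crest.Agent.R234.Sw1_733
import Crest.Agent.R234.Cto_161
import Crest.Agent.R234.Mx3_397
import Crest.Agent.R234.Mx5_397

-- ▼ part R234/Rs3_182
section

/-!
# Row 234, node RESCALE (helper182), part 3: abstract pieces

* `rot_core'`   : 842's rotation of a global graph for `q` near `0` (not the slope at `0`)
* `rot_glob`    : the coordinate change `ψ a = H (a + qᵀ v a)` is a bijection, close to the identity
* `cutU`        : cut-off on an open set with derivative bounds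
* `interp_glob` : interpolation `sup |w| ≤ C ρ A`, `|D^j w| ≤ A` ⟹ `|D^j w| ≤ C' ρ^(2^-J) A`
* `loc_model`   : derivatives of a function with a rescaled local model
-/

set_option autoImplicit false
set_option linter.unusedSectionVars false

open Set Metric Filter Topology
open scoped ContDiff NNReal RealInnerProductSpace

noncomputable section

namespace Crest.Agent.R234.Rs_182

open Crest.Agent.R234.Ell1_3 Crest.Agent.R234.Grot_842

section

variable {F V : Type} [NormedAddCommGroup F] [InnerProductSpace ℝ F] [FiniteDimensional ℝ F]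
  [NormedAddCommGroup V] [InnerProductSpace ℝ V] [FiniteDimensional ℝ V]

/-- bijectivity for differentiable maps close to the identity -/
theorem exists_inv0 {ψ : F → F} (hd : Differentiable ℝ ψ) (h1 : ∀ x, ‖fderiv ℝ ψ x - 1‖ ≤ 1 / 2) :
    ∃ φ : F → F, Continuous φ ∧ (∀ y, ψ (φ y) = y) ∧ (∀ x, φ (ψ x) = x) := by
  have hap : ApproximatesLinearOn ψ (ContinuousLinearEquiv.refl ℝ F : F →L[ℝ] F) univ
      (1 / 2 : ℝ≥0) := by
    intro x _ y _
    have h := Convex.norm_image_sub_le_of_norm_hasFDerivWithin_le (𝕜 := ℝ)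
      (f := fun z => ψ z - z) (f' := fun z => fderiv ℝ ψ z - 1) (s := univ) (C := 1 / 2)
      (fun z _ => ((hd z).hasFDerivAt.sub (hasFDerivAt_id z)).hasFDerivWithinAt)
      (fun z _ => h1 z) convex_univ (mem_univ y) (mem_univ x)
    have e : ψ x - ψ y - (ContinuousLinearEquiv.refl ℝ F : F →L[ℝ] F) (x - y) =
        (ψ x - x) - (ψ y - y) := by
      simp only [ContinuousLinearEquiv.coe_refl, ContinuousLinearMap.coe_id', id_eq]; abel
    rw [e]
    simpa using h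
  have hc : Subsingleton F ∨ (1 / 2 : ℝ≥0) <
      ‖((ContinuousLinearEquiv.refl ℝ F).symm : F →L[ℝ] F)‖₊⁻¹ := by
    rcases subsingleton_or_nontrivial F with h | h
    · exact Or.inl h
    · right
      have : ‖((ContinuousLinearEquiv.refl ℝ F).symm : F →L[ℝ] F)‖₊ = 1 := by
        have h2 : ‖((ContinuousLinearEquiv.refl ℝ F).symm : F →L[ℝ] F)‖ = 1 :=
          ContinuousLinearMap.norm_id
        exact NNReal.eq h2
      rw [this, inv_one]
      exact NNReal.half_lt_self one_ne_zero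
  let e : F ≃ₜ F := hap.toHomeomorph ψ hc
  have he : ∀ x, e x = ψ x := fun x => rfl
  refine ⟨e.symm, e.symm.continuous, ?_, ?_⟩
  · intro y; rw [← he]; exact e.apply_symm_apply y
  · intro x; rw [← he]; exact e.symm_apply_apply x

/-- the coordinate change -/
def chg (q : F →L[ℝ] V) (H : F →L[ℝ] F) (v : F → V) (a : F) : F :=
  H (a + ContinuousLinearMap.adjoint q (v a))

variable {q : F →L[ℝ] V} {H : F →L[ℝ] F} {H' : V →L[ℝ] V}

theorem hasFDerivAt_chg {v : F → V} {x : F} (hv : DifferentiableAt ℝ v x) :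
    HasFDerivAt (chg q H v) (H ∘L (ContinuousLinearMap.id ℝ F +
      ContinuousLinearMap.adjoint q ∘L fderiv ℝ v x)) x :=
  H.hasFDerivAt.comp x ((hasFDerivAt_id x).add
    ((ContinuousLinearMap.adjoint q).hasFDerivAt.comp x hv.hasFDerivAt))

theorem norm_dchg_sub (hR : Rt q H H') {T : F →L[ℝ] V} {l : ℝ} (hl : ‖T‖ ≤ l) (hq : ‖q‖ ≤ l) :
    ‖H ∘L (ContinuousLinearMap.id ℝ F + ContinuousLinearMap.adjoint q ∘L T) - 1‖ ≤
      2 * l * ‖q‖ := by
  have e : H ∘L (ContinuousLinearMap.id ℝ F + ContinuousLinearMap.adjoint q ∘L T) - 1 =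
      (H - 1) + (H ∘L (ContinuousLinearMap.adjoint q ∘L T)) := by
    ext y; simp; abel
  rw [e]
  have h1 : ‖H ∘L (ContinuousLinearMap.adjoint q ∘L T)‖ ≤ 1 * (‖q‖ * l) := by
    refine (ContinuousLinearMap.opNorm_comp_le _ _).trans ?_
    have h2 : ‖ContinuousLinearMap.adjoint q ∘L T‖ ≤ ‖q‖ * l := by
      refine (ContinuousLinearMap.opNorm_comp_le _ _).trans ?_
      rw [LinearIsometryEquiv.norm_map]
      gcongr
    exact mul_le_mul hR.norm_le h2 (norm_nonneg _) zero_le_one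
  have h3 := hR.norm_sub
  calc _ ≤ ‖q‖ ^ 2 + 1 * (‖q‖ * l) := (norm_add_le _ _).trans (add_le_add h3 h1)
    _ ≤ 2 * l * ‖q‖ := by nlinarith [norm_nonneg q]

/-- **the coordinate change is a bijection close to the identity** -/
theorem rot_glob (hR : Rt q H H') {v : F → V} {l : ℝ} (hl0 : 0 ≤ l) (hl : l ≤ 1 / 8)
    (hq : ‖q‖ ≤ l) (hd : Differentiable ℝ v) (hv0 : v 0 = 0) (hb : ∀ x, ‖fderiv ℝ v x‖ ≤ l) :
    ∃ φ : F → F, Continuous φ ∧ (∀ y, chg q H v (φ y) = y) ∧ (∀ x, φ (chg q H v x) = x) ∧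
      φ 0 = 0 ∧ (∀ y, ‖φ y - y‖ ≤ 4 * l * ‖q‖ * ‖y‖) := by
  have hq0 := norm_nonneg q
  have hψd : Differentiable ℝ (chg q H v) := fun x => (hasFDerivAt_chg (hd x)).differentiableAt
  have hnear : ∀ x, ‖fderiv ℝ (chg q H v) x - 1‖ ≤ 1 / 2 := fun x => by
    rw [(hasFDerivAt_chg (hd x)).fderiv]
    refine (norm_dchg_sub hR (hb x) hq).trans ?_
    nlinarith
  obtain ⟨φ, hφ, h1, h2⟩ := exists_inv0 hψd hnear
  have hψ0 : chg q H v 0 = 0 := by simp [chg, hv0]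
  have hφ0 : φ 0 = 0 := by
    have h3 := h2 0
    rwa [hψ0] at h3
  have hlow : ∀ x, ‖chg q H v x - x‖ ≤ 2 * l * ‖q‖ * ‖x‖ := by
    intro x
    have h := Convex.norm_image_sub_le_of_norm_hasFDerivWithin_le (𝕜 := ℝ)
      (f := fun z => chg q H v z - z) (f' := fun z => fderiv ℝ (chg q H v) z - 1) (s := univ)
      (C := 2 * l * ‖q‖)
      (fun z _ => ((hψd z).hasFDerivAt.sub (hasFDerivAt_id z)).hasFDerivWithinAt)
      (fun z _ => by
        rw [(hasFDerivAt_chg (hd z)).fderiv]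
        exact norm_dchg_sub hR (hb z) hq) convex_univ (mem_univ 0) (mem_univ x)
    simpa [hψ0] using h
  refine ⟨φ, hφ, h1, h2, hφ0, fun y => ?_⟩
  have h3 := hlow (φ y)
  rw [h1] at h3
  have h4 : ‖φ y‖ ≤ 2 * ‖y‖ := by
    have h5 : ‖φ y‖ ≤ ‖y‖ + ‖y - φ y‖ := by
      calc ‖φ y‖ = ‖y - (y - φ y)‖ := by congr 1; abel
        _ ≤ _ := norm_sub_le _ _
    have h6 : 2 * l * ‖q‖ * ‖φ y‖ ≤ 1 / 2 * ‖φ y‖ := by
      have : 2 * l * ‖q‖ ≤ 1 / 2 := by nlinarith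
      gcongr
    linarith
  rw [norm_sub_rev]
  calc ‖y - φ y‖ ≤ 2 * l * ‖q‖ * ‖φ y‖ := h3
    _ ≤ 2 * l * ‖q‖ * (2 * ‖y‖) := by gcongr
    _ = _ := by ring

end

/-- the rotated graph of a globally defined `v` with small derivatives; `q` arbitrary small -/
theorem rot_core' (F V : Type) [NormedAddCommGroup F] [InnerProductSpace ℝ F]
    [FiniteDimensional ℝ F] [NormedAddCommGroup V] [InnerProductSpace ℝ V] [FiniteDimensional ℝ V]
    (K : ℕ) : ∃ C : ℝ, 1 ≤ C ∧ ∀ (v : F → V) (q : F →L[ℝ] V) (H : F →L[ℝ] F) (H' : V →L[ℝ] V)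
      (κ : ℝ), 0 ≤ κ → κ ≤ 1 / 8 → ContDiff ℝ ∞ v → v 0 = 0 → ‖q‖ ≤ κ → Rt q H H' →
      (∀ j, 1 ≤ j → j ≤ K + 1 → ∀ x, ‖iteratedFDeriv ℝ j v x‖ ≤ κ) →
      ∃ (φ : F → F), ContDiff ℝ ∞ φ ∧ (∀ y, chg q H v (φ y) = y) ∧
        (∀ x, φ (chg q H v x) = x) ∧ φ 0 = 0 ∧ (∀ y, ‖φ y‖ ≤ 2 * ‖y‖) ∧
        ContDiff ℝ ∞ (fun y => H' (v (φ y) - q (φ y))) ∧
        (∀ j, 1 ≤ j → j ≤ K + 1 → ∀ y, ‖iteratedFDeriv ℝ j (fun y => H' (v (φ y) - q (φ y))) y‖ ≤
          C * κ) := by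
  obtain ⟨C0, hC0, hC⟩ := inv_bound (F := F) (K + 1) 2 (by norm_num)
  refine ⟨(K + 1).factorial * 2 * C0 ^ (K + 1), ?_, ?_⟩
  · have h1 : (1 : ℝ) ≤ (K + 1).factorial := by exact_mod_cast (K + 1).factorial_pos
    have h2 : (1 : ℝ) ≤ C0 ^ (K + 1) := one_le_pow₀ hC0
    calc (1:ℝ) ≤ 1 * 2 * 1 := by norm_num
      _ ≤ _ := by gcongr
  intro v q H H' κ hκ0 hκ hv hv0 hqκ hR hb
  set qa := ContinuousLinearMap.adjoint q with hqa
  have hdv : Differentiable ℝ v := hv.differentiable (by simp)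
  have hfd : ∀ x, ‖fderiv ℝ v x‖ ≤ κ := fun x => by
    have h := hb 1 le_rfl (by omega) x
    rwa [← norm_iteratedFDeriv_fderiv, norm_iteratedFDeriv_zero] at h
  have hqaκ : ‖qa‖ ≤ κ := by rw [hqa, LinearIsometryEquiv.norm_map]; exact hqκ
  set ψ : F → F := chg q H v with hψd
  have hψ : ContDiff ℝ ∞ ψ := H.contDiff.comp (contDiff_id.add (qa.contDiff.comp hv))
  have hH1 := hR.norm_le
  have hnear : ∀ x, ‖fderiv ℝ ψ x - 1‖ ≤ 1 / 2 := by
    intro x
    rw [hψd, (hasFDerivAt_chg (hdv x)).fderiv]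
    refine (norm_dchg_sub hR (hfd x) hqκ).trans ?_
    nlinarith [norm_nonneg q]
  have hψb : ∀ x, ∀ j, 1 ≤ j → j ≤ K + 1 → ‖iteratedFDeriv ℝ j ψ x‖ ≤ 2 := by
    intro x j hj hj'
    have e : ψ = fun x => H x + (H ∘L qa) (v x) := by
      funext x; simp [hψd, chg, hqa]
    have h1 : iteratedFDeriv ℝ j ψ x = iteratedFDeriv ℝ j H x +
        iteratedFDeriv ℝ j (fun x => (H ∘L qa) (v x)) x := by
      rw [e]
      exact iteratedFDeriv_add_apply (f := fun x => H x) (g := fun x => (H ∘L qa) (v x))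
        (H.contDiff.contDiffAt) (((H ∘L qa).contDiff.comp hv).contDiffAt.of_le (by exact_mod_cast le_top))
    rw [h1]
    have h2 := norm_iter_clm H x hj
    have h3 : ‖iteratedFDeriv ℝ j (fun x => (H ∘L qa) (v x)) x‖ ≤ 1 * κ * κ := by
      have h4 := (H ∘L qa).norm_iteratedFDeriv_comp_left (f := v) (x := x) (N := ∞) (n := j)
        hv.contDiffAt (by exact_mod_cast le_top)
      refine h4.trans ?_
      have h5 : ‖H ∘L qa‖ ≤ 1 * κ := (ContinuousLinearMap.opNorm_comp_le _ _).trans (by gcongr)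
      have h6 := hb j hj hj' x
      gcongr
    calc ‖iteratedFDeriv ℝ j H x + iteratedFDeriv ℝ j (fun x => (H ∘L qa) (v x)) x‖
        ≤ 1 + 1 * κ * κ := (norm_add_le _ _).trans (add_le_add (h2.trans hH1) h3)
      _ ≤ 2 := by nlinarith
  obtain ⟨φ, hφ, h1, h2⟩ := exists_inv hψ hnear
  have hφb := hC ψ φ hψ hφ h1 hnear hψb
  have hψ0 : ψ 0 = 0 := by simp [hψd, chg, hv0]
  have hφ0 : φ 0 = 0 := by
    have h3 := h2 0
    rwa [hψ0] at h3
  have hψlow : ∀ x y, ‖x - y‖ ≤ 2 * ‖ψ x - ψ y‖ := by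
    intro x y
    have h := Convex.norm_image_sub_le_of_norm_hasFDerivWithin_le (𝕜 := ℝ)
      (f := fun z => ψ z - z) (f' := fun z => fderiv ℝ ψ z - 1) (s := univ) (C := 1 / 2)
      (fun z _ => (((hψ.differentiable (by simp)) z).hasFDerivAt.sub
        (hasFDerivAt_id z)).hasFDerivWithinAt)
      (fun z _ => hnear z) convex_univ (mem_univ y) (mem_univ x)
    have e : x - y = (ψ x - ψ y) - ((ψ x - x) - (ψ y - y)) := by abel
    have h3 : ‖x - y‖ ≤ ‖ψ x - ψ y‖ + 1 / 2 * ‖x - y‖ := by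
      nth_rewrite 1 [e]
      exact (norm_sub_le _ _).trans (by gcongr)
    linarith
  have hφn : ∀ y, ‖φ y‖ ≤ 2 * ‖y‖ := by
    intro y
    have h3 := hψlow (φ y) 0
    rw [h1, hψ0, sub_zero, sub_zero] at h3
    exact h3
  -- the function η
  set η : F → V := fun x => H' (v x - q x) with hη
  have hηs : ContDiff ℝ ∞ η := H'.contDiff.comp (hv.sub q.contDiff)
  have hH1' := hR.norm_le'
  have hηb : ∀ x, ∀ j, 1 ≤ j → j ≤ K + 1 → ‖iteratedFDeriv ℝ j η x‖ ≤ 2 * κ := by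
    intro x j hj hj'
    have h3 : iteratedFDeriv ℝ j (fun x => v x - q x) x = iteratedFDeriv ℝ j v x -
        iteratedFDeriv ℝ j q x :=
      iteratedFDeriv_sub_apply (f := v) (g := fun x => q x)
        (hv.contDiffAt.of_le (by exact_mod_cast le_top)) q.contDiff.contDiffAt
    have h4 := H'.norm_iteratedFDeriv_comp_left (f := fun x => v x - q x) (x := x) (N := ∞) (n := j)
      (hv.sub q.contDiff).contDiffAt (by exact_mod_cast le_top)
    have h5 : ‖iteratedFDeriv ℝ j (fun x => v x - q x) x‖ ≤ 2 * κ := by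
      rw [h3]
      have := norm_iter_clm q x hj
      have := hb j hj hj' x
      calc _ ≤ ‖iteratedFDeriv ℝ j v x‖ + ‖iteratedFDeriv ℝ j q x‖ := norm_sub_le _ _
        _ ≤ 2 * κ := by linarith
    calc ‖iteratedFDeriv ℝ j η x‖ ≤ ‖H'‖ * ‖iteratedFDeriv ℝ j (fun x => v x - q x) x‖ := h4
      _ ≤ 1 * (2 * κ) := by gcongr
      _ = 2 * κ := one_mul _
  refine ⟨φ, hφ, h1, h2, hφ0, hφn, hηs.comp hφ, ?_⟩
  intro j hj hj' y
  have h3 := comp_bound (g := η) (f := φ) hηs hφ hj y (C := 2 * κ) (D := C0) (by positivity)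
    (fun i hi hi' => hηb _ i hi (by omega)) (fun i hi hi' => hφb y i hi (by omega))
  refine h3.trans ?_
  have h4 : (j.factorial : ℝ) ≤ (K + 1).factorial := by exact_mod_cast Nat.factorial_le hj'
  have h5 : C0 ^ j ≤ C0 ^ (K + 1) := pow_le_pow_right₀ hC0 hj'
  calc (j.factorial : ℝ) * (2 * κ) * C0 ^ j ≤ (K + 1).factorial * (2 * κ) * C0 ^ (K + 1) := by
        gcongr
    _ = _ := by ring

/-! ### cut-offs on open sets -/

section

variable {F V : Type} [NormedAddCommGroup F] [NormedSpace ℝ F]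
  [NormedAddCommGroup V] [NormedSpace ℝ V]

theorem cutU {χ : F → ℝ} (hχ : ContDiff ℝ ∞ χ) {U : Set F} (hU : IsOpen U)
    (hs : tsupport χ ⊆ U) {K : ℕ} {P Q : ℝ} (hP : 0 ≤ P)
    (hb : ∀ i ≤ K, ∀ x, ‖iteratedFDeriv ℝ i χ x‖ ≤ P) {v : F → V} (hQ : 0 ≤ Q)
    (hv : ContDiffOn ℝ ∞ v U) (hvb : ∀ i ≤ K, ∀ x ∈ U, ‖iteratedFDeriv ℝ i v x‖ ≤ Q) :
    ContDiff ℝ ∞ (fun x => χ x • v x) ∧
      ∀ i ≤ K, ∀ x, ‖iteratedFDeriv ℝ i (fun x => χ x • v x) x‖ ≤ 2 ^ K * P * Q := by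
  refine ⟨?_, ?_⟩
  · rw [contDiff_iff_contDiffAt]
    intro x
    by_cases hx : x ∈ U
    · exact hχ.contDiffAt.smul (hv.contDiffAt (hU.mem_nhds hx))
    · have hx' : x ∉ tsupport χ := fun h => hx (hs h)
      have h1 : (fun x => χ x • v x) =ᶠ[𝓝 x] fun _ => 0 := by
        filter_upwards [(isClosed_tsupport χ).isOpen_compl.mem_nhds hx'] with y hy
        rw [image_eq_zero_of_notMem_tsupport hy, zero_smul]
      exact (contDiffAt_const (c := (0 : V))).congr_of_eventuallyEq h1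
  intro i hi x
  by_cases hx : x ∈ U
  · have h := norm_iteratedFDerivWithin_smul_le (𝕜 := ℝ) (f := χ) (g := v) (s := U)
      (N := ∞) hχ.contDiffOn hv hU.uniqueDiffOn hx (n := i) (by exact_mod_cast le_top)
    rw [iteratedFDerivWithin_of_isOpen i hU hx] at h
    refine h.trans ?_
    have h1 : ∑ j ∈ Finset.range (i + 1), (i.choose j : ℝ) *
        ‖iteratedFDerivWithin ℝ j χ U x‖ *
          ‖iteratedFDerivWithin ℝ (i - j) v U x‖ ≤
        ∑ j ∈ Finset.range (i + 1), (i.choose j : ℝ) * (P * Q) := by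
      refine Finset.sum_le_sum fun j hj => ?_
      rw [Finset.mem_range] at hj
      rw [iteratedFDerivWithin_of_isOpen j hU hx,
        iteratedFDerivWithin_of_isOpen (i - j) hU hx, mul_assoc]
      have h2 := hb j (by omega) x
      have h3 := hvb (i - j) (by omega) x hx
      gcongr
    refine h1.trans ?_
    rw [← Finset.sum_mul]
    have h4 : ∑ j ∈ Finset.range (i + 1), (i.choose j : ℝ) = 2 ^ i := by
      exact_mod_cast Nat.sum_range_choose i
    rw [h4, mul_assoc]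
    have h5 : (2:ℝ) ^ i ≤ 2 ^ K := pow_le_pow_right₀ (by norm_num) hi
    gcongr
  · have hx' : x ∉ tsupport χ := fun h => hx (hs h)
    have h1 : (fun x => χ x • v x) =ᶠ[𝓝 x] fun _ => 0 := by
      filter_upwards [(isClosed_tsupport χ).isOpen_compl.mem_nhds hx'] with y hy
      rw [image_eq_zero_of_notMem_tsupport hy, zero_smul]
    have h2 : iteratedFDeriv ℝ i (fun x => χ x • v x) x = 0 := by
      rw [(h1.iteratedFDeriv ℝ i).eq_of_nhds]
      simp
    rw [h2, norm_zero]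
    positivity

/-- derivatives of a function given by a rescaled local model -/
theorem loc_model {f g : F → V} {y₀ : F} {c₀ : V} {δ : ℝ} (hδ : 0 < δ) (hg : ContDiff ℝ ∞ g)
    (h : ∀ᶠ y in 𝓝 (0 : F), f (y₀ + δ • y) = c₀ + δ • g y) :
    ContDiffAt ℝ ∞ f y₀ ∧ ∀ j, 1 ≤ j →
      ‖iteratedFDeriv ℝ j f y₀‖ ≤ δ * (δ⁻¹) ^ j * ‖iteratedFDeriv ℝ j g 0‖ := by
  have hc : Tendsto (fun z : F => δ⁻¹ • (z - y₀)) (𝓝 y₀) (𝓝 0) := by
    have h1 : Continuous fun z : F => δ⁻¹ • (z - y₀) := by fun_prop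
    have h2 := h1.tendsto y₀
    simpa using h2
  have h1 : f =ᶠ[𝓝 y₀] fun z => c₀ + δ • g (δ⁻¹ • (z - y₀)) := by
    filter_upwards [hc.eventually h] with z hz
    rw [smul_smul, mul_inv_cancel₀ hδ.ne', one_smul, add_sub_cancel] at hz
    exact hz
  have hgs : ContDiff ℝ ∞ (fun z : F => g (δ⁻¹ • (z - y₀))) :=
    hg.comp (contDiff_const.smul (contDiff_id.sub contDiff_const))
  have hgs2 : ContDiff ℝ ∞ (fun z : F => δ • g (δ⁻¹ • (z - y₀))) := contDiff_const.smul hgs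
  refine ⟨((contDiff_const (c := c₀)).add hgs2).contDiffAt.congr_of_eventuallyEq h1, ?_⟩
  intro j hj
  rw [(h1.iteratedFDeriv ℝ j).eq_of_nhds]
  have e1 : iteratedFDeriv ℝ j (fun z => c₀ + δ • g (δ⁻¹ • (z - y₀))) y₀ =
      iteratedFDeriv ℝ j (fun z => δ • g (δ⁻¹ • (z - y₀))) y₀ := by
    have h2 := iteratedFDeriv_add_apply (𝕜 := ℝ) (i := j) (f := fun _ : F => c₀)
      (g := fun z : F => δ • g (δ⁻¹ • (z - y₀))) (x := y₀) contDiffAt_const
      (hgs2.contDiffAt.of_le (by exact_mod_cast le_top))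
    have h3 : iteratedFDeriv ℝ j (fun z => c₀ + δ • g (δ⁻¹ • (z - y₀))) y₀ =
      iteratedFDeriv ℝ j (fun _ : F => c₀) y₀ +
        iteratedFDeriv ℝ j (fun z => δ • g (δ⁻¹ • (z - y₀))) y₀ := h2
    rw [h3, iteratedFDeriv_const_of_ne (by omega)]
    simp
  have e2 : iteratedFDeriv ℝ j (fun z => δ • g (δ⁻¹ • (z - y₀))) y₀ =
      δ • iteratedFDeriv ℝ j (fun z => g (δ⁻¹ • (z - y₀))) y₀ :=
    iteratedFDeriv_const_smul_apply (a := δ) (f := fun z : F => g (δ⁻¹ • (z - y₀)))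
      (hgs.contDiffAt.of_le (by exact_mod_cast le_top))
  have e3 : iteratedFDeriv ℝ j (fun z : F => g (δ⁻¹ • (z - y₀))) y₀ =
      iteratedFDeriv ℝ j (fun z : F => g (δ⁻¹ • z)) (y₀ - y₀) :=
    iteratedFDeriv_comp_sub (𝕜 := ℝ) (f := fun z : F => g (δ⁻¹ • z)) j y₀ y₀
  rw [e1, e2, e3, sub_self, norm_smul, Real.norm_of_nonneg hδ.le]
  have e4 : iteratedFDeriv ℝ j (fun z : F => g (δ⁻¹ • z)) 0 =
      (iteratedFDeriv ℝ j g (δ⁻¹ • (0 : F))).compContinuousLinearMap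
        fun _ => (δ⁻¹ • ContinuousLinearMap.id ℝ F : F →L[ℝ] F) := by
    have h4 := (δ⁻¹ • ContinuousLinearMap.id ℝ F : F →L[ℝ] F).iteratedFDeriv_comp_right
      (f := g) (n := ∞) hg 0 (i := j) (by exact_mod_cast le_top)
    exact h4
  rw [e4, smul_zero]
  have h5 := ContinuousMultilinearMap.norm_compContinuousLinearMap_le (iteratedFDeriv ℝ j g (0 : F))
    fun _ => (δ⁻¹ • ContinuousLinearMap.id ℝ F : F →L[ℝ] F)
  rw [Finset.prod_const, Finset.card_univ, Fintype.card_fin] at h5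
  have h6 : ‖(δ⁻¹ • ContinuousLinearMap.id ℝ F : F →L[ℝ] F)‖ ≤ δ⁻¹ := by
    rw [norm_smul, norm_inv, Real.norm_of_nonneg hδ.le]
    have := ContinuousLinearMap.norm_id_le (𝕜 := ℝ) (E := F)
    have h7 : 0 ≤ δ⁻¹ := by positivity
    nlinarith
  calc δ * ‖_‖ ≤ δ * (‖iteratedFDeriv ℝ j g 0‖ *
        ‖(δ⁻¹ • ContinuousLinearMap.id ℝ F : F →L[ℝ] F)‖ ^ j) := by gcongr
    _ ≤ δ * (‖iteratedFDeriv ℝ j g 0‖ * (δ⁻¹) ^ j) := by gcongr
    _ = _ := by ring

end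

/-! ### interpolation -/

theorem rt_eq {ρ : ℝ} (h : 0 ≤ ρ) : ∀ j, Sw_733.rt ρ j = ρ ^ ((1 / 2 : ℝ) ^ j)
  | 0 => by simp [Sw_733.rt]
  | j + 1 => by
    have h1 := rt_eq h j
    change Real.sqrt (Sw_733.rt ρ j) = _
    rw [h1, Real.sqrt_eq_rpow, ← Real.rpow_mul h, pow_succ]

theorem interp_glob {F G : Type} [NormedAddCommGroup F] [InnerProductSpace ℝ F]
    [FiniteDimensional ℝ F] [NormedAddCommGroup G] [NormedSpace ℝ G] [CompleteSpace G]
    {w : F → G} (hw : ContDiff ℝ ∞ w) {A C ρ : ℝ} {J : ℕ} (hρ : 0 < ρ) (hρ1 : ρ ≤ 1)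
    (hA0 : 0 ≤ A) (hC : 0 ≤ C) (hA : ∀ j ≤ J + 1, ∀ z, ‖iteratedFDeriv ℝ j w z‖ ≤ A)
    (h0 : ∀ z, ‖w z‖ ≤ C * ρ * A) :
    ∀ j ≤ J, ∀ z, ‖iteratedFDeriv ℝ j w z‖ ≤ Sw_733.ct C J * ρ ^ ((1 / 2 : ℝ) ^ J) * A := by
  letI : MeasurableSpace F := borel F
  haveI : BorelSpace F := ⟨rfl⟩
  intro j hj z
  have h1 := Sw_733.interp_aux hw (A := A) (C := C) (ρ := ρ) (R := ‖z‖ + 2 * j + 1) (J := J) hρ hA0
    (fun j hj z _ => hA j hj z) (fun z _ => h0 z) j hj z (by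
      rw [mem_ball_zero_iff]
      have h2 : ∑ i ∈ Finset.range j, Sw_733.rt ρ (i + 1) ≤ ∑ _i ∈ Finset.range j, (1 : ℝ) :=
        Finset.sum_le_sum fun i _ => Sw_733.rt_le_one hρ1 _
      simp only [Finset.sum_const, Finset.card_range, nsmul_eq_mul, mul_one] at h2
      linarith)
  refine h1.trans ?_
  rw [← rt_eq hρ.le]
  have h2 := Sw_733.ct_mono hC hj
  have h3 := Sw_733.rt_mono hρ hρ1 hj
  have h4 := Sw_733.ct_nonneg hC j
  have h5 := Sw_733.ct_nonneg hC J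
  have h6 := (Sw_733.rt_pos hρ j).le
  gcongr

end Crest.Agent.R234.Rs_182
end
end

-- ▼ part R234/Rs4_182
section

/-!
# Row 234, node RESCALE (helper182), part 4: the rotated graph on a ball with small collar

`LM v R δ κ K`: near every point of `ball 0 (R - δ)` the map `v` has a local model of scale `δ` with
derivatives `≤ κ`. `rot_diff`: the rotated graph `ro` is smooth on `ball 0 ((1-ε/4) R)` and its
difference to `v - q`, cut off, has derivatives `≤ C ε⁻ᵖ th^(2^-K) κ`.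
-/

set_option autoImplicit false
set_option linter.unusedSectionVars false

open Set Metric Filter Topology
open scoped ContDiff NNReal RealInnerProductSpace

noncomputable section

namespace Crest.Agent.R234.Rs_182

open Crest.Agent.R234.Ell1_3 Crest.Agent.R234.Grot_842

variable {F V : Type} [NormedAddCommGroup F] [InnerProductSpace ℝ F] [FiniteDimensional ℝ F]
  [NormedAddCommGroup V] [InnerProductSpace ℝ V] [FiniteDimensional ℝ V]

/-- local models of scale `δ` -/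
def LM (v : F → V) (R δ κ : ℝ) (K : ℕ) : Prop :=
  ∀ a : F, ‖a‖ + δ ≤ R → ∃ W : F → V, ContDiff ℝ ∞ W ∧ W 0 = 0 ∧
    (∀ j, 1 ≤ j → j ≤ K + 1 → ∀ x, ‖iteratedFDeriv ℝ j W x‖ ≤ κ) ∧
    ∀ x, ‖x‖ ≤ 1 / 2 → v (a + δ • x) = v a + δ • W x

/-- the rotated graph function -/
def ro (q : F →L[ℝ] V) (H' : V →L[ℝ] V) (v : F → V) (φ : F → F) (y : F) : V :=
  H' (v (φ y) - q (φ y))

theorem LM.at {v : F → V} {R δ κ : ℝ} {K : ℕ} (h : LM v R δ κ K) (hδ : 0 < δ) {a : F}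
    (ha : ‖a‖ + δ ≤ R) : ContDiffAt ℝ ∞ v a ∧ ∀ j, 1 ≤ j → j ≤ K + 1 →
      ‖iteratedFDeriv ℝ j v a‖ ≤ δ * (δ⁻¹) ^ j * κ := by
  obtain ⟨W, h1, h2, h3, h4⟩ := h a ha
  obtain ⟨h5, h6⟩ := loc_model (f := v) (g := W) (y₀ := a) (c₀ := v a) hδ h1 (by
    filter_upwards [ball_mem_nhds (0 : F) (show (0:ℝ) < 1 / 2 by norm_num)] with y hy
    exact h4 y (mem_ball_zero_iff.1 hy).le)
  refine ⟨h5, fun j hj hj' => (h6 j hj).trans ?_⟩
  have := h3 j hj hj' 0
  gcongr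

theorem rot_loc (F V : Type) [NormedAddCommGroup F] [InnerProductSpace ℝ F]
    [FiniteDimensional ℝ F] [NormedAddCommGroup V] [InnerProductSpace ℝ V] [FiniteDimensional ℝ V]
    (K : ℕ) : ∃ C : ℝ, 1 ≤ C ∧ ∀ (v : F → V) (q : F →L[ℝ] V) (H : F →L[ℝ] F) (H' : V →L[ℝ] V)
      (φ : F → F) (κ R δ : ℝ), 0 ≤ κ → κ ≤ 1 / 8 → 0 < δ → ‖q‖ ≤ κ → Rt q H H' → LM v R δ κ K →
      (∀ y, chg q H v (φ y) = y) → (∀ x, φ (chg q H v x) = x) → ∀ y₀, ‖φ y₀‖ + δ ≤ R →
      ContDiffAt ℝ ∞ (ro q H' v φ) y₀ ∧ ∀ j, 1 ≤ j → j ≤ K + 1 →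
        ‖iteratedFDeriv ℝ j (ro q H' v φ) y₀‖ ≤ δ * (δ⁻¹) ^ j * (C * κ) := by
  obtain ⟨C, hC, hcore⟩ := rot_core' F V K
  refine ⟨C, hC, ?_⟩
  intro v q H H' φ κ R δ hκ0 hκ hδ hq hR hLM h1 h2 y₀ hy₀
  obtain ⟨W, hW, hW0, hWb, hWv⟩ := hLM (φ y₀) hy₀
  obtain ⟨φW, hφW, h3, h4, h5, h6, h7, h8⟩ := hcore W q H H' κ hκ0 hκ hW hW0 hq hR hWb
  obtain ⟨h9, h10⟩ := loc_model (f := ro q H' v φ) (g := fun y => H' (W (φW y) - q (φW y)))
    (y₀ := y₀) (c₀ := ro q H' v φ y₀) hδ h7 (by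
      filter_upwards [ball_mem_nhds (0 : F) (show (0:ℝ) < 1 / 4 by norm_num)] with y hy
      have hy' : ‖y‖ < 1 / 4 := mem_ball_zero_iff.1 hy
      have hx : ‖φW y‖ ≤ 1 / 2 := (h6 y).trans (by linarith)
      have e1 := hWv (φW y) hx
      have e2 : chg q H v (φ y₀ + δ • φW y) = y₀ + δ • y := by
        have e3 := h1 y₀
        have e4 := h3 y
        unfold chg at e3 e4 ⊢
        rw [e1]
        nth_rewrite 3 [← e3]
        nth_rewrite 3 [← e4]
        simp only [map_add, map_smul, smul_add]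
        abel
      have e5 : φ (y₀ + δ • y) = φ y₀ + δ • φW y := by rw [← e2, h2]
      unfold ro
      rw [e5, e1]
      simp only [map_add, map_sub, map_smul, smul_sub]
      abel)
  refine ⟨h9, fun j hj hj' => (h10 j hj).trans ?_⟩
  have := h8 j hj hj' 0
  gcongr

/-- sup bound of the difference -/
theorem ro_sub_le {v : F → V} {q : F →L[ℝ] V} {H : F →L[ℝ] F} {H' : V →L[ℝ] V} {φ : F → F}
    {l : ℝ} (hl0 : 0 ≤ l) (hl : l ≤ 1 / 8) (hq : ‖q‖ ≤ l) (hR : Rt q H H')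
    (hd : Differentiable ℝ v) (hv0 : v 0 = 0) (hb : ∀ x, ‖fderiv ℝ v x‖ ≤ l)
    (hφ : ∀ y, ‖φ y - y‖ ≤ 4 * l * ‖q‖ * ‖y‖) (y : F) :
    ‖ro q H' v φ y - (v y - q y)‖ ≤ 2 * l * ‖q‖ * ‖y‖ := by
  have hq0 := norm_nonneg q
  have hy0 := norm_nonneg y
  have hlip : ∀ x z : F, ‖(v x - q x) - (v z - q z)‖ ≤ 2 * l * ‖x - z‖ := by
    intro x z
    refine Convex.norm_image_sub_le_of_norm_hasFDerivWithin_le (𝕜 := ℝ)
      (f := fun z => v z - q z) (f' := fun z => fderiv ℝ v z - q) (s := univ) (C := 2 * l)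
      (fun z _ => ((hd z).hasFDerivAt.sub q.hasFDerivAt).hasFDerivWithinAt)
      (fun z _ => ?_) convex_univ (mem_univ z) (mem_univ x)
    calc ‖fderiv ℝ v z - q‖ ≤ l + l := (norm_sub_le _ _).trans (add_le_add (hb z) hq)
      _ = 2 * l := by ring
  have h1 := hlip (φ y) y
  have h2 := hlip (φ y) 0
  rw [hv0, map_zero, sub_self, sub_zero, sub_zero] at h2
  have h3 := hR.near' (v (φ y) - q (φ y))
  have hφy := hφ y
  have h4 : ‖φ y‖ ≤ 2 * ‖y‖ := by
    have h5 : ‖φ y‖ ≤ ‖φ y - y‖ + ‖y‖ := by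
      calc ‖φ y‖ = ‖(φ y - y) + y‖ := by congr 1; abel
        _ ≤ _ := norm_add_le _ _
    have h6 : 4 * l * ‖q‖ * ‖y‖ ≤ 1 * ‖y‖ := by
      have : 4 * l * ‖q‖ ≤ 1 := by nlinarith
      gcongr
    linarith
  have e : ro q H' v φ y - (v y - q y) = (H' (v (φ y) - q (φ y)) - (v (φ y) - q (φ y))) +
      ((v (φ y) - q (φ y)) - (v y - q y)) := by
    unfold ro; abel
  rw [e]
  have h7 : ‖q‖ ^ 2 * ‖v (φ y) - q (φ y)‖ ≤ (l * ‖q‖) * (2 * l * (2 * ‖y‖)) := by
    have h8 : ‖q‖ ^ 2 ≤ l * ‖q‖ := by nlinarith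
    have h9 : ‖v (φ y) - q (φ y)‖ ≤ 2 * l * (2 * ‖y‖) := h2.trans (by gcongr)
    exact mul_le_mul h8 h9 (norm_nonneg _) (by positivity)
  have h10 : 2 * l * ‖φ y - y‖ ≤ 2 * l * (4 * l * ‖q‖ * ‖y‖) := by gcongr
  calc _ ≤ (l * ‖q‖) * (2 * l * (2 * ‖y‖)) + 2 * l * (4 * l * ‖q‖ * ‖y‖) :=
        (norm_add_le _ _).trans (add_le_add (h3.trans h7) (h1.trans h10))
    _ = (12 * l) * (l * ‖q‖ * ‖y‖) := by ring
    _ ≤ 2 * (l * ‖q‖ * ‖y‖) := by
        have : 12 * l ≤ 2 := by linarith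
        gcongr
    _ = _ := by ring

set_option maxHeartbeats 1600000 in
/-- **the difference of the rotated graph and the graph, cut off** -/
theorem rot_diff (F V : Type) [NormedAddCommGroup F] [InnerProductSpace ℝ F]
    [FiniteDimensional ℝ F] [NormedAddCommGroup V] [InnerProductSpace ℝ V] [FiniteDimensional ℝ V]
    (K : ℕ) (r₀ : ℝ) (hr0 : 0 < r₀) (hr1 : r₀ ≤ 1) :
    ∃ (C : ℝ) (p : ℕ), 1 ≤ C ∧ ∀ (v : F → V) (q : F →L[ℝ] V) (H : F →L[ℝ] F)
      (H' : V →L[ℝ] V) (φ : F → F) (l κ ε R th : ℝ), 0 < ε → ε ≤ 1 / 4 → r₀ ≤ R → R ≤ 3 / 2 →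
      0 ≤ l → l ≤ κ → κ ≤ 1 / 8 → ‖q‖ ≤ l → ‖q‖ ≤ th → 0 < th → th ≤ 1 →
      4 * l * ‖q‖ ≤ ε / 8 → Differentiable ℝ v → v 0 = 0 → (∀ x, ‖fderiv ℝ v x‖ ≤ l) →
      Rt q H H' → (∀ y, chg q H v (φ y) = y) → (∀ x, φ (chg q H v x) = x) →
      (∀ y, ‖φ y - y‖ ≤ 4 * l * ‖q‖ * ‖y‖) → LM v R (ε * r₀ / 8) κ K →
      (∀ y, ‖y‖ < (1 - ε / 4) * R → ContDiffAt ℝ ∞ (ro q H' v φ) y) ∧
      ∃ g : F → V, ContDiff ℝ ∞ g ∧
        (∀ y, ‖y‖ ≤ (1 - ε) * R → g y = ro q H' v φ y - (v y - q y)) ∧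
        (∀ y, (1 - ε / 2) * R ≤ ‖y‖ → g y = 0) ∧
        ∀ j ≤ K, ∀ y, ‖iteratedFDeriv ℝ j g y‖ ≤ C * (ε⁻¹) ^ p * th ^ ((1 / 2 : ℝ) ^ K) * κ := by
  let _ : MeasurableSpace F := borel F
  have _ : BorelSpace F := ⟨rfl⟩
  obtain ⟨C1, hC1, hloc⟩ := rot_loc F V K
  obtain ⟨Cχ, hCχ, hχb⟩ := Cto_161.ct_bound (F := F) (K + 1)
  have hri : 1 ≤ r₀⁻¹ := (one_le_inv₀ hr0).2 hr1
  set A0 : ℝ := 2 ^ (K + 1) * (Cχ * (2 * r₀⁻¹) ^ (K + 1)) * ((8 * r₀⁻¹) ^ (K + 1) * (C1 + 3))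
    with hA0
  have hA01 : 1 ≤ A0 := by
    have h1 : (1:ℝ) ≤ 2 ^ (K + 1) := one_le_pow₀ (by norm_num)
    have h2 : (1:ℝ) ≤ (2 * r₀⁻¹) ^ (K + 1) := one_le_pow₀ (by linarith)
    have h3 : (1:ℝ) ≤ (8 * r₀⁻¹) ^ (K + 1) := one_le_pow₀ (by linarith)
    have h4 : (1:ℝ) ≤ C1 + 3 := by linarith
    calc (1:ℝ) = 1 * (1 * 1) * (1 * 1) := by norm_num
      _ ≤ _ := by rw [hA0]; gcongr
  have hct : 0 ≤ Sw_733.ct 3 K := Sw_733.ct_nonneg (by norm_num) K
  refine ⟨max 1 (Sw_733.ct 3 K * A0), 2 * (K + 1), le_max_left _ _, ?_⟩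
  intro v q H H' φ l κ ε R th hε hε1 hR1 hR2 hl0 hlκ hκ hq hqth hth hth1 hsm hd hv0 hb hRt h1 h2
    hφ hLM
  have hκ0 : 0 ≤ κ := hl0.trans hlκ
  have hR0 : 0 < R := hr0.trans_le hR1
  set δ : ℝ := ε * r₀ / 8 with hδ
  have hδ0 : 0 < δ := by positivity
  have hδ1 : δ ≤ 1 := by rw [hδ]; nlinarith
  have hδi : 1 ≤ δ⁻¹ := (one_le_inv₀ hδ0).2 hδ1
  have hεi : 1 ≤ ε⁻¹ := (one_le_inv₀ hε).2 (by linarith)
  have hδR : δ ≤ ε * R / 8 := by rw [hδ]; gcongr
  -- points of the open set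
  have hpt : ∀ y : F, ‖y‖ < (1 - ε / 4) * R → ‖y‖ + δ ≤ R ∧ ‖φ y‖ + δ ≤ R := by
    intro y hy
    have hyR : ‖y‖ ≤ R := by nlinarith
    have h3 : ‖φ y‖ ≤ ‖y‖ + ε / 8 * R := by
      have h5 : ‖φ y‖ ≤ ‖φ y - y‖ + ‖y‖ := by
        calc ‖φ y‖ = ‖(φ y - y) + y‖ := by congr 1; abel
          _ ≤ _ := norm_add_le _ _
      have h6 : 4 * l * ‖q‖ * ‖y‖ ≤ ε / 8 * R := by gcongr
      linarith [hφ y]
    constructor
    · nlinarith
    · nlinarith
  have hsmooth : ∀ y, ‖y‖ < (1 - ε / 4) * R → ContDiffAt ℝ ∞ (ro q H' v φ) y := fun y hy =>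
    (hloc v q H H' φ κ R δ hκ0 hκ hδ0 (hq.trans hlκ) hRt hLM h1 h2 y (hpt y hy).2).1
  refine ⟨hsmooth, ?_⟩
  set U : Set F := ball 0 ((1 - ε / 4) * R) with hU
  set d : F → V := fun y => ro q H' v φ y - (v y - q y) with hd'
  have hvs : ∀ y ∈ U, ContDiffAt ℝ ∞ v y := fun y hy =>
    (hLM.at hδ0 (hpt y (mem_ball_zero_iff.1 hy)).1).1
  have hrs : ∀ y ∈ U, ContDiffAt ℝ ∞ (ro q H' v φ) y := fun y hy =>
    hsmooth y (mem_ball_zero_iff.1 hy)
  have hds : ContDiffOn ℝ ∞ d U := fun y hy =>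
    ((hrs y hy).sub ((hvs y hy).sub q.contDiff.contDiffAt)).contDiffWithinAt
  -- the bounds
  set B : ℝ := (δ⁻¹) ^ (K + 1) with hB
  set Q : ℝ := B * (C1 + 3) * κ with hQ
  have hB1 : (1:ℝ) ≤ B := one_le_pow₀ hδi
  have hB0 : 0 ≤ B := zero_le_one.trans hB1
  have hQ0 : 0 ≤ Q := by positivity
  have hδe : δ⁻¹ = (8 * r₀⁻¹) * ε⁻¹ := by rw [hδ]; field_simp
  have hdsup : ∀ y ∈ U, ‖d y‖ ≤ 3 * th * κ := by
    intro y hy
    have hy' : ‖y‖ ≤ 3 / 2 := by
      have := mem_ball_zero_iff.1 hy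
      nlinarith
    calc ‖d y‖ ≤ 2 * l * ‖q‖ * ‖y‖ := ro_sub_le hl0 (hlκ.trans hκ) hq hRt hd hv0 hb hφ y
      _ ≤ 2 * κ * th * (3 / 2) := by gcongr
      _ = 3 * th * κ := by ring
  have hdb : ∀ i ≤ K + 1, ∀ y ∈ U, ‖iteratedFDeriv ℝ i d y‖ ≤ Q := by
    intro i hi y hy
    rcases Nat.eq_zero_or_pos i with h0 | h0
    · subst h0
      rw [norm_iteratedFDeriv_zero]
      refine (hdsup y hy).trans ?_
      calc 3 * th * κ ≤ 3 * 1 * κ := by gcongr
        _ = 1 * 3 * κ := by ring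
        _ ≤ Q := by
            rw [hQ]
            have : (3:ℝ) ≤ C1 + 3 := by linarith
            gcongr
    · have hy' := mem_ball_zero_iff.1 hy
      have a1 := (hloc v q H H' φ κ R δ hκ0 hκ hδ0 (hq.trans hlκ) hRt hLM h1 h2 y (hpt y hy').2).2 i
        h0 hi
      have a2 := (hLM.at hδ0 (hpt y hy').1).2 i h0 hi
      have a3 := norm_iter_clm q y h0
      have hcast : (i : WithTop ℕ∞) ≤ ∞ := by exact_mod_cast le_top
      have e1 : iteratedFDeriv ℝ i d y = iteratedFDeriv ℝ i (ro q H' v φ) y -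
          iteratedFDeriv ℝ i (fun y => v y - q y) y :=
        iteratedFDeriv_sub_apply (f := ro q H' v φ) (g := fun y => v y - q y)
          ((hrs y hy).of_le hcast) (((hvs y hy).sub q.contDiff.contDiffAt).of_le hcast)
      have e2 : iteratedFDeriv ℝ i (fun y => v y - q y) y = iteratedFDeriv ℝ i v y -
          iteratedFDeriv ℝ i q y :=
        iteratedFDeriv_sub_apply (f := v) (g := fun y => q y)
          ((hvs y hy).of_le hcast) q.contDiff.contDiffAt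
      have hδp : δ * (δ⁻¹) ^ i ≤ B := by
        calc δ * (δ⁻¹) ^ i ≤ 1 * (δ⁻¹) ^ (K + 1) := by
              have := pow_le_pow_right₀ hδi hi
              gcongr
          _ = _ := by rw [one_mul]
      rw [e1, e2]
      calc _ ≤ δ * (δ⁻¹) ^ i * (C1 * κ) + (δ * (δ⁻¹) ^ i * κ + κ) := by
            refine (norm_sub_le _ _).trans (add_le_add a1 ((norm_sub_le _ _).trans
              (add_le_add a2 (a3.trans (hq.trans hlκ)))))
        _ ≤ B * (C1 * κ) + (B * κ + B * κ) := by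
            have : κ ≤ B * κ := le_mul_of_one_le_left hκ0 hB1
            gcongr
        _ = B * (C1 + 2) * κ := by ring
        _ ≤ Q := by rw [hQ]; gcongr; norm_num
  -- the cut-off
  set s : ℝ := (1 - ε) * R with hs
  set r : ℝ := (1 - ε / 2) * R with hr
  have hs0 : 0 ≤ s := by rw [hs]; nlinarith
  have hsr : s < r := by rw [hs, hr]; nlinarith
  have hrs' : ε * r₀ / 2 ≤ r - s := by
    have : r - s = ε * R / 2 := by rw [hs, hr]; ring
    rw [this]; gcongr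
  have hrU : r < (1 - ε / 4) * R := by rw [hr]; nlinarith
  set χ : F → ℝ := Cto_161.ct s r with hχ
  have hχs : ContDiff ℝ ∞ χ := Cto_161.ct_smooth s r
  have hsupp : tsupport χ ⊆ U :=
    (Cto_161.tsupport_ct hs0 hsr).trans (closedBall_subset_ball hrU)
  set P : ℝ := Cχ * (2 * r₀⁻¹ * ε⁻¹) ^ (K + 1) with hP
  have hP0 : 0 ≤ P := by positivity
  have h4e : 1 ≤ 2 * r₀⁻¹ * ε⁻¹ := by nlinarith
  have hχb' : ∀ i ≤ K + 1, ∀ x, ‖iteratedFDeriv ℝ i χ x‖ ≤ P := by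
    intro i hi x
    refine (hχb s r hs0 hsr i hi x).trans ?_
    have h5 : (r - s)⁻¹ ≤ 2 * r₀⁻¹ * ε⁻¹ := by
      have h6 : (r - s)⁻¹ ≤ (ε * r₀ / 2)⁻¹ := inv_anti₀ (by positivity) hrs'
      have h7 : (ε * r₀ / 2)⁻¹ = 2 * r₀⁻¹ * ε⁻¹ := by field_simp
      rwa [h7] at h6
    have h7 : 0 < r - s := lt_of_lt_of_le (by positivity) hrs'
    rw [div_eq_mul_inv, ← inv_pow, hP]
    have h8 : ((r - s)⁻¹) ^ i ≤ (2 * r₀⁻¹ * ε⁻¹) ^ (K + 1) := by
      calc ((r - s)⁻¹) ^ i ≤ (2 * r₀⁻¹ * ε⁻¹) ^ i := pow_le_pow_left₀ (by positivity) h5 i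
        _ ≤ _ := pow_le_pow_right₀ h4e hi
    gcongr
  obtain ⟨hg, hgb⟩ := cutU hχs isOpen_ball hsupp hP0 hχb' hQ0 hds hdb
  set A : ℝ := 2 ^ (K + 1) * P * Q with hA
  have hAe : A = A0 * (ε⁻¹) ^ (2 * (K + 1)) * κ := by
    rw [hA, hP, hQ, hB, hA0, hδe, mul_pow _ (ε⁻¹), mul_pow _ (ε⁻¹), two_mul (K + 1), pow_add (ε⁻¹)]
    ring
  have hκA : κ ≤ A := by
    rw [hAe]
    have h5 : (1:ℝ) ≤ (ε⁻¹) ^ (2 * (K + 1)) := one_le_pow₀ hεi
    have h6 : 1 ≤ A0 * (ε⁻¹) ^ (2 * (K + 1)) := by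
      calc (1:ℝ) = 1 * 1 := by norm_num
        _ ≤ _ := by gcongr
    exact le_mul_of_one_le_left hκ0 h6
  have hA00 : 0 ≤ A := hκ0.trans hκA
  have hsup : ∀ z, ‖χ z • d z‖ ≤ 3 * th * A := by
    intro z
    by_cases hz : z ∈ U
    · rw [norm_smul, Real.norm_of_nonneg (Cto_161.ct_nonneg s r z)]
      calc χ z * ‖d z‖ ≤ 1 * (3 * th * κ) :=
            mul_le_mul (Cto_161.ct_le_one s r z) (hdsup z hz) (norm_nonneg _) zero_le_one
        _ ≤ 3 * th * A := by rw [one_mul]; gcongr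
    · have : χ z = 0 := image_eq_zero_of_notMem_tsupport fun h => hz (hsupp h)
      rw [this, zero_smul, norm_zero]; positivity
  have hint := interp_glob (F := F) hg (A := A) (C := 3) (ρ := th) (J := K) hth hth1 hA00
    (by norm_num) hgb hsup
  refine ⟨fun x => χ x • d x, hg, ?_, ?_, ?_⟩
  · intro y hy
    simp only [hχ, Cto_161.ct_one hs0 hsr hy, one_smul, hd']
  · intro y hy
    simp only [hχ, Cto_161.ct_zero hs0 hsr hy, zero_smul]
  · intro j hj y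
    refine (hint j hj y).trans ?_
    rw [hAe]
    have h5 : 0 ≤ th ^ ((1 / 2 : ℝ) ^ K) := by positivity
    calc Sw_733.ct 3 K * th ^ ((1 / 2 : ℝ) ^ K) * (A0 * (ε⁻¹) ^ (2 * (K + 1)) * κ)
        = (Sw_733.ct 3 K * A0) * (ε⁻¹) ^ (2 * (K + 1)) * th ^ ((1 / 2 : ℝ) ^ K) * κ := by ring
      _ ≤ _ := by
          have := le_max_right 1 (Sw_733.ct 3 K * A0)
          gcongr

end Crest.Agent.R234.Rs_182
end
end

-- ▼ part R234/Zm1_161
section

/-!
# Row 234 (helper161): dilations of the Wiener algebra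

`dil t : X F N →L X F N`, `ev (dil t a) x = ev a (t • x)`, `‖dil t a‖ = ∫ wt N (t • ξ) ‖a ξ‖ ≤ ‖a‖`
for `0 < t ≤ 1`.
-/

set_option autoImplicit false
set_option linter.unusedSectionVars false

open MeasureTheory Complex Filter Real
open scoped ContDiff FourierTransform Topology InnerProductSpace SchwartzMap

noncomputable section

namespace Crest.Agent.R234.Zm_161

open Crest.Agent.R086.Wie Crest.Agent.R234.Mx1_397 Crest.Agent.R234.Mx2_397
open Crest.Agent.R234.Mx3_397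

variable {F : Type*} [NormedAddCommGroup F] [InnerProductSpace ℝ F] [FiniteDimensional ℝ F]
  [MeasurableSpace F] [BorelSpace F]

/-- the dilation of a density -/
def dl (t : ℝ) (a : F → ℂ) (ζ : F) : ℂ :=
  (((t ^ Module.finrank ℝ F)⁻¹ : ℝ) : ℂ) * a (t⁻¹ • ζ)

theorem wt_smul_le (N : ℕ) {t : ℝ} (ht : 0 < t) (ht1 : t ≤ 1) (ξ : F) :
    wt N (t • ξ) ≤ wt N ξ := by
  unfold wt
  rw [norm_smul, Real.norm_of_nonneg ht.le]
  have := norm_nonneg ξ
  gcongr
  nlinarith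

theorem integral_dl {E : Type*} [NormedAddCommGroup E] [NormedSpace ℝ E] {t : ℝ} (ht : 0 < t)
    (g : F → E) : ∫ ζ, (t ^ Module.finrank ℝ F)⁻¹ • g (t⁻¹ • ζ) = ∫ ξ, g ξ := by
  rw [integral_smul, Measure.integral_comp_inv_smul_of_nonneg _ _ ht.le, smul_smul,
    inv_mul_cancel₀ (by positivity), one_smul]

theorem norm_dl {t : ℝ} (ht : 0 < t) (a : F → ℂ) (ζ : F) :
    ‖dl t a ζ‖ = (t ^ Module.finrank ℝ F)⁻¹ * ‖a (t⁻¹ • ζ)‖ := by
  unfold dl
  rw [norm_mul, Complex.norm_real, Real.norm_of_nonneg (by positivity)]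

theorem wt_norm_dl (N : ℕ) {t : ℝ} (ht : 0 < t) (a : F → ℂ) (ζ : F) :
    wt N ζ * ‖dl t a ζ‖ = (t ^ Module.finrank ℝ F)⁻¹ •
      (fun ξ => wt N (t • ξ) * ‖a ξ‖) (t⁻¹ • ζ) := by
  rw [norm_dl ht, smul_eq_mul]
  simp only [smul_smul, mul_inv_cancel₀ ht.ne', one_smul]
  ring

theorem aesm_dl {t : ℝ} (ht : 0 < t) {a : F → ℂ} (ha : Integrable a) :
    AEStronglyMeasurable (dl t a) (volume : Measure F) := by
  have := (ha.comp_smul (inv_ne_zero ht.ne')).aestronglyMeasurable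
  exact this.const_mul _

theorem int_wt_smul {N : ℕ} {t : ℝ} (ht : 0 < t) (ht1 : t ≤ 1) {a : F → ℂ} (ha : WInt N a) :
    Integrable (fun ξ => wt N (t • ξ) * ‖a ξ‖) := by
  have hm : Measurable fun ξ : F => wt N (t • ξ) :=
    ((continuous_wt N).comp (continuous_const_smul t)).measurable
  refine ha.norm_int.mono (hm.aestronglyMeasurable.mul
    ha.integrable.aestronglyMeasurable.norm) (Eventually.of_forall fun ξ => ?_)
  rw [Real.norm_of_nonneg (mul_nonneg (wt_nonneg _ _) (norm_nonneg _)), wtV_apply,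
    Real.norm_of_nonneg (mul_nonneg (wt_nonneg _ _) (norm_nonneg _))]
  exact mul_le_mul_of_nonneg_right (wt_smul_le N ht ht1 ξ) (norm_nonneg _)

theorem wint_dl {N : ℕ} {t : ℝ} (ht : 0 < t) (ht1 : t ≤ 1) {a : F → ℂ} (ha : WInt N a) :
    WInt N (dl t a) := by
  rw [WInt, gint_iff (aesm_dl ht ha.integrable)]
  have h := ((int_wt_smul ht ht1 ha).comp_smul (inv_ne_zero ht.ne')).smul
    (t ^ Module.finrank ℝ F)⁻¹
  refine h.congr (Eventually.of_forall fun ζ => ?_)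
  simp only [wtV_apply, Pi.smul_apply]
  exact (wt_norm_dl N ht a ζ).symm

theorem int_dl {N : ℕ} {t : ℝ} (ht : 0 < t) (a : F → ℂ) :
    ∫ ζ, wt N ζ * ‖dl t a ζ‖ = ∫ ξ, wt N (t • ξ) * ‖a ξ‖ := by
  rw [← integral_dl ht (fun ξ => wt N (t • ξ) * ‖a ξ‖)]
  exact integral_congr_ae (Eventually.of_forall fun ζ => wt_norm_dl N ht a ζ)

/-- the dilation operator -/
def dil (N : ℕ) (t : ℝ) (ht : 0 < t) (ht1 : t ≤ 1) : X F N →L[ℂ] X F N :=
  XG.lift (fun a => dl t a) (fun a ha => wint_dl ht ht1 ha)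
    (fun a b _ _ => Eventually.of_forall fun x => by simp only [dl]; ring)
    (fun c a _ => Eventually.of_forall fun x => by simp only [dl]; ring)
    (fun a b _ h => by
      have h1 := (Measure.quasiMeasurePreserving_smul (μ := (volume : Measure F))
        (inv_ne_zero ht.ne')).ae_eq_comp h
      filter_upwards [h1] with x hx
      simp only [dl]
      have : a (t⁻¹ • x) = b (t⁻¹ • x) := hx
      rw [this]) 1
    (fun a ha => by
      simp only [wtV_apply]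
      rw [int_dl ht, one_mul]
      refine integral_mono (int_wt_smul ht ht1 ha) ha.norm_int fun ξ => ?_
      exact mul_le_mul_of_nonneg_right (wt_smul_le N ht ht1 ξ) (norm_nonneg _))

theorem den_dil {N : ℕ} {t : ℝ} (ht : 0 < t) (ht1 : t ≤ 1) (a : X F N) :
    XG.den (dil N t ht ht1 a) =ᵐ[volume] dl t (XG.den a) := XG.den_lift _ _ _ _ _ _ _ a

theorem norm_dil {N : ℕ} {t : ℝ} (ht : 0 < t) (ht1 : t ≤ 1) (a : X F N) :
    ‖dil N t ht ht1 a‖ = ∫ ξ, wt N (t • ξ) * ‖XG.den a ξ‖ := by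
  rw [XG.norm_eq, ← int_dl ht]
  refine integral_congr_ae ((den_dil ht ht1 a).mono fun ξ hξ => ?_)
  simp only [hξ, wtV_apply]

theorem norm_dil_le {N : ℕ} {t : ℝ} (ht : 0 < t) (ht1 : t ≤ 1) (a : X F N) :
    ‖dil N t ht ht1 a‖ ≤ ‖a‖ := by
  rw [norm_dil, XG.norm_eq]
  refine integral_mono (int_wt_smul ht ht1 (XG.gint_den a)) (XG.gint_den a).norm_int fun ξ => ?_
  exact mul_le_mul_of_nonneg_right (wt_smul_le N ht ht1 ξ) (norm_nonneg _)

theorem ev_dil {N : ℕ} {t : ℝ} (ht : 0 < t) (ht1 : t ≤ 1) (a : X F N) (x : F) :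
    ev (dil N t ht ht1 a) x = ev a (t • x) := by
  rw [ev_eq, ev_eq, ← integral_dl ht (fun ξ => chr (t • x) ξ * XG.den a ξ)]
  refine integral_congr_ae ((den_dil ht ht1 a).mono fun ξ hξ => ?_)
  simp only [hξ, dl]
  rw [Complex.real_smul]
  have h1 : chr (t • x) (t⁻¹ • ξ) = chr x ξ := by
    unfold chr
    rw [inner_smul_left, inner_smul_right, ← mul_assoc]
    simp [ht.ne']
  rw [h1]
  ring

theorem star_dil {N : ℕ} {t : ℝ} (ht : 0 < t) (ht1 : t ≤ 1) (a : X F N) :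
    star (dil N t ht ht1 a) = dil N t ht ht1 (star a) := by
  refine XG.ext ?_
  have h0 := (Measure.quasiMeasurePreserving_smul (μ := (volume : Measure F))
        (inv_ne_zero ht.ne')).ae (XG.den_star a)
  filter_upwards [XG.den_star (dil N t ht ht1 a), XG.ae_neg (den_dil ht ht1 a),
    den_dil ht ht1 (star a), h0] with ξ h1 h2 h3 h4
  rw [h1, h2, h3]
  unfold dl
  rw [h4, map_mul, Complex.conj_ofReal, smul_neg]

end Crest.Agent.R234.Zm_161
end
end

-- ▼ part R234/Zm2_161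
section

/-!
# Row 234 (helper161): the zoom of the Wiener algebra without loss

`zoom`: for a real `a : X F N`, `2 ≤ N`, `0 < t ≤ 1`, the function
`η(x) (u(tx) - u(0) - Du(0)(tx))` (`u = Re ev a`) has Wiener norm `≤ C t² ‖a‖`.
-/

set_option autoImplicit false
set_option linter.unusedSectionVars false

open MeasureTheory Complex Filter Real
open scoped ContDiff FourierTransform Topology InnerProductSpace SchwartzMap

noncomputable section

namespace Crest.Agent.R234.Zm_161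

open Crest.Agent.R086.Wie Crest.Agent.R234.Mx1_397 Crest.Agent.R234.Mx2_397
open Crest.Agent.R234.Mx3_397

variable {F : Type*} [NormedAddCommGroup F] [InnerProductSpace ℝ F] [FiniteDimensional ℝ F]
  [MeasurableSpace F] [BorelSpace F]

/-! ### a sharper bound of the derivatives -/

theorem norm_iteratedFDeriv_ev_le' {N : ℕ} (a : X F N) {n : ℕ} (hn : n ≤ N) (x : F) :
    ‖iteratedFDeriv ℝ n (fun x => ev a x) x‖ ≤
      (2 * π) ^ n * ∫ ξ, ‖ξ‖ ^ n * ‖XG.den a ξ‖ := by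
  have h2 : (fun x => ev a x) = fun x : F => 𝓕 (XG.den a) (-x) := by
    funext y
    unfold ev
    rw [Real.fourierInv_eq_fourier_neg]
  have h7 : ‖iteratedFDeriv ℝ n (fun x : F => 𝓕 (XG.den a) (-x)) x‖
      = ‖iteratedFDeriv ℝ n (𝓕 (XG.den a)) (-x)‖ :=
    (LinearIsometryEquiv.neg ℝ (E := F)).norm_iteratedFDeriv_comp_right (𝓕 (XG.den a)) x n
  rw [h2, h7,
    Real.iteratedFDeriv_fourier (N := (N : ℕ∞))
      (fun n hn => integrable_norm_pow a (by exact_mod_cast hn))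
      (XG.integrable_den a).aestronglyMeasurable (by exact_mod_cast hn)]
  refine (VectorFourier.norm_fourierIntegral_le_integral_norm _ _ _ _ _).trans ?_
  have hp : (0 : ℝ) ≤ (2 * π) ^ n := by positivity
  rw [← integral_const_mul]
  refine integral_mono_of_nonneg (Eventually.of_forall fun ξ => norm_nonneg _)
    ((integrable_norm_pow a hn).const_mul _) (Eventually.of_forall fun ξ => ?_)
  simp only
  refine (VectorFourier.norm_fourierPowSMulRight_le _ _ _ _).trans ?_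
  have h3 : ‖innerSL ℝ (E := F)‖ ≤ 1 := norm_innerSL_le _
  have h4 : (2 * π * ‖innerSL ℝ (E := F)‖) ^ n ≤ (2 * π) ^ n := by
    have hp' := Real.pi_pos
    refine pow_le_pow_left₀ (by positivity) ?_ n
    nlinarith [norm_nonneg (innerSL ℝ (E := F))]
  rw [mul_assoc]
  exact mul_le_mul_of_nonneg_right h4 (by positivity)

/-! ### Taylor remainder of order two -/

/-- the first order Taylor polynomial -/
def tay (h : F → ℝ) (x : F) : ℝ := h 0 + fderiv ℝ h 0 x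

theorem tay_smooth (h : F → ℝ) : ContDiff ℝ ∞ (tay h) := by
  unfold tay
  exact contDiff_const.add (fderiv ℝ h 0).contDiff

theorem rem_bound {h : F → ℝ} (hs : ContDiff ℝ ∞ h) {A : ℝ} (hA : 0 ≤ A) {K : ℕ}
    (hb : ∀ j, 2 ≤ j → j ≤ max K 2 → ∀ x, ‖iteratedFDeriv ℝ j h x‖ ≤ A) :
    ∀ j ≤ K, ∀ x ∈ Metric.ball (0 : F) 2,
      ‖iteratedFDeriv ℝ j (fun x => h x - tay h x) x‖ ≤ 4 * A := by
  have hd : Differentiable ℝ h := hs.differentiable (by simp)
  have hd1 : ContDiff ℝ ∞ (fderiv ℝ h) := hs.fderiv_right (by simp)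
  have hdd : Differentiable ℝ (fderiv ℝ h) := hd1.differentiable (by simp)
  have h2 : ∀ x, ‖fderiv ℝ (fderiv ℝ h) x‖ ≤ A := fun x => by
    have := hb 2 le_rfl (le_max_right _ _) x
    rw [← norm_iteratedFDeriv_fderiv, ← norm_iteratedFDeriv_fderiv, norm_iteratedFDeriv_zero]
      at this
    exact this
  have hL : ∀ x y, ‖fderiv ℝ h x - fderiv ℝ h y‖ ≤ A * ‖x - y‖ := fun x y =>
    Convex.norm_image_sub_le_of_norm_fderiv_le (𝕜 := ℝ) (s := Set.univ)
      (fun z _ => hdd z) (fun z _ => h2 z) convex_univ (Set.mem_univ y) (Set.mem_univ x)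
  have hfd : ∀ x, HasFDerivAt (fun x => h x - tay h x) (fderiv ℝ h x - fderiv ℝ h 0) x :=
    fun x => by
      have h5 : HasFDerivAt (tay h) (fderiv ℝ h 0) x := by
        unfold tay
        exact (fderiv ℝ h 0).hasFDerivAt.const_add (h 0)
      exact (hd x).hasFDerivAt.sub h5
  have hfd' : fderiv ℝ (fun x => h x - tay h x) = fun x => fderiv ℝ h x - fderiv ℝ h 0 :=
    funext fun x => (hfd x).fderiv
  intro j hj x hx
  rw [mem_ball_zero_iff] at hx
  rcases j with _ | j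
  · rw [norm_iteratedFDeriv_zero]
    have h6 : ‖(h x - tay h x) - (h 0 - tay h 0)‖ ≤ (2 * A) * ‖x - 0‖ := by
      refine Convex.norm_image_sub_le_of_norm_hasFDerivWithin_le (𝕜 := ℝ)
        (s := Metric.ball (0 : F) 2) (f' := fun x => fderiv ℝ h x - fderiv ℝ h 0)
        (fun z _ => (hfd z).hasFDerivWithinAt) (fun z hz => ?_) (convex_ball 0 2)
        (by simp) (by simpa using hx)
      rw [mem_ball_zero_iff] at hz
      refine (hL z 0).trans ?_
      rw [sub_zero]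
      nlinarith
    have h7 : h 0 - tay h 0 = 0 := by simp [tay]
    rw [h7, sub_zero, sub_zero] at h6
    refine h6.trans ?_
    nlinarith
  · rw [← norm_iteratedFDeriv_fderiv, hfd']
    rcases j with _ | j
    · rw [norm_iteratedFDeriv_zero]
      refine (hL x 0).trans ?_
      rw [sub_zero]
      nlinarith
    · rw [← norm_iteratedFDeriv_fderiv]
      have h8 : (fderiv ℝ fun x => fderiv ℝ h x - fderiv ℝ h 0) = fderiv ℝ (fderiv ℝ h) := by
        funext y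
        exact fderiv_sub_const _
      rw [h8, norm_iteratedFDeriv_fderiv, norm_iteratedFDeriv_fderiv]
      refine (hb (j + 1 + 1) (by omega) (hj.trans (le_max_left _ _)) x).trans ?_
      linarith

/-! ### low and high frequencies -/

/-- low frequencies -/
def lo (t : ℝ) (ξ : F) : ℂ := if t * ‖ξ‖ ≤ 1 then 1 else 0

/-- high frequencies -/
def hi (t : ℝ) (ξ : F) : ℂ := if t * ‖ξ‖ ≤ 1 then 0 else 1

theorem measurable_lo (t : ℝ) : Measurable (lo t : F → ℂ) :=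
  Measurable.ite (measurableSet_le (measurable_norm.const_mul t) measurable_const)
    measurable_const measurable_const

theorem measurable_hi (t : ℝ) : Measurable (hi t : F → ℂ) :=
  Measurable.ite (measurableSet_le (measurable_norm.const_mul t) measurable_const)
    measurable_const measurable_const

theorem lo_add_hi (t : ℝ) (ξ : F) : lo t ξ + hi t ξ = 1 := by
  unfold lo hi
  split_ifs <;> simp


theorem hi_symm (t : ℝ) (ξ : F) : hi t (-ξ) = (starRingEnd ℂ) (hi t ξ) := by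
  unfold hi
  rw [norm_neg]
  split_ifs <;> simp

theorem lo_hC {t : ℝ} (ht : 0 < t) (M N : ℕ) (ξ : F) :
    ‖lo t ξ‖ * wt M ξ ≤ (1 + t⁻¹) ^ M * wt N ξ := by
  have h1 := one_le_wt N ξ
  unfold lo
  split_ifs with h
  · rw [norm_one, one_mul]
    have h2 : ‖ξ‖ ≤ t⁻¹ := by
      rw [← one_div, le_div_iff₀ ht]
      linarith
    calc wt M ξ = (1 + ‖ξ‖) ^ M * 1 := by rw [mul_one]; rfl
      _ ≤ (1 + t⁻¹) ^ M * wt N ξ := by
        refine mul_le_mul (pow_le_pow_left₀ (by positivity) (by linarith) _) h1 zero_le_one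
          (by positivity)
  · rw [norm_zero, zero_mul]
    have := wt_nonneg N ξ
    positivity

theorem hi_hC (t : ℝ) (N : ℕ) (ξ : F) :
    ‖hi t ξ‖ * wt N ξ ≤ 1 * wt N ξ := by
  have h1 := wt_nonneg N ξ
  unfold hi
  split_ifs with h
  · rw [norm_zero, zero_mul, one_mul]; exact h1
  · rw [norm_one]

/-- low frequency part, in every class -/
def loX {N : ℕ} (M : ℕ) (t : ℝ) (ht : 0 < t) : X F N →L[ℂ] X F M :=
  mlt (lo t) (measurable_lo t) ((1 + t⁻¹) ^ M) (lo_hC ht M N)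

/-- high frequency part -/
def hiX (N : ℕ) (t : ℝ) : X F N →L[ℂ] X F N :=
  mlt (hi t) (measurable_hi t) 1 (hi_hC t N)

theorem den_loX {N : ℕ} (M : ℕ) {t : ℝ} (ht : 0 < t) (a : X F N) :
    XG.den (loX M t ht a) =ᵐ[volume] fun ξ => lo t ξ * XG.den a ξ := den_mlt _ _ a

theorem den_hiX {N : ℕ} (t : ℝ) (a : X F N) :
    XG.den (hiX N t a) =ᵐ[volume] fun ξ => hi t ξ * XG.den a ξ := den_mlt _ _ a

theorem loX_add_hiX {N : ℕ} {t : ℝ} (ht : 0 < t) (a : X F N) : loX N t ht a + hiX N t a = a := by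
  refine XG.ext ?_
  filter_upwards [XG.den_add (loX N t ht a) (hiX N t a), den_loX N ht a, den_hiX t a]
    with ξ h1 h2 h3
  rw [h1, h2, h3, ← add_mul, lo_add_hi, one_mul]

theorem ev_loX {N : ℕ} (M : ℕ) {t : ℝ} (ht : 0 < t) (a : X F N) (x : F) :
    ev (loX M t ht a) x = ev (loX N t ht a) x :=
  ev_congr ((den_loX M ht a).trans (den_loX N ht a).symm) x


theorem star_hiX {N : ℕ} (t : ℝ) (a : X F N) :
    star (hiX N t a) = hiX N t (star a) := mlt_star _ _ (hi_symm t) a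

/-- the low frequency part gains `t^k` in all derivatives of order `≥ k` -/
theorem lo_bound {N k : ℕ} (hk : k ≤ N) {t : ℝ} (ht : 0 < t) (ht1 : t ≤ 1) (a : X F N) (j : ℕ)
    (hj : k ≤ j) (x : F) :
    ‖iteratedFDeriv ℝ j (fun y => ev (dil j t ht ht1 (loX j t ht a)) y) x‖
      ≤ (2 * π) ^ j * (t ^ k * ‖a‖) := by
  refine (norm_iteratedFDeriv_ev_le' _ le_rfl x).trans ?_
  refine mul_le_mul_of_nonneg_left ?_ (by positivity)
  have h1 : ∫ ζ : F, ‖ζ‖ ^ j * ‖XG.den (dil j t ht ht1 (loX j t ht a)) ζ‖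
      = ∫ ξ : F, ‖t • ξ‖ ^ j * ‖lo t ξ * XG.den a ξ‖ := by
    rw [← integral_dl ht (fun ξ => ‖t • ξ‖ ^ j * ‖lo t ξ * XG.den a ξ‖)]
    have h0 := (Measure.quasiMeasurePreserving_smul (μ := (volume : Measure F))
        (inv_ne_zero ht.ne')).ae (den_loX j ht a)
    refine integral_congr_ae ?_
    filter_upwards [den_dil ht ht1 (loX j t ht a), h0] with ζ h2 h3
    rw [h2, norm_dl ht, h3, smul_smul, mul_inv_cancel₀ ht.ne', one_smul, smul_eq_mul]
    ring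
  rw [h1, XG.norm_eq, ← integral_const_mul]
  refine integral_mono_of_nonneg (Eventually.of_forall fun ξ => by positivity)
    ((XG.gint_den a).norm_int.const_mul _) (Eventually.of_forall fun ξ => ?_)
  simp only [wtV_apply]
  have hw : ‖ξ‖ ^ k ≤ wt N ξ := by
    unfold wt
    calc ‖ξ‖ ^ k ≤ (1 + ‖ξ‖) ^ k := by gcongr; linarith
      _ ≤ (1 + ‖ξ‖) ^ N := pow_le_pow_right₀ (by linarith [norm_nonneg ξ]) hk
  unfold lo
  split_ifs with h
  · rw [one_mul, norm_smul, Real.norm_of_nonneg ht.le]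
    have h4 : (t * ‖ξ‖) ^ j ≤ (t * ‖ξ‖) ^ k := pow_le_pow_of_le_one (by positivity) h hj
    calc (t * ‖ξ‖) ^ j * ‖XG.den a ξ‖ ≤ (t * ‖ξ‖) ^ k * ‖XG.den a ξ‖ := by gcongr
      _ = t ^ k * (‖ξ‖ ^ k * ‖XG.den a ξ‖) := by ring
      _ ≤ t ^ k * (wt N ξ * ‖XG.den a ξ‖) := by gcongr
  · rw [zero_mul, norm_zero, mul_zero]
    have := wt_nonneg N ξ
    positivity

/-- the high frequency part gains `t^k`, `k ≤ N` -/
theorem hi_bound {N k : ℕ} (hk : k ≤ N) {t : ℝ} (ht : 0 < t) (ht1 : t ≤ 1) (a : X F N) :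
    ‖dil N t ht ht1 (hiX N t a)‖ ≤ 2 ^ N * t ^ k * ‖a‖ := by
  have h1 : ∫ ξ, wt N (t • ξ) * ‖XG.den (hiX N t a) ξ‖
      = ∫ ξ, wt N (t • ξ) * ‖hi t ξ * XG.den a ξ‖ :=
    integral_congr_ae ((den_hiX t a).mono fun ξ hξ => by simp only [hξ])
  rw [norm_dil, h1, XG.norm_eq, ← integral_const_mul]
  refine integral_mono_of_nonneg (Eventually.of_forall fun ξ =>
    mul_nonneg (wt_nonneg _ _) (norm_nonneg _))
    ((XG.gint_den a).norm_int.const_mul _) (Eventually.of_forall fun ξ => ?_)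
  simp only [wtV_apply]
  unfold hi
  split_ifs with h
  · rw [zero_mul, norm_zero, mul_zero]
    have := wt_nonneg N ξ
    positivity
  · rw [one_mul, ← mul_assoc]
    refine mul_le_mul_of_nonneg_right ?_ (norm_nonneg _)
    unfold wt
    rw [norm_smul, Real.norm_of_nonneg ht.le]
    have h2 : 1 ≤ t * ‖ξ‖ := (not_le.1 h).le
    have h3 : 1 + t * ‖ξ‖ ≤ 2 * (t * (1 + ‖ξ‖)) := by nlinarith
    have h4 : t ^ N ≤ t ^ k := pow_le_pow_of_le_one ht.le ht1 hk
    calc (1 + t * ‖ξ‖) ^ N ≤ (2 * (t * (1 + ‖ξ‖))) ^ N := by gcongr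
      _ = 2 ^ N * t ^ N * (1 + ‖ξ‖) ^ N := by rw [mul_pow, mul_pow]; ring
      _ ≤ 2 ^ N * t ^ k * (1 + ‖ξ‖) ^ N := by gcongr

/-! ### affine functions -/

theorem tay_bound (h : F → ℝ) (j : ℕ) {x : F} (hx : x ∈ Metric.ball (0 : F) 2) :
    ‖iteratedFDeriv ℝ j (tay h) x‖ ≤ ‖h 0‖ + 2 * ‖fderiv ℝ h 0‖ := by
  rw [mem_ball_zero_iff] at hx
  have h5 : fderiv ℝ (tay h) = fun _ => fderiv ℝ h 0 := by
    funext y
    unfold tay
    exact ((fderiv ℝ h 0).hasFDerivAt.const_add (h 0)).fderiv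
  rcases j with _ | j
  · rw [norm_iteratedFDeriv_zero]
    unfold tay
    refine (norm_add_le _ _).trans (add_le_add le_rfl ?_)
    refine ((fderiv ℝ h 0).le_opNorm x).trans ?_
    have := norm_nonneg (fderiv ℝ h 0)
    nlinarith
  · rw [← norm_iteratedFDeriv_fderiv, h5]
    rcases j with _ | j
    · rw [norm_iteratedFDeriv_zero]
      have := norm_nonneg (fderiv ℝ h 0)
      have := norm_nonneg (h 0)
      linarith
    · rw [iteratedFDeriv_const_of_ne (by omega)]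
      simp only [Pi.zero_apply, norm_zero]
      positivity

end Crest.Agent.R234.Zm_161
end
end

-- ▼ part R234/Zm3_161
section

/-!
# Row 234 (helper161): the zoom of the Wiener algebra without loss, conclusion

`zoom2`: `‖η (u(t·) - u(0) - Du(0)(t·))‖ ≤ C t² ‖a‖`, `zoom1`: `‖η (u(t·) - u(0))‖ ≤ C t ‖a‖`
(`u = Re ev a`), `zoom`: both at an arbitrary centre.
-/

set_option autoImplicit false
set_option linter.unusedSectionVars false

open MeasureTheory Complex Filter Real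
open scoped ContDiff FourierTransform Topology InnerProductSpace SchwartzMap

noncomputable section

namespace Crest.Agent.R234.Zm_161

open Crest.Agent.R086.Wie Crest.Agent.R234.Mx1_397 Crest.Agent.R234.Mx2_397
open Crest.Agent.R234.Mx3_397

variable {F : Type*} [NormedAddCommGroup F] [InnerProductSpace ℝ F] [FiniteDimensional ℝ F]
  [MeasurableSpace F] [BorelSpace F]

/-- the low frequency function at scale `t` -/
def fL {N : ℕ} (t : ℝ) (ht : 0 < t) (ht1 : t ≤ 1) (a : X F N) (y : F) : ℝ :=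
  (ev (dil N t ht ht1 (loX N t ht a)) y).re

/-- the high frequency function at scale `t` -/
def fH {N : ℕ} (t : ℝ) (ht : 0 < t) (ht1 : t ≤ 1) (a : X F N) (y : F) : ℝ :=
  (ev (dil N t ht ht1 (hiX N t a)) y).re

theorem fL_eq {N : ℕ} {t : ℝ} (ht : 0 < t) (ht1 : t ≤ 1) (a : X F N) (j : ℕ) :
    fL t ht ht1 a = fun y => (ev (dil j t ht ht1 (loX j t ht a)) y).re := by
  funext y
  unfold fL
  rw [ev_dil, ev_dil, ev_loX]
  congr 1
  exact (ev_loX j ht a (t • y)).symm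

theorem fL_add_fH {N : ℕ} {t : ℝ} (ht : 0 < t) (ht1 : t ≤ 1) (a : X F N) (y : F) :
    fL t ht ht1 a y + fH t ht ht1 a y = (ev a (t • y)).re := by
  unfold fL fH
  rw [ev_dil, ev_dil, ← Complex.add_re, ← ev_add, loX_add_hiX]

theorem reCLM_norm_iter {f : F → ℂ} {n : ℕ} (hf : ContDiff ℝ n f) {j : ℕ} (hj : j ≤ n) (x : F) :
    ‖iteratedFDeriv ℝ j (fun y => (f y).re) x‖ ≤ ‖iteratedFDeriv ℝ j f x‖ := by
  have h := Complex.reCLM.norm_iteratedFDeriv_comp_left (hf.contDiffAt (x := x)) (n := j)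
    (by exact_mod_cast hj)
  rw [Complex.reCLM_norm, one_mul] at h
  exact h

theorem fL_smooth {N : ℕ} {t : ℝ} (ht : 0 < t) (ht1 : t ≤ 1) (a : X F N) :
    ContDiff ℝ ∞ (fL t ht ht1 a) := by
  rw [contDiff_infty]
  intro j
  rw [fL_eq ht ht1 a j]
  exact Complex.reCLM.contDiff.comp (contDiff_ev _)

theorem fL_bound {N k : ℕ} (hk : k ≤ N) {t : ℝ} (ht : 0 < t) (ht1 : t ≤ 1) (a : X F N) (j : ℕ)
    (hj : k ≤ j) (x : F) :
    ‖iteratedFDeriv ℝ j (fL t ht ht1 a) x‖ ≤ (2 * π) ^ j * (t ^ k * ‖a‖) := by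
  rw [fL_eq ht ht1 a j]
  exact (reCLM_norm_iter (contDiff_ev _) le_rfl x).trans (lo_bound hk ht ht1 a j hj x)

theorem fH_smooth {N : ℕ} {t : ℝ} (ht : 0 < t) (ht1 : t ≤ 1) (a : X F N) :
    ContDiff ℝ N (fH t ht ht1 a) := Complex.reCLM.contDiff.comp (contDiff_ev _)

theorem fH_zero {N k : ℕ} (hk : k ≤ N) {t : ℝ} (ht : 0 < t) (ht1 : t ≤ 1) (a : X F N) (x : F) :
    ‖fH t ht ht1 a x‖ ≤ 2 ^ N * t ^ k * ‖a‖ := by
  unfold fH
  refine (Complex.abs_re_le_norm _).trans ((norm_ev_le _ _).trans (hi_bound hk ht ht1 a))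

theorem fH_one {N k : ℕ} (hk : k ≤ N) (hN : 1 ≤ N) {t : ℝ} (ht : 0 < t) (ht1 : t ≤ 1)
    (a : X F N) (x : F) :
    ‖fderiv ℝ (fH t ht ht1 a) x‖ ≤ 2 * π * (2 ^ N * t ^ k * ‖a‖) := by
  have h := (reCLM_norm_iter (contDiff_ev (dil N t ht ht1 (hiX N t a))) hN x).trans
    (norm_iteratedFDeriv_ev_le _ hN x)
  rw [← norm_iteratedFDeriv_zero (𝕜 := ℝ) (f := fderiv ℝ (fH t ht ht1 a)),
    norm_iteratedFDeriv_fderiv]
  refine h.trans ?_
  rw [pow_one]
  exact mul_le_mul_of_nonneg_left (hi_bound hk ht ht1 a) (by positivity)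

theorem pow_two_pi_le {j K : ℕ} (h : j ≤ K) : (2 * π) ^ j ≤ (2 * π) ^ K :=
  pow_le_pow_right₀ (by linarith [Real.pi_gt_three]) h

theorem star_cutmul {N : ℕ} {η : F → ℝ} (hη : IsCut η) {e : X F N} (he : star e = e) :
    star (toX N (toS η hη.compact hη.smooth) * e) = toX N (toS η hη.compact hη.smooth) * e := by
  rw [star_mul, he, star_toX_toS, mul_comm]

/-- the zoom at the centre `0`, second order -/
theorem zoom2 {N : ℕ} (hN : 2 ≤ N) {η : F → ℝ} (hη : IsCut η) : ∃ C : ℝ, 1 ≤ C ∧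
    ∀ (a : X F N), star a = a → ∀ t : ℝ, 0 < t → t ≤ 1 → ∃ a' : X F N, star a' = a' ∧
      ‖a'‖ ≤ C * t ^ 2 * ‖a‖ ∧ ∀ x, ev a' x = ((η x * ((ev a (t • x)).re - (ev a 0).re
        - fderiv ℝ (fun y => (ev a y).re) 0 (t • x)) : ℝ) : ℂ) := by
  obtain ⟨K, C, hC0, hC⟩ := exists_cutX_bound (F := F) N hη
  set χ : X F N := toX N (toS η hη.compact hη.smooth) with hχ
  have hπ := Real.pi_pos
  refine ⟨1 + C * (4 * (2 * π) ^ (max K 2)) + ‖χ‖ * 2 ^ N + C * ((1 + 4 * π) * 2 ^ N),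
    ?_, fun a ha t ht ht1 => ?_⟩
  · have : 0 ≤ C * (4 * (2 * π) ^ (max K 2)) + ‖χ‖ * 2 ^ N + C * ((1 + 4 * π) * 2 ^ N) := by
      positivity
    linarith
  have hL := fL_smooth ht ht1 a
  have hw : ContDiff ℝ ∞ fun x => fL t ht ht1 a x - tay (fL t ht ht1 a) x :=
    hL.sub (tay_smooth _)
  have hT : ContDiff ℝ ∞ (tay (fH t ht ht1 a)) := tay_smooth _
  set e : X F N := dil N t ht ht1 (hiX N t a) with he
  have hes : star e = e := by rw [he, star_dil, star_hiX, ha]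
  refine ⟨cutX N hη (hw.contDiffOn (s := Metric.ball 0 2)) + χ * e
      - cutX N hη (hT.contDiffOn (s := Metric.ball 0 2)), ?_, ?_, fun x => ?_⟩
  · rw [star_sub, star_add, star_cutX, star_cutX, star_cutmul hη hes]
  · have h1 : ‖cutX N hη (hw.contDiffOn (s := Metric.ball 0 2))‖
        ≤ C * (4 * ((2 * π) ^ (max K 2) * (t ^ 2 * ‖a‖))) := by
      refine hC _ _ _ (by positivity) (rem_bound hL (by positivity) fun j h2 hj x => ?_)
      refine (fL_bound hN ht ht1 a j h2 x).trans ?_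
      exact mul_le_mul_of_nonneg_right (pow_two_pi_le hj) (by positivity)
    have h2 : ‖χ * e‖ ≤ ‖χ‖ * (2 ^ N * t ^ 2 * ‖a‖) :=
      (norm_mul_le _ _).trans (mul_le_mul_of_nonneg_left (hi_bound hN ht ht1 a) (norm_nonneg _))
    have h3 : ‖cutX N hη (hT.contDiffOn (s := Metric.ball 0 2))‖
        ≤ C * ((1 + 4 * π) * (2 ^ N * t ^ 2 * ‖a‖)) := by
      refine hC _ _ _ (by positivity) fun j _ x hx => (tay_bound _ j hx).trans ?_
      have h4 := fH_zero hN ht ht1 a 0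
      have h5 := fH_one hN (by omega) ht ht1 a 0
      linarith
    calc ‖cutX N hη (hw.contDiffOn (s := Metric.ball 0 2)) + χ * e
          - cutX N hη (hT.contDiffOn (s := Metric.ball 0 2))‖
        ≤ ‖cutX N hη (hw.contDiffOn (s := Metric.ball 0 2))‖ + ‖χ * e‖
          + ‖cutX N hη (hT.contDiffOn (s := Metric.ball 0 2))‖ :=
          (norm_sub_le _ _).trans (add_le_add (norm_add_le _ _) le_rfl)
      _ ≤ C * (4 * ((2 * π) ^ (max K 2) * (t ^ 2 * ‖a‖))) + ‖χ‖ * (2 ^ N * t ^ 2 * ‖a‖)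
          + C * ((1 + 4 * π) * (2 ^ N * t ^ 2 * ‖a‖)) := by gcongr
      _ = (C * (4 * (2 * π) ^ (max K 2)) + ‖χ‖ * 2 ^ N + C * ((1 + 4 * π) * 2 ^ N))
          * t ^ 2 * ‖a‖ := by ring
      _ ≤ _ := by
        have : 0 ≤ t ^ 2 * ‖a‖ := by positivity
        nlinarith
  · rw [ev_sub, ev_add, ev_mul, ev_cutX, ev_cutX, ev_toX, toS_apply]
    have h1 : ev e x = ((fH t ht ht1 a x : ℝ) : ℂ) := (ev_real hes x).symm
    rw [h1]
    have hg : Differentiable ℝ fun y => (ev a y).re :=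
      (Complex.reCLM.contDiff.comp ((contDiff_ev a).of_le (m := 1)
        (by exact_mod_cast (by omega : 1 ≤ N)))).differentiable (by simp)
    have hH1 : DifferentiableAt ℝ (fH t ht ht1 a) 0 :=
      ((fH_smooth ht ht1 a).of_le (m := 1) (by exact_mod_cast (by omega : 1 ≤ N))).differentiable
        (by simp) 0
    have hL1 : DifferentiableAt ℝ (fL t ht ht1 a) 0 := hL.differentiable (by simp) 0
    have h2 : fderiv ℝ (fL t ht ht1 a) 0 x + fderiv ℝ (fH t ht ht1 a) 0 x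
        = fderiv ℝ (fun y => (ev a y).re) 0 (t • x) := by
      have h3 : (fun y => fL t ht ht1 a y + fH t ht ht1 a y) = fun y => (ev a (t • y)).re :=
        funext fun y => fL_add_fH ht ht1 a y
      have h4 : fderiv ℝ (fun y => fL t ht ht1 a y + fH t ht ht1 a y) 0
          = fderiv ℝ (fL t ht ht1 a) 0 + fderiv ℝ (fH t ht ht1 a) 0 := fderiv_fun_add hL1 hH1
      rw [← add_apply, ← h4, h3]
      have h5 : HasFDerivAt (fun y : F => t • y) (t • ContinuousLinearMap.id ℝ F) 0 :=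
        (hasFDerivAt_id 0).const_smul t
      have h6 : HasFDerivAt (fun y => (ev a y).re) (fderiv ℝ (fun y => (ev a y).re) 0)
          (t • (0 : F)) := by
        rw [smul_zero]
        exact (hg 0).hasFDerivAt
      have h7 := (h6.comp (0 : F) h5).fderiv
      have h8 : fderiv ℝ (fun y => (ev a (t • y)).re) 0
          = (fderiv ℝ (fun y => (ev a y).re) 0).comp (t • ContinuousLinearMap.id ℝ F) := h7
      rw [h8]
      rfl
    have h9 := fL_add_fH ht ht1 a x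
    have h10 := fL_add_fH ht ht1 a 0
    rw [smul_zero] at h10
    rw [← h2, ← h9, ← h10]
    unfold tay
    push_cast
    ring

/-- the zoom at the centre `0`, first order -/
theorem zoom1 {N : ℕ} (hN : 1 ≤ N) {η : F → ℝ} (hη : IsCut η) : ∃ C : ℝ, 1 ≤ C ∧
    ∀ (a : X F N), star a = a → ∀ t : ℝ, 0 < t → t ≤ 1 → ∃ a' : X F N, star a' = a' ∧
      ‖a'‖ ≤ C * t * ‖a‖ ∧ ∀ x, ev a' x = ((η x * ((ev a (t • x)).re - (ev a 0).re) : ℝ) : ℂ) := by
  obtain ⟨K, C, hC0, hC⟩ := exists_cutX_bound (F := F) N hη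
  set χ : X F N := toX N (toS η hη.compact hη.smooth) with hχ
  have hχs : star χ = χ := star_toX_toS N _ _ _
  have hπ := Real.pi_pos
  refine ⟨1 + C * (4 * (2 * π) ^ (max K 1)) + ‖χ‖ * 2 ^ N + 2 ^ N * ‖χ‖,
    ?_, fun a ha t ht ht1 => ?_⟩
  · have : 0 ≤ C * (4 * (2 * π) ^ (max K 1)) + ‖χ‖ * 2 ^ N + 2 ^ N * ‖χ‖ := by
      positivity
    linarith
  have hL := fL_smooth ht ht1 a
  have hw : ContDiff ℝ ∞ fun x => fL t ht ht1 a x - fL t ht ht1 a 0 := hL.sub contDiff_const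
  set e : X F N := dil N t ht ht1 (hiX N t a) with he
  have hes : star e = e := by rw [he, star_dil, star_hiX, ha]
  have hA : 0 ≤ (2 * π) ^ (max K 1) * (t ^ 1 * ‖a‖) := by positivity
  have hb : ∀ j, 1 ≤ j → j ≤ max K 1 → ∀ x,
      ‖iteratedFDeriv ℝ j (fL t ht ht1 a) x‖ ≤ (2 * π) ^ (max K 1) * (t ^ 1 * ‖a‖) :=
    fun j h1 hj x => (fL_bound hN ht ht1 a j h1 x).trans
      (mul_le_mul_of_nonneg_right (pow_two_pi_le hj) (by positivity))
  refine ⟨cutX N hη (hw.contDiffOn (s := Metric.ball 0 2)) + χ * e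
      - ((fH t ht ht1 a 0 : ℝ) : ℂ) • χ, ?_, ?_, fun x => ?_⟩
  · rw [star_sub, star_add, star_cutX, star_cutmul hη hes, star_smul, hχs]
    simp only [RCLike.star_def, Complex.conj_ofReal]
    rfl
  · have h1 : ‖cutX N hη (hw.contDiffOn (s := Metric.ball 0 2))‖
        ≤ C * (4 * ((2 * π) ^ (max K 1) * (t ^ 1 * ‖a‖))) := by
      refine hC _ _ _ (by positivity) fun j hj x hx => ?_
      rw [mem_ball_zero_iff] at hx
      rcases j with _ | j
      · rw [norm_iteratedFDeriv_zero]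
        have h2 := Convex.norm_image_sub_le_of_norm_fderiv_le (𝕜 := ℝ) (f := fL t ht ht1 a)
          (C := (2 * π) ^ (max K 1) * (t ^ 1 * ‖a‖)) (s := Set.univ)
          (fun z _ => hL.differentiable (by simp) z) (fun z _ => by
            have := hb 1 le_rfl (le_max_right _ _) z
            rwa [← norm_iteratedFDeriv_fderiv, norm_iteratedFDeriv_zero] at this)
          convex_univ (Set.mem_univ 0) (Set.mem_univ x)
        rw [sub_zero] at h2
        refine h2.trans ?_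
        nlinarith
      · have h3 : (fun x => fL t ht ht1 a x - fL t ht ht1 a 0)
            = fun x => fL t ht ht1 a x + -(fL t ht ht1 a 0) := by
          funext y; ring
        rw [← norm_iteratedFDeriv_fderiv]
        have h4 : fderiv ℝ (fun x => fL t ht ht1 a x - fL t ht ht1 a 0)
            = fderiv ℝ (fL t ht ht1 a) := by
          funext y
          exact fderiv_sub_const _
        rw [h4, norm_iteratedFDeriv_fderiv]
        refine (hb (j + 1) (by omega) (hj.trans (le_max_left _ _)) x).trans ?_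
        linarith
    have h2 : ‖χ * e‖ ≤ ‖χ‖ * (2 ^ N * t ^ 1 * ‖a‖) :=
      (norm_mul_le _ _).trans (mul_le_mul_of_nonneg_left (hi_bound hN ht ht1 a) (norm_nonneg _))
    have h3 : ‖((fH t ht ht1 a 0 : ℝ) : ℂ) • χ‖ ≤ 2 ^ N * t ^ 1 * ‖a‖ * ‖χ‖ := by
      rw [norm_smul, Complex.norm_real]
      exact mul_le_mul_of_nonneg_right (fH_zero hN ht ht1 a 0) (norm_nonneg _)
    calc ‖cutX N hη (hw.contDiffOn (s := Metric.ball 0 2)) + χ * e
          - ((fH t ht ht1 a 0 : ℝ) : ℂ) • χ‖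
        ≤ ‖cutX N hη (hw.contDiffOn (s := Metric.ball 0 2))‖ + ‖χ * e‖
          + ‖((fH t ht ht1 a 0 : ℝ) : ℂ) • χ‖ :=
          (norm_sub_le _ _).trans (add_le_add (norm_add_le _ _) le_rfl)
      _ ≤ C * (4 * ((2 * π) ^ (max K 1) * (t ^ 1 * ‖a‖))) + ‖χ‖ * (2 ^ N * t ^ 1 * ‖a‖)
          + 2 ^ N * t ^ 1 * ‖a‖ * ‖χ‖ := by gcongr
      _ = (C * (4 * (2 * π) ^ (max K 1)) + ‖χ‖ * 2 ^ N + 2 ^ N * ‖χ‖)
          * t * ‖a‖ := by ring
      _ ≤ _ := by
        have : 0 ≤ t * ‖a‖ := by positivity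
        nlinarith
  · rw [ev_sub, ev_add, ev_mul, ev_smul, ev_cutX, ev_toX, toS_apply]
    have h1 : ev e x = ((fH t ht ht1 a x : ℝ) : ℂ) := (ev_real hes x).symm
    rw [h1]
    have h9 := fL_add_fH ht ht1 a x
    have h10 := fL_add_fH ht ht1 a 0
    rw [smul_zero] at h10
    rw [← h9, ← h10]
    push_cast
    ring

/-! ### an arbitrary centre -/

/-- the translation operator -/
def tw (N : ℕ) (z : F) : X F N →L[ℂ] X F N :=
  mlt (chr z) (continuous_chr z).measurable 1 (fun ξ => by rw [norm_chr])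

theorem norm_tw_le {N : ℕ} (z : F) (a : X F N) : ‖tw N z a‖ ≤ ‖a‖ := by
  have := norm_mlt_le (M := N) (N := N) (continuous_chr z).measurable
    (C := 1) (fun ξ => by rw [norm_chr]) zero_le_one a
  rwa [one_mul] at this

theorem ev_tw {N : ℕ} (z : F) (a : X F N) (x : F) : ev (tw N z a) x = ev a (z + x) := by
  unfold tw
  rw [ev_mlt, ev_eq]
  refine integral_congr_ae (Eventually.of_forall fun ξ => ?_)
  simp only
  rw [← mul_assoc]
  congr 1
  unfold chr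
  rw [inner_add_right, AddChar.map_add_eq_mul, Circle.coe_mul, mul_comm]

theorem star_tw {N : ℕ} (z : F) (a : X F N) : star (tw N z a) = tw N z (star a) := by
  refine mlt_star _ _ (fun ξ => ?_) a
  rw [← chr_neg_conj z ξ, Complex.conj_conj]

/-- the fixed cut-off, `= 1` on `‖x‖ ≤ 3/2` -/
def chi0 (x : F) : ℝ := Cto_161.ct (3 / 2) (7 / 4) x

theorem chi0_isCut : IsCut (chi0 : F → ℝ) :=
  Cto_161.ct_isCut (by norm_num) (by norm_num) (by norm_num)

theorem chi0_one {x : F} (hx : ‖x‖ ≤ 3 / 2) : chi0 x = 1 :=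
  Cto_161.ct_one (by norm_num) (by norm_num) hx

/-- **ZOOM of the Wiener algebra without loss, any centre** -/
theorem zoom (N : ℕ) {η : F → ℝ} (hη : IsCut η) : ∃ C : ℝ, 1 ≤ C ∧
    ∀ (z : F) (t : ℝ), 0 < t → t ≤ 1 → ∀ a : X F (N + 2), star a = a →
      (∃ a' : X F (N + 2), star a' = a' ∧ ‖a'‖ ≤ C * t ^ 2 * ‖a‖ ∧ ∀ x,
        ev a' x = ((η x * ((ev a (z + t • x)).re - (ev a z).re
          - fderiv ℝ (fun y => (ev a y).re) z (t • x)) : ℝ) : ℂ)) ∧
      ∃ a' : X F (N + 2), star a' = a' ∧ ‖a'‖ ≤ C * t * ‖a‖ ∧ ∀ x,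
        ev a' x = ((η x * ((ev a (z + t • x)).re - (ev a z).re) : ℝ) : ℂ) := by
  obtain ⟨C1, hC1, h1⟩ := zoom1 (F := F) (N := N + 2) (by omega) hη
  obtain ⟨C2, hC2, h2⟩ := zoom2 (F := F) (N := N + 2) (by omega) hη
  refine ⟨max C1 C2, hC1.trans (le_max_left _ _), fun z t ht ht1 a ha => ?_⟩
  have hs : star (tw (N + 2) z a) = tw (N + 2) z a := by rw [star_tw, ha]
  have hn := norm_tw_le z a
  constructor
  · obtain ⟨a', h3, h4, h5⟩ := h2 (tw (N + 2) z a) hs t ht ht1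
    refine ⟨a', h3, h4.trans ?_, fun x => ?_⟩
    · gcongr
      exact le_max_right _ _
    · rw [h5, ev_tw, ev_tw, add_zero]
      have h6 : (fun y => (ev (tw (N + 2) z a) y).re) = fun y => (ev a (z + y)).re := by
        funext y
        rw [ev_tw]
      have h7 : fderiv ℝ (fun y => (ev a (z + y)).re) 0 = fderiv ℝ (fun y => (ev a y).re) z := by
        have := fderiv_comp_add_left (𝕜 := ℝ) (f := fun y => (ev a y).re) (x := (0 : F)) z
        rw [add_zero] at this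
        exact this
      rw [h6, h7]
  · obtain ⟨a', h3, h4, h5⟩ := h1 (tw (N + 2) z a) hs t ht ht1
    refine ⟨a', h3, h4.trans ?_, fun x => ?_⟩
    · gcongr
      exact le_max_left _ _
    · rw [h5, ev_tw, ev_tw, add_zero]

end Crest.Agent.R234.Zm_161
end
end

-- ▼ part R234/Zm4_161

/-!
# Row 234 (helper161): the zoom of synthesised maps `F → V`
-/

set_option autoImplicit false
set_option linter.unusedSectionVars false

open MeasureTheory Complex Filter Real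
open scoped ContDiff FourierTransform Topology InnerProductSpace SchwartzMap

noncomputable section

namespace Crest.Agent.R234.Zm_161

open Crest.Agent.R086.Wie Crest.Agent.R234.Mx1_397 Crest.Agent.R234.Mx2_397
open Crest.Agent.R234.Mx3_397 Crest.Agent.R234.Mx5_397

variable {F V : Type} [NormedAddCommGroup F] [InnerProductSpace ℝ F] [FiniteDimensional ℝ F]
  [MeasurableSpace F] [BorelSpace F]
  [NormedAddCommGroup V] [InnerProductSpace ℝ V] [FiniteDimensional ℝ V]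
variable {κ : Type*} [Fintype κ]

theorem inner_fderiv_syn (b : OrthonormalBasis κ ℝ V) {N : ℕ} (a : κ → X F (N + 1)) (z x : F)
    (α : κ) : ⟪b α, fderiv ℝ (syn b a) z x⟫_ℝ = fderiv ℝ (fun y => (ev (a α) y).re) z x := by
  rw [fderiv_syn, inner_syn]
  obtain ⟨L, hL, hLv⟩ := hasFDerivAt_ev (a α) z
  have h1 : HasFDerivAt (fun y => (ev (a α) y).re) (Complex.reCLM ∘L L) z :=
    Complex.reCLM.hasFDerivAt.comp z hL
  rw [h1.fderiv, ContinuousLinearMap.comp_apply, hLv]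
  rfl

theorem zoomV (N : ℕ) (b : OrthonormalBasis κ ℝ V) {η : F → ℝ} (hη : IsCut η) :
    ∃ C : ℝ, 1 ≤ C ∧ ∀ (z : F) (t : ℝ), 0 < t → t ≤ 1 → ∀ a : κ → X F (N + 2),
      (∀ α, star (a α) = a α) →
      (∃ a' : κ → X F (N + 2), (∀ α, star (a' α) = a' α) ∧ ‖a'‖ ≤ C * t * ‖a‖ ∧ ∀ x,
        syn b a' x = η x • t⁻¹ • (syn b a (z + t • x) - syn b a z
          - fderiv ℝ (syn b a) z (t • x))) ∧
      ∃ a' : κ → X F (N + 2), (∀ α, star (a' α) = a' α) ∧ ‖a'‖ ≤ C * ‖a‖ ∧ ∀ x,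
        syn b a' x = η x • t⁻¹ • (syn b a (z + t • x) - syn b a z) := by
  obtain ⟨C, hC1, hC⟩ := zoom (F := F) N hη
  refine ⟨C, hC1, fun z t ht ht1 a ha => ?_⟩
  have hti : ‖((t⁻¹ : ℝ) : ℂ)‖ = t⁻¹ := by
    rw [Complex.norm_real, Real.norm_of_nonneg (by positivity)]
  have hst : ∀ c : X F (N + 2), star c = c →
      star (((t⁻¹ : ℝ) : ℂ) • c) = ((t⁻¹ : ℝ) : ℂ) • c := fun c hc => by
    rw [star_smul, hc]
    simp only [RCLike.star_def, Complex.conj_ofReal]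
  constructor
  · choose a' h1 h2 h3 using fun α => (hC z t ht ht1 (a α) (ha α)).1
    refine ⟨fun α => ((t⁻¹ : ℝ) : ℂ) • a' α, fun α => hst _ (h1 α), ?_, fun x => ?_⟩
    · rw [pi_norm_le_iff_of_nonneg (by positivity)]
      intro α
      rw [norm_smul, hti]
      calc t⁻¹ * ‖a' α‖ ≤ t⁻¹ * (C * t ^ 2 * ‖a‖) := by
            gcongr
            refine (h2 α).trans ?_
            gcongr
            exact norm_le_pi_norm a α
        _ = C * t * ‖a‖ := by field_simp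
    · refine onb_ext b fun α => ?_
      rw [inner_syn, inner_smul_right, inner_smul_right, inner_sub_right, inner_sub_right,
        inner_syn, inner_syn, inner_fderiv_syn, ev_smul, h3, ← Complex.ofReal_mul,
        Complex.ofReal_re]
      ring
  · choose a' h1 h2 h3 using fun α => (hC z t ht ht1 (a α) (ha α)).2
    refine ⟨fun α => ((t⁻¹ : ℝ) : ℂ) • a' α, fun α => hst _ (h1 α), ?_, fun x => ?_⟩
    · rw [pi_norm_le_iff_of_nonneg (by positivity)]
      intro α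
      rw [norm_smul, hti]
      calc t⁻¹ * ‖a' α‖ ≤ t⁻¹ * (C * t * ‖a‖) := by
            gcongr
            refine (h2 α).trans ?_
            gcongr
            exact norm_le_pi_norm a α
        _ = C * ‖a‖ := by field_simp
    · refine onb_ext b fun α => ?_
      rw [inner_syn, inner_smul_right, inner_smul_right, inner_sub_right,
        inner_syn, inner_syn, ev_smul, h3, ← Complex.ofReal_mul,
        Complex.ofReal_re]
      ring

end Crest.Agent.R234.Zm_161
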